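import Vale.Agent.Lib.P154.PChain.BC.R8_5

set_option linter.all false

namespace Vale.Agent.Lib.P154.PChain.BC.S9

open Vale.Agent.Lib.P154.Chain

noncomputable def pc0 : PT := (PT.nd (nat_lit 15125916) (PT.nd (nat_lit 14801436) (PT.nd (nat_lit 14639040) (PT.nd (nat_lit 14476722) (PT.nd (nat_lit 6117306) (PT.nd (nat_lit 6036186) PT.nil (PT.lf (nat_lit 76) (nat_lit 3) (nat_lit 1) (nat_lit 1) (nat_lit 353) (nat_lit 74) (nat_lit 353))) (PT.nd (nat_lit 78) (PT.lf (nat_lit 152) (nat_lit 6) (nat_lit 2) (nat_lit 3) (nat_lit 352) (nat_lit 75) (nat_lit 353)) (PT.lf (nat_lit 152) (nat_lit 6) (nat_lit 2) (nat_lit 1) (nat_lit 353) (nat_lit 75) (nat_lit 352)))) (PT.nd (nat_lit 81198) (PT.nd (nat_lit 81120) (PT.lf (nat_lit 5700) (nat_lit 3) (nat_lit 75) (nat_lit 1) (nat_lit 301) (nat_lit 178) (nat_lit 301)) (PT.lf (nat_lit 5928) (nat_lit 6) (nat_lit 78) (nat_lit 3) (nat_lit 300) (nat_lit 179) (nat_lit 301))) (PT.nd (nat_lit 81042) (PT.lf (nat_lit 5928) (nat_lit 6) (nat_lit 78) (nat_lit 1) (nat_lit 301) (nat_lit 179)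 (nat_lit 300)) (PT.lf (nat_lit 6156) (nat_lit 6) (nat_lit 81) (nat_lit 3) (nat_lit 299) (nat_lit 180) (nat_lit 301))))) (PT.nd (nat_lit 81198) (PT.nd (nat_lit 81042) (PT.nd (nat_lit 78) (PT.lf (nat_lit 6232) (nat_lit 3) (nat_lit 82) (nat_lit 1) (nat_lit 300) (nat_lit 180) (nat_lit 300)) (PT.lf (nat_lit 6156) (nat_lit 6) (nat_lit 81) (nat_lit 1) (nat_lit 301) (nat_lit 180) (nat_lit 299))) (PT.nd (nat_lit 78) (PT.lf (nat_lit 6384) (nat_lit 6) (nat_lit 84) (nat_lit 3) (nat_lit 298) (nat_lit 181) (nat_lit 301)) (PT.lf (nat_lit 6460) (nat_lit 6) (nat_lit 85) (nat_lit 3) (nat_lit 299) (nat_lit 181) (nat_lit 300)))) (PT.nd (nat_lit 81042) (PT.nd (nat_lit 78) (PT.lf (nat_lit 6460) (nat_lit 6) (nat_lit 85) (nat_lit 1) (nat_lit 300) (nat_lit 181) (nat_lit 299)) (PT.lf (nat_lit 6384) (nat_lit 6) (nat_lit 84) (nat_lit 1) (nat_lit 301) (nat_lit 181) (nat_lit 298))) (PT.nd (nat_lit 78) (PT.lf (nat_lit 6688) (nat_lit 6) (nat_lit 88) (nat_lit 3) (nat_lit 298) (nat_lit 182) (nat_lit 300)) (PT.lf (nat_lit 6764) (nat_lit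 3) (nat_lit 89) (nat_lit 1) (nat_lit 299) (nat_lit 182) (nat_lit 299)))))) (PT.nd (nat_lit 162240) (PT.nd (nat_lit 81120) (PT.nd (nat_lit 80964) (PT.lf (nat_lit 6688) (nat_lit 6) (nat_lit 88) (nat_lit 1) (nat_lit 300) (nat_lit 182) (nat_lit 298)) (PT.nd (nat_lit 78) (PT.lf (nat_lit 6916) (nat_lit 6) (nat_lit 91) (nat_lit 3) (nat_lit 297) (nat_lit 183) (nat_lit 300)) (PT.lf (nat_lit 6992) (nat_lit 6) (nat_lit 92) (nat_lit 3) (nat_lit 298) (nat_lit 183) (nat_lit 299)))) (PT.nd (nat_lit 80964) (PT.nd (nat_lit 78) (PT.lf (nat_lit 6992) (nat_lit 6) (nat_lit 92) (nat_lit 1) (nat_lit 299) (nat_lit 183) (nat_lit 298)) (PT.lf (nat_lit 6916) (nat_lit 6) (nat_lit 91) (nat_lit 1) (nat_lit 300) (nat_lit 183) (nat_lit 297))) (PT.nd (nat_lit 78) (PT.lf (nat_lit 7144) (nat_lit 6) (nat_lit 94) (nat_lit 3) (nat_lit 296) (nat_lit 184) (nat_lit 300)) (PT.lf (nat_lit 7220) (nat_lit 6) (nat_lit 95) (nat_lit 3) (nat_lit 297) (nat_lit 184) (nat_lit 299))))) (PT.nd (nat_lit 81120) (PT.nd (nat_lit 156) (PT.nd (nat_lit 78) (PT.lf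 (nat_lit 7296) (nat_lit 3) (nat_lit 96) (nat_lit 1) (nat_lit 298) (nat_lit 184) (nat_lit 298)) (PT.lf (nat_lit 7220) (nat_lit 6) (nat_lit 95) (nat_lit 1) (nat_lit 299) (nat_lit 184) (nat_lit 297))) (PT.nd (nat_lit 80886) (PT.lf (nat_lit 7144) (nat_lit 6) (nat_lit 94) (nat_lit 1) (nat_lit 300) (nat_lit 184) (nat_lit 296)) (PT.lf (nat_lit 7524) (nat_lit 6) (nat_lit 99) (nat_lit 3) (nat_lit 296) (nat_lit 185) (nat_lit 299)))) (PT.nd (nat_lit 156) (PT.nd (nat_lit 78) (PT.lf (nat_lit 7600) (nat_lit 6) (nat_lit 100) (nat_lit 3) (nat_lit 297) (nat_lit 185) (nat_lit 298)) (PT.lf (nat_lit 7600) (nat_lit 6) (nat_lit 100) (nat_lit 1) (nat_lit 298) (nat_lit 185) (nat_lit 297))) (PT.nd (nat_lit 80886) (PT.lf (nat_lit 7524) (nat_lit 6) (nat_lit 99) (nat_lit 1) (nat_lit 299) (nat_lit 185) (nat_lit 296)) (PT.lf (nat_lit 7752) (nat_lit 6) (nat_lit 102) (nat_lit 3) (nat_lit 295) (nat_lit 186) (nat_lit 299))))))) (PT.nd (nat_lit 243516) (PT.nd (nat_lit 81354) (PT.nd (nat_lit 234) (PT.nd (nat_lit 78) (PT.lf (nat_lit 7828)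 (nat_lit 6) (nat_lit 103) (nat_lit 3) (nat_lit 296) (nat_lit 186) (nat_lit 298)) (PT.nd (nat_lit 78) (PT.lf (nat_lit 7904) (nat_lit 3) (nat_lit 104) (nat_lit 1) (nat_lit 297) (nat_lit 186) (nat_lit 297)) (PT.lf (nat_lit 7828) (nat_lit 6) (nat_lit 103) (nat_lit 1) (nat_lit 298) (nat_lit 186) (nat_lit 296)))) (PT.nd (nat_lit 80964) (PT.nd (nat_lit 80886) (PT.lf (nat_lit 7752) (nat_lit 6) (nat_lit 102) (nat_lit 1) (nat_lit 299) (nat_lit 186) (nat_lit 295)) (PT.lf (nat_lit 8132) (nat_lit 6) (nat_lit 107) (nat_lit 3) (nat_lit 295) (nat_lit 187) (nat_lit 298))) (PT.nd (nat_lit 78) (PT.lf (nat_lit 8208) (nat_lit 6) (nat_lit 108) (nat_lit 3) (nat_lit 296) (nat_lit 187) (nat_lit 297)) (PT.lf (nat_lit 8208) (nat_lit 6) (nat_lit 108) (nat_lit 1) (nat_lit 297) (nat_lit 187) (nat_lit 296))))) (PT.nd (nat_lit 81120) (PT.nd (nat_lit 80964) (PT.nd (nat_lit 80886) (PT.lf (nat_lit 8132) (nat_lit 6) (nat_lit 107) (nat_lit 1) (nat_lit 298) (nat_lit 187) (nat_lit 295)) (PT.lf (nat_lit 8360) (nat_lit 6) (nat_lit 110) (nat_lit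 3) (nat_lit 294) (nat_lit 188) (nat_lit 298))) (PT.nd (nat_lit 78) (PT.lf (nat_lit 8436) (nat_lit 6) (nat_lit 111) (nat_lit 3) (nat_lit 295) (nat_lit 188) (nat_lit 297)) (PT.lf (nat_lit 8512) (nat_lit 3) (nat_lit 112) (nat_lit 1) (nat_lit 296) (nat_lit 188) (nat_lit 296)))) (PT.nd (nat_lit 80886) (PT.nd (nat_lit 78) (PT.lf (nat_lit 8436) (nat_lit 6) (nat_lit 111) (nat_lit 1) (nat_lit 297) (nat_lit 188) (nat_lit 295)) (PT.lf (nat_lit 8360) (nat_lit 6) (nat_lit 110) (nat_lit 1) (nat_lit 298) (nat_lit 188) (nat_lit 294))) (PT.nd (nat_lit 78) (PT.lf (nat_lit 8664) (nat_lit 6) (nat_lit 114) (nat_lit 3) (nat_lit 293) (nat_lit 189) (nat_lit 298)) (PT.lf (nat_lit 8740) (nat_lit 6) (nat_lit 115) (nat_lit 3) (nat_lit 294) (nat_lit 189) (nat_lit 297)))))) (PT.nd (nat_lit 81354) (PT.nd (nat_lit 81042) (PT.nd (nat_lit 156) (PT.nd (nat_lit 78) (PT.lf (nat_lit 8816) (nat_lit 6) (nat_lit 116) (nat_lit 3) (nat_lit 295) (nat_lit 189) (nat_lit 296)) (PT.lf (nat_lit 8816) (nat_lit 6) (nat_lit 116) (nat_lit 1) (nat_lit 296)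 (nat_lit 189) (nat_lit 295))) (PT.nd (nat_lit 78) (PT.lf (nat_lit 8740) (nat_lit 6) (nat_lit 115) (nat_lit 1) (nat_lit 297) (nat_lit 189) (nat_lit 294)) (PT.lf (nat_lit 8664) (nat_lit 6) (nat_lit 114) (nat_lit 1) (nat_lit 298) (nat_lit 189) (nat_lit 293)))) (PT.nd (nat_lit 156) (PT.nd (nat_lit 78) (PT.lf (nat_lit 8968) (nat_lit 6) (nat_lit 118) (nat_lit 3) (nat_lit 293) (nat_lit 190) (nat_lit 297)) (PT.lf (nat_lit 9044) (nat_lit 6) (nat_lit 119) (nat_lit 3) (nat_lit 294) (nat_lit 190) (nat_lit 296))) (PT.nd (nat_lit 78) (PT.lf (nat_lit 9120) (nat_lit 3) (nat_lit 120) (nat_lit 1) (nat_lit 295) (nat_lit 190) (nat_lit 295)) (PT.lf (nat_lit 9044) (nat_lit 6) (nat_lit 119) (nat_lit 1) (nat_lit 296) (nat_lit 190) (nat_lit 294))))) (PT.nd (nat_lit 81042) (PT.nd (nat_lit 80886) (PT.nd (nat_lit 80808) (PT.lf (nat_lit 8968) (nat_lit 6) (nat_lit 118) (nat_lit 1) (nat_lit 297) (nat_lit 190) (nat_lit 293)) (PT.lf (nat_lit 9272) (nat_lit 6) (nat_lit 122) (nat_lit 3) (nat_lit 292) (nat_lit 191) (nat_lit 297))) (PT.nd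 (nat_lit 78) (PT.lf (nat_lit 9348) (nat_lit 6) (nat_lit 123) (nat_lit 3) (nat_lit 293) (nat_lit 191) (nat_lit 296)) (PT.lf (nat_lit 9424) (nat_lit 6) (nat_lit 124) (nat_lit 3) (nat_lit 294) (nat_lit 191) (nat_lit 295)))) (PT.nd (nat_lit 156) (PT.nd (nat_lit 78) (PT.lf (nat_lit 9424) (nat_lit 6) (nat_lit 124) (nat_lit 1) (nat_lit 295) (nat_lit 191) (nat_lit 294)) (PT.lf (nat_lit 9348) (nat_lit 6) (nat_lit 123) (nat_lit 1) (nat_lit 296) (nat_lit 191) (nat_lit 293))) (PT.nd (nat_lit 80730) (PT.lf (nat_lit 9272) (nat_lit 6) (nat_lit 122) (nat_lit 1) (nat_lit 297) (nat_lit 191) (nat_lit 292)) (PT.lf (nat_lit 9576) (nat_lit 6) (nat_lit 126) (nat_lit 3) (nat_lit 291) (nat_lit 192) (nat_lit 297))))))))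
noncomputable def pc1 : PT := (PT.nd (nat_lit 324792) (PT.nd (nat_lit 162474) (PT.nd (nat_lit 81198) (PT.nd (nat_lit 234) (PT.nd (nat_lit 78) (PT.lf (nat_lit 9652) (nat_lit 6) (nat_lit 127) (nat_lit 3) (nat_lit 292) (nat_lit 192) (nat_lit 296)) (PT.nd (nat_lit 78) (PT.lf (nat_lit 9728) (nat_lit 6) (nat_lit 128) (nat_lit 3) (nat_lit 293) (nat_lit 192) (nat_lit 295)) (PT.lf (nat_lit 9804) (nat_lit 3) (nat_lit 129) (nat_lit 1) (nat_lit 294) (nat_lit 192) (nat_lit 294)))) (PT.nd (nat_lit 156) (PT.nd (nat_lit 78) (PT.lf (nat_lit 9728) (nat_lit 6) (nat_lit 128) (nat_lit 1) (nat_lit 295) (nat_lit 192) (nat_lit 293)) (PT.lf (nat_lit 9652) (nat_lit 6) (nat_lit 127) (nat_lit 1) (nat_lit 296) (nat_lit 192) (nat_lit 292))) (PT.nd (nat_lit 80730) (PT.lf (nat_lit 9576) (nat_lit 6) (nat_lit 126) (nat_lit 1) (nat_lit 297) (nat_lit 192) (nat_lit 291)) (PT.lf (nat_lit 9956) (nat_lit 6) (nat_lit 131) (nat_lit 3) (nat_lit 291) (nat_lit 193) (nat_lit 296))))) (PT.nd (nat_lit 312) (PT.nd (nat_lit 156) (PT.nd (nat_lit 78) (PT.lf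 (nat_lit 10032) (nat_lit 6) (nat_lit 132) (nat_lit 3) (nat_lit 292) (nat_lit 193) (nat_lit 295)) (PT.lf (nat_lit 10108) (nat_lit 6) (nat_lit 133) (nat_lit 3) (nat_lit 293) (nat_lit 193) (nat_lit 294))) (PT.nd (nat_lit 78) (PT.lf (nat_lit 10108) (nat_lit 6) (nat_lit 133) (nat_lit 1) (nat_lit 294) (nat_lit 193) (nat_lit 293)) (PT.lf (nat_lit 10032) (nat_lit 6) (nat_lit 132) (nat_lit 1) (nat_lit 295) (nat_lit 193) (nat_lit 292)))) (PT.nd (nat_lit 80808) (PT.nd (nat_lit 80730) (PT.lf (nat_lit 9956) (nat_lit 6) (nat_lit 131) (nat_lit 1) (nat_lit 296) (nat_lit 193) (nat_lit 291)) (PT.lf (nat_lit 10260) (nat_lit 6) (nat_lit 135) (nat_lit 3) (nat_lit 290) (nat_lit 194) (nat_lit 296))) (PT.nd (nat_lit 78) (PT.lf (nat_lit 10336) (nat_lit 6) (nat_lit 136) (nat_lit 3) (nat_lit 291) (nat_lit 194) (nat_lit 295)) (PT.lf (nat_lit 10412) (nat_lit 6) (nat_lit 137) (nat_lit 3) (nat_lit 292) (nat_lit 194) (nat_lit 294)))))) (PT.nd (nat_lit 81198) (PT.nd (nat_lit 80886) (PT.nd (nat_lit 156) (PT.nd (nat_lit 78) (PT.lf (nat_lit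 10488) (nat_lit 3) (nat_lit 138) (nat_lit 1) (nat_lit 293) (nat_lit 194) (nat_lit 293)) (PT.lf (nat_lit 10412) (nat_lit 6) (nat_lit 137) (nat_lit 1) (nat_lit 294) (nat_lit 194) (nat_lit 292))) (PT.nd (nat_lit 78) (PT.lf (nat_lit 10336) (nat_lit 6) (nat_lit 136) (nat_lit 1) (nat_lit 295) (nat_lit 194) (nat_lit 291)) (PT.lf (nat_lit 10260) (nat_lit 6) (nat_lit 135) (nat_lit 1) (nat_lit 296) (nat_lit 194) (nat_lit 290)))) (PT.nd (nat_lit 156) (PT.nd (nat_lit 78) (PT.lf (nat_lit 10640) (nat_lit 6) (nat_lit 140) (nat_lit 3) (nat_lit 289) (nat_lit 195) (nat_lit 296)) (PT.lf (nat_lit 10716) (nat_lit 6) (nat_lit 141) (nat_lit 3) (nat_lit 290) (nat_lit 195) (nat_lit 295))) (PT.nd (nat_lit 78) (PT.lf (nat_lit 10792) (nat_lit 6) (nat_lit 142) (nat_lit 3) (nat_lit 291) (nat_lit 195) (nat_lit 294)) (PT.lf (nat_lit 10868) (nat_lit 6) (nat_lit 143) (nat_lit 3) (nat_lit 292) (nat_lit 195) (nat_lit 293))))) (PT.nd (nat_lit 80808) (PT.nd (nat_lit 156) (PT.nd (nat_lit 78) (PT.lf (nat_lit 10868) (nat_lit 6) (nat_lit 143) (nat_lit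 1) (nat_lit 293) (nat_lit 195) (nat_lit 292)) (PT.lf (nat_lit 10792) (nat_lit 6) (nat_lit 142) (nat_lit 1) (nat_lit 294) (nat_lit 195) (nat_lit 291))) (PT.nd (nat_lit 78) (PT.lf (nat_lit 10716) (nat_lit 6) (nat_lit 141) (nat_lit 1) (nat_lit 295) (nat_lit 195) (nat_lit 290)) (PT.lf (nat_lit 10640) (nat_lit 6) (nat_lit 140) (nat_lit 1) (nat_lit 296) (nat_lit 195) (nat_lit 289)))) (PT.nd (nat_lit 156) (PT.nd (nat_lit 78) (PT.lf (nat_lit 10944) (nat_lit 6) (nat_lit 144) (nat_lit 3) (nat_lit 288) (nat_lit 196) (nat_lit 296)) (PT.lf (nat_lit 11020) (nat_lit 6) (nat_lit 145) (nat_lit 3) (nat_lit 289) (nat_lit 196) (nat_lit 295))) (PT.nd (nat_lit 78) (PT.lf (nat_lit 11096) (nat_lit 6) (nat_lit 146) (nat_lit 3) (nat_lit 290) (nat_lit 196) (nat_lit 294)) (PT.lf (nat_lit 11172) (nat_lit 6) (nat_lit 147) (nat_lit 3) (nat_lit 291) (nat_lit 196) (nat_lit 293))))))) (PT.nd (nat_lit 162006) (PT.nd (nat_lit 80964) (PT.nd (nat_lit 234) (PT.nd (nat_lit 78) (PT.lf (nat_lit 11248) (nat_lit 3) (nat_lit 148) (nat_lit 1) (nat_lit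 292) (nat_lit 196) (nat_lit 292)) (PT.nd (nat_lit 78) (PT.lf (nat_lit 11172) (nat_lit 6) (nat_lit 147) (nat_lit 1) (nat_lit 293) (nat_lit 196) (nat_lit 291)) (PT.lf (nat_lit 11096) (nat_lit 6) (nat_lit 146) (nat_lit 1) (nat_lit 294) (nat_lit 196) (nat_lit 290)))) (PT.nd (nat_lit 80574) (PT.nd (nat_lit 78) (PT.lf (nat_lit 11020) (nat_lit 6) (nat_lit 145) (nat_lit 1) (nat_lit 295) (nat_lit 196) (nat_lit 289)) (PT.lf (nat_lit 10944) (nat_lit 6) (nat_lit 144) (nat_lit 1) (nat_lit 296) (nat_lit 196) (nat_lit 288))) (PT.nd (nat_lit 78) (PT.lf (nat_lit 11324) (nat_lit 6) (nat_lit 149) (nat_lit 3) (nat_lit 287) (nat_lit 197) (nat_lit 296)) (PT.lf (nat_lit 11400) (nat_lit 6) (nat_lit 150) (nat_lit 3) (nat_lit 288) (nat_lit 197) (nat_lit 295))))) (PT.nd (nat_lit 312) (PT.nd (nat_lit 156) (PT.nd (nat_lit 78) (PT.lf (nat_lit 11476) (nat_lit 6) (nat_lit 151) (nat_lit 3) (nat_lit 289) (nat_lit 197) (nat_lit 294)) (PT.lf (nat_lit 11552) (nat_lit 6) (nat_lit 152) (nat_lit 3) (nat_lit 290) (nat_lit 197) (nat_lit 293)))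 (PT.nd (nat_lit 78) (PT.lf (nat_lit 11628) (nat_lit 6) (nat_lit 153) (nat_lit 3) (nat_lit 291) (nat_lit 197) (nat_lit 292)) (PT.lf (nat_lit 11628) (nat_lit 6) (nat_lit 153) (nat_lit 1) (nat_lit 292) (nat_lit 197) (nat_lit 291)))) (PT.nd (nat_lit 156) (PT.nd (nat_lit 78) (PT.lf (nat_lit 11552) (nat_lit 6) (nat_lit 152) (nat_lit 1) (nat_lit 293) (nat_lit 197) (nat_lit 290)) (PT.lf (nat_lit 11476) (nat_lit 6) (nat_lit 151) (nat_lit 1) (nat_lit 294) (nat_lit 197) (nat_lit 289))) (PT.nd (nat_lit 78) (PT.lf (nat_lit 11400) (nat_lit 6) (nat_lit 150) (nat_lit 1) (nat_lit 295) (nat_lit 197) (nat_lit 288)) (PT.lf (nat_lit 11324) (nat_lit 6) (nat_lit 149) (nat_lit 1) (nat_lit 296) (nat_lit 197) (nat_lit 287)))))) (PT.nd (nat_lit 624) (PT.nd (nat_lit 312) (PT.nd (nat_lit 156) (PT.nd (nat_lit 78) (PT.lf (nat_lit 11704) (nat_lit 6) (nat_lit 154) (nat_lit 3) (nat_lit 287) (nat_lit 198) (nat_lit 295)) (PT.lf (nat_lit 11780) (nat_lit 6) (nat_lit 155) (nat_lit 3) (nat_lit 288) (nat_lit 198) (nat_lit 294))) (PT.nd (nat_lit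 78) (PT.lf (nat_lit 11856) (nat_lit 6) (nat_lit 156) (nat_lit 3) (nat_lit 289) (nat_lit 198) (nat_lit 293)) (PT.lf (nat_lit 11932) (nat_lit 6) (nat_lit 157) (nat_lit 3) (nat_lit 290) (nat_lit 198) (nat_lit 292)))) (PT.nd (nat_lit 156) (PT.nd (nat_lit 78) (PT.lf (nat_lit 12008) (nat_lit 3) (nat_lit 158) (nat_lit 1) (nat_lit 291) (nat_lit 198) (nat_lit 291)) (PT.lf (nat_lit 11932) (nat_lit 6) (nat_lit 157) (nat_lit 1) (nat_lit 292) (nat_lit 198) (nat_lit 290))) (PT.nd (nat_lit 78) (PT.lf (nat_lit 11856) (nat_lit 6) (nat_lit 156) (nat_lit 1) (nat_lit 293) (nat_lit 198) (nat_lit 289)) (PT.lf (nat_lit 11780) (nat_lit 6) (nat_lit 155) (nat_lit 1) (nat_lit 294) (nat_lit 198) (nat_lit 288))))) (PT.nd (nat_lit 80730) (PT.nd (nat_lit 80574) (PT.nd (nat_lit 80496) (PT.lf (nat_lit 11704) (nat_lit 6) (nat_lit 154) (nat_lit 1) (nat_lit 295) (nat_lit 198) (nat_lit 287)) (PT.lf (nat_lit 12084) (nat_lit 6) (nat_lit 159) (nat_lit 3) (nat_lit 286) (nat_lit 199) (nat_lit 295))) (PT.nd (nat_lit 78) (PT.lf (nat_lit 12160) (nat_lit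 6) (nat_lit 160) (nat_lit 3) (nat_lit 287) (nat_lit 199) (nat_lit 294)) (PT.lf (nat_lit 12236) (nat_lit 6) (nat_lit 161) (nat_lit 3) (nat_lit 288) (nat_lit 199) (nat_lit 293)))) (PT.nd (nat_lit 156) (PT.nd (nat_lit 78) (PT.lf (nat_lit 12312) (nat_lit 6) (nat_lit 162) (nat_lit 3) (nat_lit 289) (nat_lit 199) (nat_lit 292)) (PT.lf (nat_lit 12388) (nat_lit 6) (nat_lit 163) (nat_lit 3) (nat_lit 290) (nat_lit 199) (nat_lit 291))) (PT.nd (nat_lit 78) (PT.lf (nat_lit 12388) (nat_lit 6) (nat_lit 163) (nat_lit 1) (nat_lit 291) (nat_lit 199) (nat_lit 290)) (PT.lf (nat_lit 12312) (nat_lit 6) (nat_lit 162) (nat_lit 1) (nat_lit 292) (nat_lit 199) (nat_lit 289))))))))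
noncomputable def pc2 : PT := (PT.nd (nat_lit 243594) (PT.nd (nat_lit 162006) (PT.nd (nat_lit 80964) (PT.nd (nat_lit 80652) (PT.nd (nat_lit 78) (PT.lf (nat_lit 12236) (nat_lit 6) (nat_lit 161) (nat_lit 1) (nat_lit 293) (nat_lit 199) (nat_lit 288)) (PT.nd (nat_lit 78) (PT.lf (nat_lit 12160) (nat_lit 6) (nat_lit 160) (nat_lit 1) (nat_lit 294) (nat_lit 199) (nat_lit 287)) (PT.lf (nat_lit 12084) (nat_lit 6) (nat_lit 159) (nat_lit 1) (nat_lit 295) (nat_lit 199) (nat_lit 286)))) (PT.nd (nat_lit 156) (PT.nd (nat_lit 78) (PT.lf (nat_lit 12540) (nat_lit 6) (nat_lit 165) (nat_lit 3) (nat_lit 286) (nat_lit 200) (nat_lit 294)) (PT.lf (nat_lit 12616) (nat_lit 6) (nat_lit 166) (nat_lit 3) (nat_lit 287) (nat_lit 200) (nat_lit 293))) (PT.nd (nat_lit 78) (PT.lf (nat_lit 12692) (nat_lit 6) (nat_lit 167) (nat_lit 3) (nat_lit 288) (nat_lit 200) (nat_lit 292)) (PT.lf (nat_lit 12768) (nat_lit 6) (nat_lit 168) (nat_lit 3) (nat_lit 289) (nat_lit 200) (nat_lit 291))))) (PT.nd (nat_lit 312) (PT.nd (nat_lit 156) (PT.nd (nat_lit 78)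 (PT.lf (nat_lit 12844) (nat_lit 3) (nat_lit 169) (nat_lit 1) (nat_lit 290) (nat_lit 200) (nat_lit 290)) (PT.lf (nat_lit 12768) (nat_lit 6) (nat_lit 168) (nat_lit 1) (nat_lit 291) (nat_lit 200) (nat_lit 289))) (PT.nd (nat_lit 78) (PT.lf (nat_lit 12692) (nat_lit 6) (nat_lit 167) (nat_lit 1) (nat_lit 292) (nat_lit 200) (nat_lit 288)) (PT.lf (nat_lit 12616) (nat_lit 6) (nat_lit 166) (nat_lit 1) (nat_lit 293) (nat_lit 200) (nat_lit 287)))) (PT.nd (nat_lit 80574) (PT.nd (nat_lit 80496) (PT.lf (nat_lit 12540) (nat_lit 6) (nat_lit 165) (nat_lit 1) (nat_lit 294) (nat_lit 200) (nat_lit 286)) (PT.lf (nat_lit 12920) (nat_lit 6) (nat_lit 170) (nat_lit 3) (nat_lit 285) (nat_lit 201) (nat_lit 294))) (PT.nd (nat_lit 78) (PT.lf (nat_lit 12996) (nat_lit 6) (nat_lit 171) (nat_lit 3) (nat_lit 286) (nat_lit 201) (nat_lit 293)) (PT.lf (nat_lit 13072) (nat_lit 6) (nat_lit 172) (nat_lit 3) (nat_lit 287) (nat_lit 201) (nat_lit 292)))))) (PT.nd (nat_lit 80964) (PT.nd (nat_lit 312) (PT.nd (nat_lit 156) (PT.nd (nat_lit 78) (PT.lf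 (nat_lit 13148) (nat_lit 6) (nat_lit 173) (nat_lit 3) (nat_lit 288) (nat_lit 201) (nat_lit 291)) (PT.lf (nat_lit 13224) (nat_lit 6) (nat_lit 174) (nat_lit 3) (nat_lit 289) (nat_lit 201) (nat_lit 290))) (PT.nd (nat_lit 78) (PT.lf (nat_lit 13224) (nat_lit 6) (nat_lit 174) (nat_lit 1) (nat_lit 290) (nat_lit 201) (nat_lit 289)) (PT.lf (nat_lit 13148) (nat_lit 6) (nat_lit 173) (nat_lit 1) (nat_lit 291) (nat_lit 201) (nat_lit 288)))) (PT.nd (nat_lit 156) (PT.nd (nat_lit 78) (PT.lf (nat_lit 13072) (nat_lit 6) (nat_lit 172) (nat_lit 1) (nat_lit 292) (nat_lit 201) (nat_lit 287)) (PT.lf (nat_lit 12996) (nat_lit 6) (nat_lit 171) (nat_lit 1) (nat_lit 293) (nat_lit 201) (nat_lit 286))) (PT.nd (nat_lit 80418) (PT.lf (nat_lit 12920) (nat_lit 6) (nat_lit 170) (nat_lit 1) (nat_lit 294) (nat_lit 201) (nat_lit 285)) (PT.lf (nat_lit 13300) (nat_lit 6) (nat_lit 175) (nat_lit 3) (nat_lit 284) (nat_lit 202) (nat_lit 294))))) (PT.nd (nat_lit 312) (PT.nd (nat_lit 156) (PT.nd (nat_lit 78) (PT.lf (nat_lit 13376) (nat_lit 6) (nat_lit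 176) (nat_lit 3) (nat_lit 285) (nat_lit 202) (nat_lit 293)) (PT.lf (nat_lit 13452) (nat_lit 6) (nat_lit 177) (nat_lit 3) (nat_lit 286) (nat_lit 202) (nat_lit 292))) (PT.nd (nat_lit 78) (PT.lf (nat_lit 13528) (nat_lit 6) (nat_lit 178) (nat_lit 3) (nat_lit 287) (nat_lit 202) (nat_lit 291)) (PT.lf (nat_lit 13604) (nat_lit 6) (nat_lit 179) (nat_lit 3) (nat_lit 288) (nat_lit 202) (nat_lit 290)))) (PT.nd (nat_lit 156) (PT.nd (nat_lit 78) (PT.lf (nat_lit 13680) (nat_lit 3) (nat_lit 180) (nat_lit 1) (nat_lit 289) (nat_lit 202) (nat_lit 289)) (PT.lf (nat_lit 13604) (nat_lit 6) (nat_lit 179) (nat_lit 1) (nat_lit 290) (nat_lit 202) (nat_lit 288))) (PT.nd (nat_lit 78) (PT.lf (nat_lit 13528) (nat_lit 6) (nat_lit 178) (nat_lit 1) (nat_lit 291) (nat_lit 202) (nat_lit 287)) (PT.lf (nat_lit 13452) (nat_lit 6) (nat_lit 177) (nat_lit 1) (nat_lit 292) (nat_lit 202) (nat_lit 286))))))) (PT.nd (nat_lit 161850) (PT.nd (nat_lit 80886) (PT.nd (nat_lit 80574) (PT.nd (nat_lit 78) (PT.lf (nat_lit 13376) (nat_lit 6) (nat_lit 176) (nat_lit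 1) (nat_lit 293) (nat_lit 202) (nat_lit 285)) (PT.nd (nat_lit 80418) (PT.lf (nat_lit 13300) (nat_lit 6) (nat_lit 175) (nat_lit 1) (nat_lit 294) (nat_lit 202) (nat_lit 284)) (PT.lf (nat_lit 13756) (nat_lit 6) (nat_lit 181) (nat_lit 3) (nat_lit 284) (nat_lit 203) (nat_lit 293)))) (PT.nd (nat_lit 156) (PT.nd (nat_lit 78) (PT.lf (nat_lit 13832) (nat_lit 6) (nat_lit 182) (nat_lit 3) (nat_lit 285) (nat_lit 203) (nat_lit 292)) (PT.lf (nat_lit 13908) (nat_lit 6) (nat_lit 183) (nat_lit 3) (nat_lit 286) (nat_lit 203) (nat_lit 291))) (PT.nd (nat_lit 78) (PT.lf (nat_lit 13984) (nat_lit 6) (nat_lit 184) (nat_lit 3) (nat_lit 287) (nat_lit 203) (nat_lit 290)) (PT.lf (nat_lit 14060) (nat_lit 6) (nat_lit 185) (nat_lit 3) (nat_lit 288) (nat_lit 203) (nat_lit 289))))) (PT.nd (nat_lit 312) (PT.nd (nat_lit 156) (PT.nd (nat_lit 78) (PT.lf (nat_lit 14060) (nat_lit 6) (nat_lit 185) (nat_lit 1) (nat_lit 289) (nat_lit 203) (nat_lit 288)) (PT.lf (nat_lit 13984) (nat_lit 6) (nat_lit 184) (nat_lit 1) (nat_lit 290) (nat_lit 203) (nat_lit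 287))) (PT.nd (nat_lit 78) (PT.lf (nat_lit 13908) (nat_lit 6) (nat_lit 183) (nat_lit 1) (nat_lit 291) (nat_lit 203) (nat_lit 286)) (PT.lf (nat_lit 13832) (nat_lit 6) (nat_lit 182) (nat_lit 1) (nat_lit 292) (nat_lit 203) (nat_lit 285)))) (PT.nd (nat_lit 80496) (PT.nd (nat_lit 80418) (PT.lf (nat_lit 13756) (nat_lit 6) (nat_lit 181) (nat_lit 1) (nat_lit 293) (nat_lit 203) (nat_lit 284)) (PT.lf (nat_lit 14136) (nat_lit 6) (nat_lit 186) (nat_lit 3) (nat_lit 283) (nat_lit 204) (nat_lit 293))) (PT.nd (nat_lit 78) (PT.lf (nat_lit 14212) (nat_lit 6) (nat_lit 187) (nat_lit 3) (nat_lit 284) (nat_lit 204) (nat_lit 292)) (PT.lf (nat_lit 14288) (nat_lit 6) (nat_lit 188) (nat_lit 3) (nat_lit 285) (nat_lit 204) (nat_lit 291)))))) (PT.nd (nat_lit 80886) (PT.nd (nat_lit 312) (PT.nd (nat_lit 156) (PT.nd (nat_lit 78) (PT.lf (nat_lit 14364) (nat_lit 6) (nat_lit 189) (nat_lit 3) (nat_lit 286) (nat_lit 204) (nat_lit 290)) (PT.lf (nat_lit 14440) (nat_lit 6) (nat_lit 190) (nat_lit 3) (nat_lit 287) (nat_lit 204) (nat_lit 289)))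 (PT.nd (nat_lit 78) (PT.lf (nat_lit 14516) (nat_lit 3) (nat_lit 191) (nat_lit 1) (nat_lit 288) (nat_lit 204) (nat_lit 288)) (PT.lf (nat_lit 14440) (nat_lit 6) (nat_lit 190) (nat_lit 1) (nat_lit 289) (nat_lit 204) (nat_lit 287)))) (PT.nd (nat_lit 156) (PT.nd (nat_lit 78) (PT.lf (nat_lit 14364) (nat_lit 6) (nat_lit 189) (nat_lit 1) (nat_lit 290) (nat_lit 204) (nat_lit 286)) (PT.lf (nat_lit 14288) (nat_lit 6) (nat_lit 188) (nat_lit 1) (nat_lit 291) (nat_lit 204) (nat_lit 285))) (PT.nd (nat_lit 78) (PT.lf (nat_lit 14212) (nat_lit 6) (nat_lit 187) (nat_lit 1) (nat_lit 292) (nat_lit 204) (nat_lit 284)) (PT.lf (nat_lit 14136) (nat_lit 6) (nat_lit 186) (nat_lit 1) (nat_lit 293) (nat_lit 204) (nat_lit 283))))) (PT.nd (nat_lit 312) (PT.nd (nat_lit 156) (PT.nd (nat_lit 78) (PT.lf (nat_lit 14592) (nat_lit 6) (nat_lit 192) (nat_lit 3) (nat_lit 282) (nat_lit 205) (nat_lit 293)) (PT.lf (nat_lit 14668) (nat_lit 6) (nat_lit 193) (nat_lit 3) (nat_lit 283) (nat_lit 205) (nat_lit 292))) (PT.nd (nat_lit 78) (PT.lf (nat_lit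 14744) (nat_lit 6) (nat_lit 194) (nat_lit 3) (nat_lit 284) (nat_lit 205) (nat_lit 291)) (PT.lf (nat_lit 14820) (nat_lit 6) (nat_lit 195) (nat_lit 3) (nat_lit 285) (nat_lit 205) (nat_lit 290)))) (PT.nd (nat_lit 156) (PT.nd (nat_lit 78) (PT.lf (nat_lit 14896) (nat_lit 6) (nat_lit 196) (nat_lit 3) (nat_lit 286) (nat_lit 205) (nat_lit 289)) (PT.lf (nat_lit 14972) (nat_lit 6) (nat_lit 197) (nat_lit 3) (nat_lit 287) (nat_lit 205) (nat_lit 288))) (PT.nd (nat_lit 78) (PT.lf (nat_lit 14972) (nat_lit 6) (nat_lit 197) (nat_lit 1) (nat_lit 288) (nat_lit 205) (nat_lit 287)) (PT.lf (nat_lit 14896) (nat_lit 6) (nat_lit 196) (nat_lit 1) (nat_lit 289) (nat_lit 205) (nat_lit 286))))))))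
noncomputable def pc3 : PT := (PT.nd (nat_lit 243126) (PT.nd (nat_lit 161694) (PT.nd (nat_lit 80808) (PT.nd (nat_lit 234) (PT.nd (nat_lit 78) (PT.lf (nat_lit 14820) (nat_lit 6) (nat_lit 195) (nat_lit 1) (nat_lit 290) (nat_lit 205) (nat_lit 285)) (PT.nd (nat_lit 78) (PT.lf (nat_lit 14744) (nat_lit 6) (nat_lit 194) (nat_lit 1) (nat_lit 291) (nat_lit 205) (nat_lit 284)) (PT.lf (nat_lit 14668) (nat_lit 6) (nat_lit 193) (nat_lit 1) (nat_lit 292) (nat_lit 205) (nat_lit 283)))) (PT.nd (nat_lit 80418) (PT.nd (nat_lit 80340) (PT.lf (nat_lit 14592) (nat_lit 6) (nat_lit 192) (nat_lit 1) (nat_lit 293) (nat_lit 205) (nat_lit 282)) (PT.lf (nat_lit 15048) (nat_lit 6) (nat_lit 198) (nat_lit 3) (nat_lit 282) (nat_lit 206) (nat_lit 292))) (PT.nd (nat_lit 78) (PT.lf (nat_lit 15124) (nat_lit 6) (nat_lit 199) (nat_lit 3) (nat_lit 283) (nat_lit 206) (nat_lit 291)) (PT.lf (nat_lit 15200) (nat_lit 6) (nat_lit 200) (nat_lit 3) (nat_lit 284) (nat_lit 206) (nat_lit 290))))) (PT.nd (nat_lit 312) (PT.nd (nat_lit 156) (PT.nd (nat_lit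 78) (PT.lf (nat_lit 15276) (nat_lit 6) (nat_lit 201) (nat_lit 3) (nat_lit 285) (nat_lit 206) (nat_lit 289)) (PT.lf (nat_lit 15352) (nat_lit 6) (nat_lit 202) (nat_lit 3) (nat_lit 286) (nat_lit 206) (nat_lit 288))) (PT.nd (nat_lit 78) (PT.lf (nat_lit 15428) (nat_lit 3) (nat_lit 203) (nat_lit 1) (nat_lit 287) (nat_lit 206) (nat_lit 287)) (PT.lf (nat_lit 15352) (nat_lit 6) (nat_lit 202) (nat_lit 1) (nat_lit 288) (nat_lit 206) (nat_lit 286)))) (PT.nd (nat_lit 156) (PT.nd (nat_lit 78) (PT.lf (nat_lit 15276) (nat_lit 6) (nat_lit 201) (nat_lit 1) (nat_lit 289) (nat_lit 206) (nat_lit 285)) (PT.lf (nat_lit 15200) (nat_lit 6) (nat_lit 200) (nat_lit 1) (nat_lit 290) (nat_lit 206) (nat_lit 284))) (PT.nd (nat_lit 78) (PT.lf (nat_lit 15124) (nat_lit 6) (nat_lit 199) (nat_lit 1) (nat_lit 291) (nat_lit 206) (nat_lit 283)) (PT.lf (nat_lit 15048) (nat_lit 6) (nat_lit 198) (nat_lit 1) (nat_lit 292) (nat_lit 206) (nat_lit 282)))))) (PT.nd (nat_lit 624) (PT.nd (nat_lit 312) (PT.nd (nat_lit 156) (PT.nd (nat_lit 78) (PT.lf (nat_lit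 15504) (nat_lit 6) (nat_lit 204) (nat_lit 3) (nat_lit 281) (nat_lit 207) (nat_lit 292)) (PT.lf (nat_lit 15580) (nat_lit 6) (nat_lit 205) (nat_lit 3) (nat_lit 282) (nat_lit 207) (nat_lit 291))) (PT.nd (nat_lit 78) (PT.lf (nat_lit 15656) (nat_lit 6) (nat_lit 206) (nat_lit 3) (nat_lit 283) (nat_lit 207) (nat_lit 290)) (PT.lf (nat_lit 15732) (nat_lit 6) (nat_lit 207) (nat_lit 3) (nat_lit 284) (nat_lit 207) (nat_lit 289)))) (PT.nd (nat_lit 156) (PT.nd (nat_lit 78) (PT.lf (nat_lit 15808) (nat_lit 6) (nat_lit 208) (nat_lit 3) (nat_lit 285) (nat_lit 207) (nat_lit 288)) (PT.lf (nat_lit 15884) (nat_lit 6) (nat_lit 209) (nat_lit 3) (nat_lit 286) (nat_lit 207) (nat_lit 287))) (PT.nd (nat_lit 78) (PT.lf (nat_lit 15884) (nat_lit 6) (nat_lit 209) (nat_lit 1) (nat_lit 287) (nat_lit 207) (nat_lit 286)) (PT.lf (nat_lit 15808) (nat_lit 6) (nat_lit 208) (nat_lit 1) (nat_lit 288) (nat_lit 207) (nat_lit 285))))) (PT.nd (nat_lit 80496) (PT.nd (nat_lit 156) (PT.nd (nat_lit 78) (PT.lf (nat_lit 15732) (nat_lit 6) (nat_lit 207) (nat_lit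 1) (nat_lit 289) (nat_lit 207) (nat_lit 284)) (PT.lf (nat_lit 15656) (nat_lit 6) (nat_lit 206) (nat_lit 1) (nat_lit 290) (nat_lit 207) (nat_lit 283))) (PT.nd (nat_lit 78) (PT.lf (nat_lit 15580) (nat_lit 6) (nat_lit 205) (nat_lit 1) (nat_lit 291) (nat_lit 207) (nat_lit 282)) (PT.lf (nat_lit 15504) (nat_lit 6) (nat_lit 204) (nat_lit 1) (nat_lit 292) (nat_lit 207) (nat_lit 281)))) (PT.nd (nat_lit 156) (PT.nd (nat_lit 78) (PT.lf (nat_lit 15960) (nat_lit 6) (nat_lit 210) (nat_lit 3) (nat_lit 280) (nat_lit 208) (nat_lit 292)) (PT.lf (nat_lit 16036) (nat_lit 6) (nat_lit 211) (nat_lit 3) (nat_lit 281) (nat_lit 208) (nat_lit 291))) (PT.nd (nat_lit 78) (PT.lf (nat_lit 16112) (nat_lit 6) (nat_lit 212) (nat_lit 3) (nat_lit 282) (nat_lit 208) (nat_lit 290)) (PT.lf (nat_lit 16188) (nat_lit 6) (nat_lit 213) (nat_lit 3) (nat_lit 283) (nat_lit 208) (nat_lit 289))))))) (PT.nd (nat_lit 81354) (PT.nd (nat_lit 546) (PT.nd (nat_lit 234) (PT.nd (nat_lit 78) (PT.lf (nat_lit 16264) (nat_lit 6) (nat_lit 214) (nat_lit 3) (nat_lit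 284) (nat_lit 208) (nat_lit 288)) (PT.nd (nat_lit 78) (PT.lf (nat_lit 16340) (nat_lit 6) (nat_lit 215) (nat_lit 3) (nat_lit 285) (nat_lit 208) (nat_lit 287)) (PT.lf (nat_lit 16416) (nat_lit 3) (nat_lit 216) (nat_lit 1) (nat_lit 286) (nat_lit 208) (nat_lit 286)))) (PT.nd (nat_lit 156) (PT.nd (nat_lit 78) (PT.lf (nat_lit 16340) (nat_lit 6) (nat_lit 215) (nat_lit 1) (nat_lit 287) (nat_lit 208) (nat_lit 285)) (PT.lf (nat_lit 16264) (nat_lit 6) (nat_lit 214) (nat_lit 1) (nat_lit 288) (nat_lit 208) (nat_lit 284))) (PT.nd (nat_lit 78) (PT.lf (nat_lit 16188) (nat_lit 6) (nat_lit 213) (nat_lit 1) (nat_lit 289) (nat_lit 208) (nat_lit 283)) (PT.lf (nat_lit 16112) (nat_lit 6) (nat_lit 212) (nat_lit 1) (nat_lit 290) (nat_lit 208) (nat_lit 282))))) (PT.nd (nat_lit 80496) (PT.nd (nat_lit 80340) (PT.nd (nat_lit 78) (PT.lf (nat_lit 16036) (nat_lit 6) (nat_lit 211) (nat_lit 1) (nat_lit 291) (nat_lit 208) (nat_lit 281)) (PT.lf (nat_lit 15960) (nat_lit 6) (nat_lit 210) (nat_lit 1) (nat_lit 292) (nat_lit 208) (nat_lit 280)))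 (PT.nd (nat_lit 78) (PT.lf (nat_lit 16492) (nat_lit 6) (nat_lit 217) (nat_lit 3) (nat_lit 280) (nat_lit 209) (nat_lit 291)) (PT.lf (nat_lit 16568) (nat_lit 6) (nat_lit 218) (nat_lit 3) (nat_lit 281) (nat_lit 209) (nat_lit 290)))) (PT.nd (nat_lit 156) (PT.nd (nat_lit 78) (PT.lf (nat_lit 16644) (nat_lit 6) (nat_lit 219) (nat_lit 3) (nat_lit 282) (nat_lit 209) (nat_lit 289)) (PT.lf (nat_lit 16720) (nat_lit 6) (nat_lit 220) (nat_lit 3) (nat_lit 283) (nat_lit 209) (nat_lit 288))) (PT.nd (nat_lit 78) (PT.lf (nat_lit 16796) (nat_lit 6) (nat_lit 221) (nat_lit 3) (nat_lit 284) (nat_lit 209) (nat_lit 287)) (PT.lf (nat_lit 16872) (nat_lit 6) (nat_lit 222) (nat_lit 3) (nat_lit 285) (nat_lit 209) (nat_lit 286)))))) (PT.nd (nat_lit 80808) (PT.nd (nat_lit 312) (PT.nd (nat_lit 156) (PT.nd (nat_lit 78) (PT.lf (nat_lit 16872) (nat_lit 6) (nat_lit 222) (nat_lit 1) (nat_lit 286) (nat_lit 209) (nat_lit 285)) (PT.lf (nat_lit 16796) (nat_lit 6) (nat_lit 221) (nat_lit 1) (nat_lit 287) (nat_lit 209) (nat_lit 284))) (PT.nd (nat_lit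 78) (PT.lf (nat_lit 16720) (nat_lit 6) (nat_lit 220) (nat_lit 1) (nat_lit 288) (nat_lit 209) (nat_lit 283)) (PT.lf (nat_lit 16644) (nat_lit 6) (nat_lit 219) (nat_lit 1) (nat_lit 289) (nat_lit 209) (nat_lit 282)))) (PT.nd (nat_lit 80340) (PT.nd (nat_lit 78) (PT.lf (nat_lit 16568) (nat_lit 6) (nat_lit 218) (nat_lit 1) (nat_lit 290) (nat_lit 209) (nat_lit 281)) (PT.lf (nat_lit 16492) (nat_lit 6) (nat_lit 217) (nat_lit 1) (nat_lit 291) (nat_lit 209) (nat_lit 280))) (PT.nd (nat_lit 78) (PT.lf (nat_lit 16948) (nat_lit 6) (nat_lit 223) (nat_lit 3) (nat_lit 279) (nat_lit 210) (nat_lit 291)) (PT.lf (nat_lit 17024) (nat_lit 6) (nat_lit 224) (nat_lit 3) (nat_lit 280) (nat_lit 210) (nat_lit 290))))) (PT.nd (nat_lit 312) (PT.nd (nat_lit 156) (PT.nd (nat_lit 78) (PT.lf (nat_lit 17100) (nat_lit 6) (nat_lit 225) (nat_lit 3) (nat_lit 281) (nat_lit 210) (nat_lit 289)) (PT.lf (nat_lit 17176) (nat_lit 6) (nat_lit 226) (nat_lit 3) (nat_lit 282) (nat_lit 210) (nat_lit 288))) (PT.nd (nat_lit 78) (PT.lf (nat_lit 17252) (nat_lit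 6) (nat_lit 227) (nat_lit 3) (nat_lit 283) (nat_lit 210) (nat_lit 287)) (PT.lf (nat_lit 17328) (nat_lit 6) (nat_lit 228) (nat_lit 3) (nat_lit 284) (nat_lit 210) (nat_lit 286)))) (PT.nd (nat_lit 156) (PT.nd (nat_lit 78) (PT.lf (nat_lit 17404) (nat_lit 3) (nat_lit 229) (nat_lit 1) (nat_lit 285) (nat_lit 210) (nat_lit 285)) (PT.lf (nat_lit 17328) (nat_lit 6) (nat_lit 228) (nat_lit 1) (nat_lit 286) (nat_lit 210) (nat_lit 284))) (PT.nd (nat_lit 78) (PT.lf (nat_lit 17252) (nat_lit 6) (nat_lit 227) (nat_lit 1) (nat_lit 287) (nat_lit 210) (nat_lit 283)) (PT.lf (nat_lit 17176) (nat_lit 6) (nat_lit 226) (nat_lit 1) (nat_lit 288) (nat_lit 210) (nat_lit 282))))))))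
noncomputable def pc4 : PT := (PT.nd (nat_lit 242658) (PT.nd (nat_lit 81276) (PT.nd (nat_lit 80652) (PT.nd (nat_lit 80340) (PT.nd (nat_lit 78) (PT.lf (nat_lit 17100) (nat_lit 6) (nat_lit 225) (nat_lit 1) (nat_lit 289) (nat_lit 210) (nat_lit 281)) (PT.nd (nat_lit 78) (PT.lf (nat_lit 17024) (nat_lit 6) (nat_lit 224) (nat_lit 1) (nat_lit 290) (nat_lit 210) (nat_lit 280)) (PT.lf (nat_lit 16948) (nat_lit 6) (nat_lit 223) (nat_lit 1) (nat_lit 291) (nat_lit 210) (nat_lit 279)))) (PT.nd (nat_lit 156) (PT.nd (nat_lit 78) (PT.lf (nat_lit 17480) (nat_lit 6) (nat_lit 230) (nat_lit 3) (nat_lit 278) (nat_lit 211) (nat_lit 291)) (PT.lf (nat_lit 17556) (nat_lit 6) (nat_lit 231) (nat_lit 3) (nat_lit 279) (nat_lit 211) (nat_lit 290))) (PT.nd (nat_lit 78) (PT.lf (nat_lit 17632) (nat_lit 6) (nat_lit 232) (nat_lit 3) (nat_lit 280) (nat_lit 211) (nat_lit 289)) (PT.lf (nat_lit 17708) (nat_lit 6) (nat_lit 233) (nat_lit 3) (nat_lit 281) (nat_lit 211) (nat_lit 288))))) (PT.nd (nat_lit 312) (PT.nd (nat_lit 156) (PT.nd (nat_lit 78)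 (PT.lf (nat_lit 17784) (nat_lit 6) (nat_lit 234) (nat_lit 3) (nat_lit 282) (nat_lit 211) (nat_lit 287)) (PT.lf (nat_lit 17860) (nat_lit 6) (nat_lit 235) (nat_lit 3) (nat_lit 283) (nat_lit 211) (nat_lit 286))) (PT.nd (nat_lit 78) (PT.lf (nat_lit 17936) (nat_lit 6) (nat_lit 236) (nat_lit 3) (nat_lit 284) (nat_lit 211) (nat_lit 285)) (PT.lf (nat_lit 17936) (nat_lit 6) (nat_lit 236) (nat_lit 1) (nat_lit 285) (nat_lit 211) (nat_lit 284)))) (PT.nd (nat_lit 156) (PT.nd (nat_lit 78) (PT.lf (nat_lit 17860) (nat_lit 6) (nat_lit 235) (nat_lit 1) (nat_lit 286) (nat_lit 211) (nat_lit 283)) (PT.lf (nat_lit 17784) (nat_lit 6) (nat_lit 234) (nat_lit 1) (nat_lit 287) (nat_lit 211) (nat_lit 282))) (PT.nd (nat_lit 78) (PT.lf (nat_lit 17708) (nat_lit 6) (nat_lit 233) (nat_lit 1) (nat_lit 288) (nat_lit 211) (nat_lit 281)) (PT.lf (nat_lit 17632) (nat_lit 6) (nat_lit 232) (nat_lit 1) (nat_lit 289) (nat_lit 211) (nat_lit 280)))))) (PT.nd (nat_lit 80652) (PT.nd (nat_lit 80340) (PT.nd (nat_lit 78) (PT.lf (nat_lit 17556) (nat_lit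 6) (nat_lit 231) (nat_lit 1) (nat_lit 290) (nat_lit 211) (nat_lit 279)) (PT.nd (nat_lit 80184) (PT.lf (nat_lit 17480) (nat_lit 6) (nat_lit 230) (nat_lit 1) (nat_lit 291) (nat_lit 211) (nat_lit 278)) (PT.lf (nat_lit 18012) (nat_lit 6) (nat_lit 237) (nat_lit 3) (nat_lit 278) (nat_lit 212) (nat_lit 290)))) (PT.nd (nat_lit 156) (PT.nd (nat_lit 78) (PT.lf (nat_lit 18088) (nat_lit 6) (nat_lit 238) (nat_lit 3) (nat_lit 279) (nat_lit 212) (nat_lit 289)) (PT.lf (nat_lit 18164) (nat_lit 6) (nat_lit 239) (nat_lit 3) (nat_lit 280) (nat_lit 212) (nat_lit 288))) (PT.nd (nat_lit 78) (PT.lf (nat_lit 18240) (nat_lit 6) (nat_lit 240) (nat_lit 3) (nat_lit 281) (nat_lit 212) (nat_lit 287)) (PT.lf (nat_lit 18316) (nat_lit 6) (nat_lit 241) (nat_lit 3) (nat_lit 282) (nat_lit 212) (nat_lit 286))))) (PT.nd (nat_lit 312) (PT.nd (nat_lit 156) (PT.nd (nat_lit 78) (PT.lf (nat_lit 18392) (nat_lit 6) (nat_lit 242) (nat_lit 3) (nat_lit 283) (nat_lit 212) (nat_lit 285)) (PT.lf (nat_lit 18468) (nat_lit 3) (nat_lit 243) (nat_lit 1) (nat_lit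 284) (nat_lit 212) (nat_lit 284))) (PT.nd (nat_lit 78) (PT.lf (nat_lit 18392) (nat_lit 6) (nat_lit 242) (nat_lit 1) (nat_lit 285) (nat_lit 212) (nat_lit 283)) (PT.lf (nat_lit 18316) (nat_lit 6) (nat_lit 241) (nat_lit 1) (nat_lit 286) (nat_lit 212) (nat_lit 282)))) (PT.nd (nat_lit 156) (PT.nd (nat_lit 78) (PT.lf (nat_lit 18240) (nat_lit 6) (nat_lit 240) (nat_lit 1) (nat_lit 287) (nat_lit 212) (nat_lit 281)) (PT.lf (nat_lit 18164) (nat_lit 6) (nat_lit 239) (nat_lit 1) (nat_lit 288) (nat_lit 212) (nat_lit 280))) (PT.nd (nat_lit 78) (PT.lf (nat_lit 18088) (nat_lit 6) (nat_lit 238) (nat_lit 1) (nat_lit 289) (nat_lit 212) (nat_lit 279)) (PT.lf (nat_lit 18012) (nat_lit 6) (nat_lit 237) (nat_lit 1) (nat_lit 290) (nat_lit 212) (nat_lit 278))))))) (PT.nd (nat_lit 81198) (PT.nd (nat_lit 546) (PT.nd (nat_lit 234) (PT.nd (nat_lit 78) (PT.lf (nat_lit 18544) (nat_lit 6) (nat_lit 244) (nat_lit 3) (nat_lit 277) (nat_lit 213) (nat_lit 290)) (PT.nd (nat_lit 78) (PT.lf (nat_lit 18620) (nat_lit 6) (nat_lit 245) (nat_lit 3)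 (nat_lit 278) (nat_lit 213) (nat_lit 289)) (PT.lf (nat_lit 18696) (nat_lit 6) (nat_lit 246) (nat_lit 3) (nat_lit 279) (nat_lit 213) (nat_lit 288)))) (PT.nd (nat_lit 156) (PT.nd (nat_lit 78) (PT.lf (nat_lit 18772) (nat_lit 6) (nat_lit 247) (nat_lit 3) (nat_lit 280) (nat_lit 213) (nat_lit 287)) (PT.lf (nat_lit 18848) (nat_lit 6) (nat_lit 248) (nat_lit 3) (nat_lit 281) (nat_lit 213) (nat_lit 286))) (PT.nd (nat_lit 78) (PT.lf (nat_lit 18924) (nat_lit 6) (nat_lit 249) (nat_lit 3) (nat_lit 282) (nat_lit 213) (nat_lit 285)) (PT.lf (nat_lit 19000) (nat_lit 6) (nat_lit 250) (nat_lit 3) (nat_lit 283) (nat_lit 213) (nat_lit 284))))) (PT.nd (nat_lit 312) (PT.nd (nat_lit 156) (PT.nd (nat_lit 78) (PT.lf (nat_lit 19000) (nat_lit 6) (nat_lit 250) (nat_lit 1) (nat_lit 284) (nat_lit 213) (nat_lit 283)) (PT.lf (nat_lit 18924) (nat_lit 6) (nat_lit 249) (nat_lit 1) (nat_lit 285) (nat_lit 213) (nat_lit 282))) (PT.nd (nat_lit 78) (PT.lf (nat_lit 18848) (nat_lit 6) (nat_lit 248) (nat_lit 1) (nat_lit 286) (nat_lit 213) (nat_lit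 281)) (PT.lf (nat_lit 18772) (nat_lit 6) (nat_lit 247) (nat_lit 1) (nat_lit 287) (nat_lit 213) (nat_lit 280)))) (PT.nd (nat_lit 156) (PT.nd (nat_lit 78) (PT.lf (nat_lit 18696) (nat_lit 6) (nat_lit 246) (nat_lit 1) (nat_lit 288) (nat_lit 213) (nat_lit 279)) (PT.lf (nat_lit 18620) (nat_lit 6) (nat_lit 245) (nat_lit 1) (nat_lit 289) (nat_lit 213) (nat_lit 278))) (PT.nd (nat_lit 80106) (PT.lf (nat_lit 18544) (nat_lit 6) (nat_lit 244) (nat_lit 1) (nat_lit 290) (nat_lit 213) (nat_lit 277)) (PT.lf (nat_lit 19076) (nat_lit 6) (nat_lit 251) (nat_lit 3) (nat_lit 276) (nat_lit 214) (nat_lit 290)))))) (PT.nd (nat_lit 624) (PT.nd (nat_lit 312) (PT.nd (nat_lit 156) (PT.nd (nat_lit 78) (PT.lf (nat_lit 19152) (nat_lit 6) (nat_lit 252) (nat_lit 3) (nat_lit 277) (nat_lit 214) (nat_lit 289)) (PT.lf (nat_lit 19228) (nat_lit 6) (nat_lit 253) (nat_lit 3) (nat_lit 278) (nat_lit 214) (nat_lit 288))) (PT.nd (nat_lit 78) (PT.lf (nat_lit 19304) (nat_lit 6) (nat_lit 254) (nat_lit 3) (nat_lit 279) (nat_lit 214) (nat_lit 287)) (PT.lf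 (nat_lit 19380) (nat_lit 6) (nat_lit 255) (nat_lit 3) (nat_lit 280) (nat_lit 214) (nat_lit 286)))) (PT.nd (nat_lit 156) (PT.nd (nat_lit 78) (PT.lf (nat_lit 19456) (nat_lit 6) (nat_lit 256) (nat_lit 3) (nat_lit 281) (nat_lit 214) (nat_lit 285)) (PT.lf (nat_lit 19532) (nat_lit 6) (nat_lit 257) (nat_lit 3) (nat_lit 282) (nat_lit 214) (nat_lit 284))) (PT.nd (nat_lit 78) (PT.lf (nat_lit 19608) (nat_lit 3) (nat_lit 258) (nat_lit 1) (nat_lit 283) (nat_lit 214) (nat_lit 283)) (PT.lf (nat_lit 19532) (nat_lit 6) (nat_lit 257) (nat_lit 1) (nat_lit 284) (nat_lit 214) (nat_lit 282))))) (PT.nd (nat_lit 312) (PT.nd (nat_lit 156) (PT.nd (nat_lit 78) (PT.lf (nat_lit 19456) (nat_lit 6) (nat_lit 256) (nat_lit 1) (nat_lit 285) (nat_lit 214) (nat_lit 281)) (PT.lf (nat_lit 19380) (nat_lit 6) (nat_lit 255) (nat_lit 1) (nat_lit 286) (nat_lit 214) (nat_lit 280))) (PT.nd (nat_lit 78) (PT.lf (nat_lit 19304) (nat_lit 6) (nat_lit 254) (nat_lit 1) (nat_lit 287) (nat_lit 214) (nat_lit 279)) (PT.lf (nat_lit 19228) (nat_lit 6) (nat_lit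 253) (nat_lit 1) (nat_lit 288) (nat_lit 214) (nat_lit 278)))) (PT.nd (nat_lit 80184) (PT.nd (nat_lit 78) (PT.lf (nat_lit 19152) (nat_lit 6) (nat_lit 252) (nat_lit 1) (nat_lit 289) (nat_lit 214) (nat_lit 277)) (PT.lf (nat_lit 19076) (nat_lit 6) (nat_lit 251) (nat_lit 1) (nat_lit 290) (nat_lit 214) (nat_lit 276))) (PT.nd (nat_lit 78) (PT.lf (nat_lit 19684) (nat_lit 6) (nat_lit 259) (nat_lit 3) (nat_lit 276) (nat_lit 215) (nat_lit 289)) (PT.lf (nat_lit 19760) (nat_lit 6) (nat_lit 260) (nat_lit 3) (nat_lit 277) (nat_lit 215) (nat_lit 288))))))))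
noncomputable def pc5 : PT := (PT.nd (nat_lit 162396) (PT.nd (nat_lit 81198) (PT.nd (nat_lit 546) (PT.nd (nat_lit 234) (PT.nd (nat_lit 78) (PT.lf (nat_lit 19836) (nat_lit 6) (nat_lit 261) (nat_lit 3) (nat_lit 278) (nat_lit 215) (nat_lit 287)) (PT.nd (nat_lit 78) (PT.lf (nat_lit 19912) (nat_lit 6) (nat_lit 262) (nat_lit 3) (nat_lit 279) (nat_lit 215) (nat_lit 286)) (PT.lf (nat_lit 19988) (nat_lit 6) (nat_lit 263) (nat_lit 3) (nat_lit 280) (nat_lit 215) (nat_lit 285)))) (PT.nd (nat_lit 156) (PT.nd (nat_lit 78) (PT.lf (nat_lit 20064) (nat_lit 6) (nat_lit 264) (nat_lit 3) (nat_lit 281) (nat_lit 215) (nat_lit 284)) (PT.lf (nat_lit 20140) (nat_lit 6) (nat_lit 265) (nat_lit 3) (nat_lit 282) (nat_lit 215) (nat_lit 283))) (PT.nd (nat_lit 78) (PT.lf (nat_lit 20140) (nat_lit 6) (nat_lit 265) (nat_lit 1) (nat_lit 283) (nat_lit 215) (nat_lit 282)) (PT.lf (nat_lit 20064) (nat_lit 6) (nat_lit 264) (nat_lit 1) (nat_lit 284) (nat_lit 215) (nat_lit 281))))) (PT.nd (nat_lit 312) (PT.nd (nat_lit 156) (PT.nd (nat_lit 78) (PT.lf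 (nat_lit 19988) (nat_lit 6) (nat_lit 263) (nat_lit 1) (nat_lit 285) (nat_lit 215) (nat_lit 280)) (PT.lf (nat_lit 19912) (nat_lit 6) (nat_lit 262) (nat_lit 1) (nat_lit 286) (nat_lit 215) (nat_lit 279))) (PT.nd (nat_lit 78) (PT.lf (nat_lit 19836) (nat_lit 6) (nat_lit 261) (nat_lit 1) (nat_lit 287) (nat_lit 215) (nat_lit 278)) (PT.lf (nat_lit 19760) (nat_lit 6) (nat_lit 260) (nat_lit 1) (nat_lit 288) (nat_lit 215) (nat_lit 277)))) (PT.nd (nat_lit 80184) (PT.nd (nat_lit 80106) (PT.lf (nat_lit 19684) (nat_lit 6) (nat_lit 259) (nat_lit 1) (nat_lit 289) (nat_lit 215) (nat_lit 276)) (PT.lf (nat_lit 20216) (nat_lit 6) (nat_lit 266) (nat_lit 3) (nat_lit 275) (nat_lit 216) (nat_lit 289))) (PT.nd (nat_lit 78) (PT.lf (nat_lit 20292) (nat_lit 6) (nat_lit 267) (nat_lit 3) (nat_lit 276) (nat_lit 216) (nat_lit 288)) (PT.lf (nat_lit 20368) (nat_lit 6) (nat_lit 268) (nat_lit 3) (nat_lit 277) (nat_lit 216) (nat_lit 287)))))) (PT.nd (nat_lit 624) (PT.nd (nat_lit 312) (PT.nd (nat_lit 156) (PT.nd (nat_lit 78) (PT.lf (nat_lit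 20444) (nat_lit 6) (nat_lit 269) (nat_lit 3) (nat_lit 278) (nat_lit 216) (nat_lit 286)) (PT.lf (nat_lit 20520) (nat_lit 6) (nat_lit 270) (nat_lit 3) (nat_lit 279) (nat_lit 216) (nat_lit 285))) (PT.nd (nat_lit 78) (PT.lf (nat_lit 20596) (nat_lit 6) (nat_lit 271) (nat_lit 3) (nat_lit 280) (nat_lit 216) (nat_lit 284)) (PT.lf (nat_lit 20672) (nat_lit 6) (nat_lit 272) (nat_lit 3) (nat_lit 281) (nat_lit 216) (nat_lit 283)))) (PT.nd (nat_lit 156) (PT.nd (nat_lit 78) (PT.lf (nat_lit 20748) (nat_lit 3) (nat_lit 273) (nat_lit 1) (nat_lit 282) (nat_lit 216) (nat_lit 282)) (PT.lf (nat_lit 20672) (nat_lit 6) (nat_lit 272) (nat_lit 1) (nat_lit 283) (nat_lit 216) (nat_lit 281))) (PT.nd (nat_lit 78) (PT.lf (nat_lit 20596) (nat_lit 6) (nat_lit 271) (nat_lit 1) (nat_lit 284) (nat_lit 216) (nat_lit 280)) (PT.lf (nat_lit 20520) (nat_lit 6) (nat_lit 270) (nat_lit 1) (nat_lit 285) (nat_lit 216) (nat_lit 279))))) (PT.nd (nat_lit 80262) (PT.nd (nat_lit 156) (PT.nd (nat_lit 78) (PT.lf (nat_lit 20444) (nat_lit 6) (nat_lit 269) (nat_lit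 1) (nat_lit 286) (nat_lit 216) (nat_lit 278)) (PT.lf (nat_lit 20368) (nat_lit 6) (nat_lit 268) (nat_lit 1) (nat_lit 287) (nat_lit 216) (nat_lit 277))) (PT.nd (nat_lit 78) (PT.lf (nat_lit 20292) (nat_lit 6) (nat_lit 267) (nat_lit 1) (nat_lit 288) (nat_lit 216) (nat_lit 276)) (PT.lf (nat_lit 20216) (nat_lit 6) (nat_lit 266) (nat_lit 1) (nat_lit 289) (nat_lit 216) (nat_lit 275)))) (PT.nd (nat_lit 156) (PT.nd (nat_lit 78) (PT.lf (nat_lit 20824) (nat_lit 6) (nat_lit 274) (nat_lit 3) (nat_lit 274) (nat_lit 217) (nat_lit 289)) (PT.lf (nat_lit 20900) (nat_lit 6) (nat_lit 275) (nat_lit 3) (nat_lit 275) (nat_lit 217) (nat_lit 288))) (PT.nd (nat_lit 78) (PT.lf (nat_lit 20976) (nat_lit 6) (nat_lit 276) (nat_lit 3) (nat_lit 276) (nat_lit 217) (nat_lit 287)) (PT.lf (nat_lit 21052) (nat_lit 6) (nat_lit 277) (nat_lit 3) (nat_lit 277) (nat_lit 217) (nat_lit 286))))))) (PT.nd (nat_lit 81120) (PT.nd (nat_lit 546) (PT.nd (nat_lit 234) (PT.nd (nat_lit 78) (PT.lf (nat_lit 21128) (nat_lit 6) (nat_lit 278) (nat_lit 3) (nat_lit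 278) (nat_lit 217) (nat_lit 285)) (PT.nd (nat_lit 78) (PT.lf (nat_lit 21204) (nat_lit 6) (nat_lit 279) (nat_lit 3) (nat_lit 279) (nat_lit 217) (nat_lit 284)) (PT.lf (nat_lit 21280) (nat_lit 6) (nat_lit 280) (nat_lit 3) (nat_lit 280) (nat_lit 217) (nat_lit 283)))) (PT.nd (nat_lit 156) (PT.nd (nat_lit 78) (PT.lf (nat_lit 21356) (nat_lit 6) (nat_lit 281) (nat_lit 3) (nat_lit 281) (nat_lit 217) (nat_lit 282)) (PT.lf (nat_lit 21356) (nat_lit 6) (nat_lit 281) (nat_lit 1) (nat_lit 282) (nat_lit 217) (nat_lit 281))) (PT.nd (nat_lit 78) (PT.lf (nat_lit 21280) (nat_lit 6) (nat_lit 280) (nat_lit 1) (nat_lit 283) (nat_lit 217) (nat_lit 280)) (PT.lf (nat_lit 21204) (nat_lit 6) (nat_lit 279) (nat_lit 1) (nat_lit 284) (nat_lit 217) (nat_lit 279))))) (PT.nd (nat_lit 312) (PT.nd (nat_lit 156) (PT.nd (nat_lit 78) (PT.lf (nat_lit 21128) (nat_lit 6) (nat_lit 278) (nat_lit 1) (nat_lit 285) (nat_lit 217) (nat_lit 278)) (PT.lf (nat_lit 21052) (nat_lit 6) (nat_lit 277) (nat_lit 1) (nat_lit 286) (nat_lit 217) (nat_lit 277))) (PT.nd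 (nat_lit 78) (PT.lf (nat_lit 20976) (nat_lit 6) (nat_lit 276) (nat_lit 1) (nat_lit 287) (nat_lit 217) (nat_lit 276)) (PT.lf (nat_lit 20900) (nat_lit 6) (nat_lit 275) (nat_lit 1) (nat_lit 288) (nat_lit 217) (nat_lit 275)))) (PT.nd (nat_lit 80106) (PT.nd (nat_lit 80028) (PT.lf (nat_lit 20824) (nat_lit 6) (nat_lit 274) (nat_lit 1) (nat_lit 289) (nat_lit 217) (nat_lit 274)) (PT.lf (nat_lit 21508) (nat_lit 6) (nat_lit 283) (nat_lit 3) (nat_lit 274) (nat_lit 218) (nat_lit 288))) (PT.nd (nat_lit 78) (PT.lf (nat_lit 21584) (nat_lit 6) (nat_lit 284) (nat_lit 3) (nat_lit 275) (nat_lit 218) (nat_lit 287)) (PT.lf (nat_lit 21660) (nat_lit 6) (nat_lit 285) (nat_lit 3) (nat_lit 276) (nat_lit 218) (nat_lit 286)))))) (PT.nd (nat_lit 624) (PT.nd (nat_lit 312) (PT.nd (nat_lit 156) (PT.nd (nat_lit 78) (PT.lf (nat_lit 21736) (nat_lit 6) (nat_lit 286) (nat_lit 3) (nat_lit 277) (nat_lit 218) (nat_lit 285)) (PT.lf (nat_lit 21812) (nat_lit 6) (nat_lit 287) (nat_lit 3) (nat_lit 278) (nat_lit 218) (nat_lit 284))) (PT.nd (nat_lit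 78) (PT.lf (nat_lit 21888) (nat_lit 6) (nat_lit 288) (nat_lit 3) (nat_lit 279) (nat_lit 218) (nat_lit 283)) (PT.lf (nat_lit 21964) (nat_lit 6) (nat_lit 289) (nat_lit 3) (nat_lit 280) (nat_lit 218) (nat_lit 282)))) (PT.nd (nat_lit 156) (PT.nd (nat_lit 78) (PT.lf (nat_lit 22040) (nat_lit 3) (nat_lit 290) (nat_lit 1) (nat_lit 281) (nat_lit 218) (nat_lit 281)) (PT.lf (nat_lit 21964) (nat_lit 6) (nat_lit 289) (nat_lit 1) (nat_lit 282) (nat_lit 218) (nat_lit 280))) (PT.nd (nat_lit 78) (PT.lf (nat_lit 21888) (nat_lit 6) (nat_lit 288) (nat_lit 1) (nat_lit 283) (nat_lit 218) (nat_lit 279)) (PT.lf (nat_lit 21812) (nat_lit 6) (nat_lit 287) (nat_lit 1) (nat_lit 284) (nat_lit 218) (nat_lit 278))))) (PT.nd (nat_lit 80262) (PT.nd (nat_lit 156) (PT.nd (nat_lit 78) (PT.lf (nat_lit 21736) (nat_lit 6) (nat_lit 286) (nat_lit 1) (nat_lit 285) (nat_lit 218) (nat_lit 277)) (PT.lf (nat_lit 21660) (nat_lit 6) (nat_lit 285) (nat_lit 1) (nat_lit 286) (nat_lit 218) (nat_lit 276))) (PT.nd (nat_lit 78) (PT.lf (nat_lit 21584) (nat_lit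 6) (nat_lit 284) (nat_lit 1) (nat_lit 287) (nat_lit 218) (nat_lit 275)) (PT.lf (nat_lit 21508) (nat_lit 6) (nat_lit 283) (nat_lit 1) (nat_lit 288) (nat_lit 218) (nat_lit 274)))) (PT.nd (nat_lit 156) (PT.nd (nat_lit 78) (PT.lf (nat_lit 22116) (nat_lit 6) (nat_lit 291) (nat_lit 3) (nat_lit 273) (nat_lit 219) (nat_lit 288)) (PT.lf (nat_lit 22192) (nat_lit 6) (nat_lit 292) (nat_lit 3) (nat_lit 274) (nat_lit 219) (nat_lit 287))) (PT.nd (nat_lit 78) (PT.lf (nat_lit 22268) (nat_lit 6) (nat_lit 293) (nat_lit 3) (nat_lit 275) (nat_lit 219) (nat_lit 286)) (PT.lf (nat_lit 22344) (nat_lit 6) (nat_lit 294) (nat_lit 3) (nat_lit 276) (nat_lit 219) (nat_lit 285))))))))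
noncomputable def pc6 : PT := (PT.nd (nat_lit 162084) (PT.nd (nat_lit 81042) (PT.nd (nat_lit 546) (PT.nd (nat_lit 234) (PT.nd (nat_lit 78) (PT.lf (nat_lit 22420) (nat_lit 6) (nat_lit 295) (nat_lit 3) (nat_lit 277) (nat_lit 219) (nat_lit 284)) (PT.nd (nat_lit 78) (PT.lf (nat_lit 22496) (nat_lit 6) (nat_lit 296) (nat_lit 3) (nat_lit 278) (nat_lit 219) (nat_lit 283)) (PT.lf (nat_lit 22572) (nat_lit 6) (nat_lit 297) (nat_lit 3) (nat_lit 279) (nat_lit 219) (nat_lit 282)))) (PT.nd (nat_lit 156) (PT.nd (nat_lit 78) (PT.lf (nat_lit 22648) (nat_lit 6) (nat_lit 298) (nat_lit 3) (nat_lit 280) (nat_lit 219) (nat_lit 281)) (PT.lf (nat_lit 22648) (nat_lit 6) (nat_lit 298) (nat_lit 1) (nat_lit 281) (nat_lit 219) (nat_lit 280))) (PT.nd (nat_lit 78) (PT.lf (nat_lit 22572) (nat_lit 6) (nat_lit 297) (nat_lit 1) (nat_lit 282) (nat_lit 219) (nat_lit 279)) (PT.lf (nat_lit 22496) (nat_lit 6) (nat_lit 296) (nat_lit 1) (nat_lit 283) (nat_lit 219) (nat_lit 278))))) (PT.nd (nat_lit 312) (PT.nd (nat_lit 156) (PT.nd (nat_lit 78) (PT.lf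 (nat_lit 22420) (nat_lit 6) (nat_lit 295) (nat_lit 1) (nat_lit 284) (nat_lit 219) (nat_lit 277)) (PT.lf (nat_lit 22344) (nat_lit 6) (nat_lit 294) (nat_lit 1) (nat_lit 285) (nat_lit 219) (nat_lit 276))) (PT.nd (nat_lit 78) (PT.lf (nat_lit 22268) (nat_lit 6) (nat_lit 293) (nat_lit 1) (nat_lit 286) (nat_lit 219) (nat_lit 275)) (PT.lf (nat_lit 22192) (nat_lit 6) (nat_lit 292) (nat_lit 1) (nat_lit 287) (nat_lit 219) (nat_lit 274)))) (PT.nd (nat_lit 80028) (PT.nd (nat_lit 79950) (PT.lf (nat_lit 22116) (nat_lit 6) (nat_lit 291) (nat_lit 1) (nat_lit 288) (nat_lit 219) (nat_lit 273)) (PT.lf (nat_lit 22724) (nat_lit 6) (nat_lit 299) (nat_lit 3) (nat_lit 272) (nat_lit 220) (nat_lit 288))) (PT.nd (nat_lit 78) (PT.lf (nat_lit 22800) (nat_lit 6) (nat_lit 300) (nat_lit 3) (nat_lit 273) (nat_lit 220) (nat_lit 287)) (PT.lf (nat_lit 22876) (nat_lit 6) (nat_lit 301) (nat_lit 3) (nat_lit 274) (nat_lit 220) (nat_lit 286)))))) (PT.nd (nat_lit 624) (PT.nd (nat_lit 312) (PT.nd (nat_lit 156) (PT.nd (nat_lit 78) (PT.lf (nat_lit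 22952) (nat_lit 6) (nat_lit 302) (nat_lit 3) (nat_lit 275) (nat_lit 220) (nat_lit 285)) (PT.lf (nat_lit 23028) (nat_lit 6) (nat_lit 303) (nat_lit 3) (nat_lit 276) (nat_lit 220) (nat_lit 284))) (PT.nd (nat_lit 78) (PT.lf (nat_lit 23104) (nat_lit 6) (nat_lit 304) (nat_lit 3) (nat_lit 277) (nat_lit 220) (nat_lit 283)) (PT.lf (nat_lit 23180) (nat_lit 6) (nat_lit 305) (nat_lit 3) (nat_lit 278) (nat_lit 220) (nat_lit 282)))) (PT.nd (nat_lit 156) (PT.nd (nat_lit 78) (PT.lf (nat_lit 23256) (nat_lit 6) (nat_lit 306) (nat_lit 3) (nat_lit 279) (nat_lit 220) (nat_lit 281)) (PT.lf (nat_lit 23332) (nat_lit 3) (nat_lit 307) (nat_lit 1) (nat_lit 280) (nat_lit 220) (nat_lit 280))) (PT.nd (nat_lit 78) (PT.lf (nat_lit 23256) (nat_lit 6) (nat_lit 306) (nat_lit 1) (nat_lit 281) (nat_lit 220) (nat_lit 279)) (PT.lf (nat_lit 23180) (nat_lit 6) (nat_lit 305) (nat_lit 1) (nat_lit 282) (nat_lit 220) (nat_lit 278))))) (PT.nd (nat_lit 312) (PT.nd (nat_lit 156) (PT.nd (nat_lit 78) (PT.lf (nat_lit 23104) (nat_lit 6) (nat_lit 304) (nat_lit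 1) (nat_lit 283) (nat_lit 220) (nat_lit 277)) (PT.lf (nat_lit 23028) (nat_lit 6) (nat_lit 303) (nat_lit 1) (nat_lit 284) (nat_lit 220) (nat_lit 276))) (PT.nd (nat_lit 78) (PT.lf (nat_lit 22952) (nat_lit 6) (nat_lit 302) (nat_lit 1) (nat_lit 285) (nat_lit 220) (nat_lit 275)) (PT.lf (nat_lit 22876) (nat_lit 6) (nat_lit 301) (nat_lit 1) (nat_lit 286) (nat_lit 220) (nat_lit 274)))) (PT.nd (nat_lit 79950) (PT.nd (nat_lit 78) (PT.lf (nat_lit 22800) (nat_lit 6) (nat_lit 300) (nat_lit 1) (nat_lit 287) (nat_lit 220) (nat_lit 273)) (PT.lf (nat_lit 22724) (nat_lit 6) (nat_lit 299) (nat_lit 1) (nat_lit 288) (nat_lit 220) (nat_lit 272))) (PT.nd (nat_lit 78) (PT.lf (nat_lit 23408) (nat_lit 6) (nat_lit 308) (nat_lit 3) (nat_lit 271) (nat_lit 221) (nat_lit 288)) (PT.lf (nat_lit 23484) (nat_lit 6) (nat_lit 309) (nat_lit 3) (nat_lit 272) (nat_lit 221) (nat_lit 287))))))) (PT.nd (nat_lit 1170) (PT.nd (nat_lit 546) (PT.nd (nat_lit 234) (PT.nd (nat_lit 78) (PT.lf (nat_lit 23560) (nat_lit 6) (nat_lit 310) (nat_lit 3) (nat_lit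 273) (nat_lit 221) (nat_lit 286)) (PT.nd (nat_lit 78) (PT.lf (nat_lit 23636) (nat_lit 6) (nat_lit 311) (nat_lit 3) (nat_lit 274) (nat_lit 221) (nat_lit 285)) (PT.lf (nat_lit 23712) (nat_lit 6) (nat_lit 312) (nat_lit 3) (nat_lit 275) (nat_lit 221) (nat_lit 284)))) (PT.nd (nat_lit 156) (PT.nd (nat_lit 78) (PT.lf (nat_lit 23788) (nat_lit 6) (nat_lit 313) (nat_lit 3) (nat_lit 276) (nat_lit 221) (nat_lit 283)) (PT.lf (nat_lit 23864) (nat_lit 6) (nat_lit 314) (nat_lit 3) (nat_lit 277) (nat_lit 221) (nat_lit 282))) (PT.nd (nat_lit 78) (PT.lf (nat_lit 23940) (nat_lit 6) (nat_lit 315) (nat_lit 3) (nat_lit 278) (nat_lit 221) (nat_lit 281)) (PT.lf (nat_lit 24016) (nat_lit 6) (nat_lit 316) (nat_lit 3) (nat_lit 279) (nat_lit 221) (nat_lit 280))))) (PT.nd (nat_lit 312) (PT.nd (nat_lit 156) (PT.nd (nat_lit 78) (PT.lf (nat_lit 24016) (nat_lit 6) (nat_lit 316) (nat_lit 1) (nat_lit 280) (nat_lit 221) (nat_lit 279)) (PT.lf (nat_lit 23940) (nat_lit 6) (nat_lit 315) (nat_lit 1) (nat_lit 281) (nat_lit 221) (nat_lit 278))) (PT.nd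 (nat_lit 78) (PT.lf (nat_lit 23864) (nat_lit 6) (nat_lit 314) (nat_lit 1) (nat_lit 282) (nat_lit 221) (nat_lit 277)) (PT.lf (nat_lit 23788) (nat_lit 6) (nat_lit 313) (nat_lit 1) (nat_lit 283) (nat_lit 221) (nat_lit 276)))) (PT.nd (nat_lit 156) (PT.nd (nat_lit 78) (PT.lf (nat_lit 23712) (nat_lit 6) (nat_lit 312) (nat_lit 1) (nat_lit 284) (nat_lit 221) (nat_lit 275)) (PT.lf (nat_lit 23636) (nat_lit 6) (nat_lit 311) (nat_lit 1) (nat_lit 285) (nat_lit 221) (nat_lit 274))) (PT.nd (nat_lit 78) (PT.lf (nat_lit 23560) (nat_lit 6) (nat_lit 310) (nat_lit 1) (nat_lit 286) (nat_lit 221) (nat_lit 273)) (PT.lf (nat_lit 23484) (nat_lit 6) (nat_lit 309) (nat_lit 1) (nat_lit 287) (nat_lit 221) (nat_lit 272)))))) (PT.nd (nat_lit 80418) (PT.nd (nat_lit 80106) (PT.nd (nat_lit 79950) (PT.nd (nat_lit 79872) (PT.lf (nat_lit 23408) (nat_lit 6) (nat_lit 308) (nat_lit 1) (nat_lit 288) (nat_lit 221) (nat_lit 271)) (PT.lf (nat_lit 24092) (nat_lit 6) (nat_lit 317) (nat_lit 3) (nat_lit 271) (nat_lit 222) (nat_lit 287))) (PT.nd (nat_lit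 78) (PT.lf (nat_lit 24168) (nat_lit 6) (nat_lit 318) (nat_lit 3) (nat_lit 272) (nat_lit 222) (nat_lit 286)) (PT.lf (nat_lit 24244) (nat_lit 6) (nat_lit 319) (nat_lit 3) (nat_lit 273) (nat_lit 222) (nat_lit 285)))) (PT.nd (nat_lit 156) (PT.nd (nat_lit 78) (PT.lf (nat_lit 24320) (nat_lit 6) (nat_lit 320) (nat_lit 3) (nat_lit 274) (nat_lit 222) (nat_lit 284)) (PT.lf (nat_lit 24396) (nat_lit 6) (nat_lit 321) (nat_lit 3) (nat_lit 275) (nat_lit 222) (nat_lit 283))) (PT.nd (nat_lit 78) (PT.lf (nat_lit 24472) (nat_lit 6) (nat_lit 322) (nat_lit 3) (nat_lit 276) (nat_lit 222) (nat_lit 282)) (PT.lf (nat_lit 24548) (nat_lit 6) (nat_lit 323) (nat_lit 3) (nat_lit 277) (nat_lit 222) (nat_lit 281))))) (PT.nd (nat_lit 312) (PT.nd (nat_lit 156) (PT.nd (nat_lit 78) (PT.lf (nat_lit 24624) (nat_lit 6) (nat_lit 324) (nat_lit 3) (nat_lit 278) (nat_lit 222) (nat_lit 280)) (PT.lf (nat_lit 24700) (nat_lit 3) (nat_lit 325) (nat_lit 1) (nat_lit 279) (nat_lit 222) (nat_lit 279))) (PT.nd (nat_lit 78) (PT.lf (nat_lit 24624) (nat_lit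 6) (nat_lit 324) (nat_lit 1) (nat_lit 280) (nat_lit 222) (nat_lit 278)) (PT.lf (nat_lit 24548) (nat_lit 6) (nat_lit 323) (nat_lit 1) (nat_lit 281) (nat_lit 222) (nat_lit 277)))) (PT.nd (nat_lit 156) (PT.nd (nat_lit 78) (PT.lf (nat_lit 24472) (nat_lit 6) (nat_lit 322) (nat_lit 1) (nat_lit 282) (nat_lit 222) (nat_lit 276)) (PT.lf (nat_lit 24396) (nat_lit 6) (nat_lit 321) (nat_lit 1) (nat_lit 283) (nat_lit 222) (nat_lit 275))) (PT.nd (nat_lit 78) (PT.lf (nat_lit 24320) (nat_lit 6) (nat_lit 320) (nat_lit 1) (nat_lit 284) (nat_lit 222) (nat_lit 274)) (PT.lf (nat_lit 24244) (nat_lit 6) (nat_lit 319) (nat_lit 1) (nat_lit 285) (nat_lit 222) (nat_lit 273))))))))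
noncomputable def pc7 : PT := (PT.nd (nat_lit 161928) (PT.nd (nat_lit 80964) (PT.nd (nat_lit 80340) (PT.nd (nat_lit 80028) (PT.nd (nat_lit 78) (PT.lf (nat_lit 24168) (nat_lit 6) (nat_lit 318) (nat_lit 1) (nat_lit 286) (nat_lit 222) (nat_lit 272)) (PT.nd (nat_lit 79872) (PT.lf (nat_lit 24092) (nat_lit 6) (nat_lit 317) (nat_lit 1) (nat_lit 287) (nat_lit 222) (nat_lit 271)) (PT.lf (nat_lit 24776) (nat_lit 6) (nat_lit 326) (nat_lit 3) (nat_lit 270) (nat_lit 223) (nat_lit 287)))) (PT.nd (nat_lit 156) (PT.nd (nat_lit 78) (PT.lf (nat_lit 24852) (nat_lit 6) (nat_lit 327) (nat_lit 3) (nat_lit 271) (nat_lit 223) (nat_lit 286)) (PT.lf (nat_lit 24928) (nat_lit 6) (nat_lit 328) (nat_lit 3) (nat_lit 272) (nat_lit 223) (nat_lit 285))) (PT.nd (nat_lit 78) (PT.lf (nat_lit 25004) (nat_lit 6) (nat_lit 329) (nat_lit 3) (nat_lit 273) (nat_lit 223) (nat_lit 284)) (PT.lf (nat_lit 25080) (nat_lit 6) (nat_lit 330) (nat_lit 3) (nat_lit 274) (nat_lit 223) (nat_lit 283))))) (PT.nd (nat_lit 312) (PT.nd (nat_lit 156) (PT.nd (nat_lit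 78) (PT.lf (nat_lit 25156) (nat_lit 6) (nat_lit 331) (nat_lit 3) (nat_lit 275) (nat_lit 223) (nat_lit 282)) (PT.lf (nat_lit 25232) (nat_lit 6) (nat_lit 332) (nat_lit 3) (nat_lit 276) (nat_lit 223) (nat_lit 281))) (PT.nd (nat_lit 78) (PT.lf (nat_lit 25308) (nat_lit 6) (nat_lit 333) (nat_lit 3) (nat_lit 277) (nat_lit 223) (nat_lit 280)) (PT.lf (nat_lit 25384) (nat_lit 6) (nat_lit 334) (nat_lit 3) (nat_lit 278) (nat_lit 223) (nat_lit 279)))) (PT.nd (nat_lit 156) (PT.nd (nat_lit 78) (PT.lf (nat_lit 25384) (nat_lit 6) (nat_lit 334) (nat_lit 1) (nat_lit 279) (nat_lit 223) (nat_lit 278)) (PT.lf (nat_lit 25308) (nat_lit 6) (nat_lit 333) (nat_lit 1) (nat_lit 280) (nat_lit 223) (nat_lit 277))) (PT.nd (nat_lit 78) (PT.lf (nat_lit 25232) (nat_lit 6) (nat_lit 332) (nat_lit 1) (nat_lit 281) (nat_lit 223) (nat_lit 276)) (PT.lf (nat_lit 25156) (nat_lit 6) (nat_lit 331) (nat_lit 1) (nat_lit 282) (nat_lit 223) (nat_lit 275)))))) (PT.nd (nat_lit 80340) (PT.nd (nat_lit 312) (PT.nd (nat_lit 156) (PT.nd (nat_lit 78) (PT.lf (nat_lit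 25080) (nat_lit 6) (nat_lit 330) (nat_lit 1) (nat_lit 283) (nat_lit 223) (nat_lit 274)) (PT.lf (nat_lit 25004) (nat_lit 6) (nat_lit 329) (nat_lit 1) (nat_lit 284) (nat_lit 223) (nat_lit 273))) (PT.nd (nat_lit 78) (PT.lf (nat_lit 24928) (nat_lit 6) (nat_lit 328) (nat_lit 1) (nat_lit 285) (nat_lit 223) (nat_lit 272)) (PT.lf (nat_lit 24852) (nat_lit 6) (nat_lit 327) (nat_lit 1) (nat_lit 286) (nat_lit 223) (nat_lit 271)))) (PT.nd (nat_lit 79872) (PT.nd (nat_lit 79794) (PT.lf (nat_lit 24776) (nat_lit 6) (nat_lit 326) (nat_lit 1) (nat_lit 287) (nat_lit 223) (nat_lit 270)) (PT.lf (nat_lit 25460) (nat_lit 6) (nat_lit 335) (nat_lit 3) (nat_lit 269) (nat_lit 224) (nat_lit 287))) (PT.nd (nat_lit 78) (PT.lf (nat_lit 25536) (nat_lit 6) (nat_lit 336) (nat_lit 3) (nat_lit 270) (nat_lit 224) (nat_lit 286)) (PT.lf (nat_lit 25612) (nat_lit 6) (nat_lit 337) (nat_lit 3) (nat_lit 271) (nat_lit 224) (nat_lit 285))))) (PT.nd (nat_lit 312) (PT.nd (nat_lit 156) (PT.nd (nat_lit 78) (PT.lf (nat_lit 25688) (nat_lit 6) (nat_lit 338)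 (nat_lit 3) (nat_lit 272) (nat_lit 224) (nat_lit 284)) (PT.lf (nat_lit 25764) (nat_lit 6) (nat_lit 339) (nat_lit 3) (nat_lit 273) (nat_lit 224) (nat_lit 283))) (PT.nd (nat_lit 78) (PT.lf (nat_lit 25840) (nat_lit 6) (nat_lit 340) (nat_lit 3) (nat_lit 274) (nat_lit 224) (nat_lit 282)) (PT.lf (nat_lit 25916) (nat_lit 6) (nat_lit 341) (nat_lit 3) (nat_lit 275) (nat_lit 224) (nat_lit 281)))) (PT.nd (nat_lit 156) (PT.nd (nat_lit 78) (PT.lf (nat_lit 25992) (nat_lit 6) (nat_lit 342) (nat_lit 3) (nat_lit 276) (nat_lit 224) (nat_lit 280)) (PT.lf (nat_lit 26068) (nat_lit 6) (nat_lit 343) (nat_lit 3) (nat_lit 277) (nat_lit 224) (nat_lit 279))) (PT.nd (nat_lit 78) (PT.lf (nat_lit 26144) (nat_lit 3) (nat_lit 344) (nat_lit 1) (nat_lit 278) (nat_lit 224) (nat_lit 278)) (PT.lf (nat_lit 26068) (nat_lit 6) (nat_lit 343) (nat_lit 1) (nat_lit 279) (nat_lit 224) (nat_lit 277))))))) (PT.nd (nat_lit 80808) (PT.nd (nat_lit 546) (PT.nd (nat_lit 234) (PT.nd (nat_lit 78) (PT.lf (nat_lit 25992) (nat_lit 6) (nat_lit 342) (nat_lit 1)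 (nat_lit 280) (nat_lit 224) (nat_lit 276)) (PT.nd (nat_lit 78) (PT.lf (nat_lit 25916) (nat_lit 6) (nat_lit 341) (nat_lit 1) (nat_lit 281) (nat_lit 224) (nat_lit 275)) (PT.lf (nat_lit 25840) (nat_lit 6) (nat_lit 340) (nat_lit 1) (nat_lit 282) (nat_lit 224) (nat_lit 274)))) (PT.nd (nat_lit 156) (PT.nd (nat_lit 78) (PT.lf (nat_lit 25764) (nat_lit 6) (nat_lit 339) (nat_lit 1) (nat_lit 283) (nat_lit 224) (nat_lit 273)) (PT.lf (nat_lit 25688) (nat_lit 6) (nat_lit 338) (nat_lit 1) (nat_lit 284) (nat_lit 224) (nat_lit 272))) (PT.nd (nat_lit 78) (PT.lf (nat_lit 25612) (nat_lit 6) (nat_lit 337) (nat_lit 1) (nat_lit 285) (nat_lit 224) (nat_lit 271)) (PT.lf (nat_lit 25536) (nat_lit 6) (nat_lit 336) (nat_lit 1) (nat_lit 286) (nat_lit 224) (nat_lit 270))))) (PT.nd (nat_lit 79950) (PT.nd (nat_lit 79794) (PT.nd (nat_lit 79716) (PT.lf (nat_lit 25460) (nat_lit 6) (nat_lit 335) (nat_lit 1) (nat_lit 287) (nat_lit 224) (nat_lit 269)) (PT.lf (nat_lit 26220) (nat_lit 6) (nat_lit 345) (nat_lit 3) (nat_lit 268) (nat_lit 225) (nat_lit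 287))) (PT.nd (nat_lit 78) (PT.lf (nat_lit 26296) (nat_lit 6) (nat_lit 346) (nat_lit 3) (nat_lit 269) (nat_lit 225) (nat_lit 286)) (PT.lf (nat_lit 26372) (nat_lit 6) (nat_lit 347) (nat_lit 3) (nat_lit 270) (nat_lit 225) (nat_lit 285)))) (PT.nd (nat_lit 156) (PT.nd (nat_lit 78) (PT.lf (nat_lit 26448) (nat_lit 6) (nat_lit 348) (nat_lit 3) (nat_lit 271) (nat_lit 225) (nat_lit 284)) (PT.lf (nat_lit 26524) (nat_lit 6) (nat_lit 349) (nat_lit 3) (nat_lit 272) (nat_lit 225) (nat_lit 283))) (PT.nd (nat_lit 78) (PT.lf (nat_lit 26600) (nat_lit 6) (nat_lit 350) (nat_lit 3) (nat_lit 273) (nat_lit 225) (nat_lit 282)) (PT.lf (nat_lit 26676) (nat_lit 6) (nat_lit 351) (nat_lit 3) (nat_lit 274) (nat_lit 225) (nat_lit 281)))))) (PT.nd (nat_lit 624) (PT.nd (nat_lit 312) (PT.nd (nat_lit 156) (PT.nd (nat_lit 78) (PT.lf (nat_lit 26752) (nat_lit 6) (nat_lit 352) (nat_lit 3) (nat_lit 275) (nat_lit 225) (nat_lit 280)) (PT.lf (nat_lit 26828) (nat_lit 6) (nat_lit 353) (nat_lit 3) (nat_lit 276) (nat_lit 225) (nat_lit 279))) (PT.nd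 (nat_lit 78) (PT.lf (nat_lit 26904) (nat_lit 6) (nat_lit 354) (nat_lit 3) (nat_lit 277) (nat_lit 225) (nat_lit 278)) (PT.lf (nat_lit 26904) (nat_lit 6) (nat_lit 354) (nat_lit 1) (nat_lit 278) (nat_lit 225) (nat_lit 277)))) (PT.nd (nat_lit 156) (PT.nd (nat_lit 78) (PT.lf (nat_lit 26828) (nat_lit 6) (nat_lit 353) (nat_lit 1) (nat_lit 279) (nat_lit 225) (nat_lit 276)) (PT.lf (nat_lit 26752) (nat_lit 6) (nat_lit 352) (nat_lit 1) (nat_lit 280) (nat_lit 225) (nat_lit 275))) (PT.nd (nat_lit 78) (PT.lf (nat_lit 26676) (nat_lit 6) (nat_lit 351) (nat_lit 1) (nat_lit 281) (nat_lit 225) (nat_lit 274)) (PT.lf (nat_lit 26600) (nat_lit 6) (nat_lit 350) (nat_lit 1) (nat_lit 282) (nat_lit 225) (nat_lit 273))))) (PT.nd (nat_lit 312) (PT.nd (nat_lit 156) (PT.nd (nat_lit 78) (PT.lf (nat_lit 26524) (nat_lit 6) (nat_lit 349) (nat_lit 1) (nat_lit 283) (nat_lit 225) (nat_lit 272)) (PT.lf (nat_lit 26448) (nat_lit 6) (nat_lit 348) (nat_lit 1) (nat_lit 284) (nat_lit 225) (nat_lit 271))) (PT.nd (nat_lit 78) (PT.lf (nat_lit 26372)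 (nat_lit 6) (nat_lit 347) (nat_lit 1) (nat_lit 285) (nat_lit 225) (nat_lit 270)) (PT.lf (nat_lit 26296) (nat_lit 6) (nat_lit 346) (nat_lit 1) (nat_lit 286) (nat_lit 225) (nat_lit 269)))) (PT.nd (nat_lit 79794) (PT.nd (nat_lit 79716) (PT.lf (nat_lit 26220) (nat_lit 6) (nat_lit 345) (nat_lit 1) (nat_lit 287) (nat_lit 225) (nat_lit 268)) (PT.lf (nat_lit 26980) (nat_lit 6) (nat_lit 355) (nat_lit 3) (nat_lit 268) (nat_lit 226) (nat_lit 286))) (PT.nd (nat_lit 78) (PT.lf (nat_lit 27056) (nat_lit 6) (nat_lit 356) (nat_lit 3) (nat_lit 269) (nat_lit 226) (nat_lit 285)) (PT.lf (nat_lit 27132) (nat_lit 6) (nat_lit 357) (nat_lit 3) (nat_lit 270) (nat_lit 226) (nat_lit 284))))))))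
noncomputable def pc8 : PT := (PT.nd (nat_lit 81978) (PT.nd (nat_lit 1170) (PT.nd (nat_lit 546) (PT.nd (nat_lit 234) (PT.nd (nat_lit 78) (PT.lf (nat_lit 27208) (nat_lit 6) (nat_lit 358) (nat_lit 3) (nat_lit 271) (nat_lit 226) (nat_lit 283)) (PT.nd (nat_lit 78) (PT.lf (nat_lit 27284) (nat_lit 6) (nat_lit 359) (nat_lit 3) (nat_lit 272) (nat_lit 226) (nat_lit 282)) (PT.lf (nat_lit 27360) (nat_lit 6) (nat_lit 360) (nat_lit 3) (nat_lit 273) (nat_lit 226) (nat_lit 281)))) (PT.nd (nat_lit 156) (PT.nd (nat_lit 78) (PT.lf (nat_lit 27436) (nat_lit 6) (nat_lit 361) (nat_lit 3) (nat_lit 274) (nat_lit 226) (nat_lit 280)) (PT.lf (nat_lit 27512) (nat_lit 6) (nat_lit 362) (nat_lit 3) (nat_lit 275) (nat_lit 226) (nat_lit 279))) (PT.nd (nat_lit 78) (PT.lf (nat_lit 27588) (nat_lit 6) (nat_lit 363) (nat_lit 3) (nat_lit 276) (nat_lit 226) (nat_lit 278)) (PT.lf (nat_lit 27664) (nat_lit 3) (nat_lit 364) (nat_lit 1) (nat_lit 277) (nat_lit 226) (nat_lit 277))))) (PT.nd (nat_lit 312) (PT.nd (nat_lit 156) (PT.nd (nat_lit 78) (PT.lf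 (nat_lit 27588) (nat_lit 6) (nat_lit 363) (nat_lit 1) (nat_lit 278) (nat_lit 226) (nat_lit 276)) (PT.lf (nat_lit 27512) (nat_lit 6) (nat_lit 362) (nat_lit 1) (nat_lit 279) (nat_lit 226) (nat_lit 275))) (PT.nd (nat_lit 78) (PT.lf (nat_lit 27436) (nat_lit 6) (nat_lit 361) (nat_lit 1) (nat_lit 280) (nat_lit 226) (nat_lit 274)) (PT.lf (nat_lit 27360) (nat_lit 6) (nat_lit 360) (nat_lit 1) (nat_lit 281) (nat_lit 226) (nat_lit 273)))) (PT.nd (nat_lit 156) (PT.nd (nat_lit 78) (PT.lf (nat_lit 27284) (nat_lit 6) (nat_lit 359) (nat_lit 1) (nat_lit 282) (nat_lit 226) (nat_lit 272)) (PT.lf (nat_lit 27208) (nat_lit 6) (nat_lit 358) (nat_lit 1) (nat_lit 283) (nat_lit 226) (nat_lit 271))) (PT.nd (nat_lit 78) (PT.lf (nat_lit 27132) (nat_lit 6) (nat_lit 357) (nat_lit 1) (nat_lit 284) (nat_lit 226) (nat_lit 270)) (PT.lf (nat_lit 27056) (nat_lit 6) (nat_lit 356) (nat_lit 1) (nat_lit 285) (nat_lit 226) (nat_lit 269)))))) (PT.nd (nat_lit 80184) (PT.nd (nat_lit 79872) (PT.nd (nat_lit 79716) (PT.lf (nat_lit 26980) (nat_lit 6)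 (nat_lit 355) (nat_lit 1) (nat_lit 286) (nat_lit 226) (nat_lit 268)) (PT.nd (nat_lit 78) (PT.lf (nat_lit 27740) (nat_lit 6) (nat_lit 365) (nat_lit 3) (nat_lit 267) (nat_lit 227) (nat_lit 286)) (PT.lf (nat_lit 27816) (nat_lit 6) (nat_lit 366) (nat_lit 3) (nat_lit 268) (nat_lit 227) (nat_lit 285)))) (PT.nd (nat_lit 156) (PT.nd (nat_lit 78) (PT.lf (nat_lit 27892) (nat_lit 6) (nat_lit 367) (nat_lit 3) (nat_lit 269) (nat_lit 227) (nat_lit 284)) (PT.lf (nat_lit 27968) (nat_lit 6) (nat_lit 368) (nat_lit 3) (nat_lit 270) (nat_lit 227) (nat_lit 283))) (PT.nd (nat_lit 78) (PT.lf (nat_lit 28044) (nat_lit 6) (nat_lit 369) (nat_lit 3) (nat_lit 271) (nat_lit 227) (nat_lit 282)) (PT.lf (nat_lit 28120) (nat_lit 6) (nat_lit 370) (nat_lit 3) (nat_lit 272) (nat_lit 227) (nat_lit 281))))) (PT.nd (nat_lit 312) (PT.nd (nat_lit 156) (PT.nd (nat_lit 78) (PT.lf (nat_lit 28196) (nat_lit 6) (nat_lit 371) (nat_lit 3) (nat_lit 273) (nat_lit 227) (nat_lit 280)) (PT.lf (nat_lit 28272) (nat_lit 6) (nat_lit 372) (nat_lit 3) (nat_lit 274)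 (nat_lit 227) (nat_lit 279))) (PT.nd (nat_lit 78) (PT.lf (nat_lit 28348) (nat_lit 6) (nat_lit 373) (nat_lit 3) (nat_lit 275) (nat_lit 227) (nat_lit 278)) (PT.lf (nat_lit 28424) (nat_lit 6) (nat_lit 374) (nat_lit 3) (nat_lit 276) (nat_lit 227) (nat_lit 277)))) (PT.nd (nat_lit 156) (PT.nd (nat_lit 78) (PT.lf (nat_lit 28424) (nat_lit 6) (nat_lit 374) (nat_lit 1) (nat_lit 277) (nat_lit 227) (nat_lit 276)) (PT.lf (nat_lit 28348) (nat_lit 6) (nat_lit 373) (nat_lit 1) (nat_lit 278) (nat_lit 227) (nat_lit 275))) (PT.nd (nat_lit 78) (PT.lf (nat_lit 28272) (nat_lit 6) (nat_lit 372) (nat_lit 1) (nat_lit 279) (nat_lit 227) (nat_lit 274)) (PT.lf (nat_lit 28196) (nat_lit 6) (nat_lit 371) (nat_lit 1) (nat_lit 280) (nat_lit 227) (nat_lit 273))))))) (PT.nd (nat_lit 80730) (PT.nd (nat_lit 80106) (PT.nd (nat_lit 234) (PT.nd (nat_lit 78) (PT.lf (nat_lit 28120) (nat_lit 6) (nat_lit 370) (nat_lit 1) (nat_lit 281) (nat_lit 227) (nat_lit 272)) (PT.nd (nat_lit 78) (PT.lf (nat_lit 28044) (nat_lit 6) (nat_lit 369) (nat_lit 1) (nat_lit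 282) (nat_lit 227) (nat_lit 271)) (PT.lf (nat_lit 27968) (nat_lit 6) (nat_lit 368) (nat_lit 1) (nat_lit 283) (nat_lit 227) (nat_lit 270)))) (PT.nd (nat_lit 156) (PT.nd (nat_lit 78) (PT.lf (nat_lit 27892) (nat_lit 6) (nat_lit 367) (nat_lit 1) (nat_lit 284) (nat_lit 227) (nat_lit 269)) (PT.lf (nat_lit 27816) (nat_lit 6) (nat_lit 366) (nat_lit 1) (nat_lit 285) (nat_lit 227) (nat_lit 268))) (PT.nd (nat_lit 79638) (PT.lf (nat_lit 27740) (nat_lit 6) (nat_lit 365) (nat_lit 1) (nat_lit 286) (nat_lit 227) (nat_lit 267)) (PT.lf (nat_lit 28500) (nat_lit 6) (nat_lit 375) (nat_lit 3) (nat_lit 266) (nat_lit 228) (nat_lit 286))))) (PT.nd (nat_lit 312) (PT.nd (nat_lit 156) (PT.nd (nat_lit 78) (PT.lf (nat_lit 28576) (nat_lit 6) (nat_lit 376) (nat_lit 3) (nat_lit 267) (nat_lit 228) (nat_lit 285)) (PT.lf (nat_lit 28652) (nat_lit 6) (nat_lit 377) (nat_lit 3) (nat_lit 268) (nat_lit 228) (nat_lit 284))) (PT.nd (nat_lit 78) (PT.lf (nat_lit 28728) (nat_lit 6) (nat_lit 378) (nat_lit 3) (nat_lit 269) (nat_lit 228) (nat_lit 283))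 (PT.lf (nat_lit 28804) (nat_lit 6) (nat_lit 379) (nat_lit 3) (nat_lit 270) (nat_lit 228) (nat_lit 282)))) (PT.nd (nat_lit 156) (PT.nd (nat_lit 78) (PT.lf (nat_lit 28880) (nat_lit 6) (nat_lit 380) (nat_lit 3) (nat_lit 271) (nat_lit 228) (nat_lit 281)) (PT.lf (nat_lit 28956) (nat_lit 6) (nat_lit 381) (nat_lit 3) (nat_lit 272) (nat_lit 228) (nat_lit 280))) (PT.nd (nat_lit 78) (PT.lf (nat_lit 29032) (nat_lit 6) (nat_lit 382) (nat_lit 3) (nat_lit 273) (nat_lit 228) (nat_lit 279)) (PT.lf (nat_lit 29108) (nat_lit 6) (nat_lit 383) (nat_lit 3) (nat_lit 274) (nat_lit 228) (nat_lit 278)))))) (PT.nd (nat_lit 624) (PT.nd (nat_lit 312) (PT.nd (nat_lit 156) (PT.nd (nat_lit 78) (PT.lf (nat_lit 29184) (nat_lit 6) (nat_lit 384) (nat_lit 3) (nat_lit 275) (nat_lit 228) (nat_lit 277)) (PT.lf (nat_lit 29260) (nat_lit 3) (nat_lit 385) (nat_lit 1) (nat_lit 276) (nat_lit 228) (nat_lit 276))) (PT.nd (nat_lit 78) (PT.lf (nat_lit 29184) (nat_lit 6) (nat_lit 384) (nat_lit 1) (nat_lit 277) (nat_lit 228) (nat_lit 275)) (PT.lf (nat_lit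 29108) (nat_lit 6) (nat_lit 383) (nat_lit 1) (nat_lit 278) (nat_lit 228) (nat_lit 274)))) (PT.nd (nat_lit 156) (PT.nd (nat_lit 78) (PT.lf (nat_lit 29032) (nat_lit 6) (nat_lit 382) (nat_lit 1) (nat_lit 279) (nat_lit 228) (nat_lit 273)) (PT.lf (nat_lit 28956) (nat_lit 6) (nat_lit 381) (nat_lit 1) (nat_lit 280) (nat_lit 228) (nat_lit 272))) (PT.nd (nat_lit 78) (PT.lf (nat_lit 28880) (nat_lit 6) (nat_lit 380) (nat_lit 1) (nat_lit 281) (nat_lit 228) (nat_lit 271)) (PT.lf (nat_lit 28804) (nat_lit 6) (nat_lit 379) (nat_lit 1) (nat_lit 282) (nat_lit 228) (nat_lit 270))))) (PT.nd (nat_lit 79794) (PT.nd (nat_lit 156) (PT.nd (nat_lit 78) (PT.lf (nat_lit 28728) (nat_lit 6) (nat_lit 378) (nat_lit 1) (nat_lit 283) (nat_lit 228) (nat_lit 269)) (PT.lf (nat_lit 28652) (nat_lit 6) (nat_lit 377) (nat_lit 1) (nat_lit 284) (nat_lit 228) (nat_lit 268))) (PT.nd (nat_lit 78) (PT.lf (nat_lit 28576) (nat_lit 6) (nat_lit 376) (nat_lit 1) (nat_lit 285) (nat_lit 228) (nat_lit 267)) (PT.lf (nat_lit 28500) (nat_lit 6) (nat_lit 375) (nat_lit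 1) (nat_lit 286) (nat_lit 228) (nat_lit 266)))) (PT.nd (nat_lit 156) (PT.nd (nat_lit 78) (PT.lf (nat_lit 29336) (nat_lit 6) (nat_lit 386) (nat_lit 3) (nat_lit 265) (nat_lit 229) (nat_lit 286)) (PT.lf (nat_lit 29412) (nat_lit 6) (nat_lit 387) (nat_lit 3) (nat_lit 266) (nat_lit 229) (nat_lit 285))) (PT.nd (nat_lit 78) (PT.lf (nat_lit 29488) (nat_lit 6) (nat_lit 388) (nat_lit 3) (nat_lit 267) (nat_lit 229) (nat_lit 284)) (PT.lf (nat_lit 29564) (nat_lit 6) (nat_lit 389) (nat_lit 3) (nat_lit 268) (nat_lit 229) (nat_lit 283))))))))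
noncomputable def pc9 : PT := (PT.nd (nat_lit 81822) (PT.nd (nat_lit 1170) (PT.nd (nat_lit 546) (PT.nd (nat_lit 234) (PT.nd (nat_lit 78) (PT.lf (nat_lit 29640) (nat_lit 6) (nat_lit 390) (nat_lit 3) (nat_lit 269) (nat_lit 229) (nat_lit 282)) (PT.nd (nat_lit 78) (PT.lf (nat_lit 29716) (nat_lit 6) (nat_lit 391) (nat_lit 3) (nat_lit 270) (nat_lit 229) (nat_lit 281)) (PT.lf (nat_lit 29792) (nat_lit 6) (nat_lit 392) (nat_lit 3) (nat_lit 271) (nat_lit 229) (nat_lit 280)))) (PT.nd (nat_lit 156) (PT.nd (nat_lit 78) (PT.lf (nat_lit 29868) (nat_lit 6) (nat_lit 393) (nat_lit 3) (nat_lit 272) (nat_lit 229) (nat_lit 279)) (PT.lf (nat_lit 29944) (nat_lit 6) (nat_lit 394) (nat_lit 3) (nat_lit 273) (nat_lit 229) (nat_lit 278))) (PT.nd (nat_lit 78) (PT.lf (nat_lit 30020) (nat_lit 6) (nat_lit 395) (nat_lit 3) (nat_lit 274) (nat_lit 229) (nat_lit 277)) (PT.lf (nat_lit 30096) (nat_lit 6) (nat_lit 396) (nat_lit 3) (nat_lit 275) (nat_lit 229) (nat_lit 276))))) (PT.nd (nat_lit 312) (PT.nd (nat_lit 156) (PT.nd (nat_lit 78) (PT.lf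 (nat_lit 30096) (nat_lit 6) (nat_lit 396) (nat_lit 1) (nat_lit 276) (nat_lit 229) (nat_lit 275)) (PT.lf (nat_lit 30020) (nat_lit 6) (nat_lit 395) (nat_lit 1) (nat_lit 277) (nat_lit 229) (nat_lit 274))) (PT.nd (nat_lit 78) (PT.lf (nat_lit 29944) (nat_lit 6) (nat_lit 394) (nat_lit 1) (nat_lit 278) (nat_lit 229) (nat_lit 273)) (PT.lf (nat_lit 29868) (nat_lit 6) (nat_lit 393) (nat_lit 1) (nat_lit 279) (nat_lit 229) (nat_lit 272)))) (PT.nd (nat_lit 156) (PT.nd (nat_lit 78) (PT.lf (nat_lit 29792) (nat_lit 6) (nat_lit 392) (nat_lit 1) (nat_lit 280) (nat_lit 229) (nat_lit 271)) (PT.lf (nat_lit 29716) (nat_lit 6) (nat_lit 391) (nat_lit 1) (nat_lit 281) (nat_lit 229) (nat_lit 270))) (PT.nd (nat_lit 78) (PT.lf (nat_lit 29640) (nat_lit 6) (nat_lit 390) (nat_lit 1) (nat_lit 282) (nat_lit 229) (nat_lit 269)) (PT.lf (nat_lit 29564) (nat_lit 6) (nat_lit 389) (nat_lit 1) (nat_lit 283) (nat_lit 229) (nat_lit 268)))))) (PT.nd (nat_lit 80028) (PT.nd (nat_lit 79716) (PT.nd (nat_lit 156) (PT.nd (nat_lit 78) (PT.lf (nat_lit 29488)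 (nat_lit 6) (nat_lit 388) (nat_lit 1) (nat_lit 284) (nat_lit 229) (nat_lit 267)) (PT.lf (nat_lit 29412) (nat_lit 6) (nat_lit 387) (nat_lit 1) (nat_lit 285) (nat_lit 229) (nat_lit 266))) (PT.nd (nat_lit 79482) (PT.lf (nat_lit 29336) (nat_lit 6) (nat_lit 386) (nat_lit 1) (nat_lit 286) (nat_lit 229) (nat_lit 265)) (PT.lf (nat_lit 30172) (nat_lit 6) (nat_lit 397) (nat_lit 3) (nat_lit 264) (nat_lit 230) (nat_lit 286)))) (PT.nd (nat_lit 156) (PT.nd (nat_lit 78) (PT.lf (nat_lit 30248) (nat_lit 6) (nat_lit 398) (nat_lit 3) (nat_lit 265) (nat_lit 230) (nat_lit 285)) (PT.lf (nat_lit 30324) (nat_lit 6) (nat_lit 399) (nat_lit 3) (nat_lit 266) (nat_lit 230) (nat_lit 284))) (PT.nd (nat_lit 78) (PT.lf (nat_lit 30400) (nat_lit 6) (nat_lit 400) (nat_lit 3) (nat_lit 267) (nat_lit 230) (nat_lit 283)) (PT.lf (nat_lit 30476) (nat_lit 6) (nat_lit 401) (nat_lit 3) (nat_lit 268) (nat_lit 230) (nat_lit 282))))) (PT.nd (nat_lit 312) (PT.nd (nat_lit 156) (PT.nd (nat_lit 78) (PT.lf (nat_lit 30552) (nat_lit 6) (nat_lit 402) (nat_lit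 3) (nat_lit 269) (nat_lit 230) (nat_lit 281)) (PT.lf (nat_lit 30628) (nat_lit 6) (nat_lit 403) (nat_lit 3) (nat_lit 270) (nat_lit 230) (nat_lit 280))) (PT.nd (nat_lit 78) (PT.lf (nat_lit 30704) (nat_lit 6) (nat_lit 404) (nat_lit 3) (nat_lit 271) (nat_lit 230) (nat_lit 279)) (PT.lf (nat_lit 30780) (nat_lit 6) (nat_lit 405) (nat_lit 3) (nat_lit 272) (nat_lit 230) (nat_lit 278)))) (PT.nd (nat_lit 156) (PT.nd (nat_lit 78) (PT.lf (nat_lit 30856) (nat_lit 6) (nat_lit 406) (nat_lit 3) (nat_lit 273) (nat_lit 230) (nat_lit 277)) (PT.lf (nat_lit 30932) (nat_lit 6) (nat_lit 407) (nat_lit 3) (nat_lit 274) (nat_lit 230) (nat_lit 276))) (PT.nd (nat_lit 78) (PT.lf (nat_lit 31008) (nat_lit 3) (nat_lit 408) (nat_lit 1) (nat_lit 275) (nat_lit 230) (nat_lit 275)) (PT.lf (nat_lit 30932) (nat_lit 6) (nat_lit 407) (nat_lit 1) (nat_lit 276) (nat_lit 230) (nat_lit 274))))))) (PT.nd (nat_lit 80574) (PT.nd (nat_lit 546) (PT.nd (nat_lit 234) (PT.nd (nat_lit 78) (PT.lf (nat_lit 30856) (nat_lit 6) (nat_lit 406) (nat_lit 1) (nat_lit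 277) (nat_lit 230) (nat_lit 273)) (PT.nd (nat_lit 78) (PT.lf (nat_lit 30780) (nat_lit 6) (nat_lit 405) (nat_lit 1) (nat_lit 278) (nat_lit 230) (nat_lit 272)) (PT.lf (nat_lit 30704) (nat_lit 6) (nat_lit 404) (nat_lit 1) (nat_lit 279) (nat_lit 230) (nat_lit 271)))) (PT.nd (nat_lit 156) (PT.nd (nat_lit 78) (PT.lf (nat_lit 30628) (nat_lit 6) (nat_lit 403) (nat_lit 1) (nat_lit 280) (nat_lit 230) (nat_lit 270)) (PT.lf (nat_lit 30552) (nat_lit 6) (nat_lit 402) (nat_lit 1) (nat_lit 281) (nat_lit 230) (nat_lit 269))) (PT.nd (nat_lit 78) (PT.lf (nat_lit 30476) (nat_lit 6) (nat_lit 401) (nat_lit 1) (nat_lit 282) (nat_lit 230) (nat_lit 268)) (PT.lf (nat_lit 30400) (nat_lit 6) (nat_lit 400) (nat_lit 1) (nat_lit 283) (nat_lit 230) (nat_lit 267))))) (PT.nd (nat_lit 79716) (PT.nd (nat_lit 156) (PT.nd (nat_lit 78) (PT.lf (nat_lit 30324) (nat_lit 6) (nat_lit 399) (nat_lit 1) (nat_lit 284) (nat_lit 230) (nat_lit 266)) (PT.lf (nat_lit 30248) (nat_lit 6) (nat_lit 398) (nat_lit 1) (nat_lit 285) (nat_lit 230) (nat_lit 265)))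 (PT.nd (nat_lit 79482) (PT.lf (nat_lit 30172) (nat_lit 6) (nat_lit 397) (nat_lit 1) (nat_lit 286) (nat_lit 230) (nat_lit 264)) (PT.lf (nat_lit 31084) (nat_lit 6) (nat_lit 409) (nat_lit 3) (nat_lit 264) (nat_lit 231) (nat_lit 285)))) (PT.nd (nat_lit 156) (PT.nd (nat_lit 78) (PT.lf (nat_lit 31160) (nat_lit 6) (nat_lit 410) (nat_lit 3) (nat_lit 265) (nat_lit 231) (nat_lit 284)) (PT.lf (nat_lit 31236) (nat_lit 6) (nat_lit 411) (nat_lit 3) (nat_lit 266) (nat_lit 231) (nat_lit 283))) (PT.nd (nat_lit 78) (PT.lf (nat_lit 31312) (nat_lit 6) (nat_lit 412) (nat_lit 3) (nat_lit 267) (nat_lit 231) (nat_lit 282)) (PT.lf (nat_lit 31388) (nat_lit 6) (nat_lit 413) (nat_lit 3) (nat_lit 268) (nat_lit 231) (nat_lit 281)))))) (PT.nd (nat_lit 624) (PT.nd (nat_lit 312) (PT.nd (nat_lit 156) (PT.nd (nat_lit 78) (PT.lf (nat_lit 31464) (nat_lit 6) (nat_lit 414) (nat_lit 3) (nat_lit 269) (nat_lit 231) (nat_lit 280)) (PT.lf (nat_lit 31540) (nat_lit 6) (nat_lit 415) (nat_lit 3) (nat_lit 270) (nat_lit 231) (nat_lit 279))) (PT.nd (nat_lit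 78) (PT.lf (nat_lit 31616) (nat_lit 6) (nat_lit 416) (nat_lit 3) (nat_lit 271) (nat_lit 231) (nat_lit 278)) (PT.lf (nat_lit 31692) (nat_lit 6) (nat_lit 417) (nat_lit 3) (nat_lit 272) (nat_lit 231) (nat_lit 277)))) (PT.nd (nat_lit 156) (PT.nd (nat_lit 78) (PT.lf (nat_lit 31768) (nat_lit 6) (nat_lit 418) (nat_lit 3) (nat_lit 273) (nat_lit 231) (nat_lit 276)) (PT.lf (nat_lit 31844) (nat_lit 6) (nat_lit 419) (nat_lit 3) (nat_lit 274) (nat_lit 231) (nat_lit 275))) (PT.nd (nat_lit 78) (PT.lf (nat_lit 31844) (nat_lit 6) (nat_lit 419) (nat_lit 1) (nat_lit 275) (nat_lit 231) (nat_lit 274)) (PT.lf (nat_lit 31768) (nat_lit 6) (nat_lit 418) (nat_lit 1) (nat_lit 276) (nat_lit 231) (nat_lit 273))))) (PT.nd (nat_lit 312) (PT.nd (nat_lit 156) (PT.nd (nat_lit 78) (PT.lf (nat_lit 31692) (nat_lit 6) (nat_lit 417) (nat_lit 1) (nat_lit 277) (nat_lit 231) (nat_lit 272)) (PT.lf (nat_lit 31616) (nat_lit 6) (nat_lit 416) (nat_lit 1) (nat_lit 278) (nat_lit 231) (nat_lit 271))) (PT.nd (nat_lit 78) (PT.lf (nat_lit 31540) (nat_lit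 6) (nat_lit 415) (nat_lit 1) (nat_lit 279) (nat_lit 231) (nat_lit 270)) (PT.lf (nat_lit 31464) (nat_lit 6) (nat_lit 414) (nat_lit 1) (nat_lit 280) (nat_lit 231) (nat_lit 269)))) (PT.nd (nat_lit 156) (PT.nd (nat_lit 78) (PT.lf (nat_lit 31388) (nat_lit 6) (nat_lit 413) (nat_lit 1) (nat_lit 281) (nat_lit 231) (nat_lit 268)) (PT.lf (nat_lit 31312) (nat_lit 6) (nat_lit 412) (nat_lit 1) (nat_lit 282) (nat_lit 231) (nat_lit 267))) (PT.nd (nat_lit 78) (PT.lf (nat_lit 31236) (nat_lit 6) (nat_lit 411) (nat_lit 1) (nat_lit 283) (nat_lit 231) (nat_lit 266)) (PT.lf (nat_lit 31160) (nat_lit 6) (nat_lit 410) (nat_lit 1) (nat_lit 284) (nat_lit 231) (nat_lit 265))))))))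
noncomputable def pc10 : PT := (PT.nd (nat_lit 161148) (PT.nd (nat_lit 80574) (PT.nd (nat_lit 79950) (PT.nd (nat_lit 79638) (PT.nd (nat_lit 79482) (PT.lf (nat_lit 31084) (nat_lit 6) (nat_lit 409) (nat_lit 1) (nat_lit 285) (nat_lit 231) (nat_lit 264)) (PT.nd (nat_lit 78) (PT.lf (nat_lit 31920) (nat_lit 6) (nat_lit 420) (nat_lit 3) (nat_lit 263) (nat_lit 232) (nat_lit 285)) (PT.lf (nat_lit 31996) (nat_lit 6) (nat_lit 421) (nat_lit 3) (nat_lit 264) (nat_lit 232) (nat_lit 284)))) (PT.nd (nat_lit 156) (PT.nd (nat_lit 78) (PT.lf (nat_lit 32072) (nat_lit 6) (nat_lit 422) (nat_lit 3) (nat_lit 265) (nat_lit 232) (nat_lit 283)) (PT.lf (nat_lit 32148) (nat_lit 6) (nat_lit 423) (nat_lit 3) (nat_lit 266) (nat_lit 232) (nat_lit 282))) (PT.nd (nat_lit 78) (PT.lf (nat_lit 32224) (nat_lit 6) (nat_lit 424) (nat_lit 3) (nat_lit 267) (nat_lit 232) (nat_lit 281)) (PT.lf (nat_lit 32300) (nat_lit 6) (nat_lit 425) (nat_lit 3) (nat_lit 268) (nat_lit 232) (nat_lit 280))))) (PT.nd (nat_lit 312) (PT.nd (nat_lit 156) (PT.nd (nat_lit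 78) (PT.lf (nat_lit 32376) (nat_lit 6) (nat_lit 426) (nat_lit 3) (nat_lit 269) (nat_lit 232) (nat_lit 279)) (PT.lf (nat_lit 32452) (nat_lit 6) (nat_lit 427) (nat_lit 3) (nat_lit 270) (nat_lit 232) (nat_lit 278))) (PT.nd (nat_lit 78) (PT.lf (nat_lit 32528) (nat_lit 6) (nat_lit 428) (nat_lit 3) (nat_lit 271) (nat_lit 232) (nat_lit 277)) (PT.lf (nat_lit 32604) (nat_lit 6) (nat_lit 429) (nat_lit 3) (nat_lit 272) (nat_lit 232) (nat_lit 276)))) (PT.nd (nat_lit 156) (PT.nd (nat_lit 78) (PT.lf (nat_lit 32680) (nat_lit 6) (nat_lit 430) (nat_lit 3) (nat_lit 273) (nat_lit 232) (nat_lit 275)) (PT.lf (nat_lit 32756) (nat_lit 3) (nat_lit 431) (nat_lit 1) (nat_lit 274) (nat_lit 232) (nat_lit 274))) (PT.nd (nat_lit 78) (PT.lf (nat_lit 32680) (nat_lit 6) (nat_lit 430) (nat_lit 1) (nat_lit 275) (nat_lit 232) (nat_lit 273)) (PT.lf (nat_lit 32604) (nat_lit 6) (nat_lit 429) (nat_lit 1) (nat_lit 276) (nat_lit 232) (nat_lit 272)))))) (PT.nd (nat_lit 624) (PT.nd (nat_lit 312) (PT.nd (nat_lit 156) (PT.nd (nat_lit 78) (PT.lf (nat_lit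 32528) (nat_lit 6) (nat_lit 428) (nat_lit 1) (nat_lit 277) (nat_lit 232) (nat_lit 271)) (PT.lf (nat_lit 32452) (nat_lit 6) (nat_lit 427) (nat_lit 1) (nat_lit 278) (nat_lit 232) (nat_lit 270))) (PT.nd (nat_lit 78) (PT.lf (nat_lit 32376) (nat_lit 6) (nat_lit 426) (nat_lit 1) (nat_lit 279) (nat_lit 232) (nat_lit 269)) (PT.lf (nat_lit 32300) (nat_lit 6) (nat_lit 425) (nat_lit 1) (nat_lit 280) (nat_lit 232) (nat_lit 268)))) (PT.nd (nat_lit 156) (PT.nd (nat_lit 78) (PT.lf (nat_lit 32224) (nat_lit 6) (nat_lit 424) (nat_lit 1) (nat_lit 281) (nat_lit 232) (nat_lit 267)) (PT.lf (nat_lit 32148) (nat_lit 6) (nat_lit 423) (nat_lit 1) (nat_lit 282) (nat_lit 232) (nat_lit 266))) (PT.nd (nat_lit 78) (PT.lf (nat_lit 32072) (nat_lit 6) (nat_lit 422) (nat_lit 1) (nat_lit 283) (nat_lit 232) (nat_lit 265)) (PT.lf (nat_lit 31996) (nat_lit 6) (nat_lit 421) (nat_lit 1) (nat_lit 284) (nat_lit 232) (nat_lit 264))))) (PT.nd (nat_lit 79638) (PT.nd (nat_lit 79482) (PT.nd (nat_lit 79404) (PT.lf (nat_lit 31920) (nat_lit 6) (nat_lit 420)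 (nat_lit 1) (nat_lit 285) (nat_lit 232) (nat_lit 263)) (PT.lf (nat_lit 32832) (nat_lit 6) (nat_lit 432) (nat_lit 3) (nat_lit 262) (nat_lit 233) (nat_lit 285))) (PT.nd (nat_lit 78) (PT.lf (nat_lit 32908) (nat_lit 6) (nat_lit 433) (nat_lit 3) (nat_lit 263) (nat_lit 233) (nat_lit 284)) (PT.lf (nat_lit 32984) (nat_lit 6) (nat_lit 434) (nat_lit 3) (nat_lit 264) (nat_lit 233) (nat_lit 283)))) (PT.nd (nat_lit 156) (PT.nd (nat_lit 78) (PT.lf (nat_lit 33060) (nat_lit 6) (nat_lit 435) (nat_lit 3) (nat_lit 265) (nat_lit 233) (nat_lit 282)) (PT.lf (nat_lit 33136) (nat_lit 6) (nat_lit 436) (nat_lit 3) (nat_lit 266) (nat_lit 233) (nat_lit 281))) (PT.nd (nat_lit 78) (PT.lf (nat_lit 33212) (nat_lit 6) (nat_lit 437) (nat_lit 3) (nat_lit 267) (nat_lit 233) (nat_lit 280)) (PT.lf (nat_lit 33288) (nat_lit 6) (nat_lit 438) (nat_lit 3) (nat_lit 268) (nat_lit 233) (nat_lit 279))))))) (PT.nd (nat_lit 1170) (PT.nd (nat_lit 546) (PT.nd (nat_lit 234) (PT.nd (nat_lit 78) (PT.lf (nat_lit 33364) (nat_lit 6) (nat_lit 439) (nat_lit 3)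 (nat_lit 269) (nat_lit 233) (nat_lit 278)) (PT.nd (nat_lit 78) (PT.lf (nat_lit 33440) (nat_lit 6) (nat_lit 440) (nat_lit 3) (nat_lit 270) (nat_lit 233) (nat_lit 277)) (PT.lf (nat_lit 33516) (nat_lit 6) (nat_lit 441) (nat_lit 3) (nat_lit 271) (nat_lit 233) (nat_lit 276)))) (PT.nd (nat_lit 156) (PT.nd (nat_lit 78) (PT.lf (nat_lit 33592) (nat_lit 6) (nat_lit 442) (nat_lit 3) (nat_lit 272) (nat_lit 233) (nat_lit 275)) (PT.lf (nat_lit 33668) (nat_lit 6) (nat_lit 443) (nat_lit 3) (nat_lit 273) (nat_lit 233) (nat_lit 274))) (PT.nd (nat_lit 78) (PT.lf (nat_lit 33668) (nat_lit 6) (nat_lit 443) (nat_lit 1) (nat_lit 274) (nat_lit 233) (nat_lit 273)) (PT.lf (nat_lit 33592) (nat_lit 6) (nat_lit 442) (nat_lit 1) (nat_lit 275) (nat_lit 233) (nat_lit 272))))) (PT.nd (nat_lit 312) (PT.nd (nat_lit 156) (PT.nd (nat_lit 78) (PT.lf (nat_lit 33516) (nat_lit 6) (nat_lit 441) (nat_lit 1) (nat_lit 276) (nat_lit 233) (nat_lit 271)) (PT.lf (nat_lit 33440) (nat_lit 6) (nat_lit 440) (nat_lit 1) (nat_lit 277) (nat_lit 233) (nat_lit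 270))) (PT.nd (nat_lit 78) (PT.lf (nat_lit 33364) (nat_lit 6) (nat_lit 439) (nat_lit 1) (nat_lit 278) (nat_lit 233) (nat_lit 269)) (PT.lf (nat_lit 33288) (nat_lit 6) (nat_lit 438) (nat_lit 1) (nat_lit 279) (nat_lit 233) (nat_lit 268)))) (PT.nd (nat_lit 156) (PT.nd (nat_lit 78) (PT.lf (nat_lit 33212) (nat_lit 6) (nat_lit 437) (nat_lit 1) (nat_lit 280) (nat_lit 233) (nat_lit 267)) (PT.lf (nat_lit 33136) (nat_lit 6) (nat_lit 436) (nat_lit 1) (nat_lit 281) (nat_lit 233) (nat_lit 266))) (PT.nd (nat_lit 78) (PT.lf (nat_lit 33060) (nat_lit 6) (nat_lit 435) (nat_lit 1) (nat_lit 282) (nat_lit 233) (nat_lit 265)) (PT.lf (nat_lit 32984) (nat_lit 6) (nat_lit 434) (nat_lit 1) (nat_lit 283) (nat_lit 233) (nat_lit 264)))))) (PT.nd (nat_lit 79872) (PT.nd (nat_lit 79560) (PT.nd (nat_lit 79404) (PT.nd (nat_lit 78) (PT.lf (nat_lit 32908) (nat_lit 6) (nat_lit 433) (nat_lit 1) (nat_lit 284) (nat_lit 233) (nat_lit 263)) (PT.lf (nat_lit 32832) (nat_lit 6) (nat_lit 432) (nat_lit 1) (nat_lit 285) (nat_lit 233) (nat_lit 262))) (PT.nd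 (nat_lit 78) (PT.lf (nat_lit 33744) (nat_lit 6) (nat_lit 444) (nat_lit 3) (nat_lit 261) (nat_lit 234) (nat_lit 285)) (PT.lf (nat_lit 33820) (nat_lit 6) (nat_lit 445) (nat_lit 3) (nat_lit 262) (nat_lit 234) (nat_lit 284)))) (PT.nd (nat_lit 156) (PT.nd (nat_lit 78) (PT.lf (nat_lit 33896) (nat_lit 6) (nat_lit 446) (nat_lit 3) (nat_lit 263) (nat_lit 234) (nat_lit 283)) (PT.lf (nat_lit 33972) (nat_lit 6) (nat_lit 447) (nat_lit 3) (nat_lit 264) (nat_lit 234) (nat_lit 282))) (PT.nd (nat_lit 78) (PT.lf (nat_lit 34048) (nat_lit 6) (nat_lit 448) (nat_lit 3) (nat_lit 265) (nat_lit 234) (nat_lit 281)) (PT.lf (nat_lit 34124) (nat_lit 6) (nat_lit 449) (nat_lit 3) (nat_lit 266) (nat_lit 234) (nat_lit 280))))) (PT.nd (nat_lit 312) (PT.nd (nat_lit 156) (PT.nd (nat_lit 78) (PT.lf (nat_lit 34200) (nat_lit 6) (nat_lit 450) (nat_lit 3) (nat_lit 267) (nat_lit 234) (nat_lit 279)) (PT.lf (nat_lit 34276) (nat_lit 6) (nat_lit 451) (nat_lit 3) (nat_lit 268) (nat_lit 234) (nat_lit 278))) (PT.nd (nat_lit 78) (PT.lf (nat_lit 34352)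 (nat_lit 6) (nat_lit 452) (nat_lit 3) (nat_lit 269) (nat_lit 234) (nat_lit 277)) (PT.lf (nat_lit 34428) (nat_lit 6) (nat_lit 453) (nat_lit 3) (nat_lit 270) (nat_lit 234) (nat_lit 276)))) (PT.nd (nat_lit 156) (PT.nd (nat_lit 78) (PT.lf (nat_lit 34504) (nat_lit 6) (nat_lit 454) (nat_lit 3) (nat_lit 271) (nat_lit 234) (nat_lit 275)) (PT.lf (nat_lit 34580) (nat_lit 6) (nat_lit 455) (nat_lit 3) (nat_lit 272) (nat_lit 234) (nat_lit 274))) (PT.nd (nat_lit 78) (PT.lf (nat_lit 34656) (nat_lit 3) (nat_lit 456) (nat_lit 1) (nat_lit 273) (nat_lit 234) (nat_lit 273)) (PT.lf (nat_lit 34580) (nat_lit 6) (nat_lit 455) (nat_lit 1) (nat_lit 274) (nat_lit 234) (nat_lit 272))))))))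
noncomputable def pc11 : PT := (PT.nd (nat_lit 81588) (PT.nd (nat_lit 80340) (PT.nd (nat_lit 546) (PT.nd (nat_lit 234) (PT.nd (nat_lit 78) (PT.lf (nat_lit 34504) (nat_lit 6) (nat_lit 454) (nat_lit 1) (nat_lit 275) (nat_lit 234) (nat_lit 271)) (PT.nd (nat_lit 78) (PT.lf (nat_lit 34428) (nat_lit 6) (nat_lit 453) (nat_lit 1) (nat_lit 276) (nat_lit 234) (nat_lit 270)) (PT.lf (nat_lit 34352) (nat_lit 6) (nat_lit 452) (nat_lit 1) (nat_lit 277) (nat_lit 234) (nat_lit 269)))) (PT.nd (nat_lit 156) (PT.nd (nat_lit 78) (PT.lf (nat_lit 34276) (nat_lit 6) (nat_lit 451) (nat_lit 1) (nat_lit 278) (nat_lit 234) (nat_lit 268)) (PT.lf (nat_lit 34200) (nat_lit 6) (nat_lit 450) (nat_lit 1) (nat_lit 279) (nat_lit 234) (nat_lit 267))) (PT.nd (nat_lit 78) (PT.lf (nat_lit 34124) (nat_lit 6) (nat_lit 449) (nat_lit 1) (nat_lit 280) (nat_lit 234) (nat_lit 266)) (PT.lf (nat_lit 34048) (nat_lit 6) (nat_lit 448) (nat_lit 1) (nat_lit 281) (nat_lit 234) (nat_lit 265))))) (PT.nd (nat_lit 79482) (PT.nd (nat_lit 156) (PT.nd (nat_lit 78)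 (PT.lf (nat_lit 33972) (nat_lit 6) (nat_lit 447) (nat_lit 1) (nat_lit 282) (nat_lit 234) (nat_lit 264)) (PT.lf (nat_lit 33896) (nat_lit 6) (nat_lit 446) (nat_lit 1) (nat_lit 283) (nat_lit 234) (nat_lit 263))) (PT.nd (nat_lit 78) (PT.lf (nat_lit 33820) (nat_lit 6) (nat_lit 445) (nat_lit 1) (nat_lit 284) (nat_lit 234) (nat_lit 262)) (PT.lf (nat_lit 33744) (nat_lit 6) (nat_lit 444) (nat_lit 1) (nat_lit 285) (nat_lit 234) (nat_lit 261)))) (PT.nd (nat_lit 156) (PT.nd (nat_lit 78) (PT.lf (nat_lit 34808) (nat_lit 6) (nat_lit 458) (nat_lit 3) (nat_lit 260) (nat_lit 235) (nat_lit 285)) (PT.lf (nat_lit 34884) (nat_lit 6) (nat_lit 459) (nat_lit 3) (nat_lit 261) (nat_lit 235) (nat_lit 284))) (PT.nd (nat_lit 78) (PT.lf (nat_lit 34960) (nat_lit 6) (nat_lit 460) (nat_lit 3) (nat_lit 262) (nat_lit 235) (nat_lit 283)) (PT.lf (nat_lit 35036) (nat_lit 6) (nat_lit 461) (nat_lit 3) (nat_lit 263) (nat_lit 235) (nat_lit 282)))))) (PT.nd (nat_lit 624) (PT.nd (nat_lit 312) (PT.nd (nat_lit 156) (PT.nd (nat_lit 78) (PT.lf (nat_lit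 35112) (nat_lit 6) (nat_lit 462) (nat_lit 3) (nat_lit 264) (nat_lit 235) (nat_lit 281)) (PT.lf (nat_lit 35188) (nat_lit 6) (nat_lit 463) (nat_lit 3) (nat_lit 265) (nat_lit 235) (nat_lit 280))) (PT.nd (nat_lit 78) (PT.lf (nat_lit 35264) (nat_lit 6) (nat_lit 464) (nat_lit 3) (nat_lit 266) (nat_lit 235) (nat_lit 279)) (PT.lf (nat_lit 35340) (nat_lit 6) (nat_lit 465) (nat_lit 3) (nat_lit 267) (nat_lit 235) (nat_lit 278)))) (PT.nd (nat_lit 156) (PT.nd (nat_lit 78) (PT.lf (nat_lit 35416) (nat_lit 6) (nat_lit 466) (nat_lit 3) (nat_lit 268) (nat_lit 235) (nat_lit 277)) (PT.lf (nat_lit 35492) (nat_lit 6) (nat_lit 467) (nat_lit 3) (nat_lit 269) (nat_lit 235) (nat_lit 276))) (PT.nd (nat_lit 78) (PT.lf (nat_lit 35568) (nat_lit 6) (nat_lit 468) (nat_lit 3) (nat_lit 270) (nat_lit 235) (nat_lit 275)) (PT.lf (nat_lit 35644) (nat_lit 6) (nat_lit 469) (nat_lit 3) (nat_lit 271) (nat_lit 235) (nat_lit 274))))) (PT.nd (nat_lit 312) (PT.nd (nat_lit 156) (PT.nd (nat_lit 78) (PT.lf (nat_lit 35720) (nat_lit 6) (nat_lit 470) (nat_lit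 3) (nat_lit 272) (nat_lit 235) (nat_lit 273)) (PT.lf (nat_lit 35720) (nat_lit 6) (nat_lit 470) (nat_lit 1) (nat_lit 273) (nat_lit 235) (nat_lit 272))) (PT.nd (nat_lit 78) (PT.lf (nat_lit 35644) (nat_lit 6) (nat_lit 469) (nat_lit 1) (nat_lit 274) (nat_lit 235) (nat_lit 271)) (PT.lf (nat_lit 35568) (nat_lit 6) (nat_lit 468) (nat_lit 1) (nat_lit 275) (nat_lit 235) (nat_lit 270)))) (PT.nd (nat_lit 156) (PT.nd (nat_lit 78) (PT.lf (nat_lit 35492) (nat_lit 6) (nat_lit 467) (nat_lit 1) (nat_lit 276) (nat_lit 235) (nat_lit 269)) (PT.lf (nat_lit 35416) (nat_lit 6) (nat_lit 466) (nat_lit 1) (nat_lit 277) (nat_lit 235) (nat_lit 268))) (PT.nd (nat_lit 78) (PT.lf (nat_lit 35340) (nat_lit 6) (nat_lit 465) (nat_lit 1) (nat_lit 278) (nat_lit 235) (nat_lit 267)) (PT.lf (nat_lit 35264) (nat_lit 6) (nat_lit 464) (nat_lit 1) (nat_lit 279) (nat_lit 235) (nat_lit 266))))))) (PT.nd (nat_lit 80262) (PT.nd (nat_lit 79638) (PT.nd (nat_lit 234) (PT.nd (nat_lit 78) (PT.lf (nat_lit 35188) (nat_lit 6) (nat_lit 463) (nat_lit 1) (nat_lit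 280) (nat_lit 235) (nat_lit 265)) (PT.nd (nat_lit 78) (PT.lf (nat_lit 35112) (nat_lit 6) (nat_lit 462) (nat_lit 1) (nat_lit 281) (nat_lit 235) (nat_lit 264)) (PT.lf (nat_lit 35036) (nat_lit 6) (nat_lit 461) (nat_lit 1) (nat_lit 282) (nat_lit 235) (nat_lit 263)))) (PT.nd (nat_lit 156) (PT.nd (nat_lit 78) (PT.lf (nat_lit 34960) (nat_lit 6) (nat_lit 460) (nat_lit 1) (nat_lit 283) (nat_lit 235) (nat_lit 262)) (PT.lf (nat_lit 34884) (nat_lit 6) (nat_lit 459) (nat_lit 1) (nat_lit 284) (nat_lit 235) (nat_lit 261))) (PT.nd (nat_lit 79170) (PT.lf (nat_lit 34808) (nat_lit 6) (nat_lit 458) (nat_lit 1) (nat_lit 285) (nat_lit 235) (nat_lit 260)) (PT.lf (nat_lit 34732) (nat_lit 6) (nat_lit 457) (nat_lit 3) (nat_lit 259) (nat_lit 236) (nat_lit 285))))) (PT.nd (nat_lit 312) (PT.nd (nat_lit 156) (PT.nd (nat_lit 78) (PT.lf (nat_lit 36708) (nat_lit 6) (nat_lit 483) (nat_lit 3) (nat_lit 260) (nat_lit 236) (nat_lit 284)) (PT.lf (nat_lit 36784) (nat_lit 6) (nat_lit 484) (nat_lit 3) (nat_lit 261) (nat_lit 236) (nat_lit 283)))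 (PT.nd (nat_lit 78) (PT.lf (nat_lit 36860) (nat_lit 6) (nat_lit 485) (nat_lit 3) (nat_lit 262) (nat_lit 236) (nat_lit 282)) (PT.lf (nat_lit 36936) (nat_lit 6) (nat_lit 486) (nat_lit 3) (nat_lit 263) (nat_lit 236) (nat_lit 281)))) (PT.nd (nat_lit 156) (PT.nd (nat_lit 78) (PT.lf (nat_lit 37012) (nat_lit 6) (nat_lit 487) (nat_lit 3) (nat_lit 264) (nat_lit 236) (nat_lit 280)) (PT.lf (nat_lit 37088) (nat_lit 6) (nat_lit 488) (nat_lit 3) (nat_lit 265) (nat_lit 236) (nat_lit 279))) (PT.nd (nat_lit 78) (PT.lf (nat_lit 37164) (nat_lit 6) (nat_lit 489) (nat_lit 3) (nat_lit 266) (nat_lit 236) (nat_lit 278)) (PT.lf (nat_lit 37240) (nat_lit 6) (nat_lit 490) (nat_lit 3) (nat_lit 267) (nat_lit 236) (nat_lit 277)))))) (PT.nd (nat_lit 624) (PT.nd (nat_lit 312) (PT.nd (nat_lit 156) (PT.nd (nat_lit 78) (PT.lf (nat_lit 37316) (nat_lit 6) (nat_lit 491) (nat_lit 3) (nat_lit 268) (nat_lit 236) (nat_lit 276)) (PT.lf (nat_lit 37392) (nat_lit 6) (nat_lit 492) (nat_lit 3) (nat_lit 269) (nat_lit 236) (nat_lit 275))) (PT.nd (nat_lit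 78) (PT.lf (nat_lit 37468) (nat_lit 6) (nat_lit 493) (nat_lit 3) (nat_lit 270) (nat_lit 236) (nat_lit 274)) (PT.lf (nat_lit 37544) (nat_lit 6) (nat_lit 494) (nat_lit 3) (nat_lit 271) (nat_lit 236) (nat_lit 273)))) (PT.nd (nat_lit 156) (PT.nd (nat_lit 78) (PT.lf (nat_lit 37620) (nat_lit 3) (nat_lit 495) (nat_lit 1) (nat_lit 272) (nat_lit 236) (nat_lit 272)) (PT.lf (nat_lit 37544) (nat_lit 6) (nat_lit 494) (nat_lit 1) (nat_lit 273) (nat_lit 236) (nat_lit 271))) (PT.nd (nat_lit 78) (PT.lf (nat_lit 37468) (nat_lit 6) (nat_lit 493) (nat_lit 1) (nat_lit 274) (nat_lit 236) (nat_lit 270)) (PT.lf (nat_lit 37392) (nat_lit 6) (nat_lit 492) (nat_lit 1) (nat_lit 275) (nat_lit 236) (nat_lit 269))))) (PT.nd (nat_lit 312) (PT.nd (nat_lit 156) (PT.nd (nat_lit 78) (PT.lf (nat_lit 37316) (nat_lit 6) (nat_lit 491) (nat_lit 1) (nat_lit 276) (nat_lit 236) (nat_lit 268)) (PT.lf (nat_lit 37240) (nat_lit 6) (nat_lit 490) (nat_lit 1) (nat_lit 277) (nat_lit 236) (nat_lit 267))) (PT.nd (nat_lit 78) (PT.lf (nat_lit 37164) (nat_lit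 6) (nat_lit 489) (nat_lit 1) (nat_lit 278) (nat_lit 236) (nat_lit 266)) (PT.lf (nat_lit 37088) (nat_lit 6) (nat_lit 488) (nat_lit 1) (nat_lit 279) (nat_lit 236) (nat_lit 265)))) (PT.nd (nat_lit 156) (PT.nd (nat_lit 78) (PT.lf (nat_lit 37012) (nat_lit 6) (nat_lit 487) (nat_lit 1) (nat_lit 280) (nat_lit 236) (nat_lit 264)) (PT.lf (nat_lit 36936) (nat_lit 6) (nat_lit 486) (nat_lit 1) (nat_lit 281) (nat_lit 236) (nat_lit 263))) (PT.nd (nat_lit 78) (PT.lf (nat_lit 36860) (nat_lit 6) (nat_lit 485) (nat_lit 1) (nat_lit 282) (nat_lit 236) (nat_lit 262)) (PT.lf (nat_lit 36784) (nat_lit 6) (nat_lit 484) (nat_lit 1) (nat_lit 283) (nat_lit 236) (nat_lit 261))))))))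
noncomputable def pc12 : PT := (PT.nd (nat_lit 160524) (PT.nd (nat_lit 80262) (PT.nd (nat_lit 79638) (PT.nd (nat_lit 79326) (PT.nd (nat_lit 78) (PT.lf (nat_lit 36708) (nat_lit 6) (nat_lit 483) (nat_lit 1) (nat_lit 284) (nat_lit 236) (nat_lit 260)) (PT.nd (nat_lit 79170) (PT.lf (nat_lit 34732) (nat_lit 6) (nat_lit 457) (nat_lit 1) (nat_lit 285) (nat_lit 236) (nat_lit 259)) (PT.lf (nat_lit 36632) (nat_lit 6) (nat_lit 482) (nat_lit 3) (nat_lit 259) (nat_lit 237) (nat_lit 284)))) (PT.nd (nat_lit 156) (PT.nd (nat_lit 78) (PT.lf (nat_lit 38532) (nat_lit 6) (nat_lit 507) (nat_lit 3) (nat_lit 260) (nat_lit 237) (nat_lit 283)) (PT.lf (nat_lit 38608) (nat_lit 6) (nat_lit 508) (nat_lit 3) (nat_lit 261) (nat_lit 237) (nat_lit 282))) (PT.nd (nat_lit 78) (PT.lf (nat_lit 38684) (nat_lit 6) (nat_lit 509) (nat_lit 3) (nat_lit 262) (nat_lit 237) (nat_lit 281)) (PT.lf (nat_lit 38760) (nat_lit 6) (nat_lit 510) (nat_lit 3) (nat_lit 263) (nat_lit 237) (nat_lit 280))))) (PT.nd (nat_lit 312) (PT.nd (nat_lit 156) (PT.nd (nat_lit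 78) (PT.lf (nat_lit 38836) (nat_lit 6) (nat_lit 511) (nat_lit 3) (nat_lit 264) (nat_lit 237) (nat_lit 279)) (PT.lf (nat_lit 38912) (nat_lit 6) (nat_lit 512) (nat_lit 3) (nat_lit 265) (nat_lit 237) (nat_lit 278))) (PT.nd (nat_lit 78) (PT.lf (nat_lit 38988) (nat_lit 6) (nat_lit 513) (nat_lit 3) (nat_lit 266) (nat_lit 237) (nat_lit 277)) (PT.lf (nat_lit 39064) (nat_lit 6) (nat_lit 514) (nat_lit 3) (nat_lit 267) (nat_lit 237) (nat_lit 276)))) (PT.nd (nat_lit 156) (PT.nd (nat_lit 78) (PT.lf (nat_lit 39140) (nat_lit 6) (nat_lit 515) (nat_lit 3) (nat_lit 268) (nat_lit 237) (nat_lit 275)) (PT.lf (nat_lit 39216) (nat_lit 6) (nat_lit 516) (nat_lit 3) (nat_lit 269) (nat_lit 237) (nat_lit 274))) (PT.nd (nat_lit 78) (PT.lf (nat_lit 39292) (nat_lit 6) (nat_lit 517) (nat_lit 3) (nat_lit 270) (nat_lit 237) (nat_lit 273)) (PT.lf (nat_lit 39368) (nat_lit 6) (nat_lit 518) (nat_lit 3) (nat_lit 271) (nat_lit 237) (nat_lit 272)))))) (PT.nd (nat_lit 546) (PT.nd (nat_lit 234) (PT.nd (nat_lit 78) (PT.lf (nat_lit 39368) (nat_lit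 6) (nat_lit 518) (nat_lit 1) (nat_lit 272) (nat_lit 237) (nat_lit 271)) (PT.nd (nat_lit 78) (PT.lf (nat_lit 39292) (nat_lit 6) (nat_lit 517) (nat_lit 1) (nat_lit 273) (nat_lit 237) (nat_lit 270)) (PT.lf (nat_lit 39216) (nat_lit 6) (nat_lit 516) (nat_lit 1) (nat_lit 274) (nat_lit 237) (nat_lit 269)))) (PT.nd (nat_lit 156) (PT.nd (nat_lit 78) (PT.lf (nat_lit 39140) (nat_lit 6) (nat_lit 515) (nat_lit 1) (nat_lit 275) (nat_lit 237) (nat_lit 268)) (PT.lf (nat_lit 39064) (nat_lit 6) (nat_lit 514) (nat_lit 1) (nat_lit 276) (nat_lit 237) (nat_lit 267))) (PT.nd (nat_lit 78) (PT.lf (nat_lit 38988) (nat_lit 6) (nat_lit 513) (nat_lit 1) (nat_lit 277) (nat_lit 237) (nat_lit 266)) (PT.lf (nat_lit 38912) (nat_lit 6) (nat_lit 512) (nat_lit 1) (nat_lit 278) (nat_lit 237) (nat_lit 265))))) (PT.nd (nat_lit 312) (PT.nd (nat_lit 156) (PT.nd (nat_lit 78) (PT.lf (nat_lit 38836) (nat_lit 6) (nat_lit 511) (nat_lit 1) (nat_lit 279) (nat_lit 237) (nat_lit 264)) (PT.lf (nat_lit 38760) (nat_lit 6) (nat_lit 510) (nat_lit 1) (nat_lit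 280) (nat_lit 237) (nat_lit 263))) (PT.nd (nat_lit 78) (PT.lf (nat_lit 38684) (nat_lit 6) (nat_lit 509) (nat_lit 1) (nat_lit 281) (nat_lit 237) (nat_lit 262)) (PT.lf (nat_lit 38608) (nat_lit 6) (nat_lit 508) (nat_lit 1) (nat_lit 282) (nat_lit 237) (nat_lit 261)))) (PT.nd (nat_lit 79248) (PT.nd (nat_lit 78) (PT.lf (nat_lit 38532) (nat_lit 6) (nat_lit 507) (nat_lit 1) (nat_lit 283) (nat_lit 237) (nat_lit 260)) (PT.lf (nat_lit 36632) (nat_lit 6) (nat_lit 482) (nat_lit 1) (nat_lit 284) (nat_lit 237) (nat_lit 259))) (PT.nd (nat_lit 78) (PT.lf (nat_lit 36556) (nat_lit 6) (nat_lit 481) (nat_lit 3) (nat_lit 258) (nat_lit 238) (nat_lit 284)) (PT.lf (nat_lit 38456) (nat_lit 6) (nat_lit 506) (nat_lit 3) (nat_lit 259) (nat_lit 238) (nat_lit 283))))))) (PT.nd (nat_lit 1170) (PT.nd (nat_lit 546) (PT.nd (nat_lit 234) (PT.nd (nat_lit 78) (PT.lf (nat_lit 40280) (nat_lit 6) (nat_lit 530) (nat_lit 3) (nat_lit 260) (nat_lit 238) (nat_lit 282)) (PT.nd (nat_lit 78) (PT.lf (nat_lit 40356) (nat_lit 6) (nat_lit 531) (nat_lit 3)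 (nat_lit 261) (nat_lit 238) (nat_lit 281)) (PT.lf (nat_lit 40432) (nat_lit 6) (nat_lit 532) (nat_lit 3) (nat_lit 262) (nat_lit 238) (nat_lit 280)))) (PT.nd (nat_lit 156) (PT.nd (nat_lit 78) (PT.lf (nat_lit 40508) (nat_lit 6) (nat_lit 533) (nat_lit 3) (nat_lit 263) (nat_lit 238) (nat_lit 279)) (PT.lf (nat_lit 40584) (nat_lit 6) (nat_lit 534) (nat_lit 3) (nat_lit 264) (nat_lit 238) (nat_lit 278))) (PT.nd (nat_lit 78) (PT.lf (nat_lit 40660) (nat_lit 6) (nat_lit 535) (nat_lit 3) (nat_lit 265) (nat_lit 238) (nat_lit 277)) (PT.lf (nat_lit 40736) (nat_lit 6) (nat_lit 536) (nat_lit 3) (nat_lit 266) (nat_lit 238) (nat_lit 276))))) (PT.nd (nat_lit 312) (PT.nd (nat_lit 156) (PT.nd (nat_lit 78) (PT.lf (nat_lit 40812) (nat_lit 6) (nat_lit 537) (nat_lit 3) (nat_lit 267) (nat_lit 238) (nat_lit 275)) (PT.lf (nat_lit 40888) (nat_lit 6) (nat_lit 538) (nat_lit 3) (nat_lit 268) (nat_lit 238) (nat_lit 274))) (PT.nd (nat_lit 78) (PT.lf (nat_lit 40964) (nat_lit 6) (nat_lit 539) (nat_lit 3) (nat_lit 269) (nat_lit 238) (nat_lit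 273)) (PT.lf (nat_lit 41040) (nat_lit 6) (nat_lit 540) (nat_lit 3) (nat_lit 270) (nat_lit 238) (nat_lit 272)))) (PT.nd (nat_lit 156) (PT.nd (nat_lit 78) (PT.lf (nat_lit 41116) (nat_lit 3) (nat_lit 541) (nat_lit 1) (nat_lit 271) (nat_lit 238) (nat_lit 271)) (PT.lf (nat_lit 41040) (nat_lit 6) (nat_lit 540) (nat_lit 1) (nat_lit 272) (nat_lit 238) (nat_lit 270))) (PT.nd (nat_lit 78) (PT.lf (nat_lit 40964) (nat_lit 6) (nat_lit 539) (nat_lit 1) (nat_lit 273) (nat_lit 238) (nat_lit 269)) (PT.lf (nat_lit 40888) (nat_lit 6) (nat_lit 538) (nat_lit 1) (nat_lit 274) (nat_lit 238) (nat_lit 268)))))) (PT.nd (nat_lit 624) (PT.nd (nat_lit 312) (PT.nd (nat_lit 156) (PT.nd (nat_lit 78) (PT.lf (nat_lit 40812) (nat_lit 6) (nat_lit 537) (nat_lit 1) (nat_lit 275) (nat_lit 238) (nat_lit 267)) (PT.lf (nat_lit 40736) (nat_lit 6) (nat_lit 536) (nat_lit 1) (nat_lit 276) (nat_lit 238) (nat_lit 266))) (PT.nd (nat_lit 78) (PT.lf (nat_lit 40660) (nat_lit 6) (nat_lit 535) (nat_lit 1) (nat_lit 277) (nat_lit 238) (nat_lit 265)) (PT.lf (nat_lit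 40584) (nat_lit 6) (nat_lit 534) (nat_lit 1) (nat_lit 278) (nat_lit 238) (nat_lit 264)))) (PT.nd (nat_lit 156) (PT.nd (nat_lit 78) (PT.lf (nat_lit 40508) (nat_lit 6) (nat_lit 533) (nat_lit 1) (nat_lit 279) (nat_lit 238) (nat_lit 263)) (PT.lf (nat_lit 40432) (nat_lit 6) (nat_lit 532) (nat_lit 1) (nat_lit 280) (nat_lit 238) (nat_lit 262))) (PT.nd (nat_lit 78) (PT.lf (nat_lit 40356) (nat_lit 6) (nat_lit 531) (nat_lit 1) (nat_lit 281) (nat_lit 238) (nat_lit 261)) (PT.lf (nat_lit 40280) (nat_lit 6) (nat_lit 530) (nat_lit 1) (nat_lit 282) (nat_lit 238) (nat_lit 260))))) (PT.nd (nat_lit 79326) (PT.nd (nat_lit 79170) (PT.nd (nat_lit 78) (PT.lf (nat_lit 38456) (nat_lit 6) (nat_lit 506) (nat_lit 1) (nat_lit 283) (nat_lit 238) (nat_lit 259)) (PT.lf (nat_lit 36556) (nat_lit 6) (nat_lit 481) (nat_lit 1) (nat_lit 284) (nat_lit 238) (nat_lit 258))) (PT.nd (nat_lit 78) (PT.lf (nat_lit 36480) (nat_lit 6) (nat_lit 480) (nat_lit 3) (nat_lit 257) (nat_lit 239) (nat_lit 284)) (PT.lf (nat_lit 38380) (nat_lit 6) (nat_lit 505)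 (nat_lit 3) (nat_lit 258) (nat_lit 239) (nat_lit 283)))) (PT.nd (nat_lit 156) (PT.nd (nat_lit 78) (PT.lf (nat_lit 40204) (nat_lit 6) (nat_lit 529) (nat_lit 3) (nat_lit 259) (nat_lit 239) (nat_lit 282)) (PT.lf (nat_lit 41952) (nat_lit 6) (nat_lit 552) (nat_lit 3) (nat_lit 260) (nat_lit 239) (nat_lit 281))) (PT.nd (nat_lit 78) (PT.lf (nat_lit 42028) (nat_lit 6) (nat_lit 553) (nat_lit 3) (nat_lit 261) (nat_lit 239) (nat_lit 280)) (PT.lf (nat_lit 42104) (nat_lit 6) (nat_lit 554) (nat_lit 3) (nat_lit 262) (nat_lit 239) (nat_lit 279))))))))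
noncomputable def pc13 : PT := (PT.nd (nat_lit 81354) (PT.nd (nat_lit 1170) (PT.nd (nat_lit 546) (PT.nd (nat_lit 234) (PT.nd (nat_lit 78) (PT.lf (nat_lit 42180) (nat_lit 6) (nat_lit 555) (nat_lit 3) (nat_lit 263) (nat_lit 239) (nat_lit 278)) (PT.nd (nat_lit 78) (PT.lf (nat_lit 42256) (nat_lit 6) (nat_lit 556) (nat_lit 3) (nat_lit 264) (nat_lit 239) (nat_lit 277)) (PT.lf (nat_lit 42332) (nat_lit 6) (nat_lit 557) (nat_lit 3) (nat_lit 265) (nat_lit 239) (nat_lit 276)))) (PT.nd (nat_lit 156) (PT.nd (nat_lit 78) (PT.lf (nat_lit 42408) (nat_lit 6) (nat_lit 558) (nat_lit 3) (nat_lit 266) (nat_lit 239) (nat_lit 275)) (PT.lf (nat_lit 42484) (nat_lit 6) (nat_lit 559) (nat_lit 3) (nat_lit 267) (nat_lit 239) (nat_lit 274))) (PT.nd (nat_lit 78) (PT.lf (nat_lit 42560) (nat_lit 6) (nat_lit 560) (nat_lit 3) (nat_lit 268) (nat_lit 239) (nat_lit 273)) (PT.lf (nat_lit 42636) (nat_lit 6) (nat_lit 561) (nat_lit 3) (nat_lit 269) (nat_lit 239) (nat_lit 272))))) (PT.nd (nat_lit 312) (PT.nd (nat_lit 156) (PT.nd (nat_lit 78) (PT.lf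 (nat_lit 42712) (nat_lit 6) (nat_lit 562) (nat_lit 3) (nat_lit 270) (nat_lit 239) (nat_lit 271)) (PT.lf (nat_lit 42712) (nat_lit 6) (nat_lit 562) (nat_lit 1) (nat_lit 271) (nat_lit 239) (nat_lit 270))) (PT.nd (nat_lit 78) (PT.lf (nat_lit 42636) (nat_lit 6) (nat_lit 561) (nat_lit 1) (nat_lit 272) (nat_lit 239) (nat_lit 269)) (PT.lf (nat_lit 42560) (nat_lit 6) (nat_lit 560) (nat_lit 1) (nat_lit 273) (nat_lit 239) (nat_lit 268)))) (PT.nd (nat_lit 156) (PT.nd (nat_lit 78) (PT.lf (nat_lit 42484) (nat_lit 6) (nat_lit 559) (nat_lit 1) (nat_lit 274) (nat_lit 239) (nat_lit 267)) (PT.lf (nat_lit 42408) (nat_lit 6) (nat_lit 558) (nat_lit 1) (nat_lit 275) (nat_lit 239) (nat_lit 266))) (PT.nd (nat_lit 78) (PT.lf (nat_lit 42332) (nat_lit 6) (nat_lit 557) (nat_lit 1) (nat_lit 276) (nat_lit 239) (nat_lit 265)) (PT.lf (nat_lit 42256) (nat_lit 6) (nat_lit 556) (nat_lit 1) (nat_lit 277) (nat_lit 239) (nat_lit 264)))))) (PT.nd (nat_lit 79560) (PT.nd (nat_lit 312) (PT.nd (nat_lit 156) (PT.nd (nat_lit 78) (PT.lf (nat_lit 42180)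 (nat_lit 6) (nat_lit 555) (nat_lit 1) (nat_lit 278) (nat_lit 239) (nat_lit 263)) (PT.lf (nat_lit 42104) (nat_lit 6) (nat_lit 554) (nat_lit 1) (nat_lit 279) (nat_lit 239) (nat_lit 262))) (PT.nd (nat_lit 78) (PT.lf (nat_lit 42028) (nat_lit 6) (nat_lit 553) (nat_lit 1) (nat_lit 280) (nat_lit 239) (nat_lit 261)) (PT.lf (nat_lit 41952) (nat_lit 6) (nat_lit 552) (nat_lit 1) (nat_lit 281) (nat_lit 239) (nat_lit 260)))) (PT.nd (nat_lit 156) (PT.nd (nat_lit 78) (PT.lf (nat_lit 40204) (nat_lit 6) (nat_lit 529) (nat_lit 1) (nat_lit 282) (nat_lit 239) (nat_lit 259)) (PT.lf (nat_lit 38380) (nat_lit 6) (nat_lit 505) (nat_lit 1) (nat_lit 283) (nat_lit 239) (nat_lit 258))) (PT.nd (nat_lit 79014) (PT.lf (nat_lit 36480) (nat_lit 6) (nat_lit 480) (nat_lit 1) (nat_lit 284) (nat_lit 239) (nat_lit 257)) (PT.lf (nat_lit 36404) (nat_lit 6) (nat_lit 479) (nat_lit 3) (nat_lit 256) (nat_lit 240) (nat_lit 284))))) (PT.nd (nat_lit 312) (PT.nd (nat_lit 156) (PT.nd (nat_lit 78) (PT.lf (nat_lit 38304) (nat_lit 6) (nat_lit 504) (nat_lit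 3) (nat_lit 257) (nat_lit 240) (nat_lit 283)) (PT.lf (nat_lit 40128) (nat_lit 6) (nat_lit 528) (nat_lit 3) (nat_lit 258) (nat_lit 240) (nat_lit 282))) (PT.nd (nat_lit 78) (PT.lf (nat_lit 41876) (nat_lit 6) (nat_lit 551) (nat_lit 3) (nat_lit 259) (nat_lit 240) (nat_lit 281)) (PT.lf (nat_lit 43548) (nat_lit 6) (nat_lit 573) (nat_lit 3) (nat_lit 260) (nat_lit 240) (nat_lit 280)))) (PT.nd (nat_lit 156) (PT.nd (nat_lit 78) (PT.lf (nat_lit 43624) (nat_lit 6) (nat_lit 574) (nat_lit 3) (nat_lit 261) (nat_lit 240) (nat_lit 279)) (PT.lf (nat_lit 43700) (nat_lit 6) (nat_lit 575) (nat_lit 3) (nat_lit 262) (nat_lit 240) (nat_lit 278))) (PT.nd (nat_lit 78) (PT.lf (nat_lit 43776) (nat_lit 6) (nat_lit 576) (nat_lit 3) (nat_lit 263) (nat_lit 240) (nat_lit 277)) (PT.lf (nat_lit 43852) (nat_lit 6) (nat_lit 577) (nat_lit 3) (nat_lit 264) (nat_lit 240) (nat_lit 276))))))) (PT.nd (nat_lit 1170) (PT.nd (nat_lit 546) (PT.nd (nat_lit 234) (PT.nd (nat_lit 78) (PT.lf (nat_lit 43928) (nat_lit 6) (nat_lit 578) (nat_lit 3) (nat_lit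 265) (nat_lit 240) (nat_lit 275)) (PT.nd (nat_lit 78) (PT.lf (nat_lit 44004) (nat_lit 6) (nat_lit 579) (nat_lit 3) (nat_lit 266) (nat_lit 240) (nat_lit 274)) (PT.lf (nat_lit 44080) (nat_lit 6) (nat_lit 580) (nat_lit 3) (nat_lit 267) (nat_lit 240) (nat_lit 273)))) (PT.nd (nat_lit 156) (PT.nd (nat_lit 78) (PT.lf (nat_lit 44156) (nat_lit 6) (nat_lit 581) (nat_lit 3) (nat_lit 268) (nat_lit 240) (nat_lit 272)) (PT.lf (nat_lit 44232) (nat_lit 6) (nat_lit 582) (nat_lit 3) (nat_lit 269) (nat_lit 240) (nat_lit 271))) (PT.nd (nat_lit 78) (PT.lf (nat_lit 44308) (nat_lit 3) (nat_lit 583) (nat_lit 1) (nat_lit 270) (nat_lit 240) (nat_lit 270)) (PT.lf (nat_lit 44232) (nat_lit 6) (nat_lit 582) (nat_lit 1) (nat_lit 271) (nat_lit 240) (nat_lit 269))))) (PT.nd (nat_lit 312) (PT.nd (nat_lit 156) (PT.nd (nat_lit 78) (PT.lf (nat_lit 44156) (nat_lit 6) (nat_lit 581) (nat_lit 1) (nat_lit 272) (nat_lit 240) (nat_lit 268)) (PT.lf (nat_lit 44080) (nat_lit 6) (nat_lit 580) (nat_lit 1) (nat_lit 273) (nat_lit 240) (nat_lit 267))) (PT.nd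 (nat_lit 78) (PT.lf (nat_lit 44004) (nat_lit 6) (nat_lit 579) (nat_lit 1) (nat_lit 274) (nat_lit 240) (nat_lit 266)) (PT.lf (nat_lit 43928) (nat_lit 6) (nat_lit 578) (nat_lit 1) (nat_lit 275) (nat_lit 240) (nat_lit 265)))) (PT.nd (nat_lit 156) (PT.nd (nat_lit 78) (PT.lf (nat_lit 43852) (nat_lit 6) (nat_lit 577) (nat_lit 1) (nat_lit 276) (nat_lit 240) (nat_lit 264)) (PT.lf (nat_lit 43776) (nat_lit 6) (nat_lit 576) (nat_lit 1) (nat_lit 277) (nat_lit 240) (nat_lit 263))) (PT.nd (nat_lit 78) (PT.lf (nat_lit 43700) (nat_lit 6) (nat_lit 575) (nat_lit 1) (nat_lit 278) (nat_lit 240) (nat_lit 262)) (PT.lf (nat_lit 43624) (nat_lit 6) (nat_lit 574) (nat_lit 1) (nat_lit 279) (nat_lit 240) (nat_lit 261)))))) (PT.nd (nat_lit 79482) (PT.nd (nat_lit 312) (PT.nd (nat_lit 156) (PT.nd (nat_lit 78) (PT.lf (nat_lit 43548) (nat_lit 6) (nat_lit 573) (nat_lit 1) (nat_lit 280) (nat_lit 240) (nat_lit 260)) (PT.lf (nat_lit 41876) (nat_lit 6) (nat_lit 551) (nat_lit 1) (nat_lit 281) (nat_lit 240) (nat_lit 259))) (PT.nd (nat_lit 78)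 (PT.lf (nat_lit 40128) (nat_lit 6) (nat_lit 528) (nat_lit 1) (nat_lit 282) (nat_lit 240) (nat_lit 258)) (PT.lf (nat_lit 38304) (nat_lit 6) (nat_lit 504) (nat_lit 1) (nat_lit 283) (nat_lit 240) (nat_lit 257)))) (PT.nd (nat_lit 79014) (PT.nd (nat_lit 78936) (PT.lf (nat_lit 36404) (nat_lit 6) (nat_lit 479) (nat_lit 1) (nat_lit 284) (nat_lit 240) (nat_lit 256)) (PT.lf (nat_lit 36328) (nat_lit 6) (nat_lit 478) (nat_lit 3) (nat_lit 255) (nat_lit 241) (nat_lit 284))) (PT.nd (nat_lit 78) (PT.lf (nat_lit 38228) (nat_lit 6) (nat_lit 503) (nat_lit 3) (nat_lit 256) (nat_lit 241) (nat_lit 283)) (PT.lf (nat_lit 40052) (nat_lit 6) (nat_lit 527) (nat_lit 3) (nat_lit 257) (nat_lit 241) (nat_lit 282))))) (PT.nd (nat_lit 312) (PT.nd (nat_lit 156) (PT.nd (nat_lit 78) (PT.lf (nat_lit 41800) (nat_lit 6) (nat_lit 550) (nat_lit 3) (nat_lit 258) (nat_lit 241) (nat_lit 281)) (PT.lf (nat_lit 43472) (nat_lit 6) (nat_lit 572) (nat_lit 3) (nat_lit 259) (nat_lit 241) (nat_lit 280))) (PT.nd (nat_lit 78) (PT.lf (nat_lit 45068) (nat_lit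 6) (nat_lit 593) (nat_lit 3) (nat_lit 260) (nat_lit 241) (nat_lit 279)) (PT.lf (nat_lit 45144) (nat_lit 6) (nat_lit 594) (nat_lit 3) (nat_lit 261) (nat_lit 241) (nat_lit 278)))) (PT.nd (nat_lit 156) (PT.nd (nat_lit 78) (PT.lf (nat_lit 45220) (nat_lit 6) (nat_lit 595) (nat_lit 3) (nat_lit 262) (nat_lit 241) (nat_lit 277)) (PT.lf (nat_lit 45296) (nat_lit 6) (nat_lit 596) (nat_lit 3) (nat_lit 263) (nat_lit 241) (nat_lit 276))) (PT.nd (nat_lit 78) (PT.lf (nat_lit 45372) (nat_lit 6) (nat_lit 597) (nat_lit 3) (nat_lit 264) (nat_lit 241) (nat_lit 275)) (PT.lf (nat_lit 45448) (nat_lit 6) (nat_lit 598) (nat_lit 3) (nat_lit 265) (nat_lit 241) (nat_lit 274))))))))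
noncomputable def pc14 : PT := (PT.nd (nat_lit 81198) (PT.nd (nat_lit 1170) (PT.nd (nat_lit 546) (PT.nd (nat_lit 234) (PT.nd (nat_lit 78) (PT.lf (nat_lit 45524) (nat_lit 6) (nat_lit 599) (nat_lit 3) (nat_lit 266) (nat_lit 241) (nat_lit 273)) (PT.nd (nat_lit 78) (PT.lf (nat_lit 45600) (nat_lit 6) (nat_lit 600) (nat_lit 3) (nat_lit 267) (nat_lit 241) (nat_lit 272)) (PT.lf (nat_lit 45676) (nat_lit 6) (nat_lit 601) (nat_lit 3) (nat_lit 268) (nat_lit 241) (nat_lit 271)))) (PT.nd (nat_lit 156) (PT.nd (nat_lit 78) (PT.lf (nat_lit 45752) (nat_lit 6) (nat_lit 602) (nat_lit 3) (nat_lit 269) (nat_lit 241) (nat_lit 270)) (PT.lf (nat_lit 45752) (nat_lit 6) (nat_lit 602) (nat_lit 1) (nat_lit 270) (nat_lit 241) (nat_lit 269))) (PT.nd (nat_lit 78) (PT.lf (nat_lit 45676) (nat_lit 6) (nat_lit 601) (nat_lit 1) (nat_lit 271) (nat_lit 241) (nat_lit 268)) (PT.lf (nat_lit 45600) (nat_lit 6) (nat_lit 600) (nat_lit 1) (nat_lit 272) (nat_lit 241) (nat_lit 267))))) (PT.nd (nat_lit 312) (PT.nd (nat_lit 156) (PT.nd (nat_lit 78) (PT.lf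 (nat_lit 45524) (nat_lit 6) (nat_lit 599) (nat_lit 1) (nat_lit 273) (nat_lit 241) (nat_lit 266)) (PT.lf (nat_lit 45448) (nat_lit 6) (nat_lit 598) (nat_lit 1) (nat_lit 274) (nat_lit 241) (nat_lit 265))) (PT.nd (nat_lit 78) (PT.lf (nat_lit 45372) (nat_lit 6) (nat_lit 597) (nat_lit 1) (nat_lit 275) (nat_lit 241) (nat_lit 264)) (PT.lf (nat_lit 45296) (nat_lit 6) (nat_lit 596) (nat_lit 1) (nat_lit 276) (nat_lit 241) (nat_lit 263)))) (PT.nd (nat_lit 156) (PT.nd (nat_lit 78) (PT.lf (nat_lit 45220) (nat_lit 6) (nat_lit 595) (nat_lit 1) (nat_lit 277) (nat_lit 241) (nat_lit 262)) (PT.lf (nat_lit 45144) (nat_lit 6) (nat_lit 594) (nat_lit 1) (nat_lit 278) (nat_lit 241) (nat_lit 261))) (PT.nd (nat_lit 78) (PT.lf (nat_lit 45068) (nat_lit 6) (nat_lit 593) (nat_lit 1) (nat_lit 279) (nat_lit 241) (nat_lit 260)) (PT.lf (nat_lit 43472) (nat_lit 6) (nat_lit 572) (nat_lit 1) (nat_lit 280) (nat_lit 241) (nat_lit 259)))))) (PT.nd (nat_lit 79404) (PT.nd (nat_lit 79092) (PT.nd (nat_lit 156) (PT.nd (nat_lit 78) (PT.lf (nat_lit 41800)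 (nat_lit 6) (nat_lit 550) (nat_lit 1) (nat_lit 281) (nat_lit 241) (nat_lit 258)) (PT.lf (nat_lit 40052) (nat_lit 6) (nat_lit 527) (nat_lit 1) (nat_lit 282) (nat_lit 241) (nat_lit 257))) (PT.nd (nat_lit 78) (PT.lf (nat_lit 38228) (nat_lit 6) (nat_lit 503) (nat_lit 1) (nat_lit 283) (nat_lit 241) (nat_lit 256)) (PT.lf (nat_lit 36328) (nat_lit 6) (nat_lit 478) (nat_lit 1) (nat_lit 284) (nat_lit 241) (nat_lit 255)))) (PT.nd (nat_lit 156) (PT.nd (nat_lit 78) (PT.lf (nat_lit 36252) (nat_lit 6) (nat_lit 477) (nat_lit 3) (nat_lit 254) (nat_lit 242) (nat_lit 284)) (PT.lf (nat_lit 38152) (nat_lit 6) (nat_lit 502) (nat_lit 3) (nat_lit 255) (nat_lit 242) (nat_lit 283))) (PT.nd (nat_lit 78) (PT.lf (nat_lit 39976) (nat_lit 6) (nat_lit 526) (nat_lit 3) (nat_lit 256) (nat_lit 242) (nat_lit 282)) (PT.lf (nat_lit 41724) (nat_lit 6) (nat_lit 549) (nat_lit 3) (nat_lit 257) (nat_lit 242) (nat_lit 281))))) (PT.nd (nat_lit 312) (PT.nd (nat_lit 156) (PT.nd (nat_lit 78) (PT.lf (nat_lit 43396) (nat_lit 6) (nat_lit 571) (nat_lit 3)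 (nat_lit 258) (nat_lit 242) (nat_lit 280)) (PT.lf (nat_lit 44992) (nat_lit 6) (nat_lit 592) (nat_lit 3) (nat_lit 259) (nat_lit 242) (nat_lit 279))) (PT.nd (nat_lit 78) (PT.lf (nat_lit 46512) (nat_lit 6) (nat_lit 612) (nat_lit 3) (nat_lit 260) (nat_lit 242) (nat_lit 278)) (PT.lf (nat_lit 46588) (nat_lit 6) (nat_lit 613) (nat_lit 3) (nat_lit 261) (nat_lit 242) (nat_lit 277)))) (PT.nd (nat_lit 156) (PT.nd (nat_lit 78) (PT.lf (nat_lit 46664) (nat_lit 6) (nat_lit 614) (nat_lit 3) (nat_lit 262) (nat_lit 242) (nat_lit 276)) (PT.lf (nat_lit 46740) (nat_lit 6) (nat_lit 615) (nat_lit 3) (nat_lit 263) (nat_lit 242) (nat_lit 275))) (PT.nd (nat_lit 78) (PT.lf (nat_lit 46816) (nat_lit 6) (nat_lit 616) (nat_lit 3) (nat_lit 264) (nat_lit 242) (nat_lit 274)) (PT.lf (nat_lit 46892) (nat_lit 6) (nat_lit 617) (nat_lit 3) (nat_lit 265) (nat_lit 242) (nat_lit 273))))))) (PT.nd (nat_lit 1170) (PT.nd (nat_lit 546) (PT.nd (nat_lit 234) (PT.nd (nat_lit 78) (PT.lf (nat_lit 46968) (nat_lit 6) (nat_lit 618) (nat_lit 3) (nat_lit 266)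 (nat_lit 242) (nat_lit 272)) (PT.nd (nat_lit 78) (PT.lf (nat_lit 47044) (nat_lit 6) (nat_lit 619) (nat_lit 3) (nat_lit 267) (nat_lit 242) (nat_lit 271)) (PT.lf (nat_lit 47120) (nat_lit 6) (nat_lit 620) (nat_lit 3) (nat_lit 268) (nat_lit 242) (nat_lit 270)))) (PT.nd (nat_lit 156) (PT.nd (nat_lit 78) (PT.lf (nat_lit 47196) (nat_lit 3) (nat_lit 621) (nat_lit 1) (nat_lit 269) (nat_lit 242) (nat_lit 269)) (PT.lf (nat_lit 47120) (nat_lit 6) (nat_lit 620) (nat_lit 1) (nat_lit 270) (nat_lit 242) (nat_lit 268))) (PT.nd (nat_lit 78) (PT.lf (nat_lit 47044) (nat_lit 6) (nat_lit 619) (nat_lit 1) (nat_lit 271) (nat_lit 242) (nat_lit 267)) (PT.lf (nat_lit 46968) (nat_lit 6) (nat_lit 618) (nat_lit 1) (nat_lit 272) (nat_lit 242) (nat_lit 266))))) (PT.nd (nat_lit 312) (PT.nd (nat_lit 156) (PT.nd (nat_lit 78) (PT.lf (nat_lit 46892) (nat_lit 6) (nat_lit 617) (nat_lit 1) (nat_lit 273) (nat_lit 242) (nat_lit 265)) (PT.lf (nat_lit 46816) (nat_lit 6) (nat_lit 616) (nat_lit 1) (nat_lit 274) (nat_lit 242) (nat_lit 264))) (PT.nd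 (nat_lit 78) (PT.lf (nat_lit 46740) (nat_lit 6) (nat_lit 615) (nat_lit 1) (nat_lit 275) (nat_lit 242) (nat_lit 263)) (PT.lf (nat_lit 46664) (nat_lit 6) (nat_lit 614) (nat_lit 1) (nat_lit 276) (nat_lit 242) (nat_lit 262)))) (PT.nd (nat_lit 156) (PT.nd (nat_lit 78) (PT.lf (nat_lit 46588) (nat_lit 6) (nat_lit 613) (nat_lit 1) (nat_lit 277) (nat_lit 242) (nat_lit 261)) (PT.lf (nat_lit 46512) (nat_lit 6) (nat_lit 612) (nat_lit 1) (nat_lit 278) (nat_lit 242) (nat_lit 260))) (PT.nd (nat_lit 78) (PT.lf (nat_lit 44992) (nat_lit 6) (nat_lit 592) (nat_lit 1) (nat_lit 279) (nat_lit 242) (nat_lit 259)) (PT.lf (nat_lit 43396) (nat_lit 6) (nat_lit 571) (nat_lit 1) (nat_lit 280) (nat_lit 242) (nat_lit 258)))))) (PT.nd (nat_lit 79326) (PT.nd (nat_lit 79014) (PT.nd (nat_lit 156) (PT.nd (nat_lit 78) (PT.lf (nat_lit 41724) (nat_lit 6) (nat_lit 549) (nat_lit 1) (nat_lit 281) (nat_lit 242) (nat_lit 257)) (PT.lf (nat_lit 39976) (nat_lit 6) (nat_lit 526) (nat_lit 1) (nat_lit 282) (nat_lit 242) (nat_lit 256))) (PT.nd (nat_lit 78)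 (PT.lf (nat_lit 38152) (nat_lit 6) (nat_lit 502) (nat_lit 1) (nat_lit 283) (nat_lit 242) (nat_lit 255)) (PT.lf (nat_lit 36252) (nat_lit 6) (nat_lit 477) (nat_lit 1) (nat_lit 284) (nat_lit 242) (nat_lit 254)))) (PT.nd (nat_lit 156) (PT.nd (nat_lit 78) (PT.lf (nat_lit 36176) (nat_lit 6) (nat_lit 476) (nat_lit 3) (nat_lit 253) (nat_lit 243) (nat_lit 284)) (PT.lf (nat_lit 38076) (nat_lit 6) (nat_lit 501) (nat_lit 3) (nat_lit 254) (nat_lit 243) (nat_lit 283))) (PT.nd (nat_lit 78) (PT.lf (nat_lit 39900) (nat_lit 6) (nat_lit 525) (nat_lit 3) (nat_lit 255) (nat_lit 243) (nat_lit 282)) (PT.lf (nat_lit 41648) (nat_lit 6) (nat_lit 548) (nat_lit 3) (nat_lit 256) (nat_lit 243) (nat_lit 281))))) (PT.nd (nat_lit 312) (PT.nd (nat_lit 156) (PT.nd (nat_lit 78) (PT.lf (nat_lit 43320) (nat_lit 6) (nat_lit 570) (nat_lit 3) (nat_lit 257) (nat_lit 243) (nat_lit 280)) (PT.lf (nat_lit 44916) (nat_lit 6) (nat_lit 591) (nat_lit 3) (nat_lit 258) (nat_lit 243) (nat_lit 279))) (PT.nd (nat_lit 78) (PT.lf (nat_lit 46436) (nat_lit 6) (nat_lit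 611) (nat_lit 3) (nat_lit 259) (nat_lit 243) (nat_lit 278)) (PT.lf (nat_lit 47880) (nat_lit 6) (nat_lit 630) (nat_lit 3) (nat_lit 260) (nat_lit 243) (nat_lit 277)))) (PT.nd (nat_lit 156) (PT.nd (nat_lit 78) (PT.lf (nat_lit 47956) (nat_lit 6) (nat_lit 631) (nat_lit 3) (nat_lit 261) (nat_lit 243) (nat_lit 276)) (PT.lf (nat_lit 48032) (nat_lit 6) (nat_lit 632) (nat_lit 3) (nat_lit 262) (nat_lit 243) (nat_lit 275))) (PT.nd (nat_lit 78) (PT.lf (nat_lit 48108) (nat_lit 6) (nat_lit 633) (nat_lit 3) (nat_lit 263) (nat_lit 243) (nat_lit 274)) (PT.lf (nat_lit 48184) (nat_lit 6) (nat_lit 634) (nat_lit 3) (nat_lit 264) (nat_lit 243) (nat_lit 273))))))))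
noncomputable def pc15 : PT := (PT.nd (nat_lit 81042) (PT.nd (nat_lit 1170) (PT.nd (nat_lit 546) (PT.nd (nat_lit 234) (PT.nd (nat_lit 78) (PT.lf (nat_lit 48260) (nat_lit 6) (nat_lit 635) (nat_lit 3) (nat_lit 265) (nat_lit 243) (nat_lit 272)) (PT.nd (nat_lit 78) (PT.lf (nat_lit 48336) (nat_lit 6) (nat_lit 636) (nat_lit 3) (nat_lit 266) (nat_lit 243) (nat_lit 271)) (PT.lf (nat_lit 48412) (nat_lit 6) (nat_lit 637) (nat_lit 3) (nat_lit 267) (nat_lit 243) (nat_lit 270)))) (PT.nd (nat_lit 156) (PT.nd (nat_lit 78) (PT.lf (nat_lit 48488) (nat_lit 6) (nat_lit 638) (nat_lit 3) (nat_lit 268) (nat_lit 243) (nat_lit 269)) (PT.lf (nat_lit 48488) (nat_lit 6) (nat_lit 638) (nat_lit 1) (nat_lit 269) (nat_lit 243) (nat_lit 268))) (PT.nd (nat_lit 78) (PT.lf (nat_lit 48412) (nat_lit 6) (nat_lit 637) (nat_lit 1) (nat_lit 270) (nat_lit 243) (nat_lit 267)) (PT.lf (nat_lit 48336) (nat_lit 6) (nat_lit 636) (nat_lit 1) (nat_lit 271) (nat_lit 243) (nat_lit 266))))) (PT.nd (nat_lit 312) (PT.nd (nat_lit 156) (PT.nd (nat_lit 78) (PT.lf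 (nat_lit 48260) (nat_lit 6) (nat_lit 635) (nat_lit 1) (nat_lit 272) (nat_lit 243) (nat_lit 265)) (PT.lf (nat_lit 48184) (nat_lit 6) (nat_lit 634) (nat_lit 1) (nat_lit 273) (nat_lit 243) (nat_lit 264))) (PT.nd (nat_lit 78) (PT.lf (nat_lit 48108) (nat_lit 6) (nat_lit 633) (nat_lit 1) (nat_lit 274) (nat_lit 243) (nat_lit 263)) (PT.lf (nat_lit 48032) (nat_lit 6) (nat_lit 632) (nat_lit 1) (nat_lit 275) (nat_lit 243) (nat_lit 262)))) (PT.nd (nat_lit 156) (PT.nd (nat_lit 78) (PT.lf (nat_lit 47956) (nat_lit 6) (nat_lit 631) (nat_lit 1) (nat_lit 276) (nat_lit 243) (nat_lit 261)) (PT.lf (nat_lit 47880) (nat_lit 6) (nat_lit 630) (nat_lit 1) (nat_lit 277) (nat_lit 243) (nat_lit 260))) (PT.nd (nat_lit 78) (PT.lf (nat_lit 46436) (nat_lit 6) (nat_lit 611) (nat_lit 1) (nat_lit 278) (nat_lit 243) (nat_lit 259)) (PT.lf (nat_lit 44916) (nat_lit 6) (nat_lit 591) (nat_lit 1) (nat_lit 279) (nat_lit 243) (nat_lit 258)))))) (PT.nd (nat_lit 79248) (PT.nd (nat_lit 312) (PT.nd (nat_lit 156) (PT.nd (nat_lit 78) (PT.lf (nat_lit 43320)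 (nat_lit 6) (nat_lit 570) (nat_lit 1) (nat_lit 280) (nat_lit 243) (nat_lit 257)) (PT.lf (nat_lit 41648) (nat_lit 6) (nat_lit 548) (nat_lit 1) (nat_lit 281) (nat_lit 243) (nat_lit 256))) (PT.nd (nat_lit 78) (PT.lf (nat_lit 39900) (nat_lit 6) (nat_lit 525) (nat_lit 1) (nat_lit 282) (nat_lit 243) (nat_lit 255)) (PT.lf (nat_lit 38076) (nat_lit 6) (nat_lit 501) (nat_lit 1) (nat_lit 283) (nat_lit 243) (nat_lit 254)))) (PT.nd (nat_lit 78780) (PT.nd (nat_lit 78702) (PT.lf (nat_lit 36176) (nat_lit 6) (nat_lit 476) (nat_lit 1) (nat_lit 284) (nat_lit 243) (nat_lit 253)) (PT.lf (nat_lit 36100) (nat_lit 6) (nat_lit 475) (nat_lit 3) (nat_lit 252) (nat_lit 244) (nat_lit 284))) (PT.nd (nat_lit 78) (PT.lf (nat_lit 38000) (nat_lit 6) (nat_lit 500) (nat_lit 3) (nat_lit 253) (nat_lit 244) (nat_lit 283)) (PT.lf (nat_lit 39824) (nat_lit 6) (nat_lit 524) (nat_lit 3) (nat_lit 254) (nat_lit 244) (nat_lit 282))))) (PT.nd (nat_lit 312) (PT.nd (nat_lit 156) (PT.nd (nat_lit 78) (PT.lf (nat_lit 41572) (nat_lit 6) (nat_lit 547) (nat_lit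 3) (nat_lit 255) (nat_lit 244) (nat_lit 281)) (PT.lf (nat_lit 43244) (nat_lit 6) (nat_lit 569) (nat_lit 3) (nat_lit 256) (nat_lit 244) (nat_lit 280))) (PT.nd (nat_lit 78) (PT.lf (nat_lit 44840) (nat_lit 6) (nat_lit 590) (nat_lit 3) (nat_lit 257) (nat_lit 244) (nat_lit 279)) (PT.lf (nat_lit 46360) (nat_lit 6) (nat_lit 610) (nat_lit 3) (nat_lit 258) (nat_lit 244) (nat_lit 278)))) (PT.nd (nat_lit 156) (PT.nd (nat_lit 78) (PT.lf (nat_lit 47804) (nat_lit 6) (nat_lit 629) (nat_lit 3) (nat_lit 259) (nat_lit 244) (nat_lit 277)) (PT.lf (nat_lit 49172) (nat_lit 6) (nat_lit 647) (nat_lit 3) (nat_lit 260) (nat_lit 244) (nat_lit 276))) (PT.nd (nat_lit 78) (PT.lf (nat_lit 49248) (nat_lit 6) (nat_lit 648) (nat_lit 3) (nat_lit 261) (nat_lit 244) (nat_lit 275)) (PT.lf (nat_lit 49324) (nat_lit 6) (nat_lit 649) (nat_lit 3) (nat_lit 262) (nat_lit 244) (nat_lit 274))))))) (PT.nd (nat_lit 1170) (PT.nd (nat_lit 546) (PT.nd (nat_lit 234) (PT.nd (nat_lit 78) (PT.lf (nat_lit 49400) (nat_lit 6) (nat_lit 650) (nat_lit 3) (nat_lit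 263) (nat_lit 244) (nat_lit 273)) (PT.nd (nat_lit 78) (PT.lf (nat_lit 49476) (nat_lit 6) (nat_lit 651) (nat_lit 3) (nat_lit 264) (nat_lit 244) (nat_lit 272)) (PT.lf (nat_lit 49552) (nat_lit 6) (nat_lit 652) (nat_lit 3) (nat_lit 265) (nat_lit 244) (nat_lit 271)))) (PT.nd (nat_lit 156) (PT.nd (nat_lit 78) (PT.lf (nat_lit 49628) (nat_lit 6) (nat_lit 653) (nat_lit 3) (nat_lit 266) (nat_lit 244) (nat_lit 270)) (PT.lf (nat_lit 49704) (nat_lit 6) (nat_lit 654) (nat_lit 3) (nat_lit 267) (nat_lit 244) (nat_lit 269))) (PT.nd (nat_lit 78) (PT.lf (nat_lit 49780) (nat_lit 3) (nat_lit 655) (nat_lit 1) (nat_lit 268) (nat_lit 244) (nat_lit 268)) (PT.lf (nat_lit 49704) (nat_lit 6) (nat_lit 654) (nat_lit 1) (nat_lit 269) (nat_lit 244) (nat_lit 267))))) (PT.nd (nat_lit 312) (PT.nd (nat_lit 156) (PT.nd (nat_lit 78) (PT.lf (nat_lit 49628) (nat_lit 6) (nat_lit 653) (nat_lit 1) (nat_lit 270) (nat_lit 244) (nat_lit 266)) (PT.lf (nat_lit 49552) (nat_lit 6) (nat_lit 652) (nat_lit 1) (nat_lit 271) (nat_lit 244) (nat_lit 265))) (PT.nd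 (nat_lit 78) (PT.lf (nat_lit 49476) (nat_lit 6) (nat_lit 651) (nat_lit 1) (nat_lit 272) (nat_lit 244) (nat_lit 264)) (PT.lf (nat_lit 49400) (nat_lit 6) (nat_lit 650) (nat_lit 1) (nat_lit 273) (nat_lit 244) (nat_lit 263)))) (PT.nd (nat_lit 156) (PT.nd (nat_lit 78) (PT.lf (nat_lit 49324) (nat_lit 6) (nat_lit 649) (nat_lit 1) (nat_lit 274) (nat_lit 244) (nat_lit 262)) (PT.lf (nat_lit 49248) (nat_lit 6) (nat_lit 648) (nat_lit 1) (nat_lit 275) (nat_lit 244) (nat_lit 261))) (PT.nd (nat_lit 78) (PT.lf (nat_lit 49172) (nat_lit 6) (nat_lit 647) (nat_lit 1) (nat_lit 276) (nat_lit 244) (nat_lit 260)) (PT.lf (nat_lit 47804) (nat_lit 6) (nat_lit 629) (nat_lit 1) (nat_lit 277) (nat_lit 244) (nat_lit 259)))))) (PT.nd (nat_lit 79170) (PT.nd (nat_lit 312) (PT.nd (nat_lit 156) (PT.nd (nat_lit 78) (PT.lf (nat_lit 46360) (nat_lit 6) (nat_lit 610) (nat_lit 1) (nat_lit 278) (nat_lit 244) (nat_lit 258)) (PT.lf (nat_lit 44840) (nat_lit 6) (nat_lit 590) (nat_lit 1) (nat_lit 279) (nat_lit 244) (nat_lit 257))) (PT.nd (nat_lit 78)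 (PT.lf (nat_lit 43244) (nat_lit 6) (nat_lit 569) (nat_lit 1) (nat_lit 280) (nat_lit 244) (nat_lit 256)) (PT.lf (nat_lit 41572) (nat_lit 6) (nat_lit 547) (nat_lit 1) (nat_lit 281) (nat_lit 244) (nat_lit 255)))) (PT.nd (nat_lit 156) (PT.nd (nat_lit 78) (PT.lf (nat_lit 39824) (nat_lit 6) (nat_lit 524) (nat_lit 1) (nat_lit 282) (nat_lit 244) (nat_lit 254)) (PT.lf (nat_lit 38000) (nat_lit 6) (nat_lit 500) (nat_lit 1) (nat_lit 283) (nat_lit 244) (nat_lit 253))) (PT.nd (nat_lit 78624) (PT.lf (nat_lit 36100) (nat_lit 6) (nat_lit 475) (nat_lit 1) (nat_lit 284) (nat_lit 244) (nat_lit 252)) (PT.lf (nat_lit 36024) (nat_lit 6) (nat_lit 474) (nat_lit 3) (nat_lit 251) (nat_lit 245) (nat_lit 284))))) (PT.nd (nat_lit 312) (PT.nd (nat_lit 156) (PT.nd (nat_lit 78) (PT.lf (nat_lit 37924) (nat_lit 6) (nat_lit 499) (nat_lit 3) (nat_lit 252) (nat_lit 245) (nat_lit 283)) (PT.lf (nat_lit 39748) (nat_lit 6) (nat_lit 523) (nat_lit 3) (nat_lit 253) (nat_lit 245) (nat_lit 282))) (PT.nd (nat_lit 78) (PT.lf (nat_lit 41496) (nat_lit 6)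 (nat_lit 546) (nat_lit 3) (nat_lit 254) (nat_lit 245) (nat_lit 281)) (PT.lf (nat_lit 43168) (nat_lit 6) (nat_lit 568) (nat_lit 3) (nat_lit 255) (nat_lit 245) (nat_lit 280)))) (PT.nd (nat_lit 156) (PT.nd (nat_lit 78) (PT.lf (nat_lit 44764) (nat_lit 6) (nat_lit 589) (nat_lit 3) (nat_lit 256) (nat_lit 245) (nat_lit 279)) (PT.lf (nat_lit 46284) (nat_lit 6) (nat_lit 609) (nat_lit 3) (nat_lit 257) (nat_lit 245) (nat_lit 278))) (PT.nd (nat_lit 78) (PT.lf (nat_lit 47728) (nat_lit 6) (nat_lit 628) (nat_lit 3) (nat_lit 258) (nat_lit 245) (nat_lit 277)) (PT.lf (nat_lit 49096) (nat_lit 6) (nat_lit 646) (nat_lit 3) (nat_lit 259) (nat_lit 245) (nat_lit 276))))))))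
noncomputable def pc16 : PT := (PT.nd (nat_lit 80808) (PT.nd (nat_lit 1170) (PT.nd (nat_lit 546) (PT.nd (nat_lit 234) (PT.nd (nat_lit 78) (PT.lf (nat_lit 50388) (nat_lit 6) (nat_lit 663) (nat_lit 3) (nat_lit 260) (nat_lit 245) (nat_lit 275)) (PT.nd (nat_lit 78) (PT.lf (nat_lit 50464) (nat_lit 6) (nat_lit 664) (nat_lit 3) (nat_lit 261) (nat_lit 245) (nat_lit 274)) (PT.lf (nat_lit 50540) (nat_lit 6) (nat_lit 665) (nat_lit 3) (nat_lit 262) (nat_lit 245) (nat_lit 273)))) (PT.nd (nat_lit 156) (PT.nd (nat_lit 78) (PT.lf (nat_lit 50616) (nat_lit 6) (nat_lit 666) (nat_lit 3) (nat_lit 263) (nat_lit 245) (nat_lit 272)) (PT.lf (nat_lit 50692) (nat_lit 6) (nat_lit 667) (nat_lit 3) (nat_lit 264) (nat_lit 245) (nat_lit 271))) (PT.nd (nat_lit 78) (PT.lf (nat_lit 50768) (nat_lit 6) (nat_lit 668) (nat_lit 3) (nat_lit 265) (nat_lit 245) (nat_lit 270)) (PT.lf (nat_lit 50844) (nat_lit 6) (nat_lit 669) (nat_lit 3) (nat_lit 266) (nat_lit 245) (nat_lit 269))))) (PT.nd (nat_lit 312) (PT.nd (nat_lit 156) (PT.nd (nat_lit 78) (PT.lf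 (nat_lit 50920) (nat_lit 6) (nat_lit 670) (nat_lit 3) (nat_lit 267) (nat_lit 245) (nat_lit 268)) (PT.lf (nat_lit 50920) (nat_lit 6) (nat_lit 670) (nat_lit 1) (nat_lit 268) (nat_lit 245) (nat_lit 267))) (PT.nd (nat_lit 78) (PT.lf (nat_lit 50844) (nat_lit 6) (nat_lit 669) (nat_lit 1) (nat_lit 269) (nat_lit 245) (nat_lit 266)) (PT.lf (nat_lit 50768) (nat_lit 6) (nat_lit 668) (nat_lit 1) (nat_lit 270) (nat_lit 245) (nat_lit 265)))) (PT.nd (nat_lit 156) (PT.nd (nat_lit 78) (PT.lf (nat_lit 50692) (nat_lit 6) (nat_lit 667) (nat_lit 1) (nat_lit 271) (nat_lit 245) (nat_lit 264)) (PT.lf (nat_lit 50616) (nat_lit 6) (nat_lit 666) (nat_lit 1) (nat_lit 272) (nat_lit 245) (nat_lit 263))) (PT.nd (nat_lit 78) (PT.lf (nat_lit 50540) (nat_lit 6) (nat_lit 665) (nat_lit 1) (nat_lit 273) (nat_lit 245) (nat_lit 262)) (PT.lf (nat_lit 50464) (nat_lit 6) (nat_lit 664) (nat_lit 1) (nat_lit 274) (nat_lit 245) (nat_lit 261)))))) (PT.nd (nat_lit 546) (PT.nd (nat_lit 234) (PT.nd (nat_lit 78) (PT.lf (nat_lit 50388) (nat_lit 6) (nat_lit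 663) (nat_lit 1) (nat_lit 275) (nat_lit 245) (nat_lit 260)) (PT.nd (nat_lit 78) (PT.lf (nat_lit 49096) (nat_lit 6) (nat_lit 646) (nat_lit 1) (nat_lit 276) (nat_lit 245) (nat_lit 259)) (PT.lf (nat_lit 47728) (nat_lit 6) (nat_lit 628) (nat_lit 1) (nat_lit 277) (nat_lit 245) (nat_lit 258)))) (PT.nd (nat_lit 156) (PT.nd (nat_lit 78) (PT.lf (nat_lit 46284) (nat_lit 6) (nat_lit 609) (nat_lit 1) (nat_lit 278) (nat_lit 245) (nat_lit 257)) (PT.lf (nat_lit 44764) (nat_lit 6) (nat_lit 589) (nat_lit 1) (nat_lit 279) (nat_lit 245) (nat_lit 256))) (PT.nd (nat_lit 78) (PT.lf (nat_lit 43168) (nat_lit 6) (nat_lit 568) (nat_lit 1) (nat_lit 280) (nat_lit 245) (nat_lit 255)) (PT.lf (nat_lit 41496) (nat_lit 6) (nat_lit 546) (nat_lit 1) (nat_lit 281) (nat_lit 245) (nat_lit 254))))) (PT.nd (nat_lit 78780) (PT.nd (nat_lit 156) (PT.nd (nat_lit 78) (PT.lf (nat_lit 39748) (nat_lit 6) (nat_lit 523) (nat_lit 1) (nat_lit 282) (nat_lit 245) (nat_lit 253)) (PT.lf (nat_lit 37924) (nat_lit 6) (nat_lit 499) (nat_lit 1) (nat_lit 283) (nat_lit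 245) (nat_lit 252))) (PT.nd (nat_lit 78546) (PT.lf (nat_lit 36024) (nat_lit 6) (nat_lit 474) (nat_lit 1) (nat_lit 284) (nat_lit 245) (nat_lit 251)) (PT.lf (nat_lit 35948) (nat_lit 6) (nat_lit 473) (nat_lit 3) (nat_lit 250) (nat_lit 246) (nat_lit 284)))) (PT.nd (nat_lit 156) (PT.nd (nat_lit 78) (PT.lf (nat_lit 37848) (nat_lit 6) (nat_lit 498) (nat_lit 3) (nat_lit 251) (nat_lit 246) (nat_lit 283)) (PT.lf (nat_lit 39672) (nat_lit 6) (nat_lit 522) (nat_lit 3) (nat_lit 252) (nat_lit 246) (nat_lit 282))) (PT.nd (nat_lit 78) (PT.lf (nat_lit 41420) (nat_lit 6) (nat_lit 545) (nat_lit 3) (nat_lit 253) (nat_lit 246) (nat_lit 281)) (PT.lf (nat_lit 43092) (nat_lit 6) (nat_lit 567) (nat_lit 3) (nat_lit 254) (nat_lit 246) (nat_lit 280))))))) (PT.nd (nat_lit 1170) (PT.nd (nat_lit 546) (PT.nd (nat_lit 234) (PT.nd (nat_lit 78) (PT.lf (nat_lit 44688) (nat_lit 6) (nat_lit 588) (nat_lit 3) (nat_lit 255) (nat_lit 246) (nat_lit 279)) (PT.nd (nat_lit 78) (PT.lf (nat_lit 46208) (nat_lit 6) (nat_lit 608) (nat_lit 3) (nat_lit 256)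 (nat_lit 246) (nat_lit 278)) (PT.lf (nat_lit 47652) (nat_lit 6) (nat_lit 627) (nat_lit 3) (nat_lit 257) (nat_lit 246) (nat_lit 277)))) (PT.nd (nat_lit 156) (PT.nd (nat_lit 78) (PT.lf (nat_lit 49020) (nat_lit 6) (nat_lit 645) (nat_lit 3) (nat_lit 258) (nat_lit 246) (nat_lit 276)) (PT.lf (nat_lit 50312) (nat_lit 6) (nat_lit 662) (nat_lit 3) (nat_lit 259) (nat_lit 246) (nat_lit 275))) (PT.nd (nat_lit 78) (PT.lf (nat_lit 51528) (nat_lit 6) (nat_lit 678) (nat_lit 3) (nat_lit 260) (nat_lit 246) (nat_lit 274)) (PT.lf (nat_lit 51604) (nat_lit 6) (nat_lit 679) (nat_lit 3) (nat_lit 261) (nat_lit 246) (nat_lit 273))))) (PT.nd (nat_lit 312) (PT.nd (nat_lit 156) (PT.nd (nat_lit 78) (PT.lf (nat_lit 51680) (nat_lit 6) (nat_lit 680) (nat_lit 3) (nat_lit 262) (nat_lit 246) (nat_lit 272)) (PT.lf (nat_lit 51756) (nat_lit 6) (nat_lit 681) (nat_lit 3) (nat_lit 263) (nat_lit 246) (nat_lit 271))) (PT.nd (nat_lit 78) (PT.lf (nat_lit 51832) (nat_lit 6) (nat_lit 682) (nat_lit 3) (nat_lit 264) (nat_lit 246) (nat_lit 270)) (PT.lf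 (nat_lit 51908) (nat_lit 6) (nat_lit 683) (nat_lit 3) (nat_lit 265) (nat_lit 246) (nat_lit 269)))) (PT.nd (nat_lit 156) (PT.nd (nat_lit 78) (PT.lf (nat_lit 51984) (nat_lit 6) (nat_lit 684) (nat_lit 3) (nat_lit 266) (nat_lit 246) (nat_lit 268)) (PT.lf (nat_lit 52060) (nat_lit 3) (nat_lit 685) (nat_lit 1) (nat_lit 267) (nat_lit 246) (nat_lit 267))) (PT.nd (nat_lit 78) (PT.lf (nat_lit 51984) (nat_lit 6) (nat_lit 684) (nat_lit 1) (nat_lit 268) (nat_lit 246) (nat_lit 266)) (PT.lf (nat_lit 51908) (nat_lit 6) (nat_lit 683) (nat_lit 1) (nat_lit 269) (nat_lit 246) (nat_lit 265)))))) (PT.nd (nat_lit 624) (PT.nd (nat_lit 312) (PT.nd (nat_lit 156) (PT.nd (nat_lit 78) (PT.lf (nat_lit 51832) (nat_lit 6) (nat_lit 682) (nat_lit 1) (nat_lit 270) (nat_lit 246) (nat_lit 264)) (PT.lf (nat_lit 51756) (nat_lit 6) (nat_lit 681) (nat_lit 1) (nat_lit 271) (nat_lit 246) (nat_lit 263))) (PT.nd (nat_lit 78) (PT.lf (nat_lit 51680) (nat_lit 6) (nat_lit 680) (nat_lit 1) (nat_lit 272) (nat_lit 246) (nat_lit 262)) (PT.lf (nat_lit 51604)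 (nat_lit 6) (nat_lit 679) (nat_lit 1) (nat_lit 273) (nat_lit 246) (nat_lit 261)))) (PT.nd (nat_lit 156) (PT.nd (nat_lit 78) (PT.lf (nat_lit 51528) (nat_lit 6) (nat_lit 678) (nat_lit 1) (nat_lit 274) (nat_lit 246) (nat_lit 260)) (PT.lf (nat_lit 50312) (nat_lit 6) (nat_lit 662) (nat_lit 1) (nat_lit 275) (nat_lit 246) (nat_lit 259))) (PT.nd (nat_lit 78) (PT.lf (nat_lit 49020) (nat_lit 6) (nat_lit 645) (nat_lit 1) (nat_lit 276) (nat_lit 246) (nat_lit 258)) (PT.lf (nat_lit 47652) (nat_lit 6) (nat_lit 627) (nat_lit 1) (nat_lit 277) (nat_lit 246) (nat_lit 257))))) (PT.nd (nat_lit 312) (PT.nd (nat_lit 156) (PT.nd (nat_lit 78) (PT.lf (nat_lit 46208) (nat_lit 6) (nat_lit 608) (nat_lit 1) (nat_lit 278) (nat_lit 246) (nat_lit 256)) (PT.lf (nat_lit 44688) (nat_lit 6) (nat_lit 588) (nat_lit 1) (nat_lit 279) (nat_lit 246) (nat_lit 255))) (PT.nd (nat_lit 78) (PT.lf (nat_lit 43092) (nat_lit 6) (nat_lit 567) (nat_lit 1) (nat_lit 280) (nat_lit 246) (nat_lit 254)) (PT.lf (nat_lit 41420) (nat_lit 6) (nat_lit 545) (nat_lit 1)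 (nat_lit 281) (nat_lit 246) (nat_lit 253)))) (PT.nd (nat_lit 156) (PT.nd (nat_lit 78) (PT.lf (nat_lit 39672) (nat_lit 6) (nat_lit 522) (nat_lit 1) (nat_lit 282) (nat_lit 246) (nat_lit 252)) (PT.lf (nat_lit 37848) (nat_lit 6) (nat_lit 498) (nat_lit 1) (nat_lit 283) (nat_lit 246) (nat_lit 251))) (PT.nd (nat_lit 78468) (PT.lf (nat_lit 35948) (nat_lit 6) (nat_lit 473) (nat_lit 1) (nat_lit 284) (nat_lit 246) (nat_lit 250)) (PT.lf (nat_lit 35872) (nat_lit 6) (nat_lit 472) (nat_lit 3) (nat_lit 249) (nat_lit 247) (nat_lit 284))))))))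
noncomputable def pc17 : PT := (PT.nd (nat_lit 2418) (PT.nd (nat_lit 1170) (PT.nd (nat_lit 546) (PT.nd (nat_lit 234) (PT.nd (nat_lit 78) (PT.lf (nat_lit 37772) (nat_lit 6) (nat_lit 497) (nat_lit 3) (nat_lit 250) (nat_lit 247) (nat_lit 283)) (PT.nd (nat_lit 78) (PT.lf (nat_lit 39596) (nat_lit 6) (nat_lit 521) (nat_lit 3) (nat_lit 251) (nat_lit 247) (nat_lit 282)) (PT.lf (nat_lit 41344) (nat_lit 6) (nat_lit 544) (nat_lit 3) (nat_lit 252) (nat_lit 247) (nat_lit 281)))) (PT.nd (nat_lit 156) (PT.nd (nat_lit 78) (PT.lf (nat_lit 43016) (nat_lit 6) (nat_lit 566) (nat_lit 3) (nat_lit 253) (nat_lit 247) (nat_lit 280)) (PT.lf (nat_lit 44612) (nat_lit 6) (nat_lit 587) (nat_lit 3) (nat_lit 254) (nat_lit 247) (nat_lit 279))) (PT.nd (nat_lit 78) (PT.lf (nat_lit 46132) (nat_lit 6) (nat_lit 607) (nat_lit 3) (nat_lit 255) (nat_lit 247) (nat_lit 278)) (PT.lf (nat_lit 47576) (nat_lit 6) (nat_lit 626) (nat_lit 3) (nat_lit 256) (nat_lit 247) (nat_lit 277))))) (PT.nd (nat_lit 312) (PT.nd (nat_lit 156) (PT.nd (nat_lit 78) (PT.lf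 (nat_lit 48944) (nat_lit 6) (nat_lit 644) (nat_lit 3) (nat_lit 257) (nat_lit 247) (nat_lit 276)) (PT.lf (nat_lit 50236) (nat_lit 6) (nat_lit 661) (nat_lit 3) (nat_lit 258) (nat_lit 247) (nat_lit 275))) (PT.nd (nat_lit 78) (PT.lf (nat_lit 51452) (nat_lit 6) (nat_lit 677) (nat_lit 3) (nat_lit 259) (nat_lit 247) (nat_lit 274)) (PT.lf (nat_lit 52592) (nat_lit 6) (nat_lit 692) (nat_lit 3) (nat_lit 260) (nat_lit 247) (nat_lit 273)))) (PT.nd (nat_lit 156) (PT.nd (nat_lit 78) (PT.lf (nat_lit 52668) (nat_lit 6) (nat_lit 693) (nat_lit 3) (nat_lit 261) (nat_lit 247) (nat_lit 272)) (PT.lf (nat_lit 52744) (nat_lit 6) (nat_lit 694) (nat_lit 3) (nat_lit 262) (nat_lit 247) (nat_lit 271))) (PT.nd (nat_lit 78) (PT.lf (nat_lit 52820) (nat_lit 6) (nat_lit 695) (nat_lit 3) (nat_lit 263) (nat_lit 247) (nat_lit 270)) (PT.lf (nat_lit 52896) (nat_lit 6) (nat_lit 696) (nat_lit 3) (nat_lit 264) (nat_lit 247) (nat_lit 269)))))) (PT.nd (nat_lit 624) (PT.nd (nat_lit 312) (PT.nd (nat_lit 156) (PT.nd (nat_lit 78) (PT.lf (nat_lit 52972)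 (nat_lit 6) (nat_lit 697) (nat_lit 3) (nat_lit 265) (nat_lit 247) (nat_lit 268)) (PT.lf (nat_lit 53048) (nat_lit 6) (nat_lit 698) (nat_lit 3) (nat_lit 266) (nat_lit 247) (nat_lit 267))) (PT.nd (nat_lit 78) (PT.lf (nat_lit 53048) (nat_lit 6) (nat_lit 698) (nat_lit 1) (nat_lit 267) (nat_lit 247) (nat_lit 266)) (PT.lf (nat_lit 52972) (nat_lit 6) (nat_lit 697) (nat_lit 1) (nat_lit 268) (nat_lit 247) (nat_lit 265)))) (PT.nd (nat_lit 156) (PT.nd (nat_lit 78) (PT.lf (nat_lit 52896) (nat_lit 6) (nat_lit 696) (nat_lit 1) (nat_lit 269) (nat_lit 247) (nat_lit 264)) (PT.lf (nat_lit 52820) (nat_lit 6) (nat_lit 695) (nat_lit 1) (nat_lit 270) (nat_lit 247) (nat_lit 263))) (PT.nd (nat_lit 78) (PT.lf (nat_lit 52744) (nat_lit 6) (nat_lit 694) (nat_lit 1) (nat_lit 271) (nat_lit 247) (nat_lit 262)) (PT.lf (nat_lit 52668) (nat_lit 6) (nat_lit 693) (nat_lit 1) (nat_lit 272) (nat_lit 247) (nat_lit 261))))) (PT.nd (nat_lit 312) (PT.nd (nat_lit 156) (PT.nd (nat_lit 78) (PT.lf (nat_lit 52592) (nat_lit 6) (nat_lit 692) (nat_lit 1)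 (nat_lit 273) (nat_lit 247) (nat_lit 260)) (PT.lf (nat_lit 51452) (nat_lit 6) (nat_lit 677) (nat_lit 1) (nat_lit 274) (nat_lit 247) (nat_lit 259))) (PT.nd (nat_lit 78) (PT.lf (nat_lit 50236) (nat_lit 6) (nat_lit 661) (nat_lit 1) (nat_lit 275) (nat_lit 247) (nat_lit 258)) (PT.lf (nat_lit 48944) (nat_lit 6) (nat_lit 644) (nat_lit 1) (nat_lit 276) (nat_lit 247) (nat_lit 257)))) (PT.nd (nat_lit 156) (PT.nd (nat_lit 78) (PT.lf (nat_lit 47576) (nat_lit 6) (nat_lit 626) (nat_lit 1) (nat_lit 277) (nat_lit 247) (nat_lit 256)) (PT.lf (nat_lit 46132) (nat_lit 6) (nat_lit 607) (nat_lit 1) (nat_lit 278) (nat_lit 247) (nat_lit 255))) (PT.nd (nat_lit 78) (PT.lf (nat_lit 44612) (nat_lit 6) (nat_lit 587) (nat_lit 1) (nat_lit 279) (nat_lit 247) (nat_lit 254)) (PT.lf (nat_lit 43016) (nat_lit 6) (nat_lit 566) (nat_lit 1) (nat_lit 280) (nat_lit 247) (nat_lit 253))))))) (PT.nd (nat_lit 79482) (PT.nd (nat_lit 78858) (PT.nd (nat_lit 234) (PT.nd (nat_lit 78) (PT.lf (nat_lit 41344) (nat_lit 6) (nat_lit 544) (nat_lit 1) (nat_lit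 281) (nat_lit 247) (nat_lit 252)) (PT.nd (nat_lit 78) (PT.lf (nat_lit 39596) (nat_lit 6) (nat_lit 521) (nat_lit 1) (nat_lit 282) (nat_lit 247) (nat_lit 251)) (PT.lf (nat_lit 37772) (nat_lit 6) (nat_lit 497) (nat_lit 1) (nat_lit 283) (nat_lit 247) (nat_lit 250)))) (PT.nd (nat_lit 78468) (PT.nd (nat_lit 78390) (PT.lf (nat_lit 35872) (nat_lit 6) (nat_lit 472) (nat_lit 1) (nat_lit 284) (nat_lit 247) (nat_lit 249)) (PT.lf (nat_lit 35796) (nat_lit 3) (nat_lit 471) (nat_lit 3) (nat_lit 248) (nat_lit 248) (nat_lit 284))) (PT.nd (nat_lit 78) (PT.lf (nat_lit 37696) (nat_lit 6) (nat_lit 496) (nat_lit 3) (nat_lit 249) (nat_lit 248) (nat_lit 283)) (PT.lf (nat_lit 39520) (nat_lit 6) (nat_lit 520) (nat_lit 3) (nat_lit 250) (nat_lit 248) (nat_lit 282))))) (PT.nd (nat_lit 312) (PT.nd (nat_lit 156) (PT.nd (nat_lit 78) (PT.lf (nat_lit 41268) (nat_lit 6) (nat_lit 543) (nat_lit 3) (nat_lit 251) (nat_lit 248) (nat_lit 281)) (PT.lf (nat_lit 42940) (nat_lit 6) (nat_lit 565) (nat_lit 3) (nat_lit 252) (nat_lit 248) (nat_lit 280)))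 (PT.nd (nat_lit 78) (PT.lf (nat_lit 44536) (nat_lit 6) (nat_lit 586) (nat_lit 3) (nat_lit 253) (nat_lit 248) (nat_lit 279)) (PT.lf (nat_lit 46056) (nat_lit 6) (nat_lit 606) (nat_lit 3) (nat_lit 254) (nat_lit 248) (nat_lit 278)))) (PT.nd (nat_lit 156) (PT.nd (nat_lit 78) (PT.lf (nat_lit 47500) (nat_lit 6) (nat_lit 625) (nat_lit 3) (nat_lit 255) (nat_lit 248) (nat_lit 277)) (PT.lf (nat_lit 48868) (nat_lit 6) (nat_lit 643) (nat_lit 3) (nat_lit 256) (nat_lit 248) (nat_lit 276))) (PT.nd (nat_lit 78) (PT.lf (nat_lit 50160) (nat_lit 6) (nat_lit 660) (nat_lit 3) (nat_lit 257) (nat_lit 248) (nat_lit 275)) (PT.lf (nat_lit 51376) (nat_lit 6) (nat_lit 676) (nat_lit 3) (nat_lit 258) (nat_lit 248) (nat_lit 274)))))) (PT.nd (nat_lit 624) (PT.nd (nat_lit 312) (PT.nd (nat_lit 156) (PT.nd (nat_lit 78) (PT.lf (nat_lit 52516) (nat_lit 6) (nat_lit 691) (nat_lit 3) (nat_lit 259) (nat_lit 248) (nat_lit 273)) (PT.lf (nat_lit 53580) (nat_lit 6) (nat_lit 705) (nat_lit 3) (nat_lit 260) (nat_lit 248) (nat_lit 272))) (PT.nd (nat_lit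 78) (PT.lf (nat_lit 53656) (nat_lit 6) (nat_lit 706) (nat_lit 3) (nat_lit 261) (nat_lit 248) (nat_lit 271)) (PT.lf (nat_lit 53732) (nat_lit 6) (nat_lit 707) (nat_lit 3) (nat_lit 262) (nat_lit 248) (nat_lit 270)))) (PT.nd (nat_lit 156) (PT.nd (nat_lit 78) (PT.lf (nat_lit 53808) (nat_lit 6) (nat_lit 708) (nat_lit 3) (nat_lit 263) (nat_lit 248) (nat_lit 269)) (PT.lf (nat_lit 53884) (nat_lit 6) (nat_lit 709) (nat_lit 3) (nat_lit 264) (nat_lit 248) (nat_lit 268))) (PT.nd (nat_lit 78) (PT.lf (nat_lit 53960) (nat_lit 6) (nat_lit 710) (nat_lit 3) (nat_lit 265) (nat_lit 248) (nat_lit 267)) (PT.lf (nat_lit 54036) (nat_lit 3) (nat_lit 711) (nat_lit 1) (nat_lit 266) (nat_lit 248) (nat_lit 266))))) (PT.nd (nat_lit 312) (PT.nd (nat_lit 156) (PT.nd (nat_lit 78) (PT.lf (nat_lit 53960) (nat_lit 6) (nat_lit 710) (nat_lit 1) (nat_lit 267) (nat_lit 248) (nat_lit 265)) (PT.lf (nat_lit 53884) (nat_lit 6) (nat_lit 709) (nat_lit 1) (nat_lit 268) (nat_lit 248) (nat_lit 264))) (PT.nd (nat_lit 78) (PT.lf (nat_lit 53808) (nat_lit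 6) (nat_lit 708) (nat_lit 1) (nat_lit 269) (nat_lit 248) (nat_lit 263)) (PT.lf (nat_lit 53732) (nat_lit 6) (nat_lit 707) (nat_lit 1) (nat_lit 270) (nat_lit 248) (nat_lit 262)))) (PT.nd (nat_lit 156) (PT.nd (nat_lit 78) (PT.lf (nat_lit 53656) (nat_lit 6) (nat_lit 706) (nat_lit 1) (nat_lit 271) (nat_lit 248) (nat_lit 261)) (PT.lf (nat_lit 53580) (nat_lit 6) (nat_lit 705) (nat_lit 1) (nat_lit 272) (nat_lit 248) (nat_lit 260))) (PT.nd (nat_lit 78) (PT.lf (nat_lit 52516) (nat_lit 6) (nat_lit 691) (nat_lit 1) (nat_lit 273) (nat_lit 248) (nat_lit 259)) (PT.lf (nat_lit 51376) (nat_lit 6) (nat_lit 676) (nat_lit 1) (nat_lit 274) (nat_lit 248) (nat_lit 258))))))))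
noncomputable def pc18 : PT := (PT.nd (nat_lit 80652) (PT.nd (nat_lit 79404) (PT.nd (nat_lit 546) (PT.nd (nat_lit 234) (PT.nd (nat_lit 78) (PT.lf (nat_lit 50160) (nat_lit 6) (nat_lit 660) (nat_lit 1) (nat_lit 275) (nat_lit 248) (nat_lit 257)) (PT.nd (nat_lit 78) (PT.lf (nat_lit 48868) (nat_lit 6) (nat_lit 643) (nat_lit 1) (nat_lit 276) (nat_lit 248) (nat_lit 256)) (PT.lf (nat_lit 47500) (nat_lit 6) (nat_lit 625) (nat_lit 1) (nat_lit 277) (nat_lit 248) (nat_lit 255)))) (PT.nd (nat_lit 156) (PT.nd (nat_lit 78) (PT.lf (nat_lit 46056) (nat_lit 6) (nat_lit 606) (nat_lit 1) (nat_lit 278) (nat_lit 248) (nat_lit 254)) (PT.lf (nat_lit 44536) (nat_lit 6) (nat_lit 586) (nat_lit 1) (nat_lit 279) (nat_lit 248) (nat_lit 253))) (PT.nd (nat_lit 78) (PT.lf (nat_lit 42940) (nat_lit 6) (nat_lit 565) (nat_lit 1) (nat_lit 280) (nat_lit 248) (nat_lit 252)) (PT.lf (nat_lit 41268) (nat_lit 6) (nat_lit 543) (nat_lit 1) (nat_lit 281) (nat_lit 248) (nat_lit 251))))) (PT.nd (nat_lit 78546) (PT.nd (nat_lit 156) (PT.nd (nat_lit 78)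 (PT.lf (nat_lit 39520) (nat_lit 6) (nat_lit 520) (nat_lit 1) (nat_lit 282) (nat_lit 248) (nat_lit 250)) (PT.lf (nat_lit 37696) (nat_lit 6) (nat_lit 496) (nat_lit 1) (nat_lit 283) (nat_lit 248) (nat_lit 249))) (PT.nd (nat_lit 78312) (PT.lf (nat_lit 35796) (nat_lit 3) (nat_lit 471) (nat_lit 0) (nat_lit 284) (nat_lit 248) (nat_lit 248)) (PT.lf (nat_lit 35872) (nat_lit 6) (nat_lit 472) (nat_lit 5) (nat_lit 247) (nat_lit 249) (nat_lit 284)))) (PT.nd (nat_lit 156) (PT.nd (nat_lit 78) (PT.lf (nat_lit 37696) (nat_lit 6) (nat_lit 496) (nat_lit 5) (nat_lit 248) (nat_lit 249) (nat_lit 283)) (PT.lf (nat_lit 39444) (nat_lit 3) (nat_lit 519) (nat_lit 3) (nat_lit 249) (nat_lit 249) (nat_lit 282))) (PT.nd (nat_lit 78) (PT.lf (nat_lit 41192) (nat_lit 6) (nat_lit 542) (nat_lit 3) (nat_lit 250) (nat_lit 249) (nat_lit 281)) (PT.lf (nat_lit 42864) (nat_lit 6) (nat_lit 564) (nat_lit 3) (nat_lit 251) (nat_lit 249) (nat_lit 280)))))) (PT.nd (nat_lit 624) (PT.nd (nat_lit 312) (PT.nd (nat_lit 156) (PT.nd (nat_lit 78) (PT.lf (nat_lit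 44460) (nat_lit 6) (nat_lit 585) (nat_lit 3) (nat_lit 252) (nat_lit 249) (nat_lit 279)) (PT.lf (nat_lit 45980) (nat_lit 6) (nat_lit 605) (nat_lit 3) (nat_lit 253) (nat_lit 249) (nat_lit 278))) (PT.nd (nat_lit 78) (PT.lf (nat_lit 47424) (nat_lit 6) (nat_lit 624) (nat_lit 3) (nat_lit 254) (nat_lit 249) (nat_lit 277)) (PT.lf (nat_lit 48792) (nat_lit 6) (nat_lit 642) (nat_lit 3) (nat_lit 255) (nat_lit 249) (nat_lit 276)))) (PT.nd (nat_lit 156) (PT.nd (nat_lit 78) (PT.lf (nat_lit 50084) (nat_lit 6) (nat_lit 659) (nat_lit 3) (nat_lit 256) (nat_lit 249) (nat_lit 275)) (PT.lf (nat_lit 51300) (nat_lit 6) (nat_lit 675) (nat_lit 3) (nat_lit 257) (nat_lit 249) (nat_lit 274))) (PT.nd (nat_lit 78) (PT.lf (nat_lit 52440) (nat_lit 6) (nat_lit 690) (nat_lit 3) (nat_lit 258) (nat_lit 249) (nat_lit 273)) (PT.lf (nat_lit 53504) (nat_lit 6) (nat_lit 704) (nat_lit 3) (nat_lit 259) (nat_lit 249) (nat_lit 272))))) (PT.nd (nat_lit 312) (PT.nd (nat_lit 156) (PT.nd (nat_lit 78) (PT.lf (nat_lit 54492) (nat_lit 6) (nat_lit 717) (nat_lit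 3) (nat_lit 260) (nat_lit 249) (nat_lit 271)) (PT.lf (nat_lit 54568) (nat_lit 6) (nat_lit 718) (nat_lit 3) (nat_lit 261) (nat_lit 249) (nat_lit 270))) (PT.nd (nat_lit 78) (PT.lf (nat_lit 54644) (nat_lit 6) (nat_lit 719) (nat_lit 3) (nat_lit 262) (nat_lit 249) (nat_lit 269)) (PT.lf (nat_lit 54720) (nat_lit 6) (nat_lit 720) (nat_lit 3) (nat_lit 263) (nat_lit 249) (nat_lit 268)))) (PT.nd (nat_lit 156) (PT.nd (nat_lit 78) (PT.lf (nat_lit 54796) (nat_lit 6) (nat_lit 721) (nat_lit 3) (nat_lit 264) (nat_lit 249) (nat_lit 267)) (PT.lf (nat_lit 54872) (nat_lit 6) (nat_lit 722) (nat_lit 3) (nat_lit 265) (nat_lit 249) (nat_lit 266))) (PT.nd (nat_lit 78) (PT.lf (nat_lit 54872) (nat_lit 6) (nat_lit 722) (nat_lit 1) (nat_lit 266) (nat_lit 249) (nat_lit 265)) (PT.lf (nat_lit 54796) (nat_lit 6) (nat_lit 721) (nat_lit 1) (nat_lit 267) (nat_lit 249) (nat_lit 264))))))) (PT.nd (nat_lit 1170) (PT.nd (nat_lit 546) (PT.nd (nat_lit 234) (PT.nd (nat_lit 78) (PT.lf (nat_lit 54720) (nat_lit 6) (nat_lit 720) (nat_lit 1) (nat_lit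 268) (nat_lit 249) (nat_lit 263)) (PT.nd (nat_lit 78) (PT.lf (nat_lit 54644) (nat_lit 6) (nat_lit 719) (nat_lit 1) (nat_lit 269) (nat_lit 249) (nat_lit 262)) (PT.lf (nat_lit 54568) (nat_lit 6) (nat_lit 718) (nat_lit 1) (nat_lit 270) (nat_lit 249) (nat_lit 261)))) (PT.nd (nat_lit 156) (PT.nd (nat_lit 78) (PT.lf (nat_lit 54492) (nat_lit 6) (nat_lit 717) (nat_lit 1) (nat_lit 271) (nat_lit 249) (nat_lit 260)) (PT.lf (nat_lit 53504) (nat_lit 6) (nat_lit 704) (nat_lit 1) (nat_lit 272) (nat_lit 249) (nat_lit 259))) (PT.nd (nat_lit 78) (PT.lf (nat_lit 52440) (nat_lit 6) (nat_lit 690) (nat_lit 1) (nat_lit 273) (nat_lit 249) (nat_lit 258)) (PT.lf (nat_lit 51300) (nat_lit 6) (nat_lit 675) (nat_lit 1) (nat_lit 274) (nat_lit 249) (nat_lit 257))))) (PT.nd (nat_lit 312) (PT.nd (nat_lit 156) (PT.nd (nat_lit 78) (PT.lf (nat_lit 50084) (nat_lit 6) (nat_lit 659) (nat_lit 1) (nat_lit 275) (nat_lit 249) (nat_lit 256)) (PT.lf (nat_lit 48792) (nat_lit 6) (nat_lit 642) (nat_lit 1) (nat_lit 276) (nat_lit 249) (nat_lit 255))) (PT.nd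 (nat_lit 78) (PT.lf (nat_lit 47424) (nat_lit 6) (nat_lit 624) (nat_lit 1) (nat_lit 277) (nat_lit 249) (nat_lit 254)) (PT.lf (nat_lit 45980) (nat_lit 6) (nat_lit 605) (nat_lit 1) (nat_lit 278) (nat_lit 249) (nat_lit 253)))) (PT.nd (nat_lit 156) (PT.nd (nat_lit 78) (PT.lf (nat_lit 44460) (nat_lit 6) (nat_lit 585) (nat_lit 1) (nat_lit 279) (nat_lit 249) (nat_lit 252)) (PT.lf (nat_lit 42864) (nat_lit 6) (nat_lit 564) (nat_lit 1) (nat_lit 280) (nat_lit 249) (nat_lit 251))) (PT.nd (nat_lit 78) (PT.lf (nat_lit 41192) (nat_lit 6) (nat_lit 542) (nat_lit 1) (nat_lit 281) (nat_lit 249) (nat_lit 250)) (PT.lf (nat_lit 39444) (nat_lit 3) (nat_lit 519) (nat_lit 0) (nat_lit 282) (nat_lit 249) (nat_lit 249)))))) (PT.nd (nat_lit 78780) (PT.nd (nat_lit 78468) (PT.nd (nat_lit 78312) (PT.nd (nat_lit 78) (PT.lf (nat_lit 37696) (nat_lit 6) (nat_lit 496) (nat_lit 0) (nat_lit 283) (nat_lit 249) (nat_lit 248)) (PT.lf (nat_lit 35872) (nat_lit 6) (nat_lit 472) (nat_lit 0) (nat_lit 284) (nat_lit 249) (nat_lit 247))) (PT.nd (nat_lit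 78) (PT.lf (nat_lit 35948) (nat_lit 6) (nat_lit 473) (nat_lit 5) (nat_lit 246) (nat_lit 250) (nat_lit 284)) (PT.lf (nat_lit 37772) (nat_lit 6) (nat_lit 497) (nat_lit 5) (nat_lit 247) (nat_lit 250) (nat_lit 283)))) (PT.nd (nat_lit 156) (PT.nd (nat_lit 78) (PT.lf (nat_lit 39520) (nat_lit 6) (nat_lit 520) (nat_lit 5) (nat_lit 248) (nat_lit 250) (nat_lit 282)) (PT.lf (nat_lit 41192) (nat_lit 6) (nat_lit 542) (nat_lit 5) (nat_lit 249) (nat_lit 250) (nat_lit 281))) (PT.nd (nat_lit 78) (PT.lf (nat_lit 42788) (nat_lit 3) (nat_lit 563) (nat_lit 3) (nat_lit 250) (nat_lit 250) (nat_lit 280)) (PT.lf (nat_lit 44384) (nat_lit 6) (nat_lit 584) (nat_lit 3) (nat_lit 251) (nat_lit 250) (nat_lit 279))))) (PT.nd (nat_lit 312) (PT.nd (nat_lit 156) (PT.nd (nat_lit 78) (PT.lf (nat_lit 45904) (nat_lit 6) (nat_lit 604) (nat_lit 3) (nat_lit 252) (nat_lit 250) (nat_lit 278)) (PT.lf (nat_lit 47348) (nat_lit 6) (nat_lit 623) (nat_lit 3) (nat_lit 253) (nat_lit 250) (nat_lit 277))) (PT.nd (nat_lit 78) (PT.lf (nat_lit 48716) (nat_lit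 6) (nat_lit 641) (nat_lit 3) (nat_lit 254) (nat_lit 250) (nat_lit 276)) (PT.lf (nat_lit 50008) (nat_lit 6) (nat_lit 658) (nat_lit 3) (nat_lit 255) (nat_lit 250) (nat_lit 275)))) (PT.nd (nat_lit 156) (PT.nd (nat_lit 78) (PT.lf (nat_lit 51224) (nat_lit 6) (nat_lit 674) (nat_lit 3) (nat_lit 256) (nat_lit 250) (nat_lit 274)) (PT.lf (nat_lit 52364) (nat_lit 6) (nat_lit 689) (nat_lit 3) (nat_lit 257) (nat_lit 250) (nat_lit 273))) (PT.nd (nat_lit 78) (PT.lf (nat_lit 53428) (nat_lit 6) (nat_lit 703) (nat_lit 3) (nat_lit 258) (nat_lit 250) (nat_lit 272)) (PT.lf (nat_lit 54416) (nat_lit 6) (nat_lit 716) (nat_lit 3) (nat_lit 259) (nat_lit 250) (nat_lit 271))))))))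
noncomputable def pc19 : PT := (PT.nd (nat_lit 80496) (PT.nd (nat_lit 1170) (PT.nd (nat_lit 546) (PT.nd (nat_lit 234) (PT.nd (nat_lit 78) (PT.lf (nat_lit 55328) (nat_lit 6) (nat_lit 728) (nat_lit 3) (nat_lit 260) (nat_lit 250) (nat_lit 270)) (PT.nd (nat_lit 78) (PT.lf (nat_lit 55404) (nat_lit 6) (nat_lit 729) (nat_lit 3) (nat_lit 261) (nat_lit 250) (nat_lit 269)) (PT.lf (nat_lit 55480) (nat_lit 6) (nat_lit 730) (nat_lit 3) (nat_lit 262) (nat_lit 250) (nat_lit 268)))) (PT.nd (nat_lit 156) (PT.nd (nat_lit 78) (PT.lf (nat_lit 55556) (nat_lit 6) (nat_lit 731) (nat_lit 3) (nat_lit 263) (nat_lit 250) (nat_lit 267)) (PT.lf (nat_lit 55632) (nat_lit 6) (nat_lit 732) (nat_lit 3) (nat_lit 264) (nat_lit 250) (nat_lit 266))) (PT.nd (nat_lit 78) (PT.lf (nat_lit 55708) (nat_lit 3) (nat_lit 733) (nat_lit 1) (nat_lit 265) (nat_lit 250) (nat_lit 265)) (PT.lf (nat_lit 55632) (nat_lit 6) (nat_lit 732) (nat_lit 1) (nat_lit 266) (nat_lit 250) (nat_lit 264))))) (PT.nd (nat_lit 312) (PT.nd (nat_lit 156) (PT.nd (nat_lit 78) (PT.lf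 (nat_lit 55556) (nat_lit 6) (nat_lit 731) (nat_lit 1) (nat_lit 267) (nat_lit 250) (nat_lit 263)) (PT.lf (nat_lit 55480) (nat_lit 6) (nat_lit 730) (nat_lit 1) (nat_lit 268) (nat_lit 250) (nat_lit 262))) (PT.nd (nat_lit 78) (PT.lf (nat_lit 55404) (nat_lit 6) (nat_lit 729) (nat_lit 1) (nat_lit 269) (nat_lit 250) (nat_lit 261)) (PT.lf (nat_lit 55328) (nat_lit 6) (nat_lit 728) (nat_lit 1) (nat_lit 270) (nat_lit 250) (nat_lit 260)))) (PT.nd (nat_lit 156) (PT.nd (nat_lit 78) (PT.lf (nat_lit 54416) (nat_lit 6) (nat_lit 716) (nat_lit 1) (nat_lit 271) (nat_lit 250) (nat_lit 259)) (PT.lf (nat_lit 53428) (nat_lit 6) (nat_lit 703) (nat_lit 1) (nat_lit 272) (nat_lit 250) (nat_lit 258))) (PT.nd (nat_lit 78) (PT.lf (nat_lit 52364) (nat_lit 6) (nat_lit 689) (nat_lit 1) (nat_lit 273) (nat_lit 250) (nat_lit 257)) (PT.lf (nat_lit 51224) (nat_lit 6) (nat_lit 674) (nat_lit 1) (nat_lit 274) (nat_lit 250) (nat_lit 256)))))) (PT.nd (nat_lit 624) (PT.nd (nat_lit 312) (PT.nd (nat_lit 156) (PT.nd (nat_lit 78) (PT.lf (nat_lit 50008)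 (nat_lit 6) (nat_lit 658) (nat_lit 1) (nat_lit 275) (nat_lit 250) (nat_lit 255)) (PT.lf (nat_lit 48716) (nat_lit 6) (nat_lit 641) (nat_lit 1) (nat_lit 276) (nat_lit 250) (nat_lit 254))) (PT.nd (nat_lit 78) (PT.lf (nat_lit 47348) (nat_lit 6) (nat_lit 623) (nat_lit 1) (nat_lit 277) (nat_lit 250) (nat_lit 253)) (PT.lf (nat_lit 45904) (nat_lit 6) (nat_lit 604) (nat_lit 1) (nat_lit 278) (nat_lit 250) (nat_lit 252)))) (PT.nd (nat_lit 156) (PT.nd (nat_lit 78) (PT.lf (nat_lit 44384) (nat_lit 6) (nat_lit 584) (nat_lit 1) (nat_lit 279) (nat_lit 250) (nat_lit 251)) (PT.lf (nat_lit 42788) (nat_lit 3) (nat_lit 563) (nat_lit 0) (nat_lit 280) (nat_lit 250) (nat_lit 250))) (PT.nd (nat_lit 78) (PT.lf (nat_lit 41192) (nat_lit 6) (nat_lit 542) (nat_lit 0) (nat_lit 281) (nat_lit 250) (nat_lit 249)) (PT.lf (nat_lit 39520) (nat_lit 6) (nat_lit 520) (nat_lit 0) (nat_lit 282) (nat_lit 250) (nat_lit 248))))) (PT.nd (nat_lit 78390) (PT.nd (nat_lit 78234) (PT.nd (nat_lit 78) (PT.lf (nat_lit 37772) (nat_lit 6) (nat_lit 497) (nat_lit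 0) (nat_lit 283) (nat_lit 250) (nat_lit 247)) (PT.lf (nat_lit 35948) (nat_lit 6) (nat_lit 473) (nat_lit 0) (nat_lit 284) (nat_lit 250) (nat_lit 246))) (PT.nd (nat_lit 78) (PT.lf (nat_lit 36024) (nat_lit 6) (nat_lit 474) (nat_lit 5) (nat_lit 245) (nat_lit 251) (nat_lit 284)) (PT.lf (nat_lit 37848) (nat_lit 6) (nat_lit 498) (nat_lit 5) (nat_lit 246) (nat_lit 251) (nat_lit 283)))) (PT.nd (nat_lit 156) (PT.nd (nat_lit 78) (PT.lf (nat_lit 39596) (nat_lit 6) (nat_lit 521) (nat_lit 5) (nat_lit 247) (nat_lit 251) (nat_lit 282)) (PT.lf (nat_lit 41268) (nat_lit 6) (nat_lit 543) (nat_lit 5) (nat_lit 248) (nat_lit 251) (nat_lit 281))) (PT.nd (nat_lit 78) (PT.lf (nat_lit 42864) (nat_lit 6) (nat_lit 564) (nat_lit 5) (nat_lit 249) (nat_lit 251) (nat_lit 280)) (PT.lf (nat_lit 44384) (nat_lit 6) (nat_lit 584) (nat_lit 5) (nat_lit 250) (nat_lit 251) (nat_lit 279))))))) (PT.nd (nat_lit 1170) (PT.nd (nat_lit 546) (PT.nd (nat_lit 234) (PT.nd (nat_lit 78) (PT.lf (nat_lit 45828) (nat_lit 3) (nat_lit 603) (nat_lit 3) (nat_lit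 251) (nat_lit 251) (nat_lit 278)) (PT.nd (nat_lit 78) (PT.lf (nat_lit 47272) (nat_lit 6) (nat_lit 622) (nat_lit 3) (nat_lit 252) (nat_lit 251) (nat_lit 277)) (PT.lf (nat_lit 48640) (nat_lit 6) (nat_lit 640) (nat_lit 3) (nat_lit 253) (nat_lit 251) (nat_lit 276)))) (PT.nd (nat_lit 156) (PT.nd (nat_lit 78) (PT.lf (nat_lit 49932) (nat_lit 6) (nat_lit 657) (nat_lit 3) (nat_lit 254) (nat_lit 251) (nat_lit 275)) (PT.lf (nat_lit 51148) (nat_lit 6) (nat_lit 673) (nat_lit 3) (nat_lit 255) (nat_lit 251) (nat_lit 274))) (PT.nd (nat_lit 78) (PT.lf (nat_lit 52288) (nat_lit 6) (nat_lit 688) (nat_lit 3) (nat_lit 256) (nat_lit 251) (nat_lit 273)) (PT.lf (nat_lit 53352) (nat_lit 6) (nat_lit 702) (nat_lit 3) (nat_lit 257) (nat_lit 251) (nat_lit 272))))) (PT.nd (nat_lit 312) (PT.nd (nat_lit 156) (PT.nd (nat_lit 78) (PT.lf (nat_lit 54340) (nat_lit 6) (nat_lit 715) (nat_lit 3) (nat_lit 258) (nat_lit 251) (nat_lit 271)) (PT.lf (nat_lit 55252) (nat_lit 6) (nat_lit 727) (nat_lit 3) (nat_lit 259) (nat_lit 251) (nat_lit 270))) (PT.nd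 (nat_lit 78) (PT.lf (nat_lit 56088) (nat_lit 6) (nat_lit 738) (nat_lit 3) (nat_lit 260) (nat_lit 251) (nat_lit 269)) (PT.lf (nat_lit 56164) (nat_lit 6) (nat_lit 739) (nat_lit 3) (nat_lit 261) (nat_lit 251) (nat_lit 268)))) (PT.nd (nat_lit 156) (PT.nd (nat_lit 78) (PT.lf (nat_lit 56240) (nat_lit 6) (nat_lit 740) (nat_lit 3) (nat_lit 262) (nat_lit 251) (nat_lit 267)) (PT.lf (nat_lit 56316) (nat_lit 6) (nat_lit 741) (nat_lit 3) (nat_lit 263) (nat_lit 251) (nat_lit 266))) (PT.nd (nat_lit 78) (PT.lf (nat_lit 56392) (nat_lit 6) (nat_lit 742) (nat_lit 3) (nat_lit 264) (nat_lit 251) (nat_lit 265)) (PT.lf (nat_lit 56392) (nat_lit 6) (nat_lit 742) (nat_lit 1) (nat_lit 265) (nat_lit 251) (nat_lit 264)))))) (PT.nd (nat_lit 624) (PT.nd (nat_lit 312) (PT.nd (nat_lit 156) (PT.nd (nat_lit 78) (PT.lf (nat_lit 56316) (nat_lit 6) (nat_lit 741) (nat_lit 1) (nat_lit 266) (nat_lit 251) (nat_lit 263)) (PT.lf (nat_lit 56240) (nat_lit 6) (nat_lit 740) (nat_lit 1) (nat_lit 267) (nat_lit 251) (nat_lit 262))) (PT.nd (nat_lit 78) (PT.lf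 (nat_lit 56164) (nat_lit 6) (nat_lit 739) (nat_lit 1) (nat_lit 268) (nat_lit 251) (nat_lit 261)) (PT.lf (nat_lit 56088) (nat_lit 6) (nat_lit 738) (nat_lit 1) (nat_lit 269) (nat_lit 251) (nat_lit 260)))) (PT.nd (nat_lit 156) (PT.nd (nat_lit 78) (PT.lf (nat_lit 55252) (nat_lit 6) (nat_lit 727) (nat_lit 1) (nat_lit 270) (nat_lit 251) (nat_lit 259)) (PT.lf (nat_lit 54340) (nat_lit 6) (nat_lit 715) (nat_lit 1) (nat_lit 271) (nat_lit 251) (nat_lit 258))) (PT.nd (nat_lit 78) (PT.lf (nat_lit 53352) (nat_lit 6) (nat_lit 702) (nat_lit 1) (nat_lit 272) (nat_lit 251) (nat_lit 257)) (PT.lf (nat_lit 52288) (nat_lit 6) (nat_lit 688) (nat_lit 1) (nat_lit 273) (nat_lit 251) (nat_lit 256))))) (PT.nd (nat_lit 312) (PT.nd (nat_lit 156) (PT.nd (nat_lit 78) (PT.lf (nat_lit 51148) (nat_lit 6) (nat_lit 673) (nat_lit 1) (nat_lit 274) (nat_lit 251) (nat_lit 255)) (PT.lf (nat_lit 49932) (nat_lit 6) (nat_lit 657) (nat_lit 1) (nat_lit 275) (nat_lit 251) (nat_lit 254))) (PT.nd (nat_lit 78) (PT.lf (nat_lit 48640) (nat_lit 6) (nat_lit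 640) (nat_lit 1) (nat_lit 276) (nat_lit 251) (nat_lit 253)) (PT.lf (nat_lit 47272) (nat_lit 6) (nat_lit 622) (nat_lit 1) (nat_lit 277) (nat_lit 251) (nat_lit 252)))) (PT.nd (nat_lit 156) (PT.nd (nat_lit 78) (PT.lf (nat_lit 45828) (nat_lit 3) (nat_lit 603) (nat_lit 0) (nat_lit 278) (nat_lit 251) (nat_lit 251)) (PT.lf (nat_lit 44384) (nat_lit 6) (nat_lit 584) (nat_lit 0) (nat_lit 279) (nat_lit 251) (nat_lit 250))) (PT.nd (nat_lit 78) (PT.lf (nat_lit 42864) (nat_lit 6) (nat_lit 564) (nat_lit 0) (nat_lit 280) (nat_lit 251) (nat_lit 249)) (PT.lf (nat_lit 41268) (nat_lit 6) (nat_lit 543) (nat_lit 0) (nat_lit 281) (nat_lit 251) (nat_lit 248))))))))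
noncomputable def pc20 : PT := (PT.nd (nat_lit 80340) (PT.nd (nat_lit 79170) (PT.nd (nat_lit 78546) (PT.nd (nat_lit 78234) (PT.nd (nat_lit 78) (PT.lf (nat_lit 39596) (nat_lit 6) (nat_lit 521) (nat_lit 0) (nat_lit 282) (nat_lit 251) (nat_lit 247)) (PT.nd (nat_lit 78) (PT.lf (nat_lit 37848) (nat_lit 6) (nat_lit 498) (nat_lit 0) (nat_lit 283) (nat_lit 251) (nat_lit 246)) (PT.lf (nat_lit 36024) (nat_lit 6) (nat_lit 474) (nat_lit 0) (nat_lit 284) (nat_lit 251) (nat_lit 245)))) (PT.nd (nat_lit 156) (PT.nd (nat_lit 78) (PT.lf (nat_lit 36100) (nat_lit 6) (nat_lit 475) (nat_lit 5) (nat_lit 244) (nat_lit 252) (nat_lit 284)) (PT.lf (nat_lit 37924) (nat_lit 6) (nat_lit 499) (nat_lit 5) (nat_lit 245) (nat_lit 252) (nat_lit 283))) (PT.nd (nat_lit 78) (PT.lf (nat_lit 39672) (nat_lit 6) (nat_lit 522) (nat_lit 5) (nat_lit 246) (nat_lit 252) (nat_lit 282)) (PT.lf (nat_lit 41344) (nat_lit 6) (nat_lit 544) (nat_lit 5) (nat_lit 247) (nat_lit 252) (nat_lit 281))))) (PT.nd (nat_lit 312) (PT.nd (nat_lit 156) (PT.nd (nat_lit 78)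 (PT.lf (nat_lit 42940) (nat_lit 6) (nat_lit 565) (nat_lit 5) (nat_lit 248) (nat_lit 252) (nat_lit 280)) (PT.lf (nat_lit 44460) (nat_lit 6) (nat_lit 585) (nat_lit 5) (nat_lit 249) (nat_lit 252) (nat_lit 279))) (PT.nd (nat_lit 78) (PT.lf (nat_lit 45904) (nat_lit 6) (nat_lit 604) (nat_lit 5) (nat_lit 250) (nat_lit 252) (nat_lit 278)) (PT.lf (nat_lit 47272) (nat_lit 6) (nat_lit 622) (nat_lit 5) (nat_lit 251) (nat_lit 252) (nat_lit 277)))) (PT.nd (nat_lit 156) (PT.nd (nat_lit 78) (PT.lf (nat_lit 48564) (nat_lit 3) (nat_lit 639) (nat_lit 3) (nat_lit 252) (nat_lit 252) (nat_lit 276)) (PT.lf (nat_lit 49856) (nat_lit 6) (nat_lit 656) (nat_lit 3) (nat_lit 253) (nat_lit 252) (nat_lit 275))) (PT.nd (nat_lit 78) (PT.lf (nat_lit 51072) (nat_lit 6) (nat_lit 672) (nat_lit 3) (nat_lit 254) (nat_lit 252) (nat_lit 274)) (PT.lf (nat_lit 52212) (nat_lit 6) (nat_lit 687) (nat_lit 3) (nat_lit 255) (nat_lit 252) (nat_lit 273)))))) (PT.nd (nat_lit 546) (PT.nd (nat_lit 234) (PT.nd (nat_lit 78) (PT.lf (nat_lit 53276) (nat_lit 6)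 (nat_lit 701) (nat_lit 3) (nat_lit 256) (nat_lit 252) (nat_lit 272)) (PT.nd (nat_lit 78) (PT.lf (nat_lit 54264) (nat_lit 6) (nat_lit 714) (nat_lit 3) (nat_lit 257) (nat_lit 252) (nat_lit 271)) (PT.lf (nat_lit 55176) (nat_lit 6) (nat_lit 726) (nat_lit 3) (nat_lit 258) (nat_lit 252) (nat_lit 270)))) (PT.nd (nat_lit 156) (PT.nd (nat_lit 78) (PT.lf (nat_lit 56012) (nat_lit 6) (nat_lit 737) (nat_lit 3) (nat_lit 259) (nat_lit 252) (nat_lit 269)) (PT.lf (nat_lit 56772) (nat_lit 6) (nat_lit 747) (nat_lit 3) (nat_lit 260) (nat_lit 252) (nat_lit 268))) (PT.nd (nat_lit 78) (PT.lf (nat_lit 56848) (nat_lit 6) (nat_lit 748) (nat_lit 3) (nat_lit 261) (nat_lit 252) (nat_lit 267)) (PT.lf (nat_lit 56924) (nat_lit 6) (nat_lit 749) (nat_lit 3) (nat_lit 262) (nat_lit 252) (nat_lit 266))))) (PT.nd (nat_lit 312) (PT.nd (nat_lit 156) (PT.nd (nat_lit 78) (PT.lf (nat_lit 57000) (nat_lit 6) (nat_lit 750) (nat_lit 3) (nat_lit 263) (nat_lit 252) (nat_lit 265)) (PT.lf (nat_lit 57076) (nat_lit 3) (nat_lit 751) (nat_lit 1) (nat_lit 264)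 (nat_lit 252) (nat_lit 264))) (PT.nd (nat_lit 78) (PT.lf (nat_lit 57000) (nat_lit 6) (nat_lit 750) (nat_lit 1) (nat_lit 265) (nat_lit 252) (nat_lit 263)) (PT.lf (nat_lit 56924) (nat_lit 6) (nat_lit 749) (nat_lit 1) (nat_lit 266) (nat_lit 252) (nat_lit 262)))) (PT.nd (nat_lit 156) (PT.nd (nat_lit 78) (PT.lf (nat_lit 56848) (nat_lit 6) (nat_lit 748) (nat_lit 1) (nat_lit 267) (nat_lit 252) (nat_lit 261)) (PT.lf (nat_lit 56772) (nat_lit 6) (nat_lit 747) (nat_lit 1) (nat_lit 268) (nat_lit 252) (nat_lit 260))) (PT.nd (nat_lit 78) (PT.lf (nat_lit 56012) (nat_lit 6) (nat_lit 737) (nat_lit 1) (nat_lit 269) (nat_lit 252) (nat_lit 259)) (PT.lf (nat_lit 55176) (nat_lit 6) (nat_lit 726) (nat_lit 1) (nat_lit 270) (nat_lit 252) (nat_lit 258))))))) (PT.nd (nat_lit 79092) (PT.nd (nat_lit 546) (PT.nd (nat_lit 234) (PT.nd (nat_lit 78) (PT.lf (nat_lit 54264) (nat_lit 6) (nat_lit 714) (nat_lit 1) (nat_lit 271) (nat_lit 252) (nat_lit 257)) (PT.nd (nat_lit 78) (PT.lf (nat_lit 53276) (nat_lit 6) (nat_lit 701) (nat_lit 1) (nat_lit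 272) (nat_lit 252) (nat_lit 256)) (PT.lf (nat_lit 52212) (nat_lit 6) (nat_lit 687) (nat_lit 1) (nat_lit 273) (nat_lit 252) (nat_lit 255)))) (PT.nd (nat_lit 156) (PT.nd (nat_lit 78) (PT.lf (nat_lit 51072) (nat_lit 6) (nat_lit 672) (nat_lit 1) (nat_lit 274) (nat_lit 252) (nat_lit 254)) (PT.lf (nat_lit 49856) (nat_lit 6) (nat_lit 656) (nat_lit 1) (nat_lit 275) (nat_lit 252) (nat_lit 253))) (PT.nd (nat_lit 78) (PT.lf (nat_lit 48564) (nat_lit 3) (nat_lit 639) (nat_lit 0) (nat_lit 276) (nat_lit 252) (nat_lit 252)) (PT.lf (nat_lit 47272) (nat_lit 6) (nat_lit 622) (nat_lit 0) (nat_lit 277) (nat_lit 252) (nat_lit 251))))) (PT.nd (nat_lit 312) (PT.nd (nat_lit 156) (PT.nd (nat_lit 78) (PT.lf (nat_lit 45904) (nat_lit 6) (nat_lit 604) (nat_lit 0) (nat_lit 278) (nat_lit 252) (nat_lit 250)) (PT.lf (nat_lit 44460) (nat_lit 6) (nat_lit 585) (nat_lit 0) (nat_lit 279) (nat_lit 252) (nat_lit 249))) (PT.nd (nat_lit 78) (PT.lf (nat_lit 42940) (nat_lit 6) (nat_lit 565) (nat_lit 0) (nat_lit 280) (nat_lit 252) (nat_lit 248)) (PT.lf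 (nat_lit 41344) (nat_lit 6) (nat_lit 544) (nat_lit 0) (nat_lit 281) (nat_lit 252) (nat_lit 247)))) (PT.nd (nat_lit 156) (PT.nd (nat_lit 78) (PT.lf (nat_lit 39672) (nat_lit 6) (nat_lit 522) (nat_lit 0) (nat_lit 282) (nat_lit 252) (nat_lit 246)) (PT.lf (nat_lit 37924) (nat_lit 6) (nat_lit 499) (nat_lit 0) (nat_lit 283) (nat_lit 252) (nat_lit 245))) (PT.nd (nat_lit 78000) (PT.lf (nat_lit 36100) (nat_lit 6) (nat_lit 475) (nat_lit 0) (nat_lit 284) (nat_lit 252) (nat_lit 244)) (PT.lf (nat_lit 36176) (nat_lit 6) (nat_lit 476) (nat_lit 5) (nat_lit 243) (nat_lit 253) (nat_lit 284)))))) (PT.nd (nat_lit 624) (PT.nd (nat_lit 312) (PT.nd (nat_lit 156) (PT.nd (nat_lit 78) (PT.lf (nat_lit 38000) (nat_lit 6) (nat_lit 500) (nat_lit 5) (nat_lit 244) (nat_lit 253) (nat_lit 283)) (PT.lf (nat_lit 39748) (nat_lit 6) (nat_lit 523) (nat_lit 5) (nat_lit 245) (nat_lit 253) (nat_lit 282))) (PT.nd (nat_lit 78) (PT.lf (nat_lit 41420) (nat_lit 6) (nat_lit 545) (nat_lit 5) (nat_lit 246) (nat_lit 253) (nat_lit 281)) (PT.lf (nat_lit 43016)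 (nat_lit 6) (nat_lit 566) (nat_lit 5) (nat_lit 247) (nat_lit 253) (nat_lit 280)))) (PT.nd (nat_lit 156) (PT.nd (nat_lit 78) (PT.lf (nat_lit 44536) (nat_lit 6) (nat_lit 586) (nat_lit 5) (nat_lit 248) (nat_lit 253) (nat_lit 279)) (PT.lf (nat_lit 45980) (nat_lit 6) (nat_lit 605) (nat_lit 5) (nat_lit 249) (nat_lit 253) (nat_lit 278))) (PT.nd (nat_lit 78) (PT.lf (nat_lit 47348) (nat_lit 6) (nat_lit 623) (nat_lit 5) (nat_lit 250) (nat_lit 253) (nat_lit 277)) (PT.lf (nat_lit 48640) (nat_lit 6) (nat_lit 640) (nat_lit 5) (nat_lit 251) (nat_lit 253) (nat_lit 276))))) (PT.nd (nat_lit 312) (PT.nd (nat_lit 156) (PT.nd (nat_lit 78) (PT.lf (nat_lit 49856) (nat_lit 6) (nat_lit 656) (nat_lit 5) (nat_lit 252) (nat_lit 253) (nat_lit 275)) (PT.lf (nat_lit 50996) (nat_lit 3) (nat_lit 671) (nat_lit 3) (nat_lit 253) (nat_lit 253) (nat_lit 274))) (PT.nd (nat_lit 78) (PT.lf (nat_lit 52136) (nat_lit 6) (nat_lit 686) (nat_lit 3) (nat_lit 254) (nat_lit 253) (nat_lit 273)) (PT.lf (nat_lit 53200) (nat_lit 6) (nat_lit 700) (nat_lit 3)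 (nat_lit 255) (nat_lit 253) (nat_lit 272)))) (PT.nd (nat_lit 156) (PT.nd (nat_lit 78) (PT.lf (nat_lit 54188) (nat_lit 6) (nat_lit 713) (nat_lit 3) (nat_lit 256) (nat_lit 253) (nat_lit 271)) (PT.lf (nat_lit 55100) (nat_lit 6) (nat_lit 725) (nat_lit 3) (nat_lit 257) (nat_lit 253) (nat_lit 270))) (PT.nd (nat_lit 78) (PT.lf (nat_lit 55936) (nat_lit 6) (nat_lit 736) (nat_lit 3) (nat_lit 258) (nat_lit 253) (nat_lit 269)) (PT.lf (nat_lit 56696) (nat_lit 6) (nat_lit 746) (nat_lit 3) (nat_lit 259) (nat_lit 253) (nat_lit 268))))))))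
noncomputable def pc21 : PT := (PT.nd (nat_lit 80262) (PT.nd (nat_lit 1170) (PT.nd (nat_lit 546) (PT.nd (nat_lit 234) (PT.nd (nat_lit 78) (PT.lf (nat_lit 57380) (nat_lit 6) (nat_lit 755) (nat_lit 3) (nat_lit 260) (nat_lit 253) (nat_lit 267)) (PT.nd (nat_lit 78) (PT.lf (nat_lit 57456) (nat_lit 6) (nat_lit 756) (nat_lit 3) (nat_lit 261) (nat_lit 253) (nat_lit 266)) (PT.lf (nat_lit 57532) (nat_lit 6) (nat_lit 757) (nat_lit 3) (nat_lit 262) (nat_lit 253) (nat_lit 265)))) (PT.nd (nat_lit 156) (PT.nd (nat_lit 78) (PT.lf (nat_lit 57608) (nat_lit 6) (nat_lit 758) (nat_lit 3) (nat_lit 263) (nat_lit 253) (nat_lit 264)) (PT.lf (nat_lit 57608) (nat_lit 6) (nat_lit 758) (nat_lit 1) (nat_lit 264) (nat_lit 253) (nat_lit 263))) (PT.nd (nat_lit 78) (PT.lf (nat_lit 57532) (nat_lit 6) (nat_lit 757) (nat_lit 1) (nat_lit 265) (nat_lit 253) (nat_lit 262)) (PT.lf (nat_lit 57456) (nat_lit 6) (nat_lit 756) (nat_lit 1) (nat_lit 266) (nat_lit 253) (nat_lit 261))))) (PT.nd (nat_lit 312) (PT.nd (nat_lit 156) (PT.nd (nat_lit 78) (PT.lf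 (nat_lit 57380) (nat_lit 6) (nat_lit 755) (nat_lit 1) (nat_lit 267) (nat_lit 253) (nat_lit 260)) (PT.lf (nat_lit 56696) (nat_lit 6) (nat_lit 746) (nat_lit 1) (nat_lit 268) (nat_lit 253) (nat_lit 259))) (PT.nd (nat_lit 78) (PT.lf (nat_lit 55936) (nat_lit 6) (nat_lit 736) (nat_lit 1) (nat_lit 269) (nat_lit 253) (nat_lit 258)) (PT.lf (nat_lit 55100) (nat_lit 6) (nat_lit 725) (nat_lit 1) (nat_lit 270) (nat_lit 253) (nat_lit 257)))) (PT.nd (nat_lit 156) (PT.nd (nat_lit 78) (PT.lf (nat_lit 54188) (nat_lit 6) (nat_lit 713) (nat_lit 1) (nat_lit 271) (nat_lit 253) (nat_lit 256)) (PT.lf (nat_lit 53200) (nat_lit 6) (nat_lit 700) (nat_lit 1) (nat_lit 272) (nat_lit 253) (nat_lit 255))) (PT.nd (nat_lit 78) (PT.lf (nat_lit 52136) (nat_lit 6) (nat_lit 686) (nat_lit 1) (nat_lit 273) (nat_lit 253) (nat_lit 254)) (PT.lf (nat_lit 50996) (nat_lit 3) (nat_lit 671) (nat_lit 0) (nat_lit 274) (nat_lit 253) (nat_lit 253)))))) (PT.nd (nat_lit 624) (PT.nd (nat_lit 312) (PT.nd (nat_lit 156) (PT.nd (nat_lit 78) (PT.lf (nat_lit 49856)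 (nat_lit 6) (nat_lit 656) (nat_lit 0) (nat_lit 275) (nat_lit 253) (nat_lit 252)) (PT.lf (nat_lit 48640) (nat_lit 6) (nat_lit 640) (nat_lit 0) (nat_lit 276) (nat_lit 253) (nat_lit 251))) (PT.nd (nat_lit 78) (PT.lf (nat_lit 47348) (nat_lit 6) (nat_lit 623) (nat_lit 0) (nat_lit 277) (nat_lit 253) (nat_lit 250)) (PT.lf (nat_lit 45980) (nat_lit 6) (nat_lit 605) (nat_lit 0) (nat_lit 278) (nat_lit 253) (nat_lit 249)))) (PT.nd (nat_lit 156) (PT.nd (nat_lit 78) (PT.lf (nat_lit 44536) (nat_lit 6) (nat_lit 586) (nat_lit 0) (nat_lit 279) (nat_lit 253) (nat_lit 248)) (PT.lf (nat_lit 43016) (nat_lit 6) (nat_lit 566) (nat_lit 0) (nat_lit 280) (nat_lit 253) (nat_lit 247))) (PT.nd (nat_lit 78) (PT.lf (nat_lit 41420) (nat_lit 6) (nat_lit 545) (nat_lit 0) (nat_lit 281) (nat_lit 253) (nat_lit 246)) (PT.lf (nat_lit 39748) (nat_lit 6) (nat_lit 523) (nat_lit 0) (nat_lit 282) (nat_lit 253) (nat_lit 245))))) (PT.nd (nat_lit 78156) (PT.nd (nat_lit 78000) (PT.nd (nat_lit 78) (PT.lf (nat_lit 38000) (nat_lit 6) (nat_lit 500) (nat_lit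 0) (nat_lit 283) (nat_lit 253) (nat_lit 244)) (PT.lf (nat_lit 36176) (nat_lit 6) (nat_lit 476) (nat_lit 0) (nat_lit 284) (nat_lit 253) (nat_lit 243))) (PT.nd (nat_lit 78) (PT.lf (nat_lit 36252) (nat_lit 6) (nat_lit 477) (nat_lit 5) (nat_lit 242) (nat_lit 254) (nat_lit 284)) (PT.lf (nat_lit 38076) (nat_lit 6) (nat_lit 501) (nat_lit 5) (nat_lit 243) (nat_lit 254) (nat_lit 283)))) (PT.nd (nat_lit 156) (PT.nd (nat_lit 78) (PT.lf (nat_lit 39824) (nat_lit 6) (nat_lit 524) (nat_lit 5) (nat_lit 244) (nat_lit 254) (nat_lit 282)) (PT.lf (nat_lit 41496) (nat_lit 6) (nat_lit 546) (nat_lit 5) (nat_lit 245) (nat_lit 254) (nat_lit 281))) (PT.nd (nat_lit 78) (PT.lf (nat_lit 43092) (nat_lit 6) (nat_lit 567) (nat_lit 5) (nat_lit 246) (nat_lit 254) (nat_lit 280)) (PT.lf (nat_lit 44612) (nat_lit 6) (nat_lit 587) (nat_lit 5) (nat_lit 247) (nat_lit 254) (nat_lit 279))))))) (PT.nd (nat_lit 1170) (PT.nd (nat_lit 546) (PT.nd (nat_lit 234) (PT.nd (nat_lit 78) (PT.lf (nat_lit 46056) (nat_lit 6) (nat_lit 606) (nat_lit 5) (nat_lit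 248) (nat_lit 254) (nat_lit 278)) (PT.nd (nat_lit 78) (PT.lf (nat_lit 47424) (nat_lit 6) (nat_lit 624) (nat_lit 5) (nat_lit 249) (nat_lit 254) (nat_lit 277)) (PT.lf (nat_lit 48716) (nat_lit 6) (nat_lit 641) (nat_lit 5) (nat_lit 250) (nat_lit 254) (nat_lit 276)))) (PT.nd (nat_lit 156) (PT.nd (nat_lit 78) (PT.lf (nat_lit 49932) (nat_lit 6) (nat_lit 657) (nat_lit 5) (nat_lit 251) (nat_lit 254) (nat_lit 275)) (PT.lf (nat_lit 51072) (nat_lit 6) (nat_lit 672) (nat_lit 5) (nat_lit 252) (nat_lit 254) (nat_lit 274))) (PT.nd (nat_lit 78) (PT.lf (nat_lit 52136) (nat_lit 6) (nat_lit 686) (nat_lit 5) (nat_lit 253) (nat_lit 254) (nat_lit 273)) (PT.lf (nat_lit 53124) (nat_lit 3) (nat_lit 699) (nat_lit 3) (nat_lit 254) (nat_lit 254) (nat_lit 272))))) (PT.nd (nat_lit 312) (PT.nd (nat_lit 156) (PT.nd (nat_lit 78) (PT.lf (nat_lit 54112) (nat_lit 6) (nat_lit 712) (nat_lit 3) (nat_lit 255) (nat_lit 254) (nat_lit 271)) (PT.lf (nat_lit 55024) (nat_lit 6) (nat_lit 724) (nat_lit 3) (nat_lit 256) (nat_lit 254) (nat_lit 270))) (PT.nd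 (nat_lit 78) (PT.lf (nat_lit 55860) (nat_lit 6) (nat_lit 735) (nat_lit 3) (nat_lit 257) (nat_lit 254) (nat_lit 269)) (PT.lf (nat_lit 56620) (nat_lit 6) (nat_lit 745) (nat_lit 3) (nat_lit 258) (nat_lit 254) (nat_lit 268)))) (PT.nd (nat_lit 156) (PT.nd (nat_lit 78) (PT.lf (nat_lit 57304) (nat_lit 6) (nat_lit 754) (nat_lit 3) (nat_lit 259) (nat_lit 254) (nat_lit 267)) (PT.lf (nat_lit 57912) (nat_lit 6) (nat_lit 762) (nat_lit 3) (nat_lit 260) (nat_lit 254) (nat_lit 266))) (PT.nd (nat_lit 78) (PT.lf (nat_lit 57988) (nat_lit 6) (nat_lit 763) (nat_lit 3) (nat_lit 261) (nat_lit 254) (nat_lit 265)) (PT.lf (nat_lit 58064) (nat_lit 6) (nat_lit 764) (nat_lit 3) (nat_lit 262) (nat_lit 254) (nat_lit 264)))))) (PT.nd (nat_lit 624) (PT.nd (nat_lit 312) (PT.nd (nat_lit 156) (PT.nd (nat_lit 78) (PT.lf (nat_lit 58140) (nat_lit 3) (nat_lit 765) (nat_lit 1) (nat_lit 263) (nat_lit 254) (nat_lit 263)) (PT.lf (nat_lit 58064) (nat_lit 6) (nat_lit 764) (nat_lit 1) (nat_lit 264) (nat_lit 254) (nat_lit 262))) (PT.nd (nat_lit 78) (PT.lf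 (nat_lit 57988) (nat_lit 6) (nat_lit 763) (nat_lit 1) (nat_lit 265) (nat_lit 254) (nat_lit 261)) (PT.lf (nat_lit 57912) (nat_lit 6) (nat_lit 762) (nat_lit 1) (nat_lit 266) (nat_lit 254) (nat_lit 260)))) (PT.nd (nat_lit 156) (PT.nd (nat_lit 78) (PT.lf (nat_lit 57304) (nat_lit 6) (nat_lit 754) (nat_lit 1) (nat_lit 267) (nat_lit 254) (nat_lit 259)) (PT.lf (nat_lit 56620) (nat_lit 6) (nat_lit 745) (nat_lit 1) (nat_lit 268) (nat_lit 254) (nat_lit 258))) (PT.nd (nat_lit 78) (PT.lf (nat_lit 55860) (nat_lit 6) (nat_lit 735) (nat_lit 1) (nat_lit 269) (nat_lit 254) (nat_lit 257)) (PT.lf (nat_lit 55024) (nat_lit 6) (nat_lit 724) (nat_lit 1) (nat_lit 270) (nat_lit 254) (nat_lit 256))))) (PT.nd (nat_lit 312) (PT.nd (nat_lit 156) (PT.nd (nat_lit 78) (PT.lf (nat_lit 54112) (nat_lit 6) (nat_lit 712) (nat_lit 1) (nat_lit 271) (nat_lit 254) (nat_lit 255)) (PT.lf (nat_lit 53124) (nat_lit 3) (nat_lit 699) (nat_lit 0) (nat_lit 272) (nat_lit 254) (nat_lit 254))) (PT.nd (nat_lit 78) (PT.lf (nat_lit 52136) (nat_lit 6) (nat_lit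 686) (nat_lit 0) (nat_lit 273) (nat_lit 254) (nat_lit 253)) (PT.lf (nat_lit 51072) (nat_lit 6) (nat_lit 672) (nat_lit 0) (nat_lit 274) (nat_lit 254) (nat_lit 252)))) (PT.nd (nat_lit 156) (PT.nd (nat_lit 78) (PT.lf (nat_lit 49932) (nat_lit 6) (nat_lit 657) (nat_lit 0) (nat_lit 275) (nat_lit 254) (nat_lit 251)) (PT.lf (nat_lit 48716) (nat_lit 6) (nat_lit 641) (nat_lit 0) (nat_lit 276) (nat_lit 254) (nat_lit 250))) (PT.nd (nat_lit 78) (PT.lf (nat_lit 47424) (nat_lit 6) (nat_lit 624) (nat_lit 0) (nat_lit 277) (nat_lit 254) (nat_lit 249)) (PT.lf (nat_lit 46056) (nat_lit 6) (nat_lit 606) (nat_lit 0) (nat_lit 278) (nat_lit 254) (nat_lit 248))))))))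
noncomputable def pc22 : PT := (PT.nd (nat_lit 80184) (PT.nd (nat_lit 78936) (PT.nd (nat_lit 78312) (PT.nd (nat_lit 234) (PT.nd (nat_lit 78) (PT.lf (nat_lit 44612) (nat_lit 6) (nat_lit 587) (nat_lit 0) (nat_lit 279) (nat_lit 254) (nat_lit 247)) (PT.nd (nat_lit 78) (PT.lf (nat_lit 43092) (nat_lit 6) (nat_lit 567) (nat_lit 0) (nat_lit 280) (nat_lit 254) (nat_lit 246)) (PT.lf (nat_lit 41496) (nat_lit 6) (nat_lit 546) (nat_lit 0) (nat_lit 281) (nat_lit 254) (nat_lit 245)))) (PT.nd (nat_lit 156) (PT.nd (nat_lit 78) (PT.lf (nat_lit 39824) (nat_lit 6) (nat_lit 524) (nat_lit 0) (nat_lit 282) (nat_lit 254) (nat_lit 244)) (PT.lf (nat_lit 38076) (nat_lit 6) (nat_lit 501) (nat_lit 0) (nat_lit 283) (nat_lit 254) (nat_lit 243))) (PT.nd (nat_lit 77844) (PT.lf (nat_lit 36252) (nat_lit 6) (nat_lit 477) (nat_lit 0) (nat_lit 284) (nat_lit 254) (nat_lit 242)) (PT.lf (nat_lit 36328) (nat_lit 6) (nat_lit 478) (nat_lit 5) (nat_lit 241) (nat_lit 255) (nat_lit 284))))) (PT.nd (nat_lit 312) (PT.nd (nat_lit 156) (PT.nd (nat_lit 78)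 (PT.lf (nat_lit 38152) (nat_lit 6) (nat_lit 502) (nat_lit 5) (nat_lit 242) (nat_lit 255) (nat_lit 283)) (PT.lf (nat_lit 39900) (nat_lit 6) (nat_lit 525) (nat_lit 5) (nat_lit 243) (nat_lit 255) (nat_lit 282))) (PT.nd (nat_lit 78) (PT.lf (nat_lit 41572) (nat_lit 6) (nat_lit 547) (nat_lit 5) (nat_lit 244) (nat_lit 255) (nat_lit 281)) (PT.lf (nat_lit 43168) (nat_lit 6) (nat_lit 568) (nat_lit 5) (nat_lit 245) (nat_lit 255) (nat_lit 280)))) (PT.nd (nat_lit 156) (PT.nd (nat_lit 78) (PT.lf (nat_lit 44688) (nat_lit 6) (nat_lit 588) (nat_lit 5) (nat_lit 246) (nat_lit 255) (nat_lit 279)) (PT.lf (nat_lit 46132) (nat_lit 6) (nat_lit 607) (nat_lit 5) (nat_lit 247) (nat_lit 255) (nat_lit 278))) (PT.nd (nat_lit 78) (PT.lf (nat_lit 47500) (nat_lit 6) (nat_lit 625) (nat_lit 5) (nat_lit 248) (nat_lit 255) (nat_lit 277)) (PT.lf (nat_lit 48792) (nat_lit 6) (nat_lit 642) (nat_lit 5) (nat_lit 249) (nat_lit 255) (nat_lit 276)))))) (PT.nd (nat_lit 624) (PT.nd (nat_lit 312) (PT.nd (nat_lit 156) (PT.nd (nat_lit 78) (PT.lf (nat_lit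 50008) (nat_lit 6) (nat_lit 658) (nat_lit 5) (nat_lit 250) (nat_lit 255) (nat_lit 275)) (PT.lf (nat_lit 51148) (nat_lit 6) (nat_lit 673) (nat_lit 5) (nat_lit 251) (nat_lit 255) (nat_lit 274))) (PT.nd (nat_lit 78) (PT.lf (nat_lit 52212) (nat_lit 6) (nat_lit 687) (nat_lit 5) (nat_lit 252) (nat_lit 255) (nat_lit 273)) (PT.lf (nat_lit 53200) (nat_lit 6) (nat_lit 700) (nat_lit 5) (nat_lit 253) (nat_lit 255) (nat_lit 272)))) (PT.nd (nat_lit 156) (PT.nd (nat_lit 78) (PT.lf (nat_lit 54112) (nat_lit 6) (nat_lit 712) (nat_lit 5) (nat_lit 254) (nat_lit 255) (nat_lit 271)) (PT.lf (nat_lit 54948) (nat_lit 3) (nat_lit 723) (nat_lit 3) (nat_lit 255) (nat_lit 255) (nat_lit 270))) (PT.nd (nat_lit 78) (PT.lf (nat_lit 55784) (nat_lit 6) (nat_lit 734) (nat_lit 3) (nat_lit 256) (nat_lit 255) (nat_lit 269)) (PT.lf (nat_lit 56544) (nat_lit 6) (nat_lit 744) (nat_lit 3) (nat_lit 257) (nat_lit 255) (nat_lit 268))))) (PT.nd (nat_lit 312) (PT.nd (nat_lit 156) (PT.nd (nat_lit 78) (PT.lf (nat_lit 57228) (nat_lit 6) (nat_lit 753) (nat_lit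 3) (nat_lit 258) (nat_lit 255) (nat_lit 267)) (PT.lf (nat_lit 57836) (nat_lit 6) (nat_lit 761) (nat_lit 3) (nat_lit 259) (nat_lit 255) (nat_lit 266))) (PT.nd (nat_lit 78) (PT.lf (nat_lit 58368) (nat_lit 6) (nat_lit 768) (nat_lit 3) (nat_lit 260) (nat_lit 255) (nat_lit 265)) (PT.lf (nat_lit 58444) (nat_lit 6) (nat_lit 769) (nat_lit 3) (nat_lit 261) (nat_lit 255) (nat_lit 264)))) (PT.nd (nat_lit 156) (PT.nd (nat_lit 78) (PT.lf (nat_lit 58520) (nat_lit 6) (nat_lit 770) (nat_lit 3) (nat_lit 262) (nat_lit 255) (nat_lit 263)) (PT.lf (nat_lit 58520) (nat_lit 6) (nat_lit 770) (nat_lit 1) (nat_lit 263) (nat_lit 255) (nat_lit 262))) (PT.nd (nat_lit 78) (PT.lf (nat_lit 58444) (nat_lit 6) (nat_lit 769) (nat_lit 1) (nat_lit 264) (nat_lit 255) (nat_lit 261)) (PT.lf (nat_lit 58368) (nat_lit 6) (nat_lit 768) (nat_lit 1) (nat_lit 265) (nat_lit 255) (nat_lit 260))))))) (PT.nd (nat_lit 1170) (PT.nd (nat_lit 546) (PT.nd (nat_lit 234) (PT.nd (nat_lit 78) (PT.lf (nat_lit 57836) (nat_lit 6) (nat_lit 761) (nat_lit 1) (nat_lit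 266) (nat_lit 255) (nat_lit 259)) (PT.nd (nat_lit 78) (PT.lf (nat_lit 57228) (nat_lit 6) (nat_lit 753) (nat_lit 1) (nat_lit 267) (nat_lit 255) (nat_lit 258)) (PT.lf (nat_lit 56544) (nat_lit 6) (nat_lit 744) (nat_lit 1) (nat_lit 268) (nat_lit 255) (nat_lit 257)))) (PT.nd (nat_lit 156) (PT.nd (nat_lit 78) (PT.lf (nat_lit 55784) (nat_lit 6) (nat_lit 734) (nat_lit 1) (nat_lit 269) (nat_lit 255) (nat_lit 256)) (PT.lf (nat_lit 54948) (nat_lit 3) (nat_lit 723) (nat_lit 0) (nat_lit 270) (nat_lit 255) (nat_lit 255))) (PT.nd (nat_lit 78) (PT.lf (nat_lit 54112) (nat_lit 6) (nat_lit 712) (nat_lit 0) (nat_lit 271) (nat_lit 255) (nat_lit 254)) (PT.lf (nat_lit 53200) (nat_lit 6) (nat_lit 700) (nat_lit 0) (nat_lit 272) (nat_lit 255) (nat_lit 253))))) (PT.nd (nat_lit 312) (PT.nd (nat_lit 156) (PT.nd (nat_lit 78) (PT.lf (nat_lit 52212) (nat_lit 6) (nat_lit 687) (nat_lit 0) (nat_lit 273) (nat_lit 255) (nat_lit 252)) (PT.lf (nat_lit 51148) (nat_lit 6) (nat_lit 673) (nat_lit 0) (nat_lit 274) (nat_lit 255) (nat_lit 251))) (PT.nd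 (nat_lit 78) (PT.lf (nat_lit 50008) (nat_lit 6) (nat_lit 658) (nat_lit 0) (nat_lit 275) (nat_lit 255) (nat_lit 250)) (PT.lf (nat_lit 48792) (nat_lit 6) (nat_lit 642) (nat_lit 0) (nat_lit 276) (nat_lit 255) (nat_lit 249)))) (PT.nd (nat_lit 156) (PT.nd (nat_lit 78) (PT.lf (nat_lit 47500) (nat_lit 6) (nat_lit 625) (nat_lit 0) (nat_lit 277) (nat_lit 255) (nat_lit 248)) (PT.lf (nat_lit 46132) (nat_lit 6) (nat_lit 607) (nat_lit 0) (nat_lit 278) (nat_lit 255) (nat_lit 247))) (PT.nd (nat_lit 78) (PT.lf (nat_lit 44688) (nat_lit 6) (nat_lit 588) (nat_lit 0) (nat_lit 279) (nat_lit 255) (nat_lit 246)) (PT.lf (nat_lit 43168) (nat_lit 6) (nat_lit 568) (nat_lit 0) (nat_lit 280) (nat_lit 255) (nat_lit 245)))))) (PT.nd (nat_lit 78312) (PT.nd (nat_lit 78000) (PT.nd (nat_lit 156) (PT.nd (nat_lit 78) (PT.lf (nat_lit 41572) (nat_lit 6) (nat_lit 547) (nat_lit 0) (nat_lit 281) (nat_lit 255) (nat_lit 244)) (PT.lf (nat_lit 39900) (nat_lit 6) (nat_lit 525) (nat_lit 0) (nat_lit 282) (nat_lit 255) (nat_lit 243))) (PT.nd (nat_lit 78)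 (PT.lf (nat_lit 38152) (nat_lit 6) (nat_lit 502) (nat_lit 0) (nat_lit 283) (nat_lit 255) (nat_lit 242)) (PT.lf (nat_lit 36328) (nat_lit 6) (nat_lit 478) (nat_lit 0) (nat_lit 284) (nat_lit 255) (nat_lit 241)))) (PT.nd (nat_lit 156) (PT.nd (nat_lit 78) (PT.lf (nat_lit 36404) (nat_lit 6) (nat_lit 479) (nat_lit 5) (nat_lit 240) (nat_lit 256) (nat_lit 284)) (PT.lf (nat_lit 38228) (nat_lit 6) (nat_lit 503) (nat_lit 5) (nat_lit 241) (nat_lit 256) (nat_lit 283))) (PT.nd (nat_lit 78) (PT.lf (nat_lit 39976) (nat_lit 6) (nat_lit 526) (nat_lit 5) (nat_lit 242) (nat_lit 256) (nat_lit 282)) (PT.lf (nat_lit 41648) (nat_lit 6) (nat_lit 548) (nat_lit 5) (nat_lit 243) (nat_lit 256) (nat_lit 281))))) (PT.nd (nat_lit 312) (PT.nd (nat_lit 156) (PT.nd (nat_lit 78) (PT.lf (nat_lit 43244) (nat_lit 6) (nat_lit 569) (nat_lit 5) (nat_lit 244) (nat_lit 256) (nat_lit 280)) (PT.lf (nat_lit 44764) (nat_lit 6) (nat_lit 589) (nat_lit 5) (nat_lit 245) (nat_lit 256) (nat_lit 279))) (PT.nd (nat_lit 78) (PT.lf (nat_lit 46208) (nat_lit 6) (nat_lit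 608) (nat_lit 5) (nat_lit 246) (nat_lit 256) (nat_lit 278)) (PT.lf (nat_lit 47576) (nat_lit 6) (nat_lit 626) (nat_lit 5) (nat_lit 247) (nat_lit 256) (nat_lit 277)))) (PT.nd (nat_lit 156) (PT.nd (nat_lit 78) (PT.lf (nat_lit 48868) (nat_lit 6) (nat_lit 643) (nat_lit 5) (nat_lit 248) (nat_lit 256) (nat_lit 276)) (PT.lf (nat_lit 50084) (nat_lit 6) (nat_lit 659) (nat_lit 5) (nat_lit 249) (nat_lit 256) (nat_lit 275))) (PT.nd (nat_lit 78) (PT.lf (nat_lit 51224) (nat_lit 6) (nat_lit 674) (nat_lit 5) (nat_lit 250) (nat_lit 256) (nat_lit 274)) (PT.lf (nat_lit 52288) (nat_lit 6) (nat_lit 688) (nat_lit 5) (nat_lit 251) (nat_lit 256) (nat_lit 273))))))))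
noncomputable def pc23 : PT := (PT.nd (nat_lit 2418) (PT.nd (nat_lit 1170) (PT.nd (nat_lit 546) (PT.nd (nat_lit 234) (PT.nd (nat_lit 78) (PT.lf (nat_lit 53276) (nat_lit 6) (nat_lit 701) (nat_lit 5) (nat_lit 252) (nat_lit 256) (nat_lit 272)) (PT.nd (nat_lit 78) (PT.lf (nat_lit 54188) (nat_lit 6) (nat_lit 713) (nat_lit 5) (nat_lit 253) (nat_lit 256) (nat_lit 271)) (PT.lf (nat_lit 55024) (nat_lit 6) (nat_lit 724) (nat_lit 5) (nat_lit 254) (nat_lit 256) (nat_lit 270)))) (PT.nd (nat_lit 156) (PT.nd (nat_lit 78) (PT.lf (nat_lit 55784) (nat_lit 6) (nat_lit 734) (nat_lit 5) (nat_lit 255) (nat_lit 256) (nat_lit 269)) (PT.lf (nat_lit 56468) (nat_lit 3) (nat_lit 743) (nat_lit 3) (nat_lit 256) (nat_lit 256) (nat_lit 268))) (PT.nd (nat_lit 78) (PT.lf (nat_lit 57152) (nat_lit 6) (nat_lit 752) (nat_lit 3) (nat_lit 257) (nat_lit 256) (nat_lit 267)) (PT.lf (nat_lit 57760) (nat_lit 6) (nat_lit 760) (nat_lit 3) (nat_lit 258) (nat_lit 256) (nat_lit 266))))) (PT.nd (nat_lit 312) (PT.nd (nat_lit 156) (PT.nd (nat_lit 78) (PT.lf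 (nat_lit 58292) (nat_lit 6) (nat_lit 767) (nat_lit 3) (nat_lit 259) (nat_lit 256) (nat_lit 265)) (PT.lf (nat_lit 58748) (nat_lit 6) (nat_lit 773) (nat_lit 3) (nat_lit 260) (nat_lit 256) (nat_lit 264))) (PT.nd (nat_lit 78) (PT.lf (nat_lit 58824) (nat_lit 6) (nat_lit 774) (nat_lit 3) (nat_lit 261) (nat_lit 256) (nat_lit 263)) (PT.lf (nat_lit 58900) (nat_lit 3) (nat_lit 775) (nat_lit 1) (nat_lit 262) (nat_lit 256) (nat_lit 262)))) (PT.nd (nat_lit 156) (PT.nd (nat_lit 78) (PT.lf (nat_lit 58824) (nat_lit 6) (nat_lit 774) (nat_lit 1) (nat_lit 263) (nat_lit 256) (nat_lit 261)) (PT.lf (nat_lit 58748) (nat_lit 6) (nat_lit 773) (nat_lit 1) (nat_lit 264) (nat_lit 256) (nat_lit 260))) (PT.nd (nat_lit 78) (PT.lf (nat_lit 58292) (nat_lit 6) (nat_lit 767) (nat_lit 1) (nat_lit 265) (nat_lit 256) (nat_lit 259)) (PT.lf (nat_lit 57760) (nat_lit 6) (nat_lit 760) (nat_lit 1) (nat_lit 266) (nat_lit 256) (nat_lit 258)))))) (PT.nd (nat_lit 624) (PT.nd (nat_lit 312) (PT.nd (nat_lit 156) (PT.nd (nat_lit 78) (PT.lf (nat_lit 57152)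 (nat_lit 6) (nat_lit 752) (nat_lit 1) (nat_lit 267) (nat_lit 256) (nat_lit 257)) (PT.lf (nat_lit 56468) (nat_lit 3) (nat_lit 743) (nat_lit 0) (nat_lit 268) (nat_lit 256) (nat_lit 256))) (PT.nd (nat_lit 78) (PT.lf (nat_lit 55784) (nat_lit 6) (nat_lit 734) (nat_lit 0) (nat_lit 269) (nat_lit 256) (nat_lit 255)) (PT.lf (nat_lit 55024) (nat_lit 6) (nat_lit 724) (nat_lit 0) (nat_lit 270) (nat_lit 256) (nat_lit 254)))) (PT.nd (nat_lit 156) (PT.nd (nat_lit 78) (PT.lf (nat_lit 54188) (nat_lit 6) (nat_lit 713) (nat_lit 0) (nat_lit 271) (nat_lit 256) (nat_lit 253)) (PT.lf (nat_lit 53276) (nat_lit 6) (nat_lit 701) (nat_lit 0) (nat_lit 272) (nat_lit 256) (nat_lit 252))) (PT.nd (nat_lit 78) (PT.lf (nat_lit 52288) (nat_lit 6) (nat_lit 688) (nat_lit 0) (nat_lit 273) (nat_lit 256) (nat_lit 251)) (PT.lf (nat_lit 51224) (nat_lit 6) (nat_lit 674) (nat_lit 0) (nat_lit 274) (nat_lit 256) (nat_lit 250))))) (PT.nd (nat_lit 312) (PT.nd (nat_lit 156) (PT.nd (nat_lit 78) (PT.lf (nat_lit 50084) (nat_lit 6) (nat_lit 659) (nat_lit 0)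 (nat_lit 275) (nat_lit 256) (nat_lit 249)) (PT.lf (nat_lit 48868) (nat_lit 6) (nat_lit 643) (nat_lit 0) (nat_lit 276) (nat_lit 256) (nat_lit 248))) (PT.nd (nat_lit 78) (PT.lf (nat_lit 47576) (nat_lit 6) (nat_lit 626) (nat_lit 0) (nat_lit 277) (nat_lit 256) (nat_lit 247)) (PT.lf (nat_lit 46208) (nat_lit 6) (nat_lit 608) (nat_lit 0) (nat_lit 278) (nat_lit 256) (nat_lit 246)))) (PT.nd (nat_lit 156) (PT.nd (nat_lit 78) (PT.lf (nat_lit 44764) (nat_lit 6) (nat_lit 589) (nat_lit 0) (nat_lit 279) (nat_lit 256) (nat_lit 245)) (PT.lf (nat_lit 43244) (nat_lit 6) (nat_lit 569) (nat_lit 0) (nat_lit 280) (nat_lit 256) (nat_lit 244))) (PT.nd (nat_lit 78) (PT.lf (nat_lit 41648) (nat_lit 6) (nat_lit 548) (nat_lit 0) (nat_lit 281) (nat_lit 256) (nat_lit 243)) (PT.lf (nat_lit 39976) (nat_lit 6) (nat_lit 526) (nat_lit 0) (nat_lit 282) (nat_lit 256) (nat_lit 242))))))) (PT.nd (nat_lit 78780) (PT.nd (nat_lit 78156) (PT.nd (nat_lit 77844) (PT.nd (nat_lit 78) (PT.lf (nat_lit 38228) (nat_lit 6) (nat_lit 503) (nat_lit 0) (nat_lit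 283) (nat_lit 256) (nat_lit 241)) (PT.nd (nat_lit 77688) (PT.lf (nat_lit 36404) (nat_lit 6) (nat_lit 479) (nat_lit 0) (nat_lit 284) (nat_lit 256) (nat_lit 240)) (PT.lf (nat_lit 36480) (nat_lit 6) (nat_lit 480) (nat_lit 5) (nat_lit 239) (nat_lit 257) (nat_lit 284)))) (PT.nd (nat_lit 156) (PT.nd (nat_lit 78) (PT.lf (nat_lit 38304) (nat_lit 6) (nat_lit 504) (nat_lit 5) (nat_lit 240) (nat_lit 257) (nat_lit 283)) (PT.lf (nat_lit 40052) (nat_lit 6) (nat_lit 527) (nat_lit 5) (nat_lit 241) (nat_lit 257) (nat_lit 282))) (PT.nd (nat_lit 78) (PT.lf (nat_lit 41724) (nat_lit 6) (nat_lit 549) (nat_lit 5) (nat_lit 242) (nat_lit 257) (nat_lit 281)) (PT.lf (nat_lit 43320) (nat_lit 6) (nat_lit 570) (nat_lit 5) (nat_lit 243) (nat_lit 257) (nat_lit 280))))) (PT.nd (nat_lit 312) (PT.nd (nat_lit 156) (PT.nd (nat_lit 78) (PT.lf (nat_lit 44840) (nat_lit 6) (nat_lit 590) (nat_lit 5) (nat_lit 244) (nat_lit 257) (nat_lit 279)) (PT.lf (nat_lit 46284) (nat_lit 6) (nat_lit 609) (nat_lit 5) (nat_lit 245) (nat_lit 257) (nat_lit 278)))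 (PT.nd (nat_lit 78) (PT.lf (nat_lit 47652) (nat_lit 6) (nat_lit 627) (nat_lit 5) (nat_lit 246) (nat_lit 257) (nat_lit 277)) (PT.lf (nat_lit 48944) (nat_lit 6) (nat_lit 644) (nat_lit 5) (nat_lit 247) (nat_lit 257) (nat_lit 276)))) (PT.nd (nat_lit 156) (PT.nd (nat_lit 78) (PT.lf (nat_lit 50160) (nat_lit 6) (nat_lit 660) (nat_lit 5) (nat_lit 248) (nat_lit 257) (nat_lit 275)) (PT.lf (nat_lit 51300) (nat_lit 6) (nat_lit 675) (nat_lit 5) (nat_lit 249) (nat_lit 257) (nat_lit 274))) (PT.nd (nat_lit 78) (PT.lf (nat_lit 52364) (nat_lit 6) (nat_lit 689) (nat_lit 5) (nat_lit 250) (nat_lit 257) (nat_lit 273)) (PT.lf (nat_lit 53352) (nat_lit 6) (nat_lit 702) (nat_lit 5) (nat_lit 251) (nat_lit 257) (nat_lit 272)))))) (PT.nd (nat_lit 624) (PT.nd (nat_lit 312) (PT.nd (nat_lit 156) (PT.nd (nat_lit 78) (PT.lf (nat_lit 54264) (nat_lit 6) (nat_lit 714) (nat_lit 5) (nat_lit 252) (nat_lit 257) (nat_lit 271)) (PT.lf (nat_lit 55100) (nat_lit 6) (nat_lit 725) (nat_lit 5) (nat_lit 253) (nat_lit 257) (nat_lit 270))) (PT.nd (nat_lit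 78) (PT.lf (nat_lit 55860) (nat_lit 6) (nat_lit 735) (nat_lit 5) (nat_lit 254) (nat_lit 257) (nat_lit 269)) (PT.lf (nat_lit 56544) (nat_lit 6) (nat_lit 744) (nat_lit 5) (nat_lit 255) (nat_lit 257) (nat_lit 268)))) (PT.nd (nat_lit 156) (PT.nd (nat_lit 78) (PT.lf (nat_lit 57152) (nat_lit 6) (nat_lit 752) (nat_lit 5) (nat_lit 256) (nat_lit 257) (nat_lit 267)) (PT.lf (nat_lit 57684) (nat_lit 3) (nat_lit 759) (nat_lit 3) (nat_lit 257) (nat_lit 257) (nat_lit 266))) (PT.nd (nat_lit 78) (PT.lf (nat_lit 58216) (nat_lit 6) (nat_lit 766) (nat_lit 3) (nat_lit 258) (nat_lit 257) (nat_lit 265)) (PT.lf (nat_lit 58672) (nat_lit 6) (nat_lit 772) (nat_lit 3) (nat_lit 259) (nat_lit 257) (nat_lit 264))))) (PT.nd (nat_lit 312) (PT.nd (nat_lit 156) (PT.nd (nat_lit 78) (PT.lf (nat_lit 59052) (nat_lit 6) (nat_lit 777) (nat_lit 3) (nat_lit 260) (nat_lit 257) (nat_lit 263)) (PT.lf (nat_lit 59128) (nat_lit 6) (nat_lit 778) (nat_lit 3) (nat_lit 261) (nat_lit 257) (nat_lit 262))) (PT.nd (nat_lit 78) (PT.lf (nat_lit 59128) (nat_lit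 6) (nat_lit 778) (nat_lit 1) (nat_lit 262) (nat_lit 257) (nat_lit 261)) (PT.lf (nat_lit 59052) (nat_lit 6) (nat_lit 777) (nat_lit 1) (nat_lit 263) (nat_lit 257) (nat_lit 260)))) (PT.nd (nat_lit 156) (PT.nd (nat_lit 78) (PT.lf (nat_lit 58672) (nat_lit 6) (nat_lit 772) (nat_lit 1) (nat_lit 264) (nat_lit 257) (nat_lit 259)) (PT.lf (nat_lit 58216) (nat_lit 6) (nat_lit 766) (nat_lit 1) (nat_lit 265) (nat_lit 257) (nat_lit 258))) (PT.nd (nat_lit 78) (PT.lf (nat_lit 57684) (nat_lit 3) (nat_lit 759) (nat_lit 0) (nat_lit 266) (nat_lit 257) (nat_lit 257)) (PT.lf (nat_lit 57152) (nat_lit 6) (nat_lit 752) (nat_lit 0) (nat_lit 267) (nat_lit 257) (nat_lit 256))))))))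
noncomputable def pc24 : PT := (PT.nd (nat_lit 79872) (PT.nd (nat_lit 1170) (PT.nd (nat_lit 546) (PT.nd (nat_lit 234) (PT.nd (nat_lit 78) (PT.lf (nat_lit 56544) (nat_lit 6) (nat_lit 744) (nat_lit 0) (nat_lit 268) (nat_lit 257) (nat_lit 255)) (PT.nd (nat_lit 78) (PT.lf (nat_lit 55860) (nat_lit 6) (nat_lit 735) (nat_lit 0) (nat_lit 269) (nat_lit 257) (nat_lit 254)) (PT.lf (nat_lit 55100) (nat_lit 6) (nat_lit 725) (nat_lit 0) (nat_lit 270) (nat_lit 257) (nat_lit 253)))) (PT.nd (nat_lit 156) (PT.nd (nat_lit 78) (PT.lf (nat_lit 54264) (nat_lit 6) (nat_lit 714) (nat_lit 0) (nat_lit 271) (nat_lit 257) (nat_lit 252)) (PT.lf (nat_lit 53352) (nat_lit 6) (nat_lit 702) (nat_lit 0) (nat_lit 272) (nat_lit 257) (nat_lit 251))) (PT.nd (nat_lit 78) (PT.lf (nat_lit 52364) (nat_lit 6) (nat_lit 689) (nat_lit 0) (nat_lit 273) (nat_lit 257) (nat_lit 250)) (PT.lf (nat_lit 51300) (nat_lit 6) (nat_lit 675) (nat_lit 0) (nat_lit 274) (nat_lit 257) (nat_lit 249))))) (PT.nd (nat_lit 312) (PT.nd (nat_lit 156) (PT.nd (nat_lit 78) (PT.lf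 (nat_lit 50160) (nat_lit 6) (nat_lit 660) (nat_lit 0) (nat_lit 275) (nat_lit 257) (nat_lit 248)) (PT.lf (nat_lit 48944) (nat_lit 6) (nat_lit 644) (nat_lit 0) (nat_lit 276) (nat_lit 257) (nat_lit 247))) (PT.nd (nat_lit 78) (PT.lf (nat_lit 47652) (nat_lit 6) (nat_lit 627) (nat_lit 0) (nat_lit 277) (nat_lit 257) (nat_lit 246)) (PT.lf (nat_lit 46284) (nat_lit 6) (nat_lit 609) (nat_lit 0) (nat_lit 278) (nat_lit 257) (nat_lit 245)))) (PT.nd (nat_lit 156) (PT.nd (nat_lit 78) (PT.lf (nat_lit 44840) (nat_lit 6) (nat_lit 590) (nat_lit 0) (nat_lit 279) (nat_lit 257) (nat_lit 244)) (PT.lf (nat_lit 43320) (nat_lit 6) (nat_lit 570) (nat_lit 0) (nat_lit 280) (nat_lit 257) (nat_lit 243))) (PT.nd (nat_lit 78) (PT.lf (nat_lit 41724) (nat_lit 6) (nat_lit 549) (nat_lit 0) (nat_lit 281) (nat_lit 257) (nat_lit 242)) (PT.lf (nat_lit 40052) (nat_lit 6) (nat_lit 527) (nat_lit 0) (nat_lit 282) (nat_lit 257) (nat_lit 241)))))) (PT.nd (nat_lit 78078) (PT.nd (nat_lit 77766) (PT.nd (nat_lit 78) (PT.lf (nat_lit 38304) (nat_lit 6) (nat_lit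 504) (nat_lit 0) (nat_lit 283) (nat_lit 257) (nat_lit 240)) (PT.nd (nat_lit 77610) (PT.lf (nat_lit 36480) (nat_lit 6) (nat_lit 480) (nat_lit 0) (nat_lit 284) (nat_lit 257) (nat_lit 239)) (PT.lf (nat_lit 36556) (nat_lit 6) (nat_lit 481) (nat_lit 5) (nat_lit 238) (nat_lit 258) (nat_lit 284)))) (PT.nd (nat_lit 156) (PT.nd (nat_lit 78) (PT.lf (nat_lit 38380) (nat_lit 6) (nat_lit 505) (nat_lit 5) (nat_lit 239) (nat_lit 258) (nat_lit 283)) (PT.lf (nat_lit 40128) (nat_lit 6) (nat_lit 528) (nat_lit 5) (nat_lit 240) (nat_lit 258) (nat_lit 282))) (PT.nd (nat_lit 78) (PT.lf (nat_lit 41800) (nat_lit 6) (nat_lit 550) (nat_lit 5) (nat_lit 241) (nat_lit 258) (nat_lit 281)) (PT.lf (nat_lit 43396) (nat_lit 6) (nat_lit 571) (nat_lit 5) (nat_lit 242) (nat_lit 258) (nat_lit 280))))) (PT.nd (nat_lit 312) (PT.nd (nat_lit 156) (PT.nd (nat_lit 78) (PT.lf (nat_lit 44916) (nat_lit 6) (nat_lit 591) (nat_lit 5) (nat_lit 243) (nat_lit 258) (nat_lit 279)) (PT.lf (nat_lit 46360) (nat_lit 6) (nat_lit 610) (nat_lit 5) (nat_lit 244) (nat_lit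 258) (nat_lit 278))) (PT.nd (nat_lit 78) (PT.lf (nat_lit 47728) (nat_lit 6) (nat_lit 628) (nat_lit 5) (nat_lit 245) (nat_lit 258) (nat_lit 277)) (PT.lf (nat_lit 49020) (nat_lit 6) (nat_lit 645) (nat_lit 5) (nat_lit 246) (nat_lit 258) (nat_lit 276)))) (PT.nd (nat_lit 156) (PT.nd (nat_lit 78) (PT.lf (nat_lit 50236) (nat_lit 6) (nat_lit 661) (nat_lit 5) (nat_lit 247) (nat_lit 258) (nat_lit 275)) (PT.lf (nat_lit 51376) (nat_lit 6) (nat_lit 676) (nat_lit 5) (nat_lit 248) (nat_lit 258) (nat_lit 274))) (PT.nd (nat_lit 78) (PT.lf (nat_lit 52440) (nat_lit 6) (nat_lit 690) (nat_lit 5) (nat_lit 249) (nat_lit 258) (nat_lit 273)) (PT.lf (nat_lit 53428) (nat_lit 6) (nat_lit 703) (nat_lit 5) (nat_lit 250) (nat_lit 258) (nat_lit 272))))))) (PT.nd (nat_lit 1170) (PT.nd (nat_lit 546) (PT.nd (nat_lit 234) (PT.nd (nat_lit 78) (PT.lf (nat_lit 54340) (nat_lit 6) (nat_lit 715) (nat_lit 5) (nat_lit 251) (nat_lit 258) (nat_lit 271)) (PT.nd (nat_lit 78) (PT.lf (nat_lit 55176) (nat_lit 6) (nat_lit 726) (nat_lit 5) (nat_lit 252) (nat_lit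 258) (nat_lit 270)) (PT.lf (nat_lit 55936) (nat_lit 6) (nat_lit 736) (nat_lit 5) (nat_lit 253) (nat_lit 258) (nat_lit 269)))) (PT.nd (nat_lit 156) (PT.nd (nat_lit 78) (PT.lf (nat_lit 56620) (nat_lit 6) (nat_lit 745) (nat_lit 5) (nat_lit 254) (nat_lit 258) (nat_lit 268)) (PT.lf (nat_lit 57228) (nat_lit 6) (nat_lit 753) (nat_lit 5) (nat_lit 255) (nat_lit 258) (nat_lit 267))) (PT.nd (nat_lit 78) (PT.lf (nat_lit 57760) (nat_lit 6) (nat_lit 760) (nat_lit 5) (nat_lit 256) (nat_lit 258) (nat_lit 266)) (PT.lf (nat_lit 58216) (nat_lit 6) (nat_lit 766) (nat_lit 5) (nat_lit 257) (nat_lit 258) (nat_lit 265))))) (PT.nd (nat_lit 312) (PT.nd (nat_lit 156) (PT.nd (nat_lit 78) (PT.lf (nat_lit 58596) (nat_lit 3) (nat_lit 771) (nat_lit 3) (nat_lit 258) (nat_lit 258) (nat_lit 264)) (PT.lf (nat_lit 58976) (nat_lit 6) (nat_lit 776) (nat_lit 3) (nat_lit 259) (nat_lit 258) (nat_lit 263))) (PT.nd (nat_lit 78) (PT.lf (nat_lit 59280) (nat_lit 6) (nat_lit 780) (nat_lit 3) (nat_lit 260) (nat_lit 258) (nat_lit 262)) (PT.lf (nat_lit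 59356) (nat_lit 3) (nat_lit 781) (nat_lit 1) (nat_lit 261) (nat_lit 258) (nat_lit 261)))) (PT.nd (nat_lit 156) (PT.nd (nat_lit 78) (PT.lf (nat_lit 59280) (nat_lit 6) (nat_lit 780) (nat_lit 1) (nat_lit 262) (nat_lit 258) (nat_lit 260)) (PT.lf (nat_lit 58976) (nat_lit 6) (nat_lit 776) (nat_lit 1) (nat_lit 263) (nat_lit 258) (nat_lit 259))) (PT.nd (nat_lit 78) (PT.lf (nat_lit 58596) (nat_lit 3) (nat_lit 771) (nat_lit 0) (nat_lit 264) (nat_lit 258) (nat_lit 258)) (PT.lf (nat_lit 58216) (nat_lit 6) (nat_lit 766) (nat_lit 0) (nat_lit 265) (nat_lit 258) (nat_lit 257)))))) (PT.nd (nat_lit 624) (PT.nd (nat_lit 312) (PT.nd (nat_lit 156) (PT.nd (nat_lit 78) (PT.lf (nat_lit 57760) (nat_lit 6) (nat_lit 760) (nat_lit 0) (nat_lit 266) (nat_lit 258) (nat_lit 256)) (PT.lf (nat_lit 57228) (nat_lit 6) (nat_lit 753) (nat_lit 0) (nat_lit 267) (nat_lit 258) (nat_lit 255))) (PT.nd (nat_lit 78) (PT.lf (nat_lit 56620) (nat_lit 6) (nat_lit 745) (nat_lit 0) (nat_lit 268) (nat_lit 258) (nat_lit 254)) (PT.lf (nat_lit 55936) (nat_lit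 6) (nat_lit 736) (nat_lit 0) (nat_lit 269) (nat_lit 258) (nat_lit 253)))) (PT.nd (nat_lit 156) (PT.nd (nat_lit 78) (PT.lf (nat_lit 55176) (nat_lit 6) (nat_lit 726) (nat_lit 0) (nat_lit 270) (nat_lit 258) (nat_lit 252)) (PT.lf (nat_lit 54340) (nat_lit 6) (nat_lit 715) (nat_lit 0) (nat_lit 271) (nat_lit 258) (nat_lit 251))) (PT.nd (nat_lit 78) (PT.lf (nat_lit 53428) (nat_lit 6) (nat_lit 703) (nat_lit 0) (nat_lit 272) (nat_lit 258) (nat_lit 250)) (PT.lf (nat_lit 52440) (nat_lit 6) (nat_lit 690) (nat_lit 0) (nat_lit 273) (nat_lit 258) (nat_lit 249))))) (PT.nd (nat_lit 312) (PT.nd (nat_lit 156) (PT.nd (nat_lit 78) (PT.lf (nat_lit 51376) (nat_lit 6) (nat_lit 676) (nat_lit 0) (nat_lit 274) (nat_lit 258) (nat_lit 248)) (PT.lf (nat_lit 50236) (nat_lit 6) (nat_lit 661) (nat_lit 0) (nat_lit 275) (nat_lit 258) (nat_lit 247))) (PT.nd (nat_lit 78) (PT.lf (nat_lit 49020) (nat_lit 6) (nat_lit 645) (nat_lit 0) (nat_lit 276) (nat_lit 258) (nat_lit 246)) (PT.lf (nat_lit 47728) (nat_lit 6) (nat_lit 628) (nat_lit 0) (nat_lit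 277) (nat_lit 258) (nat_lit 245)))) (PT.nd (nat_lit 156) (PT.nd (nat_lit 78) (PT.lf (nat_lit 46360) (nat_lit 6) (nat_lit 610) (nat_lit 0) (nat_lit 278) (nat_lit 258) (nat_lit 244)) (PT.lf (nat_lit 44916) (nat_lit 6) (nat_lit 591) (nat_lit 0) (nat_lit 279) (nat_lit 258) (nat_lit 243))) (PT.nd (nat_lit 78) (PT.lf (nat_lit 43396) (nat_lit 6) (nat_lit 571) (nat_lit 0) (nat_lit 280) (nat_lit 258) (nat_lit 242)) (PT.lf (nat_lit 41800) (nat_lit 6) (nat_lit 550) (nat_lit 0) (nat_lit 281) (nat_lit 258) (nat_lit 241))))))))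
noncomputable def pc25 : PT := (PT.nd (nat_lit 79794) (PT.nd (nat_lit 78546) (PT.nd (nat_lit 77922) (PT.nd (nat_lit 77610) (PT.nd (nat_lit 78) (PT.lf (nat_lit 40128) (nat_lit 6) (nat_lit 528) (nat_lit 0) (nat_lit 282) (nat_lit 258) (nat_lit 240)) (PT.nd (nat_lit 78) (PT.lf (nat_lit 38380) (nat_lit 6) (nat_lit 505) (nat_lit 0) (nat_lit 283) (nat_lit 258) (nat_lit 239)) (PT.lf (nat_lit 36556) (nat_lit 6) (nat_lit 481) (nat_lit 0) (nat_lit 284) (nat_lit 258) (nat_lit 238)))) (PT.nd (nat_lit 156) (PT.nd (nat_lit 78) (PT.lf (nat_lit 34732) (nat_lit 6) (nat_lit 457) (nat_lit 5) (nat_lit 236) (nat_lit 259) (nat_lit 285)) (PT.lf (nat_lit 36632) (nat_lit 6) (nat_lit 482) (nat_lit 5) (nat_lit 237) (nat_lit 259) (nat_lit 284))) (PT.nd (nat_lit 78) (PT.lf (nat_lit 38456) (nat_lit 6) (nat_lit 506) (nat_lit 5) (nat_lit 238) (nat_lit 259) (nat_lit 283)) (PT.lf (nat_lit 40204) (nat_lit 6) (nat_lit 529) (nat_lit 5) (nat_lit 239) (nat_lit 259) (nat_lit 282))))) (PT.nd (nat_lit 312) (PT.nd (nat_lit 156) (PT.nd (nat_lit 78)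 (PT.lf (nat_lit 41876) (nat_lit 6) (nat_lit 551) (nat_lit 5) (nat_lit 240) (nat_lit 259) (nat_lit 281)) (PT.lf (nat_lit 43472) (nat_lit 6) (nat_lit 572) (nat_lit 5) (nat_lit 241) (nat_lit 259) (nat_lit 280))) (PT.nd (nat_lit 78) (PT.lf (nat_lit 44992) (nat_lit 6) (nat_lit 592) (nat_lit 5) (nat_lit 242) (nat_lit 259) (nat_lit 279)) (PT.lf (nat_lit 46436) (nat_lit 6) (nat_lit 611) (nat_lit 5) (nat_lit 243) (nat_lit 259) (nat_lit 278)))) (PT.nd (nat_lit 156) (PT.nd (nat_lit 78) (PT.lf (nat_lit 47804) (nat_lit 6) (nat_lit 629) (nat_lit 5) (nat_lit 244) (nat_lit 259) (nat_lit 277)) (PT.lf (nat_lit 49096) (nat_lit 6) (nat_lit 646) (nat_lit 5) (nat_lit 245) (nat_lit 259) (nat_lit 276))) (PT.nd (nat_lit 78) (PT.lf (nat_lit 50312) (nat_lit 6) (nat_lit 662) (nat_lit 5) (nat_lit 246) (nat_lit 259) (nat_lit 275)) (PT.lf (nat_lit 51452) (nat_lit 6) (nat_lit 677) (nat_lit 5) (nat_lit 247) (nat_lit 259) (nat_lit 274)))))) (PT.nd (nat_lit 624) (PT.nd (nat_lit 312) (PT.nd (nat_lit 156) (PT.nd (nat_lit 78) (PT.lf (nat_lit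 52516) (nat_lit 6) (nat_lit 691) (nat_lit 5) (nat_lit 248) (nat_lit 259) (nat_lit 273)) (PT.lf (nat_lit 53504) (nat_lit 6) (nat_lit 704) (nat_lit 5) (nat_lit 249) (nat_lit 259) (nat_lit 272))) (PT.nd (nat_lit 78) (PT.lf (nat_lit 54416) (nat_lit 6) (nat_lit 716) (nat_lit 5) (nat_lit 250) (nat_lit 259) (nat_lit 271)) (PT.lf (nat_lit 55252) (nat_lit 6) (nat_lit 727) (nat_lit 5) (nat_lit 251) (nat_lit 259) (nat_lit 270)))) (PT.nd (nat_lit 156) (PT.nd (nat_lit 78) (PT.lf (nat_lit 56012) (nat_lit 6) (nat_lit 737) (nat_lit 5) (nat_lit 252) (nat_lit 259) (nat_lit 269)) (PT.lf (nat_lit 56696) (nat_lit 6) (nat_lit 746) (nat_lit 5) (nat_lit 253) (nat_lit 259) (nat_lit 268))) (PT.nd (nat_lit 78) (PT.lf (nat_lit 57304) (nat_lit 6) (nat_lit 754) (nat_lit 5) (nat_lit 254) (nat_lit 259) (nat_lit 267)) (PT.lf (nat_lit 57836) (nat_lit 6) (nat_lit 761) (nat_lit 5) (nat_lit 255) (nat_lit 259) (nat_lit 266))))) (PT.nd (nat_lit 312) (PT.nd (nat_lit 156) (PT.nd (nat_lit 78) (PT.lf (nat_lit 58292) (nat_lit 6) (nat_lit 767) (nat_lit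 5) (nat_lit 256) (nat_lit 259) (nat_lit 265)) (PT.lf (nat_lit 58672) (nat_lit 6) (nat_lit 772) (nat_lit 5) (nat_lit 257) (nat_lit 259) (nat_lit 264))) (PT.nd (nat_lit 78) (PT.lf (nat_lit 58976) (nat_lit 6) (nat_lit 776) (nat_lit 5) (nat_lit 258) (nat_lit 259) (nat_lit 263)) (PT.lf (nat_lit 59204) (nat_lit 3) (nat_lit 779) (nat_lit 3) (nat_lit 259) (nat_lit 259) (nat_lit 262)))) (PT.nd (nat_lit 156) (PT.nd (nat_lit 78) (PT.lf (nat_lit 59432) (nat_lit 6) (nat_lit 782) (nat_lit 3) (nat_lit 260) (nat_lit 259) (nat_lit 261)) (PT.lf (nat_lit 59432) (nat_lit 6) (nat_lit 782) (nat_lit 1) (nat_lit 261) (nat_lit 259) (nat_lit 260))) (PT.nd (nat_lit 78) (PT.lf (nat_lit 59204) (nat_lit 3) (nat_lit 779) (nat_lit 0) (nat_lit 262) (nat_lit 259) (nat_lit 259)) (PT.lf (nat_lit 58976) (nat_lit 6) (nat_lit 776) (nat_lit 0) (nat_lit 263) (nat_lit 259) (nat_lit 258))))))) (PT.nd (nat_lit 1170) (PT.nd (nat_lit 546) (PT.nd (nat_lit 234) (PT.nd (nat_lit 78) (PT.lf (nat_lit 58672) (nat_lit 6) (nat_lit 772) (nat_lit 0) (nat_lit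 264) (nat_lit 259) (nat_lit 257)) (PT.nd (nat_lit 78) (PT.lf (nat_lit 58292) (nat_lit 6) (nat_lit 767) (nat_lit 0) (nat_lit 265) (nat_lit 259) (nat_lit 256)) (PT.lf (nat_lit 57836) (nat_lit 6) (nat_lit 761) (nat_lit 0) (nat_lit 266) (nat_lit 259) (nat_lit 255)))) (PT.nd (nat_lit 156) (PT.nd (nat_lit 78) (PT.lf (nat_lit 57304) (nat_lit 6) (nat_lit 754) (nat_lit 0) (nat_lit 267) (nat_lit 259) (nat_lit 254)) (PT.lf (nat_lit 56696) (nat_lit 6) (nat_lit 746) (nat_lit 0) (nat_lit 268) (nat_lit 259) (nat_lit 253))) (PT.nd (nat_lit 78) (PT.lf (nat_lit 56012) (nat_lit 6) (nat_lit 737) (nat_lit 0) (nat_lit 269) (nat_lit 259) (nat_lit 252)) (PT.lf (nat_lit 55252) (nat_lit 6) (nat_lit 727) (nat_lit 0) (nat_lit 270) (nat_lit 259) (nat_lit 251))))) (PT.nd (nat_lit 312) (PT.nd (nat_lit 156) (PT.nd (nat_lit 78) (PT.lf (nat_lit 54416) (nat_lit 6) (nat_lit 716) (nat_lit 0) (nat_lit 271) (nat_lit 259) (nat_lit 250)) (PT.lf (nat_lit 53504) (nat_lit 6) (nat_lit 704) (nat_lit 0) (nat_lit 272) (nat_lit 259) (nat_lit 249))) (PT.nd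 (nat_lit 78) (PT.lf (nat_lit 52516) (nat_lit 6) (nat_lit 691) (nat_lit 0) (nat_lit 273) (nat_lit 259) (nat_lit 248)) (PT.lf (nat_lit 51452) (nat_lit 6) (nat_lit 677) (nat_lit 0) (nat_lit 274) (nat_lit 259) (nat_lit 247)))) (PT.nd (nat_lit 156) (PT.nd (nat_lit 78) (PT.lf (nat_lit 50312) (nat_lit 6) (nat_lit 662) (nat_lit 0) (nat_lit 275) (nat_lit 259) (nat_lit 246)) (PT.lf (nat_lit 49096) (nat_lit 6) (nat_lit 646) (nat_lit 0) (nat_lit 276) (nat_lit 259) (nat_lit 245))) (PT.nd (nat_lit 78) (PT.lf (nat_lit 47804) (nat_lit 6) (nat_lit 629) (nat_lit 0) (nat_lit 277) (nat_lit 259) (nat_lit 244)) (PT.lf (nat_lit 46436) (nat_lit 6) (nat_lit 611) (nat_lit 0) (nat_lit 278) (nat_lit 259) (nat_lit 243)))))) (PT.nd (nat_lit 77844) (PT.nd (nat_lit 312) (PT.nd (nat_lit 156) (PT.nd (nat_lit 78) (PT.lf (nat_lit 44992) (nat_lit 6) (nat_lit 592) (nat_lit 0) (nat_lit 279) (nat_lit 259) (nat_lit 242)) (PT.lf (nat_lit 43472) (nat_lit 6) (nat_lit 572) (nat_lit 0) (nat_lit 280) (nat_lit 259) (nat_lit 241))) (PT.nd (nat_lit 78)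 (PT.lf (nat_lit 41876) (nat_lit 6) (nat_lit 551) (nat_lit 0) (nat_lit 281) (nat_lit 259) (nat_lit 240)) (PT.lf (nat_lit 40204) (nat_lit 6) (nat_lit 529) (nat_lit 0) (nat_lit 282) (nat_lit 259) (nat_lit 239)))) (PT.nd (nat_lit 156) (PT.nd (nat_lit 78) (PT.lf (nat_lit 38456) (nat_lit 6) (nat_lit 506) (nat_lit 0) (nat_lit 283) (nat_lit 259) (nat_lit 238)) (PT.lf (nat_lit 36632) (nat_lit 6) (nat_lit 482) (nat_lit 0) (nat_lit 284) (nat_lit 259) (nat_lit 237))) (PT.nd (nat_lit 77298) (PT.lf (nat_lit 34732) (nat_lit 6) (nat_lit 457) (nat_lit 0) (nat_lit 285) (nat_lit 259) (nat_lit 236)) (PT.lf (nat_lit 34808) (nat_lit 6) (nat_lit 458) (nat_lit 5) (nat_lit 235) (nat_lit 260) (nat_lit 285))))) (PT.nd (nat_lit 312) (PT.nd (nat_lit 156) (PT.nd (nat_lit 78) (PT.lf (nat_lit 36708) (nat_lit 6) (nat_lit 483) (nat_lit 5) (nat_lit 236) (nat_lit 260) (nat_lit 284)) (PT.lf (nat_lit 38532) (nat_lit 6) (nat_lit 507) (nat_lit 5) (nat_lit 237) (nat_lit 260) (nat_lit 283))) (PT.nd (nat_lit 78) (PT.lf (nat_lit 40280) (nat_lit 6)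 (nat_lit 530) (nat_lit 5) (nat_lit 238) (nat_lit 260) (nat_lit 282)) (PT.lf (nat_lit 41952) (nat_lit 6) (nat_lit 552) (nat_lit 5) (nat_lit 239) (nat_lit 260) (nat_lit 281)))) (PT.nd (nat_lit 156) (PT.nd (nat_lit 78) (PT.lf (nat_lit 43548) (nat_lit 6) (nat_lit 573) (nat_lit 5) (nat_lit 240) (nat_lit 260) (nat_lit 280)) (PT.lf (nat_lit 45068) (nat_lit 6) (nat_lit 593) (nat_lit 5) (nat_lit 241) (nat_lit 260) (nat_lit 279))) (PT.nd (nat_lit 78) (PT.lf (nat_lit 46512) (nat_lit 6) (nat_lit 612) (nat_lit 5) (nat_lit 242) (nat_lit 260) (nat_lit 278)) (PT.lf (nat_lit 47880) (nat_lit 6) (nat_lit 630) (nat_lit 5) (nat_lit 243) (nat_lit 260) (nat_lit 277))))))))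
noncomputable def pc26 : PT := (PT.nd (nat_lit 2418) (PT.nd (nat_lit 1170) (PT.nd (nat_lit 546) (PT.nd (nat_lit 234) (PT.nd (nat_lit 78) (PT.lf (nat_lit 49172) (nat_lit 6) (nat_lit 647) (nat_lit 5) (nat_lit 244) (nat_lit 260) (nat_lit 276)) (PT.nd (nat_lit 78) (PT.lf (nat_lit 50388) (nat_lit 6) (nat_lit 663) (nat_lit 5) (nat_lit 245) (nat_lit 260) (nat_lit 275)) (PT.lf (nat_lit 51528) (nat_lit 6) (nat_lit 678) (nat_lit 5) (nat_lit 246) (nat_lit 260) (nat_lit 274)))) (PT.nd (nat_lit 156) (PT.nd (nat_lit 78) (PT.lf (nat_lit 52592) (nat_lit 6) (nat_lit 692) (nat_lit 5) (nat_lit 247) (nat_lit 260) (nat_lit 273)) (PT.lf (nat_lit 53580) (nat_lit 6) (nat_lit 705) (nat_lit 5) (nat_lit 248) (nat_lit 260) (nat_lit 272))) (PT.nd (nat_lit 78) (PT.lf (nat_lit 54492) (nat_lit 6) (nat_lit 717) (nat_lit 5) (nat_lit 249) (nat_lit 260) (nat_lit 271)) (PT.lf (nat_lit 55328) (nat_lit 6) (nat_lit 728) (nat_lit 5) (nat_lit 250) (nat_lit 260) (nat_lit 270))))) (PT.nd (nat_lit 312) (PT.nd (nat_lit 156) (PT.nd (nat_lit 78) (PT.lf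 (nat_lit 56088) (nat_lit 6) (nat_lit 738) (nat_lit 5) (nat_lit 251) (nat_lit 260) (nat_lit 269)) (PT.lf (nat_lit 56772) (nat_lit 6) (nat_lit 747) (nat_lit 5) (nat_lit 252) (nat_lit 260) (nat_lit 268))) (PT.nd (nat_lit 78) (PT.lf (nat_lit 57380) (nat_lit 6) (nat_lit 755) (nat_lit 5) (nat_lit 253) (nat_lit 260) (nat_lit 267)) (PT.lf (nat_lit 57912) (nat_lit 6) (nat_lit 762) (nat_lit 5) (nat_lit 254) (nat_lit 260) (nat_lit 266)))) (PT.nd (nat_lit 156) (PT.nd (nat_lit 78) (PT.lf (nat_lit 58368) (nat_lit 6) (nat_lit 768) (nat_lit 5) (nat_lit 255) (nat_lit 260) (nat_lit 265)) (PT.lf (nat_lit 58748) (nat_lit 6) (nat_lit 773) (nat_lit 5) (nat_lit 256) (nat_lit 260) (nat_lit 264))) (PT.nd (nat_lit 78) (PT.lf (nat_lit 59052) (nat_lit 6) (nat_lit 777) (nat_lit 5) (nat_lit 257) (nat_lit 260) (nat_lit 263)) (PT.lf (nat_lit 59280) (nat_lit 6) (nat_lit 780) (nat_lit 5) (nat_lit 258) (nat_lit 260) (nat_lit 262)))))) (PT.nd (nat_lit 624) (PT.nd (nat_lit 312) (PT.nd (nat_lit 156) (PT.nd (nat_lit 78) (PT.lf (nat_lit 59432)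 (nat_lit 6) (nat_lit 782) (nat_lit 5) (nat_lit 259) (nat_lit 260) (nat_lit 261)) (PT.lf (nat_lit 59508) (nat_lit 1) (nat_lit 783) (nat_lit 0) (nat_lit 260) (nat_lit 260) (nat_lit 260))) (PT.nd (nat_lit 78) (PT.lf (nat_lit 59432) (nat_lit 6) (nat_lit 782) (nat_lit 0) (nat_lit 261) (nat_lit 260) (nat_lit 259)) (PT.lf (nat_lit 59280) (nat_lit 6) (nat_lit 780) (nat_lit 0) (nat_lit 262) (nat_lit 260) (nat_lit 258)))) (PT.nd (nat_lit 156) (PT.nd (nat_lit 78) (PT.lf (nat_lit 59052) (nat_lit 6) (nat_lit 777) (nat_lit 0) (nat_lit 263) (nat_lit 260) (nat_lit 257)) (PT.lf (nat_lit 58748) (nat_lit 6) (nat_lit 773) (nat_lit 0) (nat_lit 264) (nat_lit 260) (nat_lit 256))) (PT.nd (nat_lit 78) (PT.lf (nat_lit 58368) (nat_lit 6) (nat_lit 768) (nat_lit 0) (nat_lit 265) (nat_lit 260) (nat_lit 255)) (PT.lf (nat_lit 57912) (nat_lit 6) (nat_lit 762) (nat_lit 0) (nat_lit 266) (nat_lit 260) (nat_lit 254))))) (PT.nd (nat_lit 312) (PT.nd (nat_lit 156) (PT.nd (nat_lit 78) (PT.lf (nat_lit 57380) (nat_lit 6) (nat_lit 755) (nat_lit 0)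 (nat_lit 267) (nat_lit 260) (nat_lit 253)) (PT.lf (nat_lit 56772) (nat_lit 6) (nat_lit 747) (nat_lit 0) (nat_lit 268) (nat_lit 260) (nat_lit 252))) (PT.nd (nat_lit 78) (PT.lf (nat_lit 56088) (nat_lit 6) (nat_lit 738) (nat_lit 0) (nat_lit 269) (nat_lit 260) (nat_lit 251)) (PT.lf (nat_lit 55328) (nat_lit 6) (nat_lit 728) (nat_lit 0) (nat_lit 270) (nat_lit 260) (nat_lit 250)))) (PT.nd (nat_lit 156) (PT.nd (nat_lit 78) (PT.lf (nat_lit 54492) (nat_lit 6) (nat_lit 717) (nat_lit 0) (nat_lit 271) (nat_lit 260) (nat_lit 249)) (PT.lf (nat_lit 53580) (nat_lit 6) (nat_lit 705) (nat_lit 0) (nat_lit 272) (nat_lit 260) (nat_lit 248))) (PT.nd (nat_lit 78) (PT.lf (nat_lit 52592) (nat_lit 6) (nat_lit 692) (nat_lit 0) (nat_lit 273) (nat_lit 260) (nat_lit 247)) (PT.lf (nat_lit 51528) (nat_lit 6) (nat_lit 678) (nat_lit 0) (nat_lit 274) (nat_lit 260) (nat_lit 246))))))) (PT.nd (nat_lit 78312) (PT.nd (nat_lit 546) (PT.nd (nat_lit 234) (PT.nd (nat_lit 78) (PT.lf (nat_lit 50388) (nat_lit 6) (nat_lit 663) (nat_lit 0) (nat_lit 275)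 (nat_lit 260) (nat_lit 245)) (PT.nd (nat_lit 78) (PT.lf (nat_lit 49172) (nat_lit 6) (nat_lit 647) (nat_lit 0) (nat_lit 276) (nat_lit 260) (nat_lit 244)) (PT.lf (nat_lit 47880) (nat_lit 6) (nat_lit 630) (nat_lit 0) (nat_lit 277) (nat_lit 260) (nat_lit 243)))) (PT.nd (nat_lit 156) (PT.nd (nat_lit 78) (PT.lf (nat_lit 46512) (nat_lit 6) (nat_lit 612) (nat_lit 0) (nat_lit 278) (nat_lit 260) (nat_lit 242)) (PT.lf (nat_lit 45068) (nat_lit 6) (nat_lit 593) (nat_lit 0) (nat_lit 279) (nat_lit 260) (nat_lit 241))) (PT.nd (nat_lit 78) (PT.lf (nat_lit 43548) (nat_lit 6) (nat_lit 573) (nat_lit 0) (nat_lit 280) (nat_lit 260) (nat_lit 240)) (PT.lf (nat_lit 41952) (nat_lit 6) (nat_lit 552) (nat_lit 0) (nat_lit 281) (nat_lit 260) (nat_lit 239))))) (PT.nd (nat_lit 77454) (PT.nd (nat_lit 156) (PT.nd (nat_lit 78) (PT.lf (nat_lit 40280) (nat_lit 6) (nat_lit 530) (nat_lit 0) (nat_lit 282) (nat_lit 260) (nat_lit 238)) (PT.lf (nat_lit 38532) (nat_lit 6) (nat_lit 507) (nat_lit 0) (nat_lit 283) (nat_lit 260) (nat_lit 237))) (PT.nd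 (nat_lit 78) (PT.lf (nat_lit 36708) (nat_lit 6) (nat_lit 483) (nat_lit 0) (nat_lit 284) (nat_lit 260) (nat_lit 236)) (PT.lf (nat_lit 34808) (nat_lit 6) (nat_lit 458) (nat_lit 0) (nat_lit 285) (nat_lit 260) (nat_lit 235)))) (PT.nd (nat_lit 156) (PT.nd (nat_lit 78) (PT.lf (nat_lit 33744) (nat_lit 6) (nat_lit 444) (nat_lit 5) (nat_lit 234) (nat_lit 261) (nat_lit 285)) (PT.lf (nat_lit 34884) (nat_lit 6) (nat_lit 459) (nat_lit 5) (nat_lit 235) (nat_lit 261) (nat_lit 284))) (PT.nd (nat_lit 78) (PT.lf (nat_lit 36784) (nat_lit 6) (nat_lit 484) (nat_lit 5) (nat_lit 236) (nat_lit 261) (nat_lit 283)) (PT.lf (nat_lit 38608) (nat_lit 6) (nat_lit 508) (nat_lit 5) (nat_lit 237) (nat_lit 261) (nat_lit 282)))))) (PT.nd (nat_lit 624) (PT.nd (nat_lit 312) (PT.nd (nat_lit 156) (PT.nd (nat_lit 78) (PT.lf (nat_lit 40356) (nat_lit 6) (nat_lit 531) (nat_lit 5) (nat_lit 238) (nat_lit 261) (nat_lit 281)) (PT.lf (nat_lit 42028) (nat_lit 6) (nat_lit 553) (nat_lit 5) (nat_lit 239) (nat_lit 261) (nat_lit 280))) (PT.nd (nat_lit 78) (PT.lf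 (nat_lit 43624) (nat_lit 6) (nat_lit 574) (nat_lit 5) (nat_lit 240) (nat_lit 261) (nat_lit 279)) (PT.lf (nat_lit 45144) (nat_lit 6) (nat_lit 594) (nat_lit 5) (nat_lit 241) (nat_lit 261) (nat_lit 278)))) (PT.nd (nat_lit 156) (PT.nd (nat_lit 78) (PT.lf (nat_lit 46588) (nat_lit 6) (nat_lit 613) (nat_lit 5) (nat_lit 242) (nat_lit 261) (nat_lit 277)) (PT.lf (nat_lit 47956) (nat_lit 6) (nat_lit 631) (nat_lit 5) (nat_lit 243) (nat_lit 261) (nat_lit 276))) (PT.nd (nat_lit 78) (PT.lf (nat_lit 49248) (nat_lit 6) (nat_lit 648) (nat_lit 5) (nat_lit 244) (nat_lit 261) (nat_lit 275)) (PT.lf (nat_lit 50464) (nat_lit 6) (nat_lit 664) (nat_lit 5) (nat_lit 245) (nat_lit 261) (nat_lit 274))))) (PT.nd (nat_lit 312) (PT.nd (nat_lit 156) (PT.nd (nat_lit 78) (PT.lf (nat_lit 51604) (nat_lit 6) (nat_lit 679) (nat_lit 5) (nat_lit 246) (nat_lit 261) (nat_lit 273)) (PT.lf (nat_lit 52668) (nat_lit 6) (nat_lit 693) (nat_lit 5) (nat_lit 247) (nat_lit 261) (nat_lit 272))) (PT.nd (nat_lit 78) (PT.lf (nat_lit 53656) (nat_lit 6) (nat_lit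 706) (nat_lit 5) (nat_lit 248) (nat_lit 261) (nat_lit 271)) (PT.lf (nat_lit 54568) (nat_lit 6) (nat_lit 718) (nat_lit 5) (nat_lit 249) (nat_lit 261) (nat_lit 270)))) (PT.nd (nat_lit 156) (PT.nd (nat_lit 78) (PT.lf (nat_lit 55404) (nat_lit 6) (nat_lit 729) (nat_lit 5) (nat_lit 250) (nat_lit 261) (nat_lit 269)) (PT.lf (nat_lit 56164) (nat_lit 6) (nat_lit 739) (nat_lit 5) (nat_lit 251) (nat_lit 261) (nat_lit 268))) (PT.nd (nat_lit 78) (PT.lf (nat_lit 56848) (nat_lit 6) (nat_lit 748) (nat_lit 5) (nat_lit 252) (nat_lit 261) (nat_lit 267)) (PT.lf (nat_lit 57456) (nat_lit 6) (nat_lit 756) (nat_lit 5) (nat_lit 253) (nat_lit 261) (nat_lit 266))))))))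
noncomputable def pc27 : PT := (PT.nd (nat_lit 2418) (PT.nd (nat_lit 1170) (PT.nd (nat_lit 546) (PT.nd (nat_lit 234) (PT.nd (nat_lit 78) (PT.lf (nat_lit 57988) (nat_lit 6) (nat_lit 763) (nat_lit 5) (nat_lit 254) (nat_lit 261) (nat_lit 265)) (PT.nd (nat_lit 78) (PT.lf (nat_lit 58444) (nat_lit 6) (nat_lit 769) (nat_lit 5) (nat_lit 255) (nat_lit 261) (nat_lit 264)) (PT.lf (nat_lit 58824) (nat_lit 6) (nat_lit 774) (nat_lit 5) (nat_lit 256) (nat_lit 261) (nat_lit 263)))) (PT.nd (nat_lit 156) (PT.nd (nat_lit 78) (PT.lf (nat_lit 59128) (nat_lit 6) (nat_lit 778) (nat_lit 5) (nat_lit 257) (nat_lit 261) (nat_lit 262)) (PT.lf (nat_lit 59356) (nat_lit 3) (nat_lit 781) (nat_lit 4) (nat_lit 258) (nat_lit 261) (nat_lit 261))) (PT.nd (nat_lit 78) (PT.lf (nat_lit 59432) (nat_lit 6) (nat_lit 782) (nat_lit 4) (nat_lit 259) (nat_lit 261) (nat_lit 260)) (PT.lf (nat_lit 59432) (nat_lit 6) (nat_lit 782) (nat_lit 2) (nat_lit 260) (nat_lit 261) (nat_lit 259))))) (PT.nd (nat_lit 312) (PT.nd (nat_lit 156) (PT.nd (nat_lit 78) (PT.lf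 (nat_lit 59356) (nat_lit 3) (nat_lit 781) (nat_lit 0) (nat_lit 261) (nat_lit 261) (nat_lit 258)) (PT.lf (nat_lit 59128) (nat_lit 6) (nat_lit 778) (nat_lit 0) (nat_lit 262) (nat_lit 261) (nat_lit 257))) (PT.nd (nat_lit 78) (PT.lf (nat_lit 58824) (nat_lit 6) (nat_lit 774) (nat_lit 0) (nat_lit 263) (nat_lit 261) (nat_lit 256)) (PT.lf (nat_lit 58444) (nat_lit 6) (nat_lit 769) (nat_lit 0) (nat_lit 264) (nat_lit 261) (nat_lit 255)))) (PT.nd (nat_lit 156) (PT.nd (nat_lit 78) (PT.lf (nat_lit 57988) (nat_lit 6) (nat_lit 763) (nat_lit 0) (nat_lit 265) (nat_lit 261) (nat_lit 254)) (PT.lf (nat_lit 57456) (nat_lit 6) (nat_lit 756) (nat_lit 0) (nat_lit 266) (nat_lit 261) (nat_lit 253))) (PT.nd (nat_lit 78) (PT.lf (nat_lit 56848) (nat_lit 6) (nat_lit 748) (nat_lit 0) (nat_lit 267) (nat_lit 261) (nat_lit 252)) (PT.lf (nat_lit 56164) (nat_lit 6) (nat_lit 739) (nat_lit 0) (nat_lit 268) (nat_lit 261) (nat_lit 251)))))) (PT.nd (nat_lit 624) (PT.nd (nat_lit 312) (PT.nd (nat_lit 156) (PT.nd (nat_lit 78) (PT.lf (nat_lit 55404)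 (nat_lit 6) (nat_lit 729) (nat_lit 0) (nat_lit 269) (nat_lit 261) (nat_lit 250)) (PT.lf (nat_lit 54568) (nat_lit 6) (nat_lit 718) (nat_lit 0) (nat_lit 270) (nat_lit 261) (nat_lit 249))) (PT.nd (nat_lit 78) (PT.lf (nat_lit 53656) (nat_lit 6) (nat_lit 706) (nat_lit 0) (nat_lit 271) (nat_lit 261) (nat_lit 248)) (PT.lf (nat_lit 52668) (nat_lit 6) (nat_lit 693) (nat_lit 0) (nat_lit 272) (nat_lit 261) (nat_lit 247)))) (PT.nd (nat_lit 156) (PT.nd (nat_lit 78) (PT.lf (nat_lit 51604) (nat_lit 6) (nat_lit 679) (nat_lit 0) (nat_lit 273) (nat_lit 261) (nat_lit 246)) (PT.lf (nat_lit 50464) (nat_lit 6) (nat_lit 664) (nat_lit 0) (nat_lit 274) (nat_lit 261) (nat_lit 245))) (PT.nd (nat_lit 78) (PT.lf (nat_lit 49248) (nat_lit 6) (nat_lit 648) (nat_lit 0) (nat_lit 275) (nat_lit 261) (nat_lit 244)) (PT.lf (nat_lit 47956) (nat_lit 6) (nat_lit 631) (nat_lit 0) (nat_lit 276) (nat_lit 261) (nat_lit 243))))) (PT.nd (nat_lit 312) (PT.nd (nat_lit 156) (PT.nd (nat_lit 78) (PT.lf (nat_lit 46588) (nat_lit 6) (nat_lit 613) (nat_lit 0)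 (nat_lit 277) (nat_lit 261) (nat_lit 242)) (PT.lf (nat_lit 45144) (nat_lit 6) (nat_lit 594) (nat_lit 0) (nat_lit 278) (nat_lit 261) (nat_lit 241))) (PT.nd (nat_lit 78) (PT.lf (nat_lit 43624) (nat_lit 6) (nat_lit 574) (nat_lit 0) (nat_lit 279) (nat_lit 261) (nat_lit 240)) (PT.lf (nat_lit 42028) (nat_lit 6) (nat_lit 553) (nat_lit 0) (nat_lit 280) (nat_lit 261) (nat_lit 239)))) (PT.nd (nat_lit 156) (PT.nd (nat_lit 78) (PT.lf (nat_lit 40356) (nat_lit 6) (nat_lit 531) (nat_lit 0) (nat_lit 281) (nat_lit 261) (nat_lit 238)) (PT.lf (nat_lit 38608) (nat_lit 6) (nat_lit 508) (nat_lit 0) (nat_lit 282) (nat_lit 261) (nat_lit 237))) (PT.nd (nat_lit 78) (PT.lf (nat_lit 36784) (nat_lit 6) (nat_lit 484) (nat_lit 0) (nat_lit 283) (nat_lit 261) (nat_lit 236)) (PT.lf (nat_lit 34884) (nat_lit 6) (nat_lit 459) (nat_lit 0) (nat_lit 284) (nat_lit 261) (nat_lit 235))))))) (PT.nd (nat_lit 78234) (PT.nd (nat_lit 77610) (PT.nd (nat_lit 77298) (PT.nd (nat_lit 77142) (PT.lf (nat_lit 33744) (nat_lit 6) (nat_lit 444) (nat_lit 0) (nat_lit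 285) (nat_lit 261) (nat_lit 234)) (PT.nd (nat_lit 78) (PT.lf (nat_lit 32832) (nat_lit 6) (nat_lit 432) (nat_lit 5) (nat_lit 233) (nat_lit 262) (nat_lit 285)) (PT.lf (nat_lit 33820) (nat_lit 6) (nat_lit 445) (nat_lit 5) (nat_lit 234) (nat_lit 262) (nat_lit 284)))) (PT.nd (nat_lit 156) (PT.nd (nat_lit 78) (PT.lf (nat_lit 34960) (nat_lit 6) (nat_lit 460) (nat_lit 5) (nat_lit 235) (nat_lit 262) (nat_lit 283)) (PT.lf (nat_lit 36860) (nat_lit 6) (nat_lit 485) (nat_lit 5) (nat_lit 236) (nat_lit 262) (nat_lit 282))) (PT.nd (nat_lit 78) (PT.lf (nat_lit 38684) (nat_lit 6) (nat_lit 509) (nat_lit 5) (nat_lit 237) (nat_lit 262) (nat_lit 281)) (PT.lf (nat_lit 40432) (nat_lit 6) (nat_lit 532) (nat_lit 5) (nat_lit 238) (nat_lit 262) (nat_lit 280))))) (PT.nd (nat_lit 312) (PT.nd (nat_lit 156) (PT.nd (nat_lit 78) (PT.lf (nat_lit 42104) (nat_lit 6) (nat_lit 554) (nat_lit 5) (nat_lit 239) (nat_lit 262) (nat_lit 279)) (PT.lf (nat_lit 43700) (nat_lit 6) (nat_lit 575) (nat_lit 5) (nat_lit 240) (nat_lit 262) (nat_lit 278))) (PT.nd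 (nat_lit 78) (PT.lf (nat_lit 45220) (nat_lit 6) (nat_lit 595) (nat_lit 5) (nat_lit 241) (nat_lit 262) (nat_lit 277)) (PT.lf (nat_lit 46664) (nat_lit 6) (nat_lit 614) (nat_lit 5) (nat_lit 242) (nat_lit 262) (nat_lit 276)))) (PT.nd (nat_lit 156) (PT.nd (nat_lit 78) (PT.lf (nat_lit 48032) (nat_lit 6) (nat_lit 632) (nat_lit 5) (nat_lit 243) (nat_lit 262) (nat_lit 275)) (PT.lf (nat_lit 49324) (nat_lit 6) (nat_lit 649) (nat_lit 5) (nat_lit 244) (nat_lit 262) (nat_lit 274))) (PT.nd (nat_lit 78) (PT.lf (nat_lit 50540) (nat_lit 6) (nat_lit 665) (nat_lit 5) (nat_lit 245) (nat_lit 262) (nat_lit 273)) (PT.lf (nat_lit 51680) (nat_lit 6) (nat_lit 680) (nat_lit 5) (nat_lit 246) (nat_lit 262) (nat_lit 272)))))) (PT.nd (nat_lit 624) (PT.nd (nat_lit 312) (PT.nd (nat_lit 156) (PT.nd (nat_lit 78) (PT.lf (nat_lit 52744) (nat_lit 6) (nat_lit 694) (nat_lit 5) (nat_lit 247) (nat_lit 262) (nat_lit 271)) (PT.lf (nat_lit 53732) (nat_lit 6) (nat_lit 707) (nat_lit 5) (nat_lit 248) (nat_lit 262) (nat_lit 270))) (PT.nd (nat_lit 78) (PT.lf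 (nat_lit 54644) (nat_lit 6) (nat_lit 719) (nat_lit 5) (nat_lit 249) (nat_lit 262) (nat_lit 269)) (PT.lf (nat_lit 55480) (nat_lit 6) (nat_lit 730) (nat_lit 5) (nat_lit 250) (nat_lit 262) (nat_lit 268)))) (PT.nd (nat_lit 156) (PT.nd (nat_lit 78) (PT.lf (nat_lit 56240) (nat_lit 6) (nat_lit 740) (nat_lit 5) (nat_lit 251) (nat_lit 262) (nat_lit 267)) (PT.lf (nat_lit 56924) (nat_lit 6) (nat_lit 749) (nat_lit 5) (nat_lit 252) (nat_lit 262) (nat_lit 266))) (PT.nd (nat_lit 78) (PT.lf (nat_lit 57532) (nat_lit 6) (nat_lit 757) (nat_lit 5) (nat_lit 253) (nat_lit 262) (nat_lit 265)) (PT.lf (nat_lit 58064) (nat_lit 6) (nat_lit 764) (nat_lit 5) (nat_lit 254) (nat_lit 262) (nat_lit 264))))) (PT.nd (nat_lit 312) (PT.nd (nat_lit 156) (PT.nd (nat_lit 78) (PT.lf (nat_lit 58520) (nat_lit 6) (nat_lit 770) (nat_lit 5) (nat_lit 255) (nat_lit 262) (nat_lit 263)) (PT.lf (nat_lit 58900) (nat_lit 3) (nat_lit 775) (nat_lit 4) (nat_lit 256) (nat_lit 262) (nat_lit 262))) (PT.nd (nat_lit 78) (PT.lf (nat_lit 59128) (nat_lit 6) (nat_lit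 778) (nat_lit 4) (nat_lit 257) (nat_lit 262) (nat_lit 261)) (PT.lf (nat_lit 59280) (nat_lit 6) (nat_lit 780) (nat_lit 4) (nat_lit 258) (nat_lit 262) (nat_lit 260)))) (PT.nd (nat_lit 156) (PT.nd (nat_lit 78) (PT.lf (nat_lit 59204) (nat_lit 3) (nat_lit 779) (nat_lit 2) (nat_lit 259) (nat_lit 262) (nat_lit 259)) (PT.lf (nat_lit 59280) (nat_lit 6) (nat_lit 780) (nat_lit 2) (nat_lit 260) (nat_lit 262) (nat_lit 258))) (PT.nd (nat_lit 78) (PT.lf (nat_lit 59128) (nat_lit 6) (nat_lit 778) (nat_lit 2) (nat_lit 261) (nat_lit 262) (nat_lit 257)) (PT.lf (nat_lit 58900) (nat_lit 3) (nat_lit 775) (nat_lit 0) (nat_lit 262) (nat_lit 262) (nat_lit 256))))))))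
noncomputable def pc28 : PT := (PT.nd (nat_lit 79404) (PT.nd (nat_lit 1170) (PT.nd (nat_lit 546) (PT.nd (nat_lit 234) (PT.nd (nat_lit 78) (PT.lf (nat_lit 58520) (nat_lit 6) (nat_lit 770) (nat_lit 0) (nat_lit 263) (nat_lit 262) (nat_lit 255)) (PT.nd (nat_lit 78) (PT.lf (nat_lit 58064) (nat_lit 6) (nat_lit 764) (nat_lit 0) (nat_lit 264) (nat_lit 262) (nat_lit 254)) (PT.lf (nat_lit 57532) (nat_lit 6) (nat_lit 757) (nat_lit 0) (nat_lit 265) (nat_lit 262) (nat_lit 253)))) (PT.nd (nat_lit 156) (PT.nd (nat_lit 78) (PT.lf (nat_lit 56924) (nat_lit 6) (nat_lit 749) (nat_lit 0) (nat_lit 266) (nat_lit 262) (nat_lit 252)) (PT.lf (nat_lit 56240) (nat_lit 6) (nat_lit 740) (nat_lit 0) (nat_lit 267) (nat_lit 262) (nat_lit 251))) (PT.nd (nat_lit 78) (PT.lf (nat_lit 55480) (nat_lit 6) (nat_lit 730) (nat_lit 0) (nat_lit 268) (nat_lit 262) (nat_lit 250)) (PT.lf (nat_lit 54644) (nat_lit 6) (nat_lit 719) (nat_lit 0) (nat_lit 269) (nat_lit 262) (nat_lit 249))))) (PT.nd (nat_lit 312) (PT.nd (nat_lit 156) (PT.nd (nat_lit 78) (PT.lf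 (nat_lit 53732) (nat_lit 6) (nat_lit 707) (nat_lit 0) (nat_lit 270) (nat_lit 262) (nat_lit 248)) (PT.lf (nat_lit 52744) (nat_lit 6) (nat_lit 694) (nat_lit 0) (nat_lit 271) (nat_lit 262) (nat_lit 247))) (PT.nd (nat_lit 78) (PT.lf (nat_lit 51680) (nat_lit 6) (nat_lit 680) (nat_lit 0) (nat_lit 272) (nat_lit 262) (nat_lit 246)) (PT.lf (nat_lit 50540) (nat_lit 6) (nat_lit 665) (nat_lit 0) (nat_lit 273) (nat_lit 262) (nat_lit 245)))) (PT.nd (nat_lit 156) (PT.nd (nat_lit 78) (PT.lf (nat_lit 49324) (nat_lit 6) (nat_lit 649) (nat_lit 0) (nat_lit 274) (nat_lit 262) (nat_lit 244)) (PT.lf (nat_lit 48032) (nat_lit 6) (nat_lit 632) (nat_lit 0) (nat_lit 275) (nat_lit 262) (nat_lit 243))) (PT.nd (nat_lit 78) (PT.lf (nat_lit 46664) (nat_lit 6) (nat_lit 614) (nat_lit 0) (nat_lit 276) (nat_lit 262) (nat_lit 242)) (PT.lf (nat_lit 45220) (nat_lit 6) (nat_lit 595) (nat_lit 0) (nat_lit 277) (nat_lit 262) (nat_lit 241)))))) (PT.nd (nat_lit 77610) (PT.nd (nat_lit 312) (PT.nd (nat_lit 156) (PT.nd (nat_lit 78) (PT.lf (nat_lit 43700)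 (nat_lit 6) (nat_lit 575) (nat_lit 0) (nat_lit 278) (nat_lit 262) (nat_lit 240)) (PT.lf (nat_lit 42104) (nat_lit 6) (nat_lit 554) (nat_lit 0) (nat_lit 279) (nat_lit 262) (nat_lit 239))) (PT.nd (nat_lit 78) (PT.lf (nat_lit 40432) (nat_lit 6) (nat_lit 532) (nat_lit 0) (nat_lit 280) (nat_lit 262) (nat_lit 238)) (PT.lf (nat_lit 38684) (nat_lit 6) (nat_lit 509) (nat_lit 0) (nat_lit 281) (nat_lit 262) (nat_lit 237)))) (PT.nd (nat_lit 156) (PT.nd (nat_lit 78) (PT.lf (nat_lit 36860) (nat_lit 6) (nat_lit 485) (nat_lit 0) (nat_lit 282) (nat_lit 262) (nat_lit 236)) (PT.lf (nat_lit 34960) (nat_lit 6) (nat_lit 460) (nat_lit 0) (nat_lit 283) (nat_lit 262) (nat_lit 235))) (PT.nd (nat_lit 78) (PT.lf (nat_lit 33820) (nat_lit 6) (nat_lit 445) (nat_lit 0) (nat_lit 284) (nat_lit 262) (nat_lit 234)) (PT.lf (nat_lit 32832) (nat_lit 6) (nat_lit 432) (nat_lit 0) (nat_lit 285) (nat_lit 262) (nat_lit 233))))) (PT.nd (nat_lit 312) (PT.nd (nat_lit 156) (PT.nd (nat_lit 78) (PT.lf (nat_lit 31920) (nat_lit 6) (nat_lit 420) (nat_lit 5)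 (nat_lit 232) (nat_lit 263) (nat_lit 285)) (PT.lf (nat_lit 32908) (nat_lit 6) (nat_lit 433) (nat_lit 5) (nat_lit 233) (nat_lit 263) (nat_lit 284))) (PT.nd (nat_lit 78) (PT.lf (nat_lit 33896) (nat_lit 6) (nat_lit 446) (nat_lit 5) (nat_lit 234) (nat_lit 263) (nat_lit 283)) (PT.lf (nat_lit 35036) (nat_lit 6) (nat_lit 461) (nat_lit 5) (nat_lit 235) (nat_lit 263) (nat_lit 282)))) (PT.nd (nat_lit 156) (PT.nd (nat_lit 78) (PT.lf (nat_lit 36936) (nat_lit 6) (nat_lit 486) (nat_lit 5) (nat_lit 236) (nat_lit 263) (nat_lit 281)) (PT.lf (nat_lit 38760) (nat_lit 6) (nat_lit 510) (nat_lit 5) (nat_lit 237) (nat_lit 263) (nat_lit 280))) (PT.nd (nat_lit 78) (PT.lf (nat_lit 40508) (nat_lit 6) (nat_lit 533) (nat_lit 5) (nat_lit 238) (nat_lit 263) (nat_lit 279)) (PT.lf (nat_lit 42180) (nat_lit 6) (nat_lit 555) (nat_lit 5) (nat_lit 239) (nat_lit 263) (nat_lit 278))))))) (PT.nd (nat_lit 1170) (PT.nd (nat_lit 546) (PT.nd (nat_lit 234) (PT.nd (nat_lit 78) (PT.lf (nat_lit 43776) (nat_lit 6) (nat_lit 576) (nat_lit 5) (nat_lit 240)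 (nat_lit 263) (nat_lit 277)) (PT.nd (nat_lit 78) (PT.lf (nat_lit 45296) (nat_lit 6) (nat_lit 596) (nat_lit 5) (nat_lit 241) (nat_lit 263) (nat_lit 276)) (PT.lf (nat_lit 46740) (nat_lit 6) (nat_lit 615) (nat_lit 5) (nat_lit 242) (nat_lit 263) (nat_lit 275)))) (PT.nd (nat_lit 156) (PT.nd (nat_lit 78) (PT.lf (nat_lit 48108) (nat_lit 6) (nat_lit 633) (nat_lit 5) (nat_lit 243) (nat_lit 263) (nat_lit 274)) (PT.lf (nat_lit 49400) (nat_lit 6) (nat_lit 650) (nat_lit 5) (nat_lit 244) (nat_lit 263) (nat_lit 273))) (PT.nd (nat_lit 78) (PT.lf (nat_lit 50616) (nat_lit 6) (nat_lit 666) (nat_lit 5) (nat_lit 245) (nat_lit 263) (nat_lit 272)) (PT.lf (nat_lit 51756) (nat_lit 6) (nat_lit 681) (nat_lit 5) (nat_lit 246) (nat_lit 263) (nat_lit 271))))) (PT.nd (nat_lit 312) (PT.nd (nat_lit 156) (PT.nd (nat_lit 78) (PT.lf (nat_lit 52820) (nat_lit 6) (nat_lit 695) (nat_lit 5) (nat_lit 247) (nat_lit 263) (nat_lit 270)) (PT.lf (nat_lit 53808) (nat_lit 6) (nat_lit 708) (nat_lit 5) (nat_lit 248) (nat_lit 263) (nat_lit 269))) (PT.nd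 (nat_lit 78) (PT.lf (nat_lit 54720) (nat_lit 6) (nat_lit 720) (nat_lit 5) (nat_lit 249) (nat_lit 263) (nat_lit 268)) (PT.lf (nat_lit 55556) (nat_lit 6) (nat_lit 731) (nat_lit 5) (nat_lit 250) (nat_lit 263) (nat_lit 267)))) (PT.nd (nat_lit 156) (PT.nd (nat_lit 78) (PT.lf (nat_lit 56316) (nat_lit 6) (nat_lit 741) (nat_lit 5) (nat_lit 251) (nat_lit 263) (nat_lit 266)) (PT.lf (nat_lit 57000) (nat_lit 6) (nat_lit 750) (nat_lit 5) (nat_lit 252) (nat_lit 263) (nat_lit 265))) (PT.nd (nat_lit 78) (PT.lf (nat_lit 57608) (nat_lit 6) (nat_lit 758) (nat_lit 5) (nat_lit 253) (nat_lit 263) (nat_lit 264)) (PT.lf (nat_lit 58140) (nat_lit 3) (nat_lit 765) (nat_lit 4) (nat_lit 254) (nat_lit 263) (nat_lit 263)))))) (PT.nd (nat_lit 624) (PT.nd (nat_lit 312) (PT.nd (nat_lit 156) (PT.nd (nat_lit 78) (PT.lf (nat_lit 58520) (nat_lit 6) (nat_lit 770) (nat_lit 4) (nat_lit 255) (nat_lit 263) (nat_lit 262)) (PT.lf (nat_lit 58824) (nat_lit 6) (nat_lit 774) (nat_lit 4) (nat_lit 256) (nat_lit 263) (nat_lit 261))) (PT.nd (nat_lit 78) (PT.lf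 (nat_lit 59052) (nat_lit 6) (nat_lit 777) (nat_lit 4) (nat_lit 257) (nat_lit 263) (nat_lit 260)) (PT.lf (nat_lit 58976) (nat_lit 6) (nat_lit 776) (nat_lit 4) (nat_lit 258) (nat_lit 263) (nat_lit 259)))) (PT.nd (nat_lit 156) (PT.nd (nat_lit 78) (PT.lf (nat_lit 58976) (nat_lit 6) (nat_lit 776) (nat_lit 2) (nat_lit 259) (nat_lit 263) (nat_lit 258)) (PT.lf (nat_lit 59052) (nat_lit 6) (nat_lit 777) (nat_lit 2) (nat_lit 260) (nat_lit 263) (nat_lit 257))) (PT.nd (nat_lit 78) (PT.lf (nat_lit 58824) (nat_lit 6) (nat_lit 774) (nat_lit 2) (nat_lit 261) (nat_lit 263) (nat_lit 256)) (PT.lf (nat_lit 58520) (nat_lit 6) (nat_lit 770) (nat_lit 2) (nat_lit 262) (nat_lit 263) (nat_lit 255))))) (PT.nd (nat_lit 312) (PT.nd (nat_lit 156) (PT.nd (nat_lit 78) (PT.lf (nat_lit 58140) (nat_lit 3) (nat_lit 765) (nat_lit 0) (nat_lit 263) (nat_lit 263) (nat_lit 254)) (PT.lf (nat_lit 57608) (nat_lit 6) (nat_lit 758) (nat_lit 0) (nat_lit 264) (nat_lit 263) (nat_lit 253))) (PT.nd (nat_lit 78) (PT.lf (nat_lit 57000) (nat_lit 6) (nat_lit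 750) (nat_lit 0) (nat_lit 265) (nat_lit 263) (nat_lit 252)) (PT.lf (nat_lit 56316) (nat_lit 6) (nat_lit 741) (nat_lit 0) (nat_lit 266) (nat_lit 263) (nat_lit 251)))) (PT.nd (nat_lit 156) (PT.nd (nat_lit 78) (PT.lf (nat_lit 55556) (nat_lit 6) (nat_lit 731) (nat_lit 0) (nat_lit 267) (nat_lit 263) (nat_lit 250)) (PT.lf (nat_lit 54720) (nat_lit 6) (nat_lit 720) (nat_lit 0) (nat_lit 268) (nat_lit 263) (nat_lit 249))) (PT.nd (nat_lit 78) (PT.lf (nat_lit 53808) (nat_lit 6) (nat_lit 708) (nat_lit 0) (nat_lit 269) (nat_lit 263) (nat_lit 248)) (PT.lf (nat_lit 52820) (nat_lit 6) (nat_lit 695) (nat_lit 0) (nat_lit 270) (nat_lit 263) (nat_lit 247))))))))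
noncomputable def pc29 : PT := (PT.nd (nat_lit 79248) (PT.nd (nat_lit 78000) (PT.nd (nat_lit 546) (PT.nd (nat_lit 234) (PT.nd (nat_lit 78) (PT.lf (nat_lit 51756) (nat_lit 6) (nat_lit 681) (nat_lit 0) (nat_lit 271) (nat_lit 263) (nat_lit 246)) (PT.nd (nat_lit 78) (PT.lf (nat_lit 50616) (nat_lit 6) (nat_lit 666) (nat_lit 0) (nat_lit 272) (nat_lit 263) (nat_lit 245)) (PT.lf (nat_lit 49400) (nat_lit 6) (nat_lit 650) (nat_lit 0) (nat_lit 273) (nat_lit 263) (nat_lit 244)))) (PT.nd (nat_lit 156) (PT.nd (nat_lit 78) (PT.lf (nat_lit 48108) (nat_lit 6) (nat_lit 633) (nat_lit 0) (nat_lit 274) (nat_lit 263) (nat_lit 243)) (PT.lf (nat_lit 46740) (nat_lit 6) (nat_lit 615) (nat_lit 0) (nat_lit 275) (nat_lit 263) (nat_lit 242))) (PT.nd (nat_lit 78) (PT.lf (nat_lit 45296) (nat_lit 6) (nat_lit 596) (nat_lit 0) (nat_lit 276) (nat_lit 263) (nat_lit 241)) (PT.lf (nat_lit 43776) (nat_lit 6) (nat_lit 576) (nat_lit 0) (nat_lit 277) (nat_lit 263) (nat_lit 240))))) (PT.nd (nat_lit 312) (PT.nd (nat_lit 156) (PT.nd (nat_lit 78) (PT.lf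 (nat_lit 42180) (nat_lit 6) (nat_lit 555) (nat_lit 0) (nat_lit 278) (nat_lit 263) (nat_lit 239)) (PT.lf (nat_lit 40508) (nat_lit 6) (nat_lit 533) (nat_lit 0) (nat_lit 279) (nat_lit 263) (nat_lit 238))) (PT.nd (nat_lit 78) (PT.lf (nat_lit 38760) (nat_lit 6) (nat_lit 510) (nat_lit 0) (nat_lit 280) (nat_lit 263) (nat_lit 237)) (PT.lf (nat_lit 36936) (nat_lit 6) (nat_lit 486) (nat_lit 0) (nat_lit 281) (nat_lit 263) (nat_lit 236)))) (PT.nd (nat_lit 156) (PT.nd (nat_lit 78) (PT.lf (nat_lit 35036) (nat_lit 6) (nat_lit 461) (nat_lit 0) (nat_lit 282) (nat_lit 263) (nat_lit 235)) (PT.lf (nat_lit 33896) (nat_lit 6) (nat_lit 446) (nat_lit 0) (nat_lit 283) (nat_lit 263) (nat_lit 234))) (PT.nd (nat_lit 78) (PT.lf (nat_lit 32908) (nat_lit 6) (nat_lit 433) (nat_lit 0) (nat_lit 284) (nat_lit 263) (nat_lit 233)) (PT.lf (nat_lit 31920) (nat_lit 6) (nat_lit 420) (nat_lit 0) (nat_lit 285) (nat_lit 263) (nat_lit 232)))))) (PT.nd (nat_lit 624) (PT.nd (nat_lit 312) (PT.nd (nat_lit 156) (PT.nd (nat_lit 78) (PT.lf (nat_lit 30172)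 (nat_lit 6) (nat_lit 397) (nat_lit 5) (nat_lit 230) (nat_lit 264) (nat_lit 286)) (PT.lf (nat_lit 31084) (nat_lit 6) (nat_lit 409) (nat_lit 5) (nat_lit 231) (nat_lit 264) (nat_lit 285))) (PT.nd (nat_lit 78) (PT.lf (nat_lit 31996) (nat_lit 6) (nat_lit 421) (nat_lit 5) (nat_lit 232) (nat_lit 264) (nat_lit 284)) (PT.lf (nat_lit 32984) (nat_lit 6) (nat_lit 434) (nat_lit 5) (nat_lit 233) (nat_lit 264) (nat_lit 283)))) (PT.nd (nat_lit 156) (PT.nd (nat_lit 78) (PT.lf (nat_lit 33972) (nat_lit 6) (nat_lit 447) (nat_lit 5) (nat_lit 234) (nat_lit 264) (nat_lit 282)) (PT.lf (nat_lit 35112) (nat_lit 6) (nat_lit 462) (nat_lit 5) (nat_lit 235) (nat_lit 264) (nat_lit 281))) (PT.nd (nat_lit 78) (PT.lf (nat_lit 37012) (nat_lit 6) (nat_lit 487) (nat_lit 5) (nat_lit 236) (nat_lit 264) (nat_lit 280)) (PT.lf (nat_lit 38836) (nat_lit 6) (nat_lit 511) (nat_lit 5) (nat_lit 237) (nat_lit 264) (nat_lit 279))))) (PT.nd (nat_lit 312) (PT.nd (nat_lit 156) (PT.nd (nat_lit 78) (PT.lf (nat_lit 40584) (nat_lit 6) (nat_lit 534) (nat_lit 5)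 (nat_lit 238) (nat_lit 264) (nat_lit 278)) (PT.lf (nat_lit 42256) (nat_lit 6) (nat_lit 556) (nat_lit 5) (nat_lit 239) (nat_lit 264) (nat_lit 277))) (PT.nd (nat_lit 78) (PT.lf (nat_lit 43852) (nat_lit 6) (nat_lit 577) (nat_lit 5) (nat_lit 240) (nat_lit 264) (nat_lit 276)) (PT.lf (nat_lit 45372) (nat_lit 6) (nat_lit 597) (nat_lit 5) (nat_lit 241) (nat_lit 264) (nat_lit 275)))) (PT.nd (nat_lit 156) (PT.nd (nat_lit 78) (PT.lf (nat_lit 46816) (nat_lit 6) (nat_lit 616) (nat_lit 5) (nat_lit 242) (nat_lit 264) (nat_lit 274)) (PT.lf (nat_lit 48184) (nat_lit 6) (nat_lit 634) (nat_lit 5) (nat_lit 243) (nat_lit 264) (nat_lit 273))) (PT.nd (nat_lit 78) (PT.lf (nat_lit 49476) (nat_lit 6) (nat_lit 651) (nat_lit 5) (nat_lit 244) (nat_lit 264) (nat_lit 272)) (PT.lf (nat_lit 50692) (nat_lit 6) (nat_lit 667) (nat_lit 5) (nat_lit 245) (nat_lit 264) (nat_lit 271))))))) (PT.nd (nat_lit 1170) (PT.nd (nat_lit 546) (PT.nd (nat_lit 234) (PT.nd (nat_lit 78) (PT.lf (nat_lit 51832) (nat_lit 6) (nat_lit 682) (nat_lit 5) (nat_lit 246)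 (nat_lit 264) (nat_lit 270)) (PT.nd (nat_lit 78) (PT.lf (nat_lit 52896) (nat_lit 6) (nat_lit 696) (nat_lit 5) (nat_lit 247) (nat_lit 264) (nat_lit 269)) (PT.lf (nat_lit 53884) (nat_lit 6) (nat_lit 709) (nat_lit 5) (nat_lit 248) (nat_lit 264) (nat_lit 268)))) (PT.nd (nat_lit 156) (PT.nd (nat_lit 78) (PT.lf (nat_lit 54796) (nat_lit 6) (nat_lit 721) (nat_lit 5) (nat_lit 249) (nat_lit 264) (nat_lit 267)) (PT.lf (nat_lit 55632) (nat_lit 6) (nat_lit 732) (nat_lit 5) (nat_lit 250) (nat_lit 264) (nat_lit 266))) (PT.nd (nat_lit 78) (PT.lf (nat_lit 56392) (nat_lit 6) (nat_lit 742) (nat_lit 5) (nat_lit 251) (nat_lit 264) (nat_lit 265)) (PT.lf (nat_lit 57076) (nat_lit 3) (nat_lit 751) (nat_lit 4) (nat_lit 252) (nat_lit 264) (nat_lit 264))))) (PT.nd (nat_lit 312) (PT.nd (nat_lit 156) (PT.nd (nat_lit 78) (PT.lf (nat_lit 57608) (nat_lit 6) (nat_lit 758) (nat_lit 4) (nat_lit 253) (nat_lit 264) (nat_lit 263)) (PT.lf (nat_lit 58064) (nat_lit 6) (nat_lit 764) (nat_lit 4) (nat_lit 254) (nat_lit 264) (nat_lit 262))) (PT.nd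 (nat_lit 78) (PT.lf (nat_lit 58444) (nat_lit 6) (nat_lit 769) (nat_lit 4) (nat_lit 255) (nat_lit 264) (nat_lit 261)) (PT.lf (nat_lit 58748) (nat_lit 6) (nat_lit 773) (nat_lit 4) (nat_lit 256) (nat_lit 264) (nat_lit 260)))) (PT.nd (nat_lit 156) (PT.nd (nat_lit 78) (PT.lf (nat_lit 58672) (nat_lit 6) (nat_lit 772) (nat_lit 4) (nat_lit 257) (nat_lit 264) (nat_lit 259)) (PT.lf (nat_lit 58596) (nat_lit 3) (nat_lit 771) (nat_lit 2) (nat_lit 258) (nat_lit 264) (nat_lit 258))) (PT.nd (nat_lit 78) (PT.lf (nat_lit 58672) (nat_lit 6) (nat_lit 772) (nat_lit 2) (nat_lit 259) (nat_lit 264) (nat_lit 257)) (PT.lf (nat_lit 58748) (nat_lit 6) (nat_lit 773) (nat_lit 2) (nat_lit 260) (nat_lit 264) (nat_lit 256)))))) (PT.nd (nat_lit 624) (PT.nd (nat_lit 312) (PT.nd (nat_lit 156) (PT.nd (nat_lit 78) (PT.lf (nat_lit 58444) (nat_lit 6) (nat_lit 769) (nat_lit 2) (nat_lit 261) (nat_lit 264) (nat_lit 255)) (PT.lf (nat_lit 58064) (nat_lit 6) (nat_lit 764) (nat_lit 2) (nat_lit 262) (nat_lit 264) (nat_lit 254))) (PT.nd (nat_lit 78) (PT.lf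 (nat_lit 57608) (nat_lit 6) (nat_lit 758) (nat_lit 2) (nat_lit 263) (nat_lit 264) (nat_lit 253)) (PT.lf (nat_lit 57076) (nat_lit 3) (nat_lit 751) (nat_lit 0) (nat_lit 264) (nat_lit 264) (nat_lit 252)))) (PT.nd (nat_lit 156) (PT.nd (nat_lit 78) (PT.lf (nat_lit 56392) (nat_lit 6) (nat_lit 742) (nat_lit 0) (nat_lit 265) (nat_lit 264) (nat_lit 251)) (PT.lf (nat_lit 55632) (nat_lit 6) (nat_lit 732) (nat_lit 0) (nat_lit 266) (nat_lit 264) (nat_lit 250))) (PT.nd (nat_lit 78) (PT.lf (nat_lit 54796) (nat_lit 6) (nat_lit 721) (nat_lit 0) (nat_lit 267) (nat_lit 264) (nat_lit 249)) (PT.lf (nat_lit 53884) (nat_lit 6) (nat_lit 709) (nat_lit 0) (nat_lit 268) (nat_lit 264) (nat_lit 248))))) (PT.nd (nat_lit 312) (PT.nd (nat_lit 156) (PT.nd (nat_lit 78) (PT.lf (nat_lit 52896) (nat_lit 6) (nat_lit 696) (nat_lit 0) (nat_lit 269) (nat_lit 264) (nat_lit 247)) (PT.lf (nat_lit 51832) (nat_lit 6) (nat_lit 682) (nat_lit 0) (nat_lit 270) (nat_lit 264) (nat_lit 246))) (PT.nd (nat_lit 78) (PT.lf (nat_lit 50692) (nat_lit 6) (nat_lit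 667) (nat_lit 0) (nat_lit 271) (nat_lit 264) (nat_lit 245)) (PT.lf (nat_lit 49476) (nat_lit 6) (nat_lit 651) (nat_lit 0) (nat_lit 272) (nat_lit 264) (nat_lit 244)))) (PT.nd (nat_lit 156) (PT.nd (nat_lit 78) (PT.lf (nat_lit 48184) (nat_lit 6) (nat_lit 634) (nat_lit 0) (nat_lit 273) (nat_lit 264) (nat_lit 243)) (PT.lf (nat_lit 46816) (nat_lit 6) (nat_lit 616) (nat_lit 0) (nat_lit 274) (nat_lit 264) (nat_lit 242))) (PT.nd (nat_lit 78) (PT.lf (nat_lit 45372) (nat_lit 6) (nat_lit 597) (nat_lit 0) (nat_lit 275) (nat_lit 264) (nat_lit 241)) (PT.lf (nat_lit 43852) (nat_lit 6) (nat_lit 577) (nat_lit 0) (nat_lit 276) (nat_lit 264) (nat_lit 240))))))))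
noncomputable def pc30 : PT := (PT.nd (nat_lit 79092) (PT.nd (nat_lit 77844) (PT.nd (nat_lit 546) (PT.nd (nat_lit 234) (PT.nd (nat_lit 78) (PT.lf (nat_lit 42256) (nat_lit 6) (nat_lit 556) (nat_lit 0) (nat_lit 277) (nat_lit 264) (nat_lit 239)) (PT.nd (nat_lit 78) (PT.lf (nat_lit 40584) (nat_lit 6) (nat_lit 534) (nat_lit 0) (nat_lit 278) (nat_lit 264) (nat_lit 238)) (PT.lf (nat_lit 38836) (nat_lit 6) (nat_lit 511) (nat_lit 0) (nat_lit 279) (nat_lit 264) (nat_lit 237)))) (PT.nd (nat_lit 156) (PT.nd (nat_lit 78) (PT.lf (nat_lit 37012) (nat_lit 6) (nat_lit 487) (nat_lit 0) (nat_lit 280) (nat_lit 264) (nat_lit 236)) (PT.lf (nat_lit 35112) (nat_lit 6) (nat_lit 462) (nat_lit 0) (nat_lit 281) (nat_lit 264) (nat_lit 235))) (PT.nd (nat_lit 78) (PT.lf (nat_lit 33972) (nat_lit 6) (nat_lit 447) (nat_lit 0) (nat_lit 282) (nat_lit 264) (nat_lit 234)) (PT.lf (nat_lit 32984) (nat_lit 6) (nat_lit 434) (nat_lit 0) (nat_lit 283) (nat_lit 264) (nat_lit 233))))) (PT.nd (nat_lit 76986) (PT.nd (nat_lit 156) (PT.nd (nat_lit 78)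 (PT.lf (nat_lit 31996) (nat_lit 6) (nat_lit 421) (nat_lit 0) (nat_lit 284) (nat_lit 264) (nat_lit 232)) (PT.lf (nat_lit 31084) (nat_lit 6) (nat_lit 409) (nat_lit 0) (nat_lit 285) (nat_lit 264) (nat_lit 231))) (PT.nd (nat_lit 76752) (PT.lf (nat_lit 30172) (nat_lit 6) (nat_lit 397) (nat_lit 0) (nat_lit 286) (nat_lit 264) (nat_lit 230)) (PT.lf (nat_lit 29336) (nat_lit 6) (nat_lit 386) (nat_lit 5) (nat_lit 229) (nat_lit 265) (nat_lit 286)))) (PT.nd (nat_lit 156) (PT.nd (nat_lit 78) (PT.lf (nat_lit 30248) (nat_lit 6) (nat_lit 398) (nat_lit 5) (nat_lit 230) (nat_lit 265) (nat_lit 285)) (PT.lf (nat_lit 31160) (nat_lit 6) (nat_lit 410) (nat_lit 5) (nat_lit 231) (nat_lit 265) (nat_lit 284))) (PT.nd (nat_lit 78) (PT.lf (nat_lit 32072) (nat_lit 6) (nat_lit 422) (nat_lit 5) (nat_lit 232) (nat_lit 265) (nat_lit 283)) (PT.lf (nat_lit 33060) (nat_lit 6) (nat_lit 435) (nat_lit 5) (nat_lit 233) (nat_lit 265) (nat_lit 282)))))) (PT.nd (nat_lit 624) (PT.nd (nat_lit 312) (PT.nd (nat_lit 156) (PT.nd (nat_lit 78) (PT.lf (nat_lit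 34048) (nat_lit 6) (nat_lit 448) (nat_lit 5) (nat_lit 234) (nat_lit 265) (nat_lit 281)) (PT.lf (nat_lit 35188) (nat_lit 6) (nat_lit 463) (nat_lit 5) (nat_lit 235) (nat_lit 265) (nat_lit 280))) (PT.nd (nat_lit 78) (PT.lf (nat_lit 37088) (nat_lit 6) (nat_lit 488) (nat_lit 5) (nat_lit 236) (nat_lit 265) (nat_lit 279)) (PT.lf (nat_lit 38912) (nat_lit 6) (nat_lit 512) (nat_lit 5) (nat_lit 237) (nat_lit 265) (nat_lit 278)))) (PT.nd (nat_lit 156) (PT.nd (nat_lit 78) (PT.lf (nat_lit 40660) (nat_lit 6) (nat_lit 535) (nat_lit 5) (nat_lit 238) (nat_lit 265) (nat_lit 277)) (PT.lf (nat_lit 42332) (nat_lit 6) (nat_lit 557) (nat_lit 5) (nat_lit 239) (nat_lit 265) (nat_lit 276))) (PT.nd (nat_lit 78) (PT.lf (nat_lit 43928) (nat_lit 6) (nat_lit 578) (nat_lit 5) (nat_lit 240) (nat_lit 265) (nat_lit 275)) (PT.lf (nat_lit 45448) (nat_lit 6) (nat_lit 598) (nat_lit 5) (nat_lit 241) (nat_lit 265) (nat_lit 274))))) (PT.nd (nat_lit 312) (PT.nd (nat_lit 156) (PT.nd (nat_lit 78) (PT.lf (nat_lit 46892) (nat_lit 6) (nat_lit 617) (nat_lit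 5) (nat_lit 242) (nat_lit 265) (nat_lit 273)) (PT.lf (nat_lit 48260) (nat_lit 6) (nat_lit 635) (nat_lit 5) (nat_lit 243) (nat_lit 265) (nat_lit 272))) (PT.nd (nat_lit 78) (PT.lf (nat_lit 49552) (nat_lit 6) (nat_lit 652) (nat_lit 5) (nat_lit 244) (nat_lit 265) (nat_lit 271)) (PT.lf (nat_lit 50768) (nat_lit 6) (nat_lit 668) (nat_lit 5) (nat_lit 245) (nat_lit 265) (nat_lit 270)))) (PT.nd (nat_lit 156) (PT.nd (nat_lit 78) (PT.lf (nat_lit 51908) (nat_lit 6) (nat_lit 683) (nat_lit 5) (nat_lit 246) (nat_lit 265) (nat_lit 269)) (PT.lf (nat_lit 52972) (nat_lit 6) (nat_lit 697) (nat_lit 5) (nat_lit 247) (nat_lit 265) (nat_lit 268))) (PT.nd (nat_lit 78) (PT.lf (nat_lit 53960) (nat_lit 6) (nat_lit 710) (nat_lit 5) (nat_lit 248) (nat_lit 265) (nat_lit 267)) (PT.lf (nat_lit 54872) (nat_lit 6) (nat_lit 722) (nat_lit 5) (nat_lit 249) (nat_lit 265) (nat_lit 266))))))) (PT.nd (nat_lit 1170) (PT.nd (nat_lit 546) (PT.nd (nat_lit 234) (PT.nd (nat_lit 78) (PT.lf (nat_lit 55708) (nat_lit 3) (nat_lit 733) (nat_lit 4) (nat_lit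 250) (nat_lit 265) (nat_lit 265)) (PT.nd (nat_lit 78) (PT.lf (nat_lit 56392) (nat_lit 6) (nat_lit 742) (nat_lit 4) (nat_lit 251) (nat_lit 265) (nat_lit 264)) (PT.lf (nat_lit 57000) (nat_lit 6) (nat_lit 750) (nat_lit 4) (nat_lit 252) (nat_lit 265) (nat_lit 263)))) (PT.nd (nat_lit 156) (PT.nd (nat_lit 78) (PT.lf (nat_lit 57532) (nat_lit 6) (nat_lit 757) (nat_lit 4) (nat_lit 253) (nat_lit 265) (nat_lit 262)) (PT.lf (nat_lit 57988) (nat_lit 6) (nat_lit 763) (nat_lit 4) (nat_lit 254) (nat_lit 265) (nat_lit 261))) (PT.nd (nat_lit 78) (PT.lf (nat_lit 58368) (nat_lit 6) (nat_lit 768) (nat_lit 4) (nat_lit 255) (nat_lit 265) (nat_lit 260)) (PT.lf (nat_lit 58292) (nat_lit 6) (nat_lit 767) (nat_lit 4) (nat_lit 256) (nat_lit 265) (nat_lit 259))))) (PT.nd (nat_lit 312) (PT.nd (nat_lit 156) (PT.nd (nat_lit 78) (PT.lf (nat_lit 58216) (nat_lit 6) (nat_lit 766) (nat_lit 4) (nat_lit 257) (nat_lit 265) (nat_lit 258)) (PT.lf (nat_lit 58216) (nat_lit 6) (nat_lit 766) (nat_lit 2) (nat_lit 258) (nat_lit 265) (nat_lit 257))) (PT.nd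 (nat_lit 78) (PT.lf (nat_lit 58292) (nat_lit 6) (nat_lit 767) (nat_lit 2) (nat_lit 259) (nat_lit 265) (nat_lit 256)) (PT.lf (nat_lit 58368) (nat_lit 6) (nat_lit 768) (nat_lit 2) (nat_lit 260) (nat_lit 265) (nat_lit 255)))) (PT.nd (nat_lit 156) (PT.nd (nat_lit 78) (PT.lf (nat_lit 57988) (nat_lit 6) (nat_lit 763) (nat_lit 2) (nat_lit 261) (nat_lit 265) (nat_lit 254)) (PT.lf (nat_lit 57532) (nat_lit 6) (nat_lit 757) (nat_lit 2) (nat_lit 262) (nat_lit 265) (nat_lit 253))) (PT.nd (nat_lit 78) (PT.lf (nat_lit 57000) (nat_lit 6) (nat_lit 750) (nat_lit 2) (nat_lit 263) (nat_lit 265) (nat_lit 252)) (PT.lf (nat_lit 56392) (nat_lit 6) (nat_lit 742) (nat_lit 2) (nat_lit 264) (nat_lit 265) (nat_lit 251)))))) (PT.nd (nat_lit 624) (PT.nd (nat_lit 312) (PT.nd (nat_lit 156) (PT.nd (nat_lit 78) (PT.lf (nat_lit 55708) (nat_lit 3) (nat_lit 733) (nat_lit 0) (nat_lit 265) (nat_lit 265) (nat_lit 250)) (PT.lf (nat_lit 54872) (nat_lit 6) (nat_lit 722) (nat_lit 0) (nat_lit 266) (nat_lit 265) (nat_lit 249))) (PT.nd (nat_lit 78) (PT.lf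 (nat_lit 53960) (nat_lit 6) (nat_lit 710) (nat_lit 0) (nat_lit 267) (nat_lit 265) (nat_lit 248)) (PT.lf (nat_lit 52972) (nat_lit 6) (nat_lit 697) (nat_lit 0) (nat_lit 268) (nat_lit 265) (nat_lit 247)))) (PT.nd (nat_lit 156) (PT.nd (nat_lit 78) (PT.lf (nat_lit 51908) (nat_lit 6) (nat_lit 683) (nat_lit 0) (nat_lit 269) (nat_lit 265) (nat_lit 246)) (PT.lf (nat_lit 50768) (nat_lit 6) (nat_lit 668) (nat_lit 0) (nat_lit 270) (nat_lit 265) (nat_lit 245))) (PT.nd (nat_lit 78) (PT.lf (nat_lit 49552) (nat_lit 6) (nat_lit 652) (nat_lit 0) (nat_lit 271) (nat_lit 265) (nat_lit 244)) (PT.lf (nat_lit 48260) (nat_lit 6) (nat_lit 635) (nat_lit 0) (nat_lit 272) (nat_lit 265) (nat_lit 243))))) (PT.nd (nat_lit 312) (PT.nd (nat_lit 156) (PT.nd (nat_lit 78) (PT.lf (nat_lit 46892) (nat_lit 6) (nat_lit 617) (nat_lit 0) (nat_lit 273) (nat_lit 265) (nat_lit 242)) (PT.lf (nat_lit 45448) (nat_lit 6) (nat_lit 598) (nat_lit 0) (nat_lit 274) (nat_lit 265) (nat_lit 241))) (PT.nd (nat_lit 78) (PT.lf (nat_lit 43928) (nat_lit 6) (nat_lit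 578) (nat_lit 0) (nat_lit 275) (nat_lit 265) (nat_lit 240)) (PT.lf (nat_lit 42332) (nat_lit 6) (nat_lit 557) (nat_lit 0) (nat_lit 276) (nat_lit 265) (nat_lit 239)))) (PT.nd (nat_lit 156) (PT.nd (nat_lit 78) (PT.lf (nat_lit 40660) (nat_lit 6) (nat_lit 535) (nat_lit 0) (nat_lit 277) (nat_lit 265) (nat_lit 238)) (PT.lf (nat_lit 38912) (nat_lit 6) (nat_lit 512) (nat_lit 0) (nat_lit 278) (nat_lit 265) (nat_lit 237))) (PT.nd (nat_lit 78) (PT.lf (nat_lit 37088) (nat_lit 6) (nat_lit 488) (nat_lit 0) (nat_lit 279) (nat_lit 265) (nat_lit 236)) (PT.lf (nat_lit 35188) (nat_lit 6) (nat_lit 463) (nat_lit 0) (nat_lit 280) (nat_lit 265) (nat_lit 235))))))))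
noncomputable def pc31 : PT := (PT.nd (nat_lit 79014) (PT.nd (nat_lit 77766) (PT.nd (nat_lit 77142) (PT.nd (nat_lit 234) (PT.nd (nat_lit 78) (PT.lf (nat_lit 34048) (nat_lit 6) (nat_lit 448) (nat_lit 0) (nat_lit 281) (nat_lit 265) (nat_lit 234)) (PT.nd (nat_lit 78) (PT.lf (nat_lit 33060) (nat_lit 6) (nat_lit 435) (nat_lit 0) (nat_lit 282) (nat_lit 265) (nat_lit 233)) (PT.lf (nat_lit 32072) (nat_lit 6) (nat_lit 422) (nat_lit 0) (nat_lit 283) (nat_lit 265) (nat_lit 232)))) (PT.nd (nat_lit 156) (PT.nd (nat_lit 78) (PT.lf (nat_lit 31160) (nat_lit 6) (nat_lit 410) (nat_lit 0) (nat_lit 284) (nat_lit 265) (nat_lit 231)) (PT.lf (nat_lit 30248) (nat_lit 6) (nat_lit 398) (nat_lit 0) (nat_lit 285) (nat_lit 265) (nat_lit 230))) (PT.nd (nat_lit 76674) (PT.lf (nat_lit 29336) (nat_lit 6) (nat_lit 386) (nat_lit 0) (nat_lit 286) (nat_lit 265) (nat_lit 229)) (PT.lf (nat_lit 28500) (nat_lit 6) (nat_lit 375) (nat_lit 5) (nat_lit 228) (nat_lit 266) (nat_lit 286))))) (PT.nd (nat_lit 312) (PT.nd (nat_lit 156) (PT.nd (nat_lit 78)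 (PT.lf (nat_lit 29412) (nat_lit 6) (nat_lit 387) (nat_lit 5) (nat_lit 229) (nat_lit 266) (nat_lit 285)) (PT.lf (nat_lit 30324) (nat_lit 6) (nat_lit 399) (nat_lit 5) (nat_lit 230) (nat_lit 266) (nat_lit 284))) (PT.nd (nat_lit 78) (PT.lf (nat_lit 31236) (nat_lit 6) (nat_lit 411) (nat_lit 5) (nat_lit 231) (nat_lit 266) (nat_lit 283)) (PT.lf (nat_lit 32148) (nat_lit 6) (nat_lit 423) (nat_lit 5) (nat_lit 232) (nat_lit 266) (nat_lit 282)))) (PT.nd (nat_lit 156) (PT.nd (nat_lit 78) (PT.lf (nat_lit 33136) (nat_lit 6) (nat_lit 436) (nat_lit 5) (nat_lit 233) (nat_lit 266) (nat_lit 281)) (PT.lf (nat_lit 34124) (nat_lit 6) (nat_lit 449) (nat_lit 5) (nat_lit 234) (nat_lit 266) (nat_lit 280))) (PT.nd (nat_lit 78) (PT.lf (nat_lit 35264) (nat_lit 6) (nat_lit 464) (nat_lit 5) (nat_lit 235) (nat_lit 266) (nat_lit 279)) (PT.lf (nat_lit 37164) (nat_lit 6) (nat_lit 489) (nat_lit 5) (nat_lit 236) (nat_lit 266) (nat_lit 278)))))) (PT.nd (nat_lit 624) (PT.nd (nat_lit 312) (PT.nd (nat_lit 156) (PT.nd (nat_lit 78) (PT.lf (nat_lit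 38988) (nat_lit 6) (nat_lit 513) (nat_lit 5) (nat_lit 237) (nat_lit 266) (nat_lit 277)) (PT.lf (nat_lit 40736) (nat_lit 6) (nat_lit 536) (nat_lit 5) (nat_lit 238) (nat_lit 266) (nat_lit 276))) (PT.nd (nat_lit 78) (PT.lf (nat_lit 42408) (nat_lit 6) (nat_lit 558) (nat_lit 5) (nat_lit 239) (nat_lit 266) (nat_lit 275)) (PT.lf (nat_lit 44004) (nat_lit 6) (nat_lit 579) (nat_lit 5) (nat_lit 240) (nat_lit 266) (nat_lit 274)))) (PT.nd (nat_lit 156) (PT.nd (nat_lit 78) (PT.lf (nat_lit 45524) (nat_lit 6) (nat_lit 599) (nat_lit 5) (nat_lit 241) (nat_lit 266) (nat_lit 273)) (PT.lf (nat_lit 46968) (nat_lit 6) (nat_lit 618) (nat_lit 5) (nat_lit 242) (nat_lit 266) (nat_lit 272))) (PT.nd (nat_lit 78) (PT.lf (nat_lit 48336) (nat_lit 6) (nat_lit 636) (nat_lit 5) (nat_lit 243) (nat_lit 266) (nat_lit 271)) (PT.lf (nat_lit 49628) (nat_lit 6) (nat_lit 653) (nat_lit 5) (nat_lit 244) (nat_lit 266) (nat_lit 270))))) (PT.nd (nat_lit 312) (PT.nd (nat_lit 156) (PT.nd (nat_lit 78) (PT.lf (nat_lit 50844) (nat_lit 6) (nat_lit 669) (nat_lit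 5) (nat_lit 245) (nat_lit 266) (nat_lit 269)) (PT.lf (nat_lit 51984) (nat_lit 6) (nat_lit 684) (nat_lit 5) (nat_lit 246) (nat_lit 266) (nat_lit 268))) (PT.nd (nat_lit 78) (PT.lf (nat_lit 53048) (nat_lit 6) (nat_lit 698) (nat_lit 5) (nat_lit 247) (nat_lit 266) (nat_lit 267)) (PT.lf (nat_lit 54036) (nat_lit 3) (nat_lit 711) (nat_lit 4) (nat_lit 248) (nat_lit 266) (nat_lit 266)))) (PT.nd (nat_lit 156) (PT.nd (nat_lit 78) (PT.lf (nat_lit 54872) (nat_lit 6) (nat_lit 722) (nat_lit 4) (nat_lit 249) (nat_lit 266) (nat_lit 265)) (PT.lf (nat_lit 55632) (nat_lit 6) (nat_lit 732) (nat_lit 4) (nat_lit 250) (nat_lit 266) (nat_lit 264))) (PT.nd (nat_lit 78) (PT.lf (nat_lit 56316) (nat_lit 6) (nat_lit 741) (nat_lit 4) (nat_lit 251) (nat_lit 266) (nat_lit 263)) (PT.lf (nat_lit 56924) (nat_lit 6) (nat_lit 749) (nat_lit 4) (nat_lit 252) (nat_lit 266) (nat_lit 262))))))) (PT.nd (nat_lit 1170) (PT.nd (nat_lit 546) (PT.nd (nat_lit 234) (PT.nd (nat_lit 78) (PT.lf (nat_lit 57456) (nat_lit 6) (nat_lit 756) (nat_lit 4) (nat_lit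 253) (nat_lit 266) (nat_lit 261)) (PT.nd (nat_lit 78) (PT.lf (nat_lit 57912) (nat_lit 6) (nat_lit 762) (nat_lit 4) (nat_lit 254) (nat_lit 266) (nat_lit 260)) (PT.lf (nat_lit 57836) (nat_lit 6) (nat_lit 761) (nat_lit 4) (nat_lit 255) (nat_lit 266) (nat_lit 259)))) (PT.nd (nat_lit 156) (PT.nd (nat_lit 78) (PT.lf (nat_lit 57760) (nat_lit 6) (nat_lit 760) (nat_lit 4) (nat_lit 256) (nat_lit 266) (nat_lit 258)) (PT.lf (nat_lit 57684) (nat_lit 3) (nat_lit 759) (nat_lit 2) (nat_lit 257) (nat_lit 266) (nat_lit 257))) (PT.nd (nat_lit 78) (PT.lf (nat_lit 57760) (nat_lit 6) (nat_lit 760) (nat_lit 2) (nat_lit 258) (nat_lit 266) (nat_lit 256)) (PT.lf (nat_lit 57836) (nat_lit 6) (nat_lit 761) (nat_lit 2) (nat_lit 259) (nat_lit 266) (nat_lit 255))))) (PT.nd (nat_lit 312) (PT.nd (nat_lit 156) (PT.nd (nat_lit 78) (PT.lf (nat_lit 57912) (nat_lit 6) (nat_lit 762) (nat_lit 2) (nat_lit 260) (nat_lit 266) (nat_lit 254)) (PT.lf (nat_lit 57456) (nat_lit 6) (nat_lit 756) (nat_lit 2) (nat_lit 261) (nat_lit 266) (nat_lit 253))) (PT.nd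 (nat_lit 78) (PT.lf (nat_lit 56924) (nat_lit 6) (nat_lit 749) (nat_lit 2) (nat_lit 262) (nat_lit 266) (nat_lit 252)) (PT.lf (nat_lit 56316) (nat_lit 6) (nat_lit 741) (nat_lit 2) (nat_lit 263) (nat_lit 266) (nat_lit 251)))) (PT.nd (nat_lit 156) (PT.nd (nat_lit 78) (PT.lf (nat_lit 55632) (nat_lit 6) (nat_lit 732) (nat_lit 2) (nat_lit 264) (nat_lit 266) (nat_lit 250)) (PT.lf (nat_lit 54872) (nat_lit 6) (nat_lit 722) (nat_lit 2) (nat_lit 265) (nat_lit 266) (nat_lit 249))) (PT.nd (nat_lit 78) (PT.lf (nat_lit 54036) (nat_lit 3) (nat_lit 711) (nat_lit 0) (nat_lit 266) (nat_lit 266) (nat_lit 248)) (PT.lf (nat_lit 53048) (nat_lit 6) (nat_lit 698) (nat_lit 0) (nat_lit 267) (nat_lit 266) (nat_lit 247)))))) (PT.nd (nat_lit 624) (PT.nd (nat_lit 312) (PT.nd (nat_lit 156) (PT.nd (nat_lit 78) (PT.lf (nat_lit 51984) (nat_lit 6) (nat_lit 684) (nat_lit 0) (nat_lit 268) (nat_lit 266) (nat_lit 246)) (PT.lf (nat_lit 50844) (nat_lit 6) (nat_lit 669) (nat_lit 0) (nat_lit 269) (nat_lit 266) (nat_lit 245))) (PT.nd (nat_lit 78) (PT.lf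 (nat_lit 49628) (nat_lit 6) (nat_lit 653) (nat_lit 0) (nat_lit 270) (nat_lit 266) (nat_lit 244)) (PT.lf (nat_lit 48336) (nat_lit 6) (nat_lit 636) (nat_lit 0) (nat_lit 271) (nat_lit 266) (nat_lit 243)))) (PT.nd (nat_lit 156) (PT.nd (nat_lit 78) (PT.lf (nat_lit 46968) (nat_lit 6) (nat_lit 618) (nat_lit 0) (nat_lit 272) (nat_lit 266) (nat_lit 242)) (PT.lf (nat_lit 45524) (nat_lit 6) (nat_lit 599) (nat_lit 0) (nat_lit 273) (nat_lit 266) (nat_lit 241))) (PT.nd (nat_lit 78) (PT.lf (nat_lit 44004) (nat_lit 6) (nat_lit 579) (nat_lit 0) (nat_lit 274) (nat_lit 266) (nat_lit 240)) (PT.lf (nat_lit 42408) (nat_lit 6) (nat_lit 558) (nat_lit 0) (nat_lit 275) (nat_lit 266) (nat_lit 239))))) (PT.nd (nat_lit 312) (PT.nd (nat_lit 156) (PT.nd (nat_lit 78) (PT.lf (nat_lit 40736) (nat_lit 6) (nat_lit 536) (nat_lit 0) (nat_lit 276) (nat_lit 266) (nat_lit 238)) (PT.lf (nat_lit 38988) (nat_lit 6) (nat_lit 513) (nat_lit 0) (nat_lit 277) (nat_lit 266) (nat_lit 237))) (PT.nd (nat_lit 78) (PT.lf (nat_lit 37164) (nat_lit 6) (nat_lit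 489) (nat_lit 0) (nat_lit 278) (nat_lit 266) (nat_lit 236)) (PT.lf (nat_lit 35264) (nat_lit 6) (nat_lit 464) (nat_lit 0) (nat_lit 279) (nat_lit 266) (nat_lit 235)))) (PT.nd (nat_lit 156) (PT.nd (nat_lit 78) (PT.lf (nat_lit 34124) (nat_lit 6) (nat_lit 449) (nat_lit 0) (nat_lit 280) (nat_lit 266) (nat_lit 234)) (PT.lf (nat_lit 33136) (nat_lit 6) (nat_lit 436) (nat_lit 0) (nat_lit 281) (nat_lit 266) (nat_lit 233))) (PT.nd (nat_lit 78) (PT.lf (nat_lit 32148) (nat_lit 6) (nat_lit 423) (nat_lit 0) (nat_lit 282) (nat_lit 266) (nat_lit 232)) (PT.lf (nat_lit 31236) (nat_lit 6) (nat_lit 411) (nat_lit 0) (nat_lit 283) (nat_lit 266) (nat_lit 231))))))))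
noncomputable def pc32 : PT := (PT.nd (nat_lit 78858) (PT.nd (nat_lit 77688) (PT.nd (nat_lit 77064) (PT.nd (nat_lit 76752) (PT.nd (nat_lit 78) (PT.lf (nat_lit 30324) (nat_lit 6) (nat_lit 399) (nat_lit 0) (nat_lit 284) (nat_lit 266) (nat_lit 230)) (PT.nd (nat_lit 78) (PT.lf (nat_lit 29412) (nat_lit 6) (nat_lit 387) (nat_lit 0) (nat_lit 285) (nat_lit 266) (nat_lit 229)) (PT.lf (nat_lit 28500) (nat_lit 6) (nat_lit 375) (nat_lit 0) (nat_lit 286) (nat_lit 266) (nat_lit 228)))) (PT.nd (nat_lit 156) (PT.nd (nat_lit 78) (PT.lf (nat_lit 27740) (nat_lit 6) (nat_lit 365) (nat_lit 5) (nat_lit 227) (nat_lit 267) (nat_lit 286)) (PT.lf (nat_lit 28576) (nat_lit 6) (nat_lit 376) (nat_lit 5) (nat_lit 228) (nat_lit 267) (nat_lit 285))) (PT.nd (nat_lit 78) (PT.lf (nat_lit 29488) (nat_lit 6) (nat_lit 388) (nat_lit 5) (nat_lit 229) (nat_lit 267) (nat_lit 284)) (PT.lf (nat_lit 30400) (nat_lit 6) (nat_lit 400) (nat_lit 5) (nat_lit 230) (nat_lit 267) (nat_lit 283))))) (PT.nd (nat_lit 312) (PT.nd (nat_lit 156) (PT.nd (nat_lit 78)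 (PT.lf (nat_lit 31312) (nat_lit 6) (nat_lit 412) (nat_lit 5) (nat_lit 231) (nat_lit 267) (nat_lit 282)) (PT.lf (nat_lit 32224) (nat_lit 6) (nat_lit 424) (nat_lit 5) (nat_lit 232) (nat_lit 267) (nat_lit 281))) (PT.nd (nat_lit 78) (PT.lf (nat_lit 33212) (nat_lit 6) (nat_lit 437) (nat_lit 5) (nat_lit 233) (nat_lit 267) (nat_lit 280)) (PT.lf (nat_lit 34200) (nat_lit 6) (nat_lit 450) (nat_lit 5) (nat_lit 234) (nat_lit 267) (nat_lit 279)))) (PT.nd (nat_lit 156) (PT.nd (nat_lit 78) (PT.lf (nat_lit 35340) (nat_lit 6) (nat_lit 465) (nat_lit 5) (nat_lit 235) (nat_lit 267) (nat_lit 278)) (PT.lf (nat_lit 37240) (nat_lit 6) (nat_lit 490) (nat_lit 5) (nat_lit 236) (nat_lit 267) (nat_lit 277))) (PT.nd (nat_lit 78) (PT.lf (nat_lit 39064) (nat_lit 6) (nat_lit 514) (nat_lit 5) (nat_lit 237) (nat_lit 267) (nat_lit 276)) (PT.lf (nat_lit 40812) (nat_lit 6) (nat_lit 537) (nat_lit 5) (nat_lit 238) (nat_lit 267) (nat_lit 275)))))) (PT.nd (nat_lit 546) (PT.nd (nat_lit 234) (PT.nd (nat_lit 78) (PT.lf (nat_lit 42484) (nat_lit 6)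 (nat_lit 559) (nat_lit 5) (nat_lit 239) (nat_lit 267) (nat_lit 274)) (PT.nd (nat_lit 78) (PT.lf (nat_lit 44080) (nat_lit 6) (nat_lit 580) (nat_lit 5) (nat_lit 240) (nat_lit 267) (nat_lit 273)) (PT.lf (nat_lit 45600) (nat_lit 6) (nat_lit 600) (nat_lit 5) (nat_lit 241) (nat_lit 267) (nat_lit 272)))) (PT.nd (nat_lit 156) (PT.nd (nat_lit 78) (PT.lf (nat_lit 47044) (nat_lit 6) (nat_lit 619) (nat_lit 5) (nat_lit 242) (nat_lit 267) (nat_lit 271)) (PT.lf (nat_lit 48412) (nat_lit 6) (nat_lit 637) (nat_lit 5) (nat_lit 243) (nat_lit 267) (nat_lit 270))) (PT.nd (nat_lit 78) (PT.lf (nat_lit 49704) (nat_lit 6) (nat_lit 654) (nat_lit 5) (nat_lit 244) (nat_lit 267) (nat_lit 269)) (PT.lf (nat_lit 50920) (nat_lit 6) (nat_lit 670) (nat_lit 5) (nat_lit 245) (nat_lit 267) (nat_lit 268))))) (PT.nd (nat_lit 312) (PT.nd (nat_lit 156) (PT.nd (nat_lit 78) (PT.lf (nat_lit 52060) (nat_lit 3) (nat_lit 685) (nat_lit 4) (nat_lit 246) (nat_lit 267) (nat_lit 267)) (PT.lf (nat_lit 53048) (nat_lit 6) (nat_lit 698) (nat_lit 4) (nat_lit 247)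 (nat_lit 267) (nat_lit 266))) (PT.nd (nat_lit 78) (PT.lf (nat_lit 53960) (nat_lit 6) (nat_lit 710) (nat_lit 4) (nat_lit 248) (nat_lit 267) (nat_lit 265)) (PT.lf (nat_lit 54796) (nat_lit 6) (nat_lit 721) (nat_lit 4) (nat_lit 249) (nat_lit 267) (nat_lit 264)))) (PT.nd (nat_lit 156) (PT.nd (nat_lit 78) (PT.lf (nat_lit 55556) (nat_lit 6) (nat_lit 731) (nat_lit 4) (nat_lit 250) (nat_lit 267) (nat_lit 263)) (PT.lf (nat_lit 56240) (nat_lit 6) (nat_lit 740) (nat_lit 4) (nat_lit 251) (nat_lit 267) (nat_lit 262))) (PT.nd (nat_lit 78) (PT.lf (nat_lit 56848) (nat_lit 6) (nat_lit 748) (nat_lit 4) (nat_lit 252) (nat_lit 267) (nat_lit 261)) (PT.lf (nat_lit 57380) (nat_lit 6) (nat_lit 755) (nat_lit 4) (nat_lit 253) (nat_lit 267) (nat_lit 260))))))) (PT.nd (nat_lit 1170) (PT.nd (nat_lit 546) (PT.nd (nat_lit 234) (PT.nd (nat_lit 78) (PT.lf (nat_lit 57304) (nat_lit 6) (nat_lit 754) (nat_lit 4) (nat_lit 254) (nat_lit 267) (nat_lit 259)) (PT.nd (nat_lit 78) (PT.lf (nat_lit 57228) (nat_lit 6) (nat_lit 753) (nat_lit 4) (nat_lit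 255) (nat_lit 267) (nat_lit 258)) (PT.lf (nat_lit 57152) (nat_lit 6) (nat_lit 752) (nat_lit 4) (nat_lit 256) (nat_lit 267) (nat_lit 257)))) (PT.nd (nat_lit 156) (PT.nd (nat_lit 78) (PT.lf (nat_lit 57152) (nat_lit 6) (nat_lit 752) (nat_lit 2) (nat_lit 257) (nat_lit 267) (nat_lit 256)) (PT.lf (nat_lit 57228) (nat_lit 6) (nat_lit 753) (nat_lit 2) (nat_lit 258) (nat_lit 267) (nat_lit 255))) (PT.nd (nat_lit 78) (PT.lf (nat_lit 57304) (nat_lit 6) (nat_lit 754) (nat_lit 2) (nat_lit 259) (nat_lit 267) (nat_lit 254)) (PT.lf (nat_lit 57380) (nat_lit 6) (nat_lit 755) (nat_lit 2) (nat_lit 260) (nat_lit 267) (nat_lit 253))))) (PT.nd (nat_lit 312) (PT.nd (nat_lit 156) (PT.nd (nat_lit 78) (PT.lf (nat_lit 56848) (nat_lit 6) (nat_lit 748) (nat_lit 2) (nat_lit 261) (nat_lit 267) (nat_lit 252)) (PT.lf (nat_lit 56240) (nat_lit 6) (nat_lit 740) (nat_lit 2) (nat_lit 262) (nat_lit 267) (nat_lit 251))) (PT.nd (nat_lit 78) (PT.lf (nat_lit 55556) (nat_lit 6) (nat_lit 731) (nat_lit 2) (nat_lit 263) (nat_lit 267) (nat_lit 250)) (PT.lf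 (nat_lit 54796) (nat_lit 6) (nat_lit 721) (nat_lit 2) (nat_lit 264) (nat_lit 267) (nat_lit 249)))) (PT.nd (nat_lit 156) (PT.nd (nat_lit 78) (PT.lf (nat_lit 53960) (nat_lit 6) (nat_lit 710) (nat_lit 2) (nat_lit 265) (nat_lit 267) (nat_lit 248)) (PT.lf (nat_lit 53048) (nat_lit 6) (nat_lit 698) (nat_lit 2) (nat_lit 266) (nat_lit 267) (nat_lit 247))) (PT.nd (nat_lit 78) (PT.lf (nat_lit 52060) (nat_lit 3) (nat_lit 685) (nat_lit 0) (nat_lit 267) (nat_lit 267) (nat_lit 246)) (PT.lf (nat_lit 50920) (nat_lit 6) (nat_lit 670) (nat_lit 0) (nat_lit 268) (nat_lit 267) (nat_lit 245)))))) (PT.nd (nat_lit 624) (PT.nd (nat_lit 312) (PT.nd (nat_lit 156) (PT.nd (nat_lit 78) (PT.lf (nat_lit 49704) (nat_lit 6) (nat_lit 654) (nat_lit 0) (nat_lit 269) (nat_lit 267) (nat_lit 244)) (PT.lf (nat_lit 48412) (nat_lit 6) (nat_lit 637) (nat_lit 0) (nat_lit 270) (nat_lit 267) (nat_lit 243))) (PT.nd (nat_lit 78) (PT.lf (nat_lit 47044) (nat_lit 6) (nat_lit 619) (nat_lit 0) (nat_lit 271) (nat_lit 267) (nat_lit 242)) (PT.lf (nat_lit 45600)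 (nat_lit 6) (nat_lit 600) (nat_lit 0) (nat_lit 272) (nat_lit 267) (nat_lit 241)))) (PT.nd (nat_lit 156) (PT.nd (nat_lit 78) (PT.lf (nat_lit 44080) (nat_lit 6) (nat_lit 580) (nat_lit 0) (nat_lit 273) (nat_lit 267) (nat_lit 240)) (PT.lf (nat_lit 42484) (nat_lit 6) (nat_lit 559) (nat_lit 0) (nat_lit 274) (nat_lit 267) (nat_lit 239))) (PT.nd (nat_lit 78) (PT.lf (nat_lit 40812) (nat_lit 6) (nat_lit 537) (nat_lit 0) (nat_lit 275) (nat_lit 267) (nat_lit 238)) (PT.lf (nat_lit 39064) (nat_lit 6) (nat_lit 514) (nat_lit 0) (nat_lit 276) (nat_lit 267) (nat_lit 237))))) (PT.nd (nat_lit 312) (PT.nd (nat_lit 156) (PT.nd (nat_lit 78) (PT.lf (nat_lit 37240) (nat_lit 6) (nat_lit 490) (nat_lit 0) (nat_lit 277) (nat_lit 267) (nat_lit 236)) (PT.lf (nat_lit 35340) (nat_lit 6) (nat_lit 465) (nat_lit 0) (nat_lit 278) (nat_lit 267) (nat_lit 235))) (PT.nd (nat_lit 78) (PT.lf (nat_lit 34200) (nat_lit 6) (nat_lit 450) (nat_lit 0) (nat_lit 279) (nat_lit 267) (nat_lit 234)) (PT.lf (nat_lit 33212) (nat_lit 6) (nat_lit 437) (nat_lit 0)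 (nat_lit 280) (nat_lit 267) (nat_lit 233)))) (PT.nd (nat_lit 156) (PT.nd (nat_lit 78) (PT.lf (nat_lit 32224) (nat_lit 6) (nat_lit 424) (nat_lit 0) (nat_lit 281) (nat_lit 267) (nat_lit 232)) (PT.lf (nat_lit 31312) (nat_lit 6) (nat_lit 412) (nat_lit 0) (nat_lit 282) (nat_lit 267) (nat_lit 231))) (PT.nd (nat_lit 78) (PT.lf (nat_lit 30400) (nat_lit 6) (nat_lit 400) (nat_lit 0) (nat_lit 283) (nat_lit 267) (nat_lit 230)) (PT.lf (nat_lit 29488) (nat_lit 6) (nat_lit 388) (nat_lit 0) (nat_lit 284) (nat_lit 267) (nat_lit 229))))))))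
noncomputable def pc33 : PT := (PT.nd (nat_lit 78780) (PT.nd (nat_lit 77532) (PT.nd (nat_lit 76908) (PT.nd (nat_lit 76596) (PT.nd (nat_lit 78) (PT.lf (nat_lit 28576) (nat_lit 6) (nat_lit 376) (nat_lit 0) (nat_lit 285) (nat_lit 267) (nat_lit 228)) (PT.nd (nat_lit 76440) (PT.lf (nat_lit 27740) (nat_lit 6) (nat_lit 365) (nat_lit 0) (nat_lit 286) (nat_lit 267) (nat_lit 227)) (PT.lf (nat_lit 26220) (nat_lit 6) (nat_lit 345) (nat_lit 5) (nat_lit 225) (nat_lit 268) (nat_lit 287)))) (PT.nd (nat_lit 156) (PT.nd (nat_lit 78) (PT.lf (nat_lit 26980) (nat_lit 6) (nat_lit 355) (nat_lit 5) (nat_lit 226) (nat_lit 268) (nat_lit 286)) (PT.lf (nat_lit 27816) (nat_lit 6) (nat_lit 366) (nat_lit 5) (nat_lit 227) (nat_lit 268) (nat_lit 285))) (PT.nd (nat_lit 78) (PT.lf (nat_lit 28652) (nat_lit 6) (nat_lit 377) (nat_lit 5) (nat_lit 228) (nat_lit 268) (nat_lit 284)) (PT.lf (nat_lit 29564) (nat_lit 6) (nat_lit 389) (nat_lit 5) (nat_lit 229) (nat_lit 268) (nat_lit 283))))) (PT.nd (nat_lit 312) (PT.nd (nat_lit 156) (PT.nd (nat_lit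 78) (PT.lf (nat_lit 30476) (nat_lit 6) (nat_lit 401) (nat_lit 5) (nat_lit 230) (nat_lit 268) (nat_lit 282)) (PT.lf (nat_lit 31388) (nat_lit 6) (nat_lit 413) (nat_lit 5) (nat_lit 231) (nat_lit 268) (nat_lit 281))) (PT.nd (nat_lit 78) (PT.lf (nat_lit 32300) (nat_lit 6) (nat_lit 425) (nat_lit 5) (nat_lit 232) (nat_lit 268) (nat_lit 280)) (PT.lf (nat_lit 33288) (nat_lit 6) (nat_lit 438) (nat_lit 5) (nat_lit 233) (nat_lit 268) (nat_lit 279)))) (PT.nd (nat_lit 156) (PT.nd (nat_lit 78) (PT.lf (nat_lit 34276) (nat_lit 6) (nat_lit 451) (nat_lit 5) (nat_lit 234) (nat_lit 268) (nat_lit 278)) (PT.lf (nat_lit 35416) (nat_lit 6) (nat_lit 466) (nat_lit 5) (nat_lit 235) (nat_lit 268) (nat_lit 277))) (PT.nd (nat_lit 78) (PT.lf (nat_lit 37316) (nat_lit 6) (nat_lit 491) (nat_lit 5) (nat_lit 236) (nat_lit 268) (nat_lit 276)) (PT.lf (nat_lit 39140) (nat_lit 6) (nat_lit 515) (nat_lit 5) (nat_lit 237) (nat_lit 268) (nat_lit 275)))))) (PT.nd (nat_lit 624) (PT.nd (nat_lit 312) (PT.nd (nat_lit 156) (PT.nd (nat_lit 78) (PT.lf (nat_lit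 40888) (nat_lit 6) (nat_lit 538) (nat_lit 5) (nat_lit 238) (nat_lit 268) (nat_lit 274)) (PT.lf (nat_lit 42560) (nat_lit 6) (nat_lit 560) (nat_lit 5) (nat_lit 239) (nat_lit 268) (nat_lit 273))) (PT.nd (nat_lit 78) (PT.lf (nat_lit 44156) (nat_lit 6) (nat_lit 581) (nat_lit 5) (nat_lit 240) (nat_lit 268) (nat_lit 272)) (PT.lf (nat_lit 45676) (nat_lit 6) (nat_lit 601) (nat_lit 5) (nat_lit 241) (nat_lit 268) (nat_lit 271)))) (PT.nd (nat_lit 156) (PT.nd (nat_lit 78) (PT.lf (nat_lit 47120) (nat_lit 6) (nat_lit 620) (nat_lit 5) (nat_lit 242) (nat_lit 268) (nat_lit 270)) (PT.lf (nat_lit 48488) (nat_lit 6) (nat_lit 638) (nat_lit 5) (nat_lit 243) (nat_lit 268) (nat_lit 269))) (PT.nd (nat_lit 78) (PT.lf (nat_lit 49780) (nat_lit 3) (nat_lit 655) (nat_lit 4) (nat_lit 244) (nat_lit 268) (nat_lit 268)) (PT.lf (nat_lit 50920) (nat_lit 6) (nat_lit 670) (nat_lit 4) (nat_lit 245) (nat_lit 268) (nat_lit 267))))) (PT.nd (nat_lit 312) (PT.nd (nat_lit 156) (PT.nd (nat_lit 78) (PT.lf (nat_lit 51984) (nat_lit 6) (nat_lit 684) (nat_lit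 4) (nat_lit 246) (nat_lit 268) (nat_lit 266)) (PT.lf (nat_lit 52972) (nat_lit 6) (nat_lit 697) (nat_lit 4) (nat_lit 247) (nat_lit 268) (nat_lit 265))) (PT.nd (nat_lit 78) (PT.lf (nat_lit 53884) (nat_lit 6) (nat_lit 709) (nat_lit 4) (nat_lit 248) (nat_lit 268) (nat_lit 264)) (PT.lf (nat_lit 54720) (nat_lit 6) (nat_lit 720) (nat_lit 4) (nat_lit 249) (nat_lit 268) (nat_lit 263)))) (PT.nd (nat_lit 156) (PT.nd (nat_lit 78) (PT.lf (nat_lit 55480) (nat_lit 6) (nat_lit 730) (nat_lit 4) (nat_lit 250) (nat_lit 268) (nat_lit 262)) (PT.lf (nat_lit 56164) (nat_lit 6) (nat_lit 739) (nat_lit 4) (nat_lit 251) (nat_lit 268) (nat_lit 261))) (PT.nd (nat_lit 78) (PT.lf (nat_lit 56772) (nat_lit 6) (nat_lit 747) (nat_lit 4) (nat_lit 252) (nat_lit 268) (nat_lit 260)) (PT.lf (nat_lit 56696) (nat_lit 6) (nat_lit 746) (nat_lit 4) (nat_lit 253) (nat_lit 268) (nat_lit 259))))))) (PT.nd (nat_lit 1170) (PT.nd (nat_lit 546) (PT.nd (nat_lit 234) (PT.nd (nat_lit 78) (PT.lf (nat_lit 56620) (nat_lit 6) (nat_lit 745) (nat_lit 4) (nat_lit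 254) (nat_lit 268) (nat_lit 258)) (PT.nd (nat_lit 78) (PT.lf (nat_lit 56544) (nat_lit 6) (nat_lit 744) (nat_lit 4) (nat_lit 255) (nat_lit 268) (nat_lit 257)) (PT.lf (nat_lit 56468) (nat_lit 3) (nat_lit 743) (nat_lit 2) (nat_lit 256) (nat_lit 268) (nat_lit 256)))) (PT.nd (nat_lit 156) (PT.nd (nat_lit 78) (PT.lf (nat_lit 56544) (nat_lit 6) (nat_lit 744) (nat_lit 2) (nat_lit 257) (nat_lit 268) (nat_lit 255)) (PT.lf (nat_lit 56620) (nat_lit 6) (nat_lit 745) (nat_lit 2) (nat_lit 258) (nat_lit 268) (nat_lit 254))) (PT.nd (nat_lit 78) (PT.lf (nat_lit 56696) (nat_lit 6) (nat_lit 746) (nat_lit 2) (nat_lit 259) (nat_lit 268) (nat_lit 253)) (PT.lf (nat_lit 56772) (nat_lit 6) (nat_lit 747) (nat_lit 2) (nat_lit 260) (nat_lit 268) (nat_lit 252))))) (PT.nd (nat_lit 312) (PT.nd (nat_lit 156) (PT.nd (nat_lit 78) (PT.lf (nat_lit 56164) (nat_lit 6) (nat_lit 739) (nat_lit 2) (nat_lit 261) (nat_lit 268) (nat_lit 251)) (PT.lf (nat_lit 55480) (nat_lit 6) (nat_lit 730) (nat_lit 2) (nat_lit 262) (nat_lit 268) (nat_lit 250))) (PT.nd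 (nat_lit 78) (PT.lf (nat_lit 54720) (nat_lit 6) (nat_lit 720) (nat_lit 2) (nat_lit 263) (nat_lit 268) (nat_lit 249)) (PT.lf (nat_lit 53884) (nat_lit 6) (nat_lit 709) (nat_lit 2) (nat_lit 264) (nat_lit 268) (nat_lit 248)))) (PT.nd (nat_lit 156) (PT.nd (nat_lit 78) (PT.lf (nat_lit 52972) (nat_lit 6) (nat_lit 697) (nat_lit 2) (nat_lit 265) (nat_lit 268) (nat_lit 247)) (PT.lf (nat_lit 51984) (nat_lit 6) (nat_lit 684) (nat_lit 2) (nat_lit 266) (nat_lit 268) (nat_lit 246))) (PT.nd (nat_lit 78) (PT.lf (nat_lit 50920) (nat_lit 6) (nat_lit 670) (nat_lit 2) (nat_lit 267) (nat_lit 268) (nat_lit 245)) (PT.lf (nat_lit 49780) (nat_lit 3) (nat_lit 655) (nat_lit 0) (nat_lit 268) (nat_lit 268) (nat_lit 244)))))) (PT.nd (nat_lit 624) (PT.nd (nat_lit 312) (PT.nd (nat_lit 156) (PT.nd (nat_lit 78) (PT.lf (nat_lit 48488) (nat_lit 6) (nat_lit 638) (nat_lit 0) (nat_lit 269) (nat_lit 268) (nat_lit 243)) (PT.lf (nat_lit 47120) (nat_lit 6) (nat_lit 620) (nat_lit 0) (nat_lit 270) (nat_lit 268) (nat_lit 242))) (PT.nd (nat_lit 78) (PT.lf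 (nat_lit 45676) (nat_lit 6) (nat_lit 601) (nat_lit 0) (nat_lit 271) (nat_lit 268) (nat_lit 241)) (PT.lf (nat_lit 44156) (nat_lit 6) (nat_lit 581) (nat_lit 0) (nat_lit 272) (nat_lit 268) (nat_lit 240)))) (PT.nd (nat_lit 156) (PT.nd (nat_lit 78) (PT.lf (nat_lit 42560) (nat_lit 6) (nat_lit 560) (nat_lit 0) (nat_lit 273) (nat_lit 268) (nat_lit 239)) (PT.lf (nat_lit 40888) (nat_lit 6) (nat_lit 538) (nat_lit 0) (nat_lit 274) (nat_lit 268) (nat_lit 238))) (PT.nd (nat_lit 78) (PT.lf (nat_lit 39140) (nat_lit 6) (nat_lit 515) (nat_lit 0) (nat_lit 275) (nat_lit 268) (nat_lit 237)) (PT.lf (nat_lit 37316) (nat_lit 6) (nat_lit 491) (nat_lit 0) (nat_lit 276) (nat_lit 268) (nat_lit 236))))) (PT.nd (nat_lit 312) (PT.nd (nat_lit 156) (PT.nd (nat_lit 78) (PT.lf (nat_lit 35416) (nat_lit 6) (nat_lit 466) (nat_lit 0) (nat_lit 277) (nat_lit 268) (nat_lit 235)) (PT.lf (nat_lit 34276) (nat_lit 6) (nat_lit 451) (nat_lit 0) (nat_lit 278) (nat_lit 268) (nat_lit 234))) (PT.nd (nat_lit 78) (PT.lf (nat_lit 33288) (nat_lit 6) (nat_lit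 438) (nat_lit 0) (nat_lit 279) (nat_lit 268) (nat_lit 233)) (PT.lf (nat_lit 32300) (nat_lit 6) (nat_lit 425) (nat_lit 0) (nat_lit 280) (nat_lit 268) (nat_lit 232)))) (PT.nd (nat_lit 156) (PT.nd (nat_lit 78) (PT.lf (nat_lit 31388) (nat_lit 6) (nat_lit 413) (nat_lit 0) (nat_lit 281) (nat_lit 268) (nat_lit 231)) (PT.lf (nat_lit 30476) (nat_lit 6) (nat_lit 401) (nat_lit 0) (nat_lit 282) (nat_lit 268) (nat_lit 230))) (PT.nd (nat_lit 78) (PT.lf (nat_lit 29564) (nat_lit 6) (nat_lit 389) (nat_lit 0) (nat_lit 283) (nat_lit 268) (nat_lit 229)) (PT.lf (nat_lit 28652) (nat_lit 6) (nat_lit 377) (nat_lit 0) (nat_lit 284) (nat_lit 268) (nat_lit 228))))))))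
noncomputable def pc34 : PT := (PT.nd (nat_lit 78624) (PT.nd (nat_lit 77376) (PT.nd (nat_lit 76752) (PT.nd (nat_lit 76440) (PT.nd (nat_lit 78) (PT.lf (nat_lit 27816) (nat_lit 6) (nat_lit 366) (nat_lit 0) (nat_lit 285) (nat_lit 268) (nat_lit 227)) (PT.nd (nat_lit 78) (PT.lf (nat_lit 26980) (nat_lit 6) (nat_lit 355) (nat_lit 0) (nat_lit 286) (nat_lit 268) (nat_lit 226)) (PT.lf (nat_lit 26220) (nat_lit 6) (nat_lit 345) (nat_lit 0) (nat_lit 287) (nat_lit 268) (nat_lit 225)))) (PT.nd (nat_lit 156) (PT.nd (nat_lit 78) (PT.lf (nat_lit 25460) (nat_lit 6) (nat_lit 335) (nat_lit 5) (nat_lit 224) (nat_lit 269) (nat_lit 287)) (PT.lf (nat_lit 26296) (nat_lit 6) (nat_lit 346) (nat_lit 5) (nat_lit 225) (nat_lit 269) (nat_lit 286))) (PT.nd (nat_lit 78) (PT.lf (nat_lit 27056) (nat_lit 6) (nat_lit 356) (nat_lit 5) (nat_lit 226) (nat_lit 269) (nat_lit 285)) (PT.lf (nat_lit 27892) (nat_lit 6) (nat_lit 367) (nat_lit 5) (nat_lit 227) (nat_lit 269) (nat_lit 284))))) (PT.nd (nat_lit 312) (PT.nd (nat_lit 156) (PT.nd (nat_lit 78)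 (PT.lf (nat_lit 28728) (nat_lit 6) (nat_lit 378) (nat_lit 5) (nat_lit 228) (nat_lit 269) (nat_lit 283)) (PT.lf (nat_lit 29640) (nat_lit 6) (nat_lit 390) (nat_lit 5) (nat_lit 229) (nat_lit 269) (nat_lit 282))) (PT.nd (nat_lit 78) (PT.lf (nat_lit 30552) (nat_lit 6) (nat_lit 402) (nat_lit 5) (nat_lit 230) (nat_lit 269) (nat_lit 281)) (PT.lf (nat_lit 31464) (nat_lit 6) (nat_lit 414) (nat_lit 5) (nat_lit 231) (nat_lit 269) (nat_lit 280)))) (PT.nd (nat_lit 156) (PT.nd (nat_lit 78) (PT.lf (nat_lit 32376) (nat_lit 6) (nat_lit 426) (nat_lit 5) (nat_lit 232) (nat_lit 269) (nat_lit 279)) (PT.lf (nat_lit 33364) (nat_lit 6) (nat_lit 439) (nat_lit 5) (nat_lit 233) (nat_lit 269) (nat_lit 278))) (PT.nd (nat_lit 78) (PT.lf (nat_lit 34352) (nat_lit 6) (nat_lit 452) (nat_lit 5) (nat_lit 234) (nat_lit 269) (nat_lit 277)) (PT.lf (nat_lit 35492) (nat_lit 6) (nat_lit 467) (nat_lit 5) (nat_lit 235) (nat_lit 269) (nat_lit 276)))))) (PT.nd (nat_lit 624) (PT.nd (nat_lit 312) (PT.nd (nat_lit 156) (PT.nd (nat_lit 78) (PT.lf (nat_lit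 37392) (nat_lit 6) (nat_lit 492) (nat_lit 5) (nat_lit 236) (nat_lit 269) (nat_lit 275)) (PT.lf (nat_lit 39216) (nat_lit 6) (nat_lit 516) (nat_lit 5) (nat_lit 237) (nat_lit 269) (nat_lit 274))) (PT.nd (nat_lit 78) (PT.lf (nat_lit 40964) (nat_lit 6) (nat_lit 539) (nat_lit 5) (nat_lit 238) (nat_lit 269) (nat_lit 273)) (PT.lf (nat_lit 42636) (nat_lit 6) (nat_lit 561) (nat_lit 5) (nat_lit 239) (nat_lit 269) (nat_lit 272)))) (PT.nd (nat_lit 156) (PT.nd (nat_lit 78) (PT.lf (nat_lit 44232) (nat_lit 6) (nat_lit 582) (nat_lit 5) (nat_lit 240) (nat_lit 269) (nat_lit 271)) (PT.lf (nat_lit 45752) (nat_lit 6) (nat_lit 602) (nat_lit 5) (nat_lit 241) (nat_lit 269) (nat_lit 270))) (PT.nd (nat_lit 78) (PT.lf (nat_lit 47196) (nat_lit 3) (nat_lit 621) (nat_lit 4) (nat_lit 242) (nat_lit 269) (nat_lit 269)) (PT.lf (nat_lit 48488) (nat_lit 6) (nat_lit 638) (nat_lit 4) (nat_lit 243) (nat_lit 269) (nat_lit 268))))) (PT.nd (nat_lit 312) (PT.nd (nat_lit 156) (PT.nd (nat_lit 78) (PT.lf (nat_lit 49704) (nat_lit 6) (nat_lit 654) (nat_lit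 4) (nat_lit 244) (nat_lit 269) (nat_lit 267)) (PT.lf (nat_lit 50844) (nat_lit 6) (nat_lit 669) (nat_lit 4) (nat_lit 245) (nat_lit 269) (nat_lit 266))) (PT.nd (nat_lit 78) (PT.lf (nat_lit 51908) (nat_lit 6) (nat_lit 683) (nat_lit 4) (nat_lit 246) (nat_lit 269) (nat_lit 265)) (PT.lf (nat_lit 52896) (nat_lit 6) (nat_lit 696) (nat_lit 4) (nat_lit 247) (nat_lit 269) (nat_lit 264)))) (PT.nd (nat_lit 156) (PT.nd (nat_lit 78) (PT.lf (nat_lit 53808) (nat_lit 6) (nat_lit 708) (nat_lit 4) (nat_lit 248) (nat_lit 269) (nat_lit 263)) (PT.lf (nat_lit 54644) (nat_lit 6) (nat_lit 719) (nat_lit 4) (nat_lit 249) (nat_lit 269) (nat_lit 262))) (PT.nd (nat_lit 78) (PT.lf (nat_lit 55404) (nat_lit 6) (nat_lit 729) (nat_lit 4) (nat_lit 250) (nat_lit 269) (nat_lit 261)) (PT.lf (nat_lit 56088) (nat_lit 6) (nat_lit 738) (nat_lit 4) (nat_lit 251) (nat_lit 269) (nat_lit 260))))))) (PT.nd (nat_lit 1170) (PT.nd (nat_lit 546) (PT.nd (nat_lit 234) (PT.nd (nat_lit 78) (PT.lf (nat_lit 56012) (nat_lit 6) (nat_lit 737) (nat_lit 4) (nat_lit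 252) (nat_lit 269) (nat_lit 259)) (PT.nd (nat_lit 78) (PT.lf (nat_lit 55936) (nat_lit 6) (nat_lit 736) (nat_lit 4) (nat_lit 253) (nat_lit 269) (nat_lit 258)) (PT.lf (nat_lit 55860) (nat_lit 6) (nat_lit 735) (nat_lit 4) (nat_lit 254) (nat_lit 269) (nat_lit 257)))) (PT.nd (nat_lit 156) (PT.nd (nat_lit 78) (PT.lf (nat_lit 55784) (nat_lit 6) (nat_lit 734) (nat_lit 4) (nat_lit 255) (nat_lit 269) (nat_lit 256)) (PT.lf (nat_lit 55784) (nat_lit 6) (nat_lit 734) (nat_lit 2) (nat_lit 256) (nat_lit 269) (nat_lit 255))) (PT.nd (nat_lit 78) (PT.lf (nat_lit 55860) (nat_lit 6) (nat_lit 735) (nat_lit 2) (nat_lit 257) (nat_lit 269) (nat_lit 254)) (PT.lf (nat_lit 55936) (nat_lit 6) (nat_lit 736) (nat_lit 2) (nat_lit 258) (nat_lit 269) (nat_lit 253))))) (PT.nd (nat_lit 312) (PT.nd (nat_lit 156) (PT.nd (nat_lit 78) (PT.lf (nat_lit 56012) (nat_lit 6) (nat_lit 737) (nat_lit 2) (nat_lit 259) (nat_lit 269) (nat_lit 252)) (PT.lf (nat_lit 56088) (nat_lit 6) (nat_lit 738) (nat_lit 2) (nat_lit 260) (nat_lit 269) (nat_lit 251))) (PT.nd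 (nat_lit 78) (PT.lf (nat_lit 55404) (nat_lit 6) (nat_lit 729) (nat_lit 2) (nat_lit 261) (nat_lit 269) (nat_lit 250)) (PT.lf (nat_lit 54644) (nat_lit 6) (nat_lit 719) (nat_lit 2) (nat_lit 262) (nat_lit 269) (nat_lit 249)))) (PT.nd (nat_lit 156) (PT.nd (nat_lit 78) (PT.lf (nat_lit 53808) (nat_lit 6) (nat_lit 708) (nat_lit 2) (nat_lit 263) (nat_lit 269) (nat_lit 248)) (PT.lf (nat_lit 52896) (nat_lit 6) (nat_lit 696) (nat_lit 2) (nat_lit 264) (nat_lit 269) (nat_lit 247))) (PT.nd (nat_lit 78) (PT.lf (nat_lit 51908) (nat_lit 6) (nat_lit 683) (nat_lit 2) (nat_lit 265) (nat_lit 269) (nat_lit 246)) (PT.lf (nat_lit 50844) (nat_lit 6) (nat_lit 669) (nat_lit 2) (nat_lit 266) (nat_lit 269) (nat_lit 245)))))) (PT.nd (nat_lit 624) (PT.nd (nat_lit 312) (PT.nd (nat_lit 156) (PT.nd (nat_lit 78) (PT.lf (nat_lit 49704) (nat_lit 6) (nat_lit 654) (nat_lit 2) (nat_lit 267) (nat_lit 269) (nat_lit 244)) (PT.lf (nat_lit 48488) (nat_lit 6) (nat_lit 638) (nat_lit 2) (nat_lit 268) (nat_lit 269) (nat_lit 243))) (PT.nd (nat_lit 78) (PT.lf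 (nat_lit 47196) (nat_lit 3) (nat_lit 621) (nat_lit 0) (nat_lit 269) (nat_lit 269) (nat_lit 242)) (PT.lf (nat_lit 45752) (nat_lit 6) (nat_lit 602) (nat_lit 0) (nat_lit 270) (nat_lit 269) (nat_lit 241)))) (PT.nd (nat_lit 156) (PT.nd (nat_lit 78) (PT.lf (nat_lit 44232) (nat_lit 6) (nat_lit 582) (nat_lit 0) (nat_lit 271) (nat_lit 269) (nat_lit 240)) (PT.lf (nat_lit 42636) (nat_lit 6) (nat_lit 561) (nat_lit 0) (nat_lit 272) (nat_lit 269) (nat_lit 239))) (PT.nd (nat_lit 78) (PT.lf (nat_lit 40964) (nat_lit 6) (nat_lit 539) (nat_lit 0) (nat_lit 273) (nat_lit 269) (nat_lit 238)) (PT.lf (nat_lit 39216) (nat_lit 6) (nat_lit 516) (nat_lit 0) (nat_lit 274) (nat_lit 269) (nat_lit 237))))) (PT.nd (nat_lit 312) (PT.nd (nat_lit 156) (PT.nd (nat_lit 78) (PT.lf (nat_lit 37392) (nat_lit 6) (nat_lit 492) (nat_lit 0) (nat_lit 275) (nat_lit 269) (nat_lit 236)) (PT.lf (nat_lit 35492) (nat_lit 6) (nat_lit 467) (nat_lit 0) (nat_lit 276) (nat_lit 269) (nat_lit 235))) (PT.nd (nat_lit 78) (PT.lf (nat_lit 34352) (nat_lit 6) (nat_lit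 452) (nat_lit 0) (nat_lit 277) (nat_lit 269) (nat_lit 234)) (PT.lf (nat_lit 33364) (nat_lit 6) (nat_lit 439) (nat_lit 0) (nat_lit 278) (nat_lit 269) (nat_lit 233)))) (PT.nd (nat_lit 156) (PT.nd (nat_lit 78) (PT.lf (nat_lit 32376) (nat_lit 6) (nat_lit 426) (nat_lit 0) (nat_lit 279) (nat_lit 269) (nat_lit 232)) (PT.lf (nat_lit 31464) (nat_lit 6) (nat_lit 414) (nat_lit 0) (nat_lit 280) (nat_lit 269) (nat_lit 231))) (PT.nd (nat_lit 78) (PT.lf (nat_lit 30552) (nat_lit 6) (nat_lit 402) (nat_lit 0) (nat_lit 281) (nat_lit 269) (nat_lit 230)) (PT.lf (nat_lit 29640) (nat_lit 6) (nat_lit 390) (nat_lit 0) (nat_lit 282) (nat_lit 269) (nat_lit 229))))))))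
noncomputable def pc35 : PT := (PT.nd (nat_lit 78546) (PT.nd (nat_lit 77298) (PT.nd (nat_lit 76674) (PT.nd (nat_lit 234) (PT.nd (nat_lit 78) (PT.lf (nat_lit 28728) (nat_lit 6) (nat_lit 378) (nat_lit 0) (nat_lit 283) (nat_lit 269) (nat_lit 228)) (PT.nd (nat_lit 78) (PT.lf (nat_lit 27892) (nat_lit 6) (nat_lit 367) (nat_lit 0) (nat_lit 284) (nat_lit 269) (nat_lit 227)) (PT.lf (nat_lit 27056) (nat_lit 6) (nat_lit 356) (nat_lit 0) (nat_lit 285) (nat_lit 269) (nat_lit 226)))) (PT.nd (nat_lit 76284) (PT.nd (nat_lit 78) (PT.lf (nat_lit 26296) (nat_lit 6) (nat_lit 346) (nat_lit 0) (nat_lit 286) (nat_lit 269) (nat_lit 225)) (PT.lf (nat_lit 25460) (nat_lit 6) (nat_lit 335) (nat_lit 0) (nat_lit 287) (nat_lit 269) (nat_lit 224))) (PT.nd (nat_lit 78) (PT.lf (nat_lit 24776) (nat_lit 6) (nat_lit 326) (nat_lit 5) (nat_lit 223) (nat_lit 270) (nat_lit 287)) (PT.lf (nat_lit 25536) (nat_lit 6) (nat_lit 336) (nat_lit 5) (nat_lit 224) (nat_lit 270) (nat_lit 286))))) (PT.nd (nat_lit 312) (PT.nd (nat_lit 156) (PT.nd (nat_lit 78)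 (PT.lf (nat_lit 26372) (nat_lit 6) (nat_lit 347) (nat_lit 5) (nat_lit 225) (nat_lit 270) (nat_lit 285)) (PT.lf (nat_lit 27132) (nat_lit 6) (nat_lit 357) (nat_lit 5) (nat_lit 226) (nat_lit 270) (nat_lit 284))) (PT.nd (nat_lit 78) (PT.lf (nat_lit 27968) (nat_lit 6) (nat_lit 368) (nat_lit 5) (nat_lit 227) (nat_lit 270) (nat_lit 283)) (PT.lf (nat_lit 28804) (nat_lit 6) (nat_lit 379) (nat_lit 5) (nat_lit 228) (nat_lit 270) (nat_lit 282)))) (PT.nd (nat_lit 156) (PT.nd (nat_lit 78) (PT.lf (nat_lit 29716) (nat_lit 6) (nat_lit 391) (nat_lit 5) (nat_lit 229) (nat_lit 270) (nat_lit 281)) (PT.lf (nat_lit 30628) (nat_lit 6) (nat_lit 403) (nat_lit 5) (nat_lit 230) (nat_lit 270) (nat_lit 280))) (PT.nd (nat_lit 78) (PT.lf (nat_lit 31540) (nat_lit 6) (nat_lit 415) (nat_lit 5) (nat_lit 231) (nat_lit 270) (nat_lit 279)) (PT.lf (nat_lit 32452) (nat_lit 6) (nat_lit 427) (nat_lit 5) (nat_lit 232) (nat_lit 270) (nat_lit 278)))))) (PT.nd (nat_lit 624) (PT.nd (nat_lit 312) (PT.nd (nat_lit 156) (PT.nd (nat_lit 78) (PT.lf (nat_lit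 33440) (nat_lit 6) (nat_lit 440) (nat_lit 5) (nat_lit 233) (nat_lit 270) (nat_lit 277)) (PT.lf (nat_lit 34428) (nat_lit 6) (nat_lit 453) (nat_lit 5) (nat_lit 234) (nat_lit 270) (nat_lit 276))) (PT.nd (nat_lit 78) (PT.lf (nat_lit 35568) (nat_lit 6) (nat_lit 468) (nat_lit 5) (nat_lit 235) (nat_lit 270) (nat_lit 275)) (PT.lf (nat_lit 37468) (nat_lit 6) (nat_lit 493) (nat_lit 5) (nat_lit 236) (nat_lit 270) (nat_lit 274)))) (PT.nd (nat_lit 156) (PT.nd (nat_lit 78) (PT.lf (nat_lit 39292) (nat_lit 6) (nat_lit 517) (nat_lit 5) (nat_lit 237) (nat_lit 270) (nat_lit 273)) (PT.lf (nat_lit 41040) (nat_lit 6) (nat_lit 540) (nat_lit 5) (nat_lit 238) (nat_lit 270) (nat_lit 272))) (PT.nd (nat_lit 78) (PT.lf (nat_lit 42712) (nat_lit 6) (nat_lit 562) (nat_lit 5) (nat_lit 239) (nat_lit 270) (nat_lit 271)) (PT.lf (nat_lit 44308) (nat_lit 3) (nat_lit 583) (nat_lit 4) (nat_lit 240) (nat_lit 270) (nat_lit 270))))) (PT.nd (nat_lit 312) (PT.nd (nat_lit 156) (PT.nd (nat_lit 78) (PT.lf (nat_lit 45752) (nat_lit 6) (nat_lit 602) (nat_lit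 4) (nat_lit 241) (nat_lit 270) (nat_lit 269)) (PT.lf (nat_lit 47120) (nat_lit 6) (nat_lit 620) (nat_lit 4) (nat_lit 242) (nat_lit 270) (nat_lit 268))) (PT.nd (nat_lit 78) (PT.lf (nat_lit 48412) (nat_lit 6) (nat_lit 637) (nat_lit 4) (nat_lit 243) (nat_lit 270) (nat_lit 267)) (PT.lf (nat_lit 49628) (nat_lit 6) (nat_lit 653) (nat_lit 4) (nat_lit 244) (nat_lit 270) (nat_lit 266)))) (PT.nd (nat_lit 156) (PT.nd (nat_lit 78) (PT.lf (nat_lit 50768) (nat_lit 6) (nat_lit 668) (nat_lit 4) (nat_lit 245) (nat_lit 270) (nat_lit 265)) (PT.lf (nat_lit 51832) (nat_lit 6) (nat_lit 682) (nat_lit 4) (nat_lit 246) (nat_lit 270) (nat_lit 264))) (PT.nd (nat_lit 78) (PT.lf (nat_lit 52820) (nat_lit 6) (nat_lit 695) (nat_lit 4) (nat_lit 247) (nat_lit 270) (nat_lit 263)) (PT.lf (nat_lit 53732) (nat_lit 6) (nat_lit 707) (nat_lit 4) (nat_lit 248) (nat_lit 270) (nat_lit 262))))))) (PT.nd (nat_lit 1170) (PT.nd (nat_lit 546) (PT.nd (nat_lit 234) (PT.nd (nat_lit 78) (PT.lf (nat_lit 54568) (nat_lit 6) (nat_lit 718) (nat_lit 4) (nat_lit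 249) (nat_lit 270) (nat_lit 261)) (PT.nd (nat_lit 78) (PT.lf (nat_lit 55328) (nat_lit 6) (nat_lit 728) (nat_lit 4) (nat_lit 250) (nat_lit 270) (nat_lit 260)) (PT.lf (nat_lit 55252) (nat_lit 6) (nat_lit 727) (nat_lit 4) (nat_lit 251) (nat_lit 270) (nat_lit 259)))) (PT.nd (nat_lit 156) (PT.nd (nat_lit 78) (PT.lf (nat_lit 55176) (nat_lit 6) (nat_lit 726) (nat_lit 4) (nat_lit 252) (nat_lit 270) (nat_lit 258)) (PT.lf (nat_lit 55100) (nat_lit 6) (nat_lit 725) (nat_lit 4) (nat_lit 253) (nat_lit 270) (nat_lit 257))) (PT.nd (nat_lit 78) (PT.lf (nat_lit 55024) (nat_lit 6) (nat_lit 724) (nat_lit 4) (nat_lit 254) (nat_lit 270) (nat_lit 256)) (PT.lf (nat_lit 54948) (nat_lit 3) (nat_lit 723) (nat_lit 2) (nat_lit 255) (nat_lit 270) (nat_lit 255))))) (PT.nd (nat_lit 312) (PT.nd (nat_lit 156) (PT.nd (nat_lit 78) (PT.lf (nat_lit 55024) (nat_lit 6) (nat_lit 724) (nat_lit 2) (nat_lit 256) (nat_lit 270) (nat_lit 254)) (PT.lf (nat_lit 55100) (nat_lit 6) (nat_lit 725) (nat_lit 2) (nat_lit 257) (nat_lit 270) (nat_lit 253))) (PT.nd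 (nat_lit 78) (PT.lf (nat_lit 55176) (nat_lit 6) (nat_lit 726) (nat_lit 2) (nat_lit 258) (nat_lit 270) (nat_lit 252)) (PT.lf (nat_lit 55252) (nat_lit 6) (nat_lit 727) (nat_lit 2) (nat_lit 259) (nat_lit 270) (nat_lit 251)))) (PT.nd (nat_lit 156) (PT.nd (nat_lit 78) (PT.lf (nat_lit 55328) (nat_lit 6) (nat_lit 728) (nat_lit 2) (nat_lit 260) (nat_lit 270) (nat_lit 250)) (PT.lf (nat_lit 54568) (nat_lit 6) (nat_lit 718) (nat_lit 2) (nat_lit 261) (nat_lit 270) (nat_lit 249))) (PT.nd (nat_lit 78) (PT.lf (nat_lit 53732) (nat_lit 6) (nat_lit 707) (nat_lit 2) (nat_lit 262) (nat_lit 270) (nat_lit 248)) (PT.lf (nat_lit 52820) (nat_lit 6) (nat_lit 695) (nat_lit 2) (nat_lit 263) (nat_lit 270) (nat_lit 247)))))) (PT.nd (nat_lit 624) (PT.nd (nat_lit 312) (PT.nd (nat_lit 156) (PT.nd (nat_lit 78) (PT.lf (nat_lit 51832) (nat_lit 6) (nat_lit 682) (nat_lit 2) (nat_lit 264) (nat_lit 270) (nat_lit 246)) (PT.lf (nat_lit 50768) (nat_lit 6) (nat_lit 668) (nat_lit 2) (nat_lit 265) (nat_lit 270) (nat_lit 245))) (PT.nd (nat_lit 78) (PT.lf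 (nat_lit 49628) (nat_lit 6) (nat_lit 653) (nat_lit 2) (nat_lit 266) (nat_lit 270) (nat_lit 244)) (PT.lf (nat_lit 48412) (nat_lit 6) (nat_lit 637) (nat_lit 2) (nat_lit 267) (nat_lit 270) (nat_lit 243)))) (PT.nd (nat_lit 156) (PT.nd (nat_lit 78) (PT.lf (nat_lit 47120) (nat_lit 6) (nat_lit 620) (nat_lit 2) (nat_lit 268) (nat_lit 270) (nat_lit 242)) (PT.lf (nat_lit 45752) (nat_lit 6) (nat_lit 602) (nat_lit 2) (nat_lit 269) (nat_lit 270) (nat_lit 241))) (PT.nd (nat_lit 78) (PT.lf (nat_lit 44308) (nat_lit 3) (nat_lit 583) (nat_lit 0) (nat_lit 270) (nat_lit 270) (nat_lit 240)) (PT.lf (nat_lit 42712) (nat_lit 6) (nat_lit 562) (nat_lit 0) (nat_lit 271) (nat_lit 270) (nat_lit 239))))) (PT.nd (nat_lit 312) (PT.nd (nat_lit 156) (PT.nd (nat_lit 78) (PT.lf (nat_lit 41040) (nat_lit 6) (nat_lit 540) (nat_lit 0) (nat_lit 272) (nat_lit 270) (nat_lit 238)) (PT.lf (nat_lit 39292) (nat_lit 6) (nat_lit 517) (nat_lit 0) (nat_lit 273) (nat_lit 270) (nat_lit 237))) (PT.nd (nat_lit 78) (PT.lf (nat_lit 37468) (nat_lit 6) (nat_lit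 493) (nat_lit 0) (nat_lit 274) (nat_lit 270) (nat_lit 236)) (PT.lf (nat_lit 35568) (nat_lit 6) (nat_lit 468) (nat_lit 0) (nat_lit 275) (nat_lit 270) (nat_lit 235)))) (PT.nd (nat_lit 156) (PT.nd (nat_lit 78) (PT.lf (nat_lit 34428) (nat_lit 6) (nat_lit 453) (nat_lit 0) (nat_lit 276) (nat_lit 270) (nat_lit 234)) (PT.lf (nat_lit 33440) (nat_lit 6) (nat_lit 440) (nat_lit 0) (nat_lit 277) (nat_lit 270) (nat_lit 233))) (PT.nd (nat_lit 78) (PT.lf (nat_lit 32452) (nat_lit 6) (nat_lit 427) (nat_lit 0) (nat_lit 278) (nat_lit 270) (nat_lit 232)) (PT.lf (nat_lit 31540) (nat_lit 6) (nat_lit 415) (nat_lit 0) (nat_lit 279) (nat_lit 270) (nat_lit 231))))))))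
noncomputable def pc36 : PT := (PT.nd (nat_lit 78312) (PT.nd (nat_lit 77142) (PT.nd (nat_lit 546) (PT.nd (nat_lit 234) (PT.nd (nat_lit 78) (PT.lf (nat_lit 30628) (nat_lit 6) (nat_lit 403) (nat_lit 0) (nat_lit 280) (nat_lit 270) (nat_lit 230)) (PT.nd (nat_lit 78) (PT.lf (nat_lit 29716) (nat_lit 6) (nat_lit 391) (nat_lit 0) (nat_lit 281) (nat_lit 270) (nat_lit 229)) (PT.lf (nat_lit 28804) (nat_lit 6) (nat_lit 379) (nat_lit 0) (nat_lit 282) (nat_lit 270) (nat_lit 228)))) (PT.nd (nat_lit 156) (PT.nd (nat_lit 78) (PT.lf (nat_lit 27968) (nat_lit 6) (nat_lit 368) (nat_lit 0) (nat_lit 283) (nat_lit 270) (nat_lit 227)) (PT.lf (nat_lit 27132) (nat_lit 6) (nat_lit 357) (nat_lit 0) (nat_lit 284) (nat_lit 270) (nat_lit 226))) (PT.nd (nat_lit 78) (PT.lf (nat_lit 26372) (nat_lit 6) (nat_lit 347) (nat_lit 0) (nat_lit 285) (nat_lit 270) (nat_lit 225)) (PT.lf (nat_lit 25536) (nat_lit 6) (nat_lit 336) (nat_lit 0) (nat_lit 286) (nat_lit 270) (nat_lit 224))))) (PT.nd (nat_lit 76284) (PT.nd (nat_lit 76128) (PT.nd (nat_lit 76050)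 (PT.lf (nat_lit 24776) (nat_lit 6) (nat_lit 326) (nat_lit 0) (nat_lit 287) (nat_lit 270) (nat_lit 223)) (PT.lf (nat_lit 23408) (nat_lit 6) (nat_lit 308) (nat_lit 5) (nat_lit 221) (nat_lit 271) (nat_lit 288))) (PT.nd (nat_lit 78) (PT.lf (nat_lit 24092) (nat_lit 6) (nat_lit 317) (nat_lit 5) (nat_lit 222) (nat_lit 271) (nat_lit 287)) (PT.lf (nat_lit 24852) (nat_lit 6) (nat_lit 327) (nat_lit 5) (nat_lit 223) (nat_lit 271) (nat_lit 286)))) (PT.nd (nat_lit 156) (PT.nd (nat_lit 78) (PT.lf (nat_lit 25612) (nat_lit 6) (nat_lit 337) (nat_lit 5) (nat_lit 224) (nat_lit 271) (nat_lit 285)) (PT.lf (nat_lit 26448) (nat_lit 6) (nat_lit 348) (nat_lit 5) (nat_lit 225) (nat_lit 271) (nat_lit 284))) (PT.nd (nat_lit 78) (PT.lf (nat_lit 27208) (nat_lit 6) (nat_lit 358) (nat_lit 5) (nat_lit 226) (nat_lit 271) (nat_lit 283)) (PT.lf (nat_lit 28044) (nat_lit 6) (nat_lit 369) (nat_lit 5) (nat_lit 227) (nat_lit 271) (nat_lit 282)))))) (PT.nd (nat_lit 546) (PT.nd (nat_lit 234) (PT.nd (nat_lit 78) (PT.lf (nat_lit 28880) (nat_lit 6)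 (nat_lit 380) (nat_lit 5) (nat_lit 228) (nat_lit 271) (nat_lit 281)) (PT.nd (nat_lit 78) (PT.lf (nat_lit 29792) (nat_lit 6) (nat_lit 392) (nat_lit 5) (nat_lit 229) (nat_lit 271) (nat_lit 280)) (PT.lf (nat_lit 30704) (nat_lit 6) (nat_lit 404) (nat_lit 5) (nat_lit 230) (nat_lit 271) (nat_lit 279)))) (PT.nd (nat_lit 156) (PT.nd (nat_lit 78) (PT.lf (nat_lit 31616) (nat_lit 6) (nat_lit 416) (nat_lit 5) (nat_lit 231) (nat_lit 271) (nat_lit 278)) (PT.lf (nat_lit 32528) (nat_lit 6) (nat_lit 428) (nat_lit 5) (nat_lit 232) (nat_lit 271) (nat_lit 277))) (PT.nd (nat_lit 78) (PT.lf (nat_lit 33516) (nat_lit 6) (nat_lit 441) (nat_lit 5) (nat_lit 233) (nat_lit 271) (nat_lit 276)) (PT.lf (nat_lit 34504) (nat_lit 6) (nat_lit 454) (nat_lit 5) (nat_lit 234) (nat_lit 271) (nat_lit 275))))) (PT.nd (nat_lit 312) (PT.nd (nat_lit 156) (PT.nd (nat_lit 78) (PT.lf (nat_lit 35644) (nat_lit 6) (nat_lit 469) (nat_lit 5) (nat_lit 235) (nat_lit 271) (nat_lit 274)) (PT.lf (nat_lit 37544) (nat_lit 6) (nat_lit 494) (nat_lit 5) (nat_lit 236)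 (nat_lit 271) (nat_lit 273))) (PT.nd (nat_lit 78) (PT.lf (nat_lit 39368) (nat_lit 6) (nat_lit 518) (nat_lit 5) (nat_lit 237) (nat_lit 271) (nat_lit 272)) (PT.lf (nat_lit 41116) (nat_lit 3) (nat_lit 541) (nat_lit 4) (nat_lit 238) (nat_lit 271) (nat_lit 271)))) (PT.nd (nat_lit 156) (PT.nd (nat_lit 78) (PT.lf (nat_lit 42712) (nat_lit 6) (nat_lit 562) (nat_lit 4) (nat_lit 239) (nat_lit 271) (nat_lit 270)) (PT.lf (nat_lit 44232) (nat_lit 6) (nat_lit 582) (nat_lit 4) (nat_lit 240) (nat_lit 271) (nat_lit 269))) (PT.nd (nat_lit 78) (PT.lf (nat_lit 45676) (nat_lit 6) (nat_lit 601) (nat_lit 4) (nat_lit 241) (nat_lit 271) (nat_lit 268)) (PT.lf (nat_lit 47044) (nat_lit 6) (nat_lit 619) (nat_lit 4) (nat_lit 242) (nat_lit 271) (nat_lit 267))))))) (PT.nd (nat_lit 1170) (PT.nd (nat_lit 546) (PT.nd (nat_lit 234) (PT.nd (nat_lit 78) (PT.lf (nat_lit 48336) (nat_lit 6) (nat_lit 636) (nat_lit 4) (nat_lit 243) (nat_lit 271) (nat_lit 266)) (PT.nd (nat_lit 78) (PT.lf (nat_lit 49552) (nat_lit 6) (nat_lit 652) (nat_lit 4) (nat_lit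 244) (nat_lit 271) (nat_lit 265)) (PT.lf (nat_lit 50692) (nat_lit 6) (nat_lit 667) (nat_lit 4) (nat_lit 245) (nat_lit 271) (nat_lit 264)))) (PT.nd (nat_lit 156) (PT.nd (nat_lit 78) (PT.lf (nat_lit 51756) (nat_lit 6) (nat_lit 681) (nat_lit 4) (nat_lit 246) (nat_lit 271) (nat_lit 263)) (PT.lf (nat_lit 52744) (nat_lit 6) (nat_lit 694) (nat_lit 4) (nat_lit 247) (nat_lit 271) (nat_lit 262))) (PT.nd (nat_lit 78) (PT.lf (nat_lit 53656) (nat_lit 6) (nat_lit 706) (nat_lit 4) (nat_lit 248) (nat_lit 271) (nat_lit 261)) (PT.lf (nat_lit 54492) (nat_lit 6) (nat_lit 717) (nat_lit 4) (nat_lit 249) (nat_lit 271) (nat_lit 260))))) (PT.nd (nat_lit 312) (PT.nd (nat_lit 156) (PT.nd (nat_lit 78) (PT.lf (nat_lit 54416) (nat_lit 6) (nat_lit 716) (nat_lit 4) (nat_lit 250) (nat_lit 271) (nat_lit 259)) (PT.lf (nat_lit 54340) (nat_lit 6) (nat_lit 715) (nat_lit 4) (nat_lit 251) (nat_lit 271) (nat_lit 258))) (PT.nd (nat_lit 78) (PT.lf (nat_lit 54264) (nat_lit 6) (nat_lit 714) (nat_lit 4) (nat_lit 252) (nat_lit 271) (nat_lit 257)) (PT.lf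 (nat_lit 54188) (nat_lit 6) (nat_lit 713) (nat_lit 4) (nat_lit 253) (nat_lit 271) (nat_lit 256)))) (PT.nd (nat_lit 156) (PT.nd (nat_lit 78) (PT.lf (nat_lit 54112) (nat_lit 6) (nat_lit 712) (nat_lit 4) (nat_lit 254) (nat_lit 271) (nat_lit 255)) (PT.lf (nat_lit 54112) (nat_lit 6) (nat_lit 712) (nat_lit 2) (nat_lit 255) (nat_lit 271) (nat_lit 254))) (PT.nd (nat_lit 78) (PT.lf (nat_lit 54188) (nat_lit 6) (nat_lit 713) (nat_lit 2) (nat_lit 256) (nat_lit 271) (nat_lit 253)) (PT.lf (nat_lit 54264) (nat_lit 6) (nat_lit 714) (nat_lit 2) (nat_lit 257) (nat_lit 271) (nat_lit 252)))))) (PT.nd (nat_lit 624) (PT.nd (nat_lit 312) (PT.nd (nat_lit 156) (PT.nd (nat_lit 78) (PT.lf (nat_lit 54340) (nat_lit 6) (nat_lit 715) (nat_lit 2) (nat_lit 258) (nat_lit 271) (nat_lit 251)) (PT.lf (nat_lit 54416) (nat_lit 6) (nat_lit 716) (nat_lit 2) (nat_lit 259) (nat_lit 271) (nat_lit 250))) (PT.nd (nat_lit 78) (PT.lf (nat_lit 54492) (nat_lit 6) (nat_lit 717) (nat_lit 2) (nat_lit 260) (nat_lit 271) (nat_lit 249)) (PT.lf (nat_lit 53656)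 (nat_lit 6) (nat_lit 706) (nat_lit 2) (nat_lit 261) (nat_lit 271) (nat_lit 248)))) (PT.nd (nat_lit 156) (PT.nd (nat_lit 78) (PT.lf (nat_lit 52744) (nat_lit 6) (nat_lit 694) (nat_lit 2) (nat_lit 262) (nat_lit 271) (nat_lit 247)) (PT.lf (nat_lit 51756) (nat_lit 6) (nat_lit 681) (nat_lit 2) (nat_lit 263) (nat_lit 271) (nat_lit 246))) (PT.nd (nat_lit 78) (PT.lf (nat_lit 50692) (nat_lit 6) (nat_lit 667) (nat_lit 2) (nat_lit 264) (nat_lit 271) (nat_lit 245)) (PT.lf (nat_lit 49552) (nat_lit 6) (nat_lit 652) (nat_lit 2) (nat_lit 265) (nat_lit 271) (nat_lit 244))))) (PT.nd (nat_lit 312) (PT.nd (nat_lit 156) (PT.nd (nat_lit 78) (PT.lf (nat_lit 48336) (nat_lit 6) (nat_lit 636) (nat_lit 2) (nat_lit 266) (nat_lit 271) (nat_lit 243)) (PT.lf (nat_lit 47044) (nat_lit 6) (nat_lit 619) (nat_lit 2) (nat_lit 267) (nat_lit 271) (nat_lit 242))) (PT.nd (nat_lit 78) (PT.lf (nat_lit 45676) (nat_lit 6) (nat_lit 601) (nat_lit 2) (nat_lit 268) (nat_lit 271) (nat_lit 241)) (PT.lf (nat_lit 44232) (nat_lit 6) (nat_lit 582) (nat_lit 2)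 (nat_lit 269) (nat_lit 271) (nat_lit 240)))) (PT.nd (nat_lit 156) (PT.nd (nat_lit 78) (PT.lf (nat_lit 42712) (nat_lit 6) (nat_lit 562) (nat_lit 2) (nat_lit 270) (nat_lit 271) (nat_lit 239)) (PT.lf (nat_lit 41116) (nat_lit 3) (nat_lit 541) (nat_lit 0) (nat_lit 271) (nat_lit 271) (nat_lit 238))) (PT.nd (nat_lit 78) (PT.lf (nat_lit 39368) (nat_lit 6) (nat_lit 518) (nat_lit 0) (nat_lit 272) (nat_lit 271) (nat_lit 237)) (PT.lf (nat_lit 37544) (nat_lit 6) (nat_lit 494) (nat_lit 0) (nat_lit 273) (nat_lit 271) (nat_lit 236))))))))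
noncomputable def pc37 : PT := (PT.nd (nat_lit 78234) (PT.nd (nat_lit 76986) (PT.nd (nat_lit 546) (PT.nd (nat_lit 234) (PT.nd (nat_lit 78) (PT.lf (nat_lit 35644) (nat_lit 6) (nat_lit 469) (nat_lit 0) (nat_lit 274) (nat_lit 271) (nat_lit 235)) (PT.nd (nat_lit 78) (PT.lf (nat_lit 34504) (nat_lit 6) (nat_lit 454) (nat_lit 0) (nat_lit 275) (nat_lit 271) (nat_lit 234)) (PT.lf (nat_lit 33516) (nat_lit 6) (nat_lit 441) (nat_lit 0) (nat_lit 276) (nat_lit 271) (nat_lit 233)))) (PT.nd (nat_lit 156) (PT.nd (nat_lit 78) (PT.lf (nat_lit 32528) (nat_lit 6) (nat_lit 428) (nat_lit 0) (nat_lit 277) (nat_lit 271) (nat_lit 232)) (PT.lf (nat_lit 31616) (nat_lit 6) (nat_lit 416) (nat_lit 0) (nat_lit 278) (nat_lit 271) (nat_lit 231))) (PT.nd (nat_lit 78) (PT.lf (nat_lit 30704) (nat_lit 6) (nat_lit 404) (nat_lit 0) (nat_lit 279) (nat_lit 271) (nat_lit 230)) (PT.lf (nat_lit 29792) (nat_lit 6) (nat_lit 392) (nat_lit 0) (nat_lit 280) (nat_lit 271) (nat_lit 229))))) (PT.nd (nat_lit 312) (PT.nd (nat_lit 156) (PT.nd (nat_lit 78) (PT.lf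 (nat_lit 28880) (nat_lit 6) (nat_lit 380) (nat_lit 0) (nat_lit 281) (nat_lit 271) (nat_lit 228)) (PT.lf (nat_lit 28044) (nat_lit 6) (nat_lit 369) (nat_lit 0) (nat_lit 282) (nat_lit 271) (nat_lit 227))) (PT.nd (nat_lit 78) (PT.lf (nat_lit 27208) (nat_lit 6) (nat_lit 358) (nat_lit 0) (nat_lit 283) (nat_lit 271) (nat_lit 226)) (PT.lf (nat_lit 26448) (nat_lit 6) (nat_lit 348) (nat_lit 0) (nat_lit 284) (nat_lit 271) (nat_lit 225)))) (PT.nd (nat_lit 156) (PT.nd (nat_lit 78) (PT.lf (nat_lit 25612) (nat_lit 6) (nat_lit 337) (nat_lit 0) (nat_lit 285) (nat_lit 271) (nat_lit 224)) (PT.lf (nat_lit 24852) (nat_lit 6) (nat_lit 327) (nat_lit 0) (nat_lit 286) (nat_lit 271) (nat_lit 223))) (PT.nd (nat_lit 78) (PT.lf (nat_lit 24092) (nat_lit 6) (nat_lit 317) (nat_lit 0) (nat_lit 287) (nat_lit 271) (nat_lit 222)) (PT.lf (nat_lit 23408) (nat_lit 6) (nat_lit 308) (nat_lit 0) (nat_lit 288) (nat_lit 271) (nat_lit 221)))))) (PT.nd (nat_lit 624) (PT.nd (nat_lit 312) (PT.nd (nat_lit 156) (PT.nd (nat_lit 78) (PT.lf (nat_lit 22724)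 (nat_lit 6) (nat_lit 299) (nat_lit 5) (nat_lit 220) (nat_lit 272) (nat_lit 288)) (PT.lf (nat_lit 23484) (nat_lit 6) (nat_lit 309) (nat_lit 5) (nat_lit 221) (nat_lit 272) (nat_lit 287))) (PT.nd (nat_lit 78) (PT.lf (nat_lit 24168) (nat_lit 6) (nat_lit 318) (nat_lit 5) (nat_lit 222) (nat_lit 272) (nat_lit 286)) (PT.lf (nat_lit 24928) (nat_lit 6) (nat_lit 328) (nat_lit 5) (nat_lit 223) (nat_lit 272) (nat_lit 285)))) (PT.nd (nat_lit 156) (PT.nd (nat_lit 78) (PT.lf (nat_lit 25688) (nat_lit 6) (nat_lit 338) (nat_lit 5) (nat_lit 224) (nat_lit 272) (nat_lit 284)) (PT.lf (nat_lit 26524) (nat_lit 6) (nat_lit 349) (nat_lit 5) (nat_lit 225) (nat_lit 272) (nat_lit 283))) (PT.nd (nat_lit 78) (PT.lf (nat_lit 27284) (nat_lit 6) (nat_lit 359) (nat_lit 5) (nat_lit 226) (nat_lit 272) (nat_lit 282)) (PT.lf (nat_lit 28120) (nat_lit 6) (nat_lit 370) (nat_lit 5) (nat_lit 227) (nat_lit 272) (nat_lit 281))))) (PT.nd (nat_lit 312) (PT.nd (nat_lit 156) (PT.nd (nat_lit 78) (PT.lf (nat_lit 28956) (nat_lit 6) (nat_lit 381) (nat_lit 5)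 (nat_lit 228) (nat_lit 272) (nat_lit 280)) (PT.lf (nat_lit 29868) (nat_lit 6) (nat_lit 393) (nat_lit 5) (nat_lit 229) (nat_lit 272) (nat_lit 279))) (PT.nd (nat_lit 78) (PT.lf (nat_lit 30780) (nat_lit 6) (nat_lit 405) (nat_lit 5) (nat_lit 230) (nat_lit 272) (nat_lit 278)) (PT.lf (nat_lit 31692) (nat_lit 6) (nat_lit 417) (nat_lit 5) (nat_lit 231) (nat_lit 272) (nat_lit 277)))) (PT.nd (nat_lit 156) (PT.nd (nat_lit 78) (PT.lf (nat_lit 32604) (nat_lit 6) (nat_lit 429) (nat_lit 5) (nat_lit 232) (nat_lit 272) (nat_lit 276)) (PT.lf (nat_lit 33592) (nat_lit 6) (nat_lit 442) (nat_lit 5) (nat_lit 233) (nat_lit 272) (nat_lit 275))) (PT.nd (nat_lit 78) (PT.lf (nat_lit 34580) (nat_lit 6) (nat_lit 455) (nat_lit 5) (nat_lit 234) (nat_lit 272) (nat_lit 274)) (PT.lf (nat_lit 35720) (nat_lit 6) (nat_lit 470) (nat_lit 5) (nat_lit 235) (nat_lit 272) (nat_lit 273))))))) (PT.nd (nat_lit 1170) (PT.nd (nat_lit 546) (PT.nd (nat_lit 234) (PT.nd (nat_lit 78) (PT.lf (nat_lit 37620) (nat_lit 3) (nat_lit 495) (nat_lit 4) (nat_lit 236)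 (nat_lit 272) (nat_lit 272)) (PT.nd (nat_lit 78) (PT.lf (nat_lit 39368) (nat_lit 6) (nat_lit 518) (nat_lit 4) (nat_lit 237) (nat_lit 272) (nat_lit 271)) (PT.lf (nat_lit 41040) (nat_lit 6) (nat_lit 540) (nat_lit 4) (nat_lit 238) (nat_lit 272) (nat_lit 270)))) (PT.nd (nat_lit 156) (PT.nd (nat_lit 78) (PT.lf (nat_lit 42636) (nat_lit 6) (nat_lit 561) (nat_lit 4) (nat_lit 239) (nat_lit 272) (nat_lit 269)) (PT.lf (nat_lit 44156) (nat_lit 6) (nat_lit 581) (nat_lit 4) (nat_lit 240) (nat_lit 272) (nat_lit 268))) (PT.nd (nat_lit 78) (PT.lf (nat_lit 45600) (nat_lit 6) (nat_lit 600) (nat_lit 4) (nat_lit 241) (nat_lit 272) (nat_lit 267)) (PT.lf (nat_lit 46968) (nat_lit 6) (nat_lit 618) (nat_lit 4) (nat_lit 242) (nat_lit 272) (nat_lit 266))))) (PT.nd (nat_lit 312) (PT.nd (nat_lit 156) (PT.nd (nat_lit 78) (PT.lf (nat_lit 48260) (nat_lit 6) (nat_lit 635) (nat_lit 4) (nat_lit 243) (nat_lit 272) (nat_lit 265)) (PT.lf (nat_lit 49476) (nat_lit 6) (nat_lit 651) (nat_lit 4) (nat_lit 244) (nat_lit 272) (nat_lit 264))) (PT.nd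 (nat_lit 78) (PT.lf (nat_lit 50616) (nat_lit 6) (nat_lit 666) (nat_lit 4) (nat_lit 245) (nat_lit 272) (nat_lit 263)) (PT.lf (nat_lit 51680) (nat_lit 6) (nat_lit 680) (nat_lit 4) (nat_lit 246) (nat_lit 272) (nat_lit 262)))) (PT.nd (nat_lit 156) (PT.nd (nat_lit 78) (PT.lf (nat_lit 52668) (nat_lit 6) (nat_lit 693) (nat_lit 4) (nat_lit 247) (nat_lit 272) (nat_lit 261)) (PT.lf (nat_lit 53580) (nat_lit 6) (nat_lit 705) (nat_lit 4) (nat_lit 248) (nat_lit 272) (nat_lit 260))) (PT.nd (nat_lit 78) (PT.lf (nat_lit 53504) (nat_lit 6) (nat_lit 704) (nat_lit 4) (nat_lit 249) (nat_lit 272) (nat_lit 259)) (PT.lf (nat_lit 53428) (nat_lit 6) (nat_lit 703) (nat_lit 4) (nat_lit 250) (nat_lit 272) (nat_lit 258)))))) (PT.nd (nat_lit 624) (PT.nd (nat_lit 312) (PT.nd (nat_lit 156) (PT.nd (nat_lit 78) (PT.lf (nat_lit 53352) (nat_lit 6) (nat_lit 702) (nat_lit 4) (nat_lit 251) (nat_lit 272) (nat_lit 257)) (PT.lf (nat_lit 53276) (nat_lit 6) (nat_lit 701) (nat_lit 4) (nat_lit 252) (nat_lit 272) (nat_lit 256))) (PT.nd (nat_lit 78) (PT.lf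 (nat_lit 53200) (nat_lit 6) (nat_lit 700) (nat_lit 4) (nat_lit 253) (nat_lit 272) (nat_lit 255)) (PT.lf (nat_lit 53124) (nat_lit 3) (nat_lit 699) (nat_lit 2) (nat_lit 254) (nat_lit 272) (nat_lit 254)))) (PT.nd (nat_lit 156) (PT.nd (nat_lit 78) (PT.lf (nat_lit 53200) (nat_lit 6) (nat_lit 700) (nat_lit 2) (nat_lit 255) (nat_lit 272) (nat_lit 253)) (PT.lf (nat_lit 53276) (nat_lit 6) (nat_lit 701) (nat_lit 2) (nat_lit 256) (nat_lit 272) (nat_lit 252))) (PT.nd (nat_lit 78) (PT.lf (nat_lit 53352) (nat_lit 6) (nat_lit 702) (nat_lit 2) (nat_lit 257) (nat_lit 272) (nat_lit 251)) (PT.lf (nat_lit 53428) (nat_lit 6) (nat_lit 703) (nat_lit 2) (nat_lit 258) (nat_lit 272) (nat_lit 250))))) (PT.nd (nat_lit 312) (PT.nd (nat_lit 156) (PT.nd (nat_lit 78) (PT.lf (nat_lit 53504) (nat_lit 6) (nat_lit 704) (nat_lit 2) (nat_lit 259) (nat_lit 272) (nat_lit 249)) (PT.lf (nat_lit 53580) (nat_lit 6) (nat_lit 705) (nat_lit 2) (nat_lit 260) (nat_lit 272) (nat_lit 248))) (PT.nd (nat_lit 78) (PT.lf (nat_lit 52668) (nat_lit 6) (nat_lit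 693) (nat_lit 2) (nat_lit 261) (nat_lit 272) (nat_lit 247)) (PT.lf (nat_lit 51680) (nat_lit 6) (nat_lit 680) (nat_lit 2) (nat_lit 262) (nat_lit 272) (nat_lit 246)))) (PT.nd (nat_lit 156) (PT.nd (nat_lit 78) (PT.lf (nat_lit 50616) (nat_lit 6) (nat_lit 666) (nat_lit 2) (nat_lit 263) (nat_lit 272) (nat_lit 245)) (PT.lf (nat_lit 49476) (nat_lit 6) (nat_lit 651) (nat_lit 2) (nat_lit 264) (nat_lit 272) (nat_lit 244))) (PT.nd (nat_lit 78) (PT.lf (nat_lit 48260) (nat_lit 6) (nat_lit 635) (nat_lit 2) (nat_lit 265) (nat_lit 272) (nat_lit 243)) (PT.lf (nat_lit 46968) (nat_lit 6) (nat_lit 618) (nat_lit 2) (nat_lit 266) (nat_lit 272) (nat_lit 242))))))))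
noncomputable def pc38 : PT := (PT.nd (nat_lit 78156) (PT.nd (nat_lit 1170) (PT.nd (nat_lit 546) (PT.nd (nat_lit 234) (PT.nd (nat_lit 78) (PT.lf (nat_lit 45600) (nat_lit 6) (nat_lit 600) (nat_lit 2) (nat_lit 267) (nat_lit 272) (nat_lit 241)) (PT.nd (nat_lit 78) (PT.lf (nat_lit 44156) (nat_lit 6) (nat_lit 581) (nat_lit 2) (nat_lit 268) (nat_lit 272) (nat_lit 240)) (PT.lf (nat_lit 42636) (nat_lit 6) (nat_lit 561) (nat_lit 2) (nat_lit 269) (nat_lit 272) (nat_lit 239)))) (PT.nd (nat_lit 156) (PT.nd (nat_lit 78) (PT.lf (nat_lit 41040) (nat_lit 6) (nat_lit 540) (nat_lit 2) (nat_lit 270) (nat_lit 272) (nat_lit 238)) (PT.lf (nat_lit 39368) (nat_lit 6) (nat_lit 518) (nat_lit 2) (nat_lit 271) (nat_lit 272) (nat_lit 237))) (PT.nd (nat_lit 78) (PT.lf (nat_lit 37620) (nat_lit 3) (nat_lit 495) (nat_lit 0) (nat_lit 272) (nat_lit 272) (nat_lit 236)) (PT.lf (nat_lit 35720) (nat_lit 6) (nat_lit 470) (nat_lit 0) (nat_lit 273) (nat_lit 272) (nat_lit 235))))) (PT.nd (nat_lit 312) (PT.nd (nat_lit 156) (PT.nd (nat_lit 78) (PT.lf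 (nat_lit 34580) (nat_lit 6) (nat_lit 455) (nat_lit 0) (nat_lit 274) (nat_lit 272) (nat_lit 234)) (PT.lf (nat_lit 33592) (nat_lit 6) (nat_lit 442) (nat_lit 0) (nat_lit 275) (nat_lit 272) (nat_lit 233))) (PT.nd (nat_lit 78) (PT.lf (nat_lit 32604) (nat_lit 6) (nat_lit 429) (nat_lit 0) (nat_lit 276) (nat_lit 272) (nat_lit 232)) (PT.lf (nat_lit 31692) (nat_lit 6) (nat_lit 417) (nat_lit 0) (nat_lit 277) (nat_lit 272) (nat_lit 231)))) (PT.nd (nat_lit 156) (PT.nd (nat_lit 78) (PT.lf (nat_lit 30780) (nat_lit 6) (nat_lit 405) (nat_lit 0) (nat_lit 278) (nat_lit 272) (nat_lit 230)) (PT.lf (nat_lit 29868) (nat_lit 6) (nat_lit 393) (nat_lit 0) (nat_lit 279) (nat_lit 272) (nat_lit 229))) (PT.nd (nat_lit 78) (PT.lf (nat_lit 28956) (nat_lit 6) (nat_lit 381) (nat_lit 0) (nat_lit 280) (nat_lit 272) (nat_lit 228)) (PT.lf (nat_lit 28120) (nat_lit 6) (nat_lit 370) (nat_lit 0) (nat_lit 281) (nat_lit 272) (nat_lit 227)))))) (PT.nd (nat_lit 76362) (PT.nd (nat_lit 312) (PT.nd (nat_lit 156) (PT.nd (nat_lit 78) (PT.lf (nat_lit 27284)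 (nat_lit 6) (nat_lit 359) (nat_lit 0) (nat_lit 282) (nat_lit 272) (nat_lit 226)) (PT.lf (nat_lit 26524) (nat_lit 6) (nat_lit 349) (nat_lit 0) (nat_lit 283) (nat_lit 272) (nat_lit 225))) (PT.nd (nat_lit 78) (PT.lf (nat_lit 25688) (nat_lit 6) (nat_lit 338) (nat_lit 0) (nat_lit 284) (nat_lit 272) (nat_lit 224)) (PT.lf (nat_lit 24928) (nat_lit 6) (nat_lit 328) (nat_lit 0) (nat_lit 285) (nat_lit 272) (nat_lit 223)))) (PT.nd (nat_lit 156) (PT.nd (nat_lit 78) (PT.lf (nat_lit 24168) (nat_lit 6) (nat_lit 318) (nat_lit 0) (nat_lit 286) (nat_lit 272) (nat_lit 222)) (PT.lf (nat_lit 23484) (nat_lit 6) (nat_lit 309) (nat_lit 0) (nat_lit 287) (nat_lit 272) (nat_lit 221))) (PT.nd (nat_lit 75816) (PT.lf (nat_lit 22724) (nat_lit 6) (nat_lit 299) (nat_lit 0) (nat_lit 288) (nat_lit 272) (nat_lit 220)) (PT.lf (nat_lit 22116) (nat_lit 6) (nat_lit 291) (nat_lit 5) (nat_lit 219) (nat_lit 273) (nat_lit 288))))) (PT.nd (nat_lit 312) (PT.nd (nat_lit 156) (PT.nd (nat_lit 78) (PT.lf (nat_lit 22800) (nat_lit 6) (nat_lit 300) (nat_lit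 5) (nat_lit 220) (nat_lit 273) (nat_lit 287)) (PT.lf (nat_lit 23560) (nat_lit 6) (nat_lit 310) (nat_lit 5) (nat_lit 221) (nat_lit 273) (nat_lit 286))) (PT.nd (nat_lit 78) (PT.lf (nat_lit 24244) (nat_lit 6) (nat_lit 319) (nat_lit 5) (nat_lit 222) (nat_lit 273) (nat_lit 285)) (PT.lf (nat_lit 25004) (nat_lit 6) (nat_lit 329) (nat_lit 5) (nat_lit 223) (nat_lit 273) (nat_lit 284)))) (PT.nd (nat_lit 156) (PT.nd (nat_lit 78) (PT.lf (nat_lit 25764) (nat_lit 6) (nat_lit 339) (nat_lit 5) (nat_lit 224) (nat_lit 273) (nat_lit 283)) (PT.lf (nat_lit 26600) (nat_lit 6) (nat_lit 350) (nat_lit 5) (nat_lit 225) (nat_lit 273) (nat_lit 282))) (PT.nd (nat_lit 78) (PT.lf (nat_lit 27360) (nat_lit 6) (nat_lit 360) (nat_lit 5) (nat_lit 226) (nat_lit 273) (nat_lit 281)) (PT.lf (nat_lit 28196) (nat_lit 6) (nat_lit 371) (nat_lit 5) (nat_lit 227) (nat_lit 273) (nat_lit 280))))))) (PT.nd (nat_lit 1170) (PT.nd (nat_lit 546) (PT.nd (nat_lit 234) (PT.nd (nat_lit 78) (PT.lf (nat_lit 29032) (nat_lit 6) (nat_lit 382) (nat_lit 5) (nat_lit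 228) (nat_lit 273) (nat_lit 279)) (PT.nd (nat_lit 78) (PT.lf (nat_lit 29944) (nat_lit 6) (nat_lit 394) (nat_lit 5) (nat_lit 229) (nat_lit 273) (nat_lit 278)) (PT.lf (nat_lit 30856) (nat_lit 6) (nat_lit 406) (nat_lit 5) (nat_lit 230) (nat_lit 273) (nat_lit 277)))) (PT.nd (nat_lit 156) (PT.nd (nat_lit 78) (PT.lf (nat_lit 31768) (nat_lit 6) (nat_lit 418) (nat_lit 5) (nat_lit 231) (nat_lit 273) (nat_lit 276)) (PT.lf (nat_lit 32680) (nat_lit 6) (nat_lit 430) (nat_lit 5) (nat_lit 232) (nat_lit 273) (nat_lit 275))) (PT.nd (nat_lit 78) (PT.lf (nat_lit 33668) (nat_lit 6) (nat_lit 443) (nat_lit 5) (nat_lit 233) (nat_lit 273) (nat_lit 274)) (PT.lf (nat_lit 34656) (nat_lit 3) (nat_lit 456) (nat_lit 4) (nat_lit 234) (nat_lit 273) (nat_lit 273))))) (PT.nd (nat_lit 312) (PT.nd (nat_lit 156) (PT.nd (nat_lit 78) (PT.lf (nat_lit 35720) (nat_lit 6) (nat_lit 470) (nat_lit 4) (nat_lit 235) (nat_lit 273) (nat_lit 272)) (PT.lf (nat_lit 37544) (nat_lit 6) (nat_lit 494) (nat_lit 4) (nat_lit 236) (nat_lit 273) (nat_lit 271))) (PT.nd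 (nat_lit 78) (PT.lf (nat_lit 39292) (nat_lit 6) (nat_lit 517) (nat_lit 4) (nat_lit 237) (nat_lit 273) (nat_lit 270)) (PT.lf (nat_lit 40964) (nat_lit 6) (nat_lit 539) (nat_lit 4) (nat_lit 238) (nat_lit 273) (nat_lit 269)))) (PT.nd (nat_lit 156) (PT.nd (nat_lit 78) (PT.lf (nat_lit 42560) (nat_lit 6) (nat_lit 560) (nat_lit 4) (nat_lit 239) (nat_lit 273) (nat_lit 268)) (PT.lf (nat_lit 44080) (nat_lit 6) (nat_lit 580) (nat_lit 4) (nat_lit 240) (nat_lit 273) (nat_lit 267))) (PT.nd (nat_lit 78) (PT.lf (nat_lit 45524) (nat_lit 6) (nat_lit 599) (nat_lit 4) (nat_lit 241) (nat_lit 273) (nat_lit 266)) (PT.lf (nat_lit 46892) (nat_lit 6) (nat_lit 617) (nat_lit 4) (nat_lit 242) (nat_lit 273) (nat_lit 265)))))) (PT.nd (nat_lit 624) (PT.nd (nat_lit 312) (PT.nd (nat_lit 156) (PT.nd (nat_lit 78) (PT.lf (nat_lit 48184) (nat_lit 6) (nat_lit 634) (nat_lit 4) (nat_lit 243) (nat_lit 273) (nat_lit 264)) (PT.lf (nat_lit 49400) (nat_lit 6) (nat_lit 650) (nat_lit 4) (nat_lit 244) (nat_lit 273) (nat_lit 263))) (PT.nd (nat_lit 78) (PT.lf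 (nat_lit 50540) (nat_lit 6) (nat_lit 665) (nat_lit 4) (nat_lit 245) (nat_lit 273) (nat_lit 262)) (PT.lf (nat_lit 51604) (nat_lit 6) (nat_lit 679) (nat_lit 4) (nat_lit 246) (nat_lit 273) (nat_lit 261)))) (PT.nd (nat_lit 156) (PT.nd (nat_lit 78) (PT.lf (nat_lit 52592) (nat_lit 6) (nat_lit 692) (nat_lit 4) (nat_lit 247) (nat_lit 273) (nat_lit 260)) (PT.lf (nat_lit 52516) (nat_lit 6) (nat_lit 691) (nat_lit 4) (nat_lit 248) (nat_lit 273) (nat_lit 259))) (PT.nd (nat_lit 78) (PT.lf (nat_lit 52440) (nat_lit 6) (nat_lit 690) (nat_lit 4) (nat_lit 249) (nat_lit 273) (nat_lit 258)) (PT.lf (nat_lit 52364) (nat_lit 6) (nat_lit 689) (nat_lit 4) (nat_lit 250) (nat_lit 273) (nat_lit 257))))) (PT.nd (nat_lit 312) (PT.nd (nat_lit 156) (PT.nd (nat_lit 78) (PT.lf (nat_lit 52288) (nat_lit 6) (nat_lit 688) (nat_lit 4) (nat_lit 251) (nat_lit 273) (nat_lit 256)) (PT.lf (nat_lit 52212) (nat_lit 6) (nat_lit 687) (nat_lit 4) (nat_lit 252) (nat_lit 273) (nat_lit 255))) (PT.nd (nat_lit 78) (PT.lf (nat_lit 52136) (nat_lit 6) (nat_lit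 686) (nat_lit 4) (nat_lit 253) (nat_lit 273) (nat_lit 254)) (PT.lf (nat_lit 52136) (nat_lit 6) (nat_lit 686) (nat_lit 2) (nat_lit 254) (nat_lit 273) (nat_lit 253)))) (PT.nd (nat_lit 156) (PT.nd (nat_lit 78) (PT.lf (nat_lit 52212) (nat_lit 6) (nat_lit 687) (nat_lit 2) (nat_lit 255) (nat_lit 273) (nat_lit 252)) (PT.lf (nat_lit 52288) (nat_lit 6) (nat_lit 688) (nat_lit 2) (nat_lit 256) (nat_lit 273) (nat_lit 251))) (PT.nd (nat_lit 78) (PT.lf (nat_lit 52364) (nat_lit 6) (nat_lit 689) (nat_lit 2) (nat_lit 257) (nat_lit 273) (nat_lit 250)) (PT.lf (nat_lit 52440) (nat_lit 6) (nat_lit 690) (nat_lit 2) (nat_lit 258) (nat_lit 273) (nat_lit 249))))))))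
noncomputable def pc39 : PT := (PT.nd (nat_lit 78000) (PT.nd (nat_lit 1170) (PT.nd (nat_lit 546) (PT.nd (nat_lit 234) (PT.nd (nat_lit 78) (PT.lf (nat_lit 52516) (nat_lit 6) (nat_lit 691) (nat_lit 2) (nat_lit 259) (nat_lit 273) (nat_lit 248)) (PT.nd (nat_lit 78) (PT.lf (nat_lit 52592) (nat_lit 6) (nat_lit 692) (nat_lit 2) (nat_lit 260) (nat_lit 273) (nat_lit 247)) (PT.lf (nat_lit 51604) (nat_lit 6) (nat_lit 679) (nat_lit 2) (nat_lit 261) (nat_lit 273) (nat_lit 246)))) (PT.nd (nat_lit 156) (PT.nd (nat_lit 78) (PT.lf (nat_lit 50540) (nat_lit 6) (nat_lit 665) (nat_lit 2) (nat_lit 262) (nat_lit 273) (nat_lit 245)) (PT.lf (nat_lit 49400) (nat_lit 6) (nat_lit 650) (nat_lit 2) (nat_lit 263) (nat_lit 273) (nat_lit 244))) (PT.nd (nat_lit 78) (PT.lf (nat_lit 48184) (nat_lit 6) (nat_lit 634) (nat_lit 2) (nat_lit 264) (nat_lit 273) (nat_lit 243)) (PT.lf (nat_lit 46892) (nat_lit 6) (nat_lit 617) (nat_lit 2) (nat_lit 265) (nat_lit 273) (nat_lit 242))))) (PT.nd (nat_lit 312) (PT.nd (nat_lit 156) (PT.nd (nat_lit 78) (PT.lf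 (nat_lit 45524) (nat_lit 6) (nat_lit 599) (nat_lit 2) (nat_lit 266) (nat_lit 273) (nat_lit 241)) (PT.lf (nat_lit 44080) (nat_lit 6) (nat_lit 580) (nat_lit 2) (nat_lit 267) (nat_lit 273) (nat_lit 240))) (PT.nd (nat_lit 78) (PT.lf (nat_lit 42560) (nat_lit 6) (nat_lit 560) (nat_lit 2) (nat_lit 268) (nat_lit 273) (nat_lit 239)) (PT.lf (nat_lit 40964) (nat_lit 6) (nat_lit 539) (nat_lit 2) (nat_lit 269) (nat_lit 273) (nat_lit 238)))) (PT.nd (nat_lit 156) (PT.nd (nat_lit 78) (PT.lf (nat_lit 39292) (nat_lit 6) (nat_lit 517) (nat_lit 2) (nat_lit 270) (nat_lit 273) (nat_lit 237)) (PT.lf (nat_lit 37544) (nat_lit 6) (nat_lit 494) (nat_lit 2) (nat_lit 271) (nat_lit 273) (nat_lit 236))) (PT.nd (nat_lit 78) (PT.lf (nat_lit 35720) (nat_lit 6) (nat_lit 470) (nat_lit 2) (nat_lit 272) (nat_lit 273) (nat_lit 235)) (PT.lf (nat_lit 34656) (nat_lit 3) (nat_lit 456) (nat_lit 0) (nat_lit 273) (nat_lit 273) (nat_lit 234)))))) (PT.nd (nat_lit 624) (PT.nd (nat_lit 312) (PT.nd (nat_lit 156) (PT.nd (nat_lit 78) (PT.lf (nat_lit 33668)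 (nat_lit 6) (nat_lit 443) (nat_lit 0) (nat_lit 274) (nat_lit 273) (nat_lit 233)) (PT.lf (nat_lit 32680) (nat_lit 6) (nat_lit 430) (nat_lit 0) (nat_lit 275) (nat_lit 273) (nat_lit 232))) (PT.nd (nat_lit 78) (PT.lf (nat_lit 31768) (nat_lit 6) (nat_lit 418) (nat_lit 0) (nat_lit 276) (nat_lit 273) (nat_lit 231)) (PT.lf (nat_lit 30856) (nat_lit 6) (nat_lit 406) (nat_lit 0) (nat_lit 277) (nat_lit 273) (nat_lit 230)))) (PT.nd (nat_lit 156) (PT.nd (nat_lit 78) (PT.lf (nat_lit 29944) (nat_lit 6) (nat_lit 394) (nat_lit 0) (nat_lit 278) (nat_lit 273) (nat_lit 229)) (PT.lf (nat_lit 29032) (nat_lit 6) (nat_lit 382) (nat_lit 0) (nat_lit 279) (nat_lit 273) (nat_lit 228))) (PT.nd (nat_lit 78) (PT.lf (nat_lit 28196) (nat_lit 6) (nat_lit 371) (nat_lit 0) (nat_lit 280) (nat_lit 273) (nat_lit 227)) (PT.lf (nat_lit 27360) (nat_lit 6) (nat_lit 360) (nat_lit 0) (nat_lit 281) (nat_lit 273) (nat_lit 226))))) (PT.nd (nat_lit 312) (PT.nd (nat_lit 156) (PT.nd (nat_lit 78) (PT.lf (nat_lit 26600) (nat_lit 6) (nat_lit 350) (nat_lit 0)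 (nat_lit 282) (nat_lit 273) (nat_lit 225)) (PT.lf (nat_lit 25764) (nat_lit 6) (nat_lit 339) (nat_lit 0) (nat_lit 283) (nat_lit 273) (nat_lit 224))) (PT.nd (nat_lit 78) (PT.lf (nat_lit 25004) (nat_lit 6) (nat_lit 329) (nat_lit 0) (nat_lit 284) (nat_lit 273) (nat_lit 223)) (PT.lf (nat_lit 24244) (nat_lit 6) (nat_lit 319) (nat_lit 0) (nat_lit 285) (nat_lit 273) (nat_lit 222)))) (PT.nd (nat_lit 156) (PT.nd (nat_lit 78) (PT.lf (nat_lit 23560) (nat_lit 6) (nat_lit 310) (nat_lit 0) (nat_lit 286) (nat_lit 273) (nat_lit 221)) (PT.lf (nat_lit 22800) (nat_lit 6) (nat_lit 300) (nat_lit 0) (nat_lit 287) (nat_lit 273) (nat_lit 220))) (PT.nd (nat_lit 75660) (PT.lf (nat_lit 22116) (nat_lit 6) (nat_lit 291) (nat_lit 0) (nat_lit 288) (nat_lit 273) (nat_lit 219)) (PT.lf (nat_lit 20824) (nat_lit 6) (nat_lit 274) (nat_lit 5) (nat_lit 217) (nat_lit 274) (nat_lit 289))))))) (PT.nd (nat_lit 1170) (PT.nd (nat_lit 546) (PT.nd (nat_lit 234) (PT.nd (nat_lit 78) (PT.lf (nat_lit 21508) (nat_lit 6) (nat_lit 283) (nat_lit 5) (nat_lit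 218) (nat_lit 274) (nat_lit 288)) (PT.nd (nat_lit 78) (PT.lf (nat_lit 22192) (nat_lit 6) (nat_lit 292) (nat_lit 5) (nat_lit 219) (nat_lit 274) (nat_lit 287)) (PT.lf (nat_lit 22876) (nat_lit 6) (nat_lit 301) (nat_lit 5) (nat_lit 220) (nat_lit 274) (nat_lit 286)))) (PT.nd (nat_lit 156) (PT.nd (nat_lit 78) (PT.lf (nat_lit 23636) (nat_lit 6) (nat_lit 311) (nat_lit 5) (nat_lit 221) (nat_lit 274) (nat_lit 285)) (PT.lf (nat_lit 24320) (nat_lit 6) (nat_lit 320) (nat_lit 5) (nat_lit 222) (nat_lit 274) (nat_lit 284))) (PT.nd (nat_lit 78) (PT.lf (nat_lit 25080) (nat_lit 6) (nat_lit 330) (nat_lit 5) (nat_lit 223) (nat_lit 274) (nat_lit 283)) (PT.lf (nat_lit 25840) (nat_lit 6) (nat_lit 340) (nat_lit 5) (nat_lit 224) (nat_lit 274) (nat_lit 282))))) (PT.nd (nat_lit 312) (PT.nd (nat_lit 156) (PT.nd (nat_lit 78) (PT.lf (nat_lit 26676) (nat_lit 6) (nat_lit 351) (nat_lit 5) (nat_lit 225) (nat_lit 274) (nat_lit 281)) (PT.lf (nat_lit 27436) (nat_lit 6) (nat_lit 361) (nat_lit 5) (nat_lit 226) (nat_lit 274) (nat_lit 280))) (PT.nd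 (nat_lit 78) (PT.lf (nat_lit 28272) (nat_lit 6) (nat_lit 372) (nat_lit 5) (nat_lit 227) (nat_lit 274) (nat_lit 279)) (PT.lf (nat_lit 29108) (nat_lit 6) (nat_lit 383) (nat_lit 5) (nat_lit 228) (nat_lit 274) (nat_lit 278)))) (PT.nd (nat_lit 156) (PT.nd (nat_lit 78) (PT.lf (nat_lit 30020) (nat_lit 6) (nat_lit 395) (nat_lit 5) (nat_lit 229) (nat_lit 274) (nat_lit 277)) (PT.lf (nat_lit 30932) (nat_lit 6) (nat_lit 407) (nat_lit 5) (nat_lit 230) (nat_lit 274) (nat_lit 276))) (PT.nd (nat_lit 78) (PT.lf (nat_lit 31844) (nat_lit 6) (nat_lit 419) (nat_lit 5) (nat_lit 231) (nat_lit 274) (nat_lit 275)) (PT.lf (nat_lit 32756) (nat_lit 3) (nat_lit 431) (nat_lit 4) (nat_lit 232) (nat_lit 274) (nat_lit 274)))))) (PT.nd (nat_lit 624) (PT.nd (nat_lit 312) (PT.nd (nat_lit 156) (PT.nd (nat_lit 78) (PT.lf (nat_lit 33668) (nat_lit 6) (nat_lit 443) (nat_lit 4) (nat_lit 233) (nat_lit 274) (nat_lit 273)) (PT.lf (nat_lit 34580) (nat_lit 6) (nat_lit 455) (nat_lit 4) (nat_lit 234) (nat_lit 274) (nat_lit 272))) (PT.nd (nat_lit 78) (PT.lf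 (nat_lit 35644) (nat_lit 6) (nat_lit 469) (nat_lit 4) (nat_lit 235) (nat_lit 274) (nat_lit 271)) (PT.lf (nat_lit 37468) (nat_lit 6) (nat_lit 493) (nat_lit 4) (nat_lit 236) (nat_lit 274) (nat_lit 270)))) (PT.nd (nat_lit 156) (PT.nd (nat_lit 78) (PT.lf (nat_lit 39216) (nat_lit 6) (nat_lit 516) (nat_lit 4) (nat_lit 237) (nat_lit 274) (nat_lit 269)) (PT.lf (nat_lit 40888) (nat_lit 6) (nat_lit 538) (nat_lit 4) (nat_lit 238) (nat_lit 274) (nat_lit 268))) (PT.nd (nat_lit 78) (PT.lf (nat_lit 42484) (nat_lit 6) (nat_lit 559) (nat_lit 4) (nat_lit 239) (nat_lit 274) (nat_lit 267)) (PT.lf (nat_lit 44004) (nat_lit 6) (nat_lit 579) (nat_lit 4) (nat_lit 240) (nat_lit 274) (nat_lit 266))))) (PT.nd (nat_lit 312) (PT.nd (nat_lit 156) (PT.nd (nat_lit 78) (PT.lf (nat_lit 45448) (nat_lit 6) (nat_lit 598) (nat_lit 4) (nat_lit 241) (nat_lit 274) (nat_lit 265)) (PT.lf (nat_lit 46816) (nat_lit 6) (nat_lit 616) (nat_lit 4) (nat_lit 242) (nat_lit 274) (nat_lit 264))) (PT.nd (nat_lit 78) (PT.lf (nat_lit 48108) (nat_lit 6) (nat_lit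 633) (nat_lit 4) (nat_lit 243) (nat_lit 274) (nat_lit 263)) (PT.lf (nat_lit 49324) (nat_lit 6) (nat_lit 649) (nat_lit 4) (nat_lit 244) (nat_lit 274) (nat_lit 262)))) (PT.nd (nat_lit 156) (PT.nd (nat_lit 78) (PT.lf (nat_lit 50464) (nat_lit 6) (nat_lit 664) (nat_lit 4) (nat_lit 245) (nat_lit 274) (nat_lit 261)) (PT.lf (nat_lit 51528) (nat_lit 6) (nat_lit 678) (nat_lit 4) (nat_lit 246) (nat_lit 274) (nat_lit 260))) (PT.nd (nat_lit 78) (PT.lf (nat_lit 51452) (nat_lit 6) (nat_lit 677) (nat_lit 4) (nat_lit 247) (nat_lit 274) (nat_lit 259)) (PT.lf (nat_lit 51376) (nat_lit 6) (nat_lit 676) (nat_lit 4) (nat_lit 248) (nat_lit 274) (nat_lit 258))))))))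
noncomputable def pc40 : PT := (PT.nd (nat_lit 2340) (PT.nd (nat_lit 1170) (PT.nd (nat_lit 546) (PT.nd (nat_lit 234) (PT.nd (nat_lit 78) (PT.lf (nat_lit 51300) (nat_lit 6) (nat_lit 675) (nat_lit 4) (nat_lit 249) (nat_lit 274) (nat_lit 257)) (PT.nd (nat_lit 78) (PT.lf (nat_lit 51224) (nat_lit 6) (nat_lit 674) (nat_lit 4) (nat_lit 250) (nat_lit 274) (nat_lit 256)) (PT.lf (nat_lit 51148) (nat_lit 6) (nat_lit 673) (nat_lit 4) (nat_lit 251) (nat_lit 274) (nat_lit 255)))) (PT.nd (nat_lit 156) (PT.nd (nat_lit 78) (PT.lf (nat_lit 51072) (nat_lit 6) (nat_lit 672) (nat_lit 4) (nat_lit 252) (nat_lit 274) (nat_lit 254)) (PT.lf (nat_lit 50996) (nat_lit 3) (nat_lit 671) (nat_lit 2) (nat_lit 253) (nat_lit 274) (nat_lit 253))) (PT.nd (nat_lit 78) (PT.lf (nat_lit 51072) (nat_lit 6) (nat_lit 672) (nat_lit 2) (nat_lit 254) (nat_lit 274) (nat_lit 252)) (PT.lf (nat_lit 51148) (nat_lit 6) (nat_lit 673) (nat_lit 2) (nat_lit 255) (nat_lit 274) (nat_lit 251))))) (PT.nd (nat_lit 312) (PT.nd (nat_lit 156) (PT.nd (nat_lit 78) (PT.lf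 (nat_lit 51224) (nat_lit 6) (nat_lit 674) (nat_lit 2) (nat_lit 256) (nat_lit 274) (nat_lit 250)) (PT.lf (nat_lit 51300) (nat_lit 6) (nat_lit 675) (nat_lit 2) (nat_lit 257) (nat_lit 274) (nat_lit 249))) (PT.nd (nat_lit 78) (PT.lf (nat_lit 51376) (nat_lit 6) (nat_lit 676) (nat_lit 2) (nat_lit 258) (nat_lit 274) (nat_lit 248)) (PT.lf (nat_lit 51452) (nat_lit 6) (nat_lit 677) (nat_lit 2) (nat_lit 259) (nat_lit 274) (nat_lit 247)))) (PT.nd (nat_lit 156) (PT.nd (nat_lit 78) (PT.lf (nat_lit 51528) (nat_lit 6) (nat_lit 678) (nat_lit 2) (nat_lit 260) (nat_lit 274) (nat_lit 246)) (PT.lf (nat_lit 50464) (nat_lit 6) (nat_lit 664) (nat_lit 2) (nat_lit 261) (nat_lit 274) (nat_lit 245))) (PT.nd (nat_lit 78) (PT.lf (nat_lit 49324) (nat_lit 6) (nat_lit 649) (nat_lit 2) (nat_lit 262) (nat_lit 274) (nat_lit 244)) (PT.lf (nat_lit 48108) (nat_lit 6) (nat_lit 633) (nat_lit 2) (nat_lit 263) (nat_lit 274) (nat_lit 243)))))) (PT.nd (nat_lit 546) (PT.nd (nat_lit 234) (PT.nd (nat_lit 78) (PT.lf (nat_lit 46816) (nat_lit 6) (nat_lit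 616) (nat_lit 2) (nat_lit 264) (nat_lit 274) (nat_lit 242)) (PT.nd (nat_lit 78) (PT.lf (nat_lit 45448) (nat_lit 6) (nat_lit 598) (nat_lit 2) (nat_lit 265) (nat_lit 274) (nat_lit 241)) (PT.lf (nat_lit 44004) (nat_lit 6) (nat_lit 579) (nat_lit 2) (nat_lit 266) (nat_lit 274) (nat_lit 240)))) (PT.nd (nat_lit 156) (PT.nd (nat_lit 78) (PT.lf (nat_lit 42484) (nat_lit 6) (nat_lit 559) (nat_lit 2) (nat_lit 267) (nat_lit 274) (nat_lit 239)) (PT.lf (nat_lit 40888) (nat_lit 6) (nat_lit 538) (nat_lit 2) (nat_lit 268) (nat_lit 274) (nat_lit 238))) (PT.nd (nat_lit 78) (PT.lf (nat_lit 39216) (nat_lit 6) (nat_lit 516) (nat_lit 2) (nat_lit 269) (nat_lit 274) (nat_lit 237)) (PT.lf (nat_lit 37468) (nat_lit 6) (nat_lit 493) (nat_lit 2) (nat_lit 270) (nat_lit 274) (nat_lit 236))))) (PT.nd (nat_lit 312) (PT.nd (nat_lit 156) (PT.nd (nat_lit 78) (PT.lf (nat_lit 35644) (nat_lit 6) (nat_lit 469) (nat_lit 2) (nat_lit 271) (nat_lit 274) (nat_lit 235)) (PT.lf (nat_lit 34580) (nat_lit 6) (nat_lit 455) (nat_lit 2) (nat_lit 272) (nat_lit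 274) (nat_lit 234))) (PT.nd (nat_lit 78) (PT.lf (nat_lit 33668) (nat_lit 6) (nat_lit 443) (nat_lit 2) (nat_lit 273) (nat_lit 274) (nat_lit 233)) (PT.lf (nat_lit 32756) (nat_lit 3) (nat_lit 431) (nat_lit 0) (nat_lit 274) (nat_lit 274) (nat_lit 232)))) (PT.nd (nat_lit 156) (PT.nd (nat_lit 78) (PT.lf (nat_lit 31844) (nat_lit 6) (nat_lit 419) (nat_lit 0) (nat_lit 275) (nat_lit 274) (nat_lit 231)) (PT.lf (nat_lit 30932) (nat_lit 6) (nat_lit 407) (nat_lit 0) (nat_lit 276) (nat_lit 274) (nat_lit 230))) (PT.nd (nat_lit 78) (PT.lf (nat_lit 30020) (nat_lit 6) (nat_lit 395) (nat_lit 0) (nat_lit 277) (nat_lit 274) (nat_lit 229)) (PT.lf (nat_lit 29108) (nat_lit 6) (nat_lit 383) (nat_lit 0) (nat_lit 278) (nat_lit 274) (nat_lit 228))))))) (PT.nd (nat_lit 76596) (PT.nd (nat_lit 546) (PT.nd (nat_lit 234) (PT.nd (nat_lit 78) (PT.lf (nat_lit 28272) (nat_lit 6) (nat_lit 372) (nat_lit 0) (nat_lit 279) (nat_lit 274) (nat_lit 227)) (PT.nd (nat_lit 78) (PT.lf (nat_lit 27436) (nat_lit 6) (nat_lit 361) (nat_lit 0) (nat_lit 280)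 (nat_lit 274) (nat_lit 226)) (PT.lf (nat_lit 26676) (nat_lit 6) (nat_lit 351) (nat_lit 0) (nat_lit 281) (nat_lit 274) (nat_lit 225)))) (PT.nd (nat_lit 156) (PT.nd (nat_lit 78) (PT.lf (nat_lit 25840) (nat_lit 6) (nat_lit 340) (nat_lit 0) (nat_lit 282) (nat_lit 274) (nat_lit 224)) (PT.lf (nat_lit 25080) (nat_lit 6) (nat_lit 330) (nat_lit 0) (nat_lit 283) (nat_lit 274) (nat_lit 223))) (PT.nd (nat_lit 78) (PT.lf (nat_lit 24320) (nat_lit 6) (nat_lit 320) (nat_lit 0) (nat_lit 284) (nat_lit 274) (nat_lit 222)) (PT.lf (nat_lit 23636) (nat_lit 6) (nat_lit 311) (nat_lit 0) (nat_lit 285) (nat_lit 274) (nat_lit 221))))) (PT.nd (nat_lit 75738) (PT.nd (nat_lit 156) (PT.nd (nat_lit 78) (PT.lf (nat_lit 22876) (nat_lit 6) (nat_lit 301) (nat_lit 0) (nat_lit 286) (nat_lit 274) (nat_lit 220)) (PT.lf (nat_lit 22192) (nat_lit 6) (nat_lit 292) (nat_lit 0) (nat_lit 287) (nat_lit 274) (nat_lit 219))) (PT.nd (nat_lit 78) (PT.lf (nat_lit 21508) (nat_lit 6) (nat_lit 283) (nat_lit 0) (nat_lit 288) (nat_lit 274) (nat_lit 218)) (PT.lf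 (nat_lit 20824) (nat_lit 6) (nat_lit 274) (nat_lit 0) (nat_lit 289) (nat_lit 274) (nat_lit 217)))) (PT.nd (nat_lit 156) (PT.nd (nat_lit 78) (PT.lf (nat_lit 20216) (nat_lit 6) (nat_lit 266) (nat_lit 5) (nat_lit 216) (nat_lit 275) (nat_lit 289)) (PT.lf (nat_lit 20900) (nat_lit 6) (nat_lit 275) (nat_lit 5) (nat_lit 217) (nat_lit 275) (nat_lit 288))) (PT.nd (nat_lit 78) (PT.lf (nat_lit 21584) (nat_lit 6) (nat_lit 284) (nat_lit 5) (nat_lit 218) (nat_lit 275) (nat_lit 287)) (PT.lf (nat_lit 22268) (nat_lit 6) (nat_lit 293) (nat_lit 5) (nat_lit 219) (nat_lit 275) (nat_lit 286)))))) (PT.nd (nat_lit 624) (PT.nd (nat_lit 312) (PT.nd (nat_lit 156) (PT.nd (nat_lit 78) (PT.lf (nat_lit 22952) (nat_lit 6) (nat_lit 302) (nat_lit 5) (nat_lit 220) (nat_lit 275) (nat_lit 285)) (PT.lf (nat_lit 23712) (nat_lit 6) (nat_lit 312) (nat_lit 5) (nat_lit 221) (nat_lit 275) (nat_lit 284))) (PT.nd (nat_lit 78) (PT.lf (nat_lit 24396) (nat_lit 6) (nat_lit 321) (nat_lit 5) (nat_lit 222) (nat_lit 275) (nat_lit 283)) (PT.lf (nat_lit 25156)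 (nat_lit 6) (nat_lit 331) (nat_lit 5) (nat_lit 223) (nat_lit 275) (nat_lit 282)))) (PT.nd (nat_lit 156) (PT.nd (nat_lit 78) (PT.lf (nat_lit 25916) (nat_lit 6) (nat_lit 341) (nat_lit 5) (nat_lit 224) (nat_lit 275) (nat_lit 281)) (PT.lf (nat_lit 26752) (nat_lit 6) (nat_lit 352) (nat_lit 5) (nat_lit 225) (nat_lit 275) (nat_lit 280))) (PT.nd (nat_lit 78) (PT.lf (nat_lit 27512) (nat_lit 6) (nat_lit 362) (nat_lit 5) (nat_lit 226) (nat_lit 275) (nat_lit 279)) (PT.lf (nat_lit 28348) (nat_lit 6) (nat_lit 373) (nat_lit 5) (nat_lit 227) (nat_lit 275) (nat_lit 278))))) (PT.nd (nat_lit 312) (PT.nd (nat_lit 156) (PT.nd (nat_lit 78) (PT.lf (nat_lit 29184) (nat_lit 6) (nat_lit 384) (nat_lit 5) (nat_lit 228) (nat_lit 275) (nat_lit 277)) (PT.lf (nat_lit 30096) (nat_lit 6) (nat_lit 396) (nat_lit 5) (nat_lit 229) (nat_lit 275) (nat_lit 276))) (PT.nd (nat_lit 78) (PT.lf (nat_lit 31008) (nat_lit 3) (nat_lit 408) (nat_lit 4) (nat_lit 230) (nat_lit 275) (nat_lit 275)) (PT.lf (nat_lit 31844) (nat_lit 6) (nat_lit 419) (nat_lit 4)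 (nat_lit 231) (nat_lit 275) (nat_lit 274)))) (PT.nd (nat_lit 156) (PT.nd (nat_lit 78) (PT.lf (nat_lit 32680) (nat_lit 6) (nat_lit 430) (nat_lit 4) (nat_lit 232) (nat_lit 275) (nat_lit 273)) (PT.lf (nat_lit 33592) (nat_lit 6) (nat_lit 442) (nat_lit 4) (nat_lit 233) (nat_lit 275) (nat_lit 272))) (PT.nd (nat_lit 78) (PT.lf (nat_lit 34504) (nat_lit 6) (nat_lit 454) (nat_lit 4) (nat_lit 234) (nat_lit 275) (nat_lit 271)) (PT.lf (nat_lit 35568) (nat_lit 6) (nat_lit 468) (nat_lit 4) (nat_lit 235) (nat_lit 275) (nat_lit 270))))))))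
noncomputable def pc41 : PT := (PT.nd (nat_lit 2418) (PT.nd (nat_lit 1170) (PT.nd (nat_lit 546) (PT.nd (nat_lit 234) (PT.nd (nat_lit 78) (PT.lf (nat_lit 37392) (nat_lit 6) (nat_lit 492) (nat_lit 4) (nat_lit 236) (nat_lit 275) (nat_lit 269)) (PT.nd (nat_lit 78) (PT.lf (nat_lit 39140) (nat_lit 6) (nat_lit 515) (nat_lit 4) (nat_lit 237) (nat_lit 275) (nat_lit 268)) (PT.lf (nat_lit 40812) (nat_lit 6) (nat_lit 537) (nat_lit 4) (nat_lit 238) (nat_lit 275) (nat_lit 267)))) (PT.nd (nat_lit 156) (PT.nd (nat_lit 78) (PT.lf (nat_lit 42408) (nat_lit 6) (nat_lit 558) (nat_lit 4) (nat_lit 239) (nat_lit 275) (nat_lit 266)) (PT.lf (nat_lit 43928) (nat_lit 6) (nat_lit 578) (nat_lit 4) (nat_lit 240) (nat_lit 275) (nat_lit 265))) (PT.nd (nat_lit 78) (PT.lf (nat_lit 45372) (nat_lit 6) (nat_lit 597) (nat_lit 4) (nat_lit 241) (nat_lit 275) (nat_lit 264)) (PT.lf (nat_lit 46740) (nat_lit 6) (nat_lit 615) (nat_lit 4) (nat_lit 242) (nat_lit 275) (nat_lit 263))))) (PT.nd (nat_lit 312) (PT.nd (nat_lit 156) (PT.nd (nat_lit 78) (PT.lf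 (nat_lit 48032) (nat_lit 6) (nat_lit 632) (nat_lit 4) (nat_lit 243) (nat_lit 275) (nat_lit 262)) (PT.lf (nat_lit 49248) (nat_lit 6) (nat_lit 648) (nat_lit 4) (nat_lit 244) (nat_lit 275) (nat_lit 261))) (PT.nd (nat_lit 78) (PT.lf (nat_lit 50388) (nat_lit 6) (nat_lit 663) (nat_lit 4) (nat_lit 245) (nat_lit 275) (nat_lit 260)) (PT.lf (nat_lit 50312) (nat_lit 6) (nat_lit 662) (nat_lit 4) (nat_lit 246) (nat_lit 275) (nat_lit 259)))) (PT.nd (nat_lit 156) (PT.nd (nat_lit 78) (PT.lf (nat_lit 50236) (nat_lit 6) (nat_lit 661) (nat_lit 4) (nat_lit 247) (nat_lit 275) (nat_lit 258)) (PT.lf (nat_lit 50160) (nat_lit 6) (nat_lit 660) (nat_lit 4) (nat_lit 248) (nat_lit 275) (nat_lit 257))) (PT.nd (nat_lit 78) (PT.lf (nat_lit 50084) (nat_lit 6) (nat_lit 659) (nat_lit 4) (nat_lit 249) (nat_lit 275) (nat_lit 256)) (PT.lf (nat_lit 50008) (nat_lit 6) (nat_lit 658) (nat_lit 4) (nat_lit 250) (nat_lit 275) (nat_lit 255)))))) (PT.nd (nat_lit 624) (PT.nd (nat_lit 312) (PT.nd (nat_lit 156) (PT.nd (nat_lit 78) (PT.lf (nat_lit 49932)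 (nat_lit 6) (nat_lit 657) (nat_lit 4) (nat_lit 251) (nat_lit 275) (nat_lit 254)) (PT.lf (nat_lit 49856) (nat_lit 6) (nat_lit 656) (nat_lit 4) (nat_lit 252) (nat_lit 275) (nat_lit 253))) (PT.nd (nat_lit 78) (PT.lf (nat_lit 49856) (nat_lit 6) (nat_lit 656) (nat_lit 2) (nat_lit 253) (nat_lit 275) (nat_lit 252)) (PT.lf (nat_lit 49932) (nat_lit 6) (nat_lit 657) (nat_lit 2) (nat_lit 254) (nat_lit 275) (nat_lit 251)))) (PT.nd (nat_lit 156) (PT.nd (nat_lit 78) (PT.lf (nat_lit 50008) (nat_lit 6) (nat_lit 658) (nat_lit 2) (nat_lit 255) (nat_lit 275) (nat_lit 250)) (PT.lf (nat_lit 50084) (nat_lit 6) (nat_lit 659) (nat_lit 2) (nat_lit 256) (nat_lit 275) (nat_lit 249))) (PT.nd (nat_lit 78) (PT.lf (nat_lit 50160) (nat_lit 6) (nat_lit 660) (nat_lit 2) (nat_lit 257) (nat_lit 275) (nat_lit 248)) (PT.lf (nat_lit 50236) (nat_lit 6) (nat_lit 661) (nat_lit 2) (nat_lit 258) (nat_lit 275) (nat_lit 247))))) (PT.nd (nat_lit 312) (PT.nd (nat_lit 156) (PT.nd (nat_lit 78) (PT.lf (nat_lit 50312) (nat_lit 6) (nat_lit 662) (nat_lit 2)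 (nat_lit 259) (nat_lit 275) (nat_lit 246)) (PT.lf (nat_lit 50388) (nat_lit 6) (nat_lit 663) (nat_lit 2) (nat_lit 260) (nat_lit 275) (nat_lit 245))) (PT.nd (nat_lit 78) (PT.lf (nat_lit 49248) (nat_lit 6) (nat_lit 648) (nat_lit 2) (nat_lit 261) (nat_lit 275) (nat_lit 244)) (PT.lf (nat_lit 48032) (nat_lit 6) (nat_lit 632) (nat_lit 2) (nat_lit 262) (nat_lit 275) (nat_lit 243)))) (PT.nd (nat_lit 156) (PT.nd (nat_lit 78) (PT.lf (nat_lit 46740) (nat_lit 6) (nat_lit 615) (nat_lit 2) (nat_lit 263) (nat_lit 275) (nat_lit 242)) (PT.lf (nat_lit 45372) (nat_lit 6) (nat_lit 597) (nat_lit 2) (nat_lit 264) (nat_lit 275) (nat_lit 241))) (PT.nd (nat_lit 78) (PT.lf (nat_lit 43928) (nat_lit 6) (nat_lit 578) (nat_lit 2) (nat_lit 265) (nat_lit 275) (nat_lit 240)) (PT.lf (nat_lit 42408) (nat_lit 6) (nat_lit 558) (nat_lit 2) (nat_lit 266) (nat_lit 275) (nat_lit 239))))))) (PT.nd (nat_lit 1170) (PT.nd (nat_lit 546) (PT.nd (nat_lit 234) (PT.nd (nat_lit 78) (PT.lf (nat_lit 40812) (nat_lit 6) (nat_lit 537) (nat_lit 2) (nat_lit 267)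 (nat_lit 275) (nat_lit 238)) (PT.nd (nat_lit 78) (PT.lf (nat_lit 39140) (nat_lit 6) (nat_lit 515) (nat_lit 2) (nat_lit 268) (nat_lit 275) (nat_lit 237)) (PT.lf (nat_lit 37392) (nat_lit 6) (nat_lit 492) (nat_lit 2) (nat_lit 269) (nat_lit 275) (nat_lit 236)))) (PT.nd (nat_lit 156) (PT.nd (nat_lit 78) (PT.lf (nat_lit 35568) (nat_lit 6) (nat_lit 468) (nat_lit 2) (nat_lit 270) (nat_lit 275) (nat_lit 235)) (PT.lf (nat_lit 34504) (nat_lit 6) (nat_lit 454) (nat_lit 2) (nat_lit 271) (nat_lit 275) (nat_lit 234))) (PT.nd (nat_lit 78) (PT.lf (nat_lit 33592) (nat_lit 6) (nat_lit 442) (nat_lit 2) (nat_lit 272) (nat_lit 275) (nat_lit 233)) (PT.lf (nat_lit 32680) (nat_lit 6) (nat_lit 430) (nat_lit 2) (nat_lit 273) (nat_lit 275) (nat_lit 232))))) (PT.nd (nat_lit 312) (PT.nd (nat_lit 156) (PT.nd (nat_lit 78) (PT.lf (nat_lit 31844) (nat_lit 6) (nat_lit 419) (nat_lit 2) (nat_lit 274) (nat_lit 275) (nat_lit 231)) (PT.lf (nat_lit 31008) (nat_lit 3) (nat_lit 408) (nat_lit 0) (nat_lit 275) (nat_lit 275) (nat_lit 230))) (PT.nd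 (nat_lit 78) (PT.lf (nat_lit 30096) (nat_lit 6) (nat_lit 396) (nat_lit 0) (nat_lit 276) (nat_lit 275) (nat_lit 229)) (PT.lf (nat_lit 29184) (nat_lit 6) (nat_lit 384) (nat_lit 0) (nat_lit 277) (nat_lit 275) (nat_lit 228)))) (PT.nd (nat_lit 156) (PT.nd (nat_lit 78) (PT.lf (nat_lit 28348) (nat_lit 6) (nat_lit 373) (nat_lit 0) (nat_lit 278) (nat_lit 275) (nat_lit 227)) (PT.lf (nat_lit 27512) (nat_lit 6) (nat_lit 362) (nat_lit 0) (nat_lit 279) (nat_lit 275) (nat_lit 226))) (PT.nd (nat_lit 78) (PT.lf (nat_lit 26752) (nat_lit 6) (nat_lit 352) (nat_lit 0) (nat_lit 280) (nat_lit 275) (nat_lit 225)) (PT.lf (nat_lit 25916) (nat_lit 6) (nat_lit 341) (nat_lit 0) (nat_lit 281) (nat_lit 275) (nat_lit 224)))))) (PT.nd (nat_lit 75894) (PT.nd (nat_lit 312) (PT.nd (nat_lit 156) (PT.nd (nat_lit 78) (PT.lf (nat_lit 25156) (nat_lit 6) (nat_lit 331) (nat_lit 0) (nat_lit 282) (nat_lit 275) (nat_lit 223)) (PT.lf (nat_lit 24396) (nat_lit 6) (nat_lit 321) (nat_lit 0) (nat_lit 283) (nat_lit 275) (nat_lit 222))) (PT.nd (nat_lit 78)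 (PT.lf (nat_lit 23712) (nat_lit 6) (nat_lit 312) (nat_lit 0) (nat_lit 284) (nat_lit 275) (nat_lit 221)) (PT.lf (nat_lit 22952) (nat_lit 6) (nat_lit 302) (nat_lit 0) (nat_lit 285) (nat_lit 275) (nat_lit 220)))) (PT.nd (nat_lit 156) (PT.nd (nat_lit 78) (PT.lf (nat_lit 22268) (nat_lit 6) (nat_lit 293) (nat_lit 0) (nat_lit 286) (nat_lit 275) (nat_lit 219)) (PT.lf (nat_lit 21584) (nat_lit 6) (nat_lit 284) (nat_lit 0) (nat_lit 287) (nat_lit 275) (nat_lit 218))) (PT.nd (nat_lit 78) (PT.lf (nat_lit 20900) (nat_lit 6) (nat_lit 275) (nat_lit 0) (nat_lit 288) (nat_lit 275) (nat_lit 217)) (PT.lf (nat_lit 20216) (nat_lit 6) (nat_lit 266) (nat_lit 0) (nat_lit 289) (nat_lit 275) (nat_lit 216))))) (PT.nd (nat_lit 312) (PT.nd (nat_lit 156) (PT.nd (nat_lit 78) (PT.lf (nat_lit 19076) (nat_lit 6) (nat_lit 251) (nat_lit 5) (nat_lit 214) (nat_lit 276) (nat_lit 290)) (PT.lf (nat_lit 19684) (nat_lit 6) (nat_lit 259) (nat_lit 5) (nat_lit 215) (nat_lit 276) (nat_lit 289))) (PT.nd (nat_lit 78) (PT.lf (nat_lit 20292) (nat_lit 6) (nat_lit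 267) (nat_lit 5) (nat_lit 216) (nat_lit 276) (nat_lit 288)) (PT.lf (nat_lit 20976) (nat_lit 6) (nat_lit 276) (nat_lit 5) (nat_lit 217) (nat_lit 276) (nat_lit 287)))) (PT.nd (nat_lit 156) (PT.nd (nat_lit 78) (PT.lf (nat_lit 21660) (nat_lit 6) (nat_lit 285) (nat_lit 5) (nat_lit 218) (nat_lit 276) (nat_lit 286)) (PT.lf (nat_lit 22344) (nat_lit 6) (nat_lit 294) (nat_lit 5) (nat_lit 219) (nat_lit 276) (nat_lit 285))) (PT.nd (nat_lit 78) (PT.lf (nat_lit 23028) (nat_lit 6) (nat_lit 303) (nat_lit 5) (nat_lit 220) (nat_lit 276) (nat_lit 284)) (PT.lf (nat_lit 23788) (nat_lit 6) (nat_lit 313) (nat_lit 5) (nat_lit 221) (nat_lit 276) (nat_lit 283))))))))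
noncomputable def pc42 : PT := (PT.nd (nat_lit 2418) (PT.nd (nat_lit 1170) (PT.nd (nat_lit 546) (PT.nd (nat_lit 234) (PT.nd (nat_lit 78) (PT.lf (nat_lit 24472) (nat_lit 6) (nat_lit 322) (nat_lit 5) (nat_lit 222) (nat_lit 276) (nat_lit 282)) (PT.nd (nat_lit 78) (PT.lf (nat_lit 25232) (nat_lit 6) (nat_lit 332) (nat_lit 5) (nat_lit 223) (nat_lit 276) (nat_lit 281)) (PT.lf (nat_lit 25992) (nat_lit 6) (nat_lit 342) (nat_lit 5) (nat_lit 224) (nat_lit 276) (nat_lit 280)))) (PT.nd (nat_lit 156) (PT.nd (nat_lit 78) (PT.lf (nat_lit 26828) (nat_lit 6) (nat_lit 353) (nat_lit 5) (nat_lit 225) (nat_lit 276) (nat_lit 279)) (PT.lf (nat_lit 27588) (nat_lit 6) (nat_lit 363) (nat_lit 5) (nat_lit 226) (nat_lit 276) (nat_lit 278))) (PT.nd (nat_lit 78) (PT.lf (nat_lit 28424) (nat_lit 6) (nat_lit 374) (nat_lit 5) (nat_lit 227) (nat_lit 276) (nat_lit 277)) (PT.lf (nat_lit 29260) (nat_lit 3) (nat_lit 385) (nat_lit 4) (nat_lit 228) (nat_lit 276) (nat_lit 276))))) (PT.nd (nat_lit 312) (PT.nd (nat_lit 156) (PT.nd (nat_lit 78) (PT.lf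 (nat_lit 30096) (nat_lit 6) (nat_lit 396) (nat_lit 4) (nat_lit 229) (nat_lit 276) (nat_lit 275)) (PT.lf (nat_lit 30932) (nat_lit 6) (nat_lit 407) (nat_lit 4) (nat_lit 230) (nat_lit 276) (nat_lit 274))) (PT.nd (nat_lit 78) (PT.lf (nat_lit 31768) (nat_lit 6) (nat_lit 418) (nat_lit 4) (nat_lit 231) (nat_lit 276) (nat_lit 273)) (PT.lf (nat_lit 32604) (nat_lit 6) (nat_lit 429) (nat_lit 4) (nat_lit 232) (nat_lit 276) (nat_lit 272)))) (PT.nd (nat_lit 156) (PT.nd (nat_lit 78) (PT.lf (nat_lit 33516) (nat_lit 6) (nat_lit 441) (nat_lit 4) (nat_lit 233) (nat_lit 276) (nat_lit 271)) (PT.lf (nat_lit 34428) (nat_lit 6) (nat_lit 453) (nat_lit 4) (nat_lit 234) (nat_lit 276) (nat_lit 270))) (PT.nd (nat_lit 78) (PT.lf (nat_lit 35492) (nat_lit 6) (nat_lit 467) (nat_lit 4) (nat_lit 235) (nat_lit 276) (nat_lit 269)) (PT.lf (nat_lit 37316) (nat_lit 6) (nat_lit 491) (nat_lit 4) (nat_lit 236) (nat_lit 276) (nat_lit 268)))))) (PT.nd (nat_lit 624) (PT.nd (nat_lit 312) (PT.nd (nat_lit 156) (PT.nd (nat_lit 78) (PT.lf (nat_lit 39064)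 (nat_lit 6) (nat_lit 514) (nat_lit 4) (nat_lit 237) (nat_lit 276) (nat_lit 267)) (PT.lf (nat_lit 40736) (nat_lit 6) (nat_lit 536) (nat_lit 4) (nat_lit 238) (nat_lit 276) (nat_lit 266))) (PT.nd (nat_lit 78) (PT.lf (nat_lit 42332) (nat_lit 6) (nat_lit 557) (nat_lit 4) (nat_lit 239) (nat_lit 276) (nat_lit 265)) (PT.lf (nat_lit 43852) (nat_lit 6) (nat_lit 577) (nat_lit 4) (nat_lit 240) (nat_lit 276) (nat_lit 264)))) (PT.nd (nat_lit 156) (PT.nd (nat_lit 78) (PT.lf (nat_lit 45296) (nat_lit 6) (nat_lit 596) (nat_lit 4) (nat_lit 241) (nat_lit 276) (nat_lit 263)) (PT.lf (nat_lit 46664) (nat_lit 6) (nat_lit 614) (nat_lit 4) (nat_lit 242) (nat_lit 276) (nat_lit 262))) (PT.nd (nat_lit 78) (PT.lf (nat_lit 47956) (nat_lit 6) (nat_lit 631) (nat_lit 4) (nat_lit 243) (nat_lit 276) (nat_lit 261)) (PT.lf (nat_lit 49172) (nat_lit 6) (nat_lit 647) (nat_lit 4) (nat_lit 244) (nat_lit 276) (nat_lit 260))))) (PT.nd (nat_lit 312) (PT.nd (nat_lit 156) (PT.nd (nat_lit 78) (PT.lf (nat_lit 49096) (nat_lit 6) (nat_lit 646) (nat_lit 4)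 (nat_lit 245) (nat_lit 276) (nat_lit 259)) (PT.lf (nat_lit 49020) (nat_lit 6) (nat_lit 645) (nat_lit 4) (nat_lit 246) (nat_lit 276) (nat_lit 258))) (PT.nd (nat_lit 78) (PT.lf (nat_lit 48944) (nat_lit 6) (nat_lit 644) (nat_lit 4) (nat_lit 247) (nat_lit 276) (nat_lit 257)) (PT.lf (nat_lit 48868) (nat_lit 6) (nat_lit 643) (nat_lit 4) (nat_lit 248) (nat_lit 276) (nat_lit 256)))) (PT.nd (nat_lit 156) (PT.nd (nat_lit 78) (PT.lf (nat_lit 48792) (nat_lit 6) (nat_lit 642) (nat_lit 4) (nat_lit 249) (nat_lit 276) (nat_lit 255)) (PT.lf (nat_lit 48716) (nat_lit 6) (nat_lit 641) (nat_lit 4) (nat_lit 250) (nat_lit 276) (nat_lit 254))) (PT.nd (nat_lit 78) (PT.lf (nat_lit 48640) (nat_lit 6) (nat_lit 640) (nat_lit 4) (nat_lit 251) (nat_lit 276) (nat_lit 253)) (PT.lf (nat_lit 48564) (nat_lit 3) (nat_lit 639) (nat_lit 2) (nat_lit 252) (nat_lit 276) (nat_lit 252))))))) (PT.nd (nat_lit 1170) (PT.nd (nat_lit 546) (PT.nd (nat_lit 234) (PT.nd (nat_lit 78) (PT.lf (nat_lit 48640) (nat_lit 6) (nat_lit 640) (nat_lit 2) (nat_lit 253)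 (nat_lit 276) (nat_lit 251)) (PT.nd (nat_lit 78) (PT.lf (nat_lit 48716) (nat_lit 6) (nat_lit 641) (nat_lit 2) (nat_lit 254) (nat_lit 276) (nat_lit 250)) (PT.lf (nat_lit 48792) (nat_lit 6) (nat_lit 642) (nat_lit 2) (nat_lit 255) (nat_lit 276) (nat_lit 249)))) (PT.nd (nat_lit 156) (PT.nd (nat_lit 78) (PT.lf (nat_lit 48868) (nat_lit 6) (nat_lit 643) (nat_lit 2) (nat_lit 256) (nat_lit 276) (nat_lit 248)) (PT.lf (nat_lit 48944) (nat_lit 6) (nat_lit 644) (nat_lit 2) (nat_lit 257) (nat_lit 276) (nat_lit 247))) (PT.nd (nat_lit 78) (PT.lf (nat_lit 49020) (nat_lit 6) (nat_lit 645) (nat_lit 2) (nat_lit 258) (nat_lit 276) (nat_lit 246)) (PT.lf (nat_lit 49096) (nat_lit 6) (nat_lit 646) (nat_lit 2) (nat_lit 259) (nat_lit 276) (nat_lit 245))))) (PT.nd (nat_lit 312) (PT.nd (nat_lit 156) (PT.nd (nat_lit 78) (PT.lf (nat_lit 49172) (nat_lit 6) (nat_lit 647) (nat_lit 2) (nat_lit 260) (nat_lit 276) (nat_lit 244)) (PT.lf (nat_lit 47956) (nat_lit 6) (nat_lit 631) (nat_lit 2) (nat_lit 261) (nat_lit 276) (nat_lit 243))) (PT.nd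 (nat_lit 78) (PT.lf (nat_lit 46664) (nat_lit 6) (nat_lit 614) (nat_lit 2) (nat_lit 262) (nat_lit 276) (nat_lit 242)) (PT.lf (nat_lit 45296) (nat_lit 6) (nat_lit 596) (nat_lit 2) (nat_lit 263) (nat_lit 276) (nat_lit 241)))) (PT.nd (nat_lit 156) (PT.nd (nat_lit 78) (PT.lf (nat_lit 43852) (nat_lit 6) (nat_lit 577) (nat_lit 2) (nat_lit 264) (nat_lit 276) (nat_lit 240)) (PT.lf (nat_lit 42332) (nat_lit 6) (nat_lit 557) (nat_lit 2) (nat_lit 265) (nat_lit 276) (nat_lit 239))) (PT.nd (nat_lit 78) (PT.lf (nat_lit 40736) (nat_lit 6) (nat_lit 536) (nat_lit 2) (nat_lit 266) (nat_lit 276) (nat_lit 238)) (PT.lf (nat_lit 39064) (nat_lit 6) (nat_lit 514) (nat_lit 2) (nat_lit 267) (nat_lit 276) (nat_lit 237)))))) (PT.nd (nat_lit 624) (PT.nd (nat_lit 312) (PT.nd (nat_lit 156) (PT.nd (nat_lit 78) (PT.lf (nat_lit 37316) (nat_lit 6) (nat_lit 491) (nat_lit 2) (nat_lit 268) (nat_lit 276) (nat_lit 236)) (PT.lf (nat_lit 35492) (nat_lit 6) (nat_lit 467) (nat_lit 2) (nat_lit 269) (nat_lit 276) (nat_lit 235))) (PT.nd (nat_lit 78) (PT.lf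 (nat_lit 34428) (nat_lit 6) (nat_lit 453) (nat_lit 2) (nat_lit 270) (nat_lit 276) (nat_lit 234)) (PT.lf (nat_lit 33516) (nat_lit 6) (nat_lit 441) (nat_lit 2) (nat_lit 271) (nat_lit 276) (nat_lit 233)))) (PT.nd (nat_lit 156) (PT.nd (nat_lit 78) (PT.lf (nat_lit 32604) (nat_lit 6) (nat_lit 429) (nat_lit 2) (nat_lit 272) (nat_lit 276) (nat_lit 232)) (PT.lf (nat_lit 31768) (nat_lit 6) (nat_lit 418) (nat_lit 2) (nat_lit 273) (nat_lit 276) (nat_lit 231))) (PT.nd (nat_lit 78) (PT.lf (nat_lit 30932) (nat_lit 6) (nat_lit 407) (nat_lit 2) (nat_lit 274) (nat_lit 276) (nat_lit 230)) (PT.lf (nat_lit 30096) (nat_lit 6) (nat_lit 396) (nat_lit 2) (nat_lit 275) (nat_lit 276) (nat_lit 229))))) (PT.nd (nat_lit 312) (PT.nd (nat_lit 156) (PT.nd (nat_lit 78) (PT.lf (nat_lit 29260) (nat_lit 3) (nat_lit 385) (nat_lit 0) (nat_lit 276) (nat_lit 276) (nat_lit 228)) (PT.lf (nat_lit 28424) (nat_lit 6) (nat_lit 374) (nat_lit 0) (nat_lit 277) (nat_lit 276) (nat_lit 227))) (PT.nd (nat_lit 78) (PT.lf (nat_lit 27588) (nat_lit 6) (nat_lit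 363) (nat_lit 0) (nat_lit 278) (nat_lit 276) (nat_lit 226)) (PT.lf (nat_lit 26828) (nat_lit 6) (nat_lit 353) (nat_lit 0) (nat_lit 279) (nat_lit 276) (nat_lit 225)))) (PT.nd (nat_lit 156) (PT.nd (nat_lit 78) (PT.lf (nat_lit 25992) (nat_lit 6) (nat_lit 342) (nat_lit 0) (nat_lit 280) (nat_lit 276) (nat_lit 224)) (PT.lf (nat_lit 25232) (nat_lit 6) (nat_lit 332) (nat_lit 0) (nat_lit 281) (nat_lit 276) (nat_lit 223))) (PT.nd (nat_lit 78) (PT.lf (nat_lit 24472) (nat_lit 6) (nat_lit 322) (nat_lit 0) (nat_lit 282) (nat_lit 276) (nat_lit 222)) (PT.lf (nat_lit 23788) (nat_lit 6) (nat_lit 313) (nat_lit 0) (nat_lit 283) (nat_lit 276) (nat_lit 221))))))))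
noncomputable def pc43 : PT := (PT.nd (nat_lit 77532) (PT.nd (nat_lit 76284) (PT.nd (nat_lit 75660) (PT.nd (nat_lit 234) (PT.nd (nat_lit 78) (PT.lf (nat_lit 23028) (nat_lit 6) (nat_lit 303) (nat_lit 0) (nat_lit 284) (nat_lit 276) (nat_lit 220)) (PT.nd (nat_lit 78) (PT.lf (nat_lit 22344) (nat_lit 6) (nat_lit 294) (nat_lit 0) (nat_lit 285) (nat_lit 276) (nat_lit 219)) (PT.lf (nat_lit 21660) (nat_lit 6) (nat_lit 285) (nat_lit 0) (nat_lit 286) (nat_lit 276) (nat_lit 218)))) (PT.nd (nat_lit 156) (PT.nd (nat_lit 78) (PT.lf (nat_lit 20976) (nat_lit 6) (nat_lit 276) (nat_lit 0) (nat_lit 287) (nat_lit 276) (nat_lit 217)) (PT.lf (nat_lit 20292) (nat_lit 6) (nat_lit 267) (nat_lit 0) (nat_lit 288) (nat_lit 276) (nat_lit 216))) (PT.nd (nat_lit 78) (PT.lf (nat_lit 19684) (nat_lit 6) (nat_lit 259) (nat_lit 0) (nat_lit 289) (nat_lit 276) (nat_lit 215)) (PT.lf (nat_lit 19076) (nat_lit 6) (nat_lit 251) (nat_lit 0) (nat_lit 290) (nat_lit 276) (nat_lit 214))))) (PT.nd (nat_lit 312) (PT.nd (nat_lit 156) (PT.nd (nat_lit 78)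 (PT.lf (nat_lit 18544) (nat_lit 6) (nat_lit 244) (nat_lit 5) (nat_lit 213) (nat_lit 277) (nat_lit 290)) (PT.lf (nat_lit 19152) (nat_lit 6) (nat_lit 252) (nat_lit 5) (nat_lit 214) (nat_lit 277) (nat_lit 289))) (PT.nd (nat_lit 78) (PT.lf (nat_lit 19760) (nat_lit 6) (nat_lit 260) (nat_lit 5) (nat_lit 215) (nat_lit 277) (nat_lit 288)) (PT.lf (nat_lit 20368) (nat_lit 6) (nat_lit 268) (nat_lit 5) (nat_lit 216) (nat_lit 277) (nat_lit 287)))) (PT.nd (nat_lit 156) (PT.nd (nat_lit 78) (PT.lf (nat_lit 21052) (nat_lit 6) (nat_lit 277) (nat_lit 5) (nat_lit 217) (nat_lit 277) (nat_lit 286)) (PT.lf (nat_lit 21736) (nat_lit 6) (nat_lit 286) (nat_lit 5) (nat_lit 218) (nat_lit 277) (nat_lit 285))) (PT.nd (nat_lit 78) (PT.lf (nat_lit 22420) (nat_lit 6) (nat_lit 295) (nat_lit 5) (nat_lit 219) (nat_lit 277) (nat_lit 284)) (PT.lf (nat_lit 23104) (nat_lit 6) (nat_lit 304) (nat_lit 5) (nat_lit 220) (nat_lit 277) (nat_lit 283)))))) (PT.nd (nat_lit 624) (PT.nd (nat_lit 312) (PT.nd (nat_lit 156) (PT.nd (nat_lit 78) (PT.lf (nat_lit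 23864) (nat_lit 6) (nat_lit 314) (nat_lit 5) (nat_lit 221) (nat_lit 277) (nat_lit 282)) (PT.lf (nat_lit 24548) (nat_lit 6) (nat_lit 323) (nat_lit 5) (nat_lit 222) (nat_lit 277) (nat_lit 281))) (PT.nd (nat_lit 78) (PT.lf (nat_lit 25308) (nat_lit 6) (nat_lit 333) (nat_lit 5) (nat_lit 223) (nat_lit 277) (nat_lit 280)) (PT.lf (nat_lit 26068) (nat_lit 6) (nat_lit 343) (nat_lit 5) (nat_lit 224) (nat_lit 277) (nat_lit 279)))) (PT.nd (nat_lit 156) (PT.nd (nat_lit 78) (PT.lf (nat_lit 26904) (nat_lit 6) (nat_lit 354) (nat_lit 5) (nat_lit 225) (nat_lit 277) (nat_lit 278)) (PT.lf (nat_lit 27664) (nat_lit 3) (nat_lit 364) (nat_lit 4) (nat_lit 226) (nat_lit 277) (nat_lit 277))) (PT.nd (nat_lit 78) (PT.lf (nat_lit 28424) (nat_lit 6) (nat_lit 374) (nat_lit 4) (nat_lit 227) (nat_lit 277) (nat_lit 276)) (PT.lf (nat_lit 29184) (nat_lit 6) (nat_lit 384) (nat_lit 4) (nat_lit 228) (nat_lit 277) (nat_lit 275))))) (PT.nd (nat_lit 312) (PT.nd (nat_lit 156) (PT.nd (nat_lit 78) (PT.lf (nat_lit 30020) (nat_lit 6) (nat_lit 395) (nat_lit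 4) (nat_lit 229) (nat_lit 277) (nat_lit 274)) (PT.lf (nat_lit 30856) (nat_lit 6) (nat_lit 406) (nat_lit 4) (nat_lit 230) (nat_lit 277) (nat_lit 273))) (PT.nd (nat_lit 78) (PT.lf (nat_lit 31692) (nat_lit 6) (nat_lit 417) (nat_lit 4) (nat_lit 231) (nat_lit 277) (nat_lit 272)) (PT.lf (nat_lit 32528) (nat_lit 6) (nat_lit 428) (nat_lit 4) (nat_lit 232) (nat_lit 277) (nat_lit 271)))) (PT.nd (nat_lit 156) (PT.nd (nat_lit 78) (PT.lf (nat_lit 33440) (nat_lit 6) (nat_lit 440) (nat_lit 4) (nat_lit 233) (nat_lit 277) (nat_lit 270)) (PT.lf (nat_lit 34352) (nat_lit 6) (nat_lit 452) (nat_lit 4) (nat_lit 234) (nat_lit 277) (nat_lit 269))) (PT.nd (nat_lit 78) (PT.lf (nat_lit 35416) (nat_lit 6) (nat_lit 466) (nat_lit 4) (nat_lit 235) (nat_lit 277) (nat_lit 268)) (PT.lf (nat_lit 37240) (nat_lit 6) (nat_lit 490) (nat_lit 4) (nat_lit 236) (nat_lit 277) (nat_lit 267))))))) (PT.nd (nat_lit 1170) (PT.nd (nat_lit 546) (PT.nd (nat_lit 234) (PT.nd (nat_lit 78) (PT.lf (nat_lit 38988) (nat_lit 6) (nat_lit 513) (nat_lit 4) (nat_lit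 237) (nat_lit 277) (nat_lit 266)) (PT.nd (nat_lit 78) (PT.lf (nat_lit 40660) (nat_lit 6) (nat_lit 535) (nat_lit 4) (nat_lit 238) (nat_lit 277) (nat_lit 265)) (PT.lf (nat_lit 42256) (nat_lit 6) (nat_lit 556) (nat_lit 4) (nat_lit 239) (nat_lit 277) (nat_lit 264)))) (PT.nd (nat_lit 156) (PT.nd (nat_lit 78) (PT.lf (nat_lit 43776) (nat_lit 6) (nat_lit 576) (nat_lit 4) (nat_lit 240) (nat_lit 277) (nat_lit 263)) (PT.lf (nat_lit 45220) (nat_lit 6) (nat_lit 595) (nat_lit 4) (nat_lit 241) (nat_lit 277) (nat_lit 262))) (PT.nd (nat_lit 78) (PT.lf (nat_lit 46588) (nat_lit 6) (nat_lit 613) (nat_lit 4) (nat_lit 242) (nat_lit 277) (nat_lit 261)) (PT.lf (nat_lit 47880) (nat_lit 6) (nat_lit 630) (nat_lit 4) (nat_lit 243) (nat_lit 277) (nat_lit 260))))) (PT.nd (nat_lit 312) (PT.nd (nat_lit 156) (PT.nd (nat_lit 78) (PT.lf (nat_lit 47804) (nat_lit 6) (nat_lit 629) (nat_lit 4) (nat_lit 244) (nat_lit 277) (nat_lit 259)) (PT.lf (nat_lit 47728) (nat_lit 6) (nat_lit 628) (nat_lit 4) (nat_lit 245) (nat_lit 277) (nat_lit 258))) (PT.nd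 (nat_lit 78) (PT.lf (nat_lit 47652) (nat_lit 6) (nat_lit 627) (nat_lit 4) (nat_lit 246) (nat_lit 277) (nat_lit 257)) (PT.lf (nat_lit 47576) (nat_lit 6) (nat_lit 626) (nat_lit 4) (nat_lit 247) (nat_lit 277) (nat_lit 256)))) (PT.nd (nat_lit 156) (PT.nd (nat_lit 78) (PT.lf (nat_lit 47500) (nat_lit 6) (nat_lit 625) (nat_lit 4) (nat_lit 248) (nat_lit 277) (nat_lit 255)) (PT.lf (nat_lit 47424) (nat_lit 6) (nat_lit 624) (nat_lit 4) (nat_lit 249) (nat_lit 277) (nat_lit 254))) (PT.nd (nat_lit 78) (PT.lf (nat_lit 47348) (nat_lit 6) (nat_lit 623) (nat_lit 4) (nat_lit 250) (nat_lit 277) (nat_lit 253)) (PT.lf (nat_lit 47272) (nat_lit 6) (nat_lit 622) (nat_lit 4) (nat_lit 251) (nat_lit 277) (nat_lit 252)))))) (PT.nd (nat_lit 624) (PT.nd (nat_lit 312) (PT.nd (nat_lit 156) (PT.nd (nat_lit 78) (PT.lf (nat_lit 47272) (nat_lit 6) (nat_lit 622) (nat_lit 2) (nat_lit 252) (nat_lit 277) (nat_lit 251)) (PT.lf (nat_lit 47348) (nat_lit 6) (nat_lit 623) (nat_lit 2) (nat_lit 253) (nat_lit 277) (nat_lit 250))) (PT.nd (nat_lit 78) (PT.lf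 (nat_lit 47424) (nat_lit 6) (nat_lit 624) (nat_lit 2) (nat_lit 254) (nat_lit 277) (nat_lit 249)) (PT.lf (nat_lit 47500) (nat_lit 6) (nat_lit 625) (nat_lit 2) (nat_lit 255) (nat_lit 277) (nat_lit 248)))) (PT.nd (nat_lit 156) (PT.nd (nat_lit 78) (PT.lf (nat_lit 47576) (nat_lit 6) (nat_lit 626) (nat_lit 2) (nat_lit 256) (nat_lit 277) (nat_lit 247)) (PT.lf (nat_lit 47652) (nat_lit 6) (nat_lit 627) (nat_lit 2) (nat_lit 257) (nat_lit 277) (nat_lit 246))) (PT.nd (nat_lit 78) (PT.lf (nat_lit 47728) (nat_lit 6) (nat_lit 628) (nat_lit 2) (nat_lit 258) (nat_lit 277) (nat_lit 245)) (PT.lf (nat_lit 47804) (nat_lit 6) (nat_lit 629) (nat_lit 2) (nat_lit 259) (nat_lit 277) (nat_lit 244))))) (PT.nd (nat_lit 312) (PT.nd (nat_lit 156) (PT.nd (nat_lit 78) (PT.lf (nat_lit 47880) (nat_lit 6) (nat_lit 630) (nat_lit 2) (nat_lit 260) (nat_lit 277) (nat_lit 243)) (PT.lf (nat_lit 46588) (nat_lit 6) (nat_lit 613) (nat_lit 2) (nat_lit 261) (nat_lit 277) (nat_lit 242))) (PT.nd (nat_lit 78) (PT.lf (nat_lit 45220) (nat_lit 6) (nat_lit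 595) (nat_lit 2) (nat_lit 262) (nat_lit 277) (nat_lit 241)) (PT.lf (nat_lit 43776) (nat_lit 6) (nat_lit 576) (nat_lit 2) (nat_lit 263) (nat_lit 277) (nat_lit 240)))) (PT.nd (nat_lit 156) (PT.nd (nat_lit 78) (PT.lf (nat_lit 42256) (nat_lit 6) (nat_lit 556) (nat_lit 2) (nat_lit 264) (nat_lit 277) (nat_lit 239)) (PT.lf (nat_lit 40660) (nat_lit 6) (nat_lit 535) (nat_lit 2) (nat_lit 265) (nat_lit 277) (nat_lit 238))) (PT.nd (nat_lit 78) (PT.lf (nat_lit 38988) (nat_lit 6) (nat_lit 513) (nat_lit 2) (nat_lit 266) (nat_lit 277) (nat_lit 237)) (PT.lf (nat_lit 37240) (nat_lit 6) (nat_lit 490) (nat_lit 2) (nat_lit 267) (nat_lit 277) (nat_lit 236))))))))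
noncomputable def pc44 : PT := (PT.nd (nat_lit 77376) (PT.nd (nat_lit 1170) (PT.nd (nat_lit 546) (PT.nd (nat_lit 234) (PT.nd (nat_lit 78) (PT.lf (nat_lit 35416) (nat_lit 6) (nat_lit 466) (nat_lit 2) (nat_lit 268) (nat_lit 277) (nat_lit 235)) (PT.nd (nat_lit 78) (PT.lf (nat_lit 34352) (nat_lit 6) (nat_lit 452) (nat_lit 2) (nat_lit 269) (nat_lit 277) (nat_lit 234)) (PT.lf (nat_lit 33440) (nat_lit 6) (nat_lit 440) (nat_lit 2) (nat_lit 270) (nat_lit 277) (nat_lit 233)))) (PT.nd (nat_lit 156) (PT.nd (nat_lit 78) (PT.lf (nat_lit 32528) (nat_lit 6) (nat_lit 428) (nat_lit 2) (nat_lit 271) (nat_lit 277) (nat_lit 232)) (PT.lf (nat_lit 31692) (nat_lit 6) (nat_lit 417) (nat_lit 2) (nat_lit 272) (nat_lit 277) (nat_lit 231))) (PT.nd (nat_lit 78) (PT.lf (nat_lit 30856) (nat_lit 6) (nat_lit 406) (nat_lit 2) (nat_lit 273) (nat_lit 277) (nat_lit 230)) (PT.lf (nat_lit 30020) (nat_lit 6) (nat_lit 395) (nat_lit 2) (nat_lit 274) (nat_lit 277) (nat_lit 229))))) (PT.nd (nat_lit 312) (PT.nd (nat_lit 156) (PT.nd (nat_lit 78) (PT.lf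 (nat_lit 29184) (nat_lit 6) (nat_lit 384) (nat_lit 2) (nat_lit 275) (nat_lit 277) (nat_lit 228)) (PT.lf (nat_lit 28424) (nat_lit 6) (nat_lit 374) (nat_lit 2) (nat_lit 276) (nat_lit 277) (nat_lit 227))) (PT.nd (nat_lit 78) (PT.lf (nat_lit 27664) (nat_lit 3) (nat_lit 364) (nat_lit 0) (nat_lit 277) (nat_lit 277) (nat_lit 226)) (PT.lf (nat_lit 26904) (nat_lit 6) (nat_lit 354) (nat_lit 0) (nat_lit 278) (nat_lit 277) (nat_lit 225)))) (PT.nd (nat_lit 156) (PT.nd (nat_lit 78) (PT.lf (nat_lit 26068) (nat_lit 6) (nat_lit 343) (nat_lit 0) (nat_lit 279) (nat_lit 277) (nat_lit 224)) (PT.lf (nat_lit 25308) (nat_lit 6) (nat_lit 333) (nat_lit 0) (nat_lit 280) (nat_lit 277) (nat_lit 223))) (PT.nd (nat_lit 78) (PT.lf (nat_lit 24548) (nat_lit 6) (nat_lit 323) (nat_lit 0) (nat_lit 281) (nat_lit 277) (nat_lit 222)) (PT.lf (nat_lit 23864) (nat_lit 6) (nat_lit 314) (nat_lit 0) (nat_lit 282) (nat_lit 277) (nat_lit 221)))))) (PT.nd (nat_lit 75582) (PT.nd (nat_lit 312) (PT.nd (nat_lit 156) (PT.nd (nat_lit 78) (PT.lf (nat_lit 23104)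 (nat_lit 6) (nat_lit 304) (nat_lit 0) (nat_lit 283) (nat_lit 277) (nat_lit 220)) (PT.lf (nat_lit 22420) (nat_lit 6) (nat_lit 295) (nat_lit 0) (nat_lit 284) (nat_lit 277) (nat_lit 219))) (PT.nd (nat_lit 78) (PT.lf (nat_lit 21736) (nat_lit 6) (nat_lit 286) (nat_lit 0) (nat_lit 285) (nat_lit 277) (nat_lit 218)) (PT.lf (nat_lit 21052) (nat_lit 6) (nat_lit 277) (nat_lit 0) (nat_lit 286) (nat_lit 277) (nat_lit 217)))) (PT.nd (nat_lit 156) (PT.nd (nat_lit 78) (PT.lf (nat_lit 20368) (nat_lit 6) (nat_lit 268) (nat_lit 0) (nat_lit 287) (nat_lit 277) (nat_lit 216)) (PT.lf (nat_lit 19760) (nat_lit 6) (nat_lit 260) (nat_lit 0) (nat_lit 288) (nat_lit 277) (nat_lit 215))) (PT.nd (nat_lit 78) (PT.lf (nat_lit 19152) (nat_lit 6) (nat_lit 252) (nat_lit 0) (nat_lit 289) (nat_lit 277) (nat_lit 214)) (PT.lf (nat_lit 18544) (nat_lit 6) (nat_lit 244) (nat_lit 0) (nat_lit 290) (nat_lit 277) (nat_lit 213))))) (PT.nd (nat_lit 312) (PT.nd (nat_lit 156) (PT.nd (nat_lit 78) (PT.lf (nat_lit 17480) (nat_lit 6) (nat_lit 230) (nat_lit 5)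 (nat_lit 211) (nat_lit 278) (nat_lit 291)) (PT.lf (nat_lit 18012) (nat_lit 6) (nat_lit 237) (nat_lit 5) (nat_lit 212) (nat_lit 278) (nat_lit 290))) (PT.nd (nat_lit 78) (PT.lf (nat_lit 18620) (nat_lit 6) (nat_lit 245) (nat_lit 5) (nat_lit 213) (nat_lit 278) (nat_lit 289)) (PT.lf (nat_lit 19228) (nat_lit 6) (nat_lit 253) (nat_lit 5) (nat_lit 214) (nat_lit 278) (nat_lit 288)))) (PT.nd (nat_lit 156) (PT.nd (nat_lit 78) (PT.lf (nat_lit 19836) (nat_lit 6) (nat_lit 261) (nat_lit 5) (nat_lit 215) (nat_lit 278) (nat_lit 287)) (PT.lf (nat_lit 20444) (nat_lit 6) (nat_lit 269) (nat_lit 5) (nat_lit 216) (nat_lit 278) (nat_lit 286))) (PT.nd (nat_lit 78) (PT.lf (nat_lit 21128) (nat_lit 6) (nat_lit 278) (nat_lit 5) (nat_lit 217) (nat_lit 278) (nat_lit 285)) (PT.lf (nat_lit 21812) (nat_lit 6) (nat_lit 287) (nat_lit 5) (nat_lit 218) (nat_lit 278) (nat_lit 284))))))) (PT.nd (nat_lit 1170) (PT.nd (nat_lit 546) (PT.nd (nat_lit 234) (PT.nd (nat_lit 78) (PT.lf (nat_lit 22496) (nat_lit 6) (nat_lit 296) (nat_lit 5) (nat_lit 219)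 (nat_lit 278) (nat_lit 283)) (PT.nd (nat_lit 78) (PT.lf (nat_lit 23180) (nat_lit 6) (nat_lit 305) (nat_lit 5) (nat_lit 220) (nat_lit 278) (nat_lit 282)) (PT.lf (nat_lit 23940) (nat_lit 6) (nat_lit 315) (nat_lit 5) (nat_lit 221) (nat_lit 278) (nat_lit 281)))) (PT.nd (nat_lit 156) (PT.nd (nat_lit 78) (PT.lf (nat_lit 24624) (nat_lit 6) (nat_lit 324) (nat_lit 5) (nat_lit 222) (nat_lit 278) (nat_lit 280)) (PT.lf (nat_lit 25384) (nat_lit 6) (nat_lit 334) (nat_lit 5) (nat_lit 223) (nat_lit 278) (nat_lit 279))) (PT.nd (nat_lit 78) (PT.lf (nat_lit 26144) (nat_lit 3) (nat_lit 344) (nat_lit 4) (nat_lit 224) (nat_lit 278) (nat_lit 278)) (PT.lf (nat_lit 26904) (nat_lit 6) (nat_lit 354) (nat_lit 4) (nat_lit 225) (nat_lit 278) (nat_lit 277))))) (PT.nd (nat_lit 312) (PT.nd (nat_lit 156) (PT.nd (nat_lit 78) (PT.lf (nat_lit 27588) (nat_lit 6) (nat_lit 363) (nat_lit 4) (nat_lit 226) (nat_lit 278) (nat_lit 276)) (PT.lf (nat_lit 28348) (nat_lit 6) (nat_lit 373) (nat_lit 4) (nat_lit 227) (nat_lit 278) (nat_lit 275))) (PT.nd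 (nat_lit 78) (PT.lf (nat_lit 29108) (nat_lit 6) (nat_lit 383) (nat_lit 4) (nat_lit 228) (nat_lit 278) (nat_lit 274)) (PT.lf (nat_lit 29944) (nat_lit 6) (nat_lit 394) (nat_lit 4) (nat_lit 229) (nat_lit 278) (nat_lit 273)))) (PT.nd (nat_lit 156) (PT.nd (nat_lit 78) (PT.lf (nat_lit 30780) (nat_lit 6) (nat_lit 405) (nat_lit 4) (nat_lit 230) (nat_lit 278) (nat_lit 272)) (PT.lf (nat_lit 31616) (nat_lit 6) (nat_lit 416) (nat_lit 4) (nat_lit 231) (nat_lit 278) (nat_lit 271))) (PT.nd (nat_lit 78) (PT.lf (nat_lit 32452) (nat_lit 6) (nat_lit 427) (nat_lit 4) (nat_lit 232) (nat_lit 278) (nat_lit 270)) (PT.lf (nat_lit 33364) (nat_lit 6) (nat_lit 439) (nat_lit 4) (nat_lit 233) (nat_lit 278) (nat_lit 269)))))) (PT.nd (nat_lit 624) (PT.nd (nat_lit 312) (PT.nd (nat_lit 156) (PT.nd (nat_lit 78) (PT.lf (nat_lit 34276) (nat_lit 6) (nat_lit 451) (nat_lit 4) (nat_lit 234) (nat_lit 278) (nat_lit 268)) (PT.lf (nat_lit 35340) (nat_lit 6) (nat_lit 465) (nat_lit 4) (nat_lit 235) (nat_lit 278) (nat_lit 267))) (PT.nd (nat_lit 78) (PT.lf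 (nat_lit 37164) (nat_lit 6) (nat_lit 489) (nat_lit 4) (nat_lit 236) (nat_lit 278) (nat_lit 266)) (PT.lf (nat_lit 38912) (nat_lit 6) (nat_lit 512) (nat_lit 4) (nat_lit 237) (nat_lit 278) (nat_lit 265)))) (PT.nd (nat_lit 156) (PT.nd (nat_lit 78) (PT.lf (nat_lit 40584) (nat_lit 6) (nat_lit 534) (nat_lit 4) (nat_lit 238) (nat_lit 278) (nat_lit 264)) (PT.lf (nat_lit 42180) (nat_lit 6) (nat_lit 555) (nat_lit 4) (nat_lit 239) (nat_lit 278) (nat_lit 263))) (PT.nd (nat_lit 78) (PT.lf (nat_lit 43700) (nat_lit 6) (nat_lit 575) (nat_lit 4) (nat_lit 240) (nat_lit 278) (nat_lit 262)) (PT.lf (nat_lit 45144) (nat_lit 6) (nat_lit 594) (nat_lit 4) (nat_lit 241) (nat_lit 278) (nat_lit 261))))) (PT.nd (nat_lit 312) (PT.nd (nat_lit 156) (PT.nd (nat_lit 78) (PT.lf (nat_lit 46512) (nat_lit 6) (nat_lit 612) (nat_lit 4) (nat_lit 242) (nat_lit 278) (nat_lit 260)) (PT.lf (nat_lit 46436) (nat_lit 6) (nat_lit 611) (nat_lit 4) (nat_lit 243) (nat_lit 278) (nat_lit 259))) (PT.nd (nat_lit 78) (PT.lf (nat_lit 46360) (nat_lit 6) (nat_lit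 610) (nat_lit 4) (nat_lit 244) (nat_lit 278) (nat_lit 258)) (PT.lf (nat_lit 46284) (nat_lit 6) (nat_lit 609) (nat_lit 4) (nat_lit 245) (nat_lit 278) (nat_lit 257)))) (PT.nd (nat_lit 156) (PT.nd (nat_lit 78) (PT.lf (nat_lit 46208) (nat_lit 6) (nat_lit 608) (nat_lit 4) (nat_lit 246) (nat_lit 278) (nat_lit 256)) (PT.lf (nat_lit 46132) (nat_lit 6) (nat_lit 607) (nat_lit 4) (nat_lit 247) (nat_lit 278) (nat_lit 255))) (PT.nd (nat_lit 78) (PT.lf (nat_lit 46056) (nat_lit 6) (nat_lit 606) (nat_lit 4) (nat_lit 248) (nat_lit 278) (nat_lit 254)) (PT.lf (nat_lit 45980) (nat_lit 6) (nat_lit 605) (nat_lit 4) (nat_lit 249) (nat_lit 278) (nat_lit 253))))))))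
noncomputable def pc45 : PT := (PT.nd (nat_lit 2418) (PT.nd (nat_lit 1170) (PT.nd (nat_lit 546) (PT.nd (nat_lit 234) (PT.nd (nat_lit 78) (PT.lf (nat_lit 45904) (nat_lit 6) (nat_lit 604) (nat_lit 4) (nat_lit 250) (nat_lit 278) (nat_lit 252)) (PT.nd (nat_lit 78) (PT.lf (nat_lit 45828) (nat_lit 3) (nat_lit 603) (nat_lit 2) (nat_lit 251) (nat_lit 278) (nat_lit 251)) (PT.lf (nat_lit 45904) (nat_lit 6) (nat_lit 604) (nat_lit 2) (nat_lit 252) (nat_lit 278) (nat_lit 250)))) (PT.nd (nat_lit 156) (PT.nd (nat_lit 78) (PT.lf (nat_lit 45980) (nat_lit 6) (nat_lit 605) (nat_lit 2) (nat_lit 253) (nat_lit 278) (nat_lit 249)) (PT.lf (nat_lit 46056) (nat_lit 6) (nat_lit 606) (nat_lit 2) (nat_lit 254) (nat_lit 278) (nat_lit 248))) (PT.nd (nat_lit 78) (PT.lf (nat_lit 46132) (nat_lit 6) (nat_lit 607) (nat_lit 2) (nat_lit 255) (nat_lit 278) (nat_lit 247)) (PT.lf (nat_lit 46208) (nat_lit 6) (nat_lit 608) (nat_lit 2) (nat_lit 256) (nat_lit 278) (nat_lit 246))))) (PT.nd (nat_lit 312) (PT.nd (nat_lit 156) (PT.nd (nat_lit 78) (PT.lf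 (nat_lit 46284) (nat_lit 6) (nat_lit 609) (nat_lit 2) (nat_lit 257) (nat_lit 278) (nat_lit 245)) (PT.lf (nat_lit 46360) (nat_lit 6) (nat_lit 610) (nat_lit 2) (nat_lit 258) (nat_lit 278) (nat_lit 244))) (PT.nd (nat_lit 78) (PT.lf (nat_lit 46436) (nat_lit 6) (nat_lit 611) (nat_lit 2) (nat_lit 259) (nat_lit 278) (nat_lit 243)) (PT.lf (nat_lit 46512) (nat_lit 6) (nat_lit 612) (nat_lit 2) (nat_lit 260) (nat_lit 278) (nat_lit 242)))) (PT.nd (nat_lit 156) (PT.nd (nat_lit 78) (PT.lf (nat_lit 45144) (nat_lit 6) (nat_lit 594) (nat_lit 2) (nat_lit 261) (nat_lit 278) (nat_lit 241)) (PT.lf (nat_lit 43700) (nat_lit 6) (nat_lit 575) (nat_lit 2) (nat_lit 262) (nat_lit 278) (nat_lit 240))) (PT.nd (nat_lit 78) (PT.lf (nat_lit 42180) (nat_lit 6) (nat_lit 555) (nat_lit 2) (nat_lit 263) (nat_lit 278) (nat_lit 239)) (PT.lf (nat_lit 40584) (nat_lit 6) (nat_lit 534) (nat_lit 2) (nat_lit 264) (nat_lit 278) (nat_lit 238)))))) (PT.nd (nat_lit 624) (PT.nd (nat_lit 312) (PT.nd (nat_lit 156) (PT.nd (nat_lit 78) (PT.lf (nat_lit 38912)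 (nat_lit 6) (nat_lit 512) (nat_lit 2) (nat_lit 265) (nat_lit 278) (nat_lit 237)) (PT.lf (nat_lit 37164) (nat_lit 6) (nat_lit 489) (nat_lit 2) (nat_lit 266) (nat_lit 278) (nat_lit 236))) (PT.nd (nat_lit 78) (PT.lf (nat_lit 35340) (nat_lit 6) (nat_lit 465) (nat_lit 2) (nat_lit 267) (nat_lit 278) (nat_lit 235)) (PT.lf (nat_lit 34276) (nat_lit 6) (nat_lit 451) (nat_lit 2) (nat_lit 268) (nat_lit 278) (nat_lit 234)))) (PT.nd (nat_lit 156) (PT.nd (nat_lit 78) (PT.lf (nat_lit 33364) (nat_lit 6) (nat_lit 439) (nat_lit 2) (nat_lit 269) (nat_lit 278) (nat_lit 233)) (PT.lf (nat_lit 32452) (nat_lit 6) (nat_lit 427) (nat_lit 2) (nat_lit 270) (nat_lit 278) (nat_lit 232))) (PT.nd (nat_lit 78) (PT.lf (nat_lit 31616) (nat_lit 6) (nat_lit 416) (nat_lit 2) (nat_lit 271) (nat_lit 278) (nat_lit 231)) (PT.lf (nat_lit 30780) (nat_lit 6) (nat_lit 405) (nat_lit 2) (nat_lit 272) (nat_lit 278) (nat_lit 230))))) (PT.nd (nat_lit 312) (PT.nd (nat_lit 156) (PT.nd (nat_lit 78) (PT.lf (nat_lit 29944) (nat_lit 6) (nat_lit 394) (nat_lit 2)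 (nat_lit 273) (nat_lit 278) (nat_lit 229)) (PT.lf (nat_lit 29108) (nat_lit 6) (nat_lit 383) (nat_lit 2) (nat_lit 274) (nat_lit 278) (nat_lit 228))) (PT.nd (nat_lit 78) (PT.lf (nat_lit 28348) (nat_lit 6) (nat_lit 373) (nat_lit 2) (nat_lit 275) (nat_lit 278) (nat_lit 227)) (PT.lf (nat_lit 27588) (nat_lit 6) (nat_lit 363) (nat_lit 2) (nat_lit 276) (nat_lit 278) (nat_lit 226)))) (PT.nd (nat_lit 156) (PT.nd (nat_lit 78) (PT.lf (nat_lit 26904) (nat_lit 6) (nat_lit 354) (nat_lit 2) (nat_lit 277) (nat_lit 278) (nat_lit 225)) (PT.lf (nat_lit 26144) (nat_lit 3) (nat_lit 344) (nat_lit 0) (nat_lit 278) (nat_lit 278) (nat_lit 224))) (PT.nd (nat_lit 78) (PT.lf (nat_lit 25384) (nat_lit 6) (nat_lit 334) (nat_lit 0) (nat_lit 279) (nat_lit 278) (nat_lit 223)) (PT.lf (nat_lit 24624) (nat_lit 6) (nat_lit 324) (nat_lit 0) (nat_lit 280) (nat_lit 278) (nat_lit 222))))))) (PT.nd (nat_lit 75972) (PT.nd (nat_lit 546) (PT.nd (nat_lit 234) (PT.nd (nat_lit 78) (PT.lf (nat_lit 23940) (nat_lit 6) (nat_lit 315) (nat_lit 0) (nat_lit 281)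 (nat_lit 278) (nat_lit 221)) (PT.nd (nat_lit 78) (PT.lf (nat_lit 23180) (nat_lit 6) (nat_lit 305) (nat_lit 0) (nat_lit 282) (nat_lit 278) (nat_lit 220)) (PT.lf (nat_lit 22496) (nat_lit 6) (nat_lit 296) (nat_lit 0) (nat_lit 283) (nat_lit 278) (nat_lit 219)))) (PT.nd (nat_lit 156) (PT.nd (nat_lit 78) (PT.lf (nat_lit 21812) (nat_lit 6) (nat_lit 287) (nat_lit 0) (nat_lit 284) (nat_lit 278) (nat_lit 218)) (PT.lf (nat_lit 21128) (nat_lit 6) (nat_lit 278) (nat_lit 0) (nat_lit 285) (nat_lit 278) (nat_lit 217))) (PT.nd (nat_lit 78) (PT.lf (nat_lit 20444) (nat_lit 6) (nat_lit 269) (nat_lit 0) (nat_lit 286) (nat_lit 278) (nat_lit 216)) (PT.lf (nat_lit 19836) (nat_lit 6) (nat_lit 261) (nat_lit 0) (nat_lit 287) (nat_lit 278) (nat_lit 215))))) (PT.nd (nat_lit 75114) (PT.nd (nat_lit 156) (PT.nd (nat_lit 78) (PT.lf (nat_lit 19228) (nat_lit 6) (nat_lit 253) (nat_lit 0) (nat_lit 288) (nat_lit 278) (nat_lit 214)) (PT.lf (nat_lit 18620) (nat_lit 6) (nat_lit 245) (nat_lit 0) (nat_lit 289) (nat_lit 278) (nat_lit 213))) (PT.nd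 (nat_lit 78) (PT.lf (nat_lit 18012) (nat_lit 6) (nat_lit 237) (nat_lit 0) (nat_lit 290) (nat_lit 278) (nat_lit 212)) (PT.lf (nat_lit 17480) (nat_lit 6) (nat_lit 230) (nat_lit 0) (nat_lit 291) (nat_lit 278) (nat_lit 211)))) (PT.nd (nat_lit 156) (PT.nd (nat_lit 78) (PT.lf (nat_lit 16948) (nat_lit 6) (nat_lit 223) (nat_lit 5) (nat_lit 210) (nat_lit 279) (nat_lit 291)) (PT.lf (nat_lit 17556) (nat_lit 6) (nat_lit 231) (nat_lit 5) (nat_lit 211) (nat_lit 279) (nat_lit 290))) (PT.nd (nat_lit 78) (PT.lf (nat_lit 18088) (nat_lit 6) (nat_lit 238) (nat_lit 5) (nat_lit 212) (nat_lit 279) (nat_lit 289)) (PT.lf (nat_lit 18696) (nat_lit 6) (nat_lit 246) (nat_lit 5) (nat_lit 213) (nat_lit 279) (nat_lit 288)))))) (PT.nd (nat_lit 624) (PT.nd (nat_lit 312) (PT.nd (nat_lit 156) (PT.nd (nat_lit 78) (PT.lf (nat_lit 19304) (nat_lit 6) (nat_lit 254) (nat_lit 5) (nat_lit 214) (nat_lit 279) (nat_lit 287)) (PT.lf (nat_lit 19912) (nat_lit 6) (nat_lit 262) (nat_lit 5) (nat_lit 215) (nat_lit 279) (nat_lit 286))) (PT.nd (nat_lit 78) (PT.lf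 (nat_lit 20520) (nat_lit 6) (nat_lit 270) (nat_lit 5) (nat_lit 216) (nat_lit 279) (nat_lit 285)) (PT.lf (nat_lit 21204) (nat_lit 6) (nat_lit 279) (nat_lit 5) (nat_lit 217) (nat_lit 279) (nat_lit 284)))) (PT.nd (nat_lit 156) (PT.nd (nat_lit 78) (PT.lf (nat_lit 21888) (nat_lit 6) (nat_lit 288) (nat_lit 5) (nat_lit 218) (nat_lit 279) (nat_lit 283)) (PT.lf (nat_lit 22572) (nat_lit 6) (nat_lit 297) (nat_lit 5) (nat_lit 219) (nat_lit 279) (nat_lit 282))) (PT.nd (nat_lit 78) (PT.lf (nat_lit 23256) (nat_lit 6) (nat_lit 306) (nat_lit 5) (nat_lit 220) (nat_lit 279) (nat_lit 281)) (PT.lf (nat_lit 24016) (nat_lit 6) (nat_lit 316) (nat_lit 5) (nat_lit 221) (nat_lit 279) (nat_lit 280))))) (PT.nd (nat_lit 312) (PT.nd (nat_lit 156) (PT.nd (nat_lit 78) (PT.lf (nat_lit 24700) (nat_lit 3) (nat_lit 325) (nat_lit 4) (nat_lit 222) (nat_lit 279) (nat_lit 279)) (PT.lf (nat_lit 25384) (nat_lit 6) (nat_lit 334) (nat_lit 4) (nat_lit 223) (nat_lit 279) (nat_lit 278))) (PT.nd (nat_lit 78) (PT.lf (nat_lit 26068) (nat_lit 6) (nat_lit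 343) (nat_lit 4) (nat_lit 224) (nat_lit 279) (nat_lit 277)) (PT.lf (nat_lit 26828) (nat_lit 6) (nat_lit 353) (nat_lit 4) (nat_lit 225) (nat_lit 279) (nat_lit 276)))) (PT.nd (nat_lit 156) (PT.nd (nat_lit 78) (PT.lf (nat_lit 27512) (nat_lit 6) (nat_lit 362) (nat_lit 4) (nat_lit 226) (nat_lit 279) (nat_lit 275)) (PT.lf (nat_lit 28272) (nat_lit 6) (nat_lit 372) (nat_lit 4) (nat_lit 227) (nat_lit 279) (nat_lit 274))) (PT.nd (nat_lit 78) (PT.lf (nat_lit 29032) (nat_lit 6) (nat_lit 382) (nat_lit 4) (nat_lit 228) (nat_lit 279) (nat_lit 273)) (PT.lf (nat_lit 29868) (nat_lit 6) (nat_lit 393) (nat_lit 4) (nat_lit 229) (nat_lit 279) (nat_lit 272))))))))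
noncomputable def pc46 : PT := (PT.nd (nat_lit 2418) (PT.nd (nat_lit 1170) (PT.nd (nat_lit 546) (PT.nd (nat_lit 234) (PT.nd (nat_lit 78) (PT.lf (nat_lit 30704) (nat_lit 6) (nat_lit 404) (nat_lit 4) (nat_lit 230) (nat_lit 279) (nat_lit 271)) (PT.nd (nat_lit 78) (PT.lf (nat_lit 31540) (nat_lit 6) (nat_lit 415) (nat_lit 4) (nat_lit 231) (nat_lit 279) (nat_lit 270)) (PT.lf (nat_lit 32376) (nat_lit 6) (nat_lit 426) (nat_lit 4) (nat_lit 232) (nat_lit 279) (nat_lit 269)))) (PT.nd (nat_lit 156) (PT.nd (nat_lit 78) (PT.lf (nat_lit 33288) (nat_lit 6) (nat_lit 438) (nat_lit 4) (nat_lit 233) (nat_lit 279) (nat_lit 268)) (PT.lf (nat_lit 34200) (nat_lit 6) (nat_lit 450) (nat_lit 4) (nat_lit 234) (nat_lit 279) (nat_lit 267))) (PT.nd (nat_lit 78) (PT.lf (nat_lit 35264) (nat_lit 6) (nat_lit 464) (nat_lit 4) (nat_lit 235) (nat_lit 279) (nat_lit 266)) (PT.lf (nat_lit 37088) (nat_lit 6) (nat_lit 488) (nat_lit 4) (nat_lit 236) (nat_lit 279) (nat_lit 265))))) (PT.nd (nat_lit 312) (PT.nd (nat_lit 156) (PT.nd (nat_lit 78) (PT.lf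 (nat_lit 38836) (nat_lit 6) (nat_lit 511) (nat_lit 4) (nat_lit 237) (nat_lit 279) (nat_lit 264)) (PT.lf (nat_lit 40508) (nat_lit 6) (nat_lit 533) (nat_lit 4) (nat_lit 238) (nat_lit 279) (nat_lit 263))) (PT.nd (nat_lit 78) (PT.lf (nat_lit 42104) (nat_lit 6) (nat_lit 554) (nat_lit 4) (nat_lit 239) (nat_lit 279) (nat_lit 262)) (PT.lf (nat_lit 43624) (nat_lit 6) (nat_lit 574) (nat_lit 4) (nat_lit 240) (nat_lit 279) (nat_lit 261)))) (PT.nd (nat_lit 156) (PT.nd (nat_lit 78) (PT.lf (nat_lit 45068) (nat_lit 6) (nat_lit 593) (nat_lit 4) (nat_lit 241) (nat_lit 279) (nat_lit 260)) (PT.lf (nat_lit 44992) (nat_lit 6) (nat_lit 592) (nat_lit 4) (nat_lit 242) (nat_lit 279) (nat_lit 259))) (PT.nd (nat_lit 78) (PT.lf (nat_lit 44916) (nat_lit 6) (nat_lit 591) (nat_lit 4) (nat_lit 243) (nat_lit 279) (nat_lit 258)) (PT.lf (nat_lit 44840) (nat_lit 6) (nat_lit 590) (nat_lit 4) (nat_lit 244) (nat_lit 279) (nat_lit 257)))))) (PT.nd (nat_lit 624) (PT.nd (nat_lit 312) (PT.nd (nat_lit 156) (PT.nd (nat_lit 78) (PT.lf (nat_lit 44764)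 (nat_lit 6) (nat_lit 589) (nat_lit 4) (nat_lit 245) (nat_lit 279) (nat_lit 256)) (PT.lf (nat_lit 44688) (nat_lit 6) (nat_lit 588) (nat_lit 4) (nat_lit 246) (nat_lit 279) (nat_lit 255))) (PT.nd (nat_lit 78) (PT.lf (nat_lit 44612) (nat_lit 6) (nat_lit 587) (nat_lit 4) (nat_lit 247) (nat_lit 279) (nat_lit 254)) (PT.lf (nat_lit 44536) (nat_lit 6) (nat_lit 586) (nat_lit 4) (nat_lit 248) (nat_lit 279) (nat_lit 253)))) (PT.nd (nat_lit 156) (PT.nd (nat_lit 78) (PT.lf (nat_lit 44460) (nat_lit 6) (nat_lit 585) (nat_lit 4) (nat_lit 249) (nat_lit 279) (nat_lit 252)) (PT.lf (nat_lit 44384) (nat_lit 6) (nat_lit 584) (nat_lit 4) (nat_lit 250) (nat_lit 279) (nat_lit 251))) (PT.nd (nat_lit 78) (PT.lf (nat_lit 44384) (nat_lit 6) (nat_lit 584) (nat_lit 2) (nat_lit 251) (nat_lit 279) (nat_lit 250)) (PT.lf (nat_lit 44460) (nat_lit 6) (nat_lit 585) (nat_lit 2) (nat_lit 252) (nat_lit 279) (nat_lit 249))))) (PT.nd (nat_lit 312) (PT.nd (nat_lit 156) (PT.nd (nat_lit 78) (PT.lf (nat_lit 44536) (nat_lit 6) (nat_lit 586) (nat_lit 2)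 (nat_lit 253) (nat_lit 279) (nat_lit 248)) (PT.lf (nat_lit 44612) (nat_lit 6) (nat_lit 587) (nat_lit 2) (nat_lit 254) (nat_lit 279) (nat_lit 247))) (PT.nd (nat_lit 78) (PT.lf (nat_lit 44688) (nat_lit 6) (nat_lit 588) (nat_lit 2) (nat_lit 255) (nat_lit 279) (nat_lit 246)) (PT.lf (nat_lit 44764) (nat_lit 6) (nat_lit 589) (nat_lit 2) (nat_lit 256) (nat_lit 279) (nat_lit 245)))) (PT.nd (nat_lit 156) (PT.nd (nat_lit 78) (PT.lf (nat_lit 44840) (nat_lit 6) (nat_lit 590) (nat_lit 2) (nat_lit 257) (nat_lit 279) (nat_lit 244)) (PT.lf (nat_lit 44916) (nat_lit 6) (nat_lit 591) (nat_lit 2) (nat_lit 258) (nat_lit 279) (nat_lit 243))) (PT.nd (nat_lit 78) (PT.lf (nat_lit 44992) (nat_lit 6) (nat_lit 592) (nat_lit 2) (nat_lit 259) (nat_lit 279) (nat_lit 242)) (PT.lf (nat_lit 45068) (nat_lit 6) (nat_lit 593) (nat_lit 2) (nat_lit 260) (nat_lit 279) (nat_lit 241))))))) (PT.nd (nat_lit 1170) (PT.nd (nat_lit 546) (PT.nd (nat_lit 234) (PT.nd (nat_lit 78) (PT.lf (nat_lit 43624) (nat_lit 6) (nat_lit 574) (nat_lit 2) (nat_lit 261)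 (nat_lit 279) (nat_lit 240)) (PT.nd (nat_lit 78) (PT.lf (nat_lit 42104) (nat_lit 6) (nat_lit 554) (nat_lit 2) (nat_lit 262) (nat_lit 279) (nat_lit 239)) (PT.lf (nat_lit 40508) (nat_lit 6) (nat_lit 533) (nat_lit 2) (nat_lit 263) (nat_lit 279) (nat_lit 238)))) (PT.nd (nat_lit 156) (PT.nd (nat_lit 78) (PT.lf (nat_lit 38836) (nat_lit 6) (nat_lit 511) (nat_lit 2) (nat_lit 264) (nat_lit 279) (nat_lit 237)) (PT.lf (nat_lit 37088) (nat_lit 6) (nat_lit 488) (nat_lit 2) (nat_lit 265) (nat_lit 279) (nat_lit 236))) (PT.nd (nat_lit 78) (PT.lf (nat_lit 35264) (nat_lit 6) (nat_lit 464) (nat_lit 2) (nat_lit 266) (nat_lit 279) (nat_lit 235)) (PT.lf (nat_lit 34200) (nat_lit 6) (nat_lit 450) (nat_lit 2) (nat_lit 267) (nat_lit 279) (nat_lit 234))))) (PT.nd (nat_lit 312) (PT.nd (nat_lit 156) (PT.nd (nat_lit 78) (PT.lf (nat_lit 33288) (nat_lit 6) (nat_lit 438) (nat_lit 2) (nat_lit 268) (nat_lit 279) (nat_lit 233)) (PT.lf (nat_lit 32376) (nat_lit 6) (nat_lit 426) (nat_lit 2) (nat_lit 269) (nat_lit 279) (nat_lit 232))) (PT.nd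 (nat_lit 78) (PT.lf (nat_lit 31540) (nat_lit 6) (nat_lit 415) (nat_lit 2) (nat_lit 270) (nat_lit 279) (nat_lit 231)) (PT.lf (nat_lit 30704) (nat_lit 6) (nat_lit 404) (nat_lit 2) (nat_lit 271) (nat_lit 279) (nat_lit 230)))) (PT.nd (nat_lit 156) (PT.nd (nat_lit 78) (PT.lf (nat_lit 29868) (nat_lit 6) (nat_lit 393) (nat_lit 2) (nat_lit 272) (nat_lit 279) (nat_lit 229)) (PT.lf (nat_lit 29032) (nat_lit 6) (nat_lit 382) (nat_lit 2) (nat_lit 273) (nat_lit 279) (nat_lit 228))) (PT.nd (nat_lit 78) (PT.lf (nat_lit 28272) (nat_lit 6) (nat_lit 372) (nat_lit 2) (nat_lit 274) (nat_lit 279) (nat_lit 227)) (PT.lf (nat_lit 27512) (nat_lit 6) (nat_lit 362) (nat_lit 2) (nat_lit 275) (nat_lit 279) (nat_lit 226)))))) (PT.nd (nat_lit 624) (PT.nd (nat_lit 312) (PT.nd (nat_lit 156) (PT.nd (nat_lit 78) (PT.lf (nat_lit 26828) (nat_lit 6) (nat_lit 353) (nat_lit 2) (nat_lit 276) (nat_lit 279) (nat_lit 225)) (PT.lf (nat_lit 26068) (nat_lit 6) (nat_lit 343) (nat_lit 2) (nat_lit 277) (nat_lit 279) (nat_lit 224))) (PT.nd (nat_lit 78) (PT.lf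 (nat_lit 25384) (nat_lit 6) (nat_lit 334) (nat_lit 2) (nat_lit 278) (nat_lit 279) (nat_lit 223)) (PT.lf (nat_lit 24700) (nat_lit 3) (nat_lit 325) (nat_lit 0) (nat_lit 279) (nat_lit 279) (nat_lit 222)))) (PT.nd (nat_lit 156) (PT.nd (nat_lit 78) (PT.lf (nat_lit 24016) (nat_lit 6) (nat_lit 316) (nat_lit 0) (nat_lit 280) (nat_lit 279) (nat_lit 221)) (PT.lf (nat_lit 23256) (nat_lit 6) (nat_lit 306) (nat_lit 0) (nat_lit 281) (nat_lit 279) (nat_lit 220))) (PT.nd (nat_lit 78) (PT.lf (nat_lit 22572) (nat_lit 6) (nat_lit 297) (nat_lit 0) (nat_lit 282) (nat_lit 279) (nat_lit 219)) (PT.lf (nat_lit 21888) (nat_lit 6) (nat_lit 288) (nat_lit 0) (nat_lit 283) (nat_lit 279) (nat_lit 218))))) (PT.nd (nat_lit 312) (PT.nd (nat_lit 156) (PT.nd (nat_lit 78) (PT.lf (nat_lit 21204) (nat_lit 6) (nat_lit 279) (nat_lit 0) (nat_lit 284) (nat_lit 279) (nat_lit 217)) (PT.lf (nat_lit 20520) (nat_lit 6) (nat_lit 270) (nat_lit 0) (nat_lit 285) (nat_lit 279) (nat_lit 216))) (PT.nd (nat_lit 78) (PT.lf (nat_lit 19912) (nat_lit 6) (nat_lit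 262) (nat_lit 0) (nat_lit 286) (nat_lit 279) (nat_lit 215)) (PT.lf (nat_lit 19304) (nat_lit 6) (nat_lit 254) (nat_lit 0) (nat_lit 287) (nat_lit 279) (nat_lit 214)))) (PT.nd (nat_lit 156) (PT.nd (nat_lit 78) (PT.lf (nat_lit 18696) (nat_lit 6) (nat_lit 246) (nat_lit 0) (nat_lit 288) (nat_lit 279) (nat_lit 213)) (PT.lf (nat_lit 18088) (nat_lit 6) (nat_lit 238) (nat_lit 0) (nat_lit 289) (nat_lit 279) (nat_lit 212))) (PT.nd (nat_lit 78) (PT.lf (nat_lit 17556) (nat_lit 6) (nat_lit 231) (nat_lit 0) (nat_lit 290) (nat_lit 279) (nat_lit 211)) (PT.lf (nat_lit 16948) (nat_lit 6) (nat_lit 223) (nat_lit 0) (nat_lit 291) (nat_lit 279) (nat_lit 210))))))))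
noncomputable def pc47 : PT := (PT.nd (nat_lit 2418) (PT.nd (nat_lit 1170) (PT.nd (nat_lit 546) (PT.nd (nat_lit 234) (PT.nd (nat_lit 78) (PT.lf (nat_lit 15960) (nat_lit 6) (nat_lit 210) (nat_lit 5) (nat_lit 208) (nat_lit 280) (nat_lit 292)) (PT.nd (nat_lit 78) (PT.lf (nat_lit 16492) (nat_lit 6) (nat_lit 217) (nat_lit 5) (nat_lit 209) (nat_lit 280) (nat_lit 291)) (PT.lf (nat_lit 17024) (nat_lit 6) (nat_lit 224) (nat_lit 5) (nat_lit 210) (nat_lit 280) (nat_lit 290)))) (PT.nd (nat_lit 156) (PT.nd (nat_lit 78) (PT.lf (nat_lit 17632) (nat_lit 6) (nat_lit 232) (nat_lit 5) (nat_lit 211) (nat_lit 280) (nat_lit 289)) (PT.lf (nat_lit 18164) (nat_lit 6) (nat_lit 239) (nat_lit 5) (nat_lit 212) (nat_lit 280) (nat_lit 288))) (PT.nd (nat_lit 78) (PT.lf (nat_lit 18772) (nat_lit 6) (nat_lit 247) (nat_lit 5) (nat_lit 213) (nat_lit 280) (nat_lit 287)) (PT.lf (nat_lit 19380) (nat_lit 6) (nat_lit 255) (nat_lit 5) (nat_lit 214) (nat_lit 280) (nat_lit 286))))) (PT.nd (nat_lit 312) (PT.nd (nat_lit 156) (PT.nd (nat_lit 78) (PT.lf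 (nat_lit 19988) (nat_lit 6) (nat_lit 263) (nat_lit 5) (nat_lit 215) (nat_lit 280) (nat_lit 285)) (PT.lf (nat_lit 20596) (nat_lit 6) (nat_lit 271) (nat_lit 5) (nat_lit 216) (nat_lit 280) (nat_lit 284))) (PT.nd (nat_lit 78) (PT.lf (nat_lit 21280) (nat_lit 6) (nat_lit 280) (nat_lit 5) (nat_lit 217) (nat_lit 280) (nat_lit 283)) (PT.lf (nat_lit 21964) (nat_lit 6) (nat_lit 289) (nat_lit 5) (nat_lit 218) (nat_lit 280) (nat_lit 282)))) (PT.nd (nat_lit 156) (PT.nd (nat_lit 78) (PT.lf (nat_lit 22648) (nat_lit 6) (nat_lit 298) (nat_lit 5) (nat_lit 219) (nat_lit 280) (nat_lit 281)) (PT.lf (nat_lit 23332) (nat_lit 3) (nat_lit 307) (nat_lit 4) (nat_lit 220) (nat_lit 280) (nat_lit 280))) (PT.nd (nat_lit 78) (PT.lf (nat_lit 24016) (nat_lit 6) (nat_lit 316) (nat_lit 4) (nat_lit 221) (nat_lit 280) (nat_lit 279)) (PT.lf (nat_lit 24624) (nat_lit 6) (nat_lit 324) (nat_lit 4) (nat_lit 222) (nat_lit 280) (nat_lit 278)))))) (PT.nd (nat_lit 624) (PT.nd (nat_lit 312) (PT.nd (nat_lit 156) (PT.nd (nat_lit 78) (PT.lf (nat_lit 25308)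 (nat_lit 6) (nat_lit 333) (nat_lit 4) (nat_lit 223) (nat_lit 280) (nat_lit 277)) (PT.lf (nat_lit 25992) (nat_lit 6) (nat_lit 342) (nat_lit 4) (nat_lit 224) (nat_lit 280) (nat_lit 276))) (PT.nd (nat_lit 78) (PT.lf (nat_lit 26752) (nat_lit 6) (nat_lit 352) (nat_lit 4) (nat_lit 225) (nat_lit 280) (nat_lit 275)) (PT.lf (nat_lit 27436) (nat_lit 6) (nat_lit 361) (nat_lit 4) (nat_lit 226) (nat_lit 280) (nat_lit 274)))) (PT.nd (nat_lit 156) (PT.nd (nat_lit 78) (PT.lf (nat_lit 28196) (nat_lit 6) (nat_lit 371) (nat_lit 4) (nat_lit 227) (nat_lit 280) (nat_lit 273)) (PT.lf (nat_lit 28956) (nat_lit 6) (nat_lit 381) (nat_lit 4) (nat_lit 228) (nat_lit 280) (nat_lit 272))) (PT.nd (nat_lit 78) (PT.lf (nat_lit 29792) (nat_lit 6) (nat_lit 392) (nat_lit 4) (nat_lit 229) (nat_lit 280) (nat_lit 271)) (PT.lf (nat_lit 30628) (nat_lit 6) (nat_lit 403) (nat_lit 4) (nat_lit 230) (nat_lit 280) (nat_lit 270))))) (PT.nd (nat_lit 312) (PT.nd (nat_lit 156) (PT.nd (nat_lit 78) (PT.lf (nat_lit 31464) (nat_lit 6) (nat_lit 414) (nat_lit 4)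 (nat_lit 231) (nat_lit 280) (nat_lit 269)) (PT.lf (nat_lit 32300) (nat_lit 6) (nat_lit 425) (nat_lit 4) (nat_lit 232) (nat_lit 280) (nat_lit 268))) (PT.nd (nat_lit 78) (PT.lf (nat_lit 33212) (nat_lit 6) (nat_lit 437) (nat_lit 4) (nat_lit 233) (nat_lit 280) (nat_lit 267)) (PT.lf (nat_lit 34124) (nat_lit 6) (nat_lit 449) (nat_lit 4) (nat_lit 234) (nat_lit 280) (nat_lit 266)))) (PT.nd (nat_lit 156) (PT.nd (nat_lit 78) (PT.lf (nat_lit 35188) (nat_lit 6) (nat_lit 463) (nat_lit 4) (nat_lit 235) (nat_lit 280) (nat_lit 265)) (PT.lf (nat_lit 37012) (nat_lit 6) (nat_lit 487) (nat_lit 4) (nat_lit 236) (nat_lit 280) (nat_lit 264))) (PT.nd (nat_lit 78) (PT.lf (nat_lit 38760) (nat_lit 6) (nat_lit 510) (nat_lit 4) (nat_lit 237) (nat_lit 280) (nat_lit 263)) (PT.lf (nat_lit 40432) (nat_lit 6) (nat_lit 532) (nat_lit 4) (nat_lit 238) (nat_lit 280) (nat_lit 262))))))) (PT.nd (nat_lit 1170) (PT.nd (nat_lit 546) (PT.nd (nat_lit 234) (PT.nd (nat_lit 78) (PT.lf (nat_lit 42028) (nat_lit 6) (nat_lit 553) (nat_lit 4) (nat_lit 239)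 (nat_lit 280) (nat_lit 261)) (PT.nd (nat_lit 78) (PT.lf (nat_lit 43548) (nat_lit 6) (nat_lit 573) (nat_lit 4) (nat_lit 240) (nat_lit 280) (nat_lit 260)) (PT.lf (nat_lit 43472) (nat_lit 6) (nat_lit 572) (nat_lit 4) (nat_lit 241) (nat_lit 280) (nat_lit 259)))) (PT.nd (nat_lit 156) (PT.nd (nat_lit 78) (PT.lf (nat_lit 43396) (nat_lit 6) (nat_lit 571) (nat_lit 4) (nat_lit 242) (nat_lit 280) (nat_lit 258)) (PT.lf (nat_lit 43320) (nat_lit 6) (nat_lit 570) (nat_lit 4) (nat_lit 243) (nat_lit 280) (nat_lit 257))) (PT.nd (nat_lit 78) (PT.lf (nat_lit 43244) (nat_lit 6) (nat_lit 569) (nat_lit 4) (nat_lit 244) (nat_lit 280) (nat_lit 256)) (PT.lf (nat_lit 43168) (nat_lit 6) (nat_lit 568) (nat_lit 4) (nat_lit 245) (nat_lit 280) (nat_lit 255))))) (PT.nd (nat_lit 312) (PT.nd (nat_lit 156) (PT.nd (nat_lit 78) (PT.lf (nat_lit 43092) (nat_lit 6) (nat_lit 567) (nat_lit 4) (nat_lit 246) (nat_lit 280) (nat_lit 254)) (PT.lf (nat_lit 43016) (nat_lit 6) (nat_lit 566) (nat_lit 4) (nat_lit 247) (nat_lit 280) (nat_lit 253))) (PT.nd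 (nat_lit 78) (PT.lf (nat_lit 42940) (nat_lit 6) (nat_lit 565) (nat_lit 4) (nat_lit 248) (nat_lit 280) (nat_lit 252)) (PT.lf (nat_lit 42864) (nat_lit 6) (nat_lit 564) (nat_lit 4) (nat_lit 249) (nat_lit 280) (nat_lit 251)))) (PT.nd (nat_lit 156) (PT.nd (nat_lit 78) (PT.lf (nat_lit 42788) (nat_lit 3) (nat_lit 563) (nat_lit 2) (nat_lit 250) (nat_lit 280) (nat_lit 250)) (PT.lf (nat_lit 42864) (nat_lit 6) (nat_lit 564) (nat_lit 2) (nat_lit 251) (nat_lit 280) (nat_lit 249))) (PT.nd (nat_lit 78) (PT.lf (nat_lit 42940) (nat_lit 6) (nat_lit 565) (nat_lit 2) (nat_lit 252) (nat_lit 280) (nat_lit 248)) (PT.lf (nat_lit 43016) (nat_lit 6) (nat_lit 566) (nat_lit 2) (nat_lit 253) (nat_lit 280) (nat_lit 247)))))) (PT.nd (nat_lit 624) (PT.nd (nat_lit 312) (PT.nd (nat_lit 156) (PT.nd (nat_lit 78) (PT.lf (nat_lit 43092) (nat_lit 6) (nat_lit 567) (nat_lit 2) (nat_lit 254) (nat_lit 280) (nat_lit 246)) (PT.lf (nat_lit 43168) (nat_lit 6) (nat_lit 568) (nat_lit 2) (nat_lit 255) (nat_lit 280) (nat_lit 245))) (PT.nd (nat_lit 78) (PT.lf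 (nat_lit 43244) (nat_lit 6) (nat_lit 569) (nat_lit 2) (nat_lit 256) (nat_lit 280) (nat_lit 244)) (PT.lf (nat_lit 43320) (nat_lit 6) (nat_lit 570) (nat_lit 2) (nat_lit 257) (nat_lit 280) (nat_lit 243)))) (PT.nd (nat_lit 156) (PT.nd (nat_lit 78) (PT.lf (nat_lit 43396) (nat_lit 6) (nat_lit 571) (nat_lit 2) (nat_lit 258) (nat_lit 280) (nat_lit 242)) (PT.lf (nat_lit 43472) (nat_lit 6) (nat_lit 572) (nat_lit 2) (nat_lit 259) (nat_lit 280) (nat_lit 241))) (PT.nd (nat_lit 78) (PT.lf (nat_lit 43548) (nat_lit 6) (nat_lit 573) (nat_lit 2) (nat_lit 260) (nat_lit 280) (nat_lit 240)) (PT.lf (nat_lit 42028) (nat_lit 6) (nat_lit 553) (nat_lit 2) (nat_lit 261) (nat_lit 280) (nat_lit 239))))) (PT.nd (nat_lit 312) (PT.nd (nat_lit 156) (PT.nd (nat_lit 78) (PT.lf (nat_lit 40432) (nat_lit 6) (nat_lit 532) (nat_lit 2) (nat_lit 262) (nat_lit 280) (nat_lit 238)) (PT.lf (nat_lit 38760) (nat_lit 6) (nat_lit 510) (nat_lit 2) (nat_lit 263) (nat_lit 280) (nat_lit 237))) (PT.nd (nat_lit 78) (PT.lf (nat_lit 37012) (nat_lit 6) (nat_lit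 487) (nat_lit 2) (nat_lit 264) (nat_lit 280) (nat_lit 236)) (PT.lf (nat_lit 35188) (nat_lit 6) (nat_lit 463) (nat_lit 2) (nat_lit 265) (nat_lit 280) (nat_lit 235)))) (PT.nd (nat_lit 156) (PT.nd (nat_lit 78) (PT.lf (nat_lit 34124) (nat_lit 6) (nat_lit 449) (nat_lit 2) (nat_lit 266) (nat_lit 280) (nat_lit 234)) (PT.lf (nat_lit 33212) (nat_lit 6) (nat_lit 437) (nat_lit 2) (nat_lit 267) (nat_lit 280) (nat_lit 233))) (PT.nd (nat_lit 78) (PT.lf (nat_lit 32300) (nat_lit 6) (nat_lit 425) (nat_lit 2) (nat_lit 268) (nat_lit 280) (nat_lit 232)) (PT.lf (nat_lit 31464) (nat_lit 6) (nat_lit 414) (nat_lit 2) (nat_lit 269) (nat_lit 280) (nat_lit 231))))))))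
noncomputable def pc48 : PT := (PT.nd (nat_lit 76830) (PT.nd (nat_lit 1170) (PT.nd (nat_lit 546) (PT.nd (nat_lit 234) (PT.nd (nat_lit 78) (PT.lf (nat_lit 30628) (nat_lit 6) (nat_lit 403) (nat_lit 2) (nat_lit 270) (nat_lit 280) (nat_lit 230)) (PT.nd (nat_lit 78) (PT.lf (nat_lit 29792) (nat_lit 6) (nat_lit 392) (nat_lit 2) (nat_lit 271) (nat_lit 280) (nat_lit 229)) (PT.lf (nat_lit 28956) (nat_lit 6) (nat_lit 381) (nat_lit 2) (nat_lit 272) (nat_lit 280) (nat_lit 228)))) (PT.nd (nat_lit 156) (PT.nd (nat_lit 78) (PT.lf (nat_lit 28196) (nat_lit 6) (nat_lit 371) (nat_lit 2) (nat_lit 273) (nat_lit 280) (nat_lit 227)) (PT.lf (nat_lit 27436) (nat_lit 6) (nat_lit 361) (nat_lit 2) (nat_lit 274) (nat_lit 280) (nat_lit 226))) (PT.nd (nat_lit 78) (PT.lf (nat_lit 26752) (nat_lit 6) (nat_lit 352) (nat_lit 2) (nat_lit 275) (nat_lit 280) (nat_lit 225)) (PT.lf (nat_lit 25992) (nat_lit 6) (nat_lit 342) (nat_lit 2) (nat_lit 276) (nat_lit 280) (nat_lit 224))))) (PT.nd (nat_lit 312) (PT.nd (nat_lit 156) (PT.nd (nat_lit 78) (PT.lf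 (nat_lit 25308) (nat_lit 6) (nat_lit 333) (nat_lit 2) (nat_lit 277) (nat_lit 280) (nat_lit 223)) (PT.lf (nat_lit 24624) (nat_lit 6) (nat_lit 324) (nat_lit 2) (nat_lit 278) (nat_lit 280) (nat_lit 222))) (PT.nd (nat_lit 78) (PT.lf (nat_lit 24016) (nat_lit 6) (nat_lit 316) (nat_lit 2) (nat_lit 279) (nat_lit 280) (nat_lit 221)) (PT.lf (nat_lit 23332) (nat_lit 3) (nat_lit 307) (nat_lit 0) (nat_lit 280) (nat_lit 280) (nat_lit 220)))) (PT.nd (nat_lit 156) (PT.nd (nat_lit 78) (PT.lf (nat_lit 22648) (nat_lit 6) (nat_lit 298) (nat_lit 0) (nat_lit 281) (nat_lit 280) (nat_lit 219)) (PT.lf (nat_lit 21964) (nat_lit 6) (nat_lit 289) (nat_lit 0) (nat_lit 282) (nat_lit 280) (nat_lit 218))) (PT.nd (nat_lit 78) (PT.lf (nat_lit 21280) (nat_lit 6) (nat_lit 280) (nat_lit 0) (nat_lit 283) (nat_lit 280) (nat_lit 217)) (PT.lf (nat_lit 20596) (nat_lit 6) (nat_lit 271) (nat_lit 0) (nat_lit 284) (nat_lit 280) (nat_lit 216)))))) (PT.nd (nat_lit 546) (PT.nd (nat_lit 234) (PT.nd (nat_lit 78) (PT.lf (nat_lit 19988) (nat_lit 6) (nat_lit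 263) (nat_lit 0) (nat_lit 285) (nat_lit 280) (nat_lit 215)) (PT.nd (nat_lit 78) (PT.lf (nat_lit 19380) (nat_lit 6) (nat_lit 255) (nat_lit 0) (nat_lit 286) (nat_lit 280) (nat_lit 214)) (PT.lf (nat_lit 18772) (nat_lit 6) (nat_lit 247) (nat_lit 0) (nat_lit 287) (nat_lit 280) (nat_lit 213)))) (PT.nd (nat_lit 156) (PT.nd (nat_lit 78) (PT.lf (nat_lit 18164) (nat_lit 6) (nat_lit 239) (nat_lit 0) (nat_lit 288) (nat_lit 280) (nat_lit 212)) (PT.lf (nat_lit 17632) (nat_lit 6) (nat_lit 232) (nat_lit 0) (nat_lit 289) (nat_lit 280) (nat_lit 211))) (PT.nd (nat_lit 78) (PT.lf (nat_lit 17024) (nat_lit 6) (nat_lit 224) (nat_lit 0) (nat_lit 290) (nat_lit 280) (nat_lit 210)) (PT.lf (nat_lit 16492) (nat_lit 6) (nat_lit 217) (nat_lit 0) (nat_lit 291) (nat_lit 280) (nat_lit 209))))) (PT.nd (nat_lit 74802) (PT.nd (nat_lit 74646) (PT.nd (nat_lit 74568) (PT.lf (nat_lit 15960) (nat_lit 6) (nat_lit 210) (nat_lit 0) (nat_lit 292) (nat_lit 280) (nat_lit 208)) (PT.lf (nat_lit 15504) (nat_lit 6) (nat_lit 204) (nat_lit 5) (nat_lit 207)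 (nat_lit 281) (nat_lit 292))) (PT.nd (nat_lit 78) (PT.lf (nat_lit 16036) (nat_lit 6) (nat_lit 211) (nat_lit 5) (nat_lit 208) (nat_lit 281) (nat_lit 291)) (PT.lf (nat_lit 16568) (nat_lit 6) (nat_lit 218) (nat_lit 5) (nat_lit 209) (nat_lit 281) (nat_lit 290)))) (PT.nd (nat_lit 156) (PT.nd (nat_lit 78) (PT.lf (nat_lit 17100) (nat_lit 6) (nat_lit 225) (nat_lit 5) (nat_lit 210) (nat_lit 281) (nat_lit 289)) (PT.lf (nat_lit 17708) (nat_lit 6) (nat_lit 233) (nat_lit 5) (nat_lit 211) (nat_lit 281) (nat_lit 288))) (PT.nd (nat_lit 78) (PT.lf (nat_lit 18240) (nat_lit 6) (nat_lit 240) (nat_lit 5) (nat_lit 212) (nat_lit 281) (nat_lit 287)) (PT.lf (nat_lit 18848) (nat_lit 6) (nat_lit 248) (nat_lit 5) (nat_lit 213) (nat_lit 281) (nat_lit 286))))))) (PT.nd (nat_lit 1170) (PT.nd (nat_lit 546) (PT.nd (nat_lit 234) (PT.nd (nat_lit 78) (PT.lf (nat_lit 19456) (nat_lit 6) (nat_lit 256) (nat_lit 5) (nat_lit 214) (nat_lit 281) (nat_lit 285)) (PT.nd (nat_lit 78) (PT.lf (nat_lit 20064) (nat_lit 6) (nat_lit 264) (nat_lit 5) (nat_lit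 215) (nat_lit 281) (nat_lit 284)) (PT.lf (nat_lit 20672) (nat_lit 6) (nat_lit 272) (nat_lit 5) (nat_lit 216) (nat_lit 281) (nat_lit 283)))) (PT.nd (nat_lit 156) (PT.nd (nat_lit 78) (PT.lf (nat_lit 21356) (nat_lit 6) (nat_lit 281) (nat_lit 5) (nat_lit 217) (nat_lit 281) (nat_lit 282)) (PT.lf (nat_lit 22040) (nat_lit 3) (nat_lit 290) (nat_lit 4) (nat_lit 218) (nat_lit 281) (nat_lit 281))) (PT.nd (nat_lit 78) (PT.lf (nat_lit 22648) (nat_lit 6) (nat_lit 298) (nat_lit 4) (nat_lit 219) (nat_lit 281) (nat_lit 280)) (PT.lf (nat_lit 23256) (nat_lit 6) (nat_lit 306) (nat_lit 4) (nat_lit 220) (nat_lit 281) (nat_lit 279))))) (PT.nd (nat_lit 312) (PT.nd (nat_lit 156) (PT.nd (nat_lit 78) (PT.lf (nat_lit 23940) (nat_lit 6) (nat_lit 315) (nat_lit 4) (nat_lit 221) (nat_lit 281) (nat_lit 278)) (PT.lf (nat_lit 24548) (nat_lit 6) (nat_lit 323) (nat_lit 4) (nat_lit 222) (nat_lit 281) (nat_lit 277))) (PT.nd (nat_lit 78) (PT.lf (nat_lit 25232) (nat_lit 6) (nat_lit 332) (nat_lit 4) (nat_lit 223) (nat_lit 281) (nat_lit 276)) (PT.lf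 (nat_lit 25916) (nat_lit 6) (nat_lit 341) (nat_lit 4) (nat_lit 224) (nat_lit 281) (nat_lit 275)))) (PT.nd (nat_lit 156) (PT.nd (nat_lit 78) (PT.lf (nat_lit 26676) (nat_lit 6) (nat_lit 351) (nat_lit 4) (nat_lit 225) (nat_lit 281) (nat_lit 274)) (PT.lf (nat_lit 27360) (nat_lit 6) (nat_lit 360) (nat_lit 4) (nat_lit 226) (nat_lit 281) (nat_lit 273))) (PT.nd (nat_lit 78) (PT.lf (nat_lit 28120) (nat_lit 6) (nat_lit 370) (nat_lit 4) (nat_lit 227) (nat_lit 281) (nat_lit 272)) (PT.lf (nat_lit 28880) (nat_lit 6) (nat_lit 380) (nat_lit 4) (nat_lit 228) (nat_lit 281) (nat_lit 271)))))) (PT.nd (nat_lit 624) (PT.nd (nat_lit 312) (PT.nd (nat_lit 156) (PT.nd (nat_lit 78) (PT.lf (nat_lit 29716) (nat_lit 6) (nat_lit 391) (nat_lit 4) (nat_lit 229) (nat_lit 281) (nat_lit 270)) (PT.lf (nat_lit 30552) (nat_lit 6) (nat_lit 402) (nat_lit 4) (nat_lit 230) (nat_lit 281) (nat_lit 269))) (PT.nd (nat_lit 78) (PT.lf (nat_lit 31388) (nat_lit 6) (nat_lit 413) (nat_lit 4) (nat_lit 231) (nat_lit 281) (nat_lit 268)) (PT.lf (nat_lit 32224)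 (nat_lit 6) (nat_lit 424) (nat_lit 4) (nat_lit 232) (nat_lit 281) (nat_lit 267)))) (PT.nd (nat_lit 156) (PT.nd (nat_lit 78) (PT.lf (nat_lit 33136) (nat_lit 6) (nat_lit 436) (nat_lit 4) (nat_lit 233) (nat_lit 281) (nat_lit 266)) (PT.lf (nat_lit 34048) (nat_lit 6) (nat_lit 448) (nat_lit 4) (nat_lit 234) (nat_lit 281) (nat_lit 265))) (PT.nd (nat_lit 78) (PT.lf (nat_lit 35112) (nat_lit 6) (nat_lit 462) (nat_lit 4) (nat_lit 235) (nat_lit 281) (nat_lit 264)) (PT.lf (nat_lit 36936) (nat_lit 6) (nat_lit 486) (nat_lit 4) (nat_lit 236) (nat_lit 281) (nat_lit 263))))) (PT.nd (nat_lit 312) (PT.nd (nat_lit 156) (PT.nd (nat_lit 78) (PT.lf (nat_lit 38684) (nat_lit 6) (nat_lit 509) (nat_lit 4) (nat_lit 237) (nat_lit 281) (nat_lit 262)) (PT.lf (nat_lit 40356) (nat_lit 6) (nat_lit 531) (nat_lit 4) (nat_lit 238) (nat_lit 281) (nat_lit 261))) (PT.nd (nat_lit 78) (PT.lf (nat_lit 41952) (nat_lit 6) (nat_lit 552) (nat_lit 4) (nat_lit 239) (nat_lit 281) (nat_lit 260)) (PT.lf (nat_lit 41876) (nat_lit 6) (nat_lit 551) (nat_lit 4)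 (nat_lit 240) (nat_lit 281) (nat_lit 259)))) (PT.nd (nat_lit 156) (PT.nd (nat_lit 78) (PT.lf (nat_lit 41800) (nat_lit 6) (nat_lit 550) (nat_lit 4) (nat_lit 241) (nat_lit 281) (nat_lit 258)) (PT.lf (nat_lit 41724) (nat_lit 6) (nat_lit 549) (nat_lit 4) (nat_lit 242) (nat_lit 281) (nat_lit 257))) (PT.nd (nat_lit 78) (PT.lf (nat_lit 41648) (nat_lit 6) (nat_lit 548) (nat_lit 4) (nat_lit 243) (nat_lit 281) (nat_lit 256)) (PT.lf (nat_lit 41572) (nat_lit 6) (nat_lit 547) (nat_lit 4) (nat_lit 244) (nat_lit 281) (nat_lit 255))))))))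
noncomputable def pc49 : PT := (PT.nd (nat_lit 2418) (PT.nd (nat_lit 1170) (PT.nd (nat_lit 546) (PT.nd (nat_lit 234) (PT.nd (nat_lit 78) (PT.lf (nat_lit 41496) (nat_lit 6) (nat_lit 546) (nat_lit 4) (nat_lit 245) (nat_lit 281) (nat_lit 254)) (PT.nd (nat_lit 78) (PT.lf (nat_lit 41420) (nat_lit 6) (nat_lit 545) (nat_lit 4) (nat_lit 246) (nat_lit 281) (nat_lit 253)) (PT.lf (nat_lit 41344) (nat_lit 6) (nat_lit 544) (nat_lit 4) (nat_lit 247) (nat_lit 281) (nat_lit 252)))) (PT.nd (nat_lit 156) (PT.nd (nat_lit 78) (PT.lf (nat_lit 41268) (nat_lit 6) (nat_lit 543) (nat_lit 4) (nat_lit 248) (nat_lit 281) (nat_lit 251)) (PT.lf (nat_lit 41192) (nat_lit 6) (nat_lit 542) (nat_lit 4) (nat_lit 249) (nat_lit 281) (nat_lit 250))) (PT.nd (nat_lit 78) (PT.lf (nat_lit 41192) (nat_lit 6) (nat_lit 542) (nat_lit 2) (nat_lit 250) (nat_lit 281) (nat_lit 249)) (PT.lf (nat_lit 41268) (nat_lit 6) (nat_lit 543) (nat_lit 2) (nat_lit 251) (nat_lit 281) (nat_lit 248))))) (PT.nd (nat_lit 312) (PT.nd (nat_lit 156) (PT.nd (nat_lit 78) (PT.lf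 (nat_lit 41344) (nat_lit 6) (nat_lit 544) (nat_lit 2) (nat_lit 252) (nat_lit 281) (nat_lit 247)) (PT.lf (nat_lit 41420) (nat_lit 6) (nat_lit 545) (nat_lit 2) (nat_lit 253) (nat_lit 281) (nat_lit 246))) (PT.nd (nat_lit 78) (PT.lf (nat_lit 41496) (nat_lit 6) (nat_lit 546) (nat_lit 2) (nat_lit 254) (nat_lit 281) (nat_lit 245)) (PT.lf (nat_lit 41572) (nat_lit 6) (nat_lit 547) (nat_lit 2) (nat_lit 255) (nat_lit 281) (nat_lit 244)))) (PT.nd (nat_lit 156) (PT.nd (nat_lit 78) (PT.lf (nat_lit 41648) (nat_lit 6) (nat_lit 548) (nat_lit 2) (nat_lit 256) (nat_lit 281) (nat_lit 243)) (PT.lf (nat_lit 41724) (nat_lit 6) (nat_lit 549) (nat_lit 2) (nat_lit 257) (nat_lit 281) (nat_lit 242))) (PT.nd (nat_lit 78) (PT.lf (nat_lit 41800) (nat_lit 6) (nat_lit 550) (nat_lit 2) (nat_lit 258) (nat_lit 281) (nat_lit 241)) (PT.lf (nat_lit 41876) (nat_lit 6) (nat_lit 551) (nat_lit 2) (nat_lit 259) (nat_lit 281) (nat_lit 240)))))) (PT.nd (nat_lit 624) (PT.nd (nat_lit 312) (PT.nd (nat_lit 156) (PT.nd (nat_lit 78) (PT.lf (nat_lit 41952)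 (nat_lit 6) (nat_lit 552) (nat_lit 2) (nat_lit 260) (nat_lit 281) (nat_lit 239)) (PT.lf (nat_lit 40356) (nat_lit 6) (nat_lit 531) (nat_lit 2) (nat_lit 261) (nat_lit 281) (nat_lit 238))) (PT.nd (nat_lit 78) (PT.lf (nat_lit 38684) (nat_lit 6) (nat_lit 509) (nat_lit 2) (nat_lit 262) (nat_lit 281) (nat_lit 237)) (PT.lf (nat_lit 36936) (nat_lit 6) (nat_lit 486) (nat_lit 2) (nat_lit 263) (nat_lit 281) (nat_lit 236)))) (PT.nd (nat_lit 156) (PT.nd (nat_lit 78) (PT.lf (nat_lit 35112) (nat_lit 6) (nat_lit 462) (nat_lit 2) (nat_lit 264) (nat_lit 281) (nat_lit 235)) (PT.lf (nat_lit 34048) (nat_lit 6) (nat_lit 448) (nat_lit 2) (nat_lit 265) (nat_lit 281) (nat_lit 234))) (PT.nd (nat_lit 78) (PT.lf (nat_lit 33136) (nat_lit 6) (nat_lit 436) (nat_lit 2) (nat_lit 266) (nat_lit 281) (nat_lit 233)) (PT.lf (nat_lit 32224) (nat_lit 6) (nat_lit 424) (nat_lit 2) (nat_lit 267) (nat_lit 281) (nat_lit 232))))) (PT.nd (nat_lit 312) (PT.nd (nat_lit 156) (PT.nd (nat_lit 78) (PT.lf (nat_lit 31388) (nat_lit 6) (nat_lit 413) (nat_lit 2)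 (nat_lit 268) (nat_lit 281) (nat_lit 231)) (PT.lf (nat_lit 30552) (nat_lit 6) (nat_lit 402) (nat_lit 2) (nat_lit 269) (nat_lit 281) (nat_lit 230))) (PT.nd (nat_lit 78) (PT.lf (nat_lit 29716) (nat_lit 6) (nat_lit 391) (nat_lit 2) (nat_lit 270) (nat_lit 281) (nat_lit 229)) (PT.lf (nat_lit 28880) (nat_lit 6) (nat_lit 380) (nat_lit 2) (nat_lit 271) (nat_lit 281) (nat_lit 228)))) (PT.nd (nat_lit 156) (PT.nd (nat_lit 78) (PT.lf (nat_lit 28120) (nat_lit 6) (nat_lit 370) (nat_lit 2) (nat_lit 272) (nat_lit 281) (nat_lit 227)) (PT.lf (nat_lit 27360) (nat_lit 6) (nat_lit 360) (nat_lit 2) (nat_lit 273) (nat_lit 281) (nat_lit 226))) (PT.nd (nat_lit 78) (PT.lf (nat_lit 26676) (nat_lit 6) (nat_lit 351) (nat_lit 2) (nat_lit 274) (nat_lit 281) (nat_lit 225)) (PT.lf (nat_lit 25916) (nat_lit 6) (nat_lit 341) (nat_lit 2) (nat_lit 275) (nat_lit 281) (nat_lit 224))))))) (PT.nd (nat_lit 1170) (PT.nd (nat_lit 546) (PT.nd (nat_lit 234) (PT.nd (nat_lit 78) (PT.lf (nat_lit 25232) (nat_lit 6) (nat_lit 332) (nat_lit 2) (nat_lit 276)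 (nat_lit 281) (nat_lit 223)) (PT.nd (nat_lit 78) (PT.lf (nat_lit 24548) (nat_lit 6) (nat_lit 323) (nat_lit 2) (nat_lit 277) (nat_lit 281) (nat_lit 222)) (PT.lf (nat_lit 23940) (nat_lit 6) (nat_lit 315) (nat_lit 2) (nat_lit 278) (nat_lit 281) (nat_lit 221)))) (PT.nd (nat_lit 156) (PT.nd (nat_lit 78) (PT.lf (nat_lit 23256) (nat_lit 6) (nat_lit 306) (nat_lit 2) (nat_lit 279) (nat_lit 281) (nat_lit 220)) (PT.lf (nat_lit 22648) (nat_lit 6) (nat_lit 298) (nat_lit 2) (nat_lit 280) (nat_lit 281) (nat_lit 219))) (PT.nd (nat_lit 78) (PT.lf (nat_lit 22040) (nat_lit 3) (nat_lit 290) (nat_lit 0) (nat_lit 281) (nat_lit 281) (nat_lit 218)) (PT.lf (nat_lit 21356) (nat_lit 6) (nat_lit 281) (nat_lit 0) (nat_lit 282) (nat_lit 281) (nat_lit 217))))) (PT.nd (nat_lit 312) (PT.nd (nat_lit 156) (PT.nd (nat_lit 78) (PT.lf (nat_lit 20672) (nat_lit 6) (nat_lit 272) (nat_lit 0) (nat_lit 283) (nat_lit 281) (nat_lit 216)) (PT.lf (nat_lit 20064) (nat_lit 6) (nat_lit 264) (nat_lit 0) (nat_lit 284) (nat_lit 281) (nat_lit 215))) (PT.nd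 (nat_lit 78) (PT.lf (nat_lit 19456) (nat_lit 6) (nat_lit 256) (nat_lit 0) (nat_lit 285) (nat_lit 281) (nat_lit 214)) (PT.lf (nat_lit 18848) (nat_lit 6) (nat_lit 248) (nat_lit 0) (nat_lit 286) (nat_lit 281) (nat_lit 213)))) (PT.nd (nat_lit 156) (PT.nd (nat_lit 78) (PT.lf (nat_lit 18240) (nat_lit 6) (nat_lit 240) (nat_lit 0) (nat_lit 287) (nat_lit 281) (nat_lit 212)) (PT.lf (nat_lit 17708) (nat_lit 6) (nat_lit 233) (nat_lit 0) (nat_lit 288) (nat_lit 281) (nat_lit 211))) (PT.nd (nat_lit 78) (PT.lf (nat_lit 17100) (nat_lit 6) (nat_lit 225) (nat_lit 0) (nat_lit 289) (nat_lit 281) (nat_lit 210)) (PT.lf (nat_lit 16568) (nat_lit 6) (nat_lit 218) (nat_lit 0) (nat_lit 290) (nat_lit 281) (nat_lit 209)))))) (PT.nd (nat_lit 74958) (PT.nd (nat_lit 74646) (PT.nd (nat_lit 74490) (PT.nd (nat_lit 78) (PT.lf (nat_lit 16036) (nat_lit 6) (nat_lit 211) (nat_lit 0) (nat_lit 291) (nat_lit 281) (nat_lit 208)) (PT.lf (nat_lit 15504) (nat_lit 6) (nat_lit 204) (nat_lit 0) (nat_lit 292) (nat_lit 281) (nat_lit 207))) (PT.nd (nat_lit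 78) (PT.lf (nat_lit 14592) (nat_lit 6) (nat_lit 192) (nat_lit 5) (nat_lit 205) (nat_lit 282) (nat_lit 293)) (PT.lf (nat_lit 15048) (nat_lit 6) (nat_lit 198) (nat_lit 5) (nat_lit 206) (nat_lit 282) (nat_lit 292)))) (PT.nd (nat_lit 156) (PT.nd (nat_lit 78) (PT.lf (nat_lit 15580) (nat_lit 6) (nat_lit 205) (nat_lit 5) (nat_lit 207) (nat_lit 282) (nat_lit 291)) (PT.lf (nat_lit 16112) (nat_lit 6) (nat_lit 212) (nat_lit 5) (nat_lit 208) (nat_lit 282) (nat_lit 290))) (PT.nd (nat_lit 78) (PT.lf (nat_lit 16644) (nat_lit 6) (nat_lit 219) (nat_lit 5) (nat_lit 209) (nat_lit 282) (nat_lit 289)) (PT.lf (nat_lit 17176) (nat_lit 6) (nat_lit 226) (nat_lit 5) (nat_lit 210) (nat_lit 282) (nat_lit 288))))) (PT.nd (nat_lit 312) (PT.nd (nat_lit 156) (PT.nd (nat_lit 78) (PT.lf (nat_lit 17784) (nat_lit 6) (nat_lit 234) (nat_lit 5) (nat_lit 211) (nat_lit 282) (nat_lit 287)) (PT.lf (nat_lit 18316) (nat_lit 6) (nat_lit 241) (nat_lit 5) (nat_lit 212) (nat_lit 282) (nat_lit 286))) (PT.nd (nat_lit 78) (PT.lf (nat_lit 18924) (nat_lit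 6) (nat_lit 249) (nat_lit 5) (nat_lit 213) (nat_lit 282) (nat_lit 285)) (PT.lf (nat_lit 19532) (nat_lit 6) (nat_lit 257) (nat_lit 5) (nat_lit 214) (nat_lit 282) (nat_lit 284)))) (PT.nd (nat_lit 156) (PT.nd (nat_lit 78) (PT.lf (nat_lit 20140) (nat_lit 6) (nat_lit 265) (nat_lit 5) (nat_lit 215) (nat_lit 282) (nat_lit 283)) (PT.lf (nat_lit 20748) (nat_lit 3) (nat_lit 273) (nat_lit 4) (nat_lit 216) (nat_lit 282) (nat_lit 282))) (PT.nd (nat_lit 78) (PT.lf (nat_lit 21356) (nat_lit 6) (nat_lit 281) (nat_lit 4) (nat_lit 217) (nat_lit 282) (nat_lit 281)) (PT.lf (nat_lit 21964) (nat_lit 6) (nat_lit 289) (nat_lit 4) (nat_lit 218) (nat_lit 282) (nat_lit 280))))))))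
noncomputable def pc50 : PT := (PT.nd (nat_lit 2418) (PT.nd (nat_lit 1170) (PT.nd (nat_lit 546) (PT.nd (nat_lit 234) (PT.nd (nat_lit 78) (PT.lf (nat_lit 22572) (nat_lit 6) (nat_lit 297) (nat_lit 4) (nat_lit 219) (nat_lit 282) (nat_lit 279)) (PT.nd (nat_lit 78) (PT.lf (nat_lit 23180) (nat_lit 6) (nat_lit 305) (nat_lit 4) (nat_lit 220) (nat_lit 282) (nat_lit 278)) (PT.lf (nat_lit 23864) (nat_lit 6) (nat_lit 314) (nat_lit 4) (nat_lit 221) (nat_lit 282) (nat_lit 277)))) (PT.nd (nat_lit 156) (PT.nd (nat_lit 78) (PT.lf (nat_lit 24472) (nat_lit 6) (nat_lit 322) (nat_lit 4) (nat_lit 222) (nat_lit 282) (nat_lit 276)) (PT.lf (nat_lit 25156) (nat_lit 6) (nat_lit 331) (nat_lit 4) (nat_lit 223) (nat_lit 282) (nat_lit 275))) (PT.nd (nat_lit 78) (PT.lf (nat_lit 25840) (nat_lit 6) (nat_lit 340) (nat_lit 4) (nat_lit 224) (nat_lit 282) (nat_lit 274)) (PT.lf (nat_lit 26600) (nat_lit 6) (nat_lit 350) (nat_lit 4) (nat_lit 225) (nat_lit 282) (nat_lit 273))))) (PT.nd (nat_lit 312) (PT.nd (nat_lit 156) (PT.nd (nat_lit 78) (PT.lf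 (nat_lit 27284) (nat_lit 6) (nat_lit 359) (nat_lit 4) (nat_lit 226) (nat_lit 282) (nat_lit 272)) (PT.lf (nat_lit 28044) (nat_lit 6) (nat_lit 369) (nat_lit 4) (nat_lit 227) (nat_lit 282) (nat_lit 271))) (PT.nd (nat_lit 78) (PT.lf (nat_lit 28804) (nat_lit 6) (nat_lit 379) (nat_lit 4) (nat_lit 228) (nat_lit 282) (nat_lit 270)) (PT.lf (nat_lit 29640) (nat_lit 6) (nat_lit 390) (nat_lit 4) (nat_lit 229) (nat_lit 282) (nat_lit 269)))) (PT.nd (nat_lit 156) (PT.nd (nat_lit 78) (PT.lf (nat_lit 30476) (nat_lit 6) (nat_lit 401) (nat_lit 4) (nat_lit 230) (nat_lit 282) (nat_lit 268)) (PT.lf (nat_lit 31312) (nat_lit 6) (nat_lit 412) (nat_lit 4) (nat_lit 231) (nat_lit 282) (nat_lit 267))) (PT.nd (nat_lit 78) (PT.lf (nat_lit 32148) (nat_lit 6) (nat_lit 423) (nat_lit 4) (nat_lit 232) (nat_lit 282) (nat_lit 266)) (PT.lf (nat_lit 33060) (nat_lit 6) (nat_lit 435) (nat_lit 4) (nat_lit 233) (nat_lit 282) (nat_lit 265)))))) (PT.nd (nat_lit 624) (PT.nd (nat_lit 312) (PT.nd (nat_lit 156) (PT.nd (nat_lit 78) (PT.lf (nat_lit 33972)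 (nat_lit 6) (nat_lit 447) (nat_lit 4) (nat_lit 234) (nat_lit 282) (nat_lit 264)) (PT.lf (nat_lit 35036) (nat_lit 6) (nat_lit 461) (nat_lit 4) (nat_lit 235) (nat_lit 282) (nat_lit 263))) (PT.nd (nat_lit 78) (PT.lf (nat_lit 36860) (nat_lit 6) (nat_lit 485) (nat_lit 4) (nat_lit 236) (nat_lit 282) (nat_lit 262)) (PT.lf (nat_lit 38608) (nat_lit 6) (nat_lit 508) (nat_lit 4) (nat_lit 237) (nat_lit 282) (nat_lit 261)))) (PT.nd (nat_lit 156) (PT.nd (nat_lit 78) (PT.lf (nat_lit 40280) (nat_lit 6) (nat_lit 530) (nat_lit 4) (nat_lit 238) (nat_lit 282) (nat_lit 260)) (PT.lf (nat_lit 40204) (nat_lit 6) (nat_lit 529) (nat_lit 4) (nat_lit 239) (nat_lit 282) (nat_lit 259))) (PT.nd (nat_lit 78) (PT.lf (nat_lit 40128) (nat_lit 6) (nat_lit 528) (nat_lit 4) (nat_lit 240) (nat_lit 282) (nat_lit 258)) (PT.lf (nat_lit 40052) (nat_lit 6) (nat_lit 527) (nat_lit 4) (nat_lit 241) (nat_lit 282) (nat_lit 257))))) (PT.nd (nat_lit 312) (PT.nd (nat_lit 156) (PT.nd (nat_lit 78) (PT.lf (nat_lit 39976) (nat_lit 6) (nat_lit 526) (nat_lit 4)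 (nat_lit 242) (nat_lit 282) (nat_lit 256)) (PT.lf (nat_lit 39900) (nat_lit 6) (nat_lit 525) (nat_lit 4) (nat_lit 243) (nat_lit 282) (nat_lit 255))) (PT.nd (nat_lit 78) (PT.lf (nat_lit 39824) (nat_lit 6) (nat_lit 524) (nat_lit 4) (nat_lit 244) (nat_lit 282) (nat_lit 254)) (PT.lf (nat_lit 39748) (nat_lit 6) (nat_lit 523) (nat_lit 4) (nat_lit 245) (nat_lit 282) (nat_lit 253)))) (PT.nd (nat_lit 156) (PT.nd (nat_lit 78) (PT.lf (nat_lit 39672) (nat_lit 6) (nat_lit 522) (nat_lit 4) (nat_lit 246) (nat_lit 282) (nat_lit 252)) (PT.lf (nat_lit 39596) (nat_lit 6) (nat_lit 521) (nat_lit 4) (nat_lit 247) (nat_lit 282) (nat_lit 251))) (PT.nd (nat_lit 78) (PT.lf (nat_lit 39520) (nat_lit 6) (nat_lit 520) (nat_lit 4) (nat_lit 248) (nat_lit 282) (nat_lit 250)) (PT.lf (nat_lit 39444) (nat_lit 3) (nat_lit 519) (nat_lit 2) (nat_lit 249) (nat_lit 282) (nat_lit 249))))))) (PT.nd (nat_lit 1170) (PT.nd (nat_lit 546) (PT.nd (nat_lit 234) (PT.nd (nat_lit 78) (PT.lf (nat_lit 39520) (nat_lit 6) (nat_lit 520) (nat_lit 2) (nat_lit 250)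 (nat_lit 282) (nat_lit 248)) (PT.nd (nat_lit 78) (PT.lf (nat_lit 39596) (nat_lit 6) (nat_lit 521) (nat_lit 2) (nat_lit 251) (nat_lit 282) (nat_lit 247)) (PT.lf (nat_lit 39672) (nat_lit 6) (nat_lit 522) (nat_lit 2) (nat_lit 252) (nat_lit 282) (nat_lit 246)))) (PT.nd (nat_lit 156) (PT.nd (nat_lit 78) (PT.lf (nat_lit 39748) (nat_lit 6) (nat_lit 523) (nat_lit 2) (nat_lit 253) (nat_lit 282) (nat_lit 245)) (PT.lf (nat_lit 39824) (nat_lit 6) (nat_lit 524) (nat_lit 2) (nat_lit 254) (nat_lit 282) (nat_lit 244))) (PT.nd (nat_lit 78) (PT.lf (nat_lit 39900) (nat_lit 6) (nat_lit 525) (nat_lit 2) (nat_lit 255) (nat_lit 282) (nat_lit 243)) (PT.lf (nat_lit 39976) (nat_lit 6) (nat_lit 526) (nat_lit 2) (nat_lit 256) (nat_lit 282) (nat_lit 242))))) (PT.nd (nat_lit 312) (PT.nd (nat_lit 156) (PT.nd (nat_lit 78) (PT.lf (nat_lit 40052) (nat_lit 6) (nat_lit 527) (nat_lit 2) (nat_lit 257) (nat_lit 282) (nat_lit 241)) (PT.lf (nat_lit 40128) (nat_lit 6) (nat_lit 528) (nat_lit 2) (nat_lit 258) (nat_lit 282) (nat_lit 240))) (PT.nd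 (nat_lit 78) (PT.lf (nat_lit 40204) (nat_lit 6) (nat_lit 529) (nat_lit 2) (nat_lit 259) (nat_lit 282) (nat_lit 239)) (PT.lf (nat_lit 40280) (nat_lit 6) (nat_lit 530) (nat_lit 2) (nat_lit 260) (nat_lit 282) (nat_lit 238)))) (PT.nd (nat_lit 156) (PT.nd (nat_lit 78) (PT.lf (nat_lit 38608) (nat_lit 6) (nat_lit 508) (nat_lit 2) (nat_lit 261) (nat_lit 282) (nat_lit 237)) (PT.lf (nat_lit 36860) (nat_lit 6) (nat_lit 485) (nat_lit 2) (nat_lit 262) (nat_lit 282) (nat_lit 236))) (PT.nd (nat_lit 78) (PT.lf (nat_lit 35036) (nat_lit 6) (nat_lit 461) (nat_lit 2) (nat_lit 263) (nat_lit 282) (nat_lit 235)) (PT.lf (nat_lit 33972) (nat_lit 6) (nat_lit 447) (nat_lit 2) (nat_lit 264) (nat_lit 282) (nat_lit 234)))))) (PT.nd (nat_lit 624) (PT.nd (nat_lit 312) (PT.nd (nat_lit 156) (PT.nd (nat_lit 78) (PT.lf (nat_lit 33060) (nat_lit 6) (nat_lit 435) (nat_lit 2) (nat_lit 265) (nat_lit 282) (nat_lit 233)) (PT.lf (nat_lit 32148) (nat_lit 6) (nat_lit 423) (nat_lit 2) (nat_lit 266) (nat_lit 282) (nat_lit 232))) (PT.nd (nat_lit 78) (PT.lf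 (nat_lit 31312) (nat_lit 6) (nat_lit 412) (nat_lit 2) (nat_lit 267) (nat_lit 282) (nat_lit 231)) (PT.lf (nat_lit 30476) (nat_lit 6) (nat_lit 401) (nat_lit 2) (nat_lit 268) (nat_lit 282) (nat_lit 230)))) (PT.nd (nat_lit 156) (PT.nd (nat_lit 78) (PT.lf (nat_lit 29640) (nat_lit 6) (nat_lit 390) (nat_lit 2) (nat_lit 269) (nat_lit 282) (nat_lit 229)) (PT.lf (nat_lit 28804) (nat_lit 6) (nat_lit 379) (nat_lit 2) (nat_lit 270) (nat_lit 282) (nat_lit 228))) (PT.nd (nat_lit 78) (PT.lf (nat_lit 28044) (nat_lit 6) (nat_lit 369) (nat_lit 2) (nat_lit 271) (nat_lit 282) (nat_lit 227)) (PT.lf (nat_lit 27284) (nat_lit 6) (nat_lit 359) (nat_lit 2) (nat_lit 272) (nat_lit 282) (nat_lit 226))))) (PT.nd (nat_lit 312) (PT.nd (nat_lit 156) (PT.nd (nat_lit 78) (PT.lf (nat_lit 26600) (nat_lit 6) (nat_lit 350) (nat_lit 2) (nat_lit 273) (nat_lit 282) (nat_lit 225)) (PT.lf (nat_lit 25840) (nat_lit 6) (nat_lit 340) (nat_lit 2) (nat_lit 274) (nat_lit 282) (nat_lit 224))) (PT.nd (nat_lit 78) (PT.lf (nat_lit 25156) (nat_lit 6) (nat_lit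 331) (nat_lit 2) (nat_lit 275) (nat_lit 282) (nat_lit 223)) (PT.lf (nat_lit 24472) (nat_lit 6) (nat_lit 322) (nat_lit 2) (nat_lit 276) (nat_lit 282) (nat_lit 222)))) (PT.nd (nat_lit 156) (PT.nd (nat_lit 78) (PT.lf (nat_lit 23864) (nat_lit 6) (nat_lit 314) (nat_lit 2) (nat_lit 277) (nat_lit 282) (nat_lit 221)) (PT.lf (nat_lit 23180) (nat_lit 6) (nat_lit 305) (nat_lit 2) (nat_lit 278) (nat_lit 282) (nat_lit 220))) (PT.nd (nat_lit 78) (PT.lf (nat_lit 22572) (nat_lit 6) (nat_lit 297) (nat_lit 2) (nat_lit 279) (nat_lit 282) (nat_lit 219)) (PT.lf (nat_lit 21964) (nat_lit 6) (nat_lit 289) (nat_lit 2) (nat_lit 280) (nat_lit 282) (nat_lit 218))))))))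
noncomputable def pc51 : PT := (PT.nd (nat_lit 76596) (PT.nd (nat_lit 75348) (PT.nd (nat_lit 546) (PT.nd (nat_lit 234) (PT.nd (nat_lit 78) (PT.lf (nat_lit 21356) (nat_lit 6) (nat_lit 281) (nat_lit 2) (nat_lit 281) (nat_lit 282) (nat_lit 217)) (PT.nd (nat_lit 78) (PT.lf (nat_lit 20748) (nat_lit 3) (nat_lit 273) (nat_lit 0) (nat_lit 282) (nat_lit 282) (nat_lit 216)) (PT.lf (nat_lit 20140) (nat_lit 6) (nat_lit 265) (nat_lit 0) (nat_lit 283) (nat_lit 282) (nat_lit 215)))) (PT.nd (nat_lit 156) (PT.nd (nat_lit 78) (PT.lf (nat_lit 19532) (nat_lit 6) (nat_lit 257) (nat_lit 0) (nat_lit 284) (nat_lit 282) (nat_lit 214)) (PT.lf (nat_lit 18924) (nat_lit 6) (nat_lit 249) (nat_lit 0) (nat_lit 285) (nat_lit 282) (nat_lit 213))) (PT.nd (nat_lit 78) (PT.lf (nat_lit 18316) (nat_lit 6) (nat_lit 241) (nat_lit 0) (nat_lit 286) (nat_lit 282) (nat_lit 212)) (PT.lf (nat_lit 17784) (nat_lit 6) (nat_lit 234) (nat_lit 0) (nat_lit 287) (nat_lit 282) (nat_lit 211))))) (PT.nd (nat_lit 312) (PT.nd (nat_lit 156) (PT.nd (nat_lit 78) (PT.lf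 (nat_lit 17176) (nat_lit 6) (nat_lit 226) (nat_lit 0) (nat_lit 288) (nat_lit 282) (nat_lit 210)) (PT.lf (nat_lit 16644) (nat_lit 6) (nat_lit 219) (nat_lit 0) (nat_lit 289) (nat_lit 282) (nat_lit 209))) (PT.nd (nat_lit 78) (PT.lf (nat_lit 16112) (nat_lit 6) (nat_lit 212) (nat_lit 0) (nat_lit 290) (nat_lit 282) (nat_lit 208)) (PT.lf (nat_lit 15580) (nat_lit 6) (nat_lit 205) (nat_lit 0) (nat_lit 291) (nat_lit 282) (nat_lit 207)))) (PT.nd (nat_lit 74334) (PT.nd (nat_lit 78) (PT.lf (nat_lit 15048) (nat_lit 6) (nat_lit 198) (nat_lit 0) (nat_lit 292) (nat_lit 282) (nat_lit 206)) (PT.lf (nat_lit 14592) (nat_lit 6) (nat_lit 192) (nat_lit 0) (nat_lit 293) (nat_lit 282) (nat_lit 205))) (PT.nd (nat_lit 78) (PT.lf (nat_lit 14136) (nat_lit 6) (nat_lit 186) (nat_lit 5) (nat_lit 204) (nat_lit 283) (nat_lit 293)) (PT.lf (nat_lit 14668) (nat_lit 6) (nat_lit 193) (nat_lit 5) (nat_lit 205) (nat_lit 283) (nat_lit 292)))))) (PT.nd (nat_lit 624) (PT.nd (nat_lit 312) (PT.nd (nat_lit 156) (PT.nd (nat_lit 78) (PT.lf (nat_lit 15124)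 (nat_lit 6) (nat_lit 199) (nat_lit 5) (nat_lit 206) (nat_lit 283) (nat_lit 291)) (PT.lf (nat_lit 15656) (nat_lit 6) (nat_lit 206) (nat_lit 5) (nat_lit 207) (nat_lit 283) (nat_lit 290))) (PT.nd (nat_lit 78) (PT.lf (nat_lit 16188) (nat_lit 6) (nat_lit 213) (nat_lit 5) (nat_lit 208) (nat_lit 283) (nat_lit 289)) (PT.lf (nat_lit 16720) (nat_lit 6) (nat_lit 220) (nat_lit 5) (nat_lit 209) (nat_lit 283) (nat_lit 288)))) (PT.nd (nat_lit 156) (PT.nd (nat_lit 78) (PT.lf (nat_lit 17252) (nat_lit 6) (nat_lit 227) (nat_lit 5) (nat_lit 210) (nat_lit 283) (nat_lit 287)) (PT.lf (nat_lit 17860) (nat_lit 6) (nat_lit 235) (nat_lit 5) (nat_lit 211) (nat_lit 283) (nat_lit 286))) (PT.nd (nat_lit 78) (PT.lf (nat_lit 18392) (nat_lit 6) (nat_lit 242) (nat_lit 5) (nat_lit 212) (nat_lit 283) (nat_lit 285)) (PT.lf (nat_lit 19000) (nat_lit 6) (nat_lit 250) (nat_lit 5) (nat_lit 213) (nat_lit 283) (nat_lit 284))))) (PT.nd (nat_lit 312) (PT.nd (nat_lit 156) (PT.nd (nat_lit 78) (PT.lf (nat_lit 19608) (nat_lit 3) (nat_lit 258) (nat_lit 4)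 (nat_lit 214) (nat_lit 283) (nat_lit 283)) (PT.lf (nat_lit 20140) (nat_lit 6) (nat_lit 265) (nat_lit 4) (nat_lit 215) (nat_lit 283) (nat_lit 282))) (PT.nd (nat_lit 78) (PT.lf (nat_lit 20672) (nat_lit 6) (nat_lit 272) (nat_lit 4) (nat_lit 216) (nat_lit 283) (nat_lit 281)) (PT.lf (nat_lit 21280) (nat_lit 6) (nat_lit 280) (nat_lit 4) (nat_lit 217) (nat_lit 283) (nat_lit 280)))) (PT.nd (nat_lit 156) (PT.nd (nat_lit 78) (PT.lf (nat_lit 21888) (nat_lit 6) (nat_lit 288) (nat_lit 4) (nat_lit 218) (nat_lit 283) (nat_lit 279)) (PT.lf (nat_lit 22496) (nat_lit 6) (nat_lit 296) (nat_lit 4) (nat_lit 219) (nat_lit 283) (nat_lit 278))) (PT.nd (nat_lit 78) (PT.lf (nat_lit 23104) (nat_lit 6) (nat_lit 304) (nat_lit 4) (nat_lit 220) (nat_lit 283) (nat_lit 277)) (PT.lf (nat_lit 23788) (nat_lit 6) (nat_lit 313) (nat_lit 4) (nat_lit 221) (nat_lit 283) (nat_lit 276))))))) (PT.nd (nat_lit 1170) (PT.nd (nat_lit 546) (PT.nd (nat_lit 234) (PT.nd (nat_lit 78) (PT.lf (nat_lit 24396) (nat_lit 6) (nat_lit 321) (nat_lit 4) (nat_lit 222)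 (nat_lit 283) (nat_lit 275)) (PT.nd (nat_lit 78) (PT.lf (nat_lit 25080) (nat_lit 6) (nat_lit 330) (nat_lit 4) (nat_lit 223) (nat_lit 283) (nat_lit 274)) (PT.lf (nat_lit 25764) (nat_lit 6) (nat_lit 339) (nat_lit 4) (nat_lit 224) (nat_lit 283) (nat_lit 273)))) (PT.nd (nat_lit 156) (PT.nd (nat_lit 78) (PT.lf (nat_lit 26524) (nat_lit 6) (nat_lit 349) (nat_lit 4) (nat_lit 225) (nat_lit 283) (nat_lit 272)) (PT.lf (nat_lit 27208) (nat_lit 6) (nat_lit 358) (nat_lit 4) (nat_lit 226) (nat_lit 283) (nat_lit 271))) (PT.nd (nat_lit 78) (PT.lf (nat_lit 27968) (nat_lit 6) (nat_lit 368) (nat_lit 4) (nat_lit 227) (nat_lit 283) (nat_lit 270)) (PT.lf (nat_lit 28728) (nat_lit 6) (nat_lit 378) (nat_lit 4) (nat_lit 228) (nat_lit 283) (nat_lit 269))))) (PT.nd (nat_lit 312) (PT.nd (nat_lit 156) (PT.nd (nat_lit 78) (PT.lf (nat_lit 29564) (nat_lit 6) (nat_lit 389) (nat_lit 4) (nat_lit 229) (nat_lit 283) (nat_lit 268)) (PT.lf (nat_lit 30400) (nat_lit 6) (nat_lit 400) (nat_lit 4) (nat_lit 230) (nat_lit 283) (nat_lit 267))) (PT.nd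 (nat_lit 78) (PT.lf (nat_lit 31236) (nat_lit 6) (nat_lit 411) (nat_lit 4) (nat_lit 231) (nat_lit 283) (nat_lit 266)) (PT.lf (nat_lit 32072) (nat_lit 6) (nat_lit 422) (nat_lit 4) (nat_lit 232) (nat_lit 283) (nat_lit 265)))) (PT.nd (nat_lit 156) (PT.nd (nat_lit 78) (PT.lf (nat_lit 32984) (nat_lit 6) (nat_lit 434) (nat_lit 4) (nat_lit 233) (nat_lit 283) (nat_lit 264)) (PT.lf (nat_lit 33896) (nat_lit 6) (nat_lit 446) (nat_lit 4) (nat_lit 234) (nat_lit 283) (nat_lit 263))) (PT.nd (nat_lit 78) (PT.lf (nat_lit 34960) (nat_lit 6) (nat_lit 460) (nat_lit 4) (nat_lit 235) (nat_lit 283) (nat_lit 262)) (PT.lf (nat_lit 36784) (nat_lit 6) (nat_lit 484) (nat_lit 4) (nat_lit 236) (nat_lit 283) (nat_lit 261)))))) (PT.nd (nat_lit 624) (PT.nd (nat_lit 312) (PT.nd (nat_lit 156) (PT.nd (nat_lit 78) (PT.lf (nat_lit 38532) (nat_lit 6) (nat_lit 507) (nat_lit 4) (nat_lit 237) (nat_lit 283) (nat_lit 260)) (PT.lf (nat_lit 38456) (nat_lit 6) (nat_lit 506) (nat_lit 4) (nat_lit 238) (nat_lit 283) (nat_lit 259))) (PT.nd (nat_lit 78) (PT.lf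 (nat_lit 38380) (nat_lit 6) (nat_lit 505) (nat_lit 4) (nat_lit 239) (nat_lit 283) (nat_lit 258)) (PT.lf (nat_lit 38304) (nat_lit 6) (nat_lit 504) (nat_lit 4) (nat_lit 240) (nat_lit 283) (nat_lit 257)))) (PT.nd (nat_lit 156) (PT.nd (nat_lit 78) (PT.lf (nat_lit 38228) (nat_lit 6) (nat_lit 503) (nat_lit 4) (nat_lit 241) (nat_lit 283) (nat_lit 256)) (PT.lf (nat_lit 38152) (nat_lit 6) (nat_lit 502) (nat_lit 4) (nat_lit 242) (nat_lit 283) (nat_lit 255))) (PT.nd (nat_lit 78) (PT.lf (nat_lit 38076) (nat_lit 6) (nat_lit 501) (nat_lit 4) (nat_lit 243) (nat_lit 283) (nat_lit 254)) (PT.lf (nat_lit 38000) (nat_lit 6) (nat_lit 500) (nat_lit 4) (nat_lit 244) (nat_lit 283) (nat_lit 253))))) (PT.nd (nat_lit 312) (PT.nd (nat_lit 156) (PT.nd (nat_lit 78) (PT.lf (nat_lit 37924) (nat_lit 6) (nat_lit 499) (nat_lit 4) (nat_lit 245) (nat_lit 283) (nat_lit 252)) (PT.lf (nat_lit 37848) (nat_lit 6) (nat_lit 498) (nat_lit 4) (nat_lit 246) (nat_lit 283) (nat_lit 251))) (PT.nd (nat_lit 78) (PT.lf (nat_lit 37772) (nat_lit 6) (nat_lit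 497) (nat_lit 4) (nat_lit 247) (nat_lit 283) (nat_lit 250)) (PT.lf (nat_lit 37696) (nat_lit 6) (nat_lit 496) (nat_lit 4) (nat_lit 248) (nat_lit 283) (nat_lit 249)))) (PT.nd (nat_lit 156) (PT.nd (nat_lit 78) (PT.lf (nat_lit 37696) (nat_lit 6) (nat_lit 496) (nat_lit 2) (nat_lit 249) (nat_lit 283) (nat_lit 248)) (PT.lf (nat_lit 37772) (nat_lit 6) (nat_lit 497) (nat_lit 2) (nat_lit 250) (nat_lit 283) (nat_lit 247))) (PT.nd (nat_lit 78) (PT.lf (nat_lit 37848) (nat_lit 6) (nat_lit 498) (nat_lit 2) (nat_lit 251) (nat_lit 283) (nat_lit 246)) (PT.lf (nat_lit 37924) (nat_lit 6) (nat_lit 499) (nat_lit 2) (nat_lit 252) (nat_lit 283) (nat_lit 245))))))))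
noncomputable def pc52 : PT := (PT.nd (nat_lit 2340) (PT.nd (nat_lit 1170) (PT.nd (nat_lit 546) (PT.nd (nat_lit 234) (PT.nd (nat_lit 78) (PT.lf (nat_lit 38000) (nat_lit 6) (nat_lit 500) (nat_lit 2) (nat_lit 253) (nat_lit 283) (nat_lit 244)) (PT.nd (nat_lit 78) (PT.lf (nat_lit 38076) (nat_lit 6) (nat_lit 501) (nat_lit 2) (nat_lit 254) (nat_lit 283) (nat_lit 243)) (PT.lf (nat_lit 38152) (nat_lit 6) (nat_lit 502) (nat_lit 2) (nat_lit 255) (nat_lit 283) (nat_lit 242)))) (PT.nd (nat_lit 156) (PT.nd (nat_lit 78) (PT.lf (nat_lit 38228) (nat_lit 6) (nat_lit 503) (nat_lit 2) (nat_lit 256) (nat_lit 283) (nat_lit 241)) (PT.lf (nat_lit 38304) (nat_lit 6) (nat_lit 504) (nat_lit 2) (nat_lit 257) (nat_lit 283) (nat_lit 240))) (PT.nd (nat_lit 78) (PT.lf (nat_lit 38380) (nat_lit 6) (nat_lit 505) (nat_lit 2) (nat_lit 258) (nat_lit 283) (nat_lit 239)) (PT.lf (nat_lit 38456) (nat_lit 6) (nat_lit 506) (nat_lit 2) (nat_lit 259) (nat_lit 283) (nat_lit 238))))) (PT.nd (nat_lit 312) (PT.nd (nat_lit 156) (PT.nd (nat_lit 78) (PT.lf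 (nat_lit 38532) (nat_lit 6) (nat_lit 507) (nat_lit 2) (nat_lit 260) (nat_lit 283) (nat_lit 237)) (PT.lf (nat_lit 36784) (nat_lit 6) (nat_lit 484) (nat_lit 2) (nat_lit 261) (nat_lit 283) (nat_lit 236))) (PT.nd (nat_lit 78) (PT.lf (nat_lit 34960) (nat_lit 6) (nat_lit 460) (nat_lit 2) (nat_lit 262) (nat_lit 283) (nat_lit 235)) (PT.lf (nat_lit 33896) (nat_lit 6) (nat_lit 446) (nat_lit 2) (nat_lit 263) (nat_lit 283) (nat_lit 234)))) (PT.nd (nat_lit 156) (PT.nd (nat_lit 78) (PT.lf (nat_lit 32984) (nat_lit 6) (nat_lit 434) (nat_lit 2) (nat_lit 264) (nat_lit 283) (nat_lit 233)) (PT.lf (nat_lit 32072) (nat_lit 6) (nat_lit 422) (nat_lit 2) (nat_lit 265) (nat_lit 283) (nat_lit 232))) (PT.nd (nat_lit 78) (PT.lf (nat_lit 31236) (nat_lit 6) (nat_lit 411) (nat_lit 2) (nat_lit 266) (nat_lit 283) (nat_lit 231)) (PT.lf (nat_lit 30400) (nat_lit 6) (nat_lit 400) (nat_lit 2) (nat_lit 267) (nat_lit 283) (nat_lit 230)))))) (PT.nd (nat_lit 546) (PT.nd (nat_lit 234) (PT.nd (nat_lit 78) (PT.lf (nat_lit 29564) (nat_lit 6) (nat_lit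 389) (nat_lit 2) (nat_lit 268) (nat_lit 283) (nat_lit 229)) (PT.nd (nat_lit 78) (PT.lf (nat_lit 28728) (nat_lit 6) (nat_lit 378) (nat_lit 2) (nat_lit 269) (nat_lit 283) (nat_lit 228)) (PT.lf (nat_lit 27968) (nat_lit 6) (nat_lit 368) (nat_lit 2) (nat_lit 270) (nat_lit 283) (nat_lit 227)))) (PT.nd (nat_lit 156) (PT.nd (nat_lit 78) (PT.lf (nat_lit 27208) (nat_lit 6) (nat_lit 358) (nat_lit 2) (nat_lit 271) (nat_lit 283) (nat_lit 226)) (PT.lf (nat_lit 26524) (nat_lit 6) (nat_lit 349) (nat_lit 2) (nat_lit 272) (nat_lit 283) (nat_lit 225))) (PT.nd (nat_lit 78) (PT.lf (nat_lit 25764) (nat_lit 6) (nat_lit 339) (nat_lit 2) (nat_lit 273) (nat_lit 283) (nat_lit 224)) (PT.lf (nat_lit 25080) (nat_lit 6) (nat_lit 330) (nat_lit 2) (nat_lit 274) (nat_lit 283) (nat_lit 223))))) (PT.nd (nat_lit 312) (PT.nd (nat_lit 156) (PT.nd (nat_lit 78) (PT.lf (nat_lit 24396) (nat_lit 6) (nat_lit 321) (nat_lit 2) (nat_lit 275) (nat_lit 283) (nat_lit 222)) (PT.lf (nat_lit 23788) (nat_lit 6) (nat_lit 313) (nat_lit 2) (nat_lit 276) (nat_lit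 283) (nat_lit 221))) (PT.nd (nat_lit 78) (PT.lf (nat_lit 23104) (nat_lit 6) (nat_lit 304) (nat_lit 2) (nat_lit 277) (nat_lit 283) (nat_lit 220)) (PT.lf (nat_lit 22496) (nat_lit 6) (nat_lit 296) (nat_lit 2) (nat_lit 278) (nat_lit 283) (nat_lit 219)))) (PT.nd (nat_lit 156) (PT.nd (nat_lit 78) (PT.lf (nat_lit 21888) (nat_lit 6) (nat_lit 288) (nat_lit 2) (nat_lit 279) (nat_lit 283) (nat_lit 218)) (PT.lf (nat_lit 21280) (nat_lit 6) (nat_lit 280) (nat_lit 2) (nat_lit 280) (nat_lit 283) (nat_lit 217))) (PT.nd (nat_lit 78) (PT.lf (nat_lit 20672) (nat_lit 6) (nat_lit 272) (nat_lit 2) (nat_lit 281) (nat_lit 283) (nat_lit 216)) (PT.lf (nat_lit 20140) (nat_lit 6) (nat_lit 265) (nat_lit 2) (nat_lit 282) (nat_lit 283) (nat_lit 215))))))) (PT.nd (nat_lit 75192) (PT.nd (nat_lit 546) (PT.nd (nat_lit 234) (PT.nd (nat_lit 78) (PT.lf (nat_lit 19608) (nat_lit 3) (nat_lit 258) (nat_lit 0) (nat_lit 283) (nat_lit 283) (nat_lit 214)) (PT.nd (nat_lit 78) (PT.lf (nat_lit 19000) (nat_lit 6) (nat_lit 250) (nat_lit 0) (nat_lit 284)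 (nat_lit 283) (nat_lit 213)) (PT.lf (nat_lit 18392) (nat_lit 6) (nat_lit 242) (nat_lit 0) (nat_lit 285) (nat_lit 283) (nat_lit 212)))) (PT.nd (nat_lit 156) (PT.nd (nat_lit 78) (PT.lf (nat_lit 17860) (nat_lit 6) (nat_lit 235) (nat_lit 0) (nat_lit 286) (nat_lit 283) (nat_lit 211)) (PT.lf (nat_lit 17252) (nat_lit 6) (nat_lit 227) (nat_lit 0) (nat_lit 287) (nat_lit 283) (nat_lit 210))) (PT.nd (nat_lit 78) (PT.lf (nat_lit 16720) (nat_lit 6) (nat_lit 220) (nat_lit 0) (nat_lit 288) (nat_lit 283) (nat_lit 209)) (PT.lf (nat_lit 16188) (nat_lit 6) (nat_lit 213) (nat_lit 0) (nat_lit 289) (nat_lit 283) (nat_lit 208))))) (PT.nd (nat_lit 74334) (PT.nd (nat_lit 156) (PT.nd (nat_lit 78) (PT.lf (nat_lit 15656) (nat_lit 6) (nat_lit 206) (nat_lit 0) (nat_lit 290) (nat_lit 283) (nat_lit 207)) (PT.lf (nat_lit 15124) (nat_lit 6) (nat_lit 199) (nat_lit 0) (nat_lit 291) (nat_lit 283) (nat_lit 206))) (PT.nd (nat_lit 78) (PT.lf (nat_lit 14668) (nat_lit 6) (nat_lit 193) (nat_lit 0) (nat_lit 292) (nat_lit 283) (nat_lit 205)) (PT.lf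 (nat_lit 14136) (nat_lit 6) (nat_lit 186) (nat_lit 0) (nat_lit 293) (nat_lit 283) (nat_lit 204)))) (PT.nd (nat_lit 156) (PT.nd (nat_lit 78) (PT.lf (nat_lit 13300) (nat_lit 6) (nat_lit 175) (nat_lit 5) (nat_lit 202) (nat_lit 284) (nat_lit 294)) (PT.lf (nat_lit 13756) (nat_lit 6) (nat_lit 181) (nat_lit 5) (nat_lit 203) (nat_lit 284) (nat_lit 293))) (PT.nd (nat_lit 78) (PT.lf (nat_lit 14212) (nat_lit 6) (nat_lit 187) (nat_lit 5) (nat_lit 204) (nat_lit 284) (nat_lit 292)) (PT.lf (nat_lit 14744) (nat_lit 6) (nat_lit 194) (nat_lit 5) (nat_lit 205) (nat_lit 284) (nat_lit 291)))))) (PT.nd (nat_lit 624) (PT.nd (nat_lit 312) (PT.nd (nat_lit 156) (PT.nd (nat_lit 78) (PT.lf (nat_lit 15200) (nat_lit 6) (nat_lit 200) (nat_lit 5) (nat_lit 206) (nat_lit 284) (nat_lit 290)) (PT.lf (nat_lit 15732) (nat_lit 6) (nat_lit 207) (nat_lit 5) (nat_lit 207) (nat_lit 284) (nat_lit 289))) (PT.nd (nat_lit 78) (PT.lf (nat_lit 16264) (nat_lit 6) (nat_lit 214) (nat_lit 5) (nat_lit 208) (nat_lit 284) (nat_lit 288)) (PT.lf (nat_lit 16796)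 (nat_lit 6) (nat_lit 221) (nat_lit 5) (nat_lit 209) (nat_lit 284) (nat_lit 287)))) (PT.nd (nat_lit 156) (PT.nd (nat_lit 78) (PT.lf (nat_lit 17328) (nat_lit 6) (nat_lit 228) (nat_lit 5) (nat_lit 210) (nat_lit 284) (nat_lit 286)) (PT.lf (nat_lit 17936) (nat_lit 6) (nat_lit 236) (nat_lit 5) (nat_lit 211) (nat_lit 284) (nat_lit 285))) (PT.nd (nat_lit 78) (PT.lf (nat_lit 18468) (nat_lit 3) (nat_lit 243) (nat_lit 4) (nat_lit 212) (nat_lit 284) (nat_lit 284)) (PT.lf (nat_lit 19000) (nat_lit 6) (nat_lit 250) (nat_lit 4) (nat_lit 213) (nat_lit 284) (nat_lit 283))))) (PT.nd (nat_lit 312) (PT.nd (nat_lit 156) (PT.nd (nat_lit 78) (PT.lf (nat_lit 19532) (nat_lit 6) (nat_lit 257) (nat_lit 4) (nat_lit 214) (nat_lit 284) (nat_lit 282)) (PT.lf (nat_lit 20064) (nat_lit 6) (nat_lit 264) (nat_lit 4) (nat_lit 215) (nat_lit 284) (nat_lit 281))) (PT.nd (nat_lit 78) (PT.lf (nat_lit 20596) (nat_lit 6) (nat_lit 271) (nat_lit 4) (nat_lit 216) (nat_lit 284) (nat_lit 280)) (PT.lf (nat_lit 21204) (nat_lit 6) (nat_lit 279) (nat_lit 4)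 (nat_lit 217) (nat_lit 284) (nat_lit 279)))) (PT.nd (nat_lit 156) (PT.nd (nat_lit 78) (PT.lf (nat_lit 21812) (nat_lit 6) (nat_lit 287) (nat_lit 4) (nat_lit 218) (nat_lit 284) (nat_lit 278)) (PT.lf (nat_lit 22420) (nat_lit 6) (nat_lit 295) (nat_lit 4) (nat_lit 219) (nat_lit 284) (nat_lit 277))) (PT.nd (nat_lit 78) (PT.lf (nat_lit 23028) (nat_lit 6) (nat_lit 303) (nat_lit 4) (nat_lit 220) (nat_lit 284) (nat_lit 276)) (PT.lf (nat_lit 23712) (nat_lit 6) (nat_lit 312) (nat_lit 4) (nat_lit 221) (nat_lit 284) (nat_lit 275))))))))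
noncomputable def pc53 : PT := (PT.nd (nat_lit 2418) (PT.nd (nat_lit 1170) (PT.nd (nat_lit 546) (PT.nd (nat_lit 234) (PT.nd (nat_lit 78) (PT.lf (nat_lit 24320) (nat_lit 6) (nat_lit 320) (nat_lit 4) (nat_lit 222) (nat_lit 284) (nat_lit 274)) (PT.nd (nat_lit 78) (PT.lf (nat_lit 25004) (nat_lit 6) (nat_lit 329) (nat_lit 4) (nat_lit 223) (nat_lit 284) (nat_lit 273)) (PT.lf (nat_lit 25688) (nat_lit 6) (nat_lit 338) (nat_lit 4) (nat_lit 224) (nat_lit 284) (nat_lit 272)))) (PT.nd (nat_lit 156) (PT.nd (nat_lit 78) (PT.lf (nat_lit 26448) (nat_lit 6) (nat_lit 348) (nat_lit 4) (nat_lit 225) (nat_lit 284) (nat_lit 271)) (PT.lf (nat_lit 27132) (nat_lit 6) (nat_lit 357) (nat_lit 4) (nat_lit 226) (nat_lit 284) (nat_lit 270))) (PT.nd (nat_lit 78) (PT.lf (nat_lit 27892) (nat_lit 6) (nat_lit 367) (nat_lit 4) (nat_lit 227) (nat_lit 284) (nat_lit 269)) (PT.lf (nat_lit 28652) (nat_lit 6) (nat_lit 377) (nat_lit 4) (nat_lit 228) (nat_lit 284) (nat_lit 268))))) (PT.nd (nat_lit 312) (PT.nd (nat_lit 156) (PT.nd (nat_lit 78) (PT.lf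 (nat_lit 29488) (nat_lit 6) (nat_lit 388) (nat_lit 4) (nat_lit 229) (nat_lit 284) (nat_lit 267)) (PT.lf (nat_lit 30324) (nat_lit 6) (nat_lit 399) (nat_lit 4) (nat_lit 230) (nat_lit 284) (nat_lit 266))) (PT.nd (nat_lit 78) (PT.lf (nat_lit 31160) (nat_lit 6) (nat_lit 410) (nat_lit 4) (nat_lit 231) (nat_lit 284) (nat_lit 265)) (PT.lf (nat_lit 31996) (nat_lit 6) (nat_lit 421) (nat_lit 4) (nat_lit 232) (nat_lit 284) (nat_lit 264)))) (PT.nd (nat_lit 156) (PT.nd (nat_lit 78) (PT.lf (nat_lit 32908) (nat_lit 6) (nat_lit 433) (nat_lit 4) (nat_lit 233) (nat_lit 284) (nat_lit 263)) (PT.lf (nat_lit 33820) (nat_lit 6) (nat_lit 445) (nat_lit 4) (nat_lit 234) (nat_lit 284) (nat_lit 262))) (PT.nd (nat_lit 78) (PT.lf (nat_lit 34884) (nat_lit 6) (nat_lit 459) (nat_lit 4) (nat_lit 235) (nat_lit 284) (nat_lit 261)) (PT.lf (nat_lit 36708) (nat_lit 6) (nat_lit 483) (nat_lit 4) (nat_lit 236) (nat_lit 284) (nat_lit 260)))))) (PT.nd (nat_lit 624) (PT.nd (nat_lit 312) (PT.nd (nat_lit 156) (PT.nd (nat_lit 78) (PT.lf (nat_lit 36632)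 (nat_lit 6) (nat_lit 482) (nat_lit 4) (nat_lit 237) (nat_lit 284) (nat_lit 259)) (PT.lf (nat_lit 36556) (nat_lit 6) (nat_lit 481) (nat_lit 4) (nat_lit 238) (nat_lit 284) (nat_lit 258))) (PT.nd (nat_lit 78) (PT.lf (nat_lit 36480) (nat_lit 6) (nat_lit 480) (nat_lit 4) (nat_lit 239) (nat_lit 284) (nat_lit 257)) (PT.lf (nat_lit 36404) (nat_lit 6) (nat_lit 479) (nat_lit 4) (nat_lit 240) (nat_lit 284) (nat_lit 256)))) (PT.nd (nat_lit 156) (PT.nd (nat_lit 78) (PT.lf (nat_lit 36328) (nat_lit 6) (nat_lit 478) (nat_lit 4) (nat_lit 241) (nat_lit 284) (nat_lit 255)) (PT.lf (nat_lit 36252) (nat_lit 6) (nat_lit 477) (nat_lit 4) (nat_lit 242) (nat_lit 284) (nat_lit 254))) (PT.nd (nat_lit 78) (PT.lf (nat_lit 36176) (nat_lit 6) (nat_lit 476) (nat_lit 4) (nat_lit 243) (nat_lit 284) (nat_lit 253)) (PT.lf (nat_lit 36100) (nat_lit 6) (nat_lit 475) (nat_lit 4) (nat_lit 244) (nat_lit 284) (nat_lit 252))))) (PT.nd (nat_lit 312) (PT.nd (nat_lit 156) (PT.nd (nat_lit 78) (PT.lf (nat_lit 36024) (nat_lit 6) (nat_lit 474) (nat_lit 4)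 (nat_lit 245) (nat_lit 284) (nat_lit 251)) (PT.lf (nat_lit 35948) (nat_lit 6) (nat_lit 473) (nat_lit 4) (nat_lit 246) (nat_lit 284) (nat_lit 250))) (PT.nd (nat_lit 78) (PT.lf (nat_lit 35872) (nat_lit 6) (nat_lit 472) (nat_lit 4) (nat_lit 247) (nat_lit 284) (nat_lit 249)) (PT.lf (nat_lit 35796) (nat_lit 3) (nat_lit 471) (nat_lit 2) (nat_lit 248) (nat_lit 284) (nat_lit 248)))) (PT.nd (nat_lit 156) (PT.nd (nat_lit 78) (PT.lf (nat_lit 35872) (nat_lit 6) (nat_lit 472) (nat_lit 2) (nat_lit 249) (nat_lit 284) (nat_lit 247)) (PT.lf (nat_lit 35948) (nat_lit 6) (nat_lit 473) (nat_lit 2) (nat_lit 250) (nat_lit 284) (nat_lit 246))) (PT.nd (nat_lit 78) (PT.lf (nat_lit 36024) (nat_lit 6) (nat_lit 474) (nat_lit 2) (nat_lit 251) (nat_lit 284) (nat_lit 245)) (PT.lf (nat_lit 36100) (nat_lit 6) (nat_lit 475) (nat_lit 2) (nat_lit 252) (nat_lit 284) (nat_lit 244))))))) (PT.nd (nat_lit 1170) (PT.nd (nat_lit 546) (PT.nd (nat_lit 234) (PT.nd (nat_lit 78) (PT.lf (nat_lit 36176) (nat_lit 6) (nat_lit 476) (nat_lit 2) (nat_lit 253)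 (nat_lit 284) (nat_lit 243)) (PT.nd (nat_lit 78) (PT.lf (nat_lit 36252) (nat_lit 6) (nat_lit 477) (nat_lit 2) (nat_lit 254) (nat_lit 284) (nat_lit 242)) (PT.lf (nat_lit 36328) (nat_lit 6) (nat_lit 478) (nat_lit 2) (nat_lit 255) (nat_lit 284) (nat_lit 241)))) (PT.nd (nat_lit 156) (PT.nd (nat_lit 78) (PT.lf (nat_lit 36404) (nat_lit 6) (nat_lit 479) (nat_lit 2) (nat_lit 256) (nat_lit 284) (nat_lit 240)) (PT.lf (nat_lit 36480) (nat_lit 6) (nat_lit 480) (nat_lit 2) (nat_lit 257) (nat_lit 284) (nat_lit 239))) (PT.nd (nat_lit 78) (PT.lf (nat_lit 36556) (nat_lit 6) (nat_lit 481) (nat_lit 2) (nat_lit 258) (nat_lit 284) (nat_lit 238)) (PT.lf (nat_lit 36632) (nat_lit 6) (nat_lit 482) (nat_lit 2) (nat_lit 259) (nat_lit 284) (nat_lit 237))))) (PT.nd (nat_lit 312) (PT.nd (nat_lit 156) (PT.nd (nat_lit 78) (PT.lf (nat_lit 36708) (nat_lit 6) (nat_lit 483) (nat_lit 2) (nat_lit 260) (nat_lit 284) (nat_lit 236)) (PT.lf (nat_lit 34884) (nat_lit 6) (nat_lit 459) (nat_lit 2) (nat_lit 261) (nat_lit 284) (nat_lit 235))) (PT.nd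 (nat_lit 78) (PT.lf (nat_lit 33820) (nat_lit 6) (nat_lit 445) (nat_lit 2) (nat_lit 262) (nat_lit 284) (nat_lit 234)) (PT.lf (nat_lit 32908) (nat_lit 6) (nat_lit 433) (nat_lit 2) (nat_lit 263) (nat_lit 284) (nat_lit 233)))) (PT.nd (nat_lit 156) (PT.nd (nat_lit 78) (PT.lf (nat_lit 31996) (nat_lit 6) (nat_lit 421) (nat_lit 2) (nat_lit 264) (nat_lit 284) (nat_lit 232)) (PT.lf (nat_lit 31160) (nat_lit 6) (nat_lit 410) (nat_lit 2) (nat_lit 265) (nat_lit 284) (nat_lit 231))) (PT.nd (nat_lit 78) (PT.lf (nat_lit 30324) (nat_lit 6) (nat_lit 399) (nat_lit 2) (nat_lit 266) (nat_lit 284) (nat_lit 230)) (PT.lf (nat_lit 29488) (nat_lit 6) (nat_lit 388) (nat_lit 2) (nat_lit 267) (nat_lit 284) (nat_lit 229)))))) (PT.nd (nat_lit 624) (PT.nd (nat_lit 312) (PT.nd (nat_lit 156) (PT.nd (nat_lit 78) (PT.lf (nat_lit 28652) (nat_lit 6) (nat_lit 377) (nat_lit 2) (nat_lit 268) (nat_lit 284) (nat_lit 228)) (PT.lf (nat_lit 27892) (nat_lit 6) (nat_lit 367) (nat_lit 2) (nat_lit 269) (nat_lit 284) (nat_lit 227))) (PT.nd (nat_lit 78) (PT.lf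 (nat_lit 27132) (nat_lit 6) (nat_lit 357) (nat_lit 2) (nat_lit 270) (nat_lit 284) (nat_lit 226)) (PT.lf (nat_lit 26448) (nat_lit 6) (nat_lit 348) (nat_lit 2) (nat_lit 271) (nat_lit 284) (nat_lit 225)))) (PT.nd (nat_lit 156) (PT.nd (nat_lit 78) (PT.lf (nat_lit 25688) (nat_lit 6) (nat_lit 338) (nat_lit 2) (nat_lit 272) (nat_lit 284) (nat_lit 224)) (PT.lf (nat_lit 25004) (nat_lit 6) (nat_lit 329) (nat_lit 2) (nat_lit 273) (nat_lit 284) (nat_lit 223))) (PT.nd (nat_lit 78) (PT.lf (nat_lit 24320) (nat_lit 6) (nat_lit 320) (nat_lit 2) (nat_lit 274) (nat_lit 284) (nat_lit 222)) (PT.lf (nat_lit 23712) (nat_lit 6) (nat_lit 312) (nat_lit 2) (nat_lit 275) (nat_lit 284) (nat_lit 221))))) (PT.nd (nat_lit 312) (PT.nd (nat_lit 156) (PT.nd (nat_lit 78) (PT.lf (nat_lit 23028) (nat_lit 6) (nat_lit 303) (nat_lit 2) (nat_lit 276) (nat_lit 284) (nat_lit 220)) (PT.lf (nat_lit 22420) (nat_lit 6) (nat_lit 295) (nat_lit 2) (nat_lit 277) (nat_lit 284) (nat_lit 219))) (PT.nd (nat_lit 78) (PT.lf (nat_lit 21812) (nat_lit 6) (nat_lit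 287) (nat_lit 2) (nat_lit 278) (nat_lit 284) (nat_lit 218)) (PT.lf (nat_lit 21204) (nat_lit 6) (nat_lit 279) (nat_lit 2) (nat_lit 279) (nat_lit 284) (nat_lit 217)))) (PT.nd (nat_lit 156) (PT.nd (nat_lit 78) (PT.lf (nat_lit 20596) (nat_lit 6) (nat_lit 271) (nat_lit 2) (nat_lit 280) (nat_lit 284) (nat_lit 216)) (PT.lf (nat_lit 20064) (nat_lit 6) (nat_lit 264) (nat_lit 2) (nat_lit 281) (nat_lit 284) (nat_lit 215))) (PT.nd (nat_lit 78) (PT.lf (nat_lit 19532) (nat_lit 6) (nat_lit 257) (nat_lit 2) (nat_lit 282) (nat_lit 284) (nat_lit 214)) (PT.lf (nat_lit 19000) (nat_lit 6) (nat_lit 250) (nat_lit 2) (nat_lit 283) (nat_lit 284) (nat_lit 213))))))))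
noncomputable def pc54 : PT := (PT.nd (nat_lit 76284) (PT.nd (nat_lit 75036) (PT.nd (nat_lit 546) (PT.nd (nat_lit 234) (PT.nd (nat_lit 78) (PT.lf (nat_lit 18468) (nat_lit 3) (nat_lit 243) (nat_lit 0) (nat_lit 284) (nat_lit 284) (nat_lit 212)) (PT.nd (nat_lit 78) (PT.lf (nat_lit 17936) (nat_lit 6) (nat_lit 236) (nat_lit 0) (nat_lit 285) (nat_lit 284) (nat_lit 211)) (PT.lf (nat_lit 17328) (nat_lit 6) (nat_lit 228) (nat_lit 0) (nat_lit 286) (nat_lit 284) (nat_lit 210)))) (PT.nd (nat_lit 156) (PT.nd (nat_lit 78) (PT.lf (nat_lit 16796) (nat_lit 6) (nat_lit 221) (nat_lit 0) (nat_lit 287) (nat_lit 284) (nat_lit 209)) (PT.lf (nat_lit 16264) (nat_lit 6) (nat_lit 214) (nat_lit 0) (nat_lit 288) (nat_lit 284) (nat_lit 208))) (PT.nd (nat_lit 78) (PT.lf (nat_lit 15732) (nat_lit 6) (nat_lit 207) (nat_lit 0) (nat_lit 289) (nat_lit 284) (nat_lit 207)) (PT.lf (nat_lit 15200) (nat_lit 6) (nat_lit 200) (nat_lit 0) (nat_lit 290) (nat_lit 284) (nat_lit 206))))) (PT.nd (nat_lit 74178) (PT.nd (nat_lit 156) (PT.nd (nat_lit 78)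 (PT.lf (nat_lit 14744) (nat_lit 6) (nat_lit 194) (nat_lit 0) (nat_lit 291) (nat_lit 284) (nat_lit 205)) (PT.lf (nat_lit 14212) (nat_lit 6) (nat_lit 187) (nat_lit 0) (nat_lit 292) (nat_lit 284) (nat_lit 204))) (PT.nd (nat_lit 78) (PT.lf (nat_lit 13756) (nat_lit 6) (nat_lit 181) (nat_lit 0) (nat_lit 293) (nat_lit 284) (nat_lit 203)) (PT.lf (nat_lit 13300) (nat_lit 6) (nat_lit 175) (nat_lit 0) (nat_lit 294) (nat_lit 284) (nat_lit 202)))) (PT.nd (nat_lit 156) (PT.nd (nat_lit 78) (PT.lf (nat_lit 12920) (nat_lit 6) (nat_lit 170) (nat_lit 5) (nat_lit 201) (nat_lit 285) (nat_lit 294)) (PT.lf (nat_lit 13376) (nat_lit 6) (nat_lit 176) (nat_lit 5) (nat_lit 202) (nat_lit 285) (nat_lit 293))) (PT.nd (nat_lit 78) (PT.lf (nat_lit 13832) (nat_lit 6) (nat_lit 182) (nat_lit 5) (nat_lit 203) (nat_lit 285) (nat_lit 292)) (PT.lf (nat_lit 14288) (nat_lit 6) (nat_lit 188) (nat_lit 5) (nat_lit 204) (nat_lit 285) (nat_lit 291)))))) (PT.nd (nat_lit 624) (PT.nd (nat_lit 312) (PT.nd (nat_lit 156) (PT.nd (nat_lit 78) (PT.lf (nat_lit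 14820) (nat_lit 6) (nat_lit 195) (nat_lit 5) (nat_lit 205) (nat_lit 285) (nat_lit 290)) (PT.lf (nat_lit 15276) (nat_lit 6) (nat_lit 201) (nat_lit 5) (nat_lit 206) (nat_lit 285) (nat_lit 289))) (PT.nd (nat_lit 78) (PT.lf (nat_lit 15808) (nat_lit 6) (nat_lit 208) (nat_lit 5) (nat_lit 207) (nat_lit 285) (nat_lit 288)) (PT.lf (nat_lit 16340) (nat_lit 6) (nat_lit 215) (nat_lit 5) (nat_lit 208) (nat_lit 285) (nat_lit 287)))) (PT.nd (nat_lit 156) (PT.nd (nat_lit 78) (PT.lf (nat_lit 16872) (nat_lit 6) (nat_lit 222) (nat_lit 5) (nat_lit 209) (nat_lit 285) (nat_lit 286)) (PT.lf (nat_lit 17404) (nat_lit 3) (nat_lit 229) (nat_lit 4) (nat_lit 210) (nat_lit 285) (nat_lit 285))) (PT.nd (nat_lit 78) (PT.lf (nat_lit 17936) (nat_lit 6) (nat_lit 236) (nat_lit 4) (nat_lit 211) (nat_lit 285) (nat_lit 284)) (PT.lf (nat_lit 18392) (nat_lit 6) (nat_lit 242) (nat_lit 4) (nat_lit 212) (nat_lit 285) (nat_lit 283))))) (PT.nd (nat_lit 312) (PT.nd (nat_lit 156) (PT.nd (nat_lit 78) (PT.lf (nat_lit 18924) (nat_lit 6) (nat_lit 249) (nat_lit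 4) (nat_lit 213) (nat_lit 285) (nat_lit 282)) (PT.lf (nat_lit 19456) (nat_lit 6) (nat_lit 256) (nat_lit 4) (nat_lit 214) (nat_lit 285) (nat_lit 281))) (PT.nd (nat_lit 78) (PT.lf (nat_lit 19988) (nat_lit 6) (nat_lit 263) (nat_lit 4) (nat_lit 215) (nat_lit 285) (nat_lit 280)) (PT.lf (nat_lit 20520) (nat_lit 6) (nat_lit 270) (nat_lit 4) (nat_lit 216) (nat_lit 285) (nat_lit 279)))) (PT.nd (nat_lit 156) (PT.nd (nat_lit 78) (PT.lf (nat_lit 21128) (nat_lit 6) (nat_lit 278) (nat_lit 4) (nat_lit 217) (nat_lit 285) (nat_lit 278)) (PT.lf (nat_lit 21736) (nat_lit 6) (nat_lit 286) (nat_lit 4) (nat_lit 218) (nat_lit 285) (nat_lit 277))) (PT.nd (nat_lit 78) (PT.lf (nat_lit 22344) (nat_lit 6) (nat_lit 294) (nat_lit 4) (nat_lit 219) (nat_lit 285) (nat_lit 276)) (PT.lf (nat_lit 22952) (nat_lit 6) (nat_lit 302) (nat_lit 4) (nat_lit 220) (nat_lit 285) (nat_lit 275))))))) (PT.nd (nat_lit 1170) (PT.nd (nat_lit 546) (PT.nd (nat_lit 234) (PT.nd (nat_lit 78) (PT.lf (nat_lit 23636) (nat_lit 6) (nat_lit 311) (nat_lit 4) (nat_lit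 221) (nat_lit 285) (nat_lit 274)) (PT.nd (nat_lit 78) (PT.lf (nat_lit 24244) (nat_lit 6) (nat_lit 319) (nat_lit 4) (nat_lit 222) (nat_lit 285) (nat_lit 273)) (PT.lf (nat_lit 24928) (nat_lit 6) (nat_lit 328) (nat_lit 4) (nat_lit 223) (nat_lit 285) (nat_lit 272)))) (PT.nd (nat_lit 156) (PT.nd (nat_lit 78) (PT.lf (nat_lit 25612) (nat_lit 6) (nat_lit 337) (nat_lit 4) (nat_lit 224) (nat_lit 285) (nat_lit 271)) (PT.lf (nat_lit 26372) (nat_lit 6) (nat_lit 347) (nat_lit 4) (nat_lit 225) (nat_lit 285) (nat_lit 270))) (PT.nd (nat_lit 78) (PT.lf (nat_lit 27056) (nat_lit 6) (nat_lit 356) (nat_lit 4) (nat_lit 226) (nat_lit 285) (nat_lit 269)) (PT.lf (nat_lit 27816) (nat_lit 6) (nat_lit 366) (nat_lit 4) (nat_lit 227) (nat_lit 285) (nat_lit 268))))) (PT.nd (nat_lit 312) (PT.nd (nat_lit 156) (PT.nd (nat_lit 78) (PT.lf (nat_lit 28576) (nat_lit 6) (nat_lit 376) (nat_lit 4) (nat_lit 228) (nat_lit 285) (nat_lit 267)) (PT.lf (nat_lit 29412) (nat_lit 6) (nat_lit 387) (nat_lit 4) (nat_lit 229) (nat_lit 285) (nat_lit 266))) (PT.nd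 (nat_lit 78) (PT.lf (nat_lit 30248) (nat_lit 6) (nat_lit 398) (nat_lit 4) (nat_lit 230) (nat_lit 285) (nat_lit 265)) (PT.lf (nat_lit 31084) (nat_lit 6) (nat_lit 409) (nat_lit 4) (nat_lit 231) (nat_lit 285) (nat_lit 264)))) (PT.nd (nat_lit 156) (PT.nd (nat_lit 78) (PT.lf (nat_lit 31920) (nat_lit 6) (nat_lit 420) (nat_lit 4) (nat_lit 232) (nat_lit 285) (nat_lit 263)) (PT.lf (nat_lit 32832) (nat_lit 6) (nat_lit 432) (nat_lit 4) (nat_lit 233) (nat_lit 285) (nat_lit 262))) (PT.nd (nat_lit 78) (PT.lf (nat_lit 33744) (nat_lit 6) (nat_lit 444) (nat_lit 4) (nat_lit 234) (nat_lit 285) (nat_lit 261)) (PT.lf (nat_lit 34808) (nat_lit 6) (nat_lit 458) (nat_lit 4) (nat_lit 235) (nat_lit 285) (nat_lit 260)))))) (PT.nd (nat_lit 2340) (PT.nd (nat_lit 2028) (PT.nd (nat_lit 1872) (PT.nd (nat_lit 1794) (PT.lf (nat_lit 34732) (nat_lit 6) (nat_lit 457) (nat_lit 4) (nat_lit 236) (nat_lit 285) (nat_lit 259)) (PT.lf (nat_lit 34732) (nat_lit 6) (nat_lit 457) (nat_lit 2) (nat_lit 259) (nat_lit 285) (nat_lit 236))) (PT.nd (nat_lit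 78) (PT.lf (nat_lit 34808) (nat_lit 6) (nat_lit 458) (nat_lit 2) (nat_lit 260) (nat_lit 285) (nat_lit 235)) (PT.lf (nat_lit 33744) (nat_lit 6) (nat_lit 444) (nat_lit 2) (nat_lit 261) (nat_lit 285) (nat_lit 234)))) (PT.nd (nat_lit 156) (PT.nd (nat_lit 78) (PT.lf (nat_lit 32832) (nat_lit 6) (nat_lit 432) (nat_lit 2) (nat_lit 262) (nat_lit 285) (nat_lit 233)) (PT.lf (nat_lit 31920) (nat_lit 6) (nat_lit 420) (nat_lit 2) (nat_lit 263) (nat_lit 285) (nat_lit 232))) (PT.nd (nat_lit 78) (PT.lf (nat_lit 31084) (nat_lit 6) (nat_lit 409) (nat_lit 2) (nat_lit 264) (nat_lit 285) (nat_lit 231)) (PT.lf (nat_lit 30248) (nat_lit 6) (nat_lit 398) (nat_lit 2) (nat_lit 265) (nat_lit 285) (nat_lit 230))))) (PT.nd (nat_lit 312) (PT.nd (nat_lit 156) (PT.nd (nat_lit 78) (PT.lf (nat_lit 29412) (nat_lit 6) (nat_lit 387) (nat_lit 2) (nat_lit 266) (nat_lit 285) (nat_lit 229)) (PT.lf (nat_lit 28576) (nat_lit 6) (nat_lit 376) (nat_lit 2) (nat_lit 267) (nat_lit 285) (nat_lit 228))) (PT.nd (nat_lit 78) (PT.lf (nat_lit 27816) (nat_lit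 6) (nat_lit 366) (nat_lit 2) (nat_lit 268) (nat_lit 285) (nat_lit 227)) (PT.lf (nat_lit 27056) (nat_lit 6) (nat_lit 356) (nat_lit 2) (nat_lit 269) (nat_lit 285) (nat_lit 226)))) (PT.nd (nat_lit 156) (PT.nd (nat_lit 78) (PT.lf (nat_lit 26372) (nat_lit 6) (nat_lit 347) (nat_lit 2) (nat_lit 270) (nat_lit 285) (nat_lit 225)) (PT.lf (nat_lit 25612) (nat_lit 6) (nat_lit 337) (nat_lit 2) (nat_lit 271) (nat_lit 285) (nat_lit 224))) (PT.nd (nat_lit 78) (PT.lf (nat_lit 24928) (nat_lit 6) (nat_lit 328) (nat_lit 2) (nat_lit 272) (nat_lit 285) (nat_lit 223)) (PT.lf (nat_lit 24244) (nat_lit 6) (nat_lit 319) (nat_lit 2) (nat_lit 273) (nat_lit 285) (nat_lit 222))))))))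
noncomputable def pc55 : PT := (PT.nd (nat_lit 76128) (PT.nd (nat_lit 1170) (PT.nd (nat_lit 546) (PT.nd (nat_lit 234) (PT.nd (nat_lit 78) (PT.lf (nat_lit 23636) (nat_lit 6) (nat_lit 311) (nat_lit 2) (nat_lit 274) (nat_lit 285) (nat_lit 221)) (PT.nd (nat_lit 78) (PT.lf (nat_lit 22952) (nat_lit 6) (nat_lit 302) (nat_lit 2) (nat_lit 275) (nat_lit 285) (nat_lit 220)) (PT.lf (nat_lit 22344) (nat_lit 6) (nat_lit 294) (nat_lit 2) (nat_lit 276) (nat_lit 285) (nat_lit 219)))) (PT.nd (nat_lit 156) (PT.nd (nat_lit 78) (PT.lf (nat_lit 21736) (nat_lit 6) (nat_lit 286) (nat_lit 2) (nat_lit 277) (nat_lit 285) (nat_lit 218)) (PT.lf (nat_lit 21128) (nat_lit 6) (nat_lit 278) (nat_lit 2) (nat_lit 278) (nat_lit 285) (nat_lit 217))) (PT.nd (nat_lit 78) (PT.lf (nat_lit 20520) (nat_lit 6) (nat_lit 270) (nat_lit 2) (nat_lit 279) (nat_lit 285) (nat_lit 216)) (PT.lf (nat_lit 19988) (nat_lit 6) (nat_lit 263) (nat_lit 2) (nat_lit 280) (nat_lit 285) (nat_lit 215))))) (PT.nd (nat_lit 312) (PT.nd (nat_lit 156) (PT.nd (nat_lit 78) (PT.lf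 (nat_lit 19456) (nat_lit 6) (nat_lit 256) (nat_lit 2) (nat_lit 281) (nat_lit 285) (nat_lit 214)) (PT.lf (nat_lit 18924) (nat_lit 6) (nat_lit 249) (nat_lit 2) (nat_lit 282) (nat_lit 285) (nat_lit 213))) (PT.nd (nat_lit 78) (PT.lf (nat_lit 18392) (nat_lit 6) (nat_lit 242) (nat_lit 2) (nat_lit 283) (nat_lit 285) (nat_lit 212)) (PT.lf (nat_lit 17936) (nat_lit 6) (nat_lit 236) (nat_lit 2) (nat_lit 284) (nat_lit 285) (nat_lit 211)))) (PT.nd (nat_lit 156) (PT.nd (nat_lit 78) (PT.lf (nat_lit 17404) (nat_lit 3) (nat_lit 229) (nat_lit 0) (nat_lit 285) (nat_lit 285) (nat_lit 210)) (PT.lf (nat_lit 16872) (nat_lit 6) (nat_lit 222) (nat_lit 0) (nat_lit 286) (nat_lit 285) (nat_lit 209))) (PT.nd (nat_lit 78) (PT.lf (nat_lit 16340) (nat_lit 6) (nat_lit 215) (nat_lit 0) (nat_lit 287) (nat_lit 285) (nat_lit 208)) (PT.lf (nat_lit 15808) (nat_lit 6) (nat_lit 208) (nat_lit 0) (nat_lit 288) (nat_lit 285) (nat_lit 207)))))) (PT.nd (nat_lit 74334) (PT.nd (nat_lit 312) (PT.nd (nat_lit 156) (PT.nd (nat_lit 78) (PT.lf (nat_lit 15276)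 (nat_lit 6) (nat_lit 201) (nat_lit 0) (nat_lit 289) (nat_lit 285) (nat_lit 206)) (PT.lf (nat_lit 14820) (nat_lit 6) (nat_lit 195) (nat_lit 0) (nat_lit 290) (nat_lit 285) (nat_lit 205))) (PT.nd (nat_lit 78) (PT.lf (nat_lit 14288) (nat_lit 6) (nat_lit 188) (nat_lit 0) (nat_lit 291) (nat_lit 285) (nat_lit 204)) (PT.lf (nat_lit 13832) (nat_lit 6) (nat_lit 182) (nat_lit 0) (nat_lit 292) (nat_lit 285) (nat_lit 203)))) (PT.nd (nat_lit 73866) (PT.nd (nat_lit 78) (PT.lf (nat_lit 13376) (nat_lit 6) (nat_lit 176) (nat_lit 0) (nat_lit 293) (nat_lit 285) (nat_lit 202)) (PT.lf (nat_lit 12920) (nat_lit 6) (nat_lit 170) (nat_lit 0) (nat_lit 294) (nat_lit 285) (nat_lit 201))) (PT.nd (nat_lit 78) (PT.lf (nat_lit 12084) (nat_lit 6) (nat_lit 159) (nat_lit 5) (nat_lit 199) (nat_lit 286) (nat_lit 295)) (PT.lf (nat_lit 12540) (nat_lit 6) (nat_lit 165) (nat_lit 5) (nat_lit 200) (nat_lit 286) (nat_lit 294))))) (PT.nd (nat_lit 312) (PT.nd (nat_lit 156) (PT.nd (nat_lit 78) (PT.lf (nat_lit 12996) (nat_lit 6) (nat_lit 171) (nat_lit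 5) (nat_lit 201) (nat_lit 286) (nat_lit 293)) (PT.lf (nat_lit 13452) (nat_lit 6) (nat_lit 177) (nat_lit 5) (nat_lit 202) (nat_lit 286) (nat_lit 292))) (PT.nd (nat_lit 78) (PT.lf (nat_lit 13908) (nat_lit 6) (nat_lit 183) (nat_lit 5) (nat_lit 203) (nat_lit 286) (nat_lit 291)) (PT.lf (nat_lit 14364) (nat_lit 6) (nat_lit 189) (nat_lit 5) (nat_lit 204) (nat_lit 286) (nat_lit 290)))) (PT.nd (nat_lit 156) (PT.nd (nat_lit 78) (PT.lf (nat_lit 14896) (nat_lit 6) (nat_lit 196) (nat_lit 5) (nat_lit 205) (nat_lit 286) (nat_lit 289)) (PT.lf (nat_lit 15352) (nat_lit 6) (nat_lit 202) (nat_lit 5) (nat_lit 206) (nat_lit 286) (nat_lit 288))) (PT.nd (nat_lit 78) (PT.lf (nat_lit 15884) (nat_lit 6) (nat_lit 209) (nat_lit 5) (nat_lit 207) (nat_lit 286) (nat_lit 287)) (PT.lf (nat_lit 16416) (nat_lit 3) (nat_lit 216) (nat_lit 4) (nat_lit 208) (nat_lit 286) (nat_lit 286))))))) (PT.nd (nat_lit 1170) (PT.nd (nat_lit 546) (PT.nd (nat_lit 234) (PT.nd (nat_lit 78) (PT.lf (nat_lit 16872) (nat_lit 6) (nat_lit 222) (nat_lit 4) (nat_lit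 209) (nat_lit 286) (nat_lit 285)) (PT.nd (nat_lit 78) (PT.lf (nat_lit 17328) (nat_lit 6) (nat_lit 228) (nat_lit 4) (nat_lit 210) (nat_lit 286) (nat_lit 284)) (PT.lf (nat_lit 17860) (nat_lit 6) (nat_lit 235) (nat_lit 4) (nat_lit 211) (nat_lit 286) (nat_lit 283)))) (PT.nd (nat_lit 156) (PT.nd (nat_lit 78) (PT.lf (nat_lit 18316) (nat_lit 6) (nat_lit 241) (nat_lit 4) (nat_lit 212) (nat_lit 286) (nat_lit 282)) (PT.lf (nat_lit 18848) (nat_lit 6) (nat_lit 248) (nat_lit 4) (nat_lit 213) (nat_lit 286) (nat_lit 281))) (PT.nd (nat_lit 78) (PT.lf (nat_lit 19380) (nat_lit 6) (nat_lit 255) (nat_lit 4) (nat_lit 214) (nat_lit 286) (nat_lit 280)) (PT.lf (nat_lit 19912) (nat_lit 6) (nat_lit 262) (nat_lit 4) (nat_lit 215) (nat_lit 286) (nat_lit 279))))) (PT.nd (nat_lit 312) (PT.nd (nat_lit 156) (PT.nd (nat_lit 78) (PT.lf (nat_lit 20444) (nat_lit 6) (nat_lit 269) (nat_lit 4) (nat_lit 216) (nat_lit 286) (nat_lit 278)) (PT.lf (nat_lit 21052) (nat_lit 6) (nat_lit 277) (nat_lit 4) (nat_lit 217) (nat_lit 286) (nat_lit 277))) (PT.nd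 (nat_lit 78) (PT.lf (nat_lit 21660) (nat_lit 6) (nat_lit 285) (nat_lit 4) (nat_lit 218) (nat_lit 286) (nat_lit 276)) (PT.lf (nat_lit 22268) (nat_lit 6) (nat_lit 293) (nat_lit 4) (nat_lit 219) (nat_lit 286) (nat_lit 275)))) (PT.nd (nat_lit 156) (PT.nd (nat_lit 78) (PT.lf (nat_lit 22876) (nat_lit 6) (nat_lit 301) (nat_lit 4) (nat_lit 220) (nat_lit 286) (nat_lit 274)) (PT.lf (nat_lit 23560) (nat_lit 6) (nat_lit 310) (nat_lit 4) (nat_lit 221) (nat_lit 286) (nat_lit 273))) (PT.nd (nat_lit 78) (PT.lf (nat_lit 24168) (nat_lit 6) (nat_lit 318) (nat_lit 4) (nat_lit 222) (nat_lit 286) (nat_lit 272)) (PT.lf (nat_lit 24852) (nat_lit 6) (nat_lit 327) (nat_lit 4) (nat_lit 223) (nat_lit 286) (nat_lit 271)))))) (PT.nd (nat_lit 3198) (PT.nd (nat_lit 312) (PT.nd (nat_lit 156) (PT.nd (nat_lit 78) (PT.lf (nat_lit 25536) (nat_lit 6) (nat_lit 336) (nat_lit 4) (nat_lit 224) (nat_lit 286) (nat_lit 270)) (PT.lf (nat_lit 26296) (nat_lit 6) (nat_lit 346) (nat_lit 4) (nat_lit 225) (nat_lit 286) (nat_lit 269))) (PT.nd (nat_lit 78)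 (PT.lf (nat_lit 26980) (nat_lit 6) (nat_lit 355) (nat_lit 4) (nat_lit 226) (nat_lit 286) (nat_lit 268)) (PT.lf (nat_lit 27740) (nat_lit 6) (nat_lit 365) (nat_lit 4) (nat_lit 227) (nat_lit 286) (nat_lit 267)))) (PT.nd (nat_lit 156) (PT.nd (nat_lit 78) (PT.lf (nat_lit 28500) (nat_lit 6) (nat_lit 375) (nat_lit 4) (nat_lit 228) (nat_lit 286) (nat_lit 266)) (PT.lf (nat_lit 29336) (nat_lit 6) (nat_lit 386) (nat_lit 4) (nat_lit 229) (nat_lit 286) (nat_lit 265))) (PT.nd (nat_lit 2652) (PT.lf (nat_lit 30172) (nat_lit 6) (nat_lit 397) (nat_lit 4) (nat_lit 230) (nat_lit 286) (nat_lit 264)) (PT.lf (nat_lit 30172) (nat_lit 6) (nat_lit 397) (nat_lit 2) (nat_lit 264) (nat_lit 286) (nat_lit 230))))) (PT.nd (nat_lit 312) (PT.nd (nat_lit 156) (PT.nd (nat_lit 78) (PT.lf (nat_lit 29336) (nat_lit 6) (nat_lit 386) (nat_lit 2) (nat_lit 265) (nat_lit 286) (nat_lit 229)) (PT.lf (nat_lit 28500) (nat_lit 6) (nat_lit 375) (nat_lit 2) (nat_lit 266) (nat_lit 286) (nat_lit 228))) (PT.nd (nat_lit 78) (PT.lf (nat_lit 27740) (nat_lit 6)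 (nat_lit 365) (nat_lit 2) (nat_lit 267) (nat_lit 286) (nat_lit 227)) (PT.lf (nat_lit 26980) (nat_lit 6) (nat_lit 355) (nat_lit 2) (nat_lit 268) (nat_lit 286) (nat_lit 226)))) (PT.nd (nat_lit 156) (PT.nd (nat_lit 78) (PT.lf (nat_lit 26296) (nat_lit 6) (nat_lit 346) (nat_lit 2) (nat_lit 269) (nat_lit 286) (nat_lit 225)) (PT.lf (nat_lit 25536) (nat_lit 6) (nat_lit 336) (nat_lit 2) (nat_lit 270) (nat_lit 286) (nat_lit 224))) (PT.nd (nat_lit 78) (PT.lf (nat_lit 24852) (nat_lit 6) (nat_lit 327) (nat_lit 2) (nat_lit 271) (nat_lit 286) (nat_lit 223)) (PT.lf (nat_lit 24168) (nat_lit 6) (nat_lit 318) (nat_lit 2) (nat_lit 272) (nat_lit 286) (nat_lit 222))))))))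
noncomputable def pc56 : PT := (PT.nd (nat_lit 75816) (PT.nd (nat_lit 1170) (PT.nd (nat_lit 546) (PT.nd (nat_lit 234) (PT.nd (nat_lit 78) (PT.lf (nat_lit 23560) (nat_lit 6) (nat_lit 310) (nat_lit 2) (nat_lit 273) (nat_lit 286) (nat_lit 221)) (PT.nd (nat_lit 78) (PT.lf (nat_lit 22876) (nat_lit 6) (nat_lit 301) (nat_lit 2) (nat_lit 274) (nat_lit 286) (nat_lit 220)) (PT.lf (nat_lit 22268) (nat_lit 6) (nat_lit 293) (nat_lit 2) (nat_lit 275) (nat_lit 286) (nat_lit 219)))) (PT.nd (nat_lit 156) (PT.nd (nat_lit 78) (PT.lf (nat_lit 21660) (nat_lit 6) (nat_lit 285) (nat_lit 2) (nat_lit 276) (nat_lit 286) (nat_lit 218)) (PT.lf (nat_lit 21052) (nat_lit 6) (nat_lit 277) (nat_lit 2) (nat_lit 277) (nat_lit 286) (nat_lit 217))) (PT.nd (nat_lit 78) (PT.lf (nat_lit 20444) (nat_lit 6) (nat_lit 269) (nat_lit 2) (nat_lit 278) (nat_lit 286) (nat_lit 216)) (PT.lf (nat_lit 19912) (nat_lit 6) (nat_lit 262) (nat_lit 2) (nat_lit 279) (nat_lit 286) (nat_lit 215))))) (PT.nd (nat_lit 312) (PT.nd (nat_lit 156) (PT.nd (nat_lit 78) (PT.lf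 (nat_lit 19380) (nat_lit 6) (nat_lit 255) (nat_lit 2) (nat_lit 280) (nat_lit 286) (nat_lit 214)) (PT.lf (nat_lit 18848) (nat_lit 6) (nat_lit 248) (nat_lit 2) (nat_lit 281) (nat_lit 286) (nat_lit 213))) (PT.nd (nat_lit 78) (PT.lf (nat_lit 18316) (nat_lit 6) (nat_lit 241) (nat_lit 2) (nat_lit 282) (nat_lit 286) (nat_lit 212)) (PT.lf (nat_lit 17860) (nat_lit 6) (nat_lit 235) (nat_lit 2) (nat_lit 283) (nat_lit 286) (nat_lit 211)))) (PT.nd (nat_lit 156) (PT.nd (nat_lit 78) (PT.lf (nat_lit 17328) (nat_lit 6) (nat_lit 228) (nat_lit 2) (nat_lit 284) (nat_lit 286) (nat_lit 210)) (PT.lf (nat_lit 16872) (nat_lit 6) (nat_lit 222) (nat_lit 2) (nat_lit 285) (nat_lit 286) (nat_lit 209))) (PT.nd (nat_lit 78) (PT.lf (nat_lit 16416) (nat_lit 3) (nat_lit 216) (nat_lit 0) (nat_lit 286) (nat_lit 286) (nat_lit 208)) (PT.lf (nat_lit 15884) (nat_lit 6) (nat_lit 209) (nat_lit 0) (nat_lit 287) (nat_lit 286) (nat_lit 207)))))) (PT.nd (nat_lit 546) (PT.nd (nat_lit 234) (PT.nd (nat_lit 78) (PT.lf (nat_lit 15352) (nat_lit 6) (nat_lit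 202) (nat_lit 0) (nat_lit 288) (nat_lit 286) (nat_lit 206)) (PT.nd (nat_lit 78) (PT.lf (nat_lit 14896) (nat_lit 6) (nat_lit 196) (nat_lit 0) (nat_lit 289) (nat_lit 286) (nat_lit 205)) (PT.lf (nat_lit 14364) (nat_lit 6) (nat_lit 189) (nat_lit 0) (nat_lit 290) (nat_lit 286) (nat_lit 204)))) (PT.nd (nat_lit 156) (PT.nd (nat_lit 78) (PT.lf (nat_lit 13908) (nat_lit 6) (nat_lit 183) (nat_lit 0) (nat_lit 291) (nat_lit 286) (nat_lit 203)) (PT.lf (nat_lit 13452) (nat_lit 6) (nat_lit 177) (nat_lit 0) (nat_lit 292) (nat_lit 286) (nat_lit 202))) (PT.nd (nat_lit 78) (PT.lf (nat_lit 12996) (nat_lit 6) (nat_lit 171) (nat_lit 0) (nat_lit 293) (nat_lit 286) (nat_lit 201)) (PT.lf (nat_lit 12540) (nat_lit 6) (nat_lit 165) (nat_lit 0) (nat_lit 294) (nat_lit 286) (nat_lit 200))))) (PT.nd (nat_lit 73788) (PT.nd (nat_lit 73632) (PT.nd (nat_lit 73554) (PT.lf (nat_lit 12084) (nat_lit 6) (nat_lit 159) (nat_lit 0) (nat_lit 295) (nat_lit 286) (nat_lit 199)) (PT.lf (nat_lit 11324) (nat_lit 6) (nat_lit 149) (nat_lit 5) (nat_lit 197)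 (nat_lit 287) (nat_lit 296))) (PT.nd (nat_lit 78) (PT.lf (nat_lit 11704) (nat_lit 6) (nat_lit 154) (nat_lit 5) (nat_lit 198) (nat_lit 287) (nat_lit 295)) (PT.lf (nat_lit 12160) (nat_lit 6) (nat_lit 160) (nat_lit 5) (nat_lit 199) (nat_lit 287) (nat_lit 294)))) (PT.nd (nat_lit 156) (PT.nd (nat_lit 78) (PT.lf (nat_lit 12616) (nat_lit 6) (nat_lit 166) (nat_lit 5) (nat_lit 200) (nat_lit 287) (nat_lit 293)) (PT.lf (nat_lit 13072) (nat_lit 6) (nat_lit 172) (nat_lit 5) (nat_lit 201) (nat_lit 287) (nat_lit 292))) (PT.nd (nat_lit 78) (PT.lf (nat_lit 13528) (nat_lit 6) (nat_lit 178) (nat_lit 5) (nat_lit 202) (nat_lit 287) (nat_lit 291)) (PT.lf (nat_lit 13984) (nat_lit 6) (nat_lit 184) (nat_lit 5) (nat_lit 203) (nat_lit 287) (nat_lit 290))))))) (PT.nd (nat_lit 1170) (PT.nd (nat_lit 546) (PT.nd (nat_lit 234) (PT.nd (nat_lit 78) (PT.lf (nat_lit 14440) (nat_lit 6) (nat_lit 190) (nat_lit 5) (nat_lit 204) (nat_lit 287) (nat_lit 289)) (PT.nd (nat_lit 78) (PT.lf (nat_lit 14972) (nat_lit 6) (nat_lit 197) (nat_lit 5) (nat_lit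 205) (nat_lit 287) (nat_lit 288)) (PT.lf (nat_lit 15428) (nat_lit 3) (nat_lit 203) (nat_lit 4) (nat_lit 206) (nat_lit 287) (nat_lit 287)))) (PT.nd (nat_lit 156) (PT.nd (nat_lit 78) (PT.lf (nat_lit 15884) (nat_lit 6) (nat_lit 209) (nat_lit 4) (nat_lit 207) (nat_lit 287) (nat_lit 286)) (PT.lf (nat_lit 16340) (nat_lit 6) (nat_lit 215) (nat_lit 4) (nat_lit 208) (nat_lit 287) (nat_lit 285))) (PT.nd (nat_lit 78) (PT.lf (nat_lit 16796) (nat_lit 6) (nat_lit 221) (nat_lit 4) (nat_lit 209) (nat_lit 287) (nat_lit 284)) (PT.lf (nat_lit 17252) (nat_lit 6) (nat_lit 227) (nat_lit 4) (nat_lit 210) (nat_lit 287) (nat_lit 283))))) (PT.nd (nat_lit 312) (PT.nd (nat_lit 156) (PT.nd (nat_lit 78) (PT.lf (nat_lit 17784) (nat_lit 6) (nat_lit 234) (nat_lit 4) (nat_lit 211) (nat_lit 287) (nat_lit 282)) (PT.lf (nat_lit 18240) (nat_lit 6) (nat_lit 240) (nat_lit 4) (nat_lit 212) (nat_lit 287) (nat_lit 281))) (PT.nd (nat_lit 78) (PT.lf (nat_lit 18772) (nat_lit 6) (nat_lit 247) (nat_lit 4) (nat_lit 213) (nat_lit 287) (nat_lit 280)) (PT.lf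 (nat_lit 19304) (nat_lit 6) (nat_lit 254) (nat_lit 4) (nat_lit 214) (nat_lit 287) (nat_lit 279)))) (PT.nd (nat_lit 156) (PT.nd (nat_lit 78) (PT.lf (nat_lit 19836) (nat_lit 6) (nat_lit 261) (nat_lit 4) (nat_lit 215) (nat_lit 287) (nat_lit 278)) (PT.lf (nat_lit 20368) (nat_lit 6) (nat_lit 268) (nat_lit 4) (nat_lit 216) (nat_lit 287) (nat_lit 277))) (PT.nd (nat_lit 78) (PT.lf (nat_lit 20976) (nat_lit 6) (nat_lit 276) (nat_lit 4) (nat_lit 217) (nat_lit 287) (nat_lit 276)) (PT.lf (nat_lit 21584) (nat_lit 6) (nat_lit 284) (nat_lit 4) (nat_lit 218) (nat_lit 287) (nat_lit 275)))))) (PT.nd (nat_lit 3900) (PT.nd (nat_lit 312) (PT.nd (nat_lit 156) (PT.nd (nat_lit 78) (PT.lf (nat_lit 22192) (nat_lit 6) (nat_lit 292) (nat_lit 4) (nat_lit 219) (nat_lit 287) (nat_lit 274)) (PT.lf (nat_lit 22800) (nat_lit 6) (nat_lit 300) (nat_lit 4) (nat_lit 220) (nat_lit 287) (nat_lit 273))) (PT.nd (nat_lit 78) (PT.lf (nat_lit 23484) (nat_lit 6) (nat_lit 309) (nat_lit 4) (nat_lit 221) (nat_lit 287) (nat_lit 272)) (PT.lf (nat_lit 24092)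 (nat_lit 6) (nat_lit 317) (nat_lit 4) (nat_lit 222) (nat_lit 287) (nat_lit 271)))) (PT.nd (nat_lit 156) (PT.nd (nat_lit 78) (PT.lf (nat_lit 24776) (nat_lit 6) (nat_lit 326) (nat_lit 4) (nat_lit 223) (nat_lit 287) (nat_lit 270)) (PT.lf (nat_lit 25460) (nat_lit 6) (nat_lit 335) (nat_lit 4) (nat_lit 224) (nat_lit 287) (nat_lit 269))) (PT.nd (nat_lit 3354) (PT.lf (nat_lit 26220) (nat_lit 6) (nat_lit 345) (nat_lit 4) (nat_lit 225) (nat_lit 287) (nat_lit 268)) (PT.lf (nat_lit 26220) (nat_lit 6) (nat_lit 345) (nat_lit 2) (nat_lit 268) (nat_lit 287) (nat_lit 225))))) (PT.nd (nat_lit 312) (PT.nd (nat_lit 156) (PT.nd (nat_lit 78) (PT.lf (nat_lit 25460) (nat_lit 6) (nat_lit 335) (nat_lit 2) (nat_lit 269) (nat_lit 287) (nat_lit 224)) (PT.lf (nat_lit 24776) (nat_lit 6) (nat_lit 326) (nat_lit 2) (nat_lit 270) (nat_lit 287) (nat_lit 223))) (PT.nd (nat_lit 78) (PT.lf (nat_lit 24092) (nat_lit 6) (nat_lit 317) (nat_lit 2) (nat_lit 271) (nat_lit 287) (nat_lit 222)) (PT.lf (nat_lit 23484) (nat_lit 6) (nat_lit 309) (nat_lit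 2) (nat_lit 272) (nat_lit 287) (nat_lit 221)))) (PT.nd (nat_lit 156) (PT.nd (nat_lit 78) (PT.lf (nat_lit 22800) (nat_lit 6) (nat_lit 300) (nat_lit 2) (nat_lit 273) (nat_lit 287) (nat_lit 220)) (PT.lf (nat_lit 22192) (nat_lit 6) (nat_lit 292) (nat_lit 2) (nat_lit 274) (nat_lit 287) (nat_lit 219))) (PT.nd (nat_lit 78) (PT.lf (nat_lit 21584) (nat_lit 6) (nat_lit 284) (nat_lit 2) (nat_lit 275) (nat_lit 287) (nat_lit 218)) (PT.lf (nat_lit 20976) (nat_lit 6) (nat_lit 276) (nat_lit 2) (nat_lit 276) (nat_lit 287) (nat_lit 217))))))))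
noncomputable def pc57 : PT := (PT.nd (nat_lit 75738) (PT.nd (nat_lit 1170) (PT.nd (nat_lit 546) (PT.nd (nat_lit 234) (PT.nd (nat_lit 78) (PT.lf (nat_lit 20368) (nat_lit 6) (nat_lit 268) (nat_lit 2) (nat_lit 277) (nat_lit 287) (nat_lit 216)) (PT.nd (nat_lit 78) (PT.lf (nat_lit 19836) (nat_lit 6) (nat_lit 261) (nat_lit 2) (nat_lit 278) (nat_lit 287) (nat_lit 215)) (PT.lf (nat_lit 19304) (nat_lit 6) (nat_lit 254) (nat_lit 2) (nat_lit 279) (nat_lit 287) (nat_lit 214)))) (PT.nd (nat_lit 156) (PT.nd (nat_lit 78) (PT.lf (nat_lit 18772) (nat_lit 6) (nat_lit 247) (nat_lit 2) (nat_lit 280) (nat_lit 287) (nat_lit 213)) (PT.lf (nat_lit 18240) (nat_lit 6) (nat_lit 240) (nat_lit 2) (nat_lit 281) (nat_lit 287) (nat_lit 212))) (PT.nd (nat_lit 78) (PT.lf (nat_lit 17784) (nat_lit 6) (nat_lit 234) (nat_lit 2) (nat_lit 282) (nat_lit 287) (nat_lit 211)) (PT.lf (nat_lit 17252) (nat_lit 6) (nat_lit 227) (nat_lit 2) (nat_lit 283) (nat_lit 287) (nat_lit 210))))) (PT.nd (nat_lit 312) (PT.nd (nat_lit 156) (PT.nd (nat_lit 78) (PT.lf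 (nat_lit 16796) (nat_lit 6) (nat_lit 221) (nat_lit 2) (nat_lit 284) (nat_lit 287) (nat_lit 209)) (PT.lf (nat_lit 16340) (nat_lit 6) (nat_lit 215) (nat_lit 2) (nat_lit 285) (nat_lit 287) (nat_lit 208))) (PT.nd (nat_lit 78) (PT.lf (nat_lit 15884) (nat_lit 6) (nat_lit 209) (nat_lit 2) (nat_lit 286) (nat_lit 287) (nat_lit 207)) (PT.lf (nat_lit 15428) (nat_lit 3) (nat_lit 203) (nat_lit 0) (nat_lit 287) (nat_lit 287) (nat_lit 206)))) (PT.nd (nat_lit 156) (PT.nd (nat_lit 78) (PT.lf (nat_lit 14972) (nat_lit 6) (nat_lit 197) (nat_lit 0) (nat_lit 288) (nat_lit 287) (nat_lit 205)) (PT.lf (nat_lit 14440) (nat_lit 6) (nat_lit 190) (nat_lit 0) (nat_lit 289) (nat_lit 287) (nat_lit 204))) (PT.nd (nat_lit 78) (PT.lf (nat_lit 13984) (nat_lit 6) (nat_lit 184) (nat_lit 0) (nat_lit 290) (nat_lit 287) (nat_lit 203)) (PT.lf (nat_lit 13528) (nat_lit 6) (nat_lit 178) (nat_lit 0) (nat_lit 291) (nat_lit 287) (nat_lit 202)))))) (PT.nd (nat_lit 73944) (PT.nd (nat_lit 312) (PT.nd (nat_lit 156) (PT.nd (nat_lit 78) (PT.lf (nat_lit 13072)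 (nat_lit 6) (nat_lit 172) (nat_lit 0) (nat_lit 292) (nat_lit 287) (nat_lit 201)) (PT.lf (nat_lit 12616) (nat_lit 6) (nat_lit 166) (nat_lit 0) (nat_lit 293) (nat_lit 287) (nat_lit 200))) (PT.nd (nat_lit 78) (PT.lf (nat_lit 12160) (nat_lit 6) (nat_lit 160) (nat_lit 0) (nat_lit 294) (nat_lit 287) (nat_lit 199)) (PT.lf (nat_lit 11704) (nat_lit 6) (nat_lit 154) (nat_lit 0) (nat_lit 295) (nat_lit 287) (nat_lit 198)))) (PT.nd (nat_lit 73476) (PT.nd (nat_lit 73398) (PT.lf (nat_lit 11324) (nat_lit 6) (nat_lit 149) (nat_lit 0) (nat_lit 296) (nat_lit 287) (nat_lit 197)) (PT.lf (nat_lit 10944) (nat_lit 6) (nat_lit 144) (nat_lit 5) (nat_lit 196) (nat_lit 288) (nat_lit 296))) (PT.nd (nat_lit 78) (PT.lf (nat_lit 11400) (nat_lit 6) (nat_lit 150) (nat_lit 5) (nat_lit 197) (nat_lit 288) (nat_lit 295)) (PT.lf (nat_lit 11780) (nat_lit 6) (nat_lit 155) (nat_lit 5) (nat_lit 198) (nat_lit 288) (nat_lit 294))))) (PT.nd (nat_lit 312) (PT.nd (nat_lit 156) (PT.nd (nat_lit 78) (PT.lf (nat_lit 12236) (nat_lit 6) (nat_lit 161) (nat_lit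 5) (nat_lit 199) (nat_lit 288) (nat_lit 293)) (PT.lf (nat_lit 12692) (nat_lit 6) (nat_lit 167) (nat_lit 5) (nat_lit 200) (nat_lit 288) (nat_lit 292))) (PT.nd (nat_lit 78) (PT.lf (nat_lit 13148) (nat_lit 6) (nat_lit 173) (nat_lit 5) (nat_lit 201) (nat_lit 288) (nat_lit 291)) (PT.lf (nat_lit 13604) (nat_lit 6) (nat_lit 179) (nat_lit 5) (nat_lit 202) (nat_lit 288) (nat_lit 290)))) (PT.nd (nat_lit 156) (PT.nd (nat_lit 78) (PT.lf (nat_lit 14060) (nat_lit 6) (nat_lit 185) (nat_lit 5) (nat_lit 203) (nat_lit 288) (nat_lit 289)) (PT.lf (nat_lit 14516) (nat_lit 3) (nat_lit 191) (nat_lit 4) (nat_lit 204) (nat_lit 288) (nat_lit 288))) (PT.nd (nat_lit 78) (PT.lf (nat_lit 14972) (nat_lit 6) (nat_lit 197) (nat_lit 4) (nat_lit 205) (nat_lit 288) (nat_lit 287)) (PT.lf (nat_lit 15352) (nat_lit 6) (nat_lit 202) (nat_lit 4) (nat_lit 206) (nat_lit 288) (nat_lit 286))))))) (PT.nd (nat_lit 4992) (PT.nd (nat_lit 546) (PT.nd (nat_lit 234) (PT.nd (nat_lit 78) (PT.lf (nat_lit 15808) (nat_lit 6) (nat_lit 208) (nat_lit 4) (nat_lit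 207) (nat_lit 288) (nat_lit 285)) (PT.nd (nat_lit 78) (PT.lf (nat_lit 16264) (nat_lit 6) (nat_lit 214) (nat_lit 4) (nat_lit 208) (nat_lit 288) (nat_lit 284)) (PT.lf (nat_lit 16720) (nat_lit 6) (nat_lit 220) (nat_lit 4) (nat_lit 209) (nat_lit 288) (nat_lit 283)))) (PT.nd (nat_lit 156) (PT.nd (nat_lit 78) (PT.lf (nat_lit 17176) (nat_lit 6) (nat_lit 226) (nat_lit 4) (nat_lit 210) (nat_lit 288) (nat_lit 282)) (PT.lf (nat_lit 17708) (nat_lit 6) (nat_lit 233) (nat_lit 4) (nat_lit 211) (nat_lit 288) (nat_lit 281))) (PT.nd (nat_lit 78) (PT.lf (nat_lit 18164) (nat_lit 6) (nat_lit 239) (nat_lit 4) (nat_lit 212) (nat_lit 288) (nat_lit 280)) (PT.lf (nat_lit 18696) (nat_lit 6) (nat_lit 246) (nat_lit 4) (nat_lit 213) (nat_lit 288) (nat_lit 279))))) (PT.nd (nat_lit 312) (PT.nd (nat_lit 156) (PT.nd (nat_lit 78) (PT.lf (nat_lit 19228) (nat_lit 6) (nat_lit 253) (nat_lit 4) (nat_lit 214) (nat_lit 288) (nat_lit 278)) (PT.lf (nat_lit 19760) (nat_lit 6) (nat_lit 260) (nat_lit 4) (nat_lit 215) (nat_lit 288) (nat_lit 277))) (PT.nd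 (nat_lit 78) (PT.lf (nat_lit 20292) (nat_lit 6) (nat_lit 267) (nat_lit 4) (nat_lit 216) (nat_lit 288) (nat_lit 276)) (PT.lf (nat_lit 20900) (nat_lit 6) (nat_lit 275) (nat_lit 4) (nat_lit 217) (nat_lit 288) (nat_lit 275)))) (PT.nd (nat_lit 156) (PT.nd (nat_lit 78) (PT.lf (nat_lit 21508) (nat_lit 6) (nat_lit 283) (nat_lit 4) (nat_lit 218) (nat_lit 288) (nat_lit 274)) (PT.lf (nat_lit 22116) (nat_lit 6) (nat_lit 291) (nat_lit 4) (nat_lit 219) (nat_lit 288) (nat_lit 273))) (PT.nd (nat_lit 78) (PT.lf (nat_lit 22724) (nat_lit 6) (nat_lit 299) (nat_lit 4) (nat_lit 220) (nat_lit 288) (nat_lit 272)) (PT.lf (nat_lit 23408) (nat_lit 6) (nat_lit 308) (nat_lit 4) (nat_lit 221) (nat_lit 288) (nat_lit 271)))))) (PT.nd (nat_lit 624) (PT.nd (nat_lit 312) (PT.nd (nat_lit 156) (PT.nd (nat_lit 78) (PT.lf (nat_lit 23408) (nat_lit 6) (nat_lit 308) (nat_lit 2) (nat_lit 271) (nat_lit 288) (nat_lit 221)) (PT.lf (nat_lit 22724) (nat_lit 6) (nat_lit 299) (nat_lit 2) (nat_lit 272) (nat_lit 288) (nat_lit 220))) (PT.nd (nat_lit 78) (PT.lf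 (nat_lit 22116) (nat_lit 6) (nat_lit 291) (nat_lit 2) (nat_lit 273) (nat_lit 288) (nat_lit 219)) (PT.lf (nat_lit 21508) (nat_lit 6) (nat_lit 283) (nat_lit 2) (nat_lit 274) (nat_lit 288) (nat_lit 218)))) (PT.nd (nat_lit 156) (PT.nd (nat_lit 78) (PT.lf (nat_lit 20900) (nat_lit 6) (nat_lit 275) (nat_lit 2) (nat_lit 275) (nat_lit 288) (nat_lit 217)) (PT.lf (nat_lit 20292) (nat_lit 6) (nat_lit 267) (nat_lit 2) (nat_lit 276) (nat_lit 288) (nat_lit 216))) (PT.nd (nat_lit 78) (PT.lf (nat_lit 19760) (nat_lit 6) (nat_lit 260) (nat_lit 2) (nat_lit 277) (nat_lit 288) (nat_lit 215)) (PT.lf (nat_lit 19228) (nat_lit 6) (nat_lit 253) (nat_lit 2) (nat_lit 278) (nat_lit 288) (nat_lit 214))))) (PT.nd (nat_lit 312) (PT.nd (nat_lit 156) (PT.nd (nat_lit 78) (PT.lf (nat_lit 18696) (nat_lit 6) (nat_lit 246) (nat_lit 2) (nat_lit 279) (nat_lit 288) (nat_lit 213)) (PT.lf (nat_lit 18164) (nat_lit 6) (nat_lit 239) (nat_lit 2) (nat_lit 280) (nat_lit 288) (nat_lit 212))) (PT.nd (nat_lit 78) (PT.lf (nat_lit 17708) (nat_lit 6) (nat_lit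 233) (nat_lit 2) (nat_lit 281) (nat_lit 288) (nat_lit 211)) (PT.lf (nat_lit 17176) (nat_lit 6) (nat_lit 226) (nat_lit 2) (nat_lit 282) (nat_lit 288) (nat_lit 210)))) (PT.nd (nat_lit 156) (PT.nd (nat_lit 78) (PT.lf (nat_lit 16720) (nat_lit 6) (nat_lit 220) (nat_lit 2) (nat_lit 283) (nat_lit 288) (nat_lit 209)) (PT.lf (nat_lit 16264) (nat_lit 6) (nat_lit 214) (nat_lit 2) (nat_lit 284) (nat_lit 288) (nat_lit 208))) (PT.nd (nat_lit 78) (PT.lf (nat_lit 15808) (nat_lit 6) (nat_lit 208) (nat_lit 2) (nat_lit 285) (nat_lit 288) (nat_lit 207)) (PT.lf (nat_lit 15352) (nat_lit 6) (nat_lit 202) (nat_lit 2) (nat_lit 286) (nat_lit 288) (nat_lit 206))))))))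
noncomputable def pc58 : PT := (PT.nd (nat_lit 75660) (PT.nd (nat_lit 74412) (PT.nd (nat_lit 546) (PT.nd (nat_lit 234) (PT.nd (nat_lit 78) (PT.lf (nat_lit 14972) (nat_lit 6) (nat_lit 197) (nat_lit 2) (nat_lit 287) (nat_lit 288) (nat_lit 205)) (PT.nd (nat_lit 78) (PT.lf (nat_lit 14516) (nat_lit 3) (nat_lit 191) (nat_lit 0) (nat_lit 288) (nat_lit 288) (nat_lit 204)) (PT.lf (nat_lit 14060) (nat_lit 6) (nat_lit 185) (nat_lit 0) (nat_lit 289) (nat_lit 288) (nat_lit 203)))) (PT.nd (nat_lit 156) (PT.nd (nat_lit 78) (PT.lf (nat_lit 13604) (nat_lit 6) (nat_lit 179) (nat_lit 0) (nat_lit 290) (nat_lit 288) (nat_lit 202)) (PT.lf (nat_lit 13148) (nat_lit 6) (nat_lit 173) (nat_lit 0) (nat_lit 291) (nat_lit 288) (nat_lit 201))) (PT.nd (nat_lit 78) (PT.lf (nat_lit 12692) (nat_lit 6) (nat_lit 167) (nat_lit 0) (nat_lit 292) (nat_lit 288) (nat_lit 200)) (PT.lf (nat_lit 12236) (nat_lit 6) (nat_lit 161) (nat_lit 0) (nat_lit 293) (nat_lit 288) (nat_lit 199))))) (PT.nd (nat_lit 73554) (PT.nd (nat_lit 156) (PT.nd (nat_lit 78)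 (PT.lf (nat_lit 11780) (nat_lit 6) (nat_lit 155) (nat_lit 0) (nat_lit 294) (nat_lit 288) (nat_lit 198)) (PT.lf (nat_lit 11400) (nat_lit 6) (nat_lit 150) (nat_lit 0) (nat_lit 295) (nat_lit 288) (nat_lit 197))) (PT.nd (nat_lit 73320) (PT.lf (nat_lit 10944) (nat_lit 6) (nat_lit 144) (nat_lit 0) (nat_lit 296) (nat_lit 288) (nat_lit 196)) (PT.lf (nat_lit 10640) (nat_lit 6) (nat_lit 140) (nat_lit 5) (nat_lit 195) (nat_lit 289) (nat_lit 296)))) (PT.nd (nat_lit 156) (PT.nd (nat_lit 78) (PT.lf (nat_lit 11020) (nat_lit 6) (nat_lit 145) (nat_lit 5) (nat_lit 196) (nat_lit 289) (nat_lit 295)) (PT.lf (nat_lit 11476) (nat_lit 6) (nat_lit 151) (nat_lit 5) (nat_lit 197) (nat_lit 289) (nat_lit 294))) (PT.nd (nat_lit 78) (PT.lf (nat_lit 11856) (nat_lit 6) (nat_lit 156) (nat_lit 5) (nat_lit 198) (nat_lit 289) (nat_lit 293)) (PT.lf (nat_lit 12312) (nat_lit 6) (nat_lit 162) (nat_lit 5) (nat_lit 199) (nat_lit 289) (nat_lit 292)))))) (PT.nd (nat_lit 624) (PT.nd (nat_lit 312) (PT.nd (nat_lit 156) (PT.nd (nat_lit 78) (PT.lf (nat_lit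 12768) (nat_lit 6) (nat_lit 168) (nat_lit 5) (nat_lit 200) (nat_lit 289) (nat_lit 291)) (PT.lf (nat_lit 13224) (nat_lit 6) (nat_lit 174) (nat_lit 5) (nat_lit 201) (nat_lit 289) (nat_lit 290))) (PT.nd (nat_lit 78) (PT.lf (nat_lit 13680) (nat_lit 3) (nat_lit 180) (nat_lit 4) (nat_lit 202) (nat_lit 289) (nat_lit 289)) (PT.lf (nat_lit 14060) (nat_lit 6) (nat_lit 185) (nat_lit 4) (nat_lit 203) (nat_lit 289) (nat_lit 288)))) (PT.nd (nat_lit 156) (PT.nd (nat_lit 78) (PT.lf (nat_lit 14440) (nat_lit 6) (nat_lit 190) (nat_lit 4) (nat_lit 204) (nat_lit 289) (nat_lit 287)) (PT.lf (nat_lit 14896) (nat_lit 6) (nat_lit 196) (nat_lit 4) (nat_lit 205) (nat_lit 289) (nat_lit 286))) (PT.nd (nat_lit 78) (PT.lf (nat_lit 15276) (nat_lit 6) (nat_lit 201) (nat_lit 4) (nat_lit 206) (nat_lit 289) (nat_lit 285)) (PT.lf (nat_lit 15732) (nat_lit 6) (nat_lit 207) (nat_lit 4) (nat_lit 207) (nat_lit 289) (nat_lit 284))))) (PT.nd (nat_lit 312) (PT.nd (nat_lit 156) (PT.nd (nat_lit 78) (PT.lf (nat_lit 16188) (nat_lit 6) (nat_lit 213) (nat_lit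 4) (nat_lit 208) (nat_lit 289) (nat_lit 283)) (PT.lf (nat_lit 16644) (nat_lit 6) (nat_lit 219) (nat_lit 4) (nat_lit 209) (nat_lit 289) (nat_lit 282))) (PT.nd (nat_lit 78) (PT.lf (nat_lit 17100) (nat_lit 6) (nat_lit 225) (nat_lit 4) (nat_lit 210) (nat_lit 289) (nat_lit 281)) (PT.lf (nat_lit 17632) (nat_lit 6) (nat_lit 232) (nat_lit 4) (nat_lit 211) (nat_lit 289) (nat_lit 280)))) (PT.nd (nat_lit 156) (PT.nd (nat_lit 78) (PT.lf (nat_lit 18088) (nat_lit 6) (nat_lit 238) (nat_lit 4) (nat_lit 212) (nat_lit 289) (nat_lit 279)) (PT.lf (nat_lit 18620) (nat_lit 6) (nat_lit 245) (nat_lit 4) (nat_lit 213) (nat_lit 289) (nat_lit 278))) (PT.nd (nat_lit 78) (PT.lf (nat_lit 19152) (nat_lit 6) (nat_lit 252) (nat_lit 4) (nat_lit 214) (nat_lit 289) (nat_lit 277)) (PT.lf (nat_lit 19684) (nat_lit 6) (nat_lit 259) (nat_lit 4) (nat_lit 215) (nat_lit 289) (nat_lit 276))))))) (PT.nd (nat_lit 5538) (PT.nd (nat_lit 4914) (PT.nd (nat_lit 4602) (PT.nd (nat_lit 78) (PT.lf (nat_lit 20216) (nat_lit 6) (nat_lit 266) (nat_lit 4) (nat_lit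 216) (nat_lit 289) (nat_lit 275)) (PT.nd (nat_lit 4446) (PT.lf (nat_lit 20824) (nat_lit 6) (nat_lit 274) (nat_lit 4) (nat_lit 217) (nat_lit 289) (nat_lit 274)) (PT.lf (nat_lit 20824) (nat_lit 6) (nat_lit 274) (nat_lit 2) (nat_lit 274) (nat_lit 289) (nat_lit 217)))) (PT.nd (nat_lit 156) (PT.nd (nat_lit 78) (PT.lf (nat_lit 20216) (nat_lit 6) (nat_lit 266) (nat_lit 2) (nat_lit 275) (nat_lit 289) (nat_lit 216)) (PT.lf (nat_lit 19684) (nat_lit 6) (nat_lit 259) (nat_lit 2) (nat_lit 276) (nat_lit 289) (nat_lit 215))) (PT.nd (nat_lit 78) (PT.lf (nat_lit 19152) (nat_lit 6) (nat_lit 252) (nat_lit 2) (nat_lit 277) (nat_lit 289) (nat_lit 214)) (PT.lf (nat_lit 18620) (nat_lit 6) (nat_lit 245) (nat_lit 2) (nat_lit 278) (nat_lit 289) (nat_lit 213))))) (PT.nd (nat_lit 312) (PT.nd (nat_lit 156) (PT.nd (nat_lit 78) (PT.lf (nat_lit 18088) (nat_lit 6) (nat_lit 238) (nat_lit 2) (nat_lit 279) (nat_lit 289) (nat_lit 212)) (PT.lf (nat_lit 17632) (nat_lit 6) (nat_lit 232) (nat_lit 2) (nat_lit 280) (nat_lit 289) (nat_lit 211)))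 (PT.nd (nat_lit 78) (PT.lf (nat_lit 17100) (nat_lit 6) (nat_lit 225) (nat_lit 2) (nat_lit 281) (nat_lit 289) (nat_lit 210)) (PT.lf (nat_lit 16644) (nat_lit 6) (nat_lit 219) (nat_lit 2) (nat_lit 282) (nat_lit 289) (nat_lit 209)))) (PT.nd (nat_lit 156) (PT.nd (nat_lit 78) (PT.lf (nat_lit 16188) (nat_lit 6) (nat_lit 213) (nat_lit 2) (nat_lit 283) (nat_lit 289) (nat_lit 208)) (PT.lf (nat_lit 15732) (nat_lit 6) (nat_lit 207) (nat_lit 2) (nat_lit 284) (nat_lit 289) (nat_lit 207))) (PT.nd (nat_lit 78) (PT.lf (nat_lit 15276) (nat_lit 6) (nat_lit 201) (nat_lit 2) (nat_lit 285) (nat_lit 289) (nat_lit 206)) (PT.lf (nat_lit 14896) (nat_lit 6) (nat_lit 196) (nat_lit 2) (nat_lit 286) (nat_lit 289) (nat_lit 205)))))) (PT.nd (nat_lit 624) (PT.nd (nat_lit 312) (PT.nd (nat_lit 156) (PT.nd (nat_lit 78) (PT.lf (nat_lit 14440) (nat_lit 6) (nat_lit 190) (nat_lit 2) (nat_lit 287) (nat_lit 289) (nat_lit 204)) (PT.lf (nat_lit 14060) (nat_lit 6) (nat_lit 185) (nat_lit 2) (nat_lit 288) (nat_lit 289) (nat_lit 203))) (PT.nd (nat_lit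 78) (PT.lf (nat_lit 13680) (nat_lit 3) (nat_lit 180) (nat_lit 0) (nat_lit 289) (nat_lit 289) (nat_lit 202)) (PT.lf (nat_lit 13224) (nat_lit 6) (nat_lit 174) (nat_lit 0) (nat_lit 290) (nat_lit 289) (nat_lit 201)))) (PT.nd (nat_lit 156) (PT.nd (nat_lit 78) (PT.lf (nat_lit 12768) (nat_lit 6) (nat_lit 168) (nat_lit 0) (nat_lit 291) (nat_lit 289) (nat_lit 200)) (PT.lf (nat_lit 12312) (nat_lit 6) (nat_lit 162) (nat_lit 0) (nat_lit 292) (nat_lit 289) (nat_lit 199))) (PT.nd (nat_lit 78) (PT.lf (nat_lit 11856) (nat_lit 6) (nat_lit 156) (nat_lit 0) (nat_lit 293) (nat_lit 289) (nat_lit 198)) (PT.lf (nat_lit 11476) (nat_lit 6) (nat_lit 151) (nat_lit 0) (nat_lit 294) (nat_lit 289) (nat_lit 197))))) (PT.nd (nat_lit 73476) (PT.nd (nat_lit 73320) (PT.nd (nat_lit 78) (PT.lf (nat_lit 11020) (nat_lit 6) (nat_lit 145) (nat_lit 0) (nat_lit 295) (nat_lit 289) (nat_lit 196)) (PT.lf (nat_lit 10640) (nat_lit 6) (nat_lit 140) (nat_lit 0) (nat_lit 296) (nat_lit 289) (nat_lit 195))) (PT.nd (nat_lit 78) (PT.lf (nat_lit 10260) (nat_lit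 6) (nat_lit 135) (nat_lit 5) (nat_lit 194) (nat_lit 290) (nat_lit 296)) (PT.lf (nat_lit 10716) (nat_lit 6) (nat_lit 141) (nat_lit 5) (nat_lit 195) (nat_lit 290) (nat_lit 295)))) (PT.nd (nat_lit 156) (PT.nd (nat_lit 78) (PT.lf (nat_lit 11096) (nat_lit 6) (nat_lit 146) (nat_lit 5) (nat_lit 196) (nat_lit 290) (nat_lit 294)) (PT.lf (nat_lit 11552) (nat_lit 6) (nat_lit 152) (nat_lit 5) (nat_lit 197) (nat_lit 290) (nat_lit 293))) (PT.nd (nat_lit 78) (PT.lf (nat_lit 11932) (nat_lit 6) (nat_lit 157) (nat_lit 5) (nat_lit 198) (nat_lit 290) (nat_lit 292)) (PT.lf (nat_lit 12388) (nat_lit 6) (nat_lit 163) (nat_lit 5) (nat_lit 199) (nat_lit 290) (nat_lit 291))))))))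
noncomputable def pc59 : PT := (PT.nd (nat_lit 7176) (PT.nd (nat_lit 5928) (PT.nd (nat_lit 546) (PT.nd (nat_lit 234) (PT.nd (nat_lit 78) (PT.lf (nat_lit 12844) (nat_lit 3) (nat_lit 169) (nat_lit 4) (nat_lit 200) (nat_lit 290) (nat_lit 290)) (PT.nd (nat_lit 78) (PT.lf (nat_lit 13224) (nat_lit 6) (nat_lit 174) (nat_lit 4) (nat_lit 201) (nat_lit 290) (nat_lit 289)) (PT.lf (nat_lit 13604) (nat_lit 6) (nat_lit 179) (nat_lit 4) (nat_lit 202) (nat_lit 290) (nat_lit 288)))) (PT.nd (nat_lit 156) (PT.nd (nat_lit 78) (PT.lf (nat_lit 13984) (nat_lit 6) (nat_lit 184) (nat_lit 4) (nat_lit 203) (nat_lit 290) (nat_lit 287)) (PT.lf (nat_lit 14364) (nat_lit 6) (nat_lit 189) (nat_lit 4) (nat_lit 204) (nat_lit 290) (nat_lit 286))) (PT.nd (nat_lit 78) (PT.lf (nat_lit 14820) (nat_lit 6) (nat_lit 195) (nat_lit 4) (nat_lit 205) (nat_lit 290) (nat_lit 285)) (PT.lf (nat_lit 15200) (nat_lit 6) (nat_lit 200) (nat_lit 4) (nat_lit 206) (nat_lit 290) (nat_lit 284))))) (PT.nd (nat_lit 312) (PT.nd (nat_lit 156) (PT.nd (nat_lit 78) (PT.lf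 (nat_lit 15656) (nat_lit 6) (nat_lit 206) (nat_lit 4) (nat_lit 207) (nat_lit 290) (nat_lit 283)) (PT.lf (nat_lit 16112) (nat_lit 6) (nat_lit 212) (nat_lit 4) (nat_lit 208) (nat_lit 290) (nat_lit 282))) (PT.nd (nat_lit 78) (PT.lf (nat_lit 16568) (nat_lit 6) (nat_lit 218) (nat_lit 4) (nat_lit 209) (nat_lit 290) (nat_lit 281)) (PT.lf (nat_lit 17024) (nat_lit 6) (nat_lit 224) (nat_lit 4) (nat_lit 210) (nat_lit 290) (nat_lit 280)))) (PT.nd (nat_lit 156) (PT.nd (nat_lit 78) (PT.lf (nat_lit 17556) (nat_lit 6) (nat_lit 231) (nat_lit 4) (nat_lit 211) (nat_lit 290) (nat_lit 279)) (PT.lf (nat_lit 18012) (nat_lit 6) (nat_lit 237) (nat_lit 4) (nat_lit 212) (nat_lit 290) (nat_lit 278))) (PT.nd (nat_lit 78) (PT.lf (nat_lit 18544) (nat_lit 6) (nat_lit 244) (nat_lit 4) (nat_lit 213) (nat_lit 290) (nat_lit 277)) (PT.lf (nat_lit 19076) (nat_lit 6) (nat_lit 251) (nat_lit 4) (nat_lit 214) (nat_lit 290) (nat_lit 276)))))) (PT.nd (nat_lit 624) (PT.nd (nat_lit 312) (PT.nd (nat_lit 156) (PT.nd (nat_lit 78) (PT.lf (nat_lit 19076)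 (nat_lit 6) (nat_lit 251) (nat_lit 2) (nat_lit 276) (nat_lit 290) (nat_lit 214)) (PT.lf (nat_lit 18544) (nat_lit 6) (nat_lit 244) (nat_lit 2) (nat_lit 277) (nat_lit 290) (nat_lit 213))) (PT.nd (nat_lit 78) (PT.lf (nat_lit 18012) (nat_lit 6) (nat_lit 237) (nat_lit 2) (nat_lit 278) (nat_lit 290) (nat_lit 212)) (PT.lf (nat_lit 17556) (nat_lit 6) (nat_lit 231) (nat_lit 2) (nat_lit 279) (nat_lit 290) (nat_lit 211)))) (PT.nd (nat_lit 156) (PT.nd (nat_lit 78) (PT.lf (nat_lit 17024) (nat_lit 6) (nat_lit 224) (nat_lit 2) (nat_lit 280) (nat_lit 290) (nat_lit 210)) (PT.lf (nat_lit 16568) (nat_lit 6) (nat_lit 218) (nat_lit 2) (nat_lit 281) (nat_lit 290) (nat_lit 209))) (PT.nd (nat_lit 78) (PT.lf (nat_lit 16112) (nat_lit 6) (nat_lit 212) (nat_lit 2) (nat_lit 282) (nat_lit 290) (nat_lit 208)) (PT.lf (nat_lit 15656) (nat_lit 6) (nat_lit 206) (nat_lit 2) (nat_lit 283) (nat_lit 290) (nat_lit 207))))) (PT.nd (nat_lit 312) (PT.nd (nat_lit 156) (PT.nd (nat_lit 78) (PT.lf (nat_lit 15200) (nat_lit 6) (nat_lit 200) (nat_lit 2)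 (nat_lit 284) (nat_lit 290) (nat_lit 206)) (PT.lf (nat_lit 14820) (nat_lit 6) (nat_lit 195) (nat_lit 2) (nat_lit 285) (nat_lit 290) (nat_lit 205))) (PT.nd (nat_lit 78) (PT.lf (nat_lit 14364) (nat_lit 6) (nat_lit 189) (nat_lit 2) (nat_lit 286) (nat_lit 290) (nat_lit 204)) (PT.lf (nat_lit 13984) (nat_lit 6) (nat_lit 184) (nat_lit 2) (nat_lit 287) (nat_lit 290) (nat_lit 203)))) (PT.nd (nat_lit 156) (PT.nd (nat_lit 78) (PT.lf (nat_lit 13604) (nat_lit 6) (nat_lit 179) (nat_lit 2) (nat_lit 288) (nat_lit 290) (nat_lit 202)) (PT.lf (nat_lit 13224) (nat_lit 6) (nat_lit 174) (nat_lit 2) (nat_lit 289) (nat_lit 290) (nat_lit 201))) (PT.nd (nat_lit 78) (PT.lf (nat_lit 12844) (nat_lit 3) (nat_lit 169) (nat_lit 0) (nat_lit 290) (nat_lit 290) (nat_lit 200)) (PT.lf (nat_lit 12388) (nat_lit 6) (nat_lit 163) (nat_lit 0) (nat_lit 291) (nat_lit 290) (nat_lit 199))))))) (PT.nd (nat_lit 74178) (PT.nd (nat_lit 73554) (PT.nd (nat_lit 234) (PT.nd (nat_lit 78) (PT.lf (nat_lit 11932) (nat_lit 6) (nat_lit 157) (nat_lit 0) (nat_lit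 292) (nat_lit 290) (nat_lit 198)) (PT.nd (nat_lit 78) (PT.lf (nat_lit 11552) (nat_lit 6) (nat_lit 152) (nat_lit 0) (nat_lit 293) (nat_lit 290) (nat_lit 197)) (PT.lf (nat_lit 11096) (nat_lit 6) (nat_lit 146) (nat_lit 0) (nat_lit 294) (nat_lit 290) (nat_lit 196)))) (PT.nd (nat_lit 73164) (PT.nd (nat_lit 78) (PT.lf (nat_lit 10716) (nat_lit 6) (nat_lit 141) (nat_lit 0) (nat_lit 295) (nat_lit 290) (nat_lit 195)) (PT.lf (nat_lit 10260) (nat_lit 6) (nat_lit 135) (nat_lit 0) (nat_lit 296) (nat_lit 290) (nat_lit 194))) (PT.nd (nat_lit 78) (PT.lf (nat_lit 9576) (nat_lit 6) (nat_lit 126) (nat_lit 5) (nat_lit 192) (nat_lit 291) (nat_lit 297)) (PT.lf (nat_lit 9956) (nat_lit 6) (nat_lit 131) (nat_lit 5) (nat_lit 193) (nat_lit 291) (nat_lit 296))))) (PT.nd (nat_lit 312) (PT.nd (nat_lit 156) (PT.nd (nat_lit 78) (PT.lf (nat_lit 10336) (nat_lit 6) (nat_lit 136) (nat_lit 5) (nat_lit 194) (nat_lit 291) (nat_lit 295)) (PT.lf (nat_lit 10792) (nat_lit 6) (nat_lit 142) (nat_lit 5) (nat_lit 195) (nat_lit 291) (nat_lit 294))) (PT.nd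 (nat_lit 78) (PT.lf (nat_lit 11172) (nat_lit 6) (nat_lit 147) (nat_lit 5) (nat_lit 196) (nat_lit 291) (nat_lit 293)) (PT.lf (nat_lit 11628) (nat_lit 6) (nat_lit 153) (nat_lit 5) (nat_lit 197) (nat_lit 291) (nat_lit 292)))) (PT.nd (nat_lit 156) (PT.nd (nat_lit 78) (PT.lf (nat_lit 12008) (nat_lit 3) (nat_lit 158) (nat_lit 4) (nat_lit 198) (nat_lit 291) (nat_lit 291)) (PT.lf (nat_lit 12388) (nat_lit 6) (nat_lit 163) (nat_lit 4) (nat_lit 199) (nat_lit 291) (nat_lit 290))) (PT.nd (nat_lit 78) (PT.lf (nat_lit 12768) (nat_lit 6) (nat_lit 168) (nat_lit 4) (nat_lit 200) (nat_lit 291) (nat_lit 289)) (PT.lf (nat_lit 13148) (nat_lit 6) (nat_lit 173) (nat_lit 4) (nat_lit 201) (nat_lit 291) (nat_lit 288)))))) (PT.nd (nat_lit 624) (PT.nd (nat_lit 312) (PT.nd (nat_lit 156) (PT.nd (nat_lit 78) (PT.lf (nat_lit 13528) (nat_lit 6) (nat_lit 178) (nat_lit 4) (nat_lit 202) (nat_lit 291) (nat_lit 287)) (PT.lf (nat_lit 13908) (nat_lit 6) (nat_lit 183) (nat_lit 4) (nat_lit 203) (nat_lit 291) (nat_lit 286))) (PT.nd (nat_lit 78) (PT.lf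 (nat_lit 14288) (nat_lit 6) (nat_lit 188) (nat_lit 4) (nat_lit 204) (nat_lit 291) (nat_lit 285)) (PT.lf (nat_lit 14744) (nat_lit 6) (nat_lit 194) (nat_lit 4) (nat_lit 205) (nat_lit 291) (nat_lit 284)))) (PT.nd (nat_lit 156) (PT.nd (nat_lit 78) (PT.lf (nat_lit 15124) (nat_lit 6) (nat_lit 199) (nat_lit 4) (nat_lit 206) (nat_lit 291) (nat_lit 283)) (PT.lf (nat_lit 15580) (nat_lit 6) (nat_lit 205) (nat_lit 4) (nat_lit 207) (nat_lit 291) (nat_lit 282))) (PT.nd (nat_lit 78) (PT.lf (nat_lit 16036) (nat_lit 6) (nat_lit 211) (nat_lit 4) (nat_lit 208) (nat_lit 291) (nat_lit 281)) (PT.lf (nat_lit 16492) (nat_lit 6) (nat_lit 217) (nat_lit 4) (nat_lit 209) (nat_lit 291) (nat_lit 280))))) (PT.nd (nat_lit 5460) (PT.nd (nat_lit 5304) (PT.nd (nat_lit 78) (PT.lf (nat_lit 16948) (nat_lit 6) (nat_lit 223) (nat_lit 4) (nat_lit 210) (nat_lit 291) (nat_lit 279)) (PT.lf (nat_lit 17480) (nat_lit 6) (nat_lit 230) (nat_lit 4) (nat_lit 211) (nat_lit 291) (nat_lit 278))) (PT.nd (nat_lit 78) (PT.lf (nat_lit 17480) (nat_lit 6) (nat_lit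 230) (nat_lit 2) (nat_lit 278) (nat_lit 291) (nat_lit 211)) (PT.lf (nat_lit 16948) (nat_lit 6) (nat_lit 223) (nat_lit 2) (nat_lit 279) (nat_lit 291) (nat_lit 210)))) (PT.nd (nat_lit 156) (PT.nd (nat_lit 78) (PT.lf (nat_lit 16492) (nat_lit 6) (nat_lit 217) (nat_lit 2) (nat_lit 280) (nat_lit 291) (nat_lit 209)) (PT.lf (nat_lit 16036) (nat_lit 6) (nat_lit 211) (nat_lit 2) (nat_lit 281) (nat_lit 291) (nat_lit 208))) (PT.nd (nat_lit 78) (PT.lf (nat_lit 15580) (nat_lit 6) (nat_lit 205) (nat_lit 2) (nat_lit 282) (nat_lit 291) (nat_lit 207)) (PT.lf (nat_lit 15124) (nat_lit 6) (nat_lit 199) (nat_lit 2) (nat_lit 283) (nat_lit 291) (nat_lit 206))))))))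
noncomputable def pc60 : PT := (PT.nd (nat_lit 75270) (PT.nd (nat_lit 74022) (PT.nd (nat_lit 546) (PT.nd (nat_lit 234) (PT.nd (nat_lit 78) (PT.lf (nat_lit 14744) (nat_lit 6) (nat_lit 194) (nat_lit 2) (nat_lit 284) (nat_lit 291) (nat_lit 205)) (PT.nd (nat_lit 78) (PT.lf (nat_lit 14288) (nat_lit 6) (nat_lit 188) (nat_lit 2) (nat_lit 285) (nat_lit 291) (nat_lit 204)) (PT.lf (nat_lit 13908) (nat_lit 6) (nat_lit 183) (nat_lit 2) (nat_lit 286) (nat_lit 291) (nat_lit 203)))) (PT.nd (nat_lit 156) (PT.nd (nat_lit 78) (PT.lf (nat_lit 13528) (nat_lit 6) (nat_lit 178) (nat_lit 2) (nat_lit 287) (nat_lit 291) (nat_lit 202)) (PT.lf (nat_lit 13148) (nat_lit 6) (nat_lit 173) (nat_lit 2) (nat_lit 288) (nat_lit 291) (nat_lit 201))) (PT.nd (nat_lit 78) (PT.lf (nat_lit 12768) (nat_lit 6) (nat_lit 168) (nat_lit 2) (nat_lit 289) (nat_lit 291) (nat_lit 200)) (PT.lf (nat_lit 12388) (nat_lit 6) (nat_lit 163) (nat_lit 2) (nat_lit 290) (nat_lit 291) (nat_lit 199))))) (PT.nd (nat_lit 312) (PT.nd (nat_lit 156) (PT.nd (nat_lit 78) (PT.lf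 (nat_lit 12008) (nat_lit 3) (nat_lit 158) (nat_lit 0) (nat_lit 291) (nat_lit 291) (nat_lit 198)) (PT.lf (nat_lit 11628) (nat_lit 6) (nat_lit 153) (nat_lit 0) (nat_lit 292) (nat_lit 291) (nat_lit 197))) (PT.nd (nat_lit 78) (PT.lf (nat_lit 11172) (nat_lit 6) (nat_lit 147) (nat_lit 0) (nat_lit 293) (nat_lit 291) (nat_lit 196)) (PT.lf (nat_lit 10792) (nat_lit 6) (nat_lit 142) (nat_lit 0) (nat_lit 294) (nat_lit 291) (nat_lit 195)))) (PT.nd (nat_lit 156) (PT.nd (nat_lit 78) (PT.lf (nat_lit 10336) (nat_lit 6) (nat_lit 136) (nat_lit 0) (nat_lit 295) (nat_lit 291) (nat_lit 194)) (PT.lf (nat_lit 9956) (nat_lit 6) (nat_lit 131) (nat_lit 0) (nat_lit 296) (nat_lit 291) (nat_lit 193))) (PT.nd (nat_lit 72930) (PT.lf (nat_lit 9576) (nat_lit 6) (nat_lit 126) (nat_lit 0) (nat_lit 297) (nat_lit 291) (nat_lit 192)) (PT.lf (nat_lit 9272) (nat_lit 6) (nat_lit 122) (nat_lit 5) (nat_lit 191) (nat_lit 292) (nat_lit 297)))))) (PT.nd (nat_lit 624) (PT.nd (nat_lit 312) (PT.nd (nat_lit 156) (PT.nd (nat_lit 78) (PT.lf (nat_lit 9652)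 (nat_lit 6) (nat_lit 127) (nat_lit 5) (nat_lit 192) (nat_lit 292) (nat_lit 296)) (PT.lf (nat_lit 10032) (nat_lit 6) (nat_lit 132) (nat_lit 5) (nat_lit 193) (nat_lit 292) (nat_lit 295))) (PT.nd (nat_lit 78) (PT.lf (nat_lit 10412) (nat_lit 6) (nat_lit 137) (nat_lit 5) (nat_lit 194) (nat_lit 292) (nat_lit 294)) (PT.lf (nat_lit 10868) (nat_lit 6) (nat_lit 143) (nat_lit 5) (nat_lit 195) (nat_lit 292) (nat_lit 293)))) (PT.nd (nat_lit 156) (PT.nd (nat_lit 78) (PT.lf (nat_lit 11248) (nat_lit 3) (nat_lit 148) (nat_lit 4) (nat_lit 196) (nat_lit 292) (nat_lit 292)) (PT.lf (nat_lit 11628) (nat_lit 6) (nat_lit 153) (nat_lit 4) (nat_lit 197) (nat_lit 292) (nat_lit 291))) (PT.nd (nat_lit 78) (PT.lf (nat_lit 11932) (nat_lit 6) (nat_lit 157) (nat_lit 4) (nat_lit 198) (nat_lit 292) (nat_lit 290)) (PT.lf (nat_lit 12312) (nat_lit 6) (nat_lit 162) (nat_lit 4) (nat_lit 199) (nat_lit 292) (nat_lit 289))))) (PT.nd (nat_lit 312) (PT.nd (nat_lit 156) (PT.nd (nat_lit 78) (PT.lf (nat_lit 12692) (nat_lit 6) (nat_lit 167) (nat_lit 4)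 (nat_lit 200) (nat_lit 292) (nat_lit 288)) (PT.lf (nat_lit 13072) (nat_lit 6) (nat_lit 172) (nat_lit 4) (nat_lit 201) (nat_lit 292) (nat_lit 287))) (PT.nd (nat_lit 78) (PT.lf (nat_lit 13452) (nat_lit 6) (nat_lit 177) (nat_lit 4) (nat_lit 202) (nat_lit 292) (nat_lit 286)) (PT.lf (nat_lit 13832) (nat_lit 6) (nat_lit 182) (nat_lit 4) (nat_lit 203) (nat_lit 292) (nat_lit 285)))) (PT.nd (nat_lit 156) (PT.nd (nat_lit 78) (PT.lf (nat_lit 14212) (nat_lit 6) (nat_lit 187) (nat_lit 4) (nat_lit 204) (nat_lit 292) (nat_lit 284)) (PT.lf (nat_lit 14668) (nat_lit 6) (nat_lit 193) (nat_lit 4) (nat_lit 205) (nat_lit 292) (nat_lit 283))) (PT.nd (nat_lit 78) (PT.lf (nat_lit 15048) (nat_lit 6) (nat_lit 198) (nat_lit 4) (nat_lit 206) (nat_lit 292) (nat_lit 282)) (PT.lf (nat_lit 15504) (nat_lit 6) (nat_lit 204) (nat_lit 4) (nat_lit 207) (nat_lit 292) (nat_lit 281))))))) (PT.nd (nat_lit 6708) (PT.nd (nat_lit 6084) (PT.nd (nat_lit 5772) (PT.nd (nat_lit 5616) (PT.lf (nat_lit 15960) (nat_lit 6) (nat_lit 210) (nat_lit 4) (nat_lit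 208) (nat_lit 292) (nat_lit 280)) (PT.nd (nat_lit 78) (PT.lf (nat_lit 15960) (nat_lit 6) (nat_lit 210) (nat_lit 2) (nat_lit 280) (nat_lit 292) (nat_lit 208)) (PT.lf (nat_lit 15504) (nat_lit 6) (nat_lit 204) (nat_lit 2) (nat_lit 281) (nat_lit 292) (nat_lit 207)))) (PT.nd (nat_lit 156) (PT.nd (nat_lit 78) (PT.lf (nat_lit 15048) (nat_lit 6) (nat_lit 198) (nat_lit 2) (nat_lit 282) (nat_lit 292) (nat_lit 206)) (PT.lf (nat_lit 14668) (nat_lit 6) (nat_lit 193) (nat_lit 2) (nat_lit 283) (nat_lit 292) (nat_lit 205))) (PT.nd (nat_lit 78) (PT.lf (nat_lit 14212) (nat_lit 6) (nat_lit 187) (nat_lit 2) (nat_lit 284) (nat_lit 292) (nat_lit 204)) (PT.lf (nat_lit 13832) (nat_lit 6) (nat_lit 182) (nat_lit 2) (nat_lit 285) (nat_lit 292) (nat_lit 203))))) (PT.nd (nat_lit 312) (PT.nd (nat_lit 156) (PT.nd (nat_lit 78) (PT.lf (nat_lit 13452) (nat_lit 6) (nat_lit 177) (nat_lit 2) (nat_lit 286) (nat_lit 292) (nat_lit 202)) (PT.lf (nat_lit 13072) (nat_lit 6) (nat_lit 172) (nat_lit 2) (nat_lit 287) (nat_lit 292) (nat_lit 201))) (PT.nd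 (nat_lit 78) (PT.lf (nat_lit 12692) (nat_lit 6) (nat_lit 167) (nat_lit 2) (nat_lit 288) (nat_lit 292) (nat_lit 200)) (PT.lf (nat_lit 12312) (nat_lit 6) (nat_lit 162) (nat_lit 2) (nat_lit 289) (nat_lit 292) (nat_lit 199)))) (PT.nd (nat_lit 156) (PT.nd (nat_lit 78) (PT.lf (nat_lit 11932) (nat_lit 6) (nat_lit 157) (nat_lit 2) (nat_lit 290) (nat_lit 292) (nat_lit 198)) (PT.lf (nat_lit 11628) (nat_lit 6) (nat_lit 153) (nat_lit 2) (nat_lit 291) (nat_lit 292) (nat_lit 197))) (PT.nd (nat_lit 78) (PT.lf (nat_lit 11248) (nat_lit 3) (nat_lit 148) (nat_lit 0) (nat_lit 292) (nat_lit 292) (nat_lit 196)) (PT.lf (nat_lit 10868) (nat_lit 6) (nat_lit 143) (nat_lit 0) (nat_lit 293) (nat_lit 292) (nat_lit 195)))))) (PT.nd (nat_lit 73320) (PT.nd (nat_lit 73008) (PT.nd (nat_lit 156) (PT.nd (nat_lit 78) (PT.lf (nat_lit 10412) (nat_lit 6) (nat_lit 137) (nat_lit 0) (nat_lit 294) (nat_lit 292) (nat_lit 194)) (PT.lf (nat_lit 10032) (nat_lit 6) (nat_lit 132) (nat_lit 0) (nat_lit 295) (nat_lit 292) (nat_lit 193))) (PT.nd (nat_lit 78)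 (PT.lf (nat_lit 9652) (nat_lit 6) (nat_lit 127) (nat_lit 0) (nat_lit 296) (nat_lit 292) (nat_lit 192)) (PT.lf (nat_lit 9272) (nat_lit 6) (nat_lit 122) (nat_lit 0) (nat_lit 297) (nat_lit 292) (nat_lit 191)))) (PT.nd (nat_lit 156) (PT.nd (nat_lit 78) (PT.lf (nat_lit 8664) (nat_lit 6) (nat_lit 114) (nat_lit 5) (nat_lit 189) (nat_lit 293) (nat_lit 298)) (PT.lf (nat_lit 8968) (nat_lit 6) (nat_lit 118) (nat_lit 5) (nat_lit 190) (nat_lit 293) (nat_lit 297))) (PT.nd (nat_lit 78) (PT.lf (nat_lit 9348) (nat_lit 6) (nat_lit 123) (nat_lit 5) (nat_lit 191) (nat_lit 293) (nat_lit 296)) (PT.lf (nat_lit 9728) (nat_lit 6) (nat_lit 128) (nat_lit 5) (nat_lit 192) (nat_lit 293) (nat_lit 295))))) (PT.nd (nat_lit 312) (PT.nd (nat_lit 156) (PT.nd (nat_lit 78) (PT.lf (nat_lit 10108) (nat_lit 6) (nat_lit 133) (nat_lit 5) (nat_lit 193) (nat_lit 293) (nat_lit 294)) (PT.lf (nat_lit 10488) (nat_lit 3) (nat_lit 138) (nat_lit 4) (nat_lit 194) (nat_lit 293) (nat_lit 293))) (PT.nd (nat_lit 78) (PT.lf (nat_lit 10868) (nat_lit 6) (nat_lit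 143) (nat_lit 4) (nat_lit 195) (nat_lit 293) (nat_lit 292)) (PT.lf (nat_lit 11172) (nat_lit 6) (nat_lit 147) (nat_lit 4) (nat_lit 196) (nat_lit 293) (nat_lit 291)))) (PT.nd (nat_lit 156) (PT.nd (nat_lit 78) (PT.lf (nat_lit 11552) (nat_lit 6) (nat_lit 152) (nat_lit 4) (nat_lit 197) (nat_lit 293) (nat_lit 290)) (PT.lf (nat_lit 11856) (nat_lit 6) (nat_lit 156) (nat_lit 4) (nat_lit 198) (nat_lit 293) (nat_lit 289))) (PT.nd (nat_lit 78) (PT.lf (nat_lit 12236) (nat_lit 6) (nat_lit 161) (nat_lit 4) (nat_lit 199) (nat_lit 293) (nat_lit 288)) (PT.lf (nat_lit 12616) (nat_lit 6) (nat_lit 166) (nat_lit 4) (nat_lit 200) (nat_lit 293) (nat_lit 287))))))))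
noncomputable def pc61 : PT := (PT.nd (nat_lit 80886) (PT.nd (nat_lit 7098) (PT.nd (nat_lit 6474) (PT.nd (nat_lit 234) (PT.nd (nat_lit 78) (PT.lf (nat_lit 12996) (nat_lit 6) (nat_lit 171) (nat_lit 4) (nat_lit 201) (nat_lit 293) (nat_lit 286)) (PT.nd (nat_lit 78) (PT.lf (nat_lit 13376) (nat_lit 6) (nat_lit 176) (nat_lit 4) (nat_lit 202) (nat_lit 293) (nat_lit 285)) (PT.lf (nat_lit 13756) (nat_lit 6) (nat_lit 181) (nat_lit 4) (nat_lit 203) (nat_lit 293) (nat_lit 284)))) (PT.nd (nat_lit 6084) (PT.nd (nat_lit 78) (PT.lf (nat_lit 14136) (nat_lit 6) (nat_lit 186) (nat_lit 4) (nat_lit 204) (nat_lit 293) (nat_lit 283)) (PT.lf (nat_lit 14592) (nat_lit 6) (nat_lit 192) (nat_lit 4) (nat_lit 205) (nat_lit 293) (nat_lit 282))) (PT.nd (nat_lit 78) (PT.lf (nat_lit 14592) (nat_lit 6) (nat_lit 192) (nat_lit 2) (nat_lit 282) (nat_lit 293) (nat_lit 205)) (PT.lf (nat_lit 14136) (nat_lit 6) (nat_lit 186) (nat_lit 2) (nat_lit 283) (nat_lit 293) (nat_lit 204))))) (PT.nd (nat_lit 312) (PT.nd (nat_lit 156) (PT.nd (nat_lit 78) (PT.lf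 (nat_lit 13756) (nat_lit 6) (nat_lit 181) (nat_lit 2) (nat_lit 284) (nat_lit 293) (nat_lit 203)) (PT.lf (nat_lit 13376) (nat_lit 6) (nat_lit 176) (nat_lit 2) (nat_lit 285) (nat_lit 293) (nat_lit 202))) (PT.nd (nat_lit 78) (PT.lf (nat_lit 12996) (nat_lit 6) (nat_lit 171) (nat_lit 2) (nat_lit 286) (nat_lit 293) (nat_lit 201)) (PT.lf (nat_lit 12616) (nat_lit 6) (nat_lit 166) (nat_lit 2) (nat_lit 287) (nat_lit 293) (nat_lit 200)))) (PT.nd (nat_lit 156) (PT.nd (nat_lit 78) (PT.lf (nat_lit 12236) (nat_lit 6) (nat_lit 161) (nat_lit 2) (nat_lit 288) (nat_lit 293) (nat_lit 199)) (PT.lf (nat_lit 11856) (nat_lit 6) (nat_lit 156) (nat_lit 2) (nat_lit 289) (nat_lit 293) (nat_lit 198))) (PT.nd (nat_lit 78) (PT.lf (nat_lit 11552) (nat_lit 6) (nat_lit 152) (nat_lit 2) (nat_lit 290) (nat_lit 293) (nat_lit 197)) (PT.lf (nat_lit 11172) (nat_lit 6) (nat_lit 147) (nat_lit 2) (nat_lit 291) (nat_lit 293) (nat_lit 196)))))) (PT.nd (nat_lit 73164) (PT.nd (nat_lit 312) (PT.nd (nat_lit 156) (PT.nd (nat_lit 78) (PT.lf (nat_lit 10868)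 (nat_lit 6) (nat_lit 143) (nat_lit 2) (nat_lit 292) (nat_lit 293) (nat_lit 195)) (PT.lf (nat_lit 10488) (nat_lit 3) (nat_lit 138) (nat_lit 0) (nat_lit 293) (nat_lit 293) (nat_lit 194))) (PT.nd (nat_lit 78) (PT.lf (nat_lit 10108) (nat_lit 6) (nat_lit 133) (nat_lit 0) (nat_lit 294) (nat_lit 293) (nat_lit 193)) (PT.lf (nat_lit 9728) (nat_lit 6) (nat_lit 128) (nat_lit 0) (nat_lit 295) (nat_lit 293) (nat_lit 192)))) (PT.nd (nat_lit 156) (PT.nd (nat_lit 78) (PT.lf (nat_lit 9348) (nat_lit 6) (nat_lit 123) (nat_lit 0) (nat_lit 296) (nat_lit 293) (nat_lit 191)) (PT.lf (nat_lit 8968) (nat_lit 6) (nat_lit 118) (nat_lit 0) (nat_lit 297) (nat_lit 293) (nat_lit 190))) (PT.nd (nat_lit 72618) (PT.lf (nat_lit 8664) (nat_lit 6) (nat_lit 114) (nat_lit 0) (nat_lit 298) (nat_lit 293) (nat_lit 189)) (PT.lf (nat_lit 8360) (nat_lit 6) (nat_lit 110) (nat_lit 5) (nat_lit 188) (nat_lit 294) (nat_lit 298))))) (PT.nd (nat_lit 312) (PT.nd (nat_lit 156) (PT.nd (nat_lit 78) (PT.lf (nat_lit 8740) (nat_lit 6) (nat_lit 115) (nat_lit 5) (nat_lit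 189) (nat_lit 294) (nat_lit 297)) (PT.lf (nat_lit 9044) (nat_lit 6) (nat_lit 119) (nat_lit 5) (nat_lit 190) (nat_lit 294) (nat_lit 296))) (PT.nd (nat_lit 78) (PT.lf (nat_lit 9424) (nat_lit 6) (nat_lit 124) (nat_lit 5) (nat_lit 191) (nat_lit 294) (nat_lit 295)) (PT.lf (nat_lit 9804) (nat_lit 3) (nat_lit 129) (nat_lit 4) (nat_lit 192) (nat_lit 294) (nat_lit 294)))) (PT.nd (nat_lit 156) (PT.nd (nat_lit 78) (PT.lf (nat_lit 10108) (nat_lit 6) (nat_lit 133) (nat_lit 4) (nat_lit 193) (nat_lit 294) (nat_lit 293)) (PT.lf (nat_lit 10412) (nat_lit 6) (nat_lit 137) (nat_lit 4) (nat_lit 194) (nat_lit 294) (nat_lit 292))) (PT.nd (nat_lit 78) (PT.lf (nat_lit 10792) (nat_lit 6) (nat_lit 142) (nat_lit 4) (nat_lit 195) (nat_lit 294) (nat_lit 291)) (PT.lf (nat_lit 11096) (nat_lit 6) (nat_lit 146) (nat_lit 4) (nat_lit 196) (nat_lit 294) (nat_lit 290))))))) (PT.nd (nat_lit 7488) (PT.nd (nat_lit 6864) (PT.nd (nat_lit 234) (PT.nd (nat_lit 78) (PT.lf (nat_lit 11476) (nat_lit 6) (nat_lit 151) (nat_lit 4) (nat_lit 197) (nat_lit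 294) (nat_lit 289)) (PT.nd (nat_lit 78) (PT.lf (nat_lit 11780) (nat_lit 6) (nat_lit 155) (nat_lit 4) (nat_lit 198) (nat_lit 294) (nat_lit 288)) (PT.lf (nat_lit 12160) (nat_lit 6) (nat_lit 160) (nat_lit 4) (nat_lit 199) (nat_lit 294) (nat_lit 287)))) (PT.nd (nat_lit 156) (PT.nd (nat_lit 78) (PT.lf (nat_lit 12540) (nat_lit 6) (nat_lit 165) (nat_lit 4) (nat_lit 200) (nat_lit 294) (nat_lit 286)) (PT.lf (nat_lit 12920) (nat_lit 6) (nat_lit 170) (nat_lit 4) (nat_lit 201) (nat_lit 294) (nat_lit 285))) (PT.nd (nat_lit 6396) (PT.lf (nat_lit 13300) (nat_lit 6) (nat_lit 175) (nat_lit 4) (nat_lit 202) (nat_lit 294) (nat_lit 284)) (PT.lf (nat_lit 13300) (nat_lit 6) (nat_lit 175) (nat_lit 2) (nat_lit 284) (nat_lit 294) (nat_lit 202))))) (PT.nd (nat_lit 312) (PT.nd (nat_lit 156) (PT.nd (nat_lit 78) (PT.lf (nat_lit 12920) (nat_lit 6) (nat_lit 170) (nat_lit 2) (nat_lit 285) (nat_lit 294) (nat_lit 201)) (PT.lf (nat_lit 12540) (nat_lit 6) (nat_lit 165) (nat_lit 2) (nat_lit 286) (nat_lit 294) (nat_lit 200))) (PT.nd (nat_lit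 78) (PT.lf (nat_lit 12160) (nat_lit 6) (nat_lit 160) (nat_lit 2) (nat_lit 287) (nat_lit 294) (nat_lit 199)) (PT.lf (nat_lit 11780) (nat_lit 6) (nat_lit 155) (nat_lit 2) (nat_lit 288) (nat_lit 294) (nat_lit 198)))) (PT.nd (nat_lit 156) (PT.nd (nat_lit 78) (PT.lf (nat_lit 11476) (nat_lit 6) (nat_lit 151) (nat_lit 2) (nat_lit 289) (nat_lit 294) (nat_lit 197)) (PT.lf (nat_lit 11096) (nat_lit 6) (nat_lit 146) (nat_lit 2) (nat_lit 290) (nat_lit 294) (nat_lit 196))) (PT.nd (nat_lit 78) (PT.lf (nat_lit 10792) (nat_lit 6) (nat_lit 142) (nat_lit 2) (nat_lit 291) (nat_lit 294) (nat_lit 195)) (PT.lf (nat_lit 10412) (nat_lit 6) (nat_lit 137) (nat_lit 2) (nat_lit 292) (nat_lit 294) (nat_lit 194)))))) (PT.nd (nat_lit 73008) (PT.nd (nat_lit 312) (PT.nd (nat_lit 156) (PT.nd (nat_lit 78) (PT.lf (nat_lit 10108) (nat_lit 6) (nat_lit 133) (nat_lit 2) (nat_lit 293) (nat_lit 294) (nat_lit 193)) (PT.lf (nat_lit 9804) (nat_lit 3) (nat_lit 129) (nat_lit 0) (nat_lit 294) (nat_lit 294) (nat_lit 192))) (PT.nd (nat_lit 78) (PT.lf (nat_lit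 9424) (nat_lit 6) (nat_lit 124) (nat_lit 0) (nat_lit 295) (nat_lit 294) (nat_lit 191)) (PT.lf (nat_lit 9044) (nat_lit 6) (nat_lit 119) (nat_lit 0) (nat_lit 296) (nat_lit 294) (nat_lit 190)))) (PT.nd (nat_lit 72540) (PT.nd (nat_lit 78) (PT.lf (nat_lit 8740) (nat_lit 6) (nat_lit 115) (nat_lit 0) (nat_lit 297) (nat_lit 294) (nat_lit 189)) (PT.lf (nat_lit 8360) (nat_lit 6) (nat_lit 110) (nat_lit 0) (nat_lit 298) (nat_lit 294) (nat_lit 188))) (PT.nd (nat_lit 78) (PT.lf (nat_lit 7752) (nat_lit 6) (nat_lit 102) (nat_lit 5) (nat_lit 186) (nat_lit 295) (nat_lit 299)) (PT.lf (nat_lit 8132) (nat_lit 6) (nat_lit 107) (nat_lit 5) (nat_lit 187) (nat_lit 295) (nat_lit 298))))) (PT.nd (nat_lit 312) (PT.nd (nat_lit 156) (PT.nd (nat_lit 78) (PT.lf (nat_lit 8436) (nat_lit 6) (nat_lit 111) (nat_lit 5) (nat_lit 188) (nat_lit 295) (nat_lit 297)) (PT.lf (nat_lit 8816) (nat_lit 6) (nat_lit 116) (nat_lit 5) (nat_lit 189) (nat_lit 295) (nat_lit 296))) (PT.nd (nat_lit 78) (PT.lf (nat_lit 9120) (nat_lit 3) (nat_lit 120) (nat_lit 4)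 (nat_lit 190) (nat_lit 295) (nat_lit 295)) (PT.lf (nat_lit 9424) (nat_lit 6) (nat_lit 124) (nat_lit 4) (nat_lit 191) (nat_lit 295) (nat_lit 294)))) (PT.nd (nat_lit 156) (PT.nd (nat_lit 78) (PT.lf (nat_lit 9728) (nat_lit 6) (nat_lit 128) (nat_lit 4) (nat_lit 192) (nat_lit 295) (nat_lit 293)) (PT.lf (nat_lit 10032) (nat_lit 6) (nat_lit 132) (nat_lit 4) (nat_lit 193) (nat_lit 295) (nat_lit 292))) (PT.nd (nat_lit 78) (PT.lf (nat_lit 10336) (nat_lit 6) (nat_lit 136) (nat_lit 4) (nat_lit 194) (nat_lit 295) (nat_lit 291)) (PT.lf (nat_lit 10716) (nat_lit 6) (nat_lit 141) (nat_lit 4) (nat_lit 195) (nat_lit 295) (nat_lit 290))))))))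
noncomputable def pc62 : PT := (PT.nd (nat_lit 81276) (PT.nd (nat_lit 7878) (PT.nd (nat_lit 7254) (PT.nd (nat_lit 234) (PT.nd (nat_lit 78) (PT.lf (nat_lit 11020) (nat_lit 6) (nat_lit 145) (nat_lit 4) (nat_lit 196) (nat_lit 295) (nat_lit 289)) (PT.nd (nat_lit 78) (PT.lf (nat_lit 11400) (nat_lit 6) (nat_lit 150) (nat_lit 4) (nat_lit 197) (nat_lit 295) (nat_lit 288)) (PT.lf (nat_lit 11704) (nat_lit 6) (nat_lit 154) (nat_lit 4) (nat_lit 198) (nat_lit 295) (nat_lit 287)))) (PT.nd (nat_lit 6864) (PT.nd (nat_lit 6786) (PT.lf (nat_lit 12084) (nat_lit 6) (nat_lit 159) (nat_lit 4) (nat_lit 199) (nat_lit 295) (nat_lit 286)) (PT.lf (nat_lit 12084) (nat_lit 6) (nat_lit 159) (nat_lit 2) (nat_lit 286) (nat_lit 295) (nat_lit 199))) (PT.nd (nat_lit 78) (PT.lf (nat_lit 11704) (nat_lit 6) (nat_lit 154) (nat_lit 2) (nat_lit 287) (nat_lit 295) (nat_lit 198)) (PT.lf (nat_lit 11400) (nat_lit 6) (nat_lit 150) (nat_lit 2) (nat_lit 288) (nat_lit 295) (nat_lit 197))))) (PT.nd (nat_lit 312) (PT.nd (nat_lit 156) (PT.nd (nat_lit 78)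 (PT.lf (nat_lit 11020) (nat_lit 6) (nat_lit 145) (nat_lit 2) (nat_lit 289) (nat_lit 295) (nat_lit 196)) (PT.lf (nat_lit 10716) (nat_lit 6) (nat_lit 141) (nat_lit 2) (nat_lit 290) (nat_lit 295) (nat_lit 195))) (PT.nd (nat_lit 78) (PT.lf (nat_lit 10336) (nat_lit 6) (nat_lit 136) (nat_lit 2) (nat_lit 291) (nat_lit 295) (nat_lit 194)) (PT.lf (nat_lit 10032) (nat_lit 6) (nat_lit 132) (nat_lit 2) (nat_lit 292) (nat_lit 295) (nat_lit 193)))) (PT.nd (nat_lit 156) (PT.nd (nat_lit 78) (PT.lf (nat_lit 9728) (nat_lit 6) (nat_lit 128) (nat_lit 2) (nat_lit 293) (nat_lit 295) (nat_lit 192)) (PT.lf (nat_lit 9424) (nat_lit 6) (nat_lit 124) (nat_lit 2) (nat_lit 294) (nat_lit 295) (nat_lit 191))) (PT.nd (nat_lit 78) (PT.lf (nat_lit 9120) (nat_lit 3) (nat_lit 120) (nat_lit 0) (nat_lit 295) (nat_lit 295) (nat_lit 190)) (PT.lf (nat_lit 8816) (nat_lit 6) (nat_lit 116) (nat_lit 0) (nat_lit 296) (nat_lit 295) (nat_lit 189)))))) (PT.nd (nat_lit 72774) (PT.nd (nat_lit 72462) (PT.nd (nat_lit 156) (PT.nd (nat_lit 78) (PT.lf (nat_lit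 8436) (nat_lit 6) (nat_lit 111) (nat_lit 0) (nat_lit 297) (nat_lit 295) (nat_lit 188)) (PT.lf (nat_lit 8132) (nat_lit 6) (nat_lit 107) (nat_lit 0) (nat_lit 298) (nat_lit 295) (nat_lit 187))) (PT.nd (nat_lit 72228) (PT.lf (nat_lit 7752) (nat_lit 6) (nat_lit 102) (nat_lit 0) (nat_lit 299) (nat_lit 295) (nat_lit 186)) (PT.lf (nat_lit 7144) (nat_lit 6) (nat_lit 94) (nat_lit 5) (nat_lit 184) (nat_lit 296) (nat_lit 300)))) (PT.nd (nat_lit 156) (PT.nd (nat_lit 78) (PT.lf (nat_lit 7524) (nat_lit 6) (nat_lit 99) (nat_lit 5) (nat_lit 185) (nat_lit 296) (nat_lit 299)) (PT.lf (nat_lit 7828) (nat_lit 6) (nat_lit 103) (nat_lit 5) (nat_lit 186) (nat_lit 296) (nat_lit 298))) (PT.nd (nat_lit 78) (PT.lf (nat_lit 8208) (nat_lit 6) (nat_lit 108) (nat_lit 5) (nat_lit 187) (nat_lit 296) (nat_lit 297)) (PT.lf (nat_lit 8512) (nat_lit 3) (nat_lit 112) (nat_lit 4) (nat_lit 188) (nat_lit 296) (nat_lit 296))))) (PT.nd (nat_lit 312) (PT.nd (nat_lit 156) (PT.nd (nat_lit 78) (PT.lf (nat_lit 8816) (nat_lit 6) (nat_lit 116) (nat_lit 4)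 (nat_lit 189) (nat_lit 296) (nat_lit 295)) (PT.lf (nat_lit 9044) (nat_lit 6) (nat_lit 119) (nat_lit 4) (nat_lit 190) (nat_lit 296) (nat_lit 294))) (PT.nd (nat_lit 78) (PT.lf (nat_lit 9348) (nat_lit 6) (nat_lit 123) (nat_lit 4) (nat_lit 191) (nat_lit 296) (nat_lit 293)) (PT.lf (nat_lit 9652) (nat_lit 6) (nat_lit 127) (nat_lit 4) (nat_lit 192) (nat_lit 296) (nat_lit 292)))) (PT.nd (nat_lit 156) (PT.nd (nat_lit 78) (PT.lf (nat_lit 9956) (nat_lit 6) (nat_lit 131) (nat_lit 4) (nat_lit 193) (nat_lit 296) (nat_lit 291)) (PT.lf (nat_lit 10260) (nat_lit 6) (nat_lit 135) (nat_lit 4) (nat_lit 194) (nat_lit 296) (nat_lit 290))) (PT.nd (nat_lit 78) (PT.lf (nat_lit 10640) (nat_lit 6) (nat_lit 140) (nat_lit 4) (nat_lit 195) (nat_lit 296) (nat_lit 289)) (PT.lf (nat_lit 10944) (nat_lit 6) (nat_lit 144) (nat_lit 4) (nat_lit 196) (nat_lit 296) (nat_lit 288))))))) (PT.nd (nat_lit 80106) (PT.nd (nat_lit 7488) (PT.nd (nat_lit 7176) (PT.nd (nat_lit 7020) (PT.lf (nat_lit 11324) (nat_lit 6) (nat_lit 149) (nat_lit 4) (nat_lit 197)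 (nat_lit 296) (nat_lit 287)) (PT.nd (nat_lit 78) (PT.lf (nat_lit 11324) (nat_lit 6) (nat_lit 149) (nat_lit 2) (nat_lit 287) (nat_lit 296) (nat_lit 197)) (PT.lf (nat_lit 10944) (nat_lit 6) (nat_lit 144) (nat_lit 2) (nat_lit 288) (nat_lit 296) (nat_lit 196)))) (PT.nd (nat_lit 156) (PT.nd (nat_lit 78) (PT.lf (nat_lit 10640) (nat_lit 6) (nat_lit 140) (nat_lit 2) (nat_lit 289) (nat_lit 296) (nat_lit 195)) (PT.lf (nat_lit 10260) (nat_lit 6) (nat_lit 135) (nat_lit 2) (nat_lit 290) (nat_lit 296) (nat_lit 194))) (PT.nd (nat_lit 78) (PT.lf (nat_lit 9956) (nat_lit 6) (nat_lit 131) (nat_lit 2) (nat_lit 291) (nat_lit 296) (nat_lit 193)) (PT.lf (nat_lit 9652) (nat_lit 6) (nat_lit 127) (nat_lit 2) (nat_lit 292) (nat_lit 296) (nat_lit 192))))) (PT.nd (nat_lit 312) (PT.nd (nat_lit 156) (PT.nd (nat_lit 78) (PT.lf (nat_lit 9348) (nat_lit 6) (nat_lit 123) (nat_lit 2) (nat_lit 293) (nat_lit 296) (nat_lit 191)) (PT.lf (nat_lit 9044) (nat_lit 6) (nat_lit 119) (nat_lit 2) (nat_lit 294) (nat_lit 296) (nat_lit 190))) (PT.nd (nat_lit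 78) (PT.lf (nat_lit 8816) (nat_lit 6) (nat_lit 116) (nat_lit 2) (nat_lit 295) (nat_lit 296) (nat_lit 189)) (PT.lf (nat_lit 8512) (nat_lit 3) (nat_lit 112) (nat_lit 0) (nat_lit 296) (nat_lit 296) (nat_lit 188)))) (PT.nd (nat_lit 156) (PT.nd (nat_lit 78) (PT.lf (nat_lit 8208) (nat_lit 6) (nat_lit 108) (nat_lit 0) (nat_lit 297) (nat_lit 296) (nat_lit 187)) (PT.lf (nat_lit 7828) (nat_lit 6) (nat_lit 103) (nat_lit 0) (nat_lit 298) (nat_lit 296) (nat_lit 186))) (PT.nd (nat_lit 78) (PT.lf (nat_lit 7524) (nat_lit 6) (nat_lit 99) (nat_lit 0) (nat_lit 299) (nat_lit 296) (nat_lit 185)) (PT.lf (nat_lit 7144) (nat_lit 6) (nat_lit 94) (nat_lit 0) (nat_lit 300) (nat_lit 296) (nat_lit 184)))))) (PT.nd (nat_lit 624) (PT.nd (nat_lit 312) (PT.nd (nat_lit 156) (PT.nd (nat_lit 78) (PT.lf (nat_lit 6916) (nat_lit 6) (nat_lit 91) (nat_lit 5) (nat_lit 183) (nat_lit 297) (nat_lit 300)) (PT.lf (nat_lit 7220) (nat_lit 6) (nat_lit 95) (nat_lit 5) (nat_lit 184) (nat_lit 297) (nat_lit 299))) (PT.nd (nat_lit 78) (PT.lf (nat_lit 7600)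 (nat_lit 6) (nat_lit 100) (nat_lit 5) (nat_lit 185) (nat_lit 297) (nat_lit 298)) (PT.lf (nat_lit 7904) (nat_lit 3) (nat_lit 104) (nat_lit 4) (nat_lit 186) (nat_lit 297) (nat_lit 297)))) (PT.nd (nat_lit 156) (PT.nd (nat_lit 78) (PT.lf (nat_lit 8208) (nat_lit 6) (nat_lit 108) (nat_lit 4) (nat_lit 187) (nat_lit 297) (nat_lit 296)) (PT.lf (nat_lit 8436) (nat_lit 6) (nat_lit 111) (nat_lit 4) (nat_lit 188) (nat_lit 297) (nat_lit 295))) (PT.nd (nat_lit 78) (PT.lf (nat_lit 8740) (nat_lit 6) (nat_lit 115) (nat_lit 4) (nat_lit 189) (nat_lit 297) (nat_lit 294)) (PT.lf (nat_lit 8968) (nat_lit 6) (nat_lit 118) (nat_lit 4) (nat_lit 190) (nat_lit 297) (nat_lit 293))))) (PT.nd (nat_lit 7956) (PT.nd (nat_lit 7800) (PT.nd (nat_lit 78) (PT.lf (nat_lit 9272) (nat_lit 6) (nat_lit 122) (nat_lit 4) (nat_lit 191) (nat_lit 297) (nat_lit 292)) (PT.lf (nat_lit 9576) (nat_lit 6) (nat_lit 126) (nat_lit 4) (nat_lit 192) (nat_lit 297) (nat_lit 291))) (PT.nd (nat_lit 78) (PT.lf (nat_lit 9576) (nat_lit 6) (nat_lit 126) (nat_lit 2) (nat_lit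 291) (nat_lit 297) (nat_lit 192)) (PT.lf (nat_lit 9272) (nat_lit 6) (nat_lit 122) (nat_lit 2) (nat_lit 292) (nat_lit 297) (nat_lit 191)))) (PT.nd (nat_lit 156) (PT.nd (nat_lit 78) (PT.lf (nat_lit 8968) (nat_lit 6) (nat_lit 118) (nat_lit 2) (nat_lit 293) (nat_lit 297) (nat_lit 190)) (PT.lf (nat_lit 8740) (nat_lit 6) (nat_lit 115) (nat_lit 2) (nat_lit 294) (nat_lit 297) (nat_lit 189))) (PT.nd (nat_lit 78) (PT.lf (nat_lit 8436) (nat_lit 6) (nat_lit 111) (nat_lit 2) (nat_lit 295) (nat_lit 297) (nat_lit 188)) (PT.lf (nat_lit 8208) (nat_lit 6) (nat_lit 108) (nat_lit 2) (nat_lit 296) (nat_lit 297) (nat_lit 187))))))))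
noncomputable def pc63 : PT := (PT.nd (nat_lit 162396) (PT.nd (nat_lit 81042) (PT.nd (nat_lit 72384) (PT.nd (nat_lit 234) (PT.nd (nat_lit 78) (PT.lf (nat_lit 7904) (nat_lit 3) (nat_lit 104) (nat_lit 0) (nat_lit 297) (nat_lit 297) (nat_lit 186)) (PT.nd (nat_lit 78) (PT.lf (nat_lit 7600) (nat_lit 6) (nat_lit 100) (nat_lit 0) (nat_lit 298) (nat_lit 297) (nat_lit 185)) (PT.lf (nat_lit 7220) (nat_lit 6) (nat_lit 95) (nat_lit 0) (nat_lit 299) (nat_lit 297) (nat_lit 184)))) (PT.nd (nat_lit 71994) (PT.nd (nat_lit 71916) (PT.lf (nat_lit 6916) (nat_lit 6) (nat_lit 91) (nat_lit 0) (nat_lit 300) (nat_lit 297) (nat_lit 183)) (PT.lf (nat_lit 6384) (nat_lit 6) (nat_lit 84) (nat_lit 5) (nat_lit 181) (nat_lit 298) (nat_lit 301))) (PT.nd (nat_lit 78) (PT.lf (nat_lit 6688) (nat_lit 6) (nat_lit 88) (nat_lit 5) (nat_lit 182) (nat_lit 298) (nat_lit 300)) (PT.lf (nat_lit 6992) (nat_lit 6) (nat_lit 92) (nat_lit 5) (nat_lit 183) (nat_lit 298) (nat_lit 299))))) (PT.nd (nat_lit 312) (PT.nd (nat_lit 156) (PT.nd (nat_lit 78) (PT.lf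 (nat_lit 7296) (nat_lit 3) (nat_lit 96) (nat_lit 4) (nat_lit 184) (nat_lit 298) (nat_lit 298)) (PT.lf (nat_lit 7600) (nat_lit 6) (nat_lit 100) (nat_lit 4) (nat_lit 185) (nat_lit 298) (nat_lit 297))) (PT.nd (nat_lit 78) (PT.lf (nat_lit 7828) (nat_lit 6) (nat_lit 103) (nat_lit 4) (nat_lit 186) (nat_lit 298) (nat_lit 296)) (PT.lf (nat_lit 8132) (nat_lit 6) (nat_lit 107) (nat_lit 4) (nat_lit 187) (nat_lit 298) (nat_lit 295)))) (PT.nd (nat_lit 8190) (PT.nd (nat_lit 78) (PT.lf (nat_lit 8360) (nat_lit 6) (nat_lit 110) (nat_lit 4) (nat_lit 188) (nat_lit 298) (nat_lit 294)) (PT.lf (nat_lit 8664) (nat_lit 6) (nat_lit 114) (nat_lit 4) (nat_lit 189) (nat_lit 298) (nat_lit 293))) (PT.nd (nat_lit 78) (PT.lf (nat_lit 8664) (nat_lit 6) (nat_lit 114) (nat_lit 2) (nat_lit 293) (nat_lit 298) (nat_lit 189)) (PT.lf (nat_lit 8360) (nat_lit 6) (nat_lit 110) (nat_lit 2) (nat_lit 294) (nat_lit 298) (nat_lit 188)))))) (PT.nd (nat_lit 72306) (PT.nd (nat_lit 312) (PT.nd (nat_lit 156) (PT.nd (nat_lit 78) (PT.lf (nat_lit 8132) (nat_lit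 6) (nat_lit 107) (nat_lit 2) (nat_lit 295) (nat_lit 298) (nat_lit 187)) (PT.lf (nat_lit 7828) (nat_lit 6) (nat_lit 103) (nat_lit 2) (nat_lit 296) (nat_lit 298) (nat_lit 186))) (PT.nd (nat_lit 78) (PT.lf (nat_lit 7600) (nat_lit 6) (nat_lit 100) (nat_lit 2) (nat_lit 297) (nat_lit 298) (nat_lit 185)) (PT.lf (nat_lit 7296) (nat_lit 3) (nat_lit 96) (nat_lit 0) (nat_lit 298) (nat_lit 298) (nat_lit 184)))) (PT.nd (nat_lit 156) (PT.nd (nat_lit 78) (PT.lf (nat_lit 6992) (nat_lit 6) (nat_lit 92) (nat_lit 0) (nat_lit 299) (nat_lit 298) (nat_lit 183)) (PT.lf (nat_lit 6688) (nat_lit 6) (nat_lit 88) (nat_lit 0) (nat_lit 300) (nat_lit 298) (nat_lit 182))) (PT.nd (nat_lit 71760) (PT.lf (nat_lit 6384) (nat_lit 6) (nat_lit 84) (nat_lit 0) (nat_lit 301) (nat_lit 298) (nat_lit 181)) (PT.lf (nat_lit 6156) (nat_lit 6) (nat_lit 81) (nat_lit 5) (nat_lit 180) (nat_lit 299) (nat_lit 301))))) (PT.nd (nat_lit 312) (PT.nd (nat_lit 156) (PT.nd (nat_lit 78) (PT.lf (nat_lit 6460) (nat_lit 6) (nat_lit 85) (nat_lit 5) (nat_lit 181) (nat_lit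 299) (nat_lit 300)) (PT.lf (nat_lit 6764) (nat_lit 3) (nat_lit 89) (nat_lit 4) (nat_lit 182) (nat_lit 299) (nat_lit 299))) (PT.nd (nat_lit 78) (PT.lf (nat_lit 6992) (nat_lit 6) (nat_lit 92) (nat_lit 4) (nat_lit 183) (nat_lit 299) (nat_lit 298)) (PT.lf (nat_lit 7220) (nat_lit 6) (nat_lit 95) (nat_lit 4) (nat_lit 184) (nat_lit 299) (nat_lit 297)))) (PT.nd (nat_lit 8580) (PT.nd (nat_lit 78) (PT.lf (nat_lit 7524) (nat_lit 6) (nat_lit 99) (nat_lit 4) (nat_lit 185) (nat_lit 299) (nat_lit 296)) (PT.lf (nat_lit 7752) (nat_lit 6) (nat_lit 102) (nat_lit 4) (nat_lit 186) (nat_lit 299) (nat_lit 295))) (PT.nd (nat_lit 78) (PT.lf (nat_lit 7752) (nat_lit 6) (nat_lit 102) (nat_lit 2) (nat_lit 295) (nat_lit 299) (nat_lit 186)) (PT.lf (nat_lit 7524) (nat_lit 6) (nat_lit 99) (nat_lit 2) (nat_lit 296) (nat_lit 299) (nat_lit 185))))))) (PT.nd (nat_lit 81432) (PT.nd (nat_lit 72150) (PT.nd (nat_lit 234) (PT.nd (nat_lit 78) (PT.lf (nat_lit 7220) (nat_lit 6) (nat_lit 95) (nat_lit 2) (nat_lit 297) (nat_lit 299) (nat_lit 184)) (PT.nd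 (nat_lit 78) (PT.lf (nat_lit 6992) (nat_lit 6) (nat_lit 92) (nat_lit 2) (nat_lit 298) (nat_lit 299) (nat_lit 183)) (PT.lf (nat_lit 6764) (nat_lit 3) (nat_lit 89) (nat_lit 0) (nat_lit 299) (nat_lit 299) (nat_lit 182)))) (PT.nd (nat_lit 71760) (PT.nd (nat_lit 78) (PT.lf (nat_lit 6460) (nat_lit 6) (nat_lit 85) (nat_lit 0) (nat_lit 300) (nat_lit 299) (nat_lit 181)) (PT.lf (nat_lit 6156) (nat_lit 6) (nat_lit 81) (nat_lit 0) (nat_lit 301) (nat_lit 299) (nat_lit 180))) (PT.nd (nat_lit 78) (PT.lf (nat_lit 5928) (nat_lit 6) (nat_lit 78) (nat_lit 5) (nat_lit 179) (nat_lit 300) (nat_lit 301)) (PT.lf (nat_lit 6232) (nat_lit 3) (nat_lit 82) (nat_lit 4) (nat_lit 180) (nat_lit 300) (nat_lit 300))))) (PT.nd (nat_lit 8970) (PT.nd (nat_lit 156) (PT.nd (nat_lit 78) (PT.lf (nat_lit 6460) (nat_lit 6) (nat_lit 85) (nat_lit 4) (nat_lit 181) (nat_lit 300) (nat_lit 299)) (PT.lf (nat_lit 6688) (nat_lit 6) (nat_lit 88) (nat_lit 4) (nat_lit 182) (nat_lit 300) (nat_lit 298))) (PT.nd (nat_lit 78) (PT.lf (nat_lit 6916) (nat_lit 6) (nat_lit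 91) (nat_lit 4) (nat_lit 183) (nat_lit 300) (nat_lit 297)) (PT.lf (nat_lit 7144) (nat_lit 6) (nat_lit 94) (nat_lit 4) (nat_lit 184) (nat_lit 300) (nat_lit 296)))) (PT.nd (nat_lit 156) (PT.nd (nat_lit 78) (PT.lf (nat_lit 7144) (nat_lit 6) (nat_lit 94) (nat_lit 2) (nat_lit 296) (nat_lit 300) (nat_lit 184)) (PT.lf (nat_lit 6916) (nat_lit 6) (nat_lit 91) (nat_lit 2) (nat_lit 297) (nat_lit 300) (nat_lit 183))) (PT.nd (nat_lit 78) (PT.lf (nat_lit 6688) (nat_lit 6) (nat_lit 88) (nat_lit 2) (nat_lit 298) (nat_lit 300) (nat_lit 182)) (PT.lf (nat_lit 6460) (nat_lit 6) (nat_lit 85) (nat_lit 2) (nat_lit 299) (nat_lit 300) (nat_lit 181)))))) (PT.nd (nat_lit 81198) (PT.nd (nat_lit 71838) (PT.nd (nat_lit 71682) (PT.nd (nat_lit 78) (PT.lf (nat_lit 6232) (nat_lit 3) (nat_lit 82) (nat_lit 0) (nat_lit 300) (nat_lit 300) (nat_lit 180)) (PT.lf (nat_lit 5928) (nat_lit 6) (nat_lit 78) (nat_lit 0) (nat_lit 301) (nat_lit 300) (nat_lit 179))) (PT.nd (nat_lit 78) (PT.lf (nat_lit 5700) (nat_lit 3) (nat_lit 75) (nat_lit 4) (nat_lit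 178) (nat_lit 301) (nat_lit 301)) (PT.lf (nat_lit 5928) (nat_lit 6) (nat_lit 78) (nat_lit 4) (nat_lit 179) (nat_lit 301) (nat_lit 300)))) (PT.nd (nat_lit 9204) (PT.nd (nat_lit 78) (PT.lf (nat_lit 6156) (nat_lit 6) (nat_lit 81) (nat_lit 4) (nat_lit 180) (nat_lit 301) (nat_lit 299)) (PT.lf (nat_lit 6384) (nat_lit 6) (nat_lit 84) (nat_lit 4) (nat_lit 181) (nat_lit 301) (nat_lit 298))) (PT.nd (nat_lit 78) (PT.lf (nat_lit 6384) (nat_lit 6) (nat_lit 84) (nat_lit 2) (nat_lit 298) (nat_lit 301) (nat_lit 181)) (PT.lf (nat_lit 6156) (nat_lit 6) (nat_lit 81) (nat_lit 2) (nat_lit 299) (nat_lit 301) (nat_lit 180))))) (PT.nd (nat_lit 4204668) (PT.nd (nat_lit 4123548) (PT.nd (nat_lit 78) (PT.lf (nat_lit 5928) (nat_lit 6) (nat_lit 78) (nat_lit 2) (nat_lit 300) (nat_lit 301) (nat_lit 179)) (PT.lf (nat_lit 5700) (nat_lit 3) (nat_lit 75) (nat_lit 0) (nat_lit 301) (nat_lit 301) (nat_lit 178))) (PT.nd (nat_lit 21684) (PT.lf (nat_lit 152) (nat_lit 6) (nat_lit 2) (nat_lit 5) (nat_lit 75) (nat_lit 352) (nat_lit 353)) (PT.lf (nat_lit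 152) (nat_lit 6) (nat_lit 2) (nat_lit 0) (nat_lit 353) (nat_lit 352) (nat_lit 75)))) (PT.nd (nat_lit 21684) (PT.nd (nat_lit 78) (PT.lf (nat_lit 76) (nat_lit 3) (nat_lit 1) (nat_lit 4) (nat_lit 74) (nat_lit 353) (nat_lit 353)) (PT.lf (nat_lit 152) (nat_lit 6) (nat_lit 2) (nat_lit 4) (nat_lit 75) (nat_lit 353) (nat_lit 352))) (PT.nd (nat_lit 78) (PT.lf (nat_lit 152) (nat_lit 6) (nat_lit 2) (nat_lit 2) (nat_lit 352) (nat_lit 353) (nat_lit 75)) (PT.lf (nat_lit 76) (nat_lit 3) (nat_lit 1) (nat_lit 0) (nat_lit 353) (nat_lit 353) (nat_lit 74))))))))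
noncomputable def xc0 : XT := (XT.nd (nat_lit 243516) (nat_lit 0) (nat_lit 0) (XT.nd (nat_lit 162240) (nat_lit 0) (nat_lit 0) (XT.nd (nat_lit 81198) (nat_lit 0) (nat_lit 0) (XT.nd (nat_lit 156) (nat_lit 304) (nat_lit 0) (XT.nd (nat_lit 78) (nat_lit 228) (nat_lit 0) (XT.lf (nat_lit 0) (nat_lit 2591029180) (nat_lit 304) (nat_lit 634373013) (nat_lit 0) (nat_lit 2591029180) (nat_lit 85) (nat_lit 5) (nat_lit 89) (nat_lit 4) (nat_lit 85) (nat_lit 4) (nat_lit 622) (nat_lit 469) (nat_lit 469)) (XT.lf (nat_lit 0) (nat_lit 9451559303) (nat_lit 228) (nat_lit 1409866944) (nat_lit 228) (nat_lit 881674872) (nat_lit 82) (nat_lit 4) (nat_lit 85) (nat_lit 5) (nat_lit 85) (nat_lit 4) (nat_lit 623) (nat_lit 469) (nat_lit 468))) (XT.nd (nat_lit 80886) (nat_lit 0) (nat_lit 760) (XT.lf (nat_lit 0) (nat_lit 4743728539) (nat_lit 304) (nat_lit 3392826202) (nat_lit 0) (nat_lit 3718211443) (nat_lit 78) (nat_lit 5) (nat_lit 82) (nat_lit 4) (nat_lit 78) (nat_lit 4) (nat_lit 624) (nat_lit 469) (nat_lit 467)) (XT.nd (nat_lit 78) (nat_lit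 76) (nat_lit 0) (XT.lf (nat_lit 0) (nat_lit 361309143) (nat_lit 228) (nat_lit 2673736513) (nat_lit 228) (nat_lit 2673736513) (nat_lit 89) (nat_lit 4) (nat_lit 92) (nat_lit 5) (nat_lit 92) (nat_lit 4) (nat_lit 620) (nat_lit 470) (nat_lit 470)) (XT.lf (nat_lit 0) (nat_lit 138540052) (nat_lit 304) (nat_lit 269680126) (nat_lit 76) (nat_lit 11116852750) (nat_lit 88) (nat_lit 5) (nat_lit 92) (nat_lit 5) (nat_lit 89) (nat_lit 4) (nat_lit 621) (nat_lit 470) (nat_lit 469))))) (XT.nd (nat_lit 156) (nat_lit 304) (nat_lit 0) (XT.nd (nat_lit 78) (nat_lit 228) (nat_lit 0) (XT.lf (nat_lit 0) (nat_lit 5680991137) (nat_lit 304) (nat_lit 1338625773) (nat_lit 0) (nat_lit 4614043151) (nat_lit 85) (nat_lit 5) (nat_lit 89) (nat_lit 4) (nat_lit 85) (nat_lit 4) (nat_lit 622) (nat_lit 470) (nat_lit 468)) (XT.lf (nat_lit 0) (nat_lit 9311330881) (nat_lit 228) (nat_lit 2009075395) (nat_lit 228) (nat_lit 424292043) (nat_lit 82) (nat_lit 4) (nat_lit 85) (nat_lit 5) (nat_lit 85) (nat_lit 4) (nat_lit 623) (nat_lit 470) (nat_lit 467)))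 (XT.nd (nat_lit 80730) (nat_lit 0) (nat_lit 1064) (XT.lf (nat_lit 0) (nat_lit 5150660797) (nat_lit 304) (nat_lit 3607308594) (nat_lit 0) (nat_lit 3099224442) (nat_lit 78) (nat_lit 5) (nat_lit 82) (nat_lit 4) (nat_lit 78) (nat_lit 4) (nat_lit 624) (nat_lit 470) (nat_lit 466)) (XT.nd (nat_lit 78) (nat_lit 304) (nat_lit 0) (XT.lf (nat_lit 0) (nat_lit 1333950010) (nat_lit 304) (nat_lit 2134990176) (nat_lit 304) (nat_lit 2134990176) (nat_lit 96) (nat_lit 4) (nat_lit 100) (nat_lit 5) (nat_lit 100) (nat_lit 4) (nat_lit 618) (nat_lit 471) (nat_lit 471)) (XT.lf (nat_lit 0) (nat_lit 1129571324) (nat_lit 304) (nat_lit 9613834127) (nat_lit 0) (nat_lit 569049671) (nat_lit 92) (nat_lit 5) (nat_lit 96) (nat_lit 4) (nat_lit 92) (nat_lit 4) (nat_lit 619) (nat_lit 471) (nat_lit 470)))))) (XT.nd (nat_lit 80886) (nat_lit 0) (nat_lit 836) (XT.nd (nat_lit 156) (nat_lit 760) (nat_lit 0) (XT.nd (nat_lit 78) (nat_lit 76) (nat_lit 0) (XT.lf (nat_lit 0) (nat_lit 653412681) (nat_lit 228) (nat_lit 5937499620) (nat_lit 228) (nat_lit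 4827446935) (nat_lit 89) (nat_lit 4) (nat_lit 92) (nat_lit 5) (nat_lit 92) (nat_lit 4) (nat_lit 620) (nat_lit 471) (nat_lit 469)) (XT.lf (nat_lit 0) (nat_lit 612565070) (nat_lit 304) (nat_lit 411427156) (nat_lit 76) (nat_lit 10502592539) (nat_lit 88) (nat_lit 5) (nat_lit 92) (nat_lit 5) (nat_lit 89) (nat_lit 4) (nat_lit 621) (nat_lit 471) (nat_lit 468))) (XT.nd (nat_lit 78) (nat_lit 532) (nat_lit 0) (XT.lf (nat_lit 0) (nat_lit 6111037141) (nat_lit 304) (nat_lit 1548292414) (nat_lit 0) (nat_lit 3976722757) (nat_lit 85) (nat_lit 5) (nat_lit 89) (nat_lit 4) (nat_lit 85) (nat_lit 4) (nat_lit 622) (nat_lit 471) (nat_lit 467)) (XT.nd (nat_lit 78) (nat_lit 304) (nat_lit 0) (XT.lf (nat_lit 0) (nat_lit 9030819047) (nat_lit 228) (nat_lit 2679535208) (nat_lit 228) (nat_lit 37539094) (nat_lit 82) (nat_lit 4) (nat_lit 85) (nat_lit 5) (nat_lit 85) (nat_lit 4) (nat_lit 623) (nat_lit 471) (nat_lit 466)) (XT.lf (nat_lit 0) (nat_lit 5487264184) (nat_lit 304) (nat_lit 3964872702) (nat_lit 0) (nat_lit 2409104085) (nat_lit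 78) (nat_lit 5) (nat_lit 82) (nat_lit 4) (nat_lit 78) (nat_lit 4) (nat_lit 624) (nat_lit 471) (nat_lit 465))))) (XT.nd (nat_lit 156) (nat_lit 836) (nat_lit 0) (XT.nd (nat_lit 78) (nat_lit 304) (nat_lit 0) (XT.lf (nat_lit 0) (nat_lit 2279208026) (nat_lit 304) (nat_lit 1611343433) (nat_lit 304) (nat_lit 1611343433) (nat_lit 104) (nat_lit 4) (nat_lit 108) (nat_lit 5) (nat_lit 108) (nat_lit 4) (nat_lit 616) (nat_lit 472) (nat_lit 472)) (XT.lf (nat_lit 0) (nat_lit 2096182549) (nat_lit 304) (nat_lit 7496250538) (nat_lit 0) (nat_lit 1513015822) (nat_lit 100) (nat_lit 5) (nat_lit 104) (nat_lit 4) (nat_lit 100) (nat_lit 4) (nat_lit 617) (nat_lit 472) (nat_lit 471))) (XT.nd (nat_lit 78) (nat_lit 532) (nat_lit 0) (XT.lf (nat_lit 0) (nat_lit 2600274458) (nat_lit 304) (nat_lit 4881634383) (nat_lit 304) (nat_lit 3726735569) (nat_lit 96) (nat_lit 4) (nat_lit 100) (nat_lit 5) (nat_lit 100) (nat_lit 4) (nat_lit 618) (nat_lit 472) (nat_lit 470)) (XT.nd (nat_lit 78) (nat_lit 228) (nat_lit 0) (XT.lf (nat_lit 0) (nat_lit 1561845575)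 (nat_lit 228) (nat_lit 60563356) (nat_lit 304) (nat_lit 9691625868) (nat_lit 92) (nat_lit 5) (nat_lit 95) (nat_lit 5) (nat_lit 96) (nat_lit 4) (nat_lit 619) (nat_lit 472) (nat_lit 469)) (XT.lf (nat_lit 0) (nat_lit 445768730) (nat_lit 228) (nat_lit 6597758099) (nat_lit 228) (nat_lit 4377217414) (nat_lit 89) (nat_lit 4) (nat_lit 92) (nat_lit 5) (nat_lit 92) (nat_lit 4) (nat_lit 620) (nat_lit 472) (nat_lit 468))))))) (XT.nd (nat_lit 81120) (nat_lit 0) (nat_lit 0) (XT.nd (nat_lit 80730) (nat_lit 0) (nat_lit 1064) (XT.nd (nat_lit 156) (nat_lit 532) (nat_lit 0) (XT.nd (nat_lit 78) (nat_lit 228) (nat_lit 0) (XT.lf (nat_lit 0) (nat_lit 1018477164) (nat_lit 304) (nat_lit 691408885) (nat_lit 76) (nat_lit 9819794343) (nat_lit 88) (nat_lit 5) (nat_lit 92) (nat_lit 5) (nat_lit 89) (nat_lit 4) (nat_lit 621) (nat_lit 472) (nat_lit 467)) (XT.lf (nat_lit 0) (nat_lit 6472365018) (nat_lit 304) (nat_lit 1897828173) (nat_lit 0) (nat_lit 3269847250) (nat_lit 85) (nat_lit 5) (nat_lit 89) (nat_lit 4) (nat_lit 85) (nat_lit 4) (nat_lit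 622) (nat_lit 472) (nat_lit 466))) (XT.nd (nat_lit 78) (nat_lit 228) (nat_lit 0) (XT.lf (nat_lit 0) (nat_lit 275079976) (nat_lit 304) (nat_lit 3144583401) (nat_lit 76) (nat_lit 8332987887) (nat_lit 81) (nat_lit 5) (nat_lit 85) (nat_lit 5) (nat_lit 82) (nat_lit 4) (nat_lit 623) (nat_lit 472) (nat_lit 465)) (XT.nd (nat_lit 80418) (nat_lit 0) (nat_lit 2584) (XT.lf (nat_lit 0) (nat_lit 5753670701) (nat_lit 304) (nat_lit 4465658748) (nat_lit 0) (nat_lit 1647579736) (nat_lit 78) (nat_lit 5) (nat_lit 82) (nat_lit 4) (nat_lit 78) (nat_lit 4) (nat_lit 624) (nat_lit 472) (nat_lit 464)) (XT.lf (nat_lit 0) (nat_lit 3200931547) (nat_lit 304) (nat_lit 1100841800) (nat_lit 304) (nat_lit 1100841800) (nat_lit 112) (nat_lit 4) (nat_lit 116) (nat_lit 5) (nat_lit 116) (nat_lit 4) (nat_lit 614) (nat_lit 473) (nat_lit 473))))) (XT.nd (nat_lit 156) (nat_lit 912) (nat_lit 0) (XT.nd (nat_lit 78) (nat_lit 304) (nat_lit 0) (XT.lf (nat_lit 0) (nat_lit 3037907791) (nat_lit 304) (nat_lit 5434928485) (nat_lit 0) (nat_lit 2431181128)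 (nat_lit 108) (nat_lit 5) (nat_lit 112) (nat_lit 4) (nat_lit 108) (nat_lit 4) (nat_lit 615) (nat_lit 473) (nat_lit 472)) (XT.lf (nat_lit 0) (nat_lit 4492348561) (nat_lit 304) (nat_lit 3856885410) (nat_lit 304) (nat_lit 2655328684) (nat_lit 104) (nat_lit 4) (nat_lit 108) (nat_lit 5) (nat_lit 108) (nat_lit 4) (nat_lit 616) (nat_lit 473) (nat_lit 471))) (XT.nd (nat_lit 78) (nat_lit 608) (nat_lit 0) (XT.lf (nat_lit 0) (nat_lit 2612840249) (nat_lit 304) (nat_lit 7631062594) (nat_lit 0) (nat_lit 863111373) (nat_lit 100) (nat_lit 5) (nat_lit 104) (nat_lit 4) (nat_lit 100) (nat_lit 4) (nat_lit 617) (nat_lit 473) (nat_lit 470)) (XT.nd (nat_lit 78) (nat_lit 304) (nat_lit 0) (XT.lf (nat_lit 0) (nat_lit 2397371249) (nat_lit 304) (nat_lit 5561937527) (nat_lit 304) (nat_lit 3251686998) (nat_lit 96) (nat_lit 4) (nat_lit 100) (nat_lit 5) (nat_lit 100) (nat_lit 4) (nat_lit 618) (nat_lit 473) (nat_lit 469)) (XT.lf (nat_lit 0) (nat_lit 1284363748) (nat_lit 228) (nat_lit 767193335) (nat_lit 304) (nat_lit 9265561661) (nat_lit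 92) (nat_lit 5) (nat_lit 95) (nat_lit 5) (nat_lit 96) (nat_lit 4) (nat_lit 619) (nat_lit 473) (nat_lit 468)))))) (XT.nd (nat_lit 80574) (nat_lit 0) (nat_lit 1976) (XT.nd (nat_lit 156) (nat_lit 760) (nat_lit 0) (XT.nd (nat_lit 78) (nat_lit 76) (nat_lit 0) (XT.lf (nat_lit 0) (nat_lit 99605001) (nat_lit 228) (nat_lit 7328507387) (nat_lit 228) (nat_lit 3996607902) (nat_lit 89) (nat_lit 4) (nat_lit 92) (nat_lit 5) (nat_lit 92) (nat_lit 4) (nat_lit 620) (nat_lit 473) (nat_lit 467)) (XT.lf (nat_lit 0) (nat_lit 1356435515) (nat_lit 304) (nat_lit 1109735108) (nat_lit 76) (nat_lit 9068190398) (nat_lit 88) (nat_lit 5) (nat_lit 92) (nat_lit 5) (nat_lit 89) (nat_lit 4) (nat_lit 621) (nat_lit 473) (nat_lit 466))) (XT.nd (nat_lit 78) (nat_lit 532) (nat_lit 0) (XT.lf (nat_lit 0) (nat_lit 6765116464) (nat_lit 304) (nat_lit 2387370122) (nat_lit 0) (nat_lit 2493139424) (nat_lit 85) (nat_lit 5) (nat_lit 89) (nat_lit 4) (nat_lit 85) (nat_lit 4) (nat_lit 622) (nat_lit 473) (nat_lit 465)) (XT.nd (nat_lit 78) (nat_lit 228) (nat_lit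 0) (XT.lf (nat_lit 0) (nat_lit 517775241) (nat_lit 304) (nat_lit 3714038881) (nat_lit 76) (nat_lit 7527200279) (nat_lit 81) (nat_lit 5) (nat_lit 85) (nat_lit 5) (nat_lit 82) (nat_lit 4) (nat_lit 623) (nat_lit 473) (nat_lit 464)) (XT.lf (nat_lit 0) (nat_lit 5949984823) (nat_lit 304) (nat_lit 5109863118) (nat_lit 0) (nat_lit 814352760) (nat_lit 78) (nat_lit 5) (nat_lit 82) (nat_lit 4) (nat_lit 78) (nat_lit 4) (nat_lit 624) (nat_lit 473) (nat_lit 463))))) (XT.nd (nat_lit 156) (nat_lit 912) (nat_lit 0) (XT.nd (nat_lit 78) (nat_lit 304) (nat_lit 0) (XT.lf (nat_lit 0) (nat_lit 4102749504) (nat_lit 304) (nat_lit 601642366) (nat_lit 304) (nat_lit 601642366) (nat_lit 120) (nat_lit 4) (nat_lit 124) (nat_lit 5) (nat_lit 124) (nat_lit 4) (nat_lit 612) (nat_lit 474) (nat_lit 474)) (XT.lf (nat_lit 0) (nat_lit 3958489198) (nat_lit 304) (nat_lit 3422302682) (nat_lit 0) (nat_lit 3327250777) (nat_lit 116) (nat_lit 5) (nat_lit 120) (nat_lit 4) (nat_lit 116) (nat_lit 4) (nat_lit 613) (nat_lit 474) (nat_lit 473))) (XT.nd (nat_lit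 78) (nat_lit 608) (nat_lit 0) (XT.lf (nat_lit 0) (nat_lit 6337332500) (nat_lit 304) (nat_lit 2859379932) (nat_lit 304) (nat_lit 1609280314) (nat_lit 112) (nat_lit 4) (nat_lit 116) (nat_lit 5) (nat_lit 116) (nat_lit 4) (nat_lit 614) (nat_lit 474) (nat_lit 472)) (XT.nd (nat_lit 78) (nat_lit 304) (nat_lit 0) (XT.lf (nat_lit 0) (nat_lit 3579672340) (nat_lit 304) (nat_lit 5566634513) (nat_lit 0) (nat_lit 1759254418) (nat_lit 108) (nat_lit 5) (nat_lit 112) (nat_lit 4) (nat_lit 108) (nat_lit 4) (nat_lit 615) (nat_lit 474) (nat_lit 471)) (XT.lf (nat_lit 0) (nat_lit 4294120178) (nat_lit 304) (nat_lit 4558173019) (nat_lit 304) (nat_lit 2154588370) (nat_lit 104) (nat_lit 4) (nat_lit 108) (nat_lit 5) (nat_lit 108) (nat_lit 4) (nat_lit 616) (nat_lit 474) (nat_lit 470))))))))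
noncomputable def xc1 : XT := (XT.nd (nat_lit 81588) (nat_lit 0) (nat_lit 0) (XT.nd (nat_lit 80808) (nat_lit 0) (nat_lit 760) (XT.nd (nat_lit 390) (nat_lit 760) (nat_lit 0) (XT.nd (nat_lit 156) (nat_lit 608) (nat_lit 0) (XT.nd (nat_lit 78) (nat_lit 304) (nat_lit 0) (XT.lf (nat_lit 0) (nat_lit 3063191530) (nat_lit 304) (nat_lit 7900739574) (nat_lit 0) (nat_lit 146214338) (nat_lit 100) (nat_lit 5) (nat_lit 104) (nat_lit 4) (nat_lit 100) (nat_lit 4) (nat_lit 617) (nat_lit 474) (nat_lit 469)) (XT.lf (nat_lit 0) (nat_lit 2059110825) (nat_lit 304) (nat_lit 6311156569) (nat_lit 304) (nat_lit 2844648345) (nat_lit 96) (nat_lit 4) (nat_lit 100) (nat_lit 5) (nat_lit 100) (nat_lit 4) (nat_lit 618) (nat_lit 474) (nat_lit 468))) (XT.nd (nat_lit 78) (nat_lit 304) (nat_lit 0) (XT.lf (nat_lit 0) (nat_lit 869885322) (nat_lit 228) (nat_lit 1543555004) (nat_lit 304) (nat_lit 8908342718) (nat_lit 92) (nat_lit 5) (nat_lit 95) (nat_lit 5) (nat_lit 96) (nat_lit 4) (nat_lit 619) (nat_lit 474) (nat_lit 467)) (XT.nd (nat_lit 78)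 (nat_lit 304) (nat_lit 0) (XT.lf (nat_lit 0) (nat_lit 7747320866) (nat_lit 304) (nat_lit 380162099) (nat_lit 0) (nat_lit 3302755953) (nat_lit 92) (nat_lit 5) (nat_lit 96) (nat_lit 4) (nat_lit 92) (nat_lit 4) (nat_lit 620) (nat_lit 474) (nat_lit 466)) (XT.lf (nat_lit 0) (nat_lit 1626572657) (nat_lit 304) (nat_lit 1666569875) (nat_lit 76) (nat_lit 8247485958) (nat_lit 88) (nat_lit 5) (nat_lit 92) (nat_lit 5) (nat_lit 89) (nat_lit 4) (nat_lit 621) (nat_lit 474) (nat_lit 465))))) (XT.nd (nat_lit 156) (nat_lit 228) (nat_lit 0) (XT.nd (nat_lit 78) (nat_lit 304) (nat_lit 0) (XT.lf (nat_lit 0) (nat_lit 6989406285) (nat_lit 304) (nat_lit 3017110238) (nat_lit 0) (nat_lit 1646294687) (nat_lit 85) (nat_lit 5) (nat_lit 89) (nat_lit 4) (nat_lit 85) (nat_lit 4) (nat_lit 622) (nat_lit 474) (nat_lit 464)) (XT.lf (nat_lit 0) (nat_lit 691134208) (nat_lit 304) (nat_lit 4425420330) (nat_lit 76) (nat_lit 6650435592) (nat_lit 81) (nat_lit 5) (nat_lit 85) (nat_lit 5) (nat_lit 82) (nat_lit 4) (nat_lit 623) (nat_lit 474) (nat_lit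 463))) (XT.nd (nat_lit 80106) (nat_lit 0) (nat_lit 3496) (XT.lf (nat_lit 0) (nat_lit 5984769923) (nat_lit 228) (nat_lit 92111660) (nat_lit 304) (nat_lit 5806224831) (nat_lit 78) (nat_lit 5) (nat_lit 81) (nat_lit 5) (nat_lit 82) (nat_lit 4) (nat_lit 624) (nat_lit 474) (nat_lit 462)) (XT.nd (nat_lit 78) (nat_lit 380) (nat_lit 0) (XT.lf (nat_lit 0) (nat_lit 4988091036) (nat_lit 304) (nat_lit 112003886) (nat_lit 304) (nat_lit 112003886) (nat_lit 129) (nat_lit 4) (nat_lit 133) (nat_lit 5) (nat_lit 133) (nat_lit 4) (nat_lit 610) (nat_lit 475) (nat_lit 475)) (XT.lf (nat_lit 0) (nat_lit 4861460937) (nat_lit 380) (nat_lit 1451232585) (nat_lit 0) (nat_lit 4204720484) (nat_lit 124) (nat_lit 5) (nat_lit 129) (nat_lit 4) (nat_lit 124) (nat_lit 4) (nat_lit 611) (nat_lit 475) (nat_lit 474)))))) (XT.nd (nat_lit 390) (nat_lit 1216) (nat_lit 0) (XT.nd (nat_lit 156) (nat_lit 912) (nat_lit 0) (XT.nd (nat_lit 78) (nat_lit 304) (nat_lit 0) (XT.lf (nat_lit 0) (nat_lit 8142484931) (nat_lit 304) (nat_lit 1885469805) (nat_lit 304)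 (nat_lit 584866163) (nat_lit 120) (nat_lit 4) (nat_lit 124) (nat_lit 5) (nat_lit 124) (nat_lit 4) (nat_lit 612) (nat_lit 475) (nat_lit 473)) (XT.lf (nat_lit 0) (nat_lit 4526291896) (nat_lit 304) (nat_lit 3550944894) (nat_lit 0) (nat_lit 2632329090) (nat_lit 116) (nat_lit 5) (nat_lit 120) (nat_lit 4) (nat_lit 116) (nat_lit 4) (nat_lit 613) (nat_lit 475) (nat_lit 472))) (XT.nd (nat_lit 78) (nat_lit 608) (nat_lit 0) (XT.lf (nat_lit 0) (nat_lit 6143715413) (nat_lit 304) (nat_lit 3582627226) (nat_lit 304) (nat_lit 1081937756) (nat_lit 112) (nat_lit 4) (nat_lit 116) (nat_lit 5) (nat_lit 116) (nat_lit 4) (nat_lit 614) (nat_lit 475) (nat_lit 471)) (XT.nd (nat_lit 78) (nat_lit 304) (nat_lit 0) (XT.lf (nat_lit 0) (nat_lit 4056687231) (nat_lit 304) (nat_lit 5830098219) (nat_lit 0) (nat_lit 1021864160) (nat_lit 108) (nat_lit 5) (nat_lit 112) (nat_lit 4) (nat_lit 108) (nat_lit 4) (nat_lit 615) (nat_lit 475) (nat_lit 470)) (XT.lf (nat_lit 0) (nat_lit 3963653168) (nat_lit 304) (nat_lit 5326824710) (nat_lit 304) (nat_lit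 1720269553) (nat_lit 104) (nat_lit 4) (nat_lit 108) (nat_lit 5) (nat_lit 108) (nat_lit 4) (nat_lit 616) (nat_lit 475) (nat_lit 469))))) (XT.nd (nat_lit 156) (nat_lit 608) (nat_lit 0) (XT.nd (nat_lit 78) (nat_lit 304) (nat_lit 0) (XT.lf (nat_lit 0) (nat_lit 2805175561) (nat_lit 228) (nat_lit 646434523) (nat_lit 304) (nat_lit 7663149791) (nat_lit 100) (nat_lit 5) (nat_lit 103) (nat_lit 5) (nat_lit 104) (nat_lit 4) (nat_lit 617) (nat_lit 475) (nat_lit 468)) (XT.lf (nat_lit 0) (nat_lit 1585360533) (nat_lit 304) (nat_lit 7129585321) (nat_lit 304) (nat_lit 2505459986) (nat_lit 96) (nat_lit 4) (nat_lit 100) (nat_lit 5) (nat_lit 100) (nat_lit 4) (nat_lit 618) (nat_lit 475) (nat_lit 467))) (XT.nd (nat_lit 78) (nat_lit 304) (nat_lit 0) (XT.lf (nat_lit 0) (nat_lit 318247756) (nat_lit 228) (nat_lit 2389952819) (nat_lit 304) (nat_lit 8619828951) (nat_lit 92) (nat_lit 5) (nat_lit 95) (nat_lit 5) (nat_lit 96) (nat_lit 4) (nat_lit 619) (nat_lit 475) (nat_lit 466)) (XT.nd (nat_lit 78) (nat_lit 304) (nat_lit 0) (XT.lf (nat_lit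 0) (nat_lit 8000323573) (nat_lit 304) (nat_lit 995647530) (nat_lit 0) (nat_lit 2441350266) (nat_lit 92) (nat_lit 5) (nat_lit 96) (nat_lit 4) (nat_lit 92) (nat_lit 4) (nat_lit 620) (nat_lit 475) (nat_lit 465)) (XT.lf (nat_lit 0) (nat_lit 1828994524) (nat_lit 304) (nat_lit 2362131553) (nat_lit 76) (nat_lit 7357359177) (nat_lit 88) (nat_lit 5) (nat_lit 92) (nat_lit 5) (nat_lit 89) (nat_lit 4) (nat_lit 621) (nat_lit 475) (nat_lit 464))))))) (XT.nd (nat_lit 80652) (nat_lit 0) (nat_lit 0) (XT.nd (nat_lit 80262) (nat_lit 0) (nat_lit 2584) (XT.nd (nat_lit 156) (nat_lit 228) (nat_lit 0) (XT.nd (nat_lit 78) (nat_lit 304) (nat_lit 0) (XT.lf (nat_lit 0) (nat_lit 7145322437) (nat_lit 304) (nat_lit 3787295479) (nat_lit 0) (nat_lit 728980943) (nat_lit 85) (nat_lit 5) (nat_lit 89) (nat_lit 4) (nat_lit 85) (nat_lit 4) (nat_lit 622) (nat_lit 475) (nat_lit 463)) (XT.lf (nat_lit 0) (nat_lit 795224859) (nat_lit 304) (nat_lit 5279006722) (nat_lit 76) (nat_lit 5702349998) (nat_lit 81) (nat_lit 5) (nat_lit 85) (nat_lit 5) (nat_lit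 82) (nat_lit 4) (nat_lit 623) (nat_lit 475) (nat_lit 462))) (XT.nd (nat_lit 79950) (nat_lit 0) (nat_lit 3876) (XT.lf (nat_lit 0) (nat_lit 5056901522) (nat_lit 228) (nat_lit 1082744737) (nat_lit 304) (nat_lit 5753878848) (nat_lit 78) (nat_lit 5) (nat_lit 81) (nat_lit 5) (nat_lit 82) (nat_lit 4) (nat_lit 624) (nat_lit 475) (nat_lit 461)) (XT.nd (nat_lit 78) (nat_lit 304) (nat_lit 0) (XT.lf (nat_lit 0) (nat_lit 372170926) (nat_lit 380) (nat_lit 4376223075) (nat_lit 0) (nat_lit 372170926) (nat_lit 133) (nat_lit 5) (nat_lit 138) (nat_lit 4) (nat_lit 133) (nat_lit 4) (nat_lit 608) (nat_lit 476) (nat_lit 476)) (XT.lf (nat_lit 0) (nat_lit 491481573) (nat_lit 304) (nat_lit 5261877549) (nat_lit 304) (nat_lit 4578604782) (nat_lit 129) (nat_lit 4) (nat_lit 133) (nat_lit 5) (nat_lit 133) (nat_lit 4) (nat_lit 609) (nat_lit 476) (nat_lit 475))))) (XT.nd (nat_lit 156) (nat_lit 912) (nat_lit 0) (XT.nd (nat_lit 78) (nat_lit 304) (nat_lit 0) (XT.lf (nat_lit 0) (nat_lit 415909057) (nat_lit 380) (nat_lit 513011732) (nat_lit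 76) (nat_lit 9495964899) (nat_lit 128) (nat_lit 5) (nat_lit 133) (nat_lit 5) (nat_lit 129) (nat_lit 4) (nat_lit 610) (nat_lit 476) (nat_lit 474)) (XT.lf (nat_lit 0) (nat_lit 5456272336) (nat_lit 380) (nat_lit 1576851609) (nat_lit 0) (nat_lit 3485793432) (nat_lit 124) (nat_lit 5) (nat_lit 129) (nat_lit 4) (nat_lit 124) (nat_lit 4) (nat_lit 611) (nat_lit 476) (nat_lit 473))) (XT.nd (nat_lit 78) (nat_lit 608) (nat_lit 0) (XT.lf (nat_lit 0) (nat_lit 7953417990) (nat_lit 304) (nat_lit 2631688903) (nat_lit 304) (nat_lit 29971579) (nat_lit 120) (nat_lit 4) (nat_lit 124) (nat_lit 5) (nat_lit 124) (nat_lit 4) (nat_lit 612) (nat_lit 476) (nat_lit 472)) (XT.nd (nat_lit 78) (nat_lit 304) (nat_lit 0) (XT.lf (nat_lit 0) (nat_lit 5030881539) (nat_lit 304) (nat_lit 3808279766) (nat_lit 0) (nat_lit 1873451616) (nat_lit 116) (nat_lit 5) (nat_lit 120) (nat_lit 4) (nat_lit 116) (nat_lit 4) (nat_lit 613) (nat_lit 476) (nat_lit 471)) (XT.lf (nat_lit 0) (nat_lit 5820935904) (nat_lit 304) (nat_lit 4371709110) (nat_lit 304) (nat_lit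 619449125) (nat_lit 112) (nat_lit 4) (nat_lit 116) (nat_lit 5) (nat_lit 116) (nat_lit 4) (nat_lit 614) (nat_lit 476) (nat_lit 470)))))) (XT.nd (nat_lit 390) (nat_lit 1292) (nat_lit 0) (XT.nd (nat_lit 156) (nat_lit 684) (nat_lit 0) (XT.nd (nat_lit 78) (nat_lit 304) (nat_lit 0) (XT.lf (nat_lit 0) (nat_lit 4469139528) (nat_lit 304) (nat_lit 6225422922) (nat_lit 0) (nat_lit 218721183) (nat_lit 108) (nat_lit 5) (nat_lit 112) (nat_lit 4) (nat_lit 108) (nat_lit 4) (nat_lit 615) (nat_lit 476) (nat_lit 469)) (XT.lf (nat_lit 0) (nat_lit 3500817935) (nat_lit 304) (nat_lit 6163141913) (nat_lit 304) (nat_lit 1352201915) (nat_lit 104) (nat_lit 4) (nat_lit 108) (nat_lit 5) (nat_lit 108) (nat_lit 4) (nat_lit 616) (nat_lit 476) (nat_lit 468))) (XT.nd (nat_lit 78) (nat_lit 380) (nat_lit 0) (XT.lf (nat_lit 0) (nat_lit 2265950198) (nat_lit 228) (nat_lit 1509505855) (nat_lit 304) (nat_lit 7345459114) (nat_lit 100) (nat_lit 5) (nat_lit 103) (nat_lit 5) (nat_lit 104) (nat_lit 4) (nat_lit 617) (nat_lit 476) (nat_lit 467)) (XT.nd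 (nat_lit 78) (nat_lit 76) (nat_lit 0) (XT.lf (nat_lit 0) (nat_lit 975934590) (nat_lit 304) (nat_lit 8017544735) (nat_lit 304) (nat_lit 2233988907) (nat_lit 96) (nat_lit 4) (nat_lit 100) (nat_lit 5) (nat_lit 100) (nat_lit 4) (nat_lit 618) (nat_lit 476) (nat_lit 466)) (XT.lf (nat_lit 0) (nat_lit 2938360677) (nat_lit 380) (nat_lit 365902624) (nat_lit 76) (nat_lit 8031549195) (nat_lit 95) (nat_lit 5) (nat_lit 100) (nat_lit 5) (nat_lit 96) (nat_lit 4) (nat_lit 619) (nat_lit 476) (nat_lit 465))))) (XT.nd (nat_lit 234) (nat_lit 532) (nat_lit 0) (XT.nd (nat_lit 78) (nat_lit 532) (nat_lit 0) (XT.lf (nat_lit 0) (nat_lit 8186573024) (nat_lit 304) (nat_lit 1748398994) (nat_lit 0) (nat_lit 1511011334) (nat_lit 92) (nat_lit 5) (nat_lit 96) (nat_lit 4) (nat_lit 92) (nat_lit 4) (nat_lit 620) (nat_lit 476) (nat_lit 464)) (XT.nd (nat_lit 78) (nat_lit 228) (nat_lit 0) (XT.lf (nat_lit 0) (nat_lit 1963780499) (nat_lit 304) (nat_lit 3196692911) (nat_lit 76) (nat_lit 6397460986) (nat_lit 88) (nat_lit 5) (nat_lit 92) (nat_lit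 5) (nat_lit 89) (nat_lit 4) (nat_lit 621) (nat_lit 476) (nat_lit 463)) (XT.lf (nat_lit 0) (nat_lit 6972025415) (nat_lit 228) (nat_lit 262605658) (nat_lit 304) (nat_lit 4437327229) (nat_lit 85) (nat_lit 5) (nat_lit 88) (nat_lit 5) (nat_lit 89) (nat_lit 4) (nat_lit 622) (nat_lit 476) (nat_lit 462)))) (XT.nd (nat_lit 78) (nat_lit 228) (nat_lit 0) (XT.lf (nat_lit 0) (nat_lit 830088015) (nat_lit 304) (nat_lit 6275132795) (nat_lit 76) (nat_lit 4682571699) (nat_lit 81) (nat_lit 5) (nat_lit 85) (nat_lit 5) (nat_lit 82) (nat_lit 4) (nat_lit 623) (nat_lit 476) (nat_lit 461)) (XT.nd (nat_lit 79794) (nat_lit 0) (nat_lit 4940) (XT.lf (nat_lit 0) (nat_lit 3985833246) (nat_lit 228) (nat_lit 2147112635) (nat_lit 304) (nat_lit 5772622139) (nat_lit 78) (nat_lit 5) (nat_lit 81) (nat_lit 5) (nat_lit 82) (nat_lit 4) (nat_lit 624) (nat_lit 476) (nat_lit 460)) (XT.lf (nat_lit 0) (nat_lit 850698206) (nat_lit 380) (nat_lit 3330127963) (nat_lit 0) (nat_lit 850698206) (nat_lit 143) (nat_lit 5) (nat_lit 148) (nat_lit 4) (nat_lit 143)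 (nat_lit 4) (nat_lit 606) (nat_lit 477) (nat_lit 477))))))))
noncomputable def xc2 : XT := (XT.nd (nat_lit 81120) (nat_lit 0) (nat_lit 0) (XT.nd (nat_lit 780) (nat_lit 1976) (nat_lit 0) (XT.nd (nat_lit 390) (nat_lit 1520) (nat_lit 0) (XT.nd (nat_lit 156) (nat_lit 684) (nat_lit 0) (XT.nd (nat_lit 78) (nat_lit 380) (nat_lit 0) (XT.lf (nat_lit 0) (nat_lit 2424705312) (nat_lit 380) (nat_lit 4218821763) (nat_lit 380) (nat_lit 3507944776) (nat_lit 138) (nat_lit 4) (nat_lit 143) (nat_lit 5) (nat_lit 143) (nat_lit 4) (nat_lit 607) (nat_lit 477) (nat_lit 476)) (XT.lf (nat_lit 0) (nat_lit 1403859828) (nat_lit 380) (nat_lit 8814370694) (nat_lit 0) (nat_lit 23648838) (nat_lit 133) (nat_lit 5) (nat_lit 138) (nat_lit 4) (nat_lit 133) (nat_lit 4) (nat_lit 608) (nat_lit 477) (nat_lit 475))) (XT.nd (nat_lit 78) (nat_lit 380) (nat_lit 0) (XT.lf (nat_lit 0) (nat_lit 367216937) (nat_lit 304) (nat_lit 6008166834) (nat_lit 304) (nat_lit 3958080583) (nat_lit 129) (nat_lit 4) (nat_lit 133) (nat_lit 5) (nat_lit 133) (nat_lit 4)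 (nat_lit 609) (nat_lit 477) (nat_lit 474)) (XT.nd (nat_lit 78) (nat_lit 304) (nat_lit 0) (XT.lf (nat_lit 0) (nat_lit 991694388) (nat_lit 380) (nat_lit 703604038) (nat_lit 76) (nat_lit 8731740182) (nat_lit 128) (nat_lit 5) (nat_lit 133) (nat_lit 5) (nat_lit 129) (nat_lit 4) (nat_lit 610) (nat_lit 477) (nat_lit 473)) (XT.lf (nat_lit 0) (nat_lit 5989387940) (nat_lit 380) (nat_lit 1828138920) (nat_lit 0) (nat_lit 2704397849) (nat_lit 124) (nat_lit 5) (nat_lit 129) (nat_lit 4) (nat_lit 124) (nat_lit 4) (nat_lit 611) (nat_lit 477) (nat_lit 472))))) (XT.nd (nat_lit 156) (nat_lit 912) (nat_lit 0) (XT.nd (nat_lit 78) (nat_lit 228) (nat_lit 0) (XT.lf (nat_lit 0) (nat_lit 455562441) (nat_lit 380) (nat_lit 2983615157) (nat_lit 76) (nat_lit 7179604535) (nat_lit 119) (nat_lit 5) (nat_lit 124) (nat_lit 5) (nat_lit 120) (nat_lit 4) (nat_lit 612) (nat_lit 477) (nat_lit 471)) (XT.lf (nat_lit 0) (nat_lit 5472456005) (nat_lit 304) (nat_lit 4194408213) (nat_lit 0) (nat_lit 1050320758) (nat_lit 116) (nat_lit 5) (nat_lit 120)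 (nat_lit 4) (nat_lit 116) (nat_lit 4) (nat_lit 613) (nat_lit 477) (nat_lit 470))) (XT.nd (nat_lit 78) (nat_lit 608) (nat_lit 0) (XT.lf (nat_lit 0) (nat_lit 5368867393) (nat_lit 304) (nat_lit 5226935028) (nat_lit 304) (nat_lit 221633054) (nat_lit 112) (nat_lit 4) (nat_lit 116) (nat_lit 5) (nat_lit 116) (nat_lit 4) (nat_lit 614) (nat_lit 477) (nat_lit 469)) (XT.nd (nat_lit 78) (nat_lit 304) (nat_lit 0) (XT.lf (nat_lit 0) (nat_lit 4162336380) (nat_lit 228) (nat_lit 659134134) (nat_lit 304) (nat_lit 6097909053) (nat_lit 108) (nat_lit 5) (nat_lit 111) (nat_lit 5) (nat_lit 112) (nat_lit 4) (nat_lit 615) (nat_lit 477) (nat_lit 468)) (XT.lf (nat_lit 0) (nat_lit 2905432975) (nat_lit 304) (nat_lit 7067452597) (nat_lit 304) (nat_lit 1050241114) (nat_lit 104) (nat_lit 4) (nat_lit 108) (nat_lit 5) (nat_lit 108) (nat_lit 4) (nat_lit 616) (nat_lit 477) (nat_lit 467)))))) (XT.nd (nat_lit 390) (nat_lit 760) (nat_lit 0) (XT.nd (nat_lit 156) (nat_lit 608) (nat_lit 0) (XT.nd (nat_lit 78) (nat_lit 304) (nat_lit 0) (XT.lf (nat_lit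 0) (nat_lit 1592499495) (nat_lit 228) (nat_lit 2441395006) (nat_lit 304) (nat_lit 7094738471) (nat_lit 100) (nat_lit 5) (nat_lit 103) (nat_lit 5) (nat_lit 104) (nat_lit 4) (nat_lit 617) (nat_lit 477) (nat_lit 466)) (XT.lf (nat_lit 0) (nat_lit 230594005) (nat_lit 304) (nat_lit 8975383031) (nat_lit 304) (nat_lit 2030128649) (nat_lit 96) (nat_lit 4) (nat_lit 100) (nat_lit 5) (nat_lit 100) (nat_lit 4) (nat_lit 618) (nat_lit 477) (nat_lit 465))) (XT.nd (nat_lit 78) (nat_lit 532) (nat_lit 0) (XT.lf (nat_lit 0) (nat_lit 3104562654) (nat_lit 380) (nat_lit 1181719551) (nat_lit 76) (nat_lit 7058841766) (nat_lit 95) (nat_lit 5) (nat_lit 100) (nat_lit 5) (nat_lit 96) (nat_lit 4) (nat_lit 619) (nat_lit 477) (nat_lit 464)) (XT.nd (nat_lit 78) (nat_lit 304) (nat_lit 0) (XT.lf (nat_lit 0) (nat_lit 8306142260) (nat_lit 304) (nat_lit 2638711689) (nat_lit 0) (nat_lit 511374319) (nat_lit 92) (nat_lit 5) (nat_lit 96) (nat_lit 4) (nat_lit 92) (nat_lit 4) (nat_lit 620) (nat_lit 477) (nat_lit 463)) (XT.lf (nat_lit 0) (nat_lit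 2030983439) (nat_lit 304) (nat_lit 4170581227) (nat_lit 76) (nat_lit 5367414955) (nat_lit 88) (nat_lit 5) (nat_lit 92) (nat_lit 5) (nat_lit 89) (nat_lit 4) (nat_lit 621) (nat_lit 477) (nat_lit 462))))) (XT.nd (nat_lit 156) (nat_lit 228) (nat_lit 0) (XT.nd (nat_lit 78) (nat_lit 304) (nat_lit 0) (XT.lf (nat_lit 0) (nat_lit 5924883290) (nat_lit 228) (nat_lit 1336042704) (nat_lit 304) (nat_lit 4422896434) (nat_lit 85) (nat_lit 5) (nat_lit 88) (nat_lit 5) (nat_lit 89) (nat_lit 4) (nat_lit 622) (nat_lit 477) (nat_lit 461)) (XT.lf (nat_lit 0) (nat_lit 795737347) (nat_lit 304) (nat_lit 7414189188) (nat_lit 76) (nat_lit 3590700780) (nat_lit 81) (nat_lit 5) (nat_lit 85) (nat_lit 5) (nat_lit 82) (nat_lit 4) (nat_lit 623) (nat_lit 477) (nat_lit 460))) (XT.nd (nat_lit 79638) (nat_lit 0) (nat_lit 5320) (XT.lf (nat_lit 0) (nat_lit 2771145068) (nat_lit 228) (nat_lit 3285632752) (nat_lit 304) (nat_lit 5862462052) (nat_lit 78) (nat_lit 5) (nat_lit 81) (nat_lit 5) (nat_lit 82) (nat_lit 4) (nat_lit 624) (nat_lit 477) (nat_lit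 459)) (XT.nd (nat_lit 78) (nat_lit 380) (nat_lit 0) (XT.lf (nat_lit 0) (nat_lit 1324335085) (nat_lit 380) (nat_lit 2296321294) (nat_lit 0) (nat_lit 1324335085) (nat_lit 153) (nat_lit 5) (nat_lit 158) (nat_lit 4) (nat_lit 153) (nat_lit 4) (nat_lit 604) (nat_lit 478) (nat_lit 478)) (XT.lf (nat_lit 0) (nat_lit 4335317822) (nat_lit 380) (nat_lit 3190157909) (nat_lit 380) (nat_lit 2450561492) (nat_lit 148) (nat_lit 4) (nat_lit 153) (nat_lit 5) (nat_lit 153) (nat_lit 4) (nat_lit 605) (nat_lit 478) (nat_lit 477))))))) (XT.nd (nat_lit 780) (nat_lit 2280) (nat_lit 0) (XT.nd (nat_lit 390) (nat_lit 1520) (nat_lit 0) (XT.nd (nat_lit 156) (nat_lit 760) (nat_lit 0) (XT.nd (nat_lit 78) (nat_lit 380) (nat_lit 0) (XT.lf (nat_lit 0) (nat_lit 2389534002) (nat_lit 380) (nat_lit 6720692544) (nat_lit 0) (nat_lit 953562488) (nat_lit 143) (nat_lit 5) (nat_lit 148) (nat_lit 4) (nat_lit 143) (nat_lit 4) (nat_lit 606) (nat_lit 478) (nat_lit 476)) (XT.lf (nat_lit 0) (nat_lit 2303426515) (nat_lit 380) (nat_lit 4991218436) (nat_lit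 380) (nat_lit 2858308700) (nat_lit 138) (nat_lit 4) (nat_lit 143) (nat_lit 5) (nat_lit 143) (nat_lit 4) (nat_lit 607) (nat_lit 478) (nat_lit 475))) (XT.nd (nat_lit 78) (nat_lit 380) (nat_lit 0) (XT.lf (nat_lit 0) (nat_lit 1238869610) (nat_lit 304) (nat_lit 768581930) (nat_lit 380) (nat_lit 8236576825) (nat_lit 133) (nat_lit 5) (nat_lit 137) (nat_lit 5) (nat_lit 138) (nat_lit 4) (nat_lit 608) (nat_lit 478) (nat_lit 474)) (XT.nd (nat_lit 78) (nat_lit 76) (nat_lit 0) (XT.lf (nat_lit 0) (nat_lit 118638935) (nat_lit 304) (nat_lit 6817765299) (nat_lit 304) (nat_lit 3400061608) (nat_lit 129) (nat_lit 4) (nat_lit 133) (nat_lit 5) (nat_lit 133) (nat_lit 4) (nat_lit 609) (nat_lit 478) (nat_lit 473)) (XT.lf (nat_lit 0) (nat_lit 1506511921) (nat_lit 380) (nat_lit 1018412799) (nat_lit 76) (nat_lit 7905761591) (nat_lit 128) (nat_lit 5) (nat_lit 133) (nat_lit 5) (nat_lit 129) (nat_lit 4) (nat_lit 610) (nat_lit 478) (nat_lit 472))))) (XT.nd (nat_lit 156) (nat_lit 836) (nat_lit 0) (XT.nd (nat_lit 78) (nat_lit 380) (nat_lit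 0) (XT.lf (nat_lit 0) (nat_lit 6461016815) (nat_lit 380) (nat_lit 2205193061) (nat_lit 0) (nat_lit 1860227304) (nat_lit 124) (nat_lit 5) (nat_lit 129) (nat_lit 4) (nat_lit 124) (nat_lit 4) (nat_lit 611) (nat_lit 478) (nat_lit 471)) (XT.lf (nat_lit 0) (nat_lit 878417525) (nat_lit 380) (nat_lit 3433112773) (nat_lit 76) (nat_lit 6312467307) (nat_lit 119) (nat_lit 5) (nat_lit 124) (nat_lit 5) (nat_lit 120) (nat_lit 4) (nat_lit 612) (nat_lit 478) (nat_lit 470))) (XT.nd (nat_lit 78) (nat_lit 608) (nat_lit 0) (XT.lf (nat_lit 0) (nat_lit 5851188461) (nat_lit 304) (nat_lit 4709481659) (nat_lit 0) (nat_lit 162613719) (nat_lit 116) (nat_lit 5) (nat_lit 120) (nat_lit 4) (nat_lit 116) (nat_lit 4) (nat_lit 613) (nat_lit 478) (nat_lit 469)) (XT.nd (nat_lit 78) (nat_lit 228) (nat_lit 0) (XT.lf (nat_lit 0) (nat_lit 110201938) (nat_lit 380) (nat_lit 6037698911) (nat_lit 76) (nat_lit 4676391147) (nat_lit 111) (nat_lit 5) (nat_lit 116) (nat_lit 5) (nat_lit 112) (nat_lit 4) (nat_lit 614) (nat_lit 478) (nat_lit 468)) (XT.lf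 (nat_lit 0) (nat_lit 3504225776) (nat_lit 228) (nat_lit 1607187222) (nat_lit 304) (nat_lit 5815574911) (nat_lit 108) (nat_lit 5) (nat_lit 111) (nat_lit 5) (nat_lit 112) (nat_lit 4) (nat_lit 615) (nat_lit 478) (nat_lit 467)))))) (XT.nd (nat_lit 390) (nat_lit 1064) (nat_lit 0) (XT.nd (nat_lit 156) (nat_lit 608) (nat_lit 0) (XT.nd (nat_lit 78) (nat_lit 304) (nat_lit 0) (XT.lf (nat_lit 0) (nat_lit 2177264805) (nat_lit 304) (nat_lit 8040111393) (nat_lit 304) (nat_lit 814268734) (nat_lit 104) (nat_lit 4) (nat_lit 108) (nat_lit 5) (nat_lit 108) (nat_lit 4) (nat_lit 616) (nat_lit 478) (nat_lit 466)) (XT.lf (nat_lit 0) (nat_lit 784559352) (nat_lit 228) (nat_lit 3442467421) (nat_lit 304) (nat_lit 6910889541) (nat_lit 100) (nat_lit 5) (nat_lit 103) (nat_lit 5) (nat_lit 104) (nat_lit 4) (nat_lit 617) (nat_lit 478) (nat_lit 465))) (XT.nd (nat_lit 78) (nat_lit 608) (nat_lit 0) (XT.lf (nat_lit 0) (nat_lit 9356748742) (nat_lit 304) (nat_lit 642416139) (nat_lit 0) (nat_lit 1247072176) (nat_lit 100) (nat_lit 5) (nat_lit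 104) (nat_lit 4) (nat_lit 100) (nat_lit 4) (nat_lit 618) (nat_lit 478) (nat_lit 464)) (XT.nd (nat_lit 78) (nat_lit 228) (nat_lit 0) (XT.lf (nat_lit 0) (nat_lit 3204805408) (nat_lit 380) (nat_lit 2133696828) (nat_lit 76) (nat_lit 6017506691) (nat_lit 95) (nat_lit 5) (nat_lit 100) (nat_lit 5) (nat_lit 96) (nat_lit 4) (nat_lit 619) (nat_lit 478) (nat_lit 463)) (XT.lf (nat_lit 0) (nat_lit 7797381218) (nat_lit 228) (nat_lit 565367692) (nat_lit 304) (nat_lit 3105237805) (nat_lit 92) (nat_lit 5) (nat_lit 95) (nat_lit 5) (nat_lit 96) (nat_lit 4) (nat_lit 620) (nat_lit 478) (nat_lit 462))))) (XT.nd (nat_lit 156) (nat_lit 532) (nat_lit 0) (XT.nd (nat_lit 78) (nat_lit 228) (nat_lit 0) (XT.lf (nat_lit 0) (nat_lit 2030629697) (nat_lit 304) (nat_lit 5284178420) (nat_lit 76) (nat_lit 4266817144) (nat_lit 88) (nat_lit 5) (nat_lit 92) (nat_lit 5) (nat_lit 89) (nat_lit 4) (nat_lit 621) (nat_lit 478) (nat_lit 461)) (XT.lf (nat_lit 0) (nat_lit 4737358206) (nat_lit 228) (nat_lit 2482063377) (nat_lit 304) (nat_lit 4477870222)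 (nat_lit 85) (nat_lit 5) (nat_lit 88) (nat_lit 5) (nat_lit 89) (nat_lit 4) (nat_lit 622) (nat_lit 478) (nat_lit 460))) (XT.nd (nat_lit 78) (nat_lit 228) (nat_lit 0) (XT.lf (nat_lit 0) (nat_lit 692159386) (nat_lit 304) (nat_lit 8696622590) (nat_lit 76) (nat_lit 2426309058) (nat_lit 81) (nat_lit 5) (nat_lit 85) (nat_lit 5) (nat_lit 82) (nat_lit 4) (nat_lit 623) (nat_lit 478) (nat_lit 459)) (XT.nd (nat_lit 79482) (nat_lit 0) (nat_lit 6460) (XT.lf (nat_lit 0) (nat_lit 1412360640) (nat_lit 228) (nat_lit 4498751567) (nat_lit 304) (nat_lit 6023433819) (nat_lit 78) (nat_lit 5) (nat_lit 81) (nat_lit 5) (nat_lit 82) (nat_lit 4) (nat_lit 624) (nat_lit 478) (nat_lit 458)) (XT.lf (nat_lit 0) (nat_lit 1794511537) (nat_lit 456) (nat_lit 1271901676) (nat_lit 0) (nat_lit 1794511537) (nat_lit 163) (nat_lit 5) (nat_lit 169) (nat_lit 4) (nat_lit 163) (nat_lit 4) (nat_lit 602) (nat_lit 479) (nat_lit 479))))))))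
noncomputable def xc3 : XT := (XT.nd (nat_lit 1560) (nat_lit 304) (nat_lit 0) (XT.nd (nat_lit 780) (nat_lit 2584) (nat_lit 0) (XT.nd (nat_lit 390) (nat_lit 1444) (nat_lit 0) (XT.nd (nat_lit 156) (nat_lit 1140) (nat_lit 0) (XT.nd (nat_lit 78) (nat_lit 380) (nat_lit 0) (XT.lf (nat_lit 0) (nat_lit 6229193081) (nat_lit 380) (nat_lit 2172928789) (nat_lit 380) (nat_lit 1403452677) (nat_lit 158) (nat_lit 4) (nat_lit 163) (nat_lit 5) (nat_lit 163) (nat_lit 4) (nat_lit 603) (nat_lit 479) (nat_lit 478)) (XT.lf (nat_lit 0) (nat_lit 3366544880) (nat_lit 380) (nat_lit 4651609397) (nat_lit 0) (nat_lit 1872560117) (nat_lit 153) (nat_lit 5) (nat_lit 158) (nat_lit 4) (nat_lit 153) (nat_lit 4) (nat_lit 604) (nat_lit 479) (nat_lit 477))) (XT.nd (nat_lit 78) (nat_lit 760) (nat_lit 0) (XT.lf (nat_lit 0) (nat_lit 4216988508) (nat_lit 380) (nat_lit 3989795977) (nat_lit 380) (nat_lit 1770716688) (nat_lit 148) (nat_lit 4) (nat_lit 153) (nat_lit 5) (nat_lit 153) (nat_lit 4) (nat_lit 605) (nat_lit 479) (nat_lit 476)) (XT.nd (nat_lit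 78) (nat_lit 380) (nat_lit 0) (XT.lf (nat_lit 0) (nat_lit 3018245114) (nat_lit 380) (nat_lit 6902026098) (nat_lit 0) (nat_lit 145738961) (nat_lit 143) (nat_lit 5) (nat_lit 148) (nat_lit 4) (nat_lit 143) (nat_lit 4) (nat_lit 606) (nat_lit 479) (nat_lit 475)) (XT.lf (nat_lit 0) (nat_lit 2060821360) (nat_lit 380) (nat_lit 5825437695) (nat_lit 380) (nat_lit 2269658775) (nat_lit 138) (nat_lit 4) (nat_lit 143) (nat_lit 5) (nat_lit 143) (nat_lit 4) (nat_lit 607) (nat_lit 479) (nat_lit 474))))) (XT.nd (nat_lit 156) (nat_lit 1064) (nat_lit 0) (XT.nd (nat_lit 78) (nat_lit 0) (nat_lit 0) (XT.lf (nat_lit 0) (nat_lit 927211336) (nat_lit 304) (nat_lit 1623712187) (nat_lit 380) (nat_lit 7696742794) (nat_lit 133) (nat_lit 5) (nat_lit 137) (nat_lit 5) (nat_lit 138) (nat_lit 4) (nat_lit 608) (nat_lit 479) (nat_lit 473)) (XT.lf (nat_lit 0) (nat_lit 7438291927) (nat_lit 380) (nat_lit 251014070) (nat_lit 0) (nat_lit 2651630520) (nat_lit 133) (nat_lit 5) (nat_lit 138) (nat_lit 4) (nat_lit 133) (nat_lit 4) (nat_lit 609) (nat_lit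 479) (nat_lit 472))) (XT.nd (nat_lit 78) (nat_lit 684) (nat_lit 0) (XT.lf (nat_lit 0) (nat_lit 1960563543) (nat_lit 380) (nat_lit 1457561469) (nat_lit 76) (nat_lit 7017705212) (nat_lit 128) (nat_lit 5) (nat_lit 133) (nat_lit 5) (nat_lit 129) (nat_lit 4) (nat_lit 610) (nat_lit 479) (nat_lit 471)) (XT.nd (nat_lit 78) (nat_lit 380) (nat_lit 0) (XT.lf (nat_lit 0) (nat_lit 6871343912) (nat_lit 380) (nat_lit 2708161897) (nat_lit 0) (nat_lit 952950751) (nat_lit 124) (nat_lit 5) (nat_lit 129) (nat_lit 4) (nat_lit 124) (nat_lit 4) (nat_lit 611) (nat_lit 479) (nat_lit 470)) (XT.lf (nat_lit 0) (nat_lit 1239152581) (nat_lit 380) (nat_lit 4010135008) (nat_lit 76) (nat_lit 5381443235) (nat_lit 119) (nat_lit 5) (nat_lit 124) (nat_lit 5) (nat_lit 120) (nat_lit 4) (nat_lit 612) (nat_lit 479) (nat_lit 469)))))) (XT.nd (nat_lit 390) (nat_lit 1368) (nat_lit 0) (XT.nd (nat_lit 156) (nat_lit 608) (nat_lit 0) (XT.nd (nat_lit 78) (nat_lit 380) (nat_lit 0) (XT.lf (nat_lit 0) (nat_lit 5371908375) (nat_lit 228) (nat_lit 800516538)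 (nat_lit 304) (nat_lit 4558383039) (nat_lit 116) (nat_lit 5) (nat_lit 119) (nat_lit 5) (nat_lit 120) (nat_lit 4) (nat_lit 613) (nat_lit 479) (nat_lit 468)) (XT.lf (nat_lit 0) (nat_lit 375588757) (nat_lit 380) (nat_lit 6759077411) (nat_lit 76) (nat_lit 3697994310) (nat_lit 111) (nat_lit 5) (nat_lit 116) (nat_lit 5) (nat_lit 112) (nat_lit 4) (nat_lit 614) (nat_lit 479) (nat_lit 467))) (XT.nd (nat_lit 78) (nat_lit 380) (nat_lit 0) (XT.lf (nat_lit 0) (nat_lit 2714738551) (nat_lit 228) (nat_lit 2622903174) (nat_lit 304) (nat_lit 5598498695) (nat_lit 108) (nat_lit 5) (nat_lit 111) (nat_lit 5) (nat_lit 112) (nat_lit 4) (nat_lit 615) (nat_lit 479) (nat_lit 466)) (XT.nd (nat_lit 78) (nat_lit 76) (nat_lit 0) (XT.lf (nat_lit 0) (nat_lit 1316027867) (nat_lit 304) (nat_lit 9081499736) (nat_lit 304) (nat_lit 644192237) (nat_lit 104) (nat_lit 4) (nat_lit 108) (nat_lit 5) (nat_lit 108) (nat_lit 4) (nat_lit 616) (nat_lit 479) (nat_lit 465)) (XT.lf (nat_lit 0) (nat_lit 4355955667) (nat_lit 380) (nat_lit 156112415) (nat_lit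 76) (nat_lit 6636680213) (nat_lit 103) (nat_lit 5) (nat_lit 108) (nat_lit 5) (nat_lit 104) (nat_lit 4) (nat_lit 617) (nat_lit 479) (nat_lit 464))))) (XT.nd (nat_lit 156) (nat_lit 760) (nat_lit 0) (XT.nd (nat_lit 78) (nat_lit 380) (nat_lit 0) (XT.lf (nat_lit 0) (nat_lit 9444009247) (nat_lit 304) (nat_lit 1647163727) (nat_lit 0) (nat_lit 166730233) (nat_lit 100) (nat_lit 5) (nat_lit 104) (nat_lit 4) (nat_lit 100) (nat_lit 4) (nat_lit 618) (nat_lit 479) (nat_lit 463)) (XT.lf (nat_lit 0) (nat_lit 3239128250) (nat_lit 380) (nat_lit 3222207779) (nat_lit 76) (nat_lit 4907135603) (nat_lit 95) (nat_lit 5) (nat_lit 100) (nat_lit 5) (nat_lit 96) (nat_lit 4) (nat_lit 619) (nat_lit 479) (nat_lit 462))) (XT.nd (nat_lit 78) (nat_lit 532) (nat_lit 0) (XT.lf (nat_lit 0) (nat_lit 6636621786) (nat_lit 228) (nat_lit 1719946760) (nat_lit 304) (nat_lit 3124691694) (nat_lit 92) (nat_lit 5) (nat_lit 95) (nat_lit 5) (nat_lit 96) (nat_lit 4) (nat_lit 620) (nat_lit 479) (nat_lit 461)) (XT.nd (nat_lit 78) (nat_lit 228) (nat_lit 0)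 (XT.lf (nat_lit 0) (nat_lit 1962719135) (nat_lit 304) (nat_lit 6537921193) (nat_lit 76) (nat_lit 3095235946) (nat_lit 88) (nat_lit 5) (nat_lit 92) (nat_lit 5) (nat_lit 89) (nat_lit 4) (nat_lit 621) (nat_lit 479) (nat_lit 460)) (XT.lf (nat_lit 0) (nat_lit 3408984469) (nat_lit 228) (nat_lit 3701117096) (nat_lit 304) (nat_lit 4602270154) (nat_lit 85) (nat_lit 5) (nat_lit 88) (nat_lit 5) (nat_lit 89) (nat_lit 4) (nat_lit 622) (nat_lit 479) (nat_lit 459))))))) (XT.nd (nat_lit 80028) (nat_lit 0) (nat_lit 1444) (XT.nd (nat_lit 79638) (nat_lit 0) (nat_lit 4332) (XT.nd (nat_lit 79404) (nat_lit 0) (nat_lit 6232) (XT.nd (nat_lit 78) (nat_lit 0) (nat_lit 0) (XT.lf (nat_lit 0) (nat_lit 519313511) (nat_lit 304) (nat_lit 10122935915) (nat_lit 76) (nat_lit 1188939908) (nat_lit 81) (nat_lit 5) (nat_lit 85) (nat_lit 5) (nat_lit 82) (nat_lit 4) (nat_lit 623) (nat_lit 479) (nat_lit 458)) (XT.lf (nat_lit 0) (nat_lit 5696483094) (nat_lit 304) (nat_lit 89858719) (nat_lit 76) (nat_lit 6165138849) (nat_lit 81) (nat_lit 5) (nat_lit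 85) (nat_lit 5) (nat_lit 82) (nat_lit 4) (nat_lit 624) (nat_lit 479) (nat_lit 457))) (XT.nd (nat_lit 78) (nat_lit 836) (nat_lit 0) (XT.lf (nat_lit 0) (nat_lit 2262595618) (nat_lit 456) (nat_lit 254094429) (nat_lit 0) (nat_lit 2262595618) (nat_lit 174) (nat_lit 5) (nat_lit 180) (nat_lit 4) (nat_lit 174) (nat_lit 4) (nat_lit 600) (nat_lit 480) (nat_lit 480)) (XT.nd (nat_lit 78) (nat_lit 456) (nat_lit 0) (XT.lf (nat_lit 0) (nat_lit 8111942779) (nat_lit 380) (nat_lit 1164312186) (nat_lit 380) (nat_lit 363749239) (nat_lit 169) (nat_lit 4) (nat_lit 174) (nat_lit 5) (nat_lit 174) (nat_lit 4) (nat_lit 601) (nat_lit 480) (nat_lit 479)) (XT.lf (nat_lit 0) (nat_lit 4337798315) (nat_lit 456) (nat_lit 2601317666) (nat_lit 0) (nat_lit 2783456567) (nat_lit 163) (nat_lit 5) (nat_lit 169) (nat_lit 4) (nat_lit 163) (nat_lit 4) (nat_lit 602) (nat_lit 480) (nat_lit 478))))) (XT.nd (nat_lit 156) (nat_lit 1140) (nat_lit 0) (XT.nd (nat_lit 78) (nat_lit 380) (nat_lit 0) (XT.lf (nat_lit 0) (nat_lit 6113778504) (nat_lit 380) (nat_lit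 3000986519) (nat_lit 380) (nat_lit 692256426) (nat_lit 158) (nat_lit 4) (nat_lit 163) (nat_lit 5) (nat_lit 163) (nat_lit 4) (nat_lit 603) (nat_lit 480) (nat_lit 477)) (XT.lf (nat_lit 0) (nat_lit 4026465764) (nat_lit 380) (nat_lit 4828532945) (nat_lit 0) (nat_lit 1037910362) (nat_lit 153) (nat_lit 5) (nat_lit 158) (nat_lit 4) (nat_lit 153) (nat_lit 4) (nat_lit 604) (nat_lit 480) (nat_lit 476))) (XT.nd (nat_lit 78) (nat_lit 760) (nat_lit 0) (XT.lf (nat_lit 0) (nat_lit 3980283476) (nat_lit 380) (nat_lit 4849789279) (nat_lit 380) (nat_lit 1150356890) (nat_lit 148) (nat_lit 4) (nat_lit 153) (nat_lit 5) (nat_lit 153) (nat_lit 4) (nat_lit 605) (nat_lit 480) (nat_lit 475)) (XT.nd (nat_lit 78) (nat_lit 380) (nat_lit 0) (XT.lf (nat_lit 0) (nat_lit 2860537717) (nat_lit 304) (nat_lit 731991157) (nat_lit 380) (nat_lit 6477089114) (nat_lit 143) (nat_lit 5) (nat_lit 147) (nat_lit 5) (nat_lit 148) (nat_lit 4) (nat_lit 606) (nat_lit 480) (nat_lit 474)) (XT.lf (nat_lit 0) (nat_lit 1696794709) (nat_lit 380) (nat_lit 6721806685)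 (nat_lit 380) (nat_lit 1741764158) (nat_lit 138) (nat_lit 4) (nat_lit 143) (nat_lit 5) (nat_lit 143) (nat_lit 4) (nat_lit 607) (nat_lit 480) (nat_lit 473)))))) (XT.nd (nat_lit 390) (nat_lit 1444) (nat_lit 0) (XT.nd (nat_lit 156) (nat_lit 1064) (nat_lit 0) (XT.nd (nat_lit 78) (nat_lit 0) (nat_lit 0) (XT.lf (nat_lit 0) (nat_lit 492570322) (nat_lit 304) (nat_lit 2541762995) (nat_lit 380) (nat_lit 7218464438) (nat_lit 133) (nat_lit 5) (nat_lit 137) (nat_lit 5) (nat_lit 138) (nat_lit 4) (nat_lit 608) (nat_lit 480) (nat_lit 472)) (XT.lf (nat_lit 0) (nat_lit 7881170602) (nat_lit 380) (nat_lit 742034633) (nat_lit 0) (nat_lit 1723674357) (nat_lit 133) (nat_lit 5) (nat_lit 138) (nat_lit 4) (nat_lit 133) (nat_lit 4) (nat_lit 609) (nat_lit 480) (nat_lit 471))) (XT.nd (nat_lit 78) (nat_lit 684) (nat_lit 0) (XT.lf (nat_lit 0) (nat_lit 2354027316) (nat_lit 380) (nat_lit 2021222262) (nat_lit 76) (nat_lit 6067222787) (nat_lit 128) (nat_lit 5) (nat_lit 133) (nat_lit 5) (nat_lit 129) (nat_lit 4) (nat_lit 610) (nat_lit 480)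 (nat_lit 470)) (XT.nd (nat_lit 78) (nat_lit 380) (nat_lit 0) (XT.lf (nat_lit 0) (nat_lit 7202623175) (nat_lit 304) (nat_lit 18023992) (nat_lit 380) (nat_lit 3319335701) (nat_lit 124) (nat_lit 5) (nat_lit 128) (nat_lit 5) (nat_lit 129) (nat_lit 4) (nat_lit 611) (nat_lit 480) (nat_lit 469)) (XT.lf (nat_lit 0) (nat_lit 1537909074) (nat_lit 380) (nat_lit 4714908147) (nat_lit 76) (nat_lit 4386167212) (nat_lit 119) (nat_lit 5) (nat_lit 124) (nat_lit 5) (nat_lit 120) (nat_lit 4) (nat_lit 612) (nat_lit 480) (nat_lit 468))))) (XT.nd (nat_lit 234) (nat_lit 608) (nat_lit 0) (XT.nd (nat_lit 78) (nat_lit 608) (nat_lit 0) (XT.lf (nat_lit 0) (nat_lit 4600617729) (nat_lit 228) (nat_lit 1831973504) (nat_lit 304) (nat_lit 4307243034) (nat_lit 116) (nat_lit 5) (nat_lit 119) (nat_lit 5) (nat_lit 120) (nat_lit 4) (nat_lit 613) (nat_lit 480) (nat_lit 467)) (XT.nd (nat_lit 78) (nat_lit 228) (nat_lit 0) (XT.lf (nat_lit 0) (nat_lit 577538235) (nat_lit 380) (nat_lit 7611547486) (nat_lit 76) (nat_lit 2653487264) (nat_lit 111) (nat_lit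 5) (nat_lit 116) (nat_lit 5) (nat_lit 112) (nat_lit 4) (nat_lit 614) (nat_lit 480) (nat_lit 466)) (XT.lf (nat_lit 0) (nat_lit 1793565103) (nat_lit 228) (nat_lit 3706680311) (nat_lit 304) (nat_lit 5446595277) (nat_lit 108) (nat_lit 5) (nat_lit 111) (nat_lit 5) (nat_lit 112) (nat_lit 4) (nat_lit 615) (nat_lit 480) (nat_lit 465)))) (XT.nd (nat_lit 78) (nat_lit 304) (nat_lit 0) (XT.lf (nat_lit 0) (nat_lit 321384422) (nat_lit 304) (nat_lit 10192026014) (nat_lit 304) (nat_lit 539944927) (nat_lit 104) (nat_lit 4) (nat_lit 108) (nat_lit 5) (nat_lit 108) (nat_lit 4) (nat_lit 616) (nat_lit 480) (nat_lit 464)) (XT.nd (nat_lit 78) (nat_lit 228) (nat_lit 0) (XT.lf (nat_lit 0) (nat_lit 4425675813) (nat_lit 380) (nat_lit 1219897673) (nat_lit 76) (nat_lit 5515460795) (nat_lit 103) (nat_lit 5) (nat_lit 108) (nat_lit 5) (nat_lit 104) (nat_lit 4) (nat_lit 617) (nat_lit 480) (nat_lit 463)) (XT.lf (nat_lit 0) (nat_lit 8477480355) (nat_lit 228) (nat_lit 995277248) (nat_lit 304) (nat_lit 1798251811) (nat_lit 100) (nat_lit 5)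 (nat_lit 103) (nat_lit 5) (nat_lit 104) (nat_lit 4) (nat_lit 618) (nat_lit 480) (nat_lit 462))))))))
noncomputable def xc4 : XT := (XT.nd (nat_lit 80652) (nat_lit 0) (nat_lit 0) (XT.nd (nat_lit 79872) (nat_lit 0) (nat_lit 3268) (XT.nd (nat_lit 390) (nat_lit 0) (nat_lit 0) (XT.nd (nat_lit 156) (nat_lit 836) (nat_lit 0) (XT.nd (nat_lit 78) (nat_lit 228) (nat_lit 0) (XT.lf (nat_lit 0) (nat_lit 3207544639) (nat_lit 380) (nat_lit 4447679272) (nat_lit 76) (nat_lit 3727293063) (nat_lit 95) (nat_lit 5) (nat_lit 100) (nat_lit 5) (nat_lit 96) (nat_lit 4) (nat_lit 619) (nat_lit 480) (nat_lit 461)) (XT.lf (nat_lit 0) (nat_lit 5338214673) (nat_lit 228) (nat_lit 2946019763) (nat_lit 304) (nat_lit 3211886897) (nat_lit 92) (nat_lit 5) (nat_lit 95) (nat_lit 5) (nat_lit 96) (nat_lit 4) (nat_lit 620) (nat_lit 480) (nat_lit 460))) (XT.nd (nat_lit 78) (nat_lit 532) (nat_lit 0) (XT.lf (nat_lit 0) (nat_lit 1827225121) (nat_lit 304) (nat_lit 7932301210) (nat_lit 76) (nat_lit 1852211917) (nat_lit 88) (nat_lit 5) (nat_lit 92) (nat_lit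 5) (nat_lit 89) (nat_lit 4) (nat_lit 621) (nat_lit 480) (nat_lit 459)) (XT.nd (nat_lit 78) (nat_lit 304) (nat_lit 0) (XT.lf (nat_lit 0) (nat_lit 1939241148) (nat_lit 228) (nat_lit 4993681922) (nat_lit 304) (nat_lit 4796145012) (nat_lit 85) (nat_lit 5) (nat_lit 88) (nat_lit 5) (nat_lit 89) (nat_lit 4) (nat_lit 622) (nat_lit 480) (nat_lit 458)) (XT.lf (nat_lit 0) (nat_lit 154422070) (nat_lit 228) (nat_lit 123511791) (nat_lit 304) (nat_lit 11570978631) (nat_lit 81) (nat_lit 5) (nat_lit 84) (nat_lit 5) (nat_lit 85) (nat_lit 5) (nat_lit 623) (nat_lit 480) (nat_lit 457))))) (XT.nd (nat_lit 79248) (nat_lit 0) (nat_lit 6612) (XT.nd (nat_lit 79170) (nat_lit 0) (nat_lit 7524) (XT.lf (nat_lit 0) (nat_lit 5422327742) (nat_lit 304) (nat_lit 1716868826) (nat_lit 76) (nat_lit 4830663422) (nat_lit 81) (nat_lit 5) (nat_lit 85) (nat_lit 5) (nat_lit 82) (nat_lit 4) (nat_lit 624) (nat_lit 480) (nat_lit 456)) (XT.lf (nat_lit 0) (nat_lit 769858413) (nat_lit 380) (nat_lit 1965040017) (nat_lit 380) (nat_lit 1965040017) (nat_lit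 180) (nat_lit 4) (nat_lit 185) (nat_lit 5) (nat_lit 185) (nat_lit 4) (nat_lit 598) (nat_lit 481) (nat_lit 481))) (XT.nd (nat_lit 78) (nat_lit 456) (nat_lit 0) (XT.lf (nat_lit 0) (nat_lit 512048305) (nat_lit 380) (nat_lit 153770504) (nat_lit 456) (nat_lit 8813279745) (nat_lit 174) (nat_lit 5) (nat_lit 179) (nat_lit 5) (nat_lit 180) (nat_lit 4) (nat_lit 599) (nat_lit 481) (nat_lit 480)) (XT.nd (nat_lit 78) (nat_lit 456) (nat_lit 0) (XT.lf (nat_lit 0) (nat_lit 5306078167) (nat_lit 456) (nat_lit 564267186) (nat_lit 0) (nat_lit 3688941013) (nat_lit 174) (nat_lit 5) (nat_lit 180) (nat_lit 4) (nat_lit 174) (nat_lit 4) (nat_lit 600) (nat_lit 481) (nat_lit 479)) (XT.lf (nat_lit 0) (nat_lit 375005243) (nat_lit 456) (nat_lit 1644492196) (nat_lit 76) (nat_lit 7621888082) (nat_lit 168) (nat_lit 5) (nat_lit 174) (nat_lit 5) (nat_lit 169) (nat_lit 4) (nat_lit 601) (nat_lit 481) (nat_lit 478)))))) (XT.nd (nat_lit 390) (nat_lit 1444) (nat_lit 0) (XT.nd (nat_lit 156) (nat_lit 1140) (nat_lit 0) (XT.nd (nat_lit 78) (nat_lit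 380) (nat_lit 0) (XT.lf (nat_lit 0) (nat_lit 5030075926) (nat_lit 456) (nat_lit 2773883158) (nat_lit 0) (nat_lit 1920782886) (nat_lit 163) (nat_lit 5) (nat_lit 169) (nat_lit 4) (nat_lit 163) (nat_lit 4) (nat_lit 602) (nat_lit 481) (nat_lit 477)) (XT.lf (nat_lit 0) (nat_lit 5882904090) (nat_lit 380) (nat_lit 3887950594) (nat_lit 380) (nat_lit 39061137) (nat_lit 158) (nat_lit 4) (nat_lit 163) (nat_lit 5) (nat_lit 163) (nat_lit 4) (nat_lit 603) (nat_lit 481) (nat_lit 476))) (XT.nd (nat_lit 78) (nat_lit 760) (nat_lit 0) (XT.lf (nat_lit 0) (nat_lit 4628691615) (nat_lit 380) (nat_lit 5123482614) (nat_lit 0) (nat_lit 144393592) (nat_lit 153) (nat_lit 5) (nat_lit 158) (nat_lit 4) (nat_lit 153) (nat_lit 4) (nat_lit 604) (nat_lit 481) (nat_lit 475)) (XT.nd (nat_lit 78) (nat_lit 380) (nat_lit 0) (XT.lf (nat_lit 0) (nat_lit 3625109902) (nat_lit 380) (nat_lit 5770475068) (nat_lit 380) (nat_lit 589238822) (nat_lit 148) (nat_lit 4) (nat_lit 153) (nat_lit 5) (nat_lit 153) (nat_lit 4) (nat_lit 605) (nat_lit 481) (nat_lit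 474)) (XT.lf (nat_lit 0) (nat_lit 2436102984) (nat_lit 304) (nat_lit 1673110875) (nat_lit 380) (nat_lit 5965467968) (nat_lit 143) (nat_lit 5) (nat_lit 147) (nat_lit 5) (nat_lit 148) (nat_lit 4) (nat_lit 606) (nat_lit 481) (nat_lit 473))))) (XT.nd (nat_lit 156) (nat_lit 988) (nat_lit 0) (XT.nd (nat_lit 78) (nat_lit 76) (nat_lit 0) (XT.lf (nat_lit 0) (nat_lit 1211203805) (nat_lit 380) (nat_lit 7680676924) (nat_lit 380) (nat_lit 1274417831) (nat_lit 138) (nat_lit 4) (nat_lit 143) (nat_lit 5) (nat_lit 143) (nat_lit 4) (nat_lit 607) (nat_lit 481) (nat_lit 472)) (XT.lf (nat_lit 0) (nat_lit 3458293973) (nat_lit 456) (nat_lit 64368456) (nat_lit 76) (nat_lit 6736753792) (nat_lit 137) (nat_lit 5) (nat_lit 143) (nat_lit 5) (nat_lit 138) (nat_lit 4) (nat_lit 608) (nat_lit 481) (nat_lit 471))) (XT.nd (nat_lit 78) (nat_lit 684) (nat_lit 0) (XT.lf (nat_lit 0) (nat_lit 8264443654) (nat_lit 380) (nat_lit 1356171284) (nat_lit 0) (nat_lit 733697867) (nat_lit 133) (nat_lit 5) (nat_lit 138) (nat_lit 4) (nat_lit 133) (nat_lit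 4) (nat_lit 609) (nat_lit 481) (nat_lit 470)) (XT.nd (nat_lit 78) (nat_lit 304) (nat_lit 0) (XT.lf (nat_lit 0) (nat_lit 2687057537) (nat_lit 380) (nat_lit 2709616224) (nat_lit 76) (nat_lit 5053941580) (nat_lit 128) (nat_lit 5) (nat_lit 133) (nat_lit 5) (nat_lit 129) (nat_lit 4) (nat_lit 610) (nat_lit 481) (nat_lit 469)) (XT.lf (nat_lit 0) (nat_lit 6449282056) (nat_lit 304) (nat_lit 1066353868) (nat_lit 380) (nat_lit 3033251687) (nat_lit 124) (nat_lit 5) (nat_lit 128) (nat_lit 5) (nat_lit 129) (nat_lit 4) (nat_lit 611) (nat_lit 481) (nat_lit 468))))))) (XT.nd (nat_lit 780) (nat_lit 532) (nat_lit 0) (XT.nd (nat_lit 390) (nat_lit 1520) (nat_lit 0) (XT.nd (nat_lit 156) (nat_lit 608) (nat_lit 0) (XT.nd (nat_lit 78) (nat_lit 228) (nat_lit 0) (XT.lf (nat_lit 0) (nat_lit 1774804163) (nat_lit 380) (nat_lit 5547708570) (nat_lit 76) (nat_lit 3326248934) (nat_lit 119) (nat_lit 5) (nat_lit 124) (nat_lit 5) (nat_lit 120) (nat_lit 4) (nat_lit 612) (nat_lit 481) (nat_lit 467)) (XT.lf (nat_lit 0) (nat_lit 3700718999) (nat_lit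 228) (nat_lit 2930000620) (nat_lit 304) (nat_lit 4119668100) (nat_lit 116) (nat_lit 5) (nat_lit 119) (nat_lit 5) (nat_lit 120) (nat_lit 4) (nat_lit 613) (nat_lit 481) (nat_lit 466))) (XT.nd (nat_lit 78) (nat_lit 228) (nat_lit 0) (XT.lf (nat_lit 0) (nat_lit 716129566) (nat_lit 380) (nat_lit 8595443438) (nat_lit 76) (nat_lit 1542460397) (nat_lit 111) (nat_lit 5) (nat_lit 116) (nat_lit 5) (nat_lit 112) (nat_lit 4) (nat_lit 614) (nat_lit 481) (nat_lit 465)) (XT.nd (nat_lit 78) (nat_lit 0) (nat_lit 0) (XT.lf (nat_lit 0) (nat_lit 740344188) (nat_lit 228) (nat_lit 4858943645) (nat_lit 304) (nat_lit 5359805088) (nat_lit 108) (nat_lit 5) (nat_lit 111) (nat_lit 5) (nat_lit 112) (nat_lit 4) (nat_lit 615) (nat_lit 481) (nat_lit 464)) (XT.lf (nat_lit 0) (nat_lit 10267964987) (nat_lit 228) (nat_lit 304320946) (nat_lit 304) (nat_lit 494125813) (nat_lit 108) (nat_lit 5) (nat_lit 111) (nat_lit 5) (nat_lit 112) (nat_lit 4) (nat_lit 616) (nat_lit 481) (nat_lit 463))))) (XT.nd (nat_lit 156) (nat_lit 912) (nat_lit 0) (XT.nd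 (nat_lit 78) (nat_lit 228) (nat_lit 0) (XT.lf (nat_lit 0) (nat_lit 4431120675) (nat_lit 380) (nat_lit 2417503226) (nat_lit 76) (nat_lit 4326257066) (nat_lit 103) (nat_lit 5) (nat_lit 108) (nat_lit 5) (nat_lit 104) (nat_lit 4) (nat_lit 617) (nat_lit 481) (nat_lit 462)) (XT.lf (nat_lit 0) (nat_lit 7208610658) (nat_lit 228) (nat_lit 2229481163) (nat_lit 304) (nat_lit 1847567262) (nat_lit 100) (nat_lit 5) (nat_lit 103) (nat_lit 5) (nat_lit 104) (nat_lit 4) (nat_lit 618) (nat_lit 481) (nat_lit 461))) (XT.nd (nat_lit 78) (nat_lit 532) (nat_lit 0) (XT.lf (nat_lit 0) (nat_lit 3110042192) (nat_lit 380) (nat_lit 5810591884) (nat_lit 76) (nat_lit 2477516387) (nat_lit 95) (nat_lit 5) (nat_lit 100) (nat_lit 5) (nat_lit 96) (nat_lit 4) (nat_lit 619) (nat_lit 481) (nat_lit 460)) (XT.nd (nat_lit 78) (nat_lit 304) (nat_lit 0) (XT.lf (nat_lit 0) (nat_lit 3901650701) (nat_lit 228) (nat_lit 4244067515) (nat_lit 304) (nat_lit 3366857606) (nat_lit 92) (nat_lit 5) (nat_lit 95) (nat_lit 5) (nat_lit 96) (nat_lit 4) (nat_lit 620)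 (nat_lit 481) (nat_lit 459)) (XT.lf (nat_lit 0) (nat_lit 1624094521) (nat_lit 304) (nat_lit 9467865288) (nat_lit 76) (nat_lit 537257597) (nat_lit 88) (nat_lit 5) (nat_lit 92) (nat_lit 5) (nat_lit 89) (nat_lit 4) (nat_lit 621) (nat_lit 481) (nat_lit 458)))))) (XT.nd (nat_lit 79326) (nat_lit 0) (nat_lit 6232) (XT.nd (nat_lit 156) (nat_lit 304) (nat_lit 0) (XT.nd (nat_lit 78) (nat_lit 0) (nat_lit 0) (XT.lf (nat_lit 0) (nat_lit 327551871) (nat_lit 228) (nat_lit 6360264743) (nat_lit 304) (nat_lit 5059570826) (nat_lit 85) (nat_lit 5) (nat_lit 88) (nat_lit 5) (nat_lit 89) (nat_lit 4) (nat_lit 622) (nat_lit 481) (nat_lit 457)) (XT.lf (nat_lit 0) (nat_lit 10336872575) (nat_lit 228) (nat_lit 1516352982) (nat_lit 304) (nat_lit 14688423) (nat_lit 85) (nat_lit 5) (nat_lit 88) (nat_lit 5) (nat_lit 89) (nat_lit 4) (nat_lit 623) (nat_lit 481) (nat_lit 456))) (XT.nd (nat_lit 79014) (nat_lit 0) (nat_lit 7904) (XT.lf (nat_lit 0) (nat_lit 5079368659) (nat_lit 304) (nat_lit 3487831088) (nat_lit 76) (nat_lit 3422674873) (nat_lit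 81) (nat_lit 5) (nat_lit 85) (nat_lit 5) (nat_lit 82) (nat_lit 4) (nat_lit 624) (nat_lit 481) (nat_lit 455)) (XT.nd (nat_lit 78) (nat_lit 456) (nat_lit 0) (XT.lf (nat_lit 0) (nat_lit 1795778208) (nat_lit 456) (nat_lit 1413569246) (nat_lit 456) (nat_lit 1413569246) (nat_lit 191) (nat_lit 4) (nat_lit 197) (nat_lit 5) (nat_lit 197) (nat_lit 4) (nat_lit 596) (nat_lit 482) (nat_lit 482)) (XT.lf (nat_lit 0) (nat_lit 1704255329) (nat_lit 456) (nat_lit 6763636377) (nat_lit 0) (nat_lit 854691525) (nat_lit 185) (nat_lit 5) (nat_lit 191) (nat_lit 4) (nat_lit 185) (nat_lit 4) (nat_lit 597) (nat_lit 482) (nat_lit 481))))) (XT.nd (nat_lit 156) (nat_lit 836) (nat_lit 0) (XT.nd (nat_lit 78) (nat_lit 456) (nat_lit 0) (XT.lf (nat_lit 0) (nat_lit 1484332403) (nat_lit 380) (nat_lit 4799364304) (nat_lit 380) (nat_lit 3116894809) (nat_lit 180) (nat_lit 4) (nat_lit 185) (nat_lit 5) (nat_lit 185) (nat_lit 4) (nat_lit 598) (nat_lit 482) (nat_lit 480)) (XT.lf (nat_lit 0) (nat_lit 394358503) (nat_lit 380) (nat_lit 1038018825) (nat_lit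 456) (nat_lit 8048050773) (nat_lit 174) (nat_lit 5) (nat_lit 179) (nat_lit 5) (nat_lit 180) (nat_lit 4) (nat_lit 599) (nat_lit 482) (nat_lit 479))) (XT.nd (nat_lit 78) (nat_lit 836) (nat_lit 0) (XT.lf (nat_lit 0) (nat_lit 6031908033) (nat_lit 456) (nat_lit 732524161) (nat_lit 0) (nat_lit 2796999554) (nat_lit 174) (nat_lit 5) (nat_lit 180) (nat_lit 4) (nat_lit 174) (nat_lit 4) (nat_lit 600) (nat_lit 482) (nat_lit 478)) (XT.nd (nat_lit 78) (nat_lit 380) (nat_lit 0) (XT.lf (nat_lit 0) (nat_lit 1053197351) (nat_lit 456) (nat_lit 1876925941) (nat_lit 76) (nat_lit 6714034877) (nat_lit 168) (nat_lit 5) (nat_lit 174) (nat_lit 5) (nat_lit 169) (nat_lit 4) (nat_lit 601) (nat_lit 482) (nat_lit 477)) (XT.lf (nat_lit 0) (nat_lit 5666127391) (nat_lit 456) (nat_lit 3061567503) (nat_lit 0) (nat_lit 1000663727) (nat_lit 163) (nat_lit 5) (nat_lit 169) (nat_lit 4) (nat_lit 163) (nat_lit 4) (nat_lit 602) (nat_lit 482) (nat_lit 476))))))))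
noncomputable def xc5 : XT := (XT.nd (nat_lit 1560) (nat_lit 532) (nat_lit 0) (XT.nd (nat_lit 780) (nat_lit 2356) (nat_lit 0) (XT.nd (nat_lit 390) (nat_lit 1444) (nat_lit 0) (XT.nd (nat_lit 156) (nat_lit 1140) (nat_lit 0) (XT.nd (nat_lit 78) (nat_lit 304) (nat_lit 0) (XT.lf (nat_lit 0) (nat_lit 549092199) (nat_lit 456) (nat_lit 4281391947) (nat_lit 76) (nat_lit 4983702404) (nat_lit 157) (nat_lit 5) (nat_lit 163) (nat_lit 5) (nat_lit 158) (nat_lit 4) (nat_lit 603) (nat_lit 482) (nat_lit 475)) (XT.lf (nat_lit 0) (nat_lit 4359693618) (nat_lit 304) (nat_lit 819083013) (nat_lit 380) (nat_lit 4722809089) (nat_lit 153) (nat_lit 5) (nat_lit 157) (nat_lit 5) (nat_lit 158) (nat_lit 4) (nat_lit 604) (nat_lit 482) (nat_lit 474))) (XT.nd (nat_lit 78) (nat_lit 760) (nat_lit 0) (XT.lf (nat_lit 0) (nat_lit 3151328500) (nat_lit 380) (nat_lit 6752214396) (nat_lit 380) (nat_lit 87142436) (nat_lit 148) (nat_lit 4) (nat_lit 153) (nat_lit 5) (nat_lit 153) (nat_lit 4) (nat_lit 605) (nat_lit 482) (nat_lit 473)) (XT.nd (nat_lit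 78) (nat_lit 380) (nat_lit 0) (XT.lf (nat_lit 0) (nat_lit 1891491416) (nat_lit 304) (nat_lit 2676052464) (nat_lit 380) (nat_lit 5513678972) (nat_lit 143) (nat_lit 5) (nat_lit 147) (nat_lit 5) (nat_lit 148) (nat_lit 4) (nat_lit 606) (nat_lit 482) (nat_lit 472)) (XT.lf (nat_lit 0) (nat_lit 603858221) (nat_lit 380) (nat_lit 8702424439) (nat_lit 380) (nat_lit 867436523) (nat_lit 138) (nat_lit 4) (nat_lit 143) (nat_lit 5) (nat_lit 143) (nat_lit 4) (nat_lit 607) (nat_lit 482) (nat_lit 471))))) (XT.nd (nat_lit 156) (nat_lit 1064) (nat_lit 0) (XT.nd (nat_lit 78) (nat_lit 304) (nat_lit 0) (XT.lf (nat_lit 0) (nat_lit 3826547210) (nat_lit 456) (nat_lit 736600972) (nat_lit 76) (nat_lit 5704304618) (nat_lit 137) (nat_lit 5) (nat_lit 143) (nat_lit 5) (nat_lit 138) (nat_lit 4) (nat_lit 608) (nat_lit 482) (nat_lit 470)) (XT.lf (nat_lit 0) (nat_lit 8267435655) (nat_lit 304) (nat_lit 322922359) (nat_lit 380) (nat_lit 1772839125) (nat_lit 133) (nat_lit 5) (nat_lit 137) (nat_lit 5) (nat_lit 138) (nat_lit 4) (nat_lit 609) (nat_lit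 482) (nat_lit 469))) (XT.nd (nat_lit 78) (nat_lit 684) (nat_lit 0) (XT.lf (nat_lit 0) (nat_lit 2959784808) (nat_lit 380) (nat_lit 3523013311) (nat_lit 76) (nat_lit 3977464223) (nat_lit 128) (nat_lit 5) (nat_lit 133) (nat_lit 5) (nat_lit 129) (nat_lit 4) (nat_lit 610) (nat_lit 482) (nat_lit 468)) (XT.nd (nat_lit 78) (nat_lit 380) (nat_lit 0) (XT.lf (nat_lit 0) (nat_lit 5570370679) (nat_lit 304) (nat_lit 2179785772) (nat_lit 380) (nat_lit 2809143218) (nat_lit 124) (nat_lit 5) (nat_lit 128) (nat_lit 5) (nat_lit 129) (nat_lit 4) (nat_lit 611) (nat_lit 482) (nat_lit 467)) (XT.lf (nat_lit 0) (nat_lit 1949930748) (nat_lit 380) (nat_lit 6508862866) (nat_lit 76) (nat_lit 2201272746) (nat_lit 119) (nat_lit 5) (nat_lit 124) (nat_lit 5) (nat_lit 120) (nat_lit 4) (nat_lit 612) (nat_lit 482) (nat_lit 466)))))) (XT.nd (nat_lit 390) (nat_lit 1140) (nat_lit 0) (XT.nd (nat_lit 156) (nat_lit 608) (nat_lit 0) (XT.nd (nat_lit 78) (nat_lit 380) (nat_lit 0) (XT.lf (nat_lit 0) (nat_lit 2671859285) (nat_lit 228) (nat_lit 4095028485)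 (nat_lit 304) (nat_lit 3995584679) (nat_lit 116) (nat_lit 5) (nat_lit 119) (nat_lit 5) (nat_lit 120) (nat_lit 4) (nat_lit 613) (nat_lit 482) (nat_lit 465)) (XT.lf (nat_lit 0) (nat_lit 791417100) (nat_lit 380) (nat_lit 9711151108) (nat_lit 76) (nat_lit 364478013) (nat_lit 111) (nat_lit 5) (nat_lit 116) (nat_lit 5) (nat_lit 112) (nat_lit 4) (nat_lit 614) (nat_lit 482) (nat_lit 464))) (XT.nd (nat_lit 78) (nat_lit 608) (nat_lit 0) (XT.lf (nat_lit 0) (nat_lit 5637699243) (nat_lit 380) (nat_lit 439496544) (nat_lit 76) (nat_lit 4895648292) (nat_lit 111) (nat_lit 5) (nat_lit 116) (nat_lit 5) (nat_lit 112) (nat_lit 4) (nat_lit 615) (nat_lit 482) (nat_lit 463)) (XT.nd (nat_lit 78) (nat_lit 380) (nat_lit 0) (XT.lf (nat_lit 0) (nat_lit 9028218309) (nat_lit 228) (nat_lit 1547796075) (nat_lit 304) (nat_lit 504842984) (nat_lit 108) (nat_lit 5) (nat_lit 111) (nat_lit 5) (nat_lit 112) (nat_lit 4) (nat_lit 616) (nat_lit 482) (nat_lit 462)) (XT.lf (nat_lit 0) (nat_lit 4372292387) (nat_lit 380) (nat_lit 3749398724) (nat_lit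 76) (nat_lit 3068602671) (nat_lit 103) (nat_lit 5) (nat_lit 108) (nat_lit 5) (nat_lit 104) (nat_lit 4) (nat_lit 617) (nat_lit 482) (nat_lit 461))))) (XT.nd (nat_lit 156) (nat_lit 532) (nat_lit 0) (XT.nd (nat_lit 78) (nat_lit 380) (nat_lit 0) (XT.lf (nat_lit 0) (nat_lit 5804751638) (nat_lit 228) (nat_lit 3534149757) (nat_lit 304) (nat_lit 1962978501) (nat_lit 100) (nat_lit 5) (nat_lit 103) (nat_lit 5) (nat_lit 104) (nat_lit 4) (nat_lit 618) (nat_lit 482) (nat_lit 460)) (XT.lf (nat_lit 0) (nat_lit 2946582670) (nat_lit 380) (nat_lit 7311480090) (nat_lit 76) (nat_lit 1157315467) (nat_lit 95) (nat_lit 5) (nat_lit 100) (nat_lit 5) (nat_lit 96) (nat_lit 4) (nat_lit 619) (nat_lit 482) (nat_lit 459))) (XT.nd (nat_lit 78) (nat_lit 304) (nat_lit 0) (XT.lf (nat_lit 0) (nat_lit 2326366511) (nat_lit 228) (nat_lit 5614599054) (nat_lit 304) (nat_lit 3589664595) (nat_lit 92) (nat_lit 5) (nat_lit 95) (nat_lit 5) (nat_lit 96) (nat_lit 4) (nat_lit 620) (nat_lit 482) (nat_lit 458)) (XT.nd (nat_lit 78) (nat_lit 0) (nat_lit 0)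 (XT.lf (nat_lit 0) (nat_lit 497400087) (nat_lit 228) (nat_lit 861440631) (nat_lit 304) (nat_lit 10289368021) (nat_lit 88) (nat_lit 5) (nat_lit 91) (nat_lit 5) (nat_lit 92) (nat_lit 5) (nat_lit 621) (nat_lit 482) (nat_lit 457)) (XT.lf (nat_lit 0) (nat_lit 6383949261) (nat_lit 304) (nat_lit 1408003766) (nat_lit 76) (nat_lit 3975198688) (nat_lit 88) (nat_lit 5) (nat_lit 92) (nat_lit 5) (nat_lit 89) (nat_lit 4) (nat_lit 622) (nat_lit 482) (nat_lit 456))))))) (XT.nd (nat_lit 79560) (nat_lit 0) (nat_lit 2888) (XT.nd (nat_lit 79170) (nat_lit 0) (nat_lit 6612) (XT.nd (nat_lit 78936) (nat_lit 0) (nat_lit 8360) (XT.nd (nat_lit 78) (nat_lit 304) (nat_lit 0) (XT.lf (nat_lit 0) (nat_lit 8529050560) (nat_lit 228) (nat_lit 2980408686) (nat_lit 304) (nat_lit 379017646) (nat_lit 85) (nat_lit 5) (nat_lit 88) (nat_lit 5) (nat_lit 89) (nat_lit 4) (nat_lit 623) (nat_lit 482) (nat_lit 455)) (XT.lf (nat_lit 0) (nat_lit 4667471349) (nat_lit 304) (nat_lit 5403440000) (nat_lit 76) (nat_lit 1940621049) (nat_lit 81) (nat_lit 5) (nat_lit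 85) (nat_lit 5) (nat_lit 82) (nat_lit 4) (nat_lit 624) (nat_lit 482) (nat_lit 454))) (XT.nd (nat_lit 78) (nat_lit 912) (nat_lit 0) (XT.lf (nat_lit 0) (nat_lit 2822791191) (nat_lit 456) (nat_lit 862715908) (nat_lit 456) (nat_lit 862715908) (nat_lit 203) (nat_lit 4) (nat_lit 209) (nat_lit 5) (nat_lit 209) (nat_lit 4) (nat_lit 594) (nat_lit 483) (nat_lit 483)) (XT.nd (nat_lit 78) (nat_lit 456) (nat_lit 0) (XT.lf (nat_lit 0) (nat_lit 2744211503) (nat_lit 456) (nat_lit 4566197709) (nat_lit 0) (nat_lit 1860325321) (nat_lit 197) (nat_lit 5) (nat_lit 203) (nat_lit 4) (nat_lit 197) (nat_lit 4) (nat_lit 595) (nat_lit 483) (nat_lit 482)) (XT.lf (nat_lit 0) (nat_lit 3537596060) (nat_lit 456) (nat_lit 3729692921) (nat_lit 456) (nat_lit 1979251659) (nat_lit 191) (nat_lit 4) (nat_lit 197) (nat_lit 5) (nat_lit 197) (nat_lit 4) (nat_lit 596) (nat_lit 483) (nat_lit 481))))) (XT.nd (nat_lit 156) (nat_lit 912) (nat_lit 0) (XT.nd (nat_lit 78) (nat_lit 380) (nat_lit 0) (XT.lf (nat_lit 0) (nat_lit 2449634241) (nat_lit 380) (nat_lit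 50187198) (nat_lit 456) (nat_lit 6824184281) (nat_lit 185) (nat_lit 5) (nat_lit 190) (nat_lit 5) (nat_lit 191) (nat_lit 4) (nat_lit 597) (nat_lit 483) (nat_lit 480)) (XT.lf (nat_lit 0) (nat_lit 1318157416) (nat_lit 380) (nat_lit 5725088511) (nat_lit 380) (nat_lit 2359489730) (nat_lit 180) (nat_lit 4) (nat_lit 185) (nat_lit 5) (nat_lit 185) (nat_lit 4) (nat_lit 598) (nat_lit 483) (nat_lit 479))) (XT.nd (nat_lit 78) (nat_lit 456) (nat_lit 0) (XT.lf (nat_lit 0) (nat_lit 164412388) (nat_lit 380) (nat_lit 1979436184) (nat_lit 456) (nat_lit 7339346587) (nat_lit 174) (nat_lit 5) (nat_lit 179) (nat_lit 5) (nat_lit 180) (nat_lit 4) (nat_lit 599) (nat_lit 483) (nat_lit 478)) (XT.nd (nat_lit 78) (nat_lit 456) (nat_lit 0) (XT.lf (nat_lit 0) (nat_lit 6702965476) (nat_lit 456) (nat_lit 1013025766) (nat_lit 0) (nat_lit 1849017080) (nat_lit 174) (nat_lit 5) (nat_lit 180) (nat_lit 4) (nat_lit 174) (nat_lit 4) (nat_lit 600) (nat_lit 483) (nat_lit 477)) (XT.lf (nat_lit 0) (nat_lit 1675863679) (nat_lit 456) (nat_lit 2223092109)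 (nat_lit 76) (nat_lit 5749414678) (nat_lit 168) (nat_lit 5) (nat_lit 174) (nat_lit 5) (nat_lit 169) (nat_lit 4) (nat_lit 601) (nat_lit 483) (nat_lit 476)))))) (XT.nd (nat_lit 390) (nat_lit 1824) (nat_lit 0) (XT.nd (nat_lit 156) (nat_lit 1064) (nat_lit 0) (XT.nd (nat_lit 78) (nat_lit 456) (nat_lit 0) (XT.lf (nat_lit 0) (nat_lit 6246202140) (nat_lit 456) (nat_lit 3464483518) (nat_lit 0) (nat_lit 22738259) (nat_lit 163) (nat_lit 5) (nat_lit 169) (nat_lit 4) (nat_lit 163) (nat_lit 4) (nat_lit 602) (nat_lit 483) (nat_lit 475)) (XT.lf (nat_lit 0) (nat_lit 1079976216) (nat_lit 456) (nat_lit 4752788909) (nat_lit 76) (nat_lit 3987144856) (nat_lit 157) (nat_lit 5) (nat_lit 163) (nat_lit 5) (nat_lit 158) (nat_lit 4) (nat_lit 603) (nat_lit 483) (nat_lit 474))) (XT.nd (nat_lit 78) (nat_lit 760) (nat_lit 0) (XT.lf (nat_lit 0) (nat_lit 3828096918) (nat_lit 304) (nat_lit 1844861501) (nat_lit 380) (nat_lit 4235085877) (nat_lit 153) (nat_lit 5) (nat_lit 157) (nat_lit 5) (nat_lit 158) (nat_lit 4) (nat_lit 604) (nat_lit 483)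 (nat_lit 473)) (XT.nd (nat_lit 78) (nat_lit 304) (nat_lit 0) (XT.lf (nat_lit 0) (nat_lit 351458470) (nat_lit 456) (nat_lit 7441575318) (nat_lit 76) (nat_lit 2204936533) (nat_lit 147) (nat_lit 5) (nat_lit 153) (nat_lit 5) (nat_lit 148) (nat_lit 4) (nat_lit 605) (nat_lit 483) (nat_lit 472)) (XT.lf (nat_lit 0) (nat_lit 1226489439) (nat_lit 304) (nat_lit 3741209234) (nat_lit 380) (nat_lit 5121544953) (nat_lit 143) (nat_lit 5) (nat_lit 147) (nat_lit 5) (nat_lit 148) (nat_lit 4) (nat_lit 606) (nat_lit 483) (nat_lit 471))))) (XT.nd (nat_lit 234) (nat_lit 1064) (nat_lit 0) (XT.nd (nat_lit 78) (nat_lit 760) (nat_lit 0) (XT.lf (nat_lit 0) (nat_lit 9662784400) (nat_lit 380) (nat_lit 123834521) (nat_lit 0) (nat_lit 395995115) (nat_lit 143) (nat_lit 5) (nat_lit 148) (nat_lit 4) (nat_lit 143) (nat_lit 4) (nat_lit 607) (nat_lit 483) (nat_lit 470)) (XT.nd (nat_lit 78) (nat_lit 304) (nat_lit 0) (XT.lf (nat_lit 0) (nat_lit 4136039349) (nat_lit 456) (nat_lit 1530850994) (nat_lit 76) (nat_lit 4610084263) (nat_lit 137) (nat_lit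 5) (nat_lit 143) (nat_lit 5) (nat_lit 138) (nat_lit 4) (nat_lit 608) (nat_lit 483) (nat_lit 469)) (XT.lf (nat_lit 0) (nat_lit 7409235140) (nat_lit 304) (nat_lit 1452949159) (nat_lit 380) (nat_lit 1511288922) (nat_lit 133) (nat_lit 5) (nat_lit 137) (nat_lit 5) (nat_lit 138) (nat_lit 4) (nat_lit 609) (nat_lit 483) (nat_lit 468)))) (XT.nd (nat_lit 78) (nat_lit 684) (nat_lit 0) (XT.lf (nat_lit 0) (nat_lit 3172316081) (nat_lit 380) (nat_lit 4461732503) (nat_lit 76) (nat_lit 2837368571) (nat_lit 128) (nat_lit 5) (nat_lit 133) (nat_lit 5) (nat_lit 129) (nat_lit 4) (nat_lit 610) (nat_lit 483) (nat_lit 467)) (XT.nd (nat_lit 78) (nat_lit 380) (nat_lit 0) (XT.lf (nat_lit 0) (nat_lit 4565544372) (nat_lit 304) (nat_lit 3358756343) (nat_lit 380) (nat_lit 2646922408) (nat_lit 124) (nat_lit 5) (nat_lit 128) (nat_lit 5) (nat_lit 129) (nat_lit 4) (nat_lit 611) (nat_lit 483) (nat_lit 466)) (XT.lf (nat_lit 0) (nat_lit 2063357507) (nat_lit 380) (nat_lit 7598747958) (nat_lit 76) (nat_lit 1010797482) (nat_lit 119) (nat_lit 5)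 (nat_lit 124) (nat_lit 5) (nat_lit 120) (nat_lit 4) (nat_lit 612) (nat_lit 483) (nat_lit 465))))))))
noncomputable def xc6 : XT := (XT.nd (nat_lit 80184) (nat_lit 0) (nat_lit 1064) (XT.nd (nat_lit 780) (nat_lit 532) (nat_lit 0) (XT.nd (nat_lit 390) (nat_lit 1140) (nat_lit 0) (XT.nd (nat_lit 156) (nat_lit 912) (nat_lit 0) (XT.nd (nat_lit 78) (nat_lit 76) (nat_lit 0) (XT.lf (nat_lit 0) (nat_lit 1513635112) (nat_lit 228) (nat_lit 5327513971) (nat_lit 304) (nat_lit 3934944111) (nat_lit 116) (nat_lit 5) (nat_lit 119) (nat_lit 5) (nat_lit 120) (nat_lit 4) (nat_lit 613) (nat_lit 483) (nat_lit 464)) (XT.lf (nat_lit 0) (nat_lit 809767408) (nat_lit 304) (nat_lit 82309083) (nat_lit 76) (nat_lit 9989413318) (nat_lit 115) (nat_lit 5) (nat_lit 119) (nat_lit 5) (nat_lit 116) (nat_lit 5) (nat_lit 614) (nat_lit 483) (nat_lit 463))) (XT.nd (nat_lit 78) (nat_lit 608) (nat_lit 0) (XT.lf (nat_lit 0) (nat_lit 5618271997) (nat_lit 380) (nat_lit 1740809658) (nat_lit 76) (nat_lit 3628962365) (nat_lit 111) (nat_lit 5) (nat_lit 116)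 (nat_lit 5) (nat_lit 112) (nat_lit 4) (nat_lit 615) (nat_lit 483) (nat_lit 462)) (XT.nd (nat_lit 78) (nat_lit 380) (nat_lit 0) (XT.lf (nat_lit 0) (nat_lit 7656606265) (nat_lit 228) (nat_lit 2860251430) (nat_lit 304) (nat_lit 579994986) (nat_lit 108) (nat_lit 5) (nat_lit 111) (nat_lit 5) (nat_lit 112) (nat_lit 4) (nat_lit 616) (nat_lit 483) (nat_lit 461)) (XT.lf (nat_lit 0) (nat_lit 4249167880) (nat_lit 380) (nat_lit 5216106480) (nat_lit 76) (nat_lit 1742004413) (nat_lit 103) (nat_lit 5) (nat_lit 108) (nat_lit 5) (nat_lit 104) (nat_lit 4) (nat_lit 617) (nat_lit 483) (nat_lit 460))))) (XT.nd (nat_lit 156) (nat_lit 532) (nat_lit 0) (XT.nd (nat_lit 78) (nat_lit 380) (nat_lit 0) (XT.lf (nat_lit 0) (nat_lit 4265352765) (nat_lit 228) (nat_lit 4909794664) (nat_lit 304) (nat_lit 2144530787) (nat_lit 100) (nat_lit 5) (nat_lit 103) (nat_lit 5) (nat_lit 104) (nat_lit 4) (nat_lit 618) (nat_lit 483) (nat_lit 459)) (XT.lf (nat_lit 0) (nat_lit 2481705445) (nat_lit 304) (nat_lit 236934865) (nat_lit 380) (nat_lit 8715535947)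 (nat_lit 95) (nat_lit 5) (nat_lit 99) (nat_lit 5) (nat_lit 100) (nat_lit 5) (nat_lit 619) (nat_lit 483) (nat_lit 458))) (XT.nd (nat_lit 78) (nat_lit 304) (nat_lit 0) (XT.lf (nat_lit 0) (nat_lit 611744345) (nat_lit 228) (nat_lit 7058151843) (nat_lit 304) (nat_lit 3880395240) (nat_lit 92) (nat_lit 5) (nat_lit 95) (nat_lit 5) (nat_lit 96) (nat_lit 4) (nat_lit 620) (nat_lit 483) (nat_lit 457)) (XT.nd (nat_lit 78) (nat_lit 228) (nat_lit 0) (XT.lf (nat_lit 0) (nat_lit 1038294109) (nat_lit 304) (nat_lit 1294259495) (nat_lit 76) (nat_lit 9336027404) (nat_lit 91) (nat_lit 5) (nat_lit 95) (nat_lit 5) (nat_lit 92) (nat_lit 5) (nat_lit 621) (nat_lit 483) (nat_lit 456)) (XT.lf (nat_lit 0) (nat_lit 6014991892) (nat_lit 304) (nat_lit 3280650481) (nat_lit 76) (nat_lit 2492850482) (nat_lit 88) (nat_lit 5) (nat_lit 92) (nat_lit 5) (nat_lit 89) (nat_lit 4) (nat_lit 622) (nat_lit 483) (nat_lit 455)))))) (XT.nd (nat_lit 79014) (nat_lit 0) (nat_lit 7448) (XT.nd (nat_lit 78780) (nat_lit 0) (nat_lit 9272) (XT.nd (nat_lit 78) (nat_lit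 304) (nat_lit 0) (XT.lf (nat_lit 0) (nat_lit 6579012700) (nat_lit 228) (nat_lit 4519134060) (nat_lit 304) (nat_lit 812519020) (nat_lit 85) (nat_lit 5) (nat_lit 88) (nat_lit 5) (nat_lit 89) (nat_lit 4) (nat_lit 623) (nat_lit 483) (nat_lit 454)) (XT.lf (nat_lit 0) (nat_lit 4186474286) (nat_lit 304) (nat_lit 7464446781) (nat_lit 76) (nat_lit 383920754) (nat_lit 81) (nat_lit 5) (nat_lit 85) (nat_lit 5) (nat_lit 82) (nat_lit 4) (nat_lit 624) (nat_lit 483) (nat_lit 453))) (XT.nd (nat_lit 78) (nat_lit 988) (nat_lit 0) (XT.lf (nat_lit 0) (nat_lit 3853320434) (nat_lit 456) (nat_lit 311254303) (nat_lit 456) (nat_lit 311254303) (nat_lit 216) (nat_lit 4) (nat_lit 222) (nat_lit 5) (nat_lit 222) (nat_lit 4) (nat_lit 592) (nat_lit 484) (nat_lit 484)) (XT.nd (nat_lit 78) (nat_lit 456) (nat_lit 0) (XT.lf (nat_lit 0) (nat_lit 3787169453) (nat_lit 532) (nat_lit 2368769223) (nat_lit 0) (nat_lit 2867574269) (nat_lit 209) (nat_lit 5) (nat_lit 216) (nat_lit 4) (nat_lit 209) (nat_lit 4) (nat_lit 593) (nat_lit 484) (nat_lit 483))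 (XT.lf (nat_lit 0) (nat_lit 5593031829) (nat_lit 456) (nat_lit 2662636771) (nat_lit 456) (nat_lit 841477682) (nat_lit 203) (nat_lit 4) (nat_lit 209) (nat_lit 5) (nat_lit 209) (nat_lit 4) (nat_lit 594) (nat_lit 484) (nat_lit 482))))) (XT.nd (nat_lit 156) (nat_lit 912) (nat_lit 0) (XT.nd (nat_lit 78) (nat_lit 456) (nat_lit 0) (XT.lf (nat_lit 0) (nat_lit 3575193045) (nat_lit 456) (nat_lit 4673768076) (nat_lit 0) (nat_lit 923187877) (nat_lit 197) (nat_lit 5) (nat_lit 203) (nat_lit 4) (nat_lit 197) (nat_lit 4) (nat_lit 595) (nat_lit 484) (nat_lit 481)) (XT.lf (nat_lit 0) (nat_lit 3375693830) (nat_lit 456) (nat_lit 4687268886) (nat_lit 456) (nat_lit 1185699913) (nat_lit 191) (nat_lit 4) (nat_lit 197) (nat_lit 5) (nat_lit 197) (nat_lit 4) (nat_lit 596) (nat_lit 484) (nat_lit 480))) (XT.nd (nat_lit 78) (nat_lit 456) (nat_lit 0) (XT.lf (nat_lit 0) (nat_lit 2225194056) (nat_lit 380) (nat_lit 1022166695) (nat_lit 456) (nat_lit 6079377323) (nat_lit 185) (nat_lit 5) (nat_lit 190) (nat_lit 5) (nat_lit 191) (nat_lit 4)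 (nat_lit 597) (nat_lit 484) (nat_lit 479)) (XT.nd (nat_lit 78) (nat_lit 76) (nat_lit 0) (XT.lf (nat_lit 0) (nat_lit 1041126696) (nat_lit 380) (nat_lit 6707615686) (nat_lit 380) (nat_lit 1657567775) (nat_lit 180) (nat_lit 4) (nat_lit 185) (nat_lit 5) (nat_lit 185) (nat_lit 4) (nat_lit 598) (nat_lit 484) (nat_lit 478)) (XT.lf (nat_lit 0) (nat_lit 2801666466) (nat_lit 456) (nat_lit 175547282) (nat_lit 76) (nat_lit 6510163968) (nat_lit 179) (nat_lit 5) (nat_lit 185) (nat_lit 5) (nat_lit 180) (nat_lit 4) (nat_lit 599) (nat_lit 484) (nat_lit 477))))))) (XT.nd (nat_lit 780) (nat_lit 2888) (nat_lit 0) (XT.nd (nat_lit 390) (nat_lit 1520) (nat_lit 0) (XT.nd (nat_lit 156) (nat_lit 1140) (nat_lit 0) (XT.nd (nat_lit 78) (nat_lit 456) (nat_lit 0) (XT.lf (nat_lit 0) (nat_lit 7319513653) (nat_lit 456) (nat_lit 1405882002) (nat_lit 0) (nat_lit 844621832) (nat_lit 174) (nat_lit 5) (nat_lit 180) (nat_lit 4) (nat_lit 174) (nat_lit 4) (nat_lit 600) (nat_lit 484) (nat_lit 476)) (XT.lf (nat_lit 0) (nat_lit 2243248409) (nat_lit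 456) (nat_lit 2683126450) (nat_lit 76) (nat_lit 4727649205) (nat_lit 168) (nat_lit 5) (nat_lit 174) (nat_lit 5) (nat_lit 169) (nat_lit 4) (nat_lit 601) (nat_lit 484) (nat_lit 475))) (XT.nd (nat_lit 78) (nat_lit 760) (nat_lit 0) (XT.lf (nat_lit 0) (nat_lit 5750350343) (nat_lit 380) (nat_lit 1026844265) (nat_lit 456) (nat_lit 2962611899) (nat_lit 163) (nat_lit 5) (nat_lit 168) (nat_lit 5) (nat_lit 169) (nat_lit 4) (nat_lit 602) (nat_lit 484) (nat_lit 474)) (XT.nd (nat_lit 78) (nat_lit 304) (nat_lit 0) (XT.lf (nat_lit 0) (nat_lit 1554311398) (nat_lit 456) (nat_lit 5341133869) (nat_lit 76) (nat_lit 2931648168) (nat_lit 157) (nat_lit 5) (nat_lit 163) (nat_lit 5) (nat_lit 158) (nat_lit 4) (nat_lit 603) (nat_lit 484) (nat_lit 473)) (XT.lf (nat_lit 0) (nat_lit 3179055595) (nat_lit 304) (nat_lit 2931425224) (nat_lit 380) (nat_lit 3805484264) (nat_lit 153) (nat_lit 5) (nat_lit 157) (nat_lit 5) (nat_lit 158) (nat_lit 4) (nat_lit 604) (nat_lit 484) (nat_lit 472))))) (XT.nd (nat_lit 156) (nat_lit 760) (nat_lit 0) (XT.nd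 (nat_lit 78) (nat_lit 304) (nat_lit 0) (XT.lf (nat_lit 0) (nat_lit 731034755) (nat_lit 456) (nat_lit 8164477365) (nat_lit 76) (nat_lit 1111212060) (nat_lit 147) (nat_lit 5) (nat_lit 153) (nat_lit 5) (nat_lit 148) (nat_lit 4) (nat_lit 605) (nat_lit 484) (nat_lit 471)) (XT.lf (nat_lit 0) (nat_lit 440836269) (nat_lit 304) (nat_lit 4868998893) (nat_lit 380) (nat_lit 4788912134) (nat_lit 143) (nat_lit 5) (nat_lit 147) (nat_lit 5) (nat_lit 148) (nat_lit 4) (nat_lit 606) (nat_lit 484) (nat_lit 470))) (XT.nd (nat_lit 78) (nat_lit 760) (nat_lit 0) (XT.lf (nat_lit 0) (nat_lit 9223681587) (nat_lit 304) (nat_lit 746591070) (nat_lit 380) (nat_lit 222539010) (nat_lit 143) (nat_lit 5) (nat_lit 147) (nat_lit 5) (nat_lit 148) (nat_lit 4) (nat_lit 607) (nat_lit 484) (nat_lit 469)) (XT.nd (nat_lit 78) (nat_lit 304) (nat_lit 0) (XT.lf (nat_lit 0) (nat_lit 4386891761) (nat_lit 456) (nat_lit 2447429993) (nat_lit 76) (nat_lit 3453663622) (nat_lit 137) (nat_lit 5) (nat_lit 143) (nat_lit 5) (nat_lit 138) (nat_lit 4) (nat_lit 608)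 (nat_lit 484) (nat_lit 468)) (XT.lf (nat_lit 0) (nat_lit 6428126929) (nat_lit 304) (nat_lit 2647075220) (nat_lit 380) (nat_lit 1310039470) (nat_lit 133) (nat_lit 5) (nat_lit 137) (nat_lit 5) (nat_lit 138) (nat_lit 4) (nat_lit 609) (nat_lit 484) (nat_lit 467)))))) (XT.nd (nat_lit 390) (nat_lit 1520) (nat_lit 0) (XT.nd (nat_lit 156) (nat_lit 684) (nat_lit 0) (XT.nd (nat_lit 78) (nat_lit 304) (nat_lit 0) (XT.lf (nat_lit 0) (nat_lit 3324734700) (nat_lit 380) (nat_lit 5526141925) (nat_lit 76) (nat_lit 1633207525) (nat_lit 128) (nat_lit 5) (nat_lit 133) (nat_lit 5) (nat_lit 129) (nat_lit 4) (nat_lit 610) (nat_lit 484) (nat_lit 466)) (XT.lf (nat_lit 0) (nat_lit 3434409086) (nat_lit 304) (nat_lit 4603727923) (nat_lit 380) (nat_lit 2546525641) (nat_lit 124) (nat_lit 5) (nat_lit 128) (nat_lit 5) (nat_lit 129) (nat_lit 4) (nat_lit 611) (nat_lit 484) (nat_lit 465))) (XT.nd (nat_lit 78) (nat_lit 304) (nat_lit 0) (XT.lf (nat_lit 0) (nat_lit 1867836809) (nat_lit 304) (nat_lit 248908187) (nat_lit 380) (nat_lit 8570499142)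 (nat_lit 119) (nat_lit 5) (nat_lit 123) (nat_lit 5) (nat_lit 124) (nat_lit 5) (nat_lit 612) (nat_lit 484) (nat_lit 464)) (XT.nd (nat_lit 78) (nat_lit 76) (nat_lit 0) (XT.lf (nat_lit 0) (nat_lit 225592274) (nat_lit 228) (nat_lit 6627940408) (nat_lit 304) (nat_lit 3937722615) (nat_lit 116) (nat_lit 5) (nat_lit 119) (nat_lit 5) (nat_lit 120) (nat_lit 4) (nat_lit 613) (nat_lit 484) (nat_lit 463)) (XT.lf (nat_lit 0) (nat_lit 776068139) (nat_lit 304) (nat_lit 1437672013) (nat_lit 76) (nat_lit 8683532066) (nat_lit 115) (nat_lit 5) (nat_lit 119) (nat_lit 5) (nat_lit 116) (nat_lit 5) (nat_lit 614) (nat_lit 484) (nat_lit 462))))) (XT.nd (nat_lit 234) (nat_lit 608) (nat_lit 0) (XT.nd (nat_lit 78) (nat_lit 608) (nat_lit 0) (XT.lf (nat_lit 0) (nat_lit 5536191670) (nat_lit 380) (nat_lit 3173815217) (nat_lit 76) (nat_lit 2294787948) (nat_lit 111) (nat_lit 5) (nat_lit 116) (nat_lit 5) (nat_lit 112) (nat_lit 4) (nat_lit 615) (nat_lit 484) (nat_lit 461)) (XT.nd (nat_lit 78) (nat_lit 380) (nat_lit 0) (XT.lf (nat_lit 0) (nat_lit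 6152590968) (nat_lit 228) (nat_lit 4242201700) (nat_lit 304) (nat_lit 719611293) (nat_lit 108) (nat_lit 5) (nat_lit 111) (nat_lit 5) (nat_lit 112) (nat_lit 4) (nat_lit 616) (nat_lit 484) (nat_lit 460)) (XT.lf (nat_lit 0) (nat_lit 4061698868) (nat_lit 380) (nat_lit 6818201673) (nat_lit 76) (nat_lit 345942057) (nat_lit 103) (nat_lit 5) (nat_lit 108) (nat_lit 5) (nat_lit 104) (nat_lit 4) (nat_lit 617) (nat_lit 484) (nat_lit 459)))) (XT.nd (nat_lit 78) (nat_lit 380) (nat_lit 0) (XT.lf (nat_lit 0) (nat_lit 2589810351) (nat_lit 228) (nat_lit 6356955354) (nat_lit 304) (nat_lit 2392295317) (nat_lit 100) (nat_lit 5) (nat_lit 103) (nat_lit 5) (nat_lit 104) (nat_lit 4) (nat_lit 618) (nat_lit 484) (nat_lit 458)) (XT.nd (nat_lit 78) (nat_lit 0) (nat_lit 0) (XT.lf (nat_lit 0) (nat_lit 713668153) (nat_lit 304) (nat_lit 1719002859) (nat_lit 380) (nat_lit 9021750005) (nat_lit 95) (nat_lit 5) (nat_lit 99) (nat_lit 5) (nat_lit 100) (nat_lit 5) (nat_lit 619) (nat_lit 484) (nat_lit 457)) (XT.lf (nat_lit 0) (nat_lit 7340473439)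 (nat_lit 380) (nat_lit 1226587495) (nat_lit 76) (nat_lit 3004345008) (nat_lit 95) (nat_lit 5) (nat_lit 100) (nat_lit 5) (nat_lit 96) (nat_lit 4) (nat_lit 620) (nat_lit 484) (nat_lit 456))))))))
noncomputable def xc7 : XT := (XT.nd (nat_lit 80028) (nat_lit 0) (nat_lit 0) (XT.nd (nat_lit 79248) (nat_lit 0) (nat_lit 5016) (XT.nd (nat_lit 78858) (nat_lit 0) (nat_lit 8816) (XT.nd (nat_lit 156) (nat_lit 532) (nat_lit 0) (XT.nd (nat_lit 78) (nat_lit 228) (nat_lit 0) (XT.lf (nat_lit 0) (nat_lit 654427678) (nat_lit 304) (nat_lit 3219544735) (nat_lit 76) (nat_lit 7816527815) (nat_lit 91) (nat_lit 5) (nat_lit 95) (nat_lit 5) (nat_lit 92) (nat_lit 5) (nat_lit 621) (nat_lit 484) (nat_lit 455)) (XT.lf (nat_lit 0) (nat_lit 5578673136) (nat_lit 304) (nat_lit 5295418546) (nat_lit 76) (nat_lit 937370084) (nat_lit 88) (nat_lit 5) (nat_lit 92) (nat_lit 5) (nat_lit 89) (nat_lit 4) (nat_lit 622) (nat_lit 484) (nat_lit 454))) (XT.nd (nat_lit 78) (nat_lit 304) (nat_lit 0) (XT.lf (nat_lit 0) (nat_lit 4485994274) (nat_lit 228) (nat_lit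 6133132526) (nat_lit 304) (nat_lit 1315362546) (nat_lit 85) (nat_lit 5) (nat_lit 88) (nat_lit 5) (nat_lit 89) (nat_lit 4) (nat_lit 623) (nat_lit 484) (nat_lit 453)) (XT.nd (nat_lit 78546) (nat_lit 0) (nat_lit 10716) (XT.lf (nat_lit 0) (nat_lit 2379777376) (nat_lit 228) (nat_lit 1264622232) (nat_lit 304) (nat_lit 8415248203) (nat_lit 81) (nat_lit 5) (nat_lit 84) (nat_lit 5) (nat_lit 85) (nat_lit 5) (nat_lit 624) (nat_lit 484) (nat_lit 452)) (XT.lf (nat_lit 0) (nat_lit 243607893) (nat_lit 532) (nat_lit 3918366180) (nat_lit 0) (nat_lit 243607893) (nat_lit 222) (nat_lit 5) (nat_lit 229) (nat_lit 4) (nat_lit 222) (nat_lit 4) (nat_lit 590) (nat_lit 485) (nat_lit 485))))) (XT.nd (nat_lit 156) (nat_lit 1368) (nat_lit 0) (XT.nd (nat_lit 78) (nat_lit 532) (nat_lit 0) (XT.lf (nat_lit 0) (nat_lit 4835536298) (nat_lit 532) (nat_lit 166538202) (nat_lit 0) (nat_lit 3878789469) (nat_lit 222) (nat_lit 5) (nat_lit 229) (nat_lit 4) (nat_lit 222) (nat_lit 4) (nat_lit 591) (nat_lit 485) (nat_lit 484)) (XT.lf (nat_lit 0) (nat_lit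 295013824) (nat_lit 532) (nat_lit 1298805990) (nat_lit 76) (nat_lit 7358493162) (nat_lit 215) (nat_lit 5) (nat_lit 222) (nat_lit 5) (nat_lit 216) (nat_lit 4) (nat_lit 592) (nat_lit 485) (nat_lit 483))) (XT.nd (nat_lit 78) (nat_lit 912) (nat_lit 0) (XT.lf (nat_lit 0) (nat_lit 4655265369) (nat_lit 532) (nat_lit 2473529138) (nat_lit 0) (nat_lit 1896119193) (nat_lit 209) (nat_lit 5) (nat_lit 216) (nat_lit 4) (nat_lit 209) (nat_lit 4) (nat_lit 593) (nat_lit 485) (nat_lit 482)) (XT.nd (nat_lit 78) (nat_lit 456) (nat_lit 0) (XT.lf (nat_lit 0) (nat_lit 5435359560) (nat_lit 456) (nat_lit 3653460078) (nat_lit 456) (nat_lit 10427720) (nat_lit 203) (nat_lit 4) (nat_lit 209) (nat_lit 5) (nat_lit 209) (nat_lit 4) (nat_lit 594) (nat_lit 485) (nat_lit 481)) (XT.lf (nat_lit 0) (nat_lit 4285574071) (nat_lit 380) (nat_lit 68466280) (nat_lit 456) (nat_lit 4820929241) (nat_lit 197) (nat_lit 5) (nat_lit 202) (nat_lit 5) (nat_lit 203) (nat_lit 4) (nat_lit 595) (nat_lit 485) (nat_lit 480)))))) (XT.nd (nat_lit 390) (nat_lit 2052)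 (nat_lit 0) (XT.nd (nat_lit 156) (nat_lit 836) (nat_lit 0) (XT.nd (nat_lit 78) (nat_lit 456) (nat_lit 0) (XT.lf (nat_lit 0) (nat_lit 3105786235) (nat_lit 456) (nat_lit 5700241906) (nat_lit 456) (nat_lit 446172060) (nat_lit 191) (nat_lit 4) (nat_lit 197) (nat_lit 5) (nat_lit 197) (nat_lit 4) (nat_lit 596) (nat_lit 485) (nat_lit 479)) (XT.lf (nat_lit 0) (nat_lit 1891273714) (nat_lit 380) (nat_lit 2050269734) (nat_lit 456) (nat_lit 5389350379) (nat_lit 185) (nat_lit 5) (nat_lit 190) (nat_lit 5) (nat_lit 191) (nat_lit 4) (nat_lit 597) (nat_lit 485) (nat_lit 478))) (XT.nd (nat_lit 78) (nat_lit 456) (nat_lit 0) (XT.lf (nat_lit 0) (nat_lit 653131605) (nat_lit 380) (nat_lit 7747331133) (nat_lit 380) (nat_lit 1010853682) (nat_lit 180) (nat_lit 4) (nat_lit 185) (nat_lit 5) (nat_lit 185) (nat_lit 4) (nat_lit 598) (nat_lit 485) (nat_lit 477)) (XT.nd (nat_lit 78) (nat_lit 380) (nat_lit 0) (XT.lf (nat_lit 0) (nat_lit 3406731382) (nat_lit 456) (nat_lit 624356170) (nat_lit 76) (nat_lit 5461877011) (nat_lit 179) (nat_lit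 5) (nat_lit 185) (nat_lit 5) (nat_lit 180) (nat_lit 4) (nat_lit 599) (nat_lit 485) (nat_lit 476)) (XT.lf (nat_lit 0) (nat_lit 7663760914) (nat_lit 380) (nat_lit 219458305) (nat_lit 456) (nat_lit 1693213494) (nat_lit 174) (nat_lit 5) (nat_lit 179) (nat_lit 5) (nat_lit 180) (nat_lit 4) (nat_lit 600) (nat_lit 485) (nat_lit 475))))) (XT.nd (nat_lit 156) (nat_lit 1216) (nat_lit 0) (XT.nd (nat_lit 78) (nat_lit 380) (nat_lit 0) (XT.lf (nat_lit 0) (nat_lit 2755574046) (nat_lit 456) (nat_lit 3257209372) (nat_lit 76) (nat_lit 3648337765) (nat_lit 168) (nat_lit 5) (nat_lit 174) (nat_lit 5) (nat_lit 169) (nat_lit 4) (nat_lit 601) (nat_lit 485) (nat_lit 474)) (XT.lf (nat_lit 0) (nat_lit 5117074743) (nat_lit 380) (nat_lit 2136103809) (nat_lit 456) (nat_lit 2494453027) (nat_lit 163) (nat_lit 5) (nat_lit 168) (nat_lit 5) (nat_lit 169) (nat_lit 4) (nat_lit 602) (nat_lit 485) (nat_lit 473))) (XT.nd (nat_lit 78) (nat_lit 760) (nat_lit 0) (XT.lf (nat_lit 0) (nat_lit 1972283758) (nat_lit 456) (nat_lit 6046657549) (nat_lit 76)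 (nat_lit 1816798419) (nat_lit 157) (nat_lit 5) (nat_lit 163) (nat_lit 5) (nat_lit 158) (nat_lit 4) (nat_lit 603) (nat_lit 485) (nat_lit 472)) (XT.nd (nat_lit 78) (nat_lit 456) (nat_lit 0) (XT.lf (nat_lit 0) (nat_lit 2412315122) (nat_lit 304) (nat_lit 4079200286) (nat_lit 380) (nat_lit 3433835778) (nat_lit 153) (nat_lit 5) (nat_lit 157) (nat_lit 5) (nat_lit 158) (nat_lit 4) (nat_lit 604) (nat_lit 485) (nat_lit 471)) (XT.lf (nat_lit 0) (nat_lit 1008887750) (nat_lit 380) (nat_lit 44277894) (nat_lit 456) (nat_lit 8963790263) (nat_lit 147) (nat_lit 5) (nat_lit 152) (nat_lit 5) (nat_lit 153) (nat_lit 5) (nat_lit 605) (nat_lit 485) (nat_lit 470))))))) (XT.nd (nat_lit 780) (nat_lit 2280) (nat_lit 0) (XT.nd (nat_lit 390) (nat_lit 1292) (nat_lit 0) (XT.nd (nat_lit 156) (nat_lit 1064) (nat_lit 0) (XT.nd (nat_lit 78) (nat_lit 380) (nat_lit 0) (XT.lf (nat_lit 0) (nat_lit 5597111649) (nat_lit 456) (nat_lit 459667453) (nat_lit 76) (nat_lit 4052898006) (nat_lit 147) (nat_lit 5) (nat_lit 153) (nat_lit 5) (nat_lit 148) (nat_lit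 4) (nat_lit 606) (nat_lit 485) (nat_lit 469)) (XT.lf (nat_lit 0) (nat_lit 18434097) (nat_lit 380) (nat_lit 1938563867) (nat_lit 76) (nat_lit 8247430842) (nat_lit 142) (nat_lit 5) (nat_lit 147) (nat_lit 5) (nat_lit 143) (nat_lit 5) (nat_lit 607) (nat_lit 485) (nat_lit 468))) (XT.nd (nat_lit 78) (nat_lit 684) (nat_lit 0) (XT.lf (nat_lit 0) (nat_lit 4579202817) (nat_lit 456) (nat_lit 3486697412) (nat_lit 76) (nat_lit 2234589195) (nat_lit 137) (nat_lit 5) (nat_lit 143) (nat_lit 5) (nat_lit 138) (nat_lit 4) (nat_lit 608) (nat_lit 485) (nat_lit 467)) (XT.nd (nat_lit 78) (nat_lit 380) (nat_lit 0) (XT.lf (nat_lit 0) (nat_lit 5323726272) (nat_lit 304) (nat_lit 3905768828) (nat_lit 380) (nat_lit 1169011850) (nat_lit 133) (nat_lit 5) (nat_lit 137) (nat_lit 5) (nat_lit 138) (nat_lit 4) (nat_lit 609) (nat_lit 485) (nat_lit 466)) (XT.lf (nat_lit 0) (nat_lit 3417100438) (nat_lit 380) (nat_lit 6716658994) (nat_lit 76) (nat_lit 364508867) (nat_lit 128) (nat_lit 5) (nat_lit 133) (nat_lit 5) (nat_lit 129) (nat_lit 4) (nat_lit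 610) (nat_lit 485) (nat_lit 465))))) (XT.nd (nat_lit 156) (nat_lit 608) (nat_lit 0) (XT.nd (nat_lit 78) (nat_lit 380) (nat_lit 0) (XT.lf (nat_lit 0) (nat_lit 2176521239) (nat_lit 304) (nat_lit 5915188736) (nat_lit 380) (nat_lit 2507913546) (nat_lit 124) (nat_lit 5) (nat_lit 128) (nat_lit 5) (nat_lit 129) (nat_lit 4) (nat_lit 611) (nat_lit 485) (nat_lit 464)) (XT.lf (nat_lit 0) (nat_lit 526195979) (nat_lit 304) (nat_lit 1589388676) (nat_lit 380) (nat_lit 8587401495) (nat_lit 119) (nat_lit 5) (nat_lit 123) (nat_lit 5) (nat_lit 124) (nat_lit 5) (nat_lit 612) (nat_lit 485) (nat_lit 463))) (XT.nd (nat_lit 78) (nat_lit 608) (nat_lit 0) (XT.lf (nat_lit 0) (nat_lit 6811787705) (nat_lit 380) (nat_lit 1177130892) (nat_lit 76) (nat_lit 2818891221) (nat_lit 119) (nat_lit 5) (nat_lit 124) (nat_lit 5) (nat_lit 120) (nat_lit 4) (nat_lit 613) (nat_lit 485) (nat_lit 462)) (XT.nd (nat_lit 78) (nat_lit 304) (nat_lit 0) (XT.lf (nat_lit 0) (nat_lit 680387480) (nat_lit 304) (nat_lit 2923471201) (nat_lit 76) (nat_lit 7310739329)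 (nat_lit 115) (nat_lit 5) (nat_lit 119) (nat_lit 5) (nat_lit 116) (nat_lit 5) (nat_lit 614) (nat_lit 485) (nat_lit 461)) (XT.lf (nat_lit 0) (nat_lit 5391426075) (nat_lit 380) (nat_lit 4739075185) (nat_lit 76) (nat_lit 892601836) (nat_lit 111) (nat_lit 5) (nat_lit 116) (nat_lit 5) (nat_lit 112) (nat_lit 4) (nat_lit 615) (nat_lit 485) (nat_lit 460)))))) (XT.nd (nat_lit 390) (nat_lit 1064) (nat_lit 0) (XT.nd (nat_lit 156) (nat_lit 608) (nat_lit 0) (XT.nd (nat_lit 78) (nat_lit 380) (nat_lit 0) (XT.lf (nat_lit 0) (nat_lit 4515582610) (nat_lit 228) (nat_lit 5694188826) (nat_lit 304) (nat_lit 923746654) (nat_lit 108) (nat_lit 5) (nat_lit 111) (nat_lit 5) (nat_lit 112) (nat_lit 4) (nat_lit 616) (nat_lit 485) (nat_lit 459)) (XT.lf (nat_lit 0) (nat_lit 2682163290) (nat_lit 304) (nat_lit 1135017834) (nat_lit 380) (nat_lit 7428664029) (nat_lit 103) (nat_lit 5) (nat_lit 107) (nat_lit 5) (nat_lit 108) (nat_lit 5) (nat_lit 617) (nat_lit 485) (nat_lit 458))) (XT.nd (nat_lit 78) (nat_lit 380) (nat_lit 0) (XT.lf (nat_lit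 0) (nat_lit 777467322) (nat_lit 228) (nat_lit 7876199339) (nat_lit 304) (nat_lit 2706369253) (nat_lit 100) (nat_lit 5) (nat_lit 103) (nat_lit 5) (nat_lit 104) (nat_lit 4) (nat_lit 618) (nat_lit 485) (nat_lit 457)) (XT.nd (nat_lit 78) (nat_lit 304) (nat_lit 0) (XT.lf (nat_lit 0) (nat_lit 2088695377) (nat_lit 304) (nat_lit 1177492632) (nat_lit 76) (nat_lit 8209929785) (nat_lit 99) (nat_lit 5) (nat_lit 103) (nat_lit 5) (nat_lit 100) (nat_lit 5) (nat_lit 619) (nat_lit 485) (nat_lit 456)) (XT.lf (nat_lit 0) (nat_lit 6949380923) (nat_lit 380) (nat_lit 3195788083) (nat_lit 76) (nat_lit 1448876719) (nat_lit 95) (nat_lit 5) (nat_lit 100) (nat_lit 5) (nat_lit 96) (nat_lit 4) (nat_lit 620) (nat_lit 485) (nat_lit 455))))) (XT.nd (nat_lit 234) (nat_lit 304) (nat_lit 0) (XT.nd (nat_lit 78) (nat_lit 456) (nat_lit 0) (XT.lf (nat_lit 0) (nat_lit 203861439) (nat_lit 304) (nat_lit 5285734137) (nat_lit 76) (nat_lit 6224444007) (nat_lit 91) (nat_lit 5) (nat_lit 95) (nat_lit 5) (nat_lit 92) (nat_lit 5) (nat_lit 621) (nat_lit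 485) (nat_lit 454)) (XT.nd (nat_lit 78) (nat_lit 228) (nat_lit 0) (XT.lf (nat_lit 0) (nat_lit 4378326692) (nat_lit 228) (nat_lit 701046855) (nat_lit 304) (nat_lit 6756602873) (nat_lit 88) (nat_lit 5) (nat_lit 91) (nat_lit 5) (nat_lit 92) (nat_lit 5) (nat_lit 622) (nat_lit 485) (nat_lit 453)) (XT.lf (nat_lit 0) (nat_lit 2249174492) (nat_lit 228) (nat_lit 7823037023) (nat_lit 304) (nat_lit 1887745418) (nat_lit 85) (nat_lit 5) (nat_lit 88) (nat_lit 5) (nat_lit 89) (nat_lit 4) (nat_lit 623) (nat_lit 485) (nat_lit 452)))) (XT.nd (nat_lit 78390) (nat_lit 0) (nat_lit 11248) (XT.lf (nat_lit 0) (nat_lit 40672989) (nat_lit 228) (nat_lit 2995172879) (nat_lit 304) (nat_lit 9050218007) (nat_lit 81) (nat_lit 5) (nat_lit 84) (nat_lit 5) (nat_lit 85) (nat_lit 5) (nat_lit 624) (nat_lit 485) (nat_lit 451)) (XT.nd (nat_lit 78) (nat_lit 532) (nat_lit 0) (XT.lf (nat_lit 0) (nat_lit 803507322) (nat_lit 532) (nat_lit 2730405778) (nat_lit 0) (nat_lit 803507322) (nat_lit 236) (nat_lit 5) (nat_lit 243) (nat_lit 4) (nat_lit 236)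 (nat_lit 4) (nat_lit 588) (nat_lit 486) (nat_lit 486)) (XT.lf (nat_lit 0) (nat_lit 2072353456) (nat_lit 532) (nat_lit 3832757399) (nat_lit 532) (nat_lit 2837357998) (nat_lit 229) (nat_lit 4) (nat_lit 236) (nat_lit 5) (nat_lit 236) (nat_lit 4) (nat_lit 589) (nat_lit 486) (nat_lit 485))))))))
noncomputable def xc8 : XT := (XT.nd (nat_lit 1560) (nat_lit 3724) (nat_lit 0) (XT.nd (nat_lit 780) (nat_lit 3496) (nat_lit 0) (XT.nd (nat_lit 390) (nat_lit 1748) (nat_lit 0) (XT.nd (nat_lit 156) (nat_lit 1520) (nat_lit 0) (XT.nd (nat_lit 78) (nat_lit 0) (nat_lit 0) (XT.lf (nat_lit 0) (nat_lit 920254008) (nat_lit 456) (nat_lit 511199048) (nat_lit 532) (nat_lit 7380345309) (nat_lit 222) (nat_lit 5) (nat_lit 228) (nat_lit 5) (nat_lit 229) (nat_lit 4) (nat_lit 590) (nat_lit 486) (nat_lit 484)) (XT.lf (nat_lit 0) (nat_lit 5742176545) (nat_lit 532) (nat_lit 268514442) (nat_lit 0) (nat_lit 2871560863) (nat_lit 222) (nat_lit 5) (nat_lit 229) (nat_lit 4) (nat_lit 222) (nat_lit 4) (nat_lit 591) (nat_lit 486) (nat_lit 483))) (XT.nd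 (nat_lit 78) (nat_lit 988) (nat_lit 0) (XT.lf (nat_lit 0) (nat_lit 1153560654) (nat_lit 532) (nat_lit 1460018343) (nat_lit 76) (nat_lit 6340702421) (nat_lit 215) (nat_lit 5) (nat_lit 222) (nat_lit 5) (nat_lit 216) (nat_lit 4) (nat_lit 592) (nat_lit 486) (nat_lit 482)) (XT.nd (nat_lit 78) (nat_lit 532) (nat_lit 0) (XT.lf (nat_lit 0) (nat_lit 5472202449) (nat_lit 532) (nat_lit 2683090049) (nat_lit 0) (nat_lit 872423261) (nat_lit 209) (nat_lit 5) (nat_lit 216) (nat_lit 4) (nat_lit 209) (nat_lit 4) (nat_lit 593) (nat_lit 486) (nat_lit 481)) (XT.lf (nat_lit 0) (nat_lit 757970937) (nat_lit 532) (nat_lit 3935232974) (nat_lit 76) (nat_lit 4409446422) (nat_lit 202) (nat_lit 5) (nat_lit 209) (nat_lit 5) (nat_lit 203) (nat_lit 4) (nat_lit 594) (nat_lit 486) (nat_lit 480))))) (XT.nd (nat_lit 156) (nat_lit 836) (nat_lit 0) (XT.nd (nat_lit 78) (nat_lit 532) (nat_lit 0) (XT.lf (nat_lit 0) (nat_lit 3959928918) (nat_lit 380) (nat_lit 1127114146) (nat_lit 456) (nat_lit 4092034673) (nat_lit 197) (nat_lit 5) (nat_lit 202)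 (nat_lit 5) (nat_lit 203) (nat_lit 4) (nat_lit 595) (nat_lit 486) (nat_lit 479)) (XT.lf (nat_lit 0) (nat_lit 236479227) (nat_lit 532) (nat_lit 6530943100) (nat_lit 76) (nat_lit 2489701301) (nat_lit 190) (nat_lit 5) (nat_lit 197) (nat_lit 5) (nat_lit 191) (nat_lit 4) (nat_lit 596) (nat_lit 486) (nat_lit 478))) (XT.nd (nat_lit 78) (nat_lit 456) (nat_lit 0) (XT.lf (nat_lit 0) (nat_lit 1447742267) (nat_lit 380) (nat_lit 3134899492) (nat_lit 456) (nat_lit 4753832849) (nat_lit 185) (nat_lit 5) (nat_lit 190) (nat_lit 5) (nat_lit 191) (nat_lit 4) (nat_lit 597) (nat_lit 486) (nat_lit 477)) (XT.nd (nat_lit 78) (nat_lit 76) (nat_lit 0) (XT.lf (nat_lit 0) (nat_lit 154019989) (nat_lit 380) (nat_lit 8844642584) (nat_lit 380) (nat_lit 419093837) (nat_lit 180) (nat_lit 4) (nat_lit 185) (nat_lit 5) (nat_lit 185) (nat_lit 4) (nat_lit 598) (nat_lit 486) (nat_lit 476)) (XT.lf (nat_lit 0) (nat_lit 3958213126) (nat_lit 456) (nat_lit 1184346577) (nat_lit 76) (nat_lit 4357419540) (nat_lit 179) (nat_lit 5) (nat_lit 185) (nat_lit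 5) (nat_lit 180) (nat_lit 4) (nat_lit 599) (nat_lit 486) (nat_lit 475)))))) (XT.nd (nat_lit 390) (nat_lit 1520) (nat_lit 0) (XT.nd (nat_lit 156) (nat_lit 1140) (nat_lit 0) (XT.nd (nat_lit 78) (nat_lit 456) (nat_lit 0) (XT.lf (nat_lit 0) (nat_lit 7046064699) (nat_lit 380) (nat_lit 1352746295) (nat_lit 456) (nat_lit 1185355364) (nat_lit 174) (nat_lit 5) (nat_lit 179) (nat_lit 5) (nat_lit 180) (nat_lit 4) (nat_lit 600) (nat_lit 486) (nat_lit 474)) (XT.lf (nat_lit 0) (nat_lit 3213041502) (nat_lit 456) (nat_lit 3945566004) (nat_lit 76) (nat_lit 2511057098) (nat_lit 168) (nat_lit 5) (nat_lit 174) (nat_lit 5) (nat_lit 169) (nat_lit 4) (nat_lit 601) (nat_lit 486) (nat_lit 473))) (XT.nd (nat_lit 78) (nat_lit 760) (nat_lit 0) (XT.lf (nat_lit 0) (nat_lit 4369017844) (nat_lit 380) (nat_lit 3305173198) (nat_lit 456) (nat_lit 2082714158) (nat_lit 163) (nat_lit 5) (nat_lit 168) (nat_lit 5) (nat_lit 169) (nat_lit 4) (nat_lit 602) (nat_lit 486) (nat_lit 472)) (XT.nd (nat_lit 78) (nat_lit 304) (nat_lit 0) (XT.lf (nat_lit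 0) (nat_lit 2334057207) (nat_lit 456) (nat_lit 6869636626) (nat_lit 76) (nat_lit 642158412) (nat_lit 157) (nat_lit 5) (nat_lit 163) (nat_lit 5) (nat_lit 158) (nat_lit 4) (nat_lit 603) (nat_lit 486) (nat_lit 471)) (XT.lf (nat_lit 0) (nat_lit 1527574818) (nat_lit 304) (nat_lit 5288636793) (nat_lit 380) (nat_lit 3119994675) (nat_lit 153) (nat_lit 5) (nat_lit 157) (nat_lit 5) (nat_lit 158) (nat_lit 4) (nat_lit 604) (nat_lit 486) (nat_lit 470))))) (XT.nd (nat_lit 156) (nat_lit 1064) (nat_lit 0) (XT.nd (nat_lit 78) (nat_lit 0) (nat_lit 0) (XT.lf (nat_lit 0) (nat_lit 48413905) (nat_lit 380) (nat_lit 1276992078) (nat_lit 456) (nat_lit 8703114961) (nat_lit 147) (nat_lit 5) (nat_lit 152) (nat_lit 5) (nat_lit 153) (nat_lit 5) (nat_lit 605) (nat_lit 486) (nat_lit 469)) (XT.lf (nat_lit 0) (nat_lit 5830265332) (nat_lit 456) (nat_lit 1474113291) (nat_lit 76) (nat_lit 2817646232) (nat_lit 147) (nat_lit 5) (nat_lit 153) (nat_lit 5) (nat_lit 148) (nat_lit 4) (nat_lit 606) (nat_lit 486) (nat_lit 468))) (XT.nd (nat_lit 78)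 (nat_lit 684) (nat_lit 0) (XT.lf (nat_lit 0) (nat_lit 198622297) (nat_lit 380) (nat_lit 3030853669) (nat_lit 76) (nat_lit 6988027289) (nat_lit 142) (nat_lit 5) (nat_lit 147) (nat_lit 5) (nat_lit 143) (nat_lit 5) (nat_lit 607) (nat_lit 486) (nat_lit 467)) (XT.nd (nat_lit 78) (nat_lit 304) (nat_lit 0) (XT.lf (nat_lit 0) (nat_lit 4713047935) (nat_lit 456) (nat_lit 4649060806) (nat_lit 76) (nat_lit 952382914) (nat_lit 137) (nat_lit 5) (nat_lit 143) (nat_lit 5) (nat_lit 138) (nat_lit 4) (nat_lit 608) (nat_lit 486) (nat_lit 466)) (XT.lf (nat_lit 0) (nat_lit 4095600071) (nat_lit 304) (nat_lit 5229523588) (nat_lit 380) (nat_lit 1088150756) (nat_lit 133) (nat_lit 5) (nat_lit 137) (nat_lit 5) (nat_lit 138) (nat_lit 4) (nat_lit 609) (nat_lit 486) (nat_lit 465))))))) (XT.nd (nat_lit 780) (nat_lit 1140) (nat_lit 0) (XT.nd (nat_lit 390) (nat_lit 1216) (nat_lit 0) (XT.nd (nat_lit 156) (nat_lit 684) (nat_lit 0) (XT.nd (nat_lit 78) (nat_lit 304) (nat_lit 0) (XT.lf (nat_lit 0) (nat_lit 2473720574) (nat_lit 304) (nat_lit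 982105422) (nat_lit 380) (nat_lit 7058021635) (nat_lit 128) (nat_lit 5) (nat_lit 132) (nat_lit 5) (nat_lit 133) (nat_lit 5) (nat_lit 610) (nat_lit 486) (nat_lit 464)) (XT.lf (nat_lit 0) (nat_lit 791387541) (nat_lit 304) (nat_lit 7293653081) (nat_lit 380) (nat_lit 2531070980) (nat_lit 124) (nat_lit 5) (nat_lit 128) (nat_lit 5) (nat_lit 129) (nat_lit 4) (nat_lit 611) (nat_lit 486) (nat_lit 463))) (XT.nd (nat_lit 78) (nat_lit 608) (nat_lit 0) (XT.lf (nat_lit 0) (nat_lit 2059358433) (nat_lit 380) (nat_lit 932123224) (nat_lit 76) (nat_lit 7728663847) (nat_lit 123) (nat_lit 5) (nat_lit 128) (nat_lit 5) (nat_lit 124) (nat_lit 5) (nat_lit 612) (nat_lit 486) (nat_lit 462)) (XT.nd (nat_lit 78) (nat_lit 304) (nat_lit 0) (XT.lf (nat_lit 0) (nat_lit 6710464916) (nat_lit 380) (nat_lit 2706058863) (nat_lit 76) (nat_lit 1409348127) (nat_lit 119) (nat_lit 5) (nat_lit 124) (nat_lit 5) (nat_lit 120) (nat_lit 4) (nat_lit 613) (nat_lit 486) (nat_lit 461)) (XT.lf (nat_lit 0) (nat_lit 522687907) (nat_lit 304) (nat_lit 4540289313)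 (nat_lit 76) (nat_lit 5870496759) (nat_lit 115) (nat_lit 5) (nat_lit 119) (nat_lit 5) (nat_lit 116) (nat_lit 5) (nat_lit 614) (nat_lit 486) (nat_lit 460))))) (XT.nd (nat_lit 156) (nat_lit 684) (nat_lit 0) (XT.nd (nat_lit 78) (nat_lit 228) (nat_lit 0) (XT.lf (nat_lit 0) (nat_lit 4601892929) (nat_lit 304) (nat_lit 585829100) (nat_lit 380) (nat_lit 5855177881) (nat_lit 111) (nat_lit 5) (nat_lit 115) (nat_lit 5) (nat_lit 116) (nat_lit 5) (nat_lit 615) (nat_lit 486) (nat_lit 459)) (XT.lf (nat_lit 0) (nat_lit 2744939225) (nat_lit 228) (nat_lit 7216782214) (nat_lit 304) (nat_lit 1192481124) (nat_lit 108) (nat_lit 5) (nat_lit 111) (nat_lit 5) (nat_lit 112) (nat_lit 4) (nat_lit 616) (nat_lit 486) (nat_lit 458))) (XT.nd (nat_lit 78) (nat_lit 304) (nat_lit 0) (XT.lf (nat_lit 0) (nat_lit 818787224) (nat_lit 304) (nat_lit 2692099676) (nat_lit 380) (nat_lit 7756500019) (nat_lit 103) (nat_lit 5) (nat_lit 107) (nat_lit 5) (nat_lit 108) (nat_lit 5) (nat_lit 617) (nat_lit 486) (nat_lit 457)) (XT.nd (nat_lit 78) (nat_lit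 304) (nat_lit 0) (XT.lf (nat_lit 0) (nat_lit 8303347271) (nat_lit 380) (nat_lit 1157010978) (nat_lit 76) (nat_lit 1922100631) (nat_lit 103) (nat_lit 5) (nat_lit 108) (nat_lit 5) (nat_lit 104) (nat_lit 4) (nat_lit 618) (nat_lit 486) (nat_lit 456)) (XT.lf (nat_lit 0) (nat_lit 1684368271) (nat_lit 304) (nat_lit 3196983227) (nat_lit 76) (nat_lit 6617967801) (nat_lit 99) (nat_lit 5) (nat_lit 103) (nat_lit 5) (nat_lit 100) (nat_lit 5) (nat_lit 619) (nat_lit 486) (nat_lit 455)))))) (XT.nd (nat_lit 78546) (nat_lit 0) (nat_lit 10488) (XT.nd (nat_lit 156) (nat_lit 608) (nat_lit 0) (XT.nd (nat_lit 78) (nat_lit 228) (nat_lit 0) (XT.lf (nat_lit 0) (nat_lit 6312446147) (nat_lit 304) (nat_lit 181223901) (nat_lit 380) (nat_lit 5124605516) (nat_lit 95) (nat_lit 5) (nat_lit 99) (nat_lit 5) (nat_lit 100) (nat_lit 5) (nat_lit 620) (nat_lit 486) (nat_lit 454)) (XT.lf (nat_lit 0) (nat_lit 4243466039) (nat_lit 228) (nat_lit 7177952375) (nat_lit 304) (nat_lit 317748631) (nat_lit 92) (nat_lit 5) (nat_lit 95) (nat_lit 5) (nat_lit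 96) (nat_lit 4) (nat_lit 621) (nat_lit 486) (nat_lit 453))) (XT.nd (nat_lit 78) (nat_lit 304) (nat_lit 0) (XT.lf (nat_lit 0) (nat_lit 2091709603) (nat_lit 228) (nat_lit 2427290532) (nat_lit 304) (nat_lit 7343004241) (nat_lit 88) (nat_lit 5) (nat_lit 91) (nat_lit 5) (nat_lit 92) (nat_lit 5) (nat_lit 622) (nat_lit 486) (nat_lit 452)) (XT.nd (nat_lit 78) (nat_lit 304) (nat_lit 0) (XT.lf (nat_lit 0) (nat_lit 9458045564) (nat_lit 304) (nat_lit 130588379) (nat_lit 76) (nat_lit 2398427403) (nat_lit 88) (nat_lit 5) (nat_lit 92) (nat_lit 5) (nat_lit 89) (nat_lit 4) (nat_lit 623) (nat_lit 486) (nat_lit 451)) (XT.lf (nat_lit 0) (nat_lit 2373924867) (nat_lit 304) (nat_lit 2413189093) (nat_lit 76) (nat_lit 7326719403) (nat_lit 84) (nat_lit 5) (nat_lit 88) (nat_lit 5) (nat_lit 85) (nat_lit 5) (nat_lit 624) (nat_lit 486) (nat_lit 450))))) (XT.nd (nat_lit 156) (nat_lit 1596) (nat_lit 0) (XT.nd (nat_lit 78) (nat_lit 532) (nat_lit 0) (XT.lf (nat_lit 0) (nat_lit 1367522052) (nat_lit 608) (nat_lit 1536441842) (nat_lit 0) (nat_lit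 1367522052) (nat_lit 250) (nat_lit 5) (nat_lit 258) (nat_lit 4) (nat_lit 250) (nat_lit 4) (nat_lit 586) (nat_lit 487) (nat_lit 487)) (XT.lf (nat_lit 0) (nat_lit 4327690076) (nat_lit 532) (nat_lit 2658225740) (nat_lit 532) (nat_lit 1622612203) (nat_lit 243) (nat_lit 4) (nat_lit 250) (nat_lit 5) (nat_lit 250) (nat_lit 4) (nat_lit 587) (nat_lit 487) (nat_lit 486))) (XT.nd (nat_lit 78) (nat_lit 1064) (nat_lit 0) (XT.lf (nat_lit 0) (nat_lit 2587665400) (nat_lit 532) (nat_lit 5510911569) (nat_lit 0) (nat_lit 576958610) (nat_lit 236) (nat_lit 5) (nat_lit 243) (nat_lit 4) (nat_lit 236) (nat_lit 4) (nat_lit 588) (nat_lit 487) (nat_lit 485)) (XT.nd (nat_lit 78) (nat_lit 532) (nat_lit 0) (XT.lf (nat_lit 0) (nat_lit 1971817233) (nat_lit 532) (nat_lit 4879314539) (nat_lit 532) (nat_lit 1892725983) (nat_lit 229) (nat_lit 4) (nat_lit 236) (nat_lit 5) (nat_lit 236) (nat_lit 4) (nat_lit 589) (nat_lit 487) (nat_lit 484)) (XT.lf (nat_lit 0) (nat_lit 760859313) (nat_lit 456) (nat_lit 1567949942) (nat_lit 532) (nat_lit 6484954593)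 (nat_lit 222) (nat_lit 5) (nat_lit 228) (nat_lit 5) (nat_lit 229) (nat_lit 4) (nat_lit 590) (nat_lit 487) (nat_lit 483))))))))
noncomputable def xc9 : XT := (XT.nd (nat_lit 1560) (nat_lit 3344) (nat_lit 0) (XT.nd (nat_lit 780) (nat_lit 3496) (nat_lit 0) (XT.nd (nat_lit 390) (nat_lit 1748) (nat_lit 0) (XT.nd (nat_lit 156) (nat_lit 1368) (nat_lit 0) (XT.nd (nat_lit 78) (nat_lit 532) (nat_lit 0) (XT.lf (nat_lit 0) (nat_lit 6599065755) (nat_lit 532) (nat_lit 472506911) (nat_lit 0) (nat_lit 1813455488) (nat_lit 222) (nat_lit 5) (nat_lit 229) (nat_lit 4) (nat_lit 222) (nat_lit 4) (nat_lit 591) (nat_lit 487) (nat_lit 482)) (XT.lf (nat_lit 0) (nat_lit 1961632880) (nat_lit 532) (nat_lit 1724675754) (nat_lit 76) (nat_lit 5271336379) (nat_lit 215) (nat_lit 5) (nat_lit 222) (nat_lit 5) (nat_lit 216) (nat_lit 4) (nat_lit 592) (nat_lit 487) (nat_lit 481))) (XT.nd (nat_lit 78) (nat_lit 912) (nat_lit 0) (XT.lf (nat_lit 0) (nat_lit 6033017707) (nat_lit 456) (nat_lit 206624897) (nat_lit 532) (nat_lit 2792250786) (nat_lit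 209) (nat_lit 5) (nat_lit 215) (nat_lit 5) (nat_lit 216) (nat_lit 4) (nat_lit 593) (nat_lit 487) (nat_lit 480)) (XT.nd (nat_lit 78) (nat_lit 380) (nat_lit 0) (XT.lf (nat_lit 0) (nat_lit 1474645416) (nat_lit 532) (nat_lit 4312996096) (nat_lit 76) (nat_lit 3319820235) (nat_lit 202) (nat_lit 5) (nat_lit 209) (nat_lit 5) (nat_lit 203) (nat_lit 4) (nat_lit 594) (nat_lit 487) (nat_lit 479)) (XT.lf (nat_lit 0) (nat_lit 3527512837) (nat_lit 380) (nat_lit 2240902195) (nat_lit 456) (nat_lit 3416181484) (nat_lit 197) (nat_lit 5) (nat_lit 202) (nat_lit 5) (nat_lit 203) (nat_lit 4) (nat_lit 595) (nat_lit 487) (nat_lit 478))))) (XT.nd (nat_lit 156) (nat_lit 836) (nat_lit 0) (XT.nd (nat_lit 78) (nat_lit 380) (nat_lit 0) (XT.lf (nat_lit 0) (nat_lit 860515148) (nat_lit 532) (nat_lit 7027700316) (nat_lit 76) (nat_lit 1375199511) (nat_lit 190) (nat_lit 5) (nat_lit 197) (nat_lit 5) (nat_lit 191) (nat_lit 4) (nat_lit 596) (nat_lit 487) (nat_lit 477)) (XT.lf (nat_lit 0) (nat_lit 894425780) (nat_lit 380) (nat_lit 4276481314)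 (nat_lit 456) (nat_lit 4172575511) (nat_lit 185) (nat_lit 5) (nat_lit 190) (nat_lit 5) (nat_lit 191) (nat_lit 4) (nat_lit 597) (nat_lit 487) (nat_lit 476))) (XT.nd (nat_lit 78) (nat_lit 760) (nat_lit 0) (XT.lf (nat_lit 0) (nat_lit 123163872) (nat_lit 456) (nat_lit 454987461) (nat_lit 76) (nat_lit 8847330663) (nat_lit 184) (nat_lit 5) (nat_lit 190) (nat_lit 5) (nat_lit 185) (nat_lit 5) (nat_lit 598) (nat_lit 487) (nat_lit 475)) (XT.nd (nat_lit 78) (nat_lit 380) (nat_lit 0) (XT.lf (nat_lit 0) (nat_lit 4456327965) (nat_lit 456) (nat_lit 1855738106) (nat_lit 76) (nat_lit 3196358432) (nat_lit 179) (nat_lit 5) (nat_lit 185) (nat_lit 5) (nat_lit 180) (nat_lit 4) (nat_lit 599) (nat_lit 487) (nat_lit 474)) (XT.lf (nat_lit 0) (nat_lit 6316472465) (nat_lit 380) (nat_lit 2544461984) (nat_lit 456) (nat_lit 732398141) (nat_lit 174) (nat_lit 5) (nat_lit 179) (nat_lit 5) (nat_lit 180) (nat_lit 4) (nat_lit 600) (nat_lit 487) (nat_lit 473)))))) (XT.nd (nat_lit 390) (nat_lit 1824) (nat_lit 0) (XT.nd (nat_lit 156) (nat_lit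 836) (nat_lit 0) (XT.nd (nat_lit 78) (nat_lit 380) (nat_lit 0) (XT.lf (nat_lit 0) (nat_lit 3615830176) (nat_lit 456) (nat_lit 4748466290) (nat_lit 76) (nat_lit 1315361212) (nat_lit 168) (nat_lit 5) (nat_lit 174) (nat_lit 5) (nat_lit 169) (nat_lit 4) (nat_lit 601) (nat_lit 487) (nat_lit 472)) (XT.lf (nat_lit 0) (nat_lit 3505886288) (nat_lit 380) (nat_lit 4534510890) (nat_lit 456) (nat_lit 1727233824) (nat_lit 163) (nat_lit 5) (nat_lit 168) (nat_lit 5) (nat_lit 169) (nat_lit 4) (nat_lit 602) (nat_lit 487) (nat_lit 471))) (XT.nd (nat_lit 78) (nat_lit 380) (nat_lit 0) (XT.lf (nat_lit 0) (nat_lit 2043063576) (nat_lit 380) (nat_lit 600609597) (nat_lit 456) (nat_lit 7213683794) (nat_lit 157) (nat_lit 5) (nat_lit 162) (nat_lit 5) (nat_lit 163) (nat_lit 5) (nat_lit 603) (nat_lit 487) (nat_lit 470)) (XT.nd (nat_lit 78) (nat_lit 76) (nat_lit 0) (XT.lf (nat_lit 0) (nat_lit 524487726) (nat_lit 304) (nat_lit 6560209035) (nat_lit 380) (nat_lit 2863837880) (nat_lit 153) (nat_lit 5) (nat_lit 157) (nat_lit 5) (nat_lit 158)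 (nat_lit 4) (nat_lit 604) (nat_lit 487) (nat_lit 469)) (XT.lf (nat_lit 0) (nat_lit 1547252972) (nat_lit 380) (nat_lit 1018558450) (nat_lit 76) (nat_lit 7475624595) (nat_lit 152) (nat_lit 5) (nat_lit 157) (nat_lit 5) (nat_lit 153) (nat_lit 5) (nat_lit 605) (nat_lit 487) (nat_lit 468))))) (XT.nd (nat_lit 156) (nat_lit 1064) (nat_lit 0) (XT.nd (nat_lit 78) (nat_lit 380) (nat_lit 0) (XT.lf (nat_lit 0) (nat_lit 6006525444) (nat_lit 456) (nat_lit 2608680711) (nat_lit 76) (nat_lit 1520646469) (nat_lit 147) (nat_lit 5) (nat_lit 153) (nat_lit 5) (nat_lit 148) (nat_lit 4) (nat_lit 606) (nat_lit 487) (nat_lit 467)) (XT.lf (nat_lit 0) (nat_lit 321014891) (nat_lit 380) (nat_lit 4244982963) (nat_lit 76) (nat_lit 5666071186) (nat_lit 142) (nat_lit 5) (nat_lit 147) (nat_lit 5) (nat_lit 143) (nat_lit 5) (nat_lit 607) (nat_lit 487) (nat_lit 466))) (XT.nd (nat_lit 78) (nat_lit 684) (nat_lit 0) (XT.lf (nat_lit 0) (nat_lit 4392381247) (nat_lit 380) (nat_lit 398686895) (nat_lit 456) (nat_lit 5538877649) (nat_lit 137) (nat_lit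 5) (nat_lit 142) (nat_lit 5) (nat_lit 143) (nat_lit 5) (nat_lit 608) (nat_lit 487) (nat_lit 465)) (XT.nd (nat_lit 78) (nat_lit 380) (nat_lit 0) (XT.lf (nat_lit 0) (nat_lit 2743266708) (nat_lit 304) (nat_lit 6618858620) (nat_lit 380) (nat_lit 1067424478) (nat_lit 133) (nat_lit 5) (nat_lit 137) (nat_lit 5) (nat_lit 138) (nat_lit 4) (nat_lit 609) (nat_lit 487) (nat_lit 464)) (XT.lf (nat_lit 0) (nat_lit 1037383719) (nat_lit 304) (nat_lit 2399993250) (nat_lit 380) (nat_lit 7093522280) (nat_lit 128) (nat_lit 5) (nat_lit 132) (nat_lit 5) (nat_lit 133) (nat_lit 5) (nat_lit 610) (nat_lit 487) (nat_lit 463))))))) (XT.nd (nat_lit 780) (nat_lit 836) (nat_lit 0) (XT.nd (nat_lit 390) (nat_lit 1216) (nat_lit 0) (XT.nd (nat_lit 156) (nat_lit 912) (nat_lit 0) (XT.nd (nat_lit 78) (nat_lit 380) (nat_lit 0) (XT.lf (nat_lit 0) (nat_lit 8022811020) (nat_lit 380) (nat_lit 712072132) (nat_lit 76) (nat_lit 1899156514) (nat_lit 128) (nat_lit 5) (nat_lit 133) (nat_lit 5) (nat_lit 129) (nat_lit 4) (nat_lit 611) (nat_lit 487) (nat_lit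 462)) (XT.lf (nat_lit 0) (nat_lit 1946167625) (nat_lit 380) (nat_lit 2511483537) (nat_lit 76) (nat_lit 6281115305) (nat_lit 123) (nat_lit 5) (nat_lit 128) (nat_lit 5) (nat_lit 124) (nat_lit 5) (nat_lit 612) (nat_lit 487) (nat_lit 461))) (XT.nd (nat_lit 78) (nat_lit 608) (nat_lit 0) (XT.lf (nat_lit 0) (nat_lit 6480276206) (nat_lit 304) (nat_lit 68226652) (nat_lit 380) (nat_lit 4296966220) (nat_lit 119) (nat_lit 5) (nat_lit 123) (nat_lit 5) (nat_lit 124) (nat_lit 5) (nat_lit 613) (nat_lit 487) (nat_lit 460)) (XT.nd (nat_lit 78) (nat_lit 304) (nat_lit 0) (XT.lf (nat_lit 0) (nat_lit 302907579) (nat_lit 304) (nat_lit 6288760396) (nat_lit 76) (nat_lit 4362239554) (nat_lit 115) (nat_lit 5) (nat_lit 119) (nat_lit 5) (nat_lit 116) (nat_lit 5) (nat_lit 614) (nat_lit 487) (nat_lit 459)) (XT.lf (nat_lit 0) (nat_lit 2781342414) (nat_lit 304) (nat_lit 2146179394) (nat_lit 380) (nat_lit 6136620790) (nat_lit 111) (nat_lit 5) (nat_lit 115) (nat_lit 5) (nat_lit 116) (nat_lit 5) (nat_lit 615) (nat_lit 487) (nat_lit 458)))))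 (XT.nd (nat_lit 156) (nat_lit 912) (nat_lit 0) (XT.nd (nat_lit 78) (nat_lit 76) (nat_lit 0) (XT.lf (nat_lit 0) (nat_lit 839966443) (nat_lit 228) (nat_lit 8810578961) (nat_lit 304) (nat_lit 1525920087) (nat_lit 108) (nat_lit 5) (nat_lit 111) (nat_lit 5) (nat_lit 112) (nat_lit 4) (nat_lit 616) (nat_lit 487) (nat_lit 457)) (XT.lf (nat_lit 0) (nat_lit 3148087310) (nat_lit 304) (nat_lit 1165408883) (nat_lit 76) (nat_lit 6976872326) (nat_lit 107) (nat_lit 5) (nat_lit 111) (nat_lit 5) (nat_lit 108) (nat_lit 5) (nat_lit 617) (nat_lit 487) (nat_lit 456))) (XT.nd (nat_lit 78) (nat_lit 608) (nat_lit 0) (XT.lf (nat_lit 0) (nat_lit 7894000868) (nat_lit 380) (nat_lit 3217755128) (nat_lit 76) (nat_lit 294616103) (nat_lit 103) (nat_lit 5) (nat_lit 108) (nat_lit 5) (nat_lit 104) (nat_lit 4) (nat_lit 618) (nat_lit 487) (nat_lit 455)) (XT.nd (nat_lit 78) (nat_lit 304) (nat_lit 0) (XT.lf (nat_lit 0) (nat_lit 1214897528) (nat_lit 304) (nat_lit 5354955476) (nat_lit 76) (nat_lit 4954274301) (nat_lit 99) (nat_lit 5) (nat_lit 103)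 (nat_lit 5) (nat_lit 100) (nat_lit 5) (nat_lit 619) (nat_lit 487) (nat_lit 454)) (XT.lf (nat_lit 0) (nat_lit 4077554742) (nat_lit 304) (nat_lit 1904441924) (nat_lit 380) (nat_lit 5661931600) (nat_lit 95) (nat_lit 5) (nat_lit 99) (nat_lit 5) (nat_lit 100) (nat_lit 5) (nat_lit 620) (nat_lit 487) (nat_lit 453)))))) (XT.nd (nat_lit 78390) (nat_lit 0) (nat_lit 10488) (XT.nd (nat_lit 156) (nat_lit 532) (nat_lit 0) (XT.nd (nat_lit 78) (nat_lit 76) (nat_lit 0) (XT.lf (nat_lit 0) (nat_lit 1915867436) (nat_lit 228) (nat_lit 8939991875) (nat_lit 304) (nat_lit 910038782) (nat_lit 92) (nat_lit 5) (nat_lit 95) (nat_lit 5) (nat_lit 96) (nat_lit 4) (nat_lit 621) (nat_lit 487) (nat_lit 452)) (XT.lf (nat_lit 0) (nat_lit 3893363447) (nat_lit 304) (nat_lit 333976146) (nat_lit 76) (nat_lit 7662295639) (nat_lit 91) (nat_lit 5) (nat_lit 95) (nat_lit 5) (nat_lit 92) (nat_lit 5) (nat_lit 622) (nat_lit 487) (nat_lit 451))) (XT.nd (nat_lit 78) (nat_lit 304) (nat_lit 0) (XT.lf (nat_lit 0) (nat_lit 8791077170) (nat_lit 304) (nat_lit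 2624555652) (nat_lit 76) (nat_lit 599886610) (nat_lit 88) (nat_lit 5) (nat_lit 92) (nat_lit 5) (nat_lit 89) (nat_lit 4) (nat_lit 623) (nat_lit 487) (nat_lit 450)) (XT.nd (nat_lit 78078) (nat_lit 0) (nat_lit 13756) (XT.lf (nat_lit 0) (nat_lit 1643718266) (nat_lit 304) (nat_lit 5012381869) (nat_lit 76) (nat_lit 5487160204) (nat_lit 84) (nat_lit 5) (nat_lit 88) (nat_lit 5) (nat_lit 85) (nat_lit 5) (nat_lit 624) (nat_lit 487) (nat_lit 449)) (XT.lf (nat_lit 0) (nat_lit 1936769030) (nat_lit 608) (nat_lit 334221037) (nat_lit 0) (nat_lit 1936769030) (nat_lit 265) (nat_lit 5) (nat_lit 273) (nat_lit 4) (nat_lit 265) (nat_lit 4) (nat_lit 584) (nat_lit 488) (nat_lit 488))))) (XT.nd (nat_lit 234) (nat_lit 1596) (nat_lit 0) (XT.nd (nat_lit 78) (nat_lit 1140) (nat_lit 0) (XT.lf (nat_lit 0) (nat_lit 6601784279) (nat_lit 532) (nat_lit 1477345271) (nat_lit 532) (nat_lit 399892947) (nat_lit 258) (nat_lit 4) (nat_lit 265) (nat_lit 5) (nat_lit 265) (nat_lit 4) (nat_lit 585) (nat_lit 488) (nat_lit 487)) (XT.nd (nat_lit 78) (nat_lit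 532) (nat_lit 0) (XT.lf (nat_lit 0) (nat_lit 3756998870) (nat_lit 608) (nat_lit 3121602587) (nat_lit 0) (nat_lit 1665059526) (nat_lit 250) (nat_lit 5) (nat_lit 258) (nat_lit 4) (nat_lit 250) (nat_lit 4) (nat_lit 586) (nat_lit 488) (nat_lit 486)) (XT.lf (nat_lit 0) (nat_lit 4229925344) (nat_lit 532) (nat_lit 3743613384) (nat_lit 532) (nat_lit 636366650) (nat_lit 243) (nat_lit 4) (nat_lit 250) (nat_lit 5) (nat_lit 250) (nat_lit 4) (nat_lit 587) (nat_lit 488) (nat_lit 485)))) (XT.nd (nat_lit 78) (nat_lit 1064) (nat_lit 0) (XT.lf (nat_lit 0) (nat_lit 3013014034) (nat_lit 456) (nat_lit 509590009) (nat_lit 532) (nat_lit 5154949841) (nat_lit 236) (nat_lit 5) (nat_lit 242) (nat_lit 5) (nat_lit 243) (nat_lit 4) (nat_lit 588) (nat_lit 488) (nat_lit 484)) (XT.nd (nat_lit 78) (nat_lit 532) (nat_lit 0) (XT.lf (nat_lit 0) (nat_lit 1770705360) (nat_lit 532) (nat_lit 5977439833) (nat_lit 532) (nat_lit 998490911) (nat_lit 229) (nat_lit 4) (nat_lit 236) (nat_lit 5) (nat_lit 236) (nat_lit 4) (nat_lit 589) (nat_lit 488) (nat_lit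 483)) (XT.lf (nat_lit 0) (nat_lit 499454457) (nat_lit 456) (nat_lit 2676976466) (nat_lit 532) (nat_lit 5640694344) (nat_lit 222) (nat_lit 5) (nat_lit 228) (nat_lit 5) (nat_lit 229) (nat_lit 4) (nat_lit 590) (nat_lit 488) (nat_lit 482))))))))
noncomputable def xc10 : XT := (XT.nd (nat_lit 1560) (nat_lit 3648) (nat_lit 0) (XT.nd (nat_lit 780) (nat_lit 3192) (nat_lit 0) (XT.nd (nat_lit 390) (nat_lit 1748) (nat_lit 0) (XT.nd (nat_lit 156) (nat_lit 1368) (nat_lit 0) (XT.nd (nat_lit 78) (nat_lit 532) (nat_lit 0) (XT.lf (nat_lit 0) (nat_lit 7406539962) (nat_lit 532) (nat_lit 778595609) (nat_lit 0) (nat_lit 704058401) (nat_lit 222) (nat_lit 5) (nat_lit 229) (nat_lit 4) (nat_lit 222) (nat_lit 4) (nat_lit 591) (nat_lit 488) (nat_lit 481)) (XT.lf (nat_lit 0) (nat_lit 2719547392) (nat_lit 532) (nat_lit 2092882011) (nat_lit 76) (nat_lit 4149975677) (nat_lit 215) (nat_lit 5) (nat_lit 222) (nat_lit 5) (nat_lit 216) (nat_lit 4) (nat_lit 592) (nat_lit 488) (nat_lit 480))) (XT.nd (nat_lit 78) (nat_lit 912) (nat_lit 0) (XT.lf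 (nat_lit 0) (nat_lit 5611596758) (nat_lit 456) (nat_lit 1351036698) (nat_lit 532) (nat_lit 2074719843) (nat_lit 209) (nat_lit 5) (nat_lit 215) (nat_lit 5) (nat_lit 216) (nat_lit 4) (nat_lit 593) (nat_lit 488) (nat_lit 479)) (XT.nd (nat_lit 78) (nat_lit 380) (nat_lit 0) (XT.lf (nat_lit 0) (nat_lit 2140013527) (nat_lit 532) (nat_lit 4797257605) (nat_lit 76) (nat_lit 2176413710) (nat_lit 202) (nat_lit 5) (nat_lit 209) (nat_lit 5) (nat_lit 203) (nat_lit 4) (nat_lit 594) (nat_lit 488) (nat_lit 478)) (XT.lf (nat_lit 0) (nat_lit 2988156252) (nat_lit 380) (nat_lit 3410267207) (nat_lit 456) (nat_lit 2793104634) (nat_lit 197) (nat_lit 5) (nat_lit 202) (nat_lit 5) (nat_lit 203) (nat_lit 4) (nat_lit 595) (nat_lit 488) (nat_lit 477))))) (XT.nd (nat_lit 156) (nat_lit 836) (nat_lit 0) (XT.nd (nat_lit 78) (nat_lit 380) (nat_lit 0) (XT.lf (nat_lit 0) (nat_lit 1432032049) (nat_lit 532) (nat_lit 7633983576) (nat_lit 76) (nat_lit 205119021) (nat_lit 190) (nat_lit 5) (nat_lit 197) (nat_lit 5) (nat_lit 191) (nat_lit 4) (nat_lit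 596) (nat_lit 488) (nat_lit 476)) (XT.lf (nat_lit 0) (nat_lit 231107267) (nat_lit 380) (nat_lit 5475462879) (nat_lit 456) (nat_lit 3645350421) (nat_lit 185) (nat_lit 5) (nat_lit 190) (nat_lit 5) (nat_lit 191) (nat_lit 4) (nat_lit 597) (nat_lit 488) (nat_lit 475))) (XT.nd (nat_lit 78) (nat_lit 760) (nat_lit 0) (XT.lf (nat_lit 0) (nat_lit 612025908) (nat_lit 456) (nat_lit 1178603845) (nat_lit 76) (nat_lit 7643851878) (nat_lit 184) (nat_lit 5) (nat_lit 190) (nat_lit 5) (nat_lit 185) (nat_lit 5) (nat_lit 598) (nat_lit 488) (nat_lit 474)) (XT.nd (nat_lit 78) (nat_lit 380) (nat_lit 0) (XT.lf (nat_lit 0) (nat_lit 4901271239) (nat_lit 456) (nat_lit 2638794048) (nat_lit 76) (nat_lit 1978238371) (nat_lit 179) (nat_lit 5) (nat_lit 185) (nat_lit 5) (nat_lit 180) (nat_lit 4) (nat_lit 599) (nat_lit 488) (nat_lit 473)) (XT.lf (nat_lit 0) (nat_lit 5474698097) (nat_lit 380) (nat_lit 3795072713) (nat_lit 456) (nat_lit 334164195) (nat_lit 174) (nat_lit 5) (nat_lit 179) (nat_lit 5) (nat_lit 180) (nat_lit 4) (nat_lit 600) (nat_lit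 488) (nat_lit 472)))))) (XT.nd (nat_lit 390) (nat_lit 1520) (nat_lit 0) (XT.nd (nat_lit 156) (nat_lit 836) (nat_lit 0) (XT.nd (nat_lit 78) (nat_lit 380) (nat_lit 0) (XT.lf (nat_lit 0) (nat_lit 3964098023) (nat_lit 456) (nat_lit 5666225093) (nat_lit 76) (nat_lit 60781206) (nat_lit 168) (nat_lit 5) (nat_lit 174) (nat_lit 5) (nat_lit 169) (nat_lit 4) (nat_lit 601) (nat_lit 488) (nat_lit 471)) (XT.lf (nat_lit 0) (nat_lit 2527341593) (nat_lit 380) (nat_lit 5824598978) (nat_lit 456) (nat_lit 1427872622) (nat_lit 163) (nat_lit 5) (nat_lit 168) (nat_lit 5) (nat_lit 169) (nat_lit 4) (nat_lit 602) (nat_lit 488) (nat_lit 470))) (XT.nd (nat_lit 78) (nat_lit 380) (nat_lit 0) (XT.lf (nat_lit 0) (nat_lit 988522424) (nat_lit 380) (nat_lit 1913453864) (nat_lit 456) (nat_lit 6968267651) (nat_lit 157) (nat_lit 5) (nat_lit 162) (nat_lit 5) (nat_lit 163) (nat_lit 5) (nat_lit 603) (nat_lit 488) (nat_lit 469)) (XT.nd (nat_lit 78) (nat_lit 380) (nat_lit 0) (XT.lf (nat_lit 0) (nat_lit 7300954470) (nat_lit 456) (nat_lit 589505306)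 (nat_lit 76) (nat_lit 2071803742) (nat_lit 157) (nat_lit 5) (nat_lit 163) (nat_lit 5) (nat_lit 158) (nat_lit 4) (nat_lit 604) (nat_lit 488) (nat_lit 468)) (XT.lf (nat_lit 0) (nat_lit 1713186368) (nat_lit 380) (nat_lit 2203774362) (nat_lit 76) (nat_lit 6138857607) (nat_lit 152) (nat_lit 5) (nat_lit 157) (nat_lit 5) (nat_lit 153) (nat_lit 5) (nat_lit 605) (nat_lit 488) (nat_lit 467))))) (XT.nd (nat_lit 156) (nat_lit 760) (nat_lit 0) (XT.nd (nat_lit 78) (nat_lit 380) (nat_lit 0) (XT.lf (nat_lit 0) (nat_lit 6125961105) (nat_lit 456) (nat_lit 3863814642) (nat_lit 76) (nat_lit 161390089) (nat_lit 147) (nat_lit 5) (nat_lit 153) (nat_lit 5) (nat_lit 148) (nat_lit 4) (nat_lit 606) (nat_lit 488) (nat_lit 466)) (XT.lf (nat_lit 0) (nat_lit 385659876) (nat_lit 380) (nat_lit 5581427879) (nat_lit 76) (nat_lit 4281044117) (nat_lit 142) (nat_lit 5) (nat_lit 147) (nat_lit 5) (nat_lit 143) (nat_lit 5) (nat_lit 607) (nat_lit 488) (nat_lit 465))) (XT.nd (nat_lit 78) (nat_lit 380) (nat_lit 0) (XT.lf (nat_lit 0) (nat_lit 2989963760)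 (nat_lit 380) (nat_lit 1827428518) (nat_lit 456) (nat_lit 5529383646) (nat_lit 137) (nat_lit 5) (nat_lit 142) (nat_lit 5) (nat_lit 143) (nat_lit 5) (nat_lit 608) (nat_lit 488) (nat_lit 464)) (XT.nd (nat_lit 78) (nat_lit 76) (nat_lit 0) (XT.lf (nat_lit 0) (nat_lit 1266195856) (nat_lit 304) (nat_lit 8074318760) (nat_lit 380) (nat_lit 1106824887) (nat_lit 133) (nat_lit 5) (nat_lit 137) (nat_lit 5) (nat_lit 138) (nat_lit 4) (nat_lit 609) (nat_lit 488) (nat_lit 463)) (XT.lf (nat_lit 0) (nat_lit 3362760054) (nat_lit 380) (nat_lit 518626212) (nat_lit 76) (nat_lit 6668023296) (nat_lit 132) (nat_lit 5) (nat_lit 137) (nat_lit 5) (nat_lit 133) (nat_lit 5) (nat_lit 610) (nat_lit 488) (nat_lit 462))))))) (XT.nd (nat_lit 780) (nat_lit 836) (nat_lit 0) (XT.nd (nat_lit 390) (nat_lit 1216) (nat_lit 0) (XT.nd (nat_lit 156) (nat_lit 912) (nat_lit 0) (XT.nd (nat_lit 78) (nat_lit 380) (nat_lit 0) (XT.lf (nat_lit 0) (nat_lit 7906281998) (nat_lit 380) (nat_lit 2331851202) (nat_lit 76) (nat_lit 415255838) (nat_lit 128) (nat_lit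 5) (nat_lit 133) (nat_lit 5) (nat_lit 129) (nat_lit 4) (nat_lit 611) (nat_lit 488) (nat_lit 461)) (XT.lf (nat_lit 0) (nat_lit 1772551430) (nat_lit 380) (nat_lit 4219405470) (nat_lit 76) (nat_lit 4766967766) (nat_lit 123) (nat_lit 5) (nat_lit 128) (nat_lit 5) (nat_lit 124) (nat_lit 5) (nat_lit 612) (nat_lit 488) (nat_lit 460))) (XT.nd (nat_lit 78) (nat_lit 608) (nat_lit 0) (XT.lf (nat_lit 0) (nat_lit 4701965590) (nat_lit 304) (nat_lit 1633146809) (nat_lit 380) (nat_lit 4531311134) (nat_lit 119) (nat_lit 5) (nat_lit 123) (nat_lit 5) (nat_lit 124) (nat_lit 5) (nat_lit 613) (nat_lit 488) (nat_lit 459)) (XT.nd (nat_lit 78) (nat_lit 304) (nat_lit 0) (XT.lf (nat_lit 0) (nat_lit 20960307) (nat_lit 304) (nat_lit 8169570123) (nat_lit 76) (nat_lit 2785376241) (nat_lit 115) (nat_lit 5) (nat_lit 119) (nat_lit 5) (nat_lit 116) (nat_lit 5) (nat_lit 614) (nat_lit 488) (nat_lit 458)) (XT.lf (nat_lit 0) (nat_lit 827652251) (nat_lit 304) (nat_lit 3777198738) (nat_lit 380) (nat_lit 6482105947) (nat_lit 111) (nat_lit 5) (nat_lit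 115) (nat_lit 5) (nat_lit 116) (nat_lit 5) (nat_lit 615) (nat_lit 488) (nat_lit 457))))) (XT.nd (nat_lit 156) (nat_lit 912) (nat_lit 0) (XT.nd (nat_lit 78) (nat_lit 304) (nat_lit 0) (XT.lf (nat_lit 0) (nat_lit 9283913035) (nat_lit 380) (nat_lit 1184343480) (nat_lit 76) (nat_lit 731903257) (nat_lit 111) (nat_lit 5) (nat_lit 116) (nat_lit 5) (nat_lit 112) (nat_lit 4) (nat_lit 616) (nat_lit 488) (nat_lit 456)) (XT.lf (nat_lit 0) (nat_lit 2727176109) (nat_lit 304) (nat_lit 3274160367) (nat_lit 76) (nat_lit 5313491768) (nat_lit 107) (nat_lit 5) (nat_lit 111) (nat_lit 5) (nat_lit 108) (nat_lit 5) (nat_lit 617) (nat_lit 488) (nat_lit 455))) (XT.nd (nat_lit 78) (nat_lit 608) (nat_lit 0) (XT.lf (nat_lit 0) (nat_lit 6006692408) (nat_lit 304) (nat_lit 1422965518) (nat_lit 380) (nat_lit 4002043203) (nat_lit 103) (nat_lit 5) (nat_lit 107) (nat_lit 5) (nat_lit 108) (nat_lit 5) (nat_lit 618) (nat_lit 488) (nat_lit 454)) (XT.nd (nat_lit 78) (nat_lit 304) (nat_lit 0) (XT.lf (nat_lit 0) (nat_lit 680099041) (nat_lit 304)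 (nat_lit 7652255641) (nat_lit 76) (nat_lit 3218196855) (nat_lit 99) (nat_lit 5) (nat_lit 103) (nat_lit 5) (nat_lit 100) (nat_lit 5) (nat_lit 619) (nat_lit 488) (nat_lit 453)) (XT.lf (nat_lit 0) (nat_lit 1702429724) (nat_lit 304) (nat_lit 3702198312) (nat_lit 380) (nat_lit 6266576498) (nat_lit 95) (nat_lit 5) (nat_lit 99) (nat_lit 5) (nat_lit 100) (nat_lit 5) (nat_lit 620) (nat_lit 488) (nat_lit 452)))))) (XT.nd (nat_lit 78234) (nat_lit 0) (nat_lit 11552) (XT.nd (nat_lit 156) (nat_lit 532) (nat_lit 0) (XT.nd (nat_lit 78) (nat_lit 304) (nat_lit 0) (XT.lf (nat_lit 0) (nat_lit 10227335125) (nat_lit 380) (nat_lit 546768857) (nat_lit 76) (nat_lit 1020094109) (nat_lit 95) (nat_lit 5) (nat_lit 100) (nat_lit 5) (nat_lit 96) (nat_lit 4) (nat_lit 621) (nat_lit 488) (nat_lit 451)) (XT.lf (nat_lit 0) (nat_lit 3214538759) (nat_lit 304) (nat_lit 2874794147) (nat_lit 76) (nat_lit 5829300509) (nat_lit 91) (nat_lit 5) (nat_lit 95) (nat_lit 5) (nat_lit 92) (nat_lit 5) (nat_lit 622) (nat_lit 488) (nat_lit 450))) (XT.nd (nat_lit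 78) (nat_lit 304) (nat_lit 0) (XT.lf (nat_lit 0) (nat_lit 6773881451) (nat_lit 228) (nat_lit 1290941843) (nat_lit 304) (nat_lit 3980643487) (nat_lit 88) (nat_lit 5) (nat_lit 91) (nat_lit 5) (nat_lit 92) (nat_lit 5) (nat_lit 623) (nat_lit 488) (nat_lit 449)) (XT.nd (nat_lit 77922) (nat_lit 0) (nat_lit 14364) (XT.lf (nat_lit 0) (nat_lit 844675633) (nat_lit 304) (nat_lit 7758458063) (nat_lit 76) (nat_lit 3571227930) (nat_lit 84) (nat_lit 5) (nat_lit 88) (nat_lit 5) (nat_lit 85) (nat_lit 5) (nat_lit 624) (nat_lit 488) (nat_lit 448)) (XT.lf (nat_lit 0) (nat_lit 890145572) (nat_lit 608) (nat_lit 1627980759) (nat_lit 608) (nat_lit 1627980759) (nat_lit 273) (nat_lit 4) (nat_lit 281) (nat_lit 5) (nat_lit 281) (nat_lit 4) (nat_lit 582) (nat_lit 489) (nat_lit 489))))) (XT.nd (nat_lit 234) (nat_lit 1596) (nat_lit 0) (XT.nd (nat_lit 78) (nat_lit 608) (nat_lit 0) (XT.lf (nat_lit 0) (nat_lit 546928588) (nat_lit 532) (nat_lit 278769424) (nat_lit 608) (nat_lit 7528038745) (nat_lit 265) (nat_lit 5) (nat_lit 272) (nat_lit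 5) (nat_lit 273) (nat_lit 4) (nat_lit 583) (nat_lit 489) (nat_lit 488)) (XT.nd (nat_lit 78) (nat_lit 608) (nat_lit 0) (XT.lf (nat_lit 0) (nat_lit 4938432463) (nat_lit 608) (nat_lit 715790835) (nat_lit 0) (nat_lit 2761978769) (nat_lit 265) (nat_lit 5) (nat_lit 273) (nat_lit 4) (nat_lit 265) (nat_lit 4) (nat_lit 584) (nat_lit 489) (nat_lit 487)) (XT.lf (nat_lit 0) (nat_lit 621322624) (nat_lit 608) (nat_lit 1977707800) (nat_lit 76) (nat_lit 5881276997) (nat_lit 257) (nat_lit 5) (nat_lit 265) (nat_lit 5) (nat_lit 258) (nat_lit 4) (nat_lit 585) (nat_lit 489) (nat_lit 486)))) (XT.nd (nat_lit 78) (nat_lit 1064) (nat_lit 0) (XT.lf (nat_lit 0) (nat_lit 4731324589) (nat_lit 608) (nat_lit 3267778396) (nat_lit 0) (nat_lit 546625531) (nat_lit 250) (nat_lit 5) (nat_lit 258) (nat_lit 4) (nat_lit 250) (nat_lit 4) (nat_lit 586) (nat_lit 489) (nat_lit 485)) (XT.nd (nat_lit 78) (nat_lit 456) (nat_lit 0) (XT.lf (nat_lit 0) (nat_lit 296951353) (nat_lit 608) (nat_lit 4580256724) (nat_lit 76) (nat_lit 3735413487) (nat_lit 242)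 (nat_lit 5) (nat_lit 250) (nat_lit 5) (nat_lit 243) (nat_lit 4) (nat_lit 587) (nat_lit 489) (nat_lit 484)) (XT.lf (nat_lit 0) (nat_lit 2758307212) (nat_lit 456) (nat_lit 1654706370) (nat_lit 532) (nat_lit 4267866643) (nat_lit 236) (nat_lit 5) (nat_lit 242) (nat_lit 5) (nat_lit 243) (nat_lit 4) (nat_lit 588) (nat_lit 489) (nat_lit 483))))))))
noncomputable def xc11 : XT := (XT.nd (nat_lit 1560) (nat_lit 3724) (nat_lit 0) (XT.nd (nat_lit 780) (nat_lit 3572) (nat_lit 0) (XT.nd (nat_lit 390) (nat_lit 1900) (nat_lit 0) (XT.nd (nat_lit 156) (nat_lit 988) (nat_lit 0) (XT.nd (nat_lit 78) (nat_lit 532) (nat_lit 0) (XT.lf (nat_lit 0) (nat_lit 1468938972) (nat_lit 532) (nat_lit 7127563918) (nat_lit 532) (nat_lit 154302102) (nat_lit 229) (nat_lit 4) (nat_lit 236) (nat_lit 5) (nat_lit 236) (nat_lit 4) (nat_lit 589) (nat_lit 489) (nat_lit 482)) (XT.lf (nat_lit 0) (nat_lit 135936928) (nat_lit 456) (nat_lit 3838713531) (nat_lit 532) (nat_lit 4847233477) (nat_lit 222) (nat_lit 5) (nat_lit 228) (nat_lit 5) (nat_lit 229)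 (nat_lit 4) (nat_lit 590) (nat_lit 489) (nat_lit 481))) (XT.nd (nat_lit 78) (nat_lit 988) (nat_lit 0) (XT.lf (nat_lit 0) (nat_lit 7704783219) (nat_lit 456) (nat_lit 463139614) (nat_lit 532) (nat_lit 726767963) (nat_lit 222) (nat_lit 5) (nat_lit 228) (nat_lit 5) (nat_lit 229) (nat_lit 4) (nat_lit 591) (nat_lit 489) (nat_lit 480)) (XT.nd (nat_lit 78) (nat_lit 456) (nat_lit 0) (XT.lf (nat_lit 0) (nat_lit 3427601411) (nat_lit 532) (nat_lit 2564781509) (nat_lit 76) (nat_lit 2976180567) (nat_lit 215) (nat_lit 5) (nat_lit 222) (nat_lit 5) (nat_lit 216) (nat_lit 4) (nat_lit 592) (nat_lit 489) (nat_lit 479)) (XT.lf (nat_lit 0) (nat_lit 5086052018) (nat_lit 456) (nat_lit 2549666884) (nat_lit 532) (nat_lit 1408493516) (nat_lit 209) (nat_lit 5) (nat_lit 215) (nat_lit 5) (nat_lit 216) (nat_lit 4) (nat_lit 593) (nat_lit 489) (nat_lit 478))))) (XT.nd (nat_lit 156) (nat_lit 988) (nat_lit 0) (XT.nd (nat_lit 78) (nat_lit 380) (nat_lit 0) (XT.lf (nat_lit 0) (nat_lit 2754336197) (nat_lit 532) (nat_lit 5388207405) (nat_lit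 76) (nat_lit 978778455) (nat_lit 202) (nat_lit 5) (nat_lit 209) (nat_lit 5) (nat_lit 203) (nat_lit 4) (nat_lit 594) (nat_lit 489) (nat_lit 477)) (XT.lf (nat_lit 0) (nat_lit 2341647652) (nat_lit 380) (nat_lit 4635667756) (nat_lit 456) (nat_lit 2222559779) (nat_lit 197) (nat_lit 5) (nat_lit 202) (nat_lit 5) (nat_lit 203) (nat_lit 4) (nat_lit 595) (nat_lit 489) (nat_lit 476))) (XT.nd (nat_lit 78) (nat_lit 456) (nat_lit 0) (XT.lf (nat_lit 0) (nat_lit 923403589) (nat_lit 456) (nat_lit 1034567564) (nat_lit 532) (nat_lit 7322180172) (nat_lit 190) (nat_lit 5) (nat_lit 196) (nat_lit 5) (nat_lit 197) (nat_lit 5) (nat_lit 596) (nat_lit 489) (nat_lit 475)) (XT.nd (nat_lit 78) (nat_lit 456) (nat_lit 0) (XT.lf (nat_lit 0) (nat_lit 6193363076) (nat_lit 532) (nat_lit 535358760) (nat_lit 76) (nat_lit 2632999524) (nat_lit 190) (nat_lit 5) (nat_lit 197) (nat_lit 5) (nat_lit 191) (nat_lit 4) (nat_lit 597) (nat_lit 489) (nat_lit 474)) (XT.lf (nat_lit 0) (nat_lit 1048385019) (nat_lit 456) (nat_lit 2012616441) (nat_lit 76) (nat_lit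 6383907714) (nat_lit 184) (nat_lit 5) (nat_lit 190) (nat_lit 5) (nat_lit 185) (nat_lit 5) (nat_lit 598) (nat_lit 489) (nat_lit 473)))))) (XT.nd (nat_lit 390) (nat_lit 1900) (nat_lit 0) (XT.nd (nat_lit 156) (nat_lit 836) (nat_lit 0) (XT.nd (nat_lit 78) (nat_lit 456) (nat_lit 0) (XT.lf (nat_lit 0) (nat_lit 5293217435) (nat_lit 456) (nat_lit 3533821485) (nat_lit 76) (nat_lit 702581661) (nat_lit 179) (nat_lit 5) (nat_lit 185) (nat_lit 5) (nat_lit 180) (nat_lit 4) (nat_lit 599) (nat_lit 489) (nat_lit 472)) (XT.lf (nat_lit 0) (nat_lit 9378013) (nat_lit 456) (nat_lit 5095627971) (nat_lit 76) (nat_lit 4510970542) (nat_lit 173) (nat_lit 5) (nat_lit 179) (nat_lit 5) (nat_lit 174) (nat_lit 5) (nat_lit 600) (nat_lit 489) (nat_lit 471))) (XT.nd (nat_lit 78) (nat_lit 456) (nat_lit 0) (XT.lf (nat_lit 0) (nat_lit 2996397246) (nat_lit 380) (nat_lit 1269828945) (nat_lit 456) (nat_lit 5437617945) (nat_lit 168) (nat_lit 5) (nat_lit 173) (nat_lit 5) (nat_lit 174) (nat_lit 5) (nat_lit 601) (nat_lit 489) (nat_lit 470)) (XT.nd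 (nat_lit 78) (nat_lit 76) (nat_lit 0) (XT.lf (nat_lit 0) (nat_lit 1433000016) (nat_lit 380) (nat_lit 7175943379) (nat_lit 456) (nat_lit 1184513155) (nat_lit 163) (nat_lit 5) (nat_lit 168) (nat_lit 5) (nat_lit 169) (nat_lit 4) (nat_lit 602) (nat_lit 489) (nat_lit 469)) (XT.lf (nat_lit 0) (nat_lit 3106034605) (nat_lit 456) (nat_lit 181105363) (nat_lit 76) (nat_lit 6597438912) (nat_lit 162) (nat_lit 5) (nat_lit 168) (nat_lit 5) (nat_lit 163) (nat_lit 5) (nat_lit 603) (nat_lit 489) (nat_lit 468))))) (XT.nd (nat_lit 156) (nat_lit 1140) (nat_lit 0) (XT.nd (nat_lit 78) (nat_lit 380) (nat_lit 0) (XT.lf (nat_lit 0) (nat_lit 7465368817) (nat_lit 456) (nat_lit 1814236609) (nat_lit 76) (nat_lit 697786889) (nat_lit 157) (nat_lit 5) (nat_lit 163) (nat_lit 5) (nat_lit 158) (nat_lit 4) (nat_lit 604) (nat_lit 489) (nat_lit 467)) (XT.lf (nat_lit 0) (nat_lit 1822956909) (nat_lit 380) (nat_lit 3508333578) (nat_lit 76) (nat_lit 4740389342) (nat_lit 152) (nat_lit 5) (nat_lit 157) (nat_lit 5) (nat_lit 153) (nat_lit 5) (nat_lit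 605) (nat_lit 489) (nat_lit 466))) (XT.nd (nat_lit 78) (nat_lit 760) (nat_lit 0) (XT.lf (nat_lit 0) (nat_lit 4919503540) (nat_lit 380) (nat_lit 1277409403) (nat_lit 456) (nat_lit 3970891681) (nat_lit 147) (nat_lit 5) (nat_lit 152) (nat_lit 5) (nat_lit 153) (nat_lit 5) (nat_lit 606) (nat_lit 489) (nat_lit 465)) (XT.nd (nat_lit 78) (nat_lit 380) (nat_lit 0) (XT.lf (nat_lit 0) (nat_lit 392582604) (nat_lit 380) (nat_lit 7040712513) (nat_lit 76) (nat_lit 2832402934) (nat_lit 142) (nat_lit 5) (nat_lit 147) (nat_lit 5) (nat_lit 143) (nat_lit 5) (nat_lit 607) (nat_lit 489) (nat_lit 464)) (XT.lf (nat_lit 0) (nat_lit 1464019411) (nat_lit 380) (nat_lit 3321745578) (nat_lit 456) (nat_lit 5579348981) (nat_lit 137) (nat_lit 5) (nat_lit 142) (nat_lit 5) (nat_lit 143) (nat_lit 5) (nat_lit 608) (nat_lit 489) (nat_lit 463))))))) (XT.nd (nat_lit 780) (nat_lit 1140) (nat_lit 0) (XT.nd (nat_lit 390) (nat_lit 1216) (nat_lit 0) (XT.nd (nat_lit 156) (nat_lit 988) (nat_lit 0) (XT.nd (nat_lit 78) (nat_lit 380) (nat_lit 0) (XT.lf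 (nat_lit 0) (nat_lit 9262465829) (nat_lit 456) (nat_lit 331782512) (nat_lit 76) (nat_lit 872358488) (nat_lit 137) (nat_lit 5) (nat_lit 143) (nat_lit 5) (nat_lit 138) (nat_lit 4) (nat_lit 609) (nat_lit 489) (nat_lit 462)) (XT.lf (nat_lit 0) (nat_lit 3236093742) (nat_lit 380) (nat_lit 2186540955) (nat_lit 76) (nat_lit 5146668176) (nat_lit 132) (nat_lit 5) (nat_lit 137) (nat_lit 5) (nat_lit 133) (nat_lit 5) (nat_lit 610) (nat_lit 489) (nat_lit 461))) (XT.nd (nat_lit 78) (nat_lit 684) (nat_lit 0) (XT.lf (nat_lit 0) (nat_lit 6587689802) (nat_lit 304) (nat_lit 1150046709) (nat_lit 380) (nat_lit 2936384222) (nat_lit 128) (nat_lit 5) (nat_lit 132) (nat_lit 5) (nat_lit 133) (nat_lit 5) (nat_lit 611) (nat_lit 489) (nat_lit 460)) (XT.nd (nat_lit 78) (nat_lit 304) (nat_lit 0) (XT.lf (nat_lit 0) (nat_lit 1538441761) (nat_lit 380) (nat_lit 6056558797) (nat_lit 76) (nat_lit 3185627449) (nat_lit 123) (nat_lit 5) (nat_lit 128) (nat_lit 5) (nat_lit 124) (nat_lit 5) (nat_lit 612) (nat_lit 489) (nat_lit 459)) (XT.lf (nat_lit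 0) (nat_lit 2793641286) (nat_lit 304) (nat_lit 3267296542) (nat_lit 380) (nat_lit 4827991099) (nat_lit 119) (nat_lit 5) (nat_lit 123) (nat_lit 5) (nat_lit 124) (nat_lit 5) (nat_lit 613) (nat_lit 489) (nat_lit 458))))) (XT.nd (nat_lit 156) (nat_lit 912) (nat_lit 0) (XT.nd (nat_lit 78) (nat_lit 76) (nat_lit 0) (XT.lf (nat_lit 0) (nat_lit 813854689) (nat_lit 228) (nat_lit 9858022317) (nat_lit 304) (nat_lit 327560491) (nat_lit 116) (nat_lit 5) (nat_lit 119) (nat_lit 5) (nat_lit 120) (nat_lit 4) (nat_lit 614) (nat_lit 489) (nat_lit 457)) (XT.lf (nat_lit 0) (nat_lit 4227763426) (nat_lit 304) (nat_lit 1243419323) (nat_lit 76) (nat_lit 5640005516) (nat_lit 115) (nat_lit 5) (nat_lit 119) (nat_lit 5) (nat_lit 116) (nat_lit 5) (nat_lit 615) (nat_lit 489) (nat_lit 456))) (XT.nd (nat_lit 78) (nat_lit 608) (nat_lit 0) (XT.lf (nat_lit 0) (nat_lit 7887105773) (nat_lit 304) (nat_lit 979475213) (nat_lit 380) (nat_lit 2358615702) (nat_lit 111) (nat_lit 5) (nat_lit 115) (nat_lit 5) (nat_lit 116) (nat_lit 5) (nat_lit 616) (nat_lit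 489) (nat_lit 455)) (XT.nd (nat_lit 78) (nat_lit 304) (nat_lit 0) (XT.lf (nat_lit 0) (nat_lit 2242672124) (nat_lit 304) (nat_lit 5519032730) (nat_lit 76) (nat_lit 3579177154) (nat_lit 107) (nat_lit 5) (nat_lit 111) (nat_lit 5) (nat_lit 108) (nat_lit 5) (nat_lit 617) (nat_lit 489) (nat_lit 454)) (XT.lf (nat_lit 0) (nat_lit 3685784999) (nat_lit 304) (nat_lit 3217521505) (nat_lit 380) (nat_lit 4555285996) (nat_lit 103) (nat_lit 5) (nat_lit 107) (nat_lit 5) (nat_lit 108) (nat_lit 5) (nat_lit 618) (nat_lit 489) (nat_lit 453)))))) (XT.nd (nat_lit 78156) (nat_lit 0) (nat_lit 12844) (XT.nd (nat_lit 156) (nat_lit 836) (nat_lit 0) (XT.nd (nat_lit 78) (nat_lit 0) (nat_lit 0) (XT.lf (nat_lit 0) (nat_lit 79763086) (nat_lit 304) (nat_lit 10089784625) (nat_lit 76) (nat_lit 1409054650) (nat_lit 99) (nat_lit 5) (nat_lit 103) (nat_lit 5) (nat_lit 100) (nat_lit 5) (nat_lit 619) (nat_lit 489) (nat_lit 452)) (XT.lf (nat_lit 0) (nat_lit 4766621860) (nat_lit 304) (nat_lit 803186403) (nat_lit 76) (nat_lit 6130201119) (nat_lit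 99) (nat_lit 5) (nat_lit 103) (nat_lit 5) (nat_lit 100) (nat_lit 5) (nat_lit 620) (nat_lit 489) (nat_lit 451))) (XT.nd (nat_lit 78) (nat_lit 532) (nat_lit 0) (XT.lf (nat_lit 0) (nat_lit 8692526128) (nat_lit 304) (nat_lit 858417390) (nat_lit 380) (nat_lit 2272827737) (nat_lit 95) (nat_lit 5) (nat_lit 99) (nat_lit 5) (nat_lit 100) (nat_lit 5) (nat_lit 621) (nat_lit 489) (nat_lit 450)) (XT.nd (nat_lit 78) (nat_lit 228) (nat_lit 0) (XT.lf (nat_lit 0) (nat_lit 2468679098) (nat_lit 304) (nat_lit 5559173944) (nat_lit 76) (nat_lit 3921428865) (nat_lit 91) (nat_lit 5) (nat_lit 95) (nat_lit 5) (nat_lit 92) (nat_lit 5) (nat_lit 622) (nat_lit 489) (nat_lit 449)) (XT.lf (nat_lit 0) (nat_lit 4008216139) (nat_lit 228) (nat_lit 3266845282) (nat_lit 304) (nat_lit 4801932471) (nat_lit 88) (nat_lit 5) (nat_lit 91) (nat_lit 5) (nat_lit 92) (nat_lit 5) (nat_lit 623) (nat_lit 489) (nat_lit 448))))) (XT.nd (nat_lit 234) (nat_lit 1216) (nat_lit 0) (XT.nd (nat_lit 78) (nat_lit 1292) (nat_lit 0) (XT.lf (nat_lit 0) (nat_lit 2131776923)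 (nat_lit 608) (nat_lit 977403991) (nat_lit 608) (nat_lit 977403991) (nat_lit 290) (nat_lit 4) (nat_lit 298) (nat_lit 5) (nat_lit 298) (nat_lit 4) (nat_lit 580) (nat_lit 490) (nat_lit 490)) (XT.nd (nat_lit 78) (nat_lit 608) (nat_lit 0) (XT.lf (nat_lit 0) (nat_lit 2076994046) (nat_lit 684) (nat_lit 5221804964) (nat_lit 0) (nat_lit 933593021) (nat_lit 281) (nat_lit 5) (nat_lit 290) (nat_lit 4) (nat_lit 281) (nat_lit 4) (nat_lit 581) (nat_lit 490) (nat_lit 489)) (XT.lf (nat_lit 0) (nat_lit 1733691254) (nat_lit 608) (nat_lit 4411795250) (nat_lit 608) (nat_lit 2147412826) (nat_lit 273) (nat_lit 4) (nat_lit 281) (nat_lit 5) (nat_lit 281) (nat_lit 4) (nat_lit 582) (nat_lit 490) (nat_lit 488)))) (XT.nd (nat_lit 78) (nat_lit 608) (nat_lit 0) (XT.lf (nat_lit 0) (nat_lit 444972915) (nat_lit 532) (nat_lit 1440352187) (nat_lit 608) (nat_lit 6469642244) (nat_lit 265) (nat_lit 5) (nat_lit 272) (nat_lit 5) (nat_lit 273) (nat_lit 4) (nat_lit 583) (nat_lit 490) (nat_lit 487)) (XT.nd (nat_lit 78) (nat_lit 608) (nat_lit 0)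 (XT.lf (nat_lit 0) (nat_lit 5957079585) (nat_lit 608) (nat_lit 857855685) (nat_lit 0) (nat_lit 1603318686) (nat_lit 265) (nat_lit 5) (nat_lit 273) (nat_lit 4) (nat_lit 265) (nat_lit 4) (nat_lit 584) (nat_lit 490) (nat_lit 486)) (XT.lf (nat_lit 0) (nat_lit 1590341509) (nat_lit 608) (nat_lit 2176884586) (nat_lit 76) (nat_lit 4715687711) (nat_lit 257) (nat_lit 5) (nat_lit 265) (nat_lit 5) (nat_lit 258) (nat_lit 4) (nat_lit 585) (nat_lit 490) (nat_lit 485))))))))
noncomputable def xc12 : XT := (XT.nd (nat_lit 1560) (nat_lit 4864) (nat_lit 0) (XT.nd (nat_lit 780) (nat_lit 3420) (nat_lit 0) (XT.nd (nat_lit 390) (nat_lit 2356) (nat_lit 0) (XT.nd (nat_lit 156) (nat_lit 1064) (nat_lit 0) (XT.nd (nat_lit 78) (nat_lit 608) (nat_lit 0) (XT.lf (nat_lit 0) (nat_lit 5033541670) (nat_lit 532) (nat_lit 628945208) (nat_lit 608) (nat_lit 2886606758) (nat_lit 250) (nat_lit 5) (nat_lit 257) (nat_lit 5) (nat_lit 258) (nat_lit 4) (nat_lit 586) (nat_lit 490) (nat_lit 484)) (XT.lf (nat_lit 0) (nat_lit 1173947205) (nat_lit 608)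 (nat_lit 4883608239) (nat_lit 76) (nat_lit 2559084964) (nat_lit 242) (nat_lit 5) (nat_lit 250) (nat_lit 5) (nat_lit 243) (nat_lit 4) (nat_lit 587) (nat_lit 490) (nat_lit 483))) (XT.nd (nat_lit 78) (nat_lit 608) (nat_lit 0) (XT.lf (nat_lit 0) (nat_lit 2404275354) (nat_lit 456) (nat_lit 2851172060) (nat_lit 532) (nat_lit 3430144405) (nat_lit 236) (nat_lit 5) (nat_lit 242) (nat_lit 5) (nat_lit 243) (nat_lit 4) (nat_lit 588) (nat_lit 490) (nat_lit 482)) (XT.nd (nat_lit 78) (nat_lit 0) (nat_lit 0) (XT.lf (nat_lit 0) (nat_lit 631775535) (nat_lit 608) (nat_lit 7694122742) (nat_lit 76) (nat_lit 430384644) (nat_lit 228) (nat_lit 5) (nat_lit 236) (nat_lit 5) (nat_lit 229) (nat_lit 4) (nat_lit 589) (nat_lit 490) (nat_lit 481)) (XT.lf (nat_lit 0) (nat_lit 4725922403) (nat_lit 608) (nat_lit 325509974) (nat_lit 76) (nat_lit 3776566514) (nat_lit 228) (nat_lit 5) (nat_lit 236) (nat_lit 5) (nat_lit 229) (nat_lit 4) (nat_lit 590) (nat_lit 490) (nat_lit 480))))) (XT.nd (nat_lit 156) (nat_lit 1368) (nat_lit 0) (XT.nd (nat_lit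 78) (nat_lit 532) (nat_lit 0) (XT.lf (nat_lit 0) (nat_lit 7192910248) (nat_lit 456) (nat_lit 1692569781) (nat_lit 532) (nat_lit 16001413) (nat_lit 222) (nat_lit 5) (nat_lit 228) (nat_lit 5) (nat_lit 229) (nat_lit 4) (nat_lit 591) (nat_lit 490) (nat_lit 479)) (XT.lf (nat_lit 0) (nat_lit 4086072607) (nat_lit 532) (nat_lit 3140559305) (nat_lit 76) (nat_lit 1749490736) (nat_lit 215) (nat_lit 5) (nat_lit 222) (nat_lit 5) (nat_lit 216) (nat_lit 4) (nat_lit 592) (nat_lit 490) (nat_lit 478))) (XT.nd (nat_lit 78) (nat_lit 912) (nat_lit 0) (XT.lf (nat_lit 0) (nat_lit 4456177392) (nat_lit 456) (nat_lit 3802985506) (nat_lit 532) (nat_lit 793310539) (nat_lit 209) (nat_lit 5) (nat_lit 215) (nat_lit 5) (nat_lit 216) (nat_lit 4) (nat_lit 593) (nat_lit 490) (nat_lit 477)) (XT.nd (nat_lit 78) (nat_lit 380) (nat_lit 0) (XT.lf (nat_lit 0) (nat_lit 3042463447) (nat_lit 456) (nat_lit 277190597) (nat_lit 532) (nat_lit 5810686351) (nat_lit 202) (nat_lit 5) (nat_lit 208) (nat_lit 5) (nat_lit 209) (nat_lit 5) (nat_lit 594) (nat_lit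 490) (nat_lit 476)) (XT.lf (nat_lit 0) (nat_lit 1587733502) (nat_lit 380) (nat_lit 5917584391) (nat_lit 456) (nat_lit 1704323176) (nat_lit 197) (nat_lit 5) (nat_lit 202) (nat_lit 5) (nat_lit 203) (nat_lit 4) (nat_lit 595) (nat_lit 490) (nat_lit 475)))))) (XT.nd (nat_lit 390) (nat_lit 1596) (nat_lit 0) (XT.nd (nat_lit 156) (nat_lit 1292) (nat_lit 0) (XT.nd (nat_lit 78) (nat_lit 0) (nat_lit 0) (XT.lf (nat_lit 0) (nat_lit 99290717) (nat_lit 456) (nat_lit 2334249560) (nat_lit 532) (nat_lit 6857028242) (nat_lit 190) (nat_lit 5) (nat_lit 196) (nat_lit 5) (nat_lit 197) (nat_lit 5) (nat_lit 596) (nat_lit 490) (nat_lit 474)) (XT.lf (nat_lit 0) (nat_lit 6630171671) (nat_lit 532) (nat_lit 1407909205) (nat_lit 76) (nat_lit 1334834056) (nat_lit 190) (nat_lit 5) (nat_lit 197) (nat_lit 5) (nat_lit 191) (nat_lit 4) (nat_lit 597) (nat_lit 490) (nat_lit 473))) (XT.nd (nat_lit 78) (nat_lit 836) (nat_lit 0) (XT.lf (nat_lit 0) (nat_lit 1432412323) (nat_lit 456) (nat_lit 2957352314) (nat_lit 76) (nat_lit 5067004076) (nat_lit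 184) (nat_lit 5) (nat_lit 190) (nat_lit 5) (nat_lit 185) (nat_lit 5) (nat_lit 598) (nat_lit 490) (nat_lit 472)) (XT.nd (nat_lit 78) (nat_lit 456) (nat_lit 0) (XT.lf (nat_lit 0) (nat_lit 4996973210) (nat_lit 380) (nat_lit 639499099) (nat_lit 456) (nat_lit 3905824359) (nat_lit 179) (nat_lit 5) (nat_lit 184) (nat_lit 5) (nat_lit 185) (nat_lit 5) (nat_lit 599) (nat_lit 490) (nat_lit 471)) (XT.lf (nat_lit 0) (nat_lit 294819153) (nat_lit 456) (nat_lit 6178166772) (nat_lit 76) (nat_lit 3156440859) (nat_lit 173) (nat_lit 5) (nat_lit 179) (nat_lit 5) (nat_lit 174) (nat_lit 5) (nat_lit 600) (nat_lit 490) (nat_lit 470))))) (XT.nd (nat_lit 156) (nat_lit 836) (nat_lit 0) (XT.nd (nat_lit 78) (nat_lit 380) (nat_lit 0) (XT.lf (nat_lit 0) (nat_lit 1852945096) (nat_lit 380) (nat_lit 2661934160) (nat_lit 456) (nat_lit 5203151936) (nat_lit 168) (nat_lit 5) (nat_lit 173) (nat_lit 5) (nat_lit 174) (nat_lit 5) (nat_lit 601) (nat_lit 490) (nat_lit 469)) (XT.lf (nat_lit 0) (nat_lit 222432404) (nat_lit 380) (nat_lit 8589074032)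 (nat_lit 456) (nat_lit 997059987) (nat_lit 163) (nat_lit 5) (nat_lit 168) (nat_lit 5) (nat_lit 169) (nat_lit 4) (nat_lit 602) (nat_lit 490) (nat_lit 468))) (XT.nd (nat_lit 78) (nat_lit 760) (nat_lit 0) (XT.lf (nat_lit 0) (nat_lit 3261920169) (nat_lit 456) (nat_lit 1454174581) (nat_lit 76) (nat_lit 5184152822) (nat_lit 162) (nat_lit 5) (nat_lit 168) (nat_lit 5) (nat_lit 163) (nat_lit 5) (nat_lit 603) (nat_lit 490) (nat_lit 467)) (XT.nd (nat_lit 78) (nat_lit 380) (nat_lit 0) (XT.lf (nat_lit 0) (nat_lit 6831979707) (nat_lit 380) (nat_lit 747472337) (nat_lit 456) (nat_lit 2414445968) (nat_lit 157) (nat_lit 5) (nat_lit 162) (nat_lit 5) (nat_lit 163) (nat_lit 5) (nat_lit 604) (nat_lit 490) (nat_lit 466)) (XT.lf (nat_lit 0) (nat_lit 1876607643) (nat_lit 380) (nat_lit 4932747689) (nat_lit 76) (nat_lit 3279671384) (nat_lit 152) (nat_lit 5) (nat_lit 157) (nat_lit 5) (nat_lit 153) (nat_lit 5) (nat_lit 605) (nat_lit 490) (nat_lit 465))))))) (XT.nd (nat_lit 780) (nat_lit 2052) (nat_lit 0) (XT.nd (nat_lit 390) (nat_lit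 1292) (nat_lit 0) (XT.nd (nat_lit 156) (nat_lit 760) (nat_lit 0) (XT.nd (nat_lit 78) (nat_lit 380) (nat_lit 0) (XT.lf (nat_lit 0) (nat_lit 3430047415) (nat_lit 380) (nat_lit 2782542861) (nat_lit 456) (nat_lit 3973321604) (nat_lit 147) (nat_lit 5) (nat_lit 152) (nat_lit 5) (nat_lit 153) (nat_lit 5) (nat_lit 606) (nat_lit 490) (nat_lit 464)) (XT.lf (nat_lit 0) (nat_lit 341785789) (nat_lit 380) (nat_lit 8623409133) (nat_lit 76) (nat_lit 1319579544) (nat_lit 142) (nat_lit 5) (nat_lit 147) (nat_lit 5) (nat_lit 143) (nat_lit 5) (nat_lit 607) (nat_lit 490) (nat_lit 463))) (XT.nd (nat_lit 78) (nat_lit 760) (nat_lit 0) (XT.lf (nat_lit 0) (nat_lit 4697381835) (nat_lit 380) (nat_lit 183610125) (nat_lit 76) (nat_lit 5503951002) (nat_lit 142) (nat_lit 5) (nat_lit 147) (nat_lit 5) (nat_lit 143) (nat_lit 5) (nat_lit 608) (nat_lit 490) (nat_lit 462)) (XT.nd (nat_lit 78) (nat_lit 380) (nat_lit 0) (XT.lf (nat_lit 0) (nat_lit 8445177513) (nat_lit 380) (nat_lit 694132683) (nat_lit 456) (nat_lit 1347821908) (nat_lit 137) (nat_lit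 5) (nat_lit 142) (nat_lit 5) (nat_lit 143) (nat_lit 5) (nat_lit 609) (nat_lit 490) (nat_lit 461)) (XT.lf (nat_lit 0) (nat_lit 3050592979) (nat_lit 380) (nat_lit 3980620067) (nat_lit 76) (nat_lit 3559508645) (nat_lit 132) (nat_lit 5) (nat_lit 137) (nat_lit 5) (nat_lit 133) (nat_lit 5) (nat_lit 610) (nat_lit 490) (nat_lit 460))))) (XT.nd (nat_lit 156) (nat_lit 608) (nat_lit 0) (XT.nd (nat_lit 78) (nat_lit 380) (nat_lit 0) (XT.lf (nat_lit 0) (nat_lit 4724126983) (nat_lit 304) (nat_lit 2788683942) (nat_lit 380) (nat_lit 3183517909) (nat_lit 128) (nat_lit 5) (nat_lit 132) (nat_lit 5) (nat_lit 133) (nat_lit 5) (nat_lit 611) (nat_lit 490) (nat_lit 459)) (XT.lf (nat_lit 0) (nat_lit 1243746813) (nat_lit 380) (nat_lit 8023663970) (nat_lit 76) (nat_lit 1536474220) (nat_lit 123) (nat_lit 5) (nat_lit 128) (nat_lit 5) (nat_lit 124) (nat_lit 5) (nat_lit 612) (nat_lit 490) (nat_lit 458))) (XT.nd (nat_lit 78) (nat_lit 304) (nat_lit 0) (XT.lf (nat_lit 0) (nat_lit 754554933) (nat_lit 304) (nat_lit 4971316694) (nat_lit 380)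 (nat_lit 5187122462) (nat_lit 119) (nat_lit 5) (nat_lit 123) (nat_lit 5) (nat_lit 124) (nat_lit 5) (nat_lit 613) (nat_lit 490) (nat_lit 457)) (XT.nd (nat_lit 78) (nat_lit 304) (nat_lit 0) (XT.lf (nat_lit 0) (nat_lit 9726321127) (nat_lit 304) (nat_lit 570839113) (nat_lit 380) (nat_lit 727136155) (nat_lit 119) (nat_lit 5) (nat_lit 123) (nat_lit 5) (nat_lit 124) (nat_lit 5) (nat_lit 614) (nat_lit 490) (nat_lit 456)) (XT.lf (nat_lit 0) (nat_lit 3794176030) (nat_lit 304) (nat_lit 3436593619) (nat_lit 76) (nat_lit 3906115142) (nat_lit 115) (nat_lit 5) (nat_lit 119) (nat_lit 5) (nat_lit 116) (nat_lit 5) (nat_lit 615) (nat_lit 490) (nat_lit 455)))))) (XT.nd (nat_lit 390) (nat_lit 836) (nat_lit 0) (XT.nd (nat_lit 156) (nat_lit 608) (nat_lit 0) (XT.nd (nat_lit 78) (nat_lit 304) (nat_lit 0) (XT.lf (nat_lit 0) (nat_lit 5619661804) (nat_lit 304) (nat_lit 2772188361) (nat_lit 380) (nat_lit 2859866602) (nat_lit 111) (nat_lit 5) (nat_lit 115) (nat_lit 5) (nat_lit 116) (nat_lit 5) (nat_lit 616) (nat_lit 490) (nat_lit 454))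 (XT.lf (nat_lit 0) (nat_lit 1694385354) (nat_lit 304) (nat_lit 7900906315) (nat_lit 76) (nat_lit 1773248362) (nat_lit 107) (nat_lit 5) (nat_lit 111) (nat_lit 5) (nat_lit 108) (nat_lit 5) (nat_lit 617) (nat_lit 490) (nat_lit 453))) (XT.nd (nat_lit 78) (nat_lit 304) (nat_lit 0) (XT.lf (nat_lit 0) (nat_lit 1226961615) (nat_lit 304) (nat_lit 5085840311) (nat_lit 380) (nat_lit 5174293598) (nat_lit 103) (nat_lit 5) (nat_lit 107) (nat_lit 5) (nat_lit 108) (nat_lit 5) (nat_lit 618) (nat_lit 490) (nat_lit 452)) (XT.nd (nat_lit 78) (nat_lit 304) (nat_lit 0) (XT.lf (nat_lit 0) (nat_lit 10554782015) (nat_lit 304) (nat_lit 469249417) (nat_lit 380) (nat_lit 583983077) (nat_lit 103) (nat_lit 5) (nat_lit 107) (nat_lit 5) (nat_lit 108) (nat_lit 5) (nat_lit 619) (nat_lit 490) (nat_lit 451)) (XT.lf (nat_lit 0) (nat_lit 4074417993) (nat_lit 304) (nat_lit 3426762326) (nat_lit 76) (nat_lit 4229039984) (nat_lit 99) (nat_lit 5) (nat_lit 103) (nat_lit 5) (nat_lit 100) (nat_lit 5) (nat_lit 620) (nat_lit 490) (nat_lit 450))))) (XT.nd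 (nat_lit 156) (nat_lit 228) (nat_lit 0) (XT.nd (nat_lit 78) (nat_lit 304) (nat_lit 0) (XT.lf (nat_lit 0) (nat_lit 5989517180) (nat_lit 304) (nat_lit 2826089393) (nat_lit 380) (nat_lit 3039238861) (nat_lit 95) (nat_lit 5) (nat_lit 99) (nat_lit 5) (nat_lit 100) (nat_lit 5) (nat_lit 621) (nat_lit 490) (nat_lit 449)) (XT.lf (nat_lit 0) (nat_lit 1655491972) (nat_lit 304) (nat_lit 8388168238) (nat_lit 76) (nat_lit 1937932523) (nat_lit 91) (nat_lit 5) (nat_lit 95) (nat_lit 5) (nat_lit 92) (nat_lit 5) (nat_lit 622) (nat_lit 490) (nat_lit 448))) (XT.nd (nat_lit 77688) (nat_lit 0) (nat_lit 15960) (XT.lf (nat_lit 0) (nat_lit 1096908824) (nat_lit 228) (nat_lit 5320626391) (nat_lit 304) (nat_lit 5692656844) (nat_lit 88) (nat_lit 5) (nat_lit 91) (nat_lit 5) (nat_lit 92) (nat_lit 5) (nat_lit 623) (nat_lit 490) (nat_lit 447)) (XT.nd (nat_lit 78) (nat_lit 684) (nat_lit 0) (XT.lf (nat_lit 0) (nat_lit 3388420169) (nat_lit 684) (nat_lit 320401638) (nat_lit 684) (nat_lit 320401638) (nat_lit 307) (nat_lit 4) (nat_lit 316) (nat_lit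 5) (nat_lit 316) (nat_lit 4) (nat_lit 578) (nat_lit 491) (nat_lit 491)) (XT.lf (nat_lit 0) (nat_lit 3344873089) (nat_lit 684) (nat_lit 2615191769) (nat_lit 0) (nat_lit 2155278662) (nat_lit 298) (nat_lit 5) (nat_lit 307) (nat_lit 4) (nat_lit 298) (nat_lit 4) (nat_lit 579) (nat_lit 491) (nat_lit 490))))))))
noncomputable def xc13 : XT := (XT.nd (nat_lit 1560) (nat_lit 6080) (nat_lit 0) (XT.nd (nat_lit 780) (nat_lit 3724) (nat_lit 0) (XT.nd (nat_lit 390) (nat_lit 2812) (nat_lit 0) (XT.nd (nat_lit 156) (nat_lit 1216) (nat_lit 0) (XT.nd (nat_lit 78) (nat_lit 684) (nat_lit 0) (XT.lf (nat_lit 0) (nat_lit 4218322713) (nat_lit 608) (nat_lit 3155695603) (nat_lit 608) (nat_lit 799832130) (nat_lit 290) (nat_lit 4) (nat_lit 298) (nat_lit 5) (nat_lit 298) (nat_lit 4) (nat_lit 580) (nat_lit 491) (nat_lit 489)) (XT.lf (nat_lit 0) (nat_lit 2917345101) (nat_lit 608) (nat_lit 259194304) (nat_lit 684) (nat_lit 5057190745) (nat_lit 281) (nat_lit 5) (nat_lit 289) (nat_lit 5) (nat_lit 290) (nat_lit 4) (nat_lit 581) (nat_lit 491)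 (nat_lit 488))) (XT.nd (nat_lit 78) (nat_lit 608) (nat_lit 0) (XT.lf (nat_lit 0) (nat_lit 1593873308) (nat_lit 608) (nat_lit 5615367287) (nat_lit 608) (nat_lit 1085714448) (nat_lit 273) (nat_lit 4) (nat_lit 281) (nat_lit 5) (nat_lit 281) (nat_lit 4) (nat_lit 582) (nat_lit 491) (nat_lit 487)) (XT.nd (nat_lit 78) (nat_lit 0) (nat_lit 0) (XT.lf (nat_lit 0) (nat_lit 248396465) (nat_lit 532) (nat_lit 2650366717) (nat_lit 608) (nat_lit 5458810432) (nat_lit 265) (nat_lit 5) (nat_lit 272) (nat_lit 5) (nat_lit 273) (nat_lit 4) (nat_lit 583) (nat_lit 491) (nat_lit 486)) (XT.lf (nat_lit 0) (nat_lit 6929878896) (nat_lit 608) (nat_lit 1094692335) (nat_lit 0) (nat_lit 397103434) (nat_lit 265) (nat_lit 5) (nat_lit 273) (nat_lit 4) (nat_lit 265) (nat_lit 4) (nat_lit 584) (nat_lit 491) (nat_lit 485))))) (XT.nd (nat_lit 156) (nat_lit 1672) (nat_lit 0) (XT.nd (nat_lit 78) (nat_lit 532) (nat_lit 0) (XT.lf (nat_lit 0) (nat_lit 2512788384) (nat_lit 608) (nat_lit 2472250314) (nat_lit 76) (nat_lit 3501855906) (nat_lit 257) (nat_lit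 5) (nat_lit 265) (nat_lit 5) (nat_lit 258) (nat_lit 4) (nat_lit 585) (nat_lit 491) (nat_lit 484)) (XT.lf (nat_lit 0) (nat_lit 4688904749) (nat_lit 532) (nat_lit 1861781884) (nat_lit 608) (nat_lit 2003074314) (nat_lit 250) (nat_lit 5) (nat_lit 257) (nat_lit 5) (nat_lit 258) (nat_lit 4) (nat_lit 586) (nat_lit 491) (nat_lit 483))) (XT.nd (nat_lit 78) (nat_lit 1064) (nat_lit 0) (XT.lf (nat_lit 0) (nat_lit 2003310886) (nat_lit 608) (nat_lit 5286021829) (nat_lit 76) (nat_lit 1332713405) (nat_lit 242) (nat_lit 5) (nat_lit 250) (nat_lit 5) (nat_lit 243) (nat_lit 4) (nat_lit 587) (nat_lit 491) (nat_lit 482)) (XT.nd (nat_lit 78) (nat_lit 608) (nat_lit 0) (XT.lf (nat_lit 0) (nat_lit 1950779626) (nat_lit 456) (nat_lit 4099456281) (nat_lit 532) (nat_lit 2641454608) (nat_lit 236) (nat_lit 5) (nat_lit 242) (nat_lit 5) (nat_lit 243) (nat_lit 4) (nat_lit 588) (nat_lit 491) (nat_lit 481)) (XT.lf (nat_lit 0) (nat_lit 548298191) (nat_lit 532) (nat_lit 824126344) (nat_lit 608) (nat_lit 7390610031) (nat_lit 228) (nat_lit 5)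 (nat_lit 235) (nat_lit 5) (nat_lit 236) (nat_lit 5) (nat_lit 589) (nat_lit 491) (nat_lit 480)))))) (XT.nd (nat_lit 390) (nat_lit 1748) (nat_lit 0) (XT.nd (nat_lit 156) (nat_lit 1444) (nat_lit 0) (XT.nd (nat_lit 78) (nat_lit 532) (nat_lit 0) (XT.lf (nat_lit 0) (nat_lit 5429946707) (nat_lit 608) (nat_lit 886268433) (nat_lit 76) (nat_lit 2519269286) (nat_lit 228) (nat_lit 5) (nat_lit 236) (nat_lit 5) (nat_lit 229) (nat_lit 4) (nat_lit 590) (nat_lit 491) (nat_lit 479)) (XT.lf (nat_lit 0) (nat_lit 636737856) (nat_lit 532) (nat_lit 2334346960) (nat_lit 76) (nat_lit 5938492614) (nat_lit 221) (nat_lit 5) (nat_lit 228) (nat_lit 5) (nat_lit 222) (nat_lit 5) (nat_lit 591) (nat_lit 491) (nat_lit 478))) (XT.nd (nat_lit 78) (nat_lit 988) (nat_lit 0) (XT.lf (nat_lit 0) (nat_lit 4695219202) (nat_lit 532) (nat_lit 3820441197) (nat_lit 76) (nat_lit 469425129) (nat_lit 215) (nat_lit 5) (nat_lit 222) (nat_lit 5) (nat_lit 216) (nat_lit 4) (nat_lit 592) (nat_lit 491) (nat_lit 477)) (XT.nd (nat_lit 78) (nat_lit 532) (nat_lit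 0) (XT.lf (nat_lit 0) (nat_lit 3721725871) (nat_lit 456) (nat_lit 5111484061) (nat_lit 532) (nat_lit 228929665) (nat_lit 209) (nat_lit 5) (nat_lit 215) (nat_lit 5) (nat_lit 216) (nat_lit 4) (nat_lit 593) (nat_lit 491) (nat_lit 476)) (XT.lf (nat_lit 0) (nat_lit 2239100727) (nat_lit 456) (nat_lit 1602090043) (nat_lit 532) (nat_lit 5299452580) (nat_lit 202) (nat_lit 5) (nat_lit 208) (nat_lit 5) (nat_lit 209) (nat_lit 5) (nat_lit 594) (nat_lit 491) (nat_lit 475))))) (XT.nd (nat_lit 156) (nat_lit 1292) (nat_lit 0) (XT.nd (nat_lit 78) (nat_lit 76) (nat_lit 0) (XT.lf (nat_lit 0) (nat_lit 726118152) (nat_lit 380) (nat_lit 7256519825) (nat_lit 456) (nat_lit 1238191595) (nat_lit 197) (nat_lit 5) (nat_lit 202) (nat_lit 5) (nat_lit 203) (nat_lit 4) (nat_lit 595) (nat_lit 491) (nat_lit 474)) (XT.lf (nat_lit 0) (nat_lit 2862992204) (nat_lit 456) (nat_lit 823194449) (nat_lit 76) (nat_lit 5616122332) (nat_lit 196) (nat_lit 5) (nat_lit 202) (nat_lit 5) (nat_lit 197) (nat_lit 5) (nat_lit 596) (nat_lit 491) (nat_lit 473)))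 (XT.nd (nat_lit 78) (nat_lit 836) (nat_lit 0) (XT.lf (nat_lit 0) (nat_lit 6995483890) (nat_lit 456) (nat_lit 20314733) (nat_lit 532) (nat_lit 2369734419) (nat_lit 190) (nat_lit 5) (nat_lit 196) (nat_lit 5) (nat_lit 197) (nat_lit 5) (nat_lit 597) (nat_lit 491) (nat_lit 472)) (XT.nd (nat_lit 78) (nat_lit 380) (nat_lit 0) (XT.lf (nat_lit 0) (nat_lit 1764258422) (nat_lit 456) (nat_lit 4013181948) (nat_lit 76) (nat_lit 3692624531) (nat_lit 184) (nat_lit 5) (nat_lit 190) (nat_lit 5) (nat_lit 185) (nat_lit 5) (nat_lit 598) (nat_lit 491) (nat_lit 471)) (XT.lf (nat_lit 0) (nat_lit 3881769349) (nat_lit 380) (nat_lit 2050254955) (nat_lit 456) (nat_lit 3624295513) (nat_lit 179) (nat_lit 5) (nat_lit 184) (nat_lit 5) (nat_lit 185) (nat_lit 5) (nat_lit 599) (nat_lit 491) (nat_lit 470))))))) (XT.nd (nat_lit 780) (nat_lit 2888) (nat_lit 0) (XT.nd (nat_lit 390) (nat_lit 1520) (nat_lit 0) (XT.nd (nat_lit 156) (nat_lit 836) (nat_lit 0) (XT.nd (nat_lit 78) (nat_lit 380) (nat_lit 0) (XT.lf (nat_lit 0) (nat_lit 526653786) (nat_lit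 456) (nat_lit 7375108222) (nat_lit 76) (nat_lit 1742572442) (nat_lit 173) (nat_lit 5) (nat_lit 179) (nat_lit 5) (nat_lit 174) (nat_lit 5) (nat_lit 600) (nat_lit 491) (nat_lit 469)) (XT.lf (nat_lit 0) (nat_lit 594482240) (nat_lit 380) (nat_lit 4115272613) (nat_lit 456) (nat_lit 5023924201) (nat_lit 168) (nat_lit 5) (nat_lit 173) (nat_lit 5) (nat_lit 174) (nat_lit 5) (nat_lit 601) (nat_lit 491) (nat_lit 468))) (XT.nd (nat_lit 78) (nat_lit 836) (nat_lit 0) (XT.lf (nat_lit 0) (nat_lit 8733101082) (nat_lit 380) (nat_lit 235309160) (nat_lit 456) (nat_lit 856564476) (nat_lit 168) (nat_lit 5) (nat_lit 173) (nat_lit 5) (nat_lit 174) (nat_lit 5) (nat_lit 602) (nat_lit 491) (nat_lit 467)) (XT.nd (nat_lit 78) (nat_lit 380) (nat_lit 0) (XT.lf (nat_lit 0) (nat_lit 3363275968) (nat_lit 456) (nat_lit 2844149119) (nat_lit 76) (nat_lit 3709959434) (nat_lit 162) (nat_lit 5) (nat_lit 168) (nat_lit 5) (nat_lit 163) (nat_lit 5) (nat_lit 603) (nat_lit 491) (nat_lit 466)) (XT.lf (nat_lit 0) (nat_lit 5378561687) (nat_lit 380) (nat_lit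 2264830822) (nat_lit 456) (nat_lit 2368391696) (nat_lit 157) (nat_lit 5) (nat_lit 162) (nat_lit 5) (nat_lit 163) (nat_lit 5) (nat_lit 604) (nat_lit 491) (nat_lit 465))))) (XT.nd (nat_lit 156) (nat_lit 760) (nat_lit 0) (XT.nd (nat_lit 78) (nat_lit 380) (nat_lit 0) (XT.lf (nat_lit 0) (nat_lit 1874159607) (nat_lit 380) (nat_lit 6477575290) (nat_lit 76) (nat_lit 1756130900) (nat_lit 152) (nat_lit 5) (nat_lit 157) (nat_lit 5) (nat_lit 153) (nat_lit 5) (nat_lit 605) (nat_lit 491) (nat_lit 464)) (XT.lf (nat_lit 0) (nat_lit 1819481732) (nat_lit 380) (nat_lit 4352455743) (nat_lit 456) (nat_lit 4033578466) (nat_lit 147) (nat_lit 5) (nat_lit 152) (nat_lit 5) (nat_lit 153) (nat_lit 5) (nat_lit 606) (nat_lit 491) (nat_lit 463))) (XT.nd (nat_lit 78) (nat_lit 684) (nat_lit 0) (XT.lf (nat_lit 0) (nat_lit 235119069) (nat_lit 456) (nat_lit 26153684) (nat_lit 76) (nat_lit 10044058452) (nat_lit 146) (nat_lit 5) (nat_lit 152) (nat_lit 5) (nat_lit 147) (nat_lit 5) (nat_lit 607) (nat_lit 491) (nat_lit 462)) (XT.nd (nat_lit 78)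 (nat_lit 380) (nat_lit 0) (XT.lf (nat_lit 0) (nat_lit 4561315210) (nat_lit 380) (nat_lit 1935174729) (nat_lit 76) (nat_lit 3909598594) (nat_lit 142) (nat_lit 5) (nat_lit 147) (nat_lit 5) (nat_lit 143) (nat_lit 5) (nat_lit 608) (nat_lit 491) (nat_lit 461)) (XT.lf (nat_lit 0) (nat_lit 6625795174) (nat_lit 380) (nat_lit 2338645223) (nat_lit 456) (nat_lit 1544614159) (nat_lit 137) (nat_lit 5) (nat_lit 142) (nat_lit 5) (nat_lit 143) (nat_lit 5) (nat_lit 609) (nat_lit 491) (nat_lit 460)))))) (XT.nd (nat_lit 390) (nat_lit 1520) (nat_lit 0) (XT.nd (nat_lit 156) (nat_lit 684) (nat_lit 0) (XT.nd (nat_lit 78) (nat_lit 304) (nat_lit 0) (XT.lf (nat_lit 0) (nat_lit 2806185019) (nat_lit 380) (nat_lit 5901567108) (nat_lit 76) (nat_lit 1905922289) (nat_lit 132) (nat_lit 5) (nat_lit 137) (nat_lit 5) (nat_lit 133) (nat_lit 5) (nat_lit 610) (nat_lit 491) (nat_lit 459)) (XT.lf (nat_lit 0) (nat_lit 2732905155) (nat_lit 304) (nat_lit 4495779930) (nat_lit 380) (nat_lit 3491391601) (nat_lit 128) (nat_lit 5) (nat_lit 132) (nat_lit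 5) (nat_lit 133) (nat_lit 5) (nat_lit 611) (nat_lit 491) (nat_lit 458))) (XT.nd (nat_lit 78) (nat_lit 304) (nat_lit 0) (XT.lf (nat_lit 0) (nat_lit 705996835) (nat_lit 304) (nat_lit 183545885) (nat_lit 380) (nat_lit 9939138219) (nat_lit 123) (nat_lit 5) (nat_lit 127) (nat_lit 5) (nat_lit 128) (nat_lit 5) (nat_lit 612) (nat_lit 491) (nat_lit 457)) (XT.nd (nat_lit 78) (nat_lit 304) (nat_lit 0) (XT.lf (nat_lit 0) (nat_lit 5338976612) (nat_lit 380) (nat_lit 1397520795) (nat_lit 76) (nat_lit 4201947161) (nat_lit 123) (nat_lit 5) (nat_lit 128) (nat_lit 5) (nat_lit 124) (nat_lit 5) (nat_lit 613) (nat_lit 491) (nat_lit 456)) (XT.lf (nat_lit 0) (nat_lit 7511613694) (nat_lit 304) (nat_lit 2363092674) (nat_lit 380) (nat_lit 1175752395) (nat_lit 119) (nat_lit 5) (nat_lit 123) (nat_lit 5) (nat_lit 124) (nat_lit 5) (nat_lit 614) (nat_lit 491) (nat_lit 455))))) (XT.nd (nat_lit 234) (nat_lit 608) (nat_lit 0) (XT.nd (nat_lit 78) (nat_lit 608) (nat_lit 0) (XT.lf (nat_lit 0) (nat_lit 3298545100) (nat_lit 304) (nat_lit 5763585513)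 (nat_lit 76) (nat_lit 2102033452) (nat_lit 115) (nat_lit 5) (nat_lit 119) (nat_lit 5) (nat_lit 116) (nat_lit 5) (nat_lit 615) (nat_lit 491) (nat_lit 454)) (XT.nd (nat_lit 78) (nat_lit 304) (nat_lit 0) (XT.lf (nat_lit 0) (nat_lit 3217506646) (nat_lit 304) (nat_lit 4637212601) (nat_lit 380) (nat_lit 3425107464) (nat_lit 111) (nat_lit 5) (nat_lit 115) (nat_lit 5) (nat_lit 116) (nat_lit 5) (nat_lit 616) (nat_lit 491) (nat_lit 453)) (XT.lf (nat_lit 0) (nat_lit 976393344) (nat_lit 228) (nat_lit 106398249) (nat_lit 304) (nat_lit 10315007747) (nat_lit 107) (nat_lit 5) (nat_lit 110) (nat_lit 5) (nat_lit 111) (nat_lit 5) (nat_lit 617) (nat_lit 491) (nat_lit 452)))) (XT.nd (nat_lit 78) (nat_lit 608) (nat_lit 0) (XT.lf (nat_lit 0) (nat_lit 5666812386) (nat_lit 304) (nat_lit 1352764462) (nat_lit 76) (nat_lit 4497466532) (nat_lit 107) (nat_lit 5) (nat_lit 111) (nat_lit 5) (nat_lit 108) (nat_lit 5) (nat_lit 618) (nat_lit 491) (nat_lit 451)) (XT.nd (nat_lit 78) (nat_lit 304) (nat_lit 0) (XT.lf (nat_lit 0) (nat_lit 7913541352)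 (nat_lit 304) (nat_lit 2430084061) (nat_lit 380) (nat_lit 1295025902) (nat_lit 103) (nat_lit 5) (nat_lit 107) (nat_lit 5) (nat_lit 108) (nat_lit 5) (nat_lit 619) (nat_lit 491) (nat_lit 450)) (XT.lf (nat_lit 0) (nat_lit 3316691680) (nat_lit 304) (nat_lit 6191654571) (nat_lit 76) (nat_lit 2253723963) (nat_lit 99) (nat_lit 5) (nat_lit 103) (nat_lit 5) (nat_lit 100) (nat_lit 5) (nat_lit 620) (nat_lit 491) (nat_lit 449))))))))
noncomputable def xc14 : XT := (XT.nd (nat_lit 79014) (nat_lit 0) (nat_lit 2432) (XT.nd (nat_lit 78234) (nat_lit 0) (nat_lit 9424) (XT.nd (nat_lit 77844) (nat_lit 0) (nat_lit 13832) (XT.nd (nat_lit 156) (nat_lit 0) (nat_lit 0) (XT.nd (nat_lit 78) (nat_lit 304) (nat_lit 0) (XT.lf (nat_lit 0) (nat_lit 3144187756) (nat_lit 304) (nat_lit 4870137021) (nat_lit 380) (nat_lit 3873242260) (nat_lit 95) (nat_lit 5) (nat_lit 99) (nat_lit 5) (nat_lit 100) (nat_lit 5) (nat_lit 621) (nat_lit 491) (nat_lit 448)) (XT.lf (nat_lit 0) (nat_lit 651873666) (nat_lit 228) (nat_lit 123587227) (nat_lit 304) (nat_lit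 11240101619) (nat_lit 91) (nat_lit 5) (nat_lit 94) (nat_lit 5) (nat_lit 95) (nat_lit 5) (nat_lit 622) (nat_lit 491) (nat_lit 447))) (XT.nd (nat_lit 77532) (nat_lit 0) (nat_lit 16416) (XT.lf (nat_lit 0) (nat_lit 5504641690) (nat_lit 304) (nat_lit 1935460924) (nat_lit 76) (nat_lit 4704717023) (nat_lit 91) (nat_lit 5) (nat_lit 95) (nat_lit 5) (nat_lit 92) (nat_lit 5) (nat_lit 623) (nat_lit 491) (nat_lit 446)) (XT.nd (nat_lit 78) (nat_lit 684) (nat_lit 0) (XT.lf (nat_lit 0) (nat_lit 346396771) (nat_lit 684) (nat_lit 3281037743) (nat_lit 0) (nat_lit 346396771) (nat_lit 316) (nat_lit 5) (nat_lit 325) (nat_lit 4) (nat_lit 316) (nat_lit 4) (nat_lit 576) (nat_lit 492) (nat_lit 492)) (XT.lf (nat_lit 0) (nat_lit 19465806) (nat_lit 684) (nat_lit 4610394442) (nat_lit 684) (nat_lit 3372740400) (nat_lit 307) (nat_lit 4) (nat_lit 316) (nat_lit 5) (nat_lit 316) (nat_lit 4) (nat_lit 577) (nat_lit 492) (nat_lit 491))))) (XT.nd (nat_lit 156) (nat_lit 1900) (nat_lit 0) (XT.nd (nat_lit 78) (nat_lit 608) (nat_lit 0) (XT.lf (nat_lit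 0) (nat_lit 555066655) (nat_lit 760) (nat_lit 1329805712) (nat_lit 76) (nat_lit 6174178063) (nat_lit 306) (nat_lit 5) (nat_lit 316) (nat_lit 5) (nat_lit 307) (nat_lit 4) (nat_lit 578) (nat_lit 492) (nat_lit 490)) (XT.lf (nat_lit 0) (nat_lit 4490297983) (nat_lit 684) (nat_lit 2705360364) (nat_lit 0) (nat_lit 921048194) (nat_lit 298) (nat_lit 5) (nat_lit 307) (nat_lit 4) (nat_lit 298) (nat_lit 4) (nat_lit 579) (nat_lit 492) (nat_lit 489))) (XT.nd (nat_lit 78) (nat_lit 1216) (nat_lit 0) (XT.lf (nat_lit 0) (nat_lit 305623311) (nat_lit 684) (nat_lit 4095291724) (nat_lit 76) (nat_lit 3774937372) (nat_lit 289) (nat_lit 5) (nat_lit 298) (nat_lit 5) (nat_lit 290) (nat_lit 4) (nat_lit 580) (nat_lit 492) (nat_lit 488)) (XT.nd (nat_lit 78) (nat_lit 608) (nat_lit 0) (XT.lf (nat_lit 0) (nat_lit 2725965167) (nat_lit 608) (nat_lit 1511459277) (nat_lit 684) (nat_lit 3998887184) (nat_lit 281) (nat_lit 5) (nat_lit 289) (nat_lit 5) (nat_lit 290) (nat_lit 4) (nat_lit 581) (nat_lit 492) (nat_lit 487)) (XT.lf (nat_lit 0) (nat_lit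 1360782475) (nat_lit 608) (nat_lit 6867149621) (nat_lit 608) (nat_lit 70450031) (nat_lit 273) (nat_lit 4) (nat_lit 281) (nat_lit 5) (nat_lit 281) (nat_lit 4) (nat_lit 582) (nat_lit 492) (nat_lit 486)))))) (XT.nd (nat_lit 390) (nat_lit 2052) (nat_lit 0) (XT.nd (nat_lit 156) (nat_lit 1748) (nat_lit 0) (XT.nd (nat_lit 78) (nat_lit 532) (nat_lit 0) (XT.lf (nat_lit 0) (nat_lit 3866688067) (nat_lit 684) (nat_lit 42315500) (nat_lit 76) (nat_lit 4452547444) (nat_lit 272) (nat_lit 5) (nat_lit 281) (nat_lit 5) (nat_lit 273) (nat_lit 4) (nat_lit 583) (nat_lit 492) (nat_lit 485)) (XT.lf (nat_lit 0) (nat_lit 6994320012) (nat_lit 532) (nat_lit 868530951) (nat_lit 608) (nat_lit 563501792) (nat_lit 265) (nat_lit 5) (nat_lit 272) (nat_lit 5) (nat_lit 273) (nat_lit 4) (nat_lit 584) (nat_lit 492) (nat_lit 484))) (XT.nd (nat_lit 78) (nat_lit 1140) (nat_lit 0) (XT.lf (nat_lit 0) (nat_lit 3389024990) (nat_lit 608) (nat_lit 2863920815) (nat_lit 76) (nat_lit 2239305569) (nat_lit 257) (nat_lit 5) (nat_lit 265) (nat_lit 5) (nat_lit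 258) (nat_lit 4) (nat_lit 585) (nat_lit 492) (nat_lit 483)) (XT.nd (nat_lit 78) (nat_lit 608) (nat_lit 0) (XT.lf (nat_lit 0) (nat_lit 4247572352) (nat_lit 532) (nat_lit 3145103595) (nat_lit 608) (nat_lit 1167128256) (nat_lit 250) (nat_lit 5) (nat_lit 257) (nat_lit 5) (nat_lit 258) (nat_lit 4) (nat_lit 586) (nat_lit 492) (nat_lit 482)) (XT.lf (nat_lit 0) (nat_lit 2785367639) (nat_lit 608) (nat_lit 5787655301) (nat_lit 76) (nat_lit 55817881) (nat_lit 242) (nat_lit 5) (nat_lit 250) (nat_lit 5) (nat_lit 243) (nat_lit 4) (nat_lit 587) (nat_lit 492) (nat_lit 481))))) (XT.nd (nat_lit 156) (nat_lit 1520) (nat_lit 0) (XT.nd (nat_lit 78) (nat_lit 76) (nat_lit 0) (XT.lf (nat_lit 0) (nat_lit 1397642186) (nat_lit 456) (nat_lit 5400048558) (nat_lit 532) (nat_lit 1901487963) (nat_lit 236) (nat_lit 5) (nat_lit 242) (nat_lit 5) (nat_lit 243) (nat_lit 4) (nat_lit 588) (nat_lit 492) (nat_lit 480)) (XT.lf (nat_lit 0) (nat_lit 2068233897) (nat_lit 532) (nat_lit 68693120) (nat_lit 76) (nat_lit 6634190098) (nat_lit 235) (nat_lit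 5) (nat_lit 242) (nat_lit 5) (nat_lit 236) (nat_lit 5) (nat_lit 589) (nat_lit 492) (nat_lit 479))) (XT.nd (nat_lit 78) (nat_lit 988) (nat_lit 0) (XT.lf (nat_lit 0) (nat_lit 6086116865) (nat_lit 608) (nat_lit 1548341191) (nat_lit 76) (nat_lit 1209903069) (nat_lit 228) (nat_lit 5) (nat_lit 236) (nat_lit 5) (nat_lit 229) (nat_lit 4) (nat_lit 590) (nat_lit 492) (nat_lit 478)) (XT.nd (nat_lit 78) (nat_lit 456) (nat_lit 0) (XT.lf (nat_lit 0) (nat_lit 1240607850) (nat_lit 532) (nat_lit 3063073330) (nat_lit 76) (nat_lit 4615388892) (nat_lit 221) (nat_lit 5) (nat_lit 228) (nat_lit 5) (nat_lit 222) (nat_lit 5) (nat_lit 591) (nat_lit 492) (nat_lit 477)) (XT.lf (nat_lit 0) (nat_lit 4384960468) (nat_lit 456) (nat_lit 876007231) (nat_lit 532) (nat_lit 3734374191) (nat_lit 215) (nat_lit 5) (nat_lit 221) (nat_lit 5) (nat_lit 222) (nat_lit 5) (nat_lit 592) (nat_lit 492) (nat_lit 476))))))) (XT.nd (nat_lit 780) (nat_lit 3420) (nat_lit 0) (XT.nd (nat_lit 390) (nat_lit 1672) (nat_lit 0) (XT.nd (nat_lit 156) (nat_lit 912) (nat_lit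 0) (XT.nd (nat_lit 78) (nat_lit 456) (nat_lit 0) (XT.lf (nat_lit 0) (nat_lit 281134304) (nat_lit 532) (nat_lit 6192654824) (nat_lit 76) (nat_lit 2599388569) (nat_lit 208) (nat_lit 5) (nat_lit 215) (nat_lit 5) (nat_lit 209) (nat_lit 5) (nat_lit 593) (nat_lit 492) (nat_lit 475)) (XT.lf (nat_lit 0) (nat_lit 1329279567) (nat_lit 456) (nat_lit 2983432001) (nat_lit 532) (nat_lit 4839652183) (nat_lit 202) (nat_lit 5) (nat_lit 208) (nat_lit 5) (nat_lit 209) (nat_lit 5) (nat_lit 594) (nat_lit 492) (nat_lit 474))) (XT.nd (nat_lit 78) (nat_lit 912) (nat_lit 0) (XT.lf (nat_lit 0) (nat_lit 8411044043) (nat_lit 532) (nat_lit 240342265) (nat_lit 76) (nat_lit 582027150) (nat_lit 202) (nat_lit 5) (nat_lit 209) (nat_lit 5) (nat_lit 203) (nat_lit 4) (nat_lit 595) (nat_lit 492) (nat_lit 473)) (XT.nd (nat_lit 78) (nat_lit 456) (nat_lit 0) (XT.lf (nat_lit 0) (nat_lit 3242434234) (nat_lit 456) (nat_lit 1852617115) (nat_lit 76) (nat_lit 4220407202) (nat_lit 196) (nat_lit 5) (nat_lit 202) (nat_lit 5) (nat_lit 197) (nat_lit 5) (nat_lit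 596) (nat_lit 492) (nat_lit 472)) (XT.lf (nat_lit 0) (nat_lit 5908209866) (nat_lit 456) (nat_lit 1451211781) (nat_lit 532) (nat_lit 2039978463) (nat_lit 190) (nat_lit 5) (nat_lit 196) (nat_lit 5) (nat_lit 197) (nat_lit 5) (nat_lit 597) (nat_lit 492) (nat_lit 471))))) (XT.nd (nat_lit 156) (nat_lit 836) (nat_lit 0) (XT.nd (nat_lit 78) (nat_lit 380) (nat_lit 0) (XT.lf (nat_lit 0) (nat_lit 2044053449) (nat_lit 456) (nat_lit 5180519394) (nat_lit 76) (nat_lit 2260230106) (nat_lit 184) (nat_lit 5) (nat_lit 190) (nat_lit 5) (nat_lit 185) (nat_lit 5) (nat_lit 598) (nat_lit 492) (nat_lit 470)) (XT.lf (nat_lit 0) (nat_lit 2654464870) (nat_lit 380) (nat_lit 3520902201) (nat_lit 456) (nat_lit 3396420897) (nat_lit 179) (nat_lit 5) (nat_lit 184) (nat_lit 5) (nat_lit 185) (nat_lit 5) (nat_lit 599) (nat_lit 492) (nat_lit 469))) (XT.nd (nat_lit 78) (nat_lit 380) (nat_lit 0) (XT.lf (nat_lit 0) (nat_lit 704972825) (nat_lit 456) (nat_lit 8686921708) (nat_lit 76) (nat_lit 268810832) (nat_lit 173) (nat_lit 5) (nat_lit 179) (nat_lit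 5) (nat_lit 174) (nat_lit 5) (nat_lit 600) (nat_lit 492) (nat_lit 468)) (XT.nd (nat_lit 78) (nat_lit 380) (nat_lit 0) (XT.lf (nat_lit 0) (nat_lit 4855990336) (nat_lit 456) (nat_lit 769261752) (nat_lit 76) (nat_lit 4125440550) (nat_lit 173) (nat_lit 5) (nat_lit 179) (nat_lit 5) (nat_lit 174) (nat_lit 5) (nat_lit 601) (nat_lit 492) (nat_lit 467)) (XT.lf (nat_lit 0) (nat_lit 7315290594) (nat_lit 380) (nat_lit 1766339160) (nat_lit 456) (nat_lit 761019843) (nat_lit 168) (nat_lit 5) (nat_lit 173) (nat_lit 5) (nat_lit 174) (nat_lit 5) (nat_lit 602) (nat_lit 492) (nat_lit 466)))))) (XT.nd (nat_lit 390) (nat_lit 1748) (nat_lit 0) (XT.nd (nat_lit 156) (nat_lit 836) (nat_lit 0) (XT.nd (nat_lit 78) (nat_lit 380) (nat_lit 0) (XT.lf (nat_lit 0) (nat_lit 3410141749) (nat_lit 456) (nat_lit 4351574066) (nat_lit 76) (nat_lit 2174280632) (nat_lit 162) (nat_lit 5) (nat_lit 168) (nat_lit 5) (nat_lit 163) (nat_lit 5) (nat_lit 603) (nat_lit 492) (nat_lit 465)) (XT.lf (nat_lit 0) (nat_lit 3807014198) (nat_lit 380) (nat_lit 3845610389)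 (nat_lit 456) (nat_lit 2378525139) (nat_lit 157) (nat_lit 5) (nat_lit 162) (nat_lit 5) (nat_lit 163) (nat_lit 5) (nat_lit 604) (nat_lit 492) (nat_lit 464))) (XT.nd (nat_lit 78) (nat_lit 456) (nat_lit 0) (XT.lf (nat_lit 0) (nat_lit 1815611844) (nat_lit 380) (nat_lit 8143422195) (nat_lit 76) (nat_lit 169170425) (nat_lit 152) (nat_lit 5) (nat_lit 157) (nat_lit 5) (nat_lit 153) (nat_lit 5) (nat_lit 605) (nat_lit 492) (nat_lit 463)) (XT.nd (nat_lit 78) (nat_lit 76) (nat_lit 0) (XT.lf (nat_lit 0) (nat_lit 87174896) (nat_lit 380) (nat_lit 5987763702) (nat_lit 456) (nat_lit 4151685898) (nat_lit 147) (nat_lit 5) (nat_lit 152) (nat_lit 5) (nat_lit 153) (nat_lit 5) (nat_lit 606) (nat_lit 492) (nat_lit 462)) (XT.lf (nat_lit 0) (nat_lit 91428761) (nat_lit 456) (nat_lit 1822616295) (nat_lit 76) (nat_lit 8412953512) (nat_lit 146) (nat_lit 5) (nat_lit 152) (nat_lit 5) (nat_lit 147) (nat_lit 5) (nat_lit 607) (nat_lit 492) (nat_lit 461))))) (XT.nd (nat_lit 234) (nat_lit 684) (nat_lit 0) (XT.nd (nat_lit 78) (nat_lit 760)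 (nat_lit 0) (XT.lf (nat_lit 0) (nat_lit 4368006368) (nat_lit 380) (nat_lit 3810562166) (nat_lit 76) (nat_lit 2250180550) (nat_lit 142) (nat_lit 5) (nat_lit 147) (nat_lit 5) (nat_lit 143) (nat_lit 5) (nat_lit 608) (nat_lit 492) (nat_lit 460)) (XT.nd (nat_lit 78) (nat_lit 380) (nat_lit 0) (XT.lf (nat_lit 0) (nat_lit 4681817802) (nat_lit 380) (nat_lit 4050230853) (nat_lit 456) (nat_lit 1800448911) (nat_lit 137) (nat_lit 5) (nat_lit 142) (nat_lit 5) (nat_lit 143) (nat_lit 5) (nat_lit 609) (nat_lit 492) (nat_lit 459)) (XT.lf (nat_lit 0) (nat_lit 2502774016) (nat_lit 380) (nat_lit 7950135390) (nat_lit 76) (nat_lit 185260643) (nat_lit 132) (nat_lit 5) (nat_lit 137) (nat_lit 5) (nat_lit 133) (nat_lit 5) (nat_lit 610) (nat_lit 492) (nat_lit 458)))) (XT.nd (nat_lit 78) (nat_lit 380) (nat_lit 0) (XT.lf (nat_lit 0) (nat_lit 613243447) (nat_lit 304) (nat_lit 6272004124) (nat_lit 380) (nat_lit 3860126033) (nat_lit 128) (nat_lit 5) (nat_lit 132) (nat_lit 5) (nat_lit 133) (nat_lit 5) (nat_lit 611) (nat_lit 492) (nat_lit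 457)) (XT.nd (nat_lit 78) (nat_lit 304) (nat_lit 0) (XT.lf (nat_lit 0) (nat_lit 494858884) (nat_lit 380) (nat_lit 1489184783) (nat_lit 76) (nat_lit 8870598505) (nat_lit 127) (nat_lit 5) (nat_lit 132) (nat_lit 5) (nat_lit 128) (nat_lit 5) (nat_lit 612) (nat_lit 492) (nat_lit 456)) (XT.lf (nat_lit 0) (nat_lit 4896662021) (nat_lit 380) (nat_lit 3670376707) (nat_lit 76) (nat_lit 2398320399) (nat_lit 123) (nat_lit 5) (nat_lit 128) (nat_lit 5) (nat_lit 124) (nat_lit 5) (nat_lit 613) (nat_lit 492) (nat_lit 455))))))))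
noncomputable def xc15 : XT := (XT.nd (nat_lit 78858) (nat_lit 0) (nat_lit 5016) (XT.nd (nat_lit 78078) (nat_lit 0) (nat_lit 13756) (XT.nd (nat_lit 390) (nat_lit 1216) (nat_lit 0) (XT.nd (nat_lit 156) (nat_lit 608) (nat_lit 0) (XT.nd (nat_lit 78) (nat_lit 304) (nat_lit 0) (XT.lf (nat_lit 0) (nat_lit 5165357243) (nat_lit 304) (nat_lit 4226233848) (nat_lit 380) (nat_lit 1686598943) (nat_lit 119) (nat_lit 5) (nat_lit 123) (nat_lit 5) (nat_lit 124) (nat_lit 5) (nat_lit 614) (nat_lit 492) (nat_lit 454)) (XT.lf (nat_lit 0) (nat_lit 2740676271) (nat_lit 304) (nat_lit 8225307550) (nat_lit 76) (nat_lit 227052962) (nat_lit 115) (nat_lit 5) (nat_lit 119) (nat_lit 5) (nat_lit 116) (nat_lit 5) (nat_lit 615) (nat_lit 492) (nat_lit 453))) (XT.nd (nat_lit 78) (nat_lit 304) (nat_lit 0) (XT.lf (nat_lit 0) (nat_lit 679698278) (nat_lit 304) (nat_lit 6575279314) (nat_lit 380) (nat_lit 4054559951) (nat_lit 111) (nat_lit 5) (nat_lit 115) (nat_lit 5) (nat_lit 116) (nat_lit 5) (nat_lit 616) (nat_lit 492) (nat_lit 452)) (XT.nd (nat_lit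 78) (nat_lit 228) (nat_lit 0) (XT.lf (nat_lit 0) (nat_lit 429913936) (nat_lit 380) (nat_lit 1642702930) (nat_lit 76) (nat_lit 9355609285) (nat_lit 110) (nat_lit 5) (nat_lit 115) (nat_lit 5) (nat_lit 111) (nat_lit 5) (nat_lit 617) (nat_lit 492) (nat_lit 451)) (XT.lf (nat_lit 0) (nat_lit 4965055864) (nat_lit 304) (nat_lit 4054462846) (nat_lit 76) (nat_lit 2528929678) (nat_lit 107) (nat_lit 5) (nat_lit 111) (nat_lit 5) (nat_lit 108) (nat_lit 5) (nat_lit 618) (nat_lit 492) (nat_lit 450))))) (XT.nd (nat_lit 156) (nat_lit 608) (nat_lit 0) (XT.nd (nat_lit 78) (nat_lit 304) (nat_lit 0) (XT.lf (nat_lit 0) (nat_lit 5133255430) (nat_lit 304) (nat_lit 4465822745) (nat_lit 380) (nat_lit 2071834570) (nat_lit 103) (nat_lit 5) (nat_lit 107) (nat_lit 5) (nat_lit 108) (nat_lit 5) (nat_lit 619) (nat_lit 492) (nat_lit 449)) (XT.lf (nat_lit 0) (nat_lit 2493145773) (nat_lit 304) (nat_lit 9098947408) (nat_lit 76) (nat_lit 203478422) (nat_lit 99) (nat_lit 5) (nat_lit 103) (nat_lit 5) (nat_lit 100) (nat_lit 5) (nat_lit 620) (nat_lit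 492) (nat_lit 448))) (XT.nd (nat_lit 78) (nat_lit 304) (nat_lit 0) (XT.lf (nat_lit 0) (nat_lit 155422040) (nat_lit 304) (nat_lit 6991361862) (nat_lit 380) (nat_lit 4775164995) (nat_lit 95) (nat_lit 5) (nat_lit 99) (nat_lit 5) (nat_lit 100) (nat_lit 5) (nat_lit 621) (nat_lit 492) (nat_lit 447)) (XT.nd (nat_lit 78) (nat_lit 304) (nat_lit 0) (XT.lf (nat_lit 0) (nat_lit 9633384463) (nat_lit 304) (nat_lit 2271920584) (nat_lit 380) (nat_lit 145313619) (nat_lit 95) (nat_lit 5) (nat_lit 99) (nat_lit 5) (nat_lit 100) (nat_lit 5) (nat_lit 622) (nat_lit 492) (nat_lit 446)) (XT.lf (nat_lit 0) (nat_lit 4531367219) (nat_lit 304) (nat_lit 5099486637) (nat_lit 76) (nat_lit 2550129460) (nat_lit 91) (nat_lit 5) (nat_lit 95) (nat_lit 5) (nat_lit 92) (nat_lit 5) (nat_lit 623) (nat_lit 492) (nat_lit 445)))))) (XT.nd (nat_lit 390) (nat_lit 2584) (nat_lit 0) (XT.nd (nat_lit 156) (nat_lit 1444) (nat_lit 0) (XT.nd (nat_lit 78) (nat_lit 684) (nat_lit 0) (XT.lf (nat_lit 0) (nat_lit 1023976778) (nat_lit 760) (nat_lit 1872454036) (nat_lit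 0) (nat_lit 1023976778) (nat_lit 334) (nat_lit 5) (nat_lit 344) (nat_lit 4) (nat_lit 334) (nat_lit 4) (nat_lit 574) (nat_lit 493) (nat_lit 493)) (XT.lf (nat_lit 0) (nat_lit 2721432669) (nat_lit 684) (nat_lit 3230010134) (nat_lit 684) (nat_lit 1942354869) (nat_lit 325) (nat_lit 4) (nat_lit 334) (nat_lit 5) (nat_lit 334) (nat_lit 4) (nat_lit 575) (nat_lit 493) (nat_lit 492))) (XT.nd (nat_lit 78) (nat_lit 760) (nat_lit 0) (XT.lf (nat_lit 0) (nat_lit 1338224783) (nat_lit 608) (nat_lit 586669855) (nat_lit 684) (nat_lit 6023376045) (nat_lit 316) (nat_lit 5) (nat_lit 324) (nat_lit 5) (nat_lit 325) (nat_lit 4) (nat_lit 576) (nat_lit 493) (nat_lit 491)) (XT.nd (nat_lit 78) (nat_lit 760) (nat_lit 0) (XT.lf (nat_lit 0) (nat_lit 5824579757) (nat_lit 684) (nat_lit 68246312) (nat_lit 0) (nat_lit 2111132277) (nat_lit 316) (nat_lit 5) (nat_lit 325) (nat_lit 4) (nat_lit 316) (nat_lit 4) (nat_lit 577) (nat_lit 493) (nat_lit 490)) (XT.lf (nat_lit 0) (nat_lit 1699034856) (nat_lit 760) (nat_lit 1470991497) (nat_lit 76) (nat_lit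 4890903539) (nat_lit 306) (nat_lit 5) (nat_lit 316) (nat_lit 5) (nat_lit 307) (nat_lit 4) (nat_lit 578) (nat_lit 493) (nat_lit 489))))) (XT.nd (nat_lit 156) (nat_lit 1292) (nat_lit 0) (XT.nd (nat_lit 78) (nat_lit 684) (nat_lit 0) (XT.lf (nat_lit 0) (nat_lit 5231295806) (nat_lit 608) (nat_lit 363063975) (nat_lit 684) (nat_lit 2525026191) (nat_lit 298) (nat_lit 5) (nat_lit 306) (nat_lit 5) (nat_lit 307) (nat_lit 4) (nat_lit 579) (nat_lit 493) (nat_lit 488)) (XT.lf (nat_lit 0) (nat_lit 1356155573) (nat_lit 684) (nat_lit 4331851995) (nat_lit 76) (nat_lit 2491111127) (nat_lit 289) (nat_lit 5) (nat_lit 298) (nat_lit 5) (nat_lit 290) (nat_lit 4) (nat_lit 580) (nat_lit 493) (nat_lit 487))) (XT.nd (nat_lit 78) (nat_lit 684) (nat_lit 0) (XT.lf (nat_lit 0) (nat_lit 2442637115) (nat_lit 608) (nat_lit 2811286022) (nat_lit 684) (nat_lit 2986337184) (nat_lit 281) (nat_lit 5) (nat_lit 289) (nat_lit 5) (nat_lit 290) (nat_lit 4) (nat_lit 581) (nat_lit 493) (nat_lit 486)) (XT.nd (nat_lit 78) (nat_lit 0) (nat_lit 0) (XT.lf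 (nat_lit 0) (nat_lit 886990924) (nat_lit 684) (nat_lit 7274690045) (nat_lit 76) (nat_lit 141384248) (nat_lit 272) (nat_lit 5) (nat_lit 281) (nat_lit 5) (nat_lit 273) (nat_lit 4) (nat_lit 582) (nat_lit 493) (nat_lit 485)) (XT.lf (nat_lit 0) (nat_lit 4791429174) (nat_lit 684) (nat_lit 423338316) (nat_lit 76) (nat_lit 3152094615) (nat_lit 272) (nat_lit 5) (nat_lit 281) (nat_lit 5) (nat_lit 273) (nat_lit 4) (nat_lit 583) (nat_lit 493) (nat_lit 484))))))) (XT.nd (nat_lit 780) (nat_lit 3876) (nat_lit 0) (XT.nd (nat_lit 390) (nat_lit 2128) (nat_lit 0) (XT.nd (nat_lit 156) (nat_lit 1596) (nat_lit 0) (XT.nd (nat_lit 78) (nat_lit 532) (nat_lit 0) (XT.lf (nat_lit 0) (nat_lit 317093841) (nat_lit 608) (nat_lit 1869385786) (nat_lit 76) (nat_lit 6245822901) (nat_lit 264) (nat_lit 5) (nat_lit 272) (nat_lit 5) (nat_lit 265) (nat_lit 5) (nat_lit 584) (nat_lit 493) (nat_lit 483)) (XT.lf (nat_lit 0) (nat_lit 4219394952) (nat_lit 608) (nat_lit 3352049685) (nat_lit 76) (nat_lit 927541581) (nat_lit 257) (nat_lit 5) (nat_lit 265)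 (nat_lit 5) (nat_lit 258) (nat_lit 4) (nat_lit 585) (nat_lit 493) (nat_lit 482))) (XT.nd (nat_lit 78) (nat_lit 1064) (nat_lit 0) (XT.lf (nat_lit 0) (nat_lit 3709371407) (nat_lit 532) (nat_lit 4479413605) (nat_lit 608) (nat_lit 378440764) (nat_lit 250) (nat_lit 5) (nat_lit 257) (nat_lit 5) (nat_lit 258) (nat_lit 4) (nat_lit 586) (nat_lit 493) (nat_lit 481)) (XT.nd (nat_lit 78) (nat_lit 456) (nat_lit 0) (XT.lf (nat_lit 0) (nat_lit 2239785325) (nat_lit 532) (nat_lit 1289007921) (nat_lit 608) (nat_lit 5108066548) (nat_lit 242) (nat_lit 5) (nat_lit 249) (nat_lit 5) (nat_lit 250) (nat_lit 5) (nat_lit 587) (nat_lit 493) (nat_lit 480)) (XT.lf (nat_lit 0) (nat_lit 744646116) (nat_lit 456) (nat_lit 6753458925) (nat_lit 532) (nat_lit 1209954286) (nat_lit 236) (nat_lit 5) (nat_lit 242) (nat_lit 5) (nat_lit 243) (nat_lit 4) (nat_lit 588) (nat_lit 493) (nat_lit 479))))) (XT.nd (nat_lit 156) (nat_lit 1520) (nat_lit 0) (XT.nd (nat_lit 78) (nat_lit 532) (nat_lit 0) (XT.lf (nat_lit 0) (nat_lit 2720411149) (nat_lit 532) (nat_lit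 778559997) (nat_lit 76) (nat_lit 5281543896) (nat_lit 235) (nat_lit 5) (nat_lit 242) (nat_lit 5) (nat_lit 236) (nat_lit 5) (nat_lit 589) (nat_lit 493) (nat_lit 478)) (XT.lf (nat_lit 0) (nat_lit 6541624281) (nat_lit 532) (nat_lit 154066218) (nat_lit 608) (nat_lit 2158921967) (nat_lit 228) (nat_lit 5) (nat_lit 235) (nat_lit 5) (nat_lit 236) (nat_lit 5) (nat_lit 590) (nat_lit 493) (nat_lit 477))) (XT.nd (nat_lit 78) (nat_lit 988) (nat_lit 0) (XT.lf (nat_lit 0) (nat_lit 1796055240) (nat_lit 532) (nat_lit 3894932190) (nat_lit 76) (nat_lit 3238977740) (nat_lit 221) (nat_lit 5) (nat_lit 228) (nat_lit 5) (nat_lit 222) (nat_lit 5) (nat_lit 591) (nat_lit 493) (nat_lit 476)) (XT.nd (nat_lit 78) (nat_lit 532) (nat_lit 0) (XT.lf (nat_lit 0) (nat_lit 3498494491) (nat_lit 456) (nat_lit 2282801841) (nat_lit 532) (nat_lit 3225644296) (nat_lit 215) (nat_lit 5) (nat_lit 221) (nat_lit 5) (nat_lit 222) (nat_lit 5) (nat_lit 592) (nat_lit 493) (nat_lit 475)) (XT.lf (nat_lit 0) (nat_lit 738477267) (nat_lit 532) (nat_lit 7152662521)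 (nat_lit 76) (nat_lit 1194466097) (nat_lit 208) (nat_lit 5) (nat_lit 215) (nat_lit 5) (nat_lit 209) (nat_lit 5) (nat_lit 593) (nat_lit 493) (nat_lit 474)))))) (XT.nd (nat_lit 390) (nat_lit 2052) (nat_lit 0) (XT.nd (nat_lit 156) (nat_lit 1368) (nat_lit 0) (XT.nd (nat_lit 78) (nat_lit 0) (nat_lit 0) (XT.lf (nat_lit 0) (nat_lit 312643174) (nat_lit 456) (nat_lit 4421758173) (nat_lit 532) (nat_lit 4431104846) (nat_lit 202) (nat_lit 5) (nat_lit 208) (nat_lit 5) (nat_lit 209) (nat_lit 5) (nat_lit 594) (nat_lit 493) (nat_lit 473)) (XT.lf (nat_lit 0) (nat_lit 7937330022) (nat_lit 456) (nat_lit 862812572) (nat_lit 532) (nat_lit 447066298) (nat_lit 202) (nat_lit 5) (nat_lit 208) (nat_lit 5) (nat_lit 209) (nat_lit 5) (nat_lit 595) (nat_lit 493) (nat_lit 472))) (XT.nd (nat_lit 78) (nat_lit 912) (nat_lit 0) (XT.lf (nat_lit 0) (nat_lit 3571370506) (nat_lit 456) (nat_lit 2990683192) (nat_lit 76) (nat_lit 2767981568) (nat_lit 196) (nat_lit 5) (nat_lit 202) (nat_lit 5) (nat_lit 197) (nat_lit 5) (nat_lit 596) (nat_lit 493)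 (nat_lit 471)) (XT.nd (nat_lit 78) (nat_lit 456) (nat_lit 0) (XT.lf (nat_lit 0) (nat_lit 4711714714) (nat_lit 456) (nat_lit 2940678979) (nat_lit 532) (nat_lit 1762303517) (nat_lit 190) (nat_lit 5) (nat_lit 196) (nat_lit 5) (nat_lit 197) (nat_lit 5) (nat_lit 597) (nat_lit 493) (nat_lit 470)) (XT.lf (nat_lit 0) (nat_lit 2271907130) (nat_lit 456) (nat_lit 6459822431) (nat_lit 76) (nat_lit 769259078) (nat_lit 184) (nat_lit 5) (nat_lit 190) (nat_lit 5) (nat_lit 185) (nat_lit 5) (nat_lit 598) (nat_lit 493) (nat_lit 469))))) (XT.nd (nat_lit 234) (nat_lit 1216) (nat_lit 0) (XT.nd (nat_lit 78) (nat_lit 456) (nat_lit 0) (XT.lf (nat_lit 0) (nat_lit 1314578477) (nat_lit 380) (nat_lit 5052017562) (nat_lit 456) (nat_lit 3222111148) (nat_lit 179) (nat_lit 5) (nat_lit 184) (nat_lit 5) (nat_lit 185) (nat_lit 5) (nat_lit 599) (nat_lit 493) (nat_lit 468)) (XT.nd (nat_lit 78) (nat_lit 380) (nat_lit 0) (XT.lf (nat_lit 0) (nat_lit 841054526) (nat_lit 456) (nat_lit 438243339) (nat_lit 76) (nat_lit 8399023922) (nat_lit 178) (nat_lit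 5) (nat_lit 184) (nat_lit 5) (nat_lit 179) (nat_lit 5) (nat_lit 600) (nat_lit 493) (nat_lit 467)) (XT.lf (nat_lit 0) (nat_lit 4953193335) (nat_lit 456) (nat_lit 2239730109) (nat_lit 76) (nat_lit 2576164165) (nat_lit 173) (nat_lit 5) (nat_lit 179) (nat_lit 5) (nat_lit 174) (nat_lit 5) (nat_lit 601) (nat_lit 493) (nat_lit 466)))) (XT.nd (nat_lit 78) (nat_lit 836) (nat_lit 0) (XT.lf (nat_lit 0) (nat_lit 5782296751) (nat_lit 380) (nat_lit 3359454969) (nat_lit 456) (nat_lit 720035426) (nat_lit 168) (nat_lit 5) (nat_lit 173) (nat_lit 5) (nat_lit 174) (nat_lit 5) (nat_lit 602) (nat_lit 493) (nat_lit 465)) (XT.nd (nat_lit 78) (nat_lit 380) (nat_lit 0) (XT.lf (nat_lit 0) (nat_lit 3402535892) (nat_lit 456) (nat_lit 5977040569) (nat_lit 76) (nat_lit 576514190) (nat_lit 162) (nat_lit 5) (nat_lit 168) (nat_lit 5) (nat_lit 163) (nat_lit 5) (nat_lit 603) (nat_lit 493) (nat_lit 464)) (XT.lf (nat_lit 0) (nat_lit 2116720945) (nat_lit 380) (nat_lit 5490430950) (nat_lit 456) (nat_lit 2444850272) (nat_lit 157) (nat_lit 5) (nat_lit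 162) (nat_lit 5) (nat_lit 163) (nat_lit 5) (nat_lit 604) (nat_lit 493) (nat_lit 463))))))))
noncomputable def xc16 : XT := (XT.nd (nat_lit 78702) (nat_lit 0) (nat_lit 9424) (XT.nd (nat_lit 780) (nat_lit 2128) (nat_lit 0) (XT.nd (nat_lit 390) (nat_lit 1368) (nat_lit 0) (XT.nd (nat_lit 156) (nat_lit 1140) (nat_lit 0) (XT.nd (nat_lit 78) (nat_lit 0) (nat_lit 0) (XT.lf (nat_lit 0) (nat_lit 209165137) (nat_lit 304) (nat_lit 1501525152) (nat_lit 380) (nat_lit 8439165423) (nat_lit 152) (nat_lit 5) (nat_lit 156) (nat_lit 5) (nat_lit 157) (nat_lit 5) (nat_lit 605) (nat_lit 493) (nat_lit 462)) (XT.lf (nat_lit 0) (nat_lit 5933031730) (nat_lit 380) (nat_lit 1744370660) (nat_lit 76) (nat_lit 2571613911) (nat_lit 152) (nat_lit 5) (nat_lit 157) (nat_lit 5) (nat_lit 153) (nat_lit 5) (nat_lit 606) (nat_lit 493) (nat_lit 461))) (XT.nd (nat_lit 78) (nat_lit 760) (nat_lit 0) (XT.lf (nat_lit 0) (nat_lit 6607667847) (nat_lit 380) (nat_lit 3632179499) (nat_lit 456) (nat_lit 110313893) (nat_lit 147) (nat_lit 5) (nat_lit 152) (nat_lit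 5) (nat_lit 153) (nat_lit 5) (nat_lit 607) (nat_lit 493) (nat_lit 460)) (XT.nd (nat_lit 78) (nat_lit 380) (nat_lit 0) (XT.lf (nat_lit 0) (nat_lit 4117379503) (nat_lit 380) (nat_lit 5810507882) (nat_lit 76) (nat_lit 525046116) (nat_lit 142) (nat_lit 5) (nat_lit 147) (nat_lit 5) (nat_lit 143) (nat_lit 5) (nat_lit 608) (nat_lit 493) (nat_lit 459)) (XT.lf (nat_lit 0) (nat_lit 2612483053) (nat_lit 380) (nat_lit 5829560782) (nat_lit 456) (nat_lit 2115426493) (nat_lit 137) (nat_lit 5) (nat_lit 142) (nat_lit 5) (nat_lit 143) (nat_lit 5) (nat_lit 609) (nat_lit 493) (nat_lit 458))))) (XT.nd (nat_lit 156) (nat_lit 988) (nat_lit 0) (XT.nd (nat_lit 78) (nat_lit 0) (nat_lit 0) (XT.lf (nat_lit 0) (nat_lit 526331934) (nat_lit 304) (nat_lit 1624456096) (nat_lit 380) (nat_lit 8513219224) (nat_lit 132) (nat_lit 5) (nat_lit 136) (nat_lit 5) (nat_lit 137) (nat_lit 5) (nat_lit 610) (nat_lit 493) (nat_lit 457)) (XT.lf (nat_lit 0) (nat_lit 6492983681) (nat_lit 380) (nat_lit 1614237020) (nat_lit 76) (nat_lit 2664796407) (nat_lit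 132) (nat_lit 5) (nat_lit 137) (nat_lit 5) (nat_lit 133) (nat_lit 5) (nat_lit 611) (nat_lit 493) (nat_lit 456))) (XT.nd (nat_lit 78) (nat_lit 608) (nat_lit 0) (XT.lf (nat_lit 0) (nat_lit 45067359) (nat_lit 380) (nat_lit 3804690991) (nat_lit 76) (nat_lit 7032309996) (nat_lit 127) (nat_lit 5) (nat_lit 132) (nat_lit 5) (nat_lit 128) (nat_lit 5) (nat_lit 612) (nat_lit 493) (nat_lit 455)) (XT.nd (nat_lit 78) (nat_lit 304) (nat_lit 0) (XT.lf (nat_lit 0) (nat_lit 4393855328) (nat_lit 380) (nat_lit 6074800242) (nat_lit 76) (nat_lit 525190733) (nat_lit 123) (nat_lit 5) (nat_lit 128) (nat_lit 5) (nat_lit 124) (nat_lit 5) (nat_lit 613) (nat_lit 493) (nat_lit 454)) (XT.lf (nat_lit 0) (nat_lit 2686631676) (nat_lit 304) (nat_lit 6160993276) (nat_lit 380) (nat_lit 2259876130) (nat_lit 119) (nat_lit 5) (nat_lit 123) (nat_lit 5) (nat_lit 124) (nat_lit 5) (nat_lit 614) (nat_lit 493) (nat_lit 453)))))) (XT.nd (nat_lit 390) (nat_lit 912) (nat_lit 0) (XT.nd (nat_lit 156) (nat_lit 912) (nat_lit 0) (XT.nd (nat_lit 78) (nat_lit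 0) (nat_lit 0) (XT.lf (nat_lit 0) (nat_lit 389249994) (nat_lit 228) (nat_lit 1742413682) (nat_lit 304) (nat_lit 9091624335) (nat_lit 115) (nat_lit 5) (nat_lit 118) (nat_lit 5) (nat_lit 119) (nat_lit 5) (nat_lit 615) (nat_lit 493) (nat_lit 452)) (XT.lf (nat_lit 0) (nat_lit 6605341305) (nat_lit 304) (nat_lit 1968596900) (nat_lit 76) (nat_lit 2766663685) (nat_lit 115) (nat_lit 5) (nat_lit 119) (nat_lit 5) (nat_lit 116) (nat_lit 5) (nat_lit 616) (nat_lit 493) (nat_lit 451))) (XT.nd (nat_lit 78) (nat_lit 608) (nat_lit 0) (XT.lf (nat_lit 0) (nat_lit 7072264197) (nat_lit 304) (nat_lit 4104378001) (nat_lit 380) (nat_lit 283458130) (nat_lit 111) (nat_lit 5) (nat_lit 115) (nat_lit 5) (nat_lit 116) (nat_lit 5) (nat_lit 617) (nat_lit 493) (nat_lit 450)) (XT.nd (nat_lit 78) (nat_lit 304) (nat_lit 0) (XT.lf (nat_lit 0) (nat_lit 4199290914) (nat_lit 304) (nat_lit 6895284847) (nat_lit 76) (nat_lit 486906428) (nat_lit 107) (nat_lit 5) (nat_lit 111) (nat_lit 5) (nat_lit 108) (nat_lit 5) (nat_lit 618) (nat_lit 493) (nat_lit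 449)) (XT.lf (nat_lit 0) (nat_lit 2212833939) (nat_lit 304) (nat_lit 6577263799) (nat_lit 380) (nat_lit 2914713713) (nat_lit 103) (nat_lit 5) (nat_lit 107) (nat_lit 5) (nat_lit 108) (nat_lit 5) (nat_lit 619) (nat_lit 493) (nat_lit 448))))) (XT.nd (nat_lit 156) (nat_lit 608) (nat_lit 0) (XT.nd (nat_lit 78) (nat_lit 228) (nat_lit 0) (XT.lf (nat_lit 0) (nat_lit 1618260547) (nat_lit 380) (nat_lit 327590824) (nat_lit 76) (nat_lit 9884590173) (nat_lit 102) (nat_lit 5) (nat_lit 107) (nat_lit 5) (nat_lit 103) (nat_lit 5) (nat_lit 620) (nat_lit 493) (nat_lit 447)) (XT.lf (nat_lit 0) (nat_lit 6231978577) (nat_lit 304) (nat_lit 2938895655) (nat_lit 76) (nat_lit 2786743570) (nat_lit 99) (nat_lit 5) (nat_lit 103) (nat_lit 5) (nat_lit 100) (nat_lit 5) (nat_lit 621) (nat_lit 493) (nat_lit 446))) (XT.nd (nat_lit 78) (nat_lit 304) (nat_lit 0) (XT.lf (nat_lit 0) (nat_lit 6458837297) (nat_lit 304) (nat_lit 4488425201) (nat_lit 380) (nat_lit 1139890367) (nat_lit 95) (nat_lit 5) (nat_lit 99) (nat_lit 5) (nat_lit 100) (nat_lit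 5) (nat_lit 622) (nat_lit 493) (nat_lit 445)) (XT.nd (nat_lit 77220) (nat_lit 0) (nat_lit 19988) (XT.lf (nat_lit 0) (nat_lit 3490208269) (nat_lit 304) (nat_lit 8410795263) (nat_lit 76) (nat_lit 317836185) (nat_lit 91) (nat_lit 5) (nat_lit 95) (nat_lit 5) (nat_lit 92) (nat_lit 5) (nat_lit 623) (nat_lit 493) (nat_lit 444)) (XT.lf (nat_lit 0) (nat_lit 1711306707) (nat_lit 760) (nat_lit 446499846) (nat_lit 0) (nat_lit 1711306707) (nat_lit 354) (nat_lit 5) (nat_lit 364) (nat_lit 4) (nat_lit 354) (nat_lit 4) (nat_lit 572) (nat_lit 494) (nat_lit 494))))))) (XT.nd (nat_lit 780) (nat_lit 4332) (nat_lit 0) (XT.nd (nat_lit 390) (nat_lit 3344) (nat_lit 0) (XT.nd (nat_lit 156) (nat_lit 1368) (nat_lit 0) (XT.nd (nat_lit 78) (nat_lit 760) (nat_lit 0) (XT.lf (nat_lit 0) (nat_lit 5460333513) (nat_lit 760) (nat_lit 1834302745) (nat_lit 760) (nat_lit 494626207) (nat_lit 344) (nat_lit 4) (nat_lit 354) (nat_lit 5) (nat_lit 354) (nat_lit 4) (nat_lit 573) (nat_lit 494) (nat_lit 493)) (XT.lf (nat_lit 0) (nat_lit 3327425946) (nat_lit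 760) (nat_lit 3787707722) (nat_lit 0) (nat_lit 726362310) (nat_lit 334) (nat_lit 5) (nat_lit 344) (nat_lit 4) (nat_lit 334) (nat_lit 4) (nat_lit 574) (nat_lit 494) (nat_lit 492))) (XT.nd (nat_lit 78) (nat_lit 684) (nat_lit 0) (XT.lf (nat_lit 0) (nat_lit 2635546160) (nat_lit 684) (nat_lit 4561540829) (nat_lit 684) (nat_lit 698070070) (nat_lit 325) (nat_lit 4) (nat_lit 334) (nat_lit 5) (nat_lit 334) (nat_lit 4) (nat_lit 575) (nat_lit 494) (nat_lit 491)) (XT.nd (nat_lit 78) (nat_lit 0) (nat_lit 0) (XT.lf (nat_lit 0) (nat_lit 1198947177) (nat_lit 608) (nat_lit 1919900335) (nat_lit 684) (nat_lit 4831303195) (nat_lit 316) (nat_lit 5) (nat_lit 324) (nat_lit 5) (nat_lit 325) (nat_lit 4) (nat_lit 576) (nat_lit 494) (nat_lit 490)) (XT.lf (nat_lit 0) (nat_lit 6977086069) (nat_lit 684) (nat_lit 243194251) (nat_lit 0) (nat_lit 786388897) (nat_lit 316) (nat_lit 5) (nat_lit 325) (nat_lit 4) (nat_lit 316) (nat_lit 4) (nat_lit 577) (nat_lit 494) (nat_lit 489))))) (XT.nd (nat_lit 156) (nat_lit 1976) (nat_lit 0) (XT.nd (nat_lit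 78) (nat_lit 608) (nat_lit 0) (XT.lf (nat_lit 0) (nat_lit 2799954188) (nat_lit 760) (nat_lit 1701058756) (nat_lit 76) (nat_lit 3563156281) (nat_lit 306) (nat_lit 5) (nat_lit 316) (nat_lit 5) (nat_lit 307) (nat_lit 4) (nat_lit 578) (nat_lit 494) (nat_lit 488)) (XT.lf (nat_lit 0) (nat_lit 4955848505) (nat_lit 608) (nat_lit 1705644439) (nat_lit 684) (nat_lit 1461809889) (nat_lit 298) (nat_lit 5) (nat_lit 306) (nat_lit 5) (nat_lit 307) (nat_lit 4) (nat_lit 579) (nat_lit 494) (nat_lit 487))) (XT.nd (nat_lit 78) (nat_lit 1292) (nat_lit 0) (XT.lf (nat_lit 0) (nat_lit 2362666570) (nat_lit 684) (nat_lit 4660108273) (nat_lit 76) (nat_lit 1160979606) (nat_lit 289) (nat_lit 5) (nat_lit 298) (nat_lit 5) (nat_lit 290) (nat_lit 4) (nat_lit 580) (nat_lit 494) (nat_lit 486)) (XT.nd (nat_lit 78) (nat_lit 684) (nat_lit 0) (XT.lf (nat_lit 0) (nat_lit 2067249837) (nat_lit 608) (nat_lit 4159184275) (nat_lit 684) (nat_lit 2019143665) (nat_lit 281) (nat_lit 5) (nat_lit 289) (nat_lit 5) (nat_lit 290) (nat_lit 4) (nat_lit 581) (nat_lit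 494) (nat_lit 485)) (XT.lf (nat_lit 0) (nat_lit 594284627) (nat_lit 608) (nat_lit 1212035682) (nat_lit 684) (nat_lit 6502641989) (nat_lit 272) (nat_lit 5) (nat_lit 280) (nat_lit 5) (nat_lit 281) (nat_lit 5) (nat_lit 582) (nat_lit 494) (nat_lit 484)))))) (XT.nd (nat_lit 390) (nat_lit 2052) (nat_lit 0) (XT.nd (nat_lit 156) (nat_lit 1672) (nat_lit 0) (XT.nd (nat_lit 78) (nat_lit 608) (nat_lit 0) (XT.lf (nat_lit 0) (nat_lit 5671736393) (nat_lit 684) (nat_lit 898079167) (nat_lit 76) (nat_lit 1803725673) (nat_lit 272) (nat_lit 5) (nat_lit 281) (nat_lit 5) (nat_lit 273) (nat_lit 4) (nat_lit 583) (nat_lit 494) (nat_lit 483)) (XT.lf (nat_lit 0) (nat_lit 1145097627) (nat_lit 608) (nat_lit 2405584738) (nat_lit 76) (nat_lit 4888870715) (nat_lit 264) (nat_lit 5) (nat_lit 272) (nat_lit 5) (nat_lit 265) (nat_lit 5) (nat_lit 584) (nat_lit 494) (nat_lit 482))) (XT.nd (nat_lit 78) (nat_lit 1140) (nat_lit 0) (XT.lf (nat_lit 0) (nat_lit 4567361396) (nat_lit 532) (nat_lit 439717445) (nat_lit 608) (nat_lit 3499965839) (nat_lit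 257) (nat_lit 5) (nat_lit 264) (nat_lit 5) (nat_lit 265) (nat_lit 5) (nat_lit 585) (nat_lit 494) (nat_lit 481)) (XT.nd (nat_lit 78) (nat_lit 532) (nat_lit 0) (XT.lf (nat_lit 0) (nat_lit 358532741) (nat_lit 608) (nat_lit 5504296488) (nat_lit 76) (nat_lit 2713152171) (nat_lit 249) (nat_lit 5) (nat_lit 257) (nat_lit 5) (nat_lit 250) (nat_lit 5) (nat_lit 586) (nat_lit 494) (nat_lit 480)) (XT.lf (nat_lit 0) (nat_lit 1539407220) (nat_lit 532) (nat_lit 2686805989) (nat_lit 608) (nat_lit 4420046294) (nat_lit 242) (nat_lit 5) (nat_lit 249) (nat_lit 5) (nat_lit 250) (nat_lit 5) (nat_lit 587) (nat_lit 494) (nat_lit 479))))) (XT.nd (nat_lit 156) (nat_lit 1520) (nat_lit 0) (XT.nd (nat_lit 78) (nat_lit 532) (nat_lit 0) (XT.lf (nat_lit 0) (nat_lit 8151808433) (nat_lit 608) (nat_lit 8353643) (nat_lit 76) (nat_lit 558172687) (nat_lit 242) (nat_lit 5) (nat_lit 250) (nat_lit 5) (nat_lit 243) (nat_lit 4) (nat_lit 588) (nat_lit 494) (nat_lit 478)) (XT.lf (nat_lit 0) (nat_lit 3325652132) (nat_lit 532) (nat_lit 1588771849) (nat_lit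 76) (nat_lit 3876879252) (nat_lit 235) (nat_lit 5) (nat_lit 242) (nat_lit 5) (nat_lit 236) (nat_lit 5) (nat_lit 589) (nat_lit 494) (nat_lit 477))) (XT.nd (nat_lit 78) (nat_lit 988) (nat_lit 0) (XT.lf (nat_lit 0) (nat_lit 5678278370) (nat_lit 532) (nat_lit 1587936936) (nat_lit 608) (nat_lit 1599880988) (nat_lit 228) (nat_lit 5) (nat_lit 235) (nat_lit 5) (nat_lit 236) (nat_lit 5) (nat_lit 590) (nat_lit 494) (nat_lit 476)) (XT.nd (nat_lit 78) (nat_lit 456) (nat_lit 0) (XT.lf (nat_lit 0) (nat_lit 2303297849) (nat_lit 532) (nat_lit 4830249759) (nat_lit 76) (nat_lit 1808719390) (nat_lit 221) (nat_lit 5) (nat_lit 228) (nat_lit 5) (nat_lit 222) (nat_lit 5) (nat_lit 591) (nat_lit 494) (nat_lit 475)) (XT.lf (nat_lit 0) (nat_lit 2508048857) (nat_lit 456) (nat_lit 3745271971) (nat_lit 532) (nat_lit 2766627227) (nat_lit 215) (nat_lit 5) (nat_lit 221) (nat_lit 5) (nat_lit 222) (nat_lit 5) (nat_lit 592) (nat_lit 494) (nat_lit 474))))))))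
noncomputable def xc17 : XT := (XT.nd (nat_lit 1560) (nat_lit 2812) (nat_lit 0) (XT.nd (nat_lit 780) (nat_lit 3040) (nat_lit 0) (XT.nd (nat_lit 390) (nat_lit 1672) (nat_lit 0) (XT.nd (nat_lit 156) (nat_lit 1368) (nat_lit 0) (XT.nd (nat_lit 78) (nat_lit 0) (nat_lit 0) (XT.lf (nat_lit 0) (nat_lit 878345832) (nat_lit 456) (nat_lit 269686177) (nat_lit 532) (nat_lit 7951391735) (nat_lit 208) (nat_lit 5) (nat_lit 214) (nat_lit 5) (nat_lit 215) (nat_lit 5) (nat_lit 593) (nat_lit 494) (nat_lit 473)) (XT.lf (nat_lit 0) (nat_lit 5111692372) (nat_lit 532) (nat_lit 800568003) (nat_lit 76) (nat_lit 3267710118) (nat_lit 208) (nat_lit 5) (nat_lit 215) (nat_lit 5) (nat_lit 209) (nat_lit 5) (nat_lit 594) (nat_lit 494) (nat_lit 472))) (XT.nd (nat_lit 78) (nat_lit 912) (nat_lit 0) (XT.lf (nat_lit 0) (nat_lit 6771312571) (nat_lit 456) (nat_lit 2372656014) (nat_lit 532) (nat_lit 118375052) (nat_lit 202) (nat_lit 5) (nat_lit 208) (nat_lit 5) (nat_lit 209) (nat_lit 5) (nat_lit 595) (nat_lit 494) (nat_lit 471)) (XT.nd (nat_lit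 78) (nat_lit 456) (nat_lit 0) (XT.lf (nat_lit 0) (nat_lit 3849930016) (nat_lit 456) (nat_lit 4237838980) (nat_lit 76) (nat_lit 1258275851) (nat_lit 196) (nat_lit 5) (nat_lit 202) (nat_lit 5) (nat_lit 197) (nat_lit 5) (nat_lit 596) (nat_lit 494) (nat_lit 470)) (XT.lf (nat_lit 0) (nat_lit 3405529219) (nat_lit 456) (nat_lit 4489300434) (nat_lit 532) (nat_lit 1536600687) (nat_lit 190) (nat_lit 5) (nat_lit 196) (nat_lit 5) (nat_lit 197) (nat_lit 5) (nat_lit 597) (nat_lit 494) (nat_lit 469))))) (XT.nd (nat_lit 156) (nat_lit 1216) (nat_lit 0) (XT.nd (nat_lit 78) (nat_lit 0) (nat_lit 0) (XT.lf (nat_lit 0) (nat_lit 1661795500) (nat_lit 380) (nat_lit 791250641) (nat_lit 456) (nat_lit 7065479430) (nat_lit 184) (nat_lit 5) (nat_lit 189) (nat_lit 5) (nat_lit 190) (nat_lit 5) (nat_lit 598) (nat_lit 494) (nat_lit 468)) (XT.lf (nat_lit 0) (nat_lit 6506684886) (nat_lit 456) (nat_lit 136599932) (nat_lit 76) (nat_lit 2963781321) (nat_lit 184) (nat_lit 5) (nat_lit 190) (nat_lit 5) (nat_lit 185) (nat_lit 5) (nat_lit 599) (nat_lit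 494) (nat_lit 467))) (XT.nd (nat_lit 78) (nat_lit 760) (nat_lit 0) (XT.lf (nat_lit 0) (nat_lit 932989853) (nat_lit 456) (nat_lit 1952651852) (nat_lit 76) (nat_lit 6811588163) (nat_lit 178) (nat_lit 5) (nat_lit 184) (nat_lit 5) (nat_lit 179) (nat_lit 5) (nat_lit 600) (nat_lit 494) (nat_lit 466)) (XT.nd (nat_lit 78) (nat_lit 380) (nat_lit 0) (XT.lf (nat_lit 0) (nat_lit 4997542198) (nat_lit 456) (nat_lit 3825296226) (nat_lit 76) (nat_lit 966109954) (nat_lit 173) (nat_lit 5) (nat_lit 179) (nat_lit 5) (nat_lit 174) (nat_lit 5) (nat_lit 601) (nat_lit 494) (nat_lit 465)) (XT.lf (nat_lit 0) (nat_lit 4133518376) (nat_lit 380) (nat_lit 5015281341) (nat_lit 456) (nat_lit 733595154) (nat_lit 168) (nat_lit 5) (nat_lit 173) (nat_lit 5) (nat_lit 174) (nat_lit 5) (nat_lit 602) (nat_lit 494) (nat_lit 464)))))) (XT.nd (nat_lit 390) (nat_lit 1444) (nat_lit 0) (XT.nd (nat_lit 156) (nat_lit 760) (nat_lit 0) (XT.nd (nat_lit 78) (nat_lit 380) (nat_lit 0) (XT.lf (nat_lit 0) (nat_lit 2249214960) (nat_lit 380) (nat_lit 1098371812)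 (nat_lit 456) (nat_lit 6629945612) (nat_lit 162) (nat_lit 5) (nat_lit 167) (nat_lit 5) (nat_lit 168) (nat_lit 5) (nat_lit 603) (nat_lit 494) (nat_lit 463)) (XT.lf (nat_lit 0) (nat_lit 307019070) (nat_lit 380) (nat_lit 7199937534) (nat_lit 456) (nat_lit 2567393105) (nat_lit 157) (nat_lit 5) (nat_lit 162) (nat_lit 5) (nat_lit 163) (nat_lit 5) (nat_lit 604) (nat_lit 494) (nat_lit 462))) (XT.nd (nat_lit 78) (nat_lit 684) (nat_lit 0) (XT.lf (nat_lit 0) (nat_lit 1562104952) (nat_lit 456) (nat_lit 1666728809) (nat_lit 76) (nat_lit 6943939247) (nat_lit 156) (nat_lit 5) (nat_lit 162) (nat_lit 5) (nat_lit 157) (nat_lit 5) (nat_lit 605) (nat_lit 494) (nat_lit 461)) (XT.nd (nat_lit 78) (nat_lit 380) (nat_lit 0) (XT.lf (nat_lit 0) (nat_lit 5736046150) (nat_lit 380) (nat_lit 3696305630) (nat_lit 76) (nat_lit 840550657) (nat_lit 152) (nat_lit 5) (nat_lit 157) (nat_lit 5) (nat_lit 153) (nat_lit 5) (nat_lit 606) (nat_lit 494) (nat_lit 460)) (XT.lf (nat_lit 0) (nat_lit 4588027359) (nat_lit 380) (nat_lit 5416086787) (nat_lit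 456) (nat_lit 370708999) (nat_lit 147) (nat_lit 5) (nat_lit 152) (nat_lit 5) (nat_lit 153) (nat_lit 5) (nat_lit 607) (nat_lit 494) (nat_lit 459))))) (XT.nd (nat_lit 156) (nat_lit 684) (nat_lit 0) (XT.nd (nat_lit 78) (nat_lit 380) (nat_lit 0) (XT.lf (nat_lit 0) (nat_lit 2534356343) (nat_lit 304) (nat_lit 1283312099) (nat_lit 380) (nat_lit 6660816184) (nat_lit 142) (nat_lit 5) (nat_lit 146) (nat_lit 5) (nat_lit 147) (nat_lit 5) (nat_lit 608) (nat_lit 494) (nat_lit 458)) (XT.lf (nat_lit 0) (nat_lit 416979423) (nat_lit 380) (nat_lit 7677332787) (nat_lit 456) (nat_lit 2489670424) (nat_lit 137) (nat_lit 5) (nat_lit 142) (nat_lit 5) (nat_lit 143) (nat_lit 5) (nat_lit 609) (nat_lit 494) (nat_lit 457))) (XT.nd (nat_lit 78) (nat_lit 608) (nat_lit 0) (XT.lf (nat_lit 0) (nat_lit 1752665187) (nat_lit 456) (nat_lit 1741643403) (nat_lit 76) (nat_lit 7196836052) (nat_lit 136) (nat_lit 5) (nat_lit 142) (nat_lit 5) (nat_lit 137) (nat_lit 5) (nat_lit 610) (nat_lit 494) (nat_lit 456)) (XT.nd (nat_lit 78) (nat_lit 304) (nat_lit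 0) (XT.lf (nat_lit 0) (nat_lit 6045942063) (nat_lit 380) (nat_lit 3962120763) (nat_lit 76) (nat_lit 792070769) (nat_lit 132) (nat_lit 5) (nat_lit 137) (nat_lit 5) (nat_lit 133) (nat_lit 5) (nat_lit 611) (nat_lit 494) (nat_lit 455)) (XT.lf (nat_lit 0) (nat_lit 4657255131) (nat_lit 304) (nat_lit 5782979407) (nat_lit 380) (nat_lit 470766226) (nat_lit 128) (nat_lit 5) (nat_lit 132) (nat_lit 5) (nat_lit 133) (nat_lit 5) (nat_lit 612) (nat_lit 494) (nat_lit 454))))))) (XT.nd (nat_lit 780) (nat_lit 304) (nat_lit 0) (XT.nd (nat_lit 390) (nat_lit 1216) (nat_lit 0) (XT.nd (nat_lit 156) (nat_lit 608) (nat_lit 0) (XT.nd (nat_lit 78) (nat_lit 304) (nat_lit 0) (XT.lf (nat_lit 0) (nat_lit 2402666246) (nat_lit 304) (nat_lit 1437023214) (nat_lit 380) (nat_lit 7184041205) (nat_lit 123) (nat_lit 5) (nat_lit 127) (nat_lit 5) (nat_lit 128) (nat_lit 5) (nat_lit 613) (nat_lit 494) (nat_lit 453)) (XT.lf (nat_lit 0) (nat_lit 74464942) (nat_lit 304) (nat_lit 8168129689) (nat_lit 380) (nat_lit 2895808772) (nat_lit 119) (nat_lit 5)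 (nat_lit 123) (nat_lit 5) (nat_lit 124) (nat_lit 5) (nat_lit 614) (nat_lit 494) (nat_lit 452))) (XT.nd (nat_lit 78) (nat_lit 532) (nat_lit 0) (XT.lf (nat_lit 0) (nat_lit 1477025332) (nat_lit 380) (nat_lit 2295825798) (nat_lit 76) (nat_lit 7481963347) (nat_lit 118) (nat_lit 5) (nat_lit 123) (nat_lit 5) (nat_lit 119) (nat_lit 5) (nat_lit 615) (nat_lit 494) (nat_lit 451)) (XT.nd (nat_lit 78) (nat_lit 304) (nat_lit 0) (XT.lf (nat_lit 0) (nat_lit 5897906324) (nat_lit 304) (nat_lit 4743869026) (nat_lit 76) (nat_lit 731409569) (nat_lit 115) (nat_lit 5) (nat_lit 119) (nat_lit 5) (nat_lit 116) (nat_lit 5) (nat_lit 616) (nat_lit 494) (nat_lit 450)) (XT.lf (nat_lit 0) (nat_lit 4219240383) (nat_lit 304) (nat_lit 6207512185) (nat_lit 380) (nat_lit 1066780501) (nat_lit 111) (nat_lit 5) (nat_lit 115) (nat_lit 5) (nat_lit 116) (nat_lit 5) (nat_lit 617) (nat_lit 494) (nat_lit 449))))) (XT.nd (nat_lit 156) (nat_lit 912) (nat_lit 0) (XT.nd (nat_lit 78) (nat_lit 0) (nat_lit 0) (XT.lf (nat_lit 0) (nat_lit 1728879065) (nat_lit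 228) (nat_lit 1651057933) (nat_lit 304) (nat_lit 8236006344) (nat_lit 107) (nat_lit 5) (nat_lit 110) (nat_lit 5) (nat_lit 111) (nat_lit 5) (nat_lit 618) (nat_lit 494) (nat_lit 448)) (XT.lf (nat_lit 0) (nat_lit 7921878272) (nat_lit 304) (nat_lit 837735321) (nat_lit 76) (nat_lit 2980636904) (nat_lit 107) (nat_lit 5) (nat_lit 111) (nat_lit 5) (nat_lit 108) (nat_lit 5) (nat_lit 619) (nat_lit 494) (nat_lit 447))) (XT.nd (nat_lit 78) (nat_lit 532) (nat_lit 0) (XT.lf (nat_lit 0) (nat_lit 697175582) (nat_lit 380) (nat_lit 3459476207) (nat_lit 76) (nat_lit 7709932269) (nat_lit 102) (nat_lit 5) (nat_lit 107) (nat_lit 5) (nat_lit 103) (nat_lit 5) (nat_lit 620) (nat_lit 494) (nat_lit 446)) (XT.nd (nat_lit 78) (nat_lit 304) (nat_lit 0) (XT.lf (nat_lit 0) (nat_lit 5252163605) (nat_lit 304) (nat_lit 6175099413) (nat_lit 76) (nat_lit 567672446) (nat_lit 99) (nat_lit 5) (nat_lit 103) (nat_lit 5) (nat_lit 100) (nat_lit 5) (nat_lit 621) (nat_lit 494) (nat_lit 445)) (XT.lf (nat_lit 0) (nat_lit 3139260315) (nat_lit 304) (nat_lit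 6783462686) (nat_lit 380) (nat_lit 2202642557) (nat_lit 95) (nat_lit 5) (nat_lit 99) (nat_lit 5) (nat_lit 100) (nat_lit 5) (nat_lit 622) (nat_lit 494) (nat_lit 444)))))) (XT.nd (nat_lit 77376) (nat_lit 0) (nat_lit 15732) (XT.nd (nat_lit 77142) (nat_lit 0) (nat_lit 19152) (XT.nd (nat_lit 77064) (nat_lit 0) (nat_lit 20748) (XT.lf (nat_lit 0) (nat_lit 374343993) (nat_lit 228) (nat_lit 2019524641) (nat_lit 304) (nat_lit 9864272809) (nat_lit 91) (nat_lit 5) (nat_lit 94) (nat_lit 5) (nat_lit 95) (nat_lit 5) (nat_lit 623) (nat_lit 494) (nat_lit 443)) (XT.lf (nat_lit 0) (nat_lit 1012287752) (nat_lit 760) (nat_lit 1403762009) (nat_lit 760) (nat_lit 1403762009) (nat_lit 364) (nat_lit 4) (nat_lit 374) (nat_lit 5) (nat_lit 374) (nat_lit 4) (nat_lit 570) (nat_lit 495) (nat_lit 495))) (XT.nd (nat_lit 78) (nat_lit 836) (nat_lit 0) (XT.lf (nat_lit 0) (nat_lit 552491163) (nat_lit 684) (nat_lit 411019050) (nat_lit 760) (nat_lit 6725274792) (nat_lit 354) (nat_lit 5) (nat_lit 363) (nat_lit 5) (nat_lit 364) (nat_lit 4) (nat_lit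 571) (nat_lit 495) (nat_lit 494)) (XT.nd (nat_lit 78) (nat_lit 836) (nat_lit 0) (XT.lf (nat_lit 0) (nat_lit 4755303296) (nat_lit 760) (nat_lit 934444298) (nat_lit 0) (nat_lit 2049156690) (nat_lit 354) (nat_lit 5) (nat_lit 364) (nat_lit 4) (nat_lit 354) (nat_lit 4) (nat_lit 572) (nat_lit 495) (nat_lit 493)) (XT.lf (nat_lit 0) (nat_lit 792520651) (nat_lit 836) (nat_lit 2418663260) (nat_lit 76) (nat_lit 4579327306) (nat_lit 343) (nat_lit 5) (nat_lit 354) (nat_lit 5) (nat_lit 344) (nat_lit 4) (nat_lit 573) (nat_lit 495) (nat_lit 492))))) (XT.nd (nat_lit 234) (nat_lit 1368) (nat_lit 0) (XT.nd (nat_lit 78) (nat_lit 1368) (nat_lit 0) (XT.lf (nat_lit 0) (nat_lit 3923134749) (nat_lit 684) (nat_lit 646342969) (nat_lit 760) (nat_lit 3273976975) (nat_lit 334) (nat_lit 5) (nat_lit 343) (nat_lit 5) (nat_lit 344) (nat_lit 4) (nat_lit 574) (nat_lit 495) (nat_lit 491)) (XT.nd (nat_lit 78) (nat_lit 608) (nat_lit 0) (XT.lf (nat_lit 0) (nat_lit 496730922) (nat_lit 760) (nat_lit 5437404874) (nat_lit 76) (nat_lit 1963675214)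 (nat_lit 324) (nat_lit 5) (nat_lit 334) (nat_lit 5) (nat_lit 325) (nat_lit 4) (nat_lit 575) (nat_lit 495) (nat_lit 490)) (XT.lf (nat_lit 0) (nat_lit 972348660) (nat_lit 608) (nat_lit 3298213871) (nat_lit 684) (nat_lit 3682832009) (nat_lit 316) (nat_lit 5) (nat_lit 324) (nat_lit 5) (nat_lit 325) (nat_lit 4) (nat_lit 576) (nat_lit 495) (nat_lit 489)))) (XT.nd (nat_lit 78) (nat_lit 1292) (nat_lit 0) (XT.lf (nat_lit 0) (nat_lit 79817201) (nat_lit 684) (nat_lit 510060383) (nat_lit 76) (nat_lit 7420772099) (nat_lit 315) (nat_lit 5) (nat_lit 324) (nat_lit 5) (nat_lit 316) (nat_lit 5) (nat_lit 577) (nat_lit 495) (nat_lit 488)) (XT.nd (nat_lit 78) (nat_lit 608) (nat_lit 0) (XT.lf (nat_lit 0) (nat_lit 3858256386) (nat_lit 760) (nat_lit 2020097712) (nat_lit 76) (nat_lit 2190415603) (nat_lit 306) (nat_lit 5) (nat_lit 316) (nat_lit 5) (nat_lit 307) (nat_lit 4) (nat_lit 578) (nat_lit 495) (nat_lit 487)) (XT.lf (nat_lit 0) (nat_lit 4591076975) (nat_lit 608) (nat_lit 3094979454) (nat_lit 684) (nat_lit 442523424) (nat_lit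 298) (nat_lit 5) (nat_lit 306) (nat_lit 5) (nat_lit 307) (nat_lit 4) (nat_lit 579) (nat_lit 495) (nat_lit 486))))))))
noncomputable def xc18 : XT := (XT.nd (nat_lit 1560) (nat_lit 5852) (nat_lit 0) (XT.nd (nat_lit 780) (nat_lit 3876) (nat_lit 0) (XT.nd (nat_lit 390) (nat_lit 2204) (nat_lit 0) (XT.nd (nat_lit 156) (nat_lit 1292) (nat_lit 0) (XT.nd (nat_lit 78) (nat_lit 608) (nat_lit 0) (XT.lf (nat_lit 0) (nat_lit 3108122870) (nat_lit 608) (nat_lit 218849056) (nat_lit 684) (nat_lit 4862761145) (nat_lit 289) (nat_lit 5) (nat_lit 297) (nat_lit 5) (nat_lit 298) (nat_lit 5) (nat_lit 580) (nat_lit 495) (nat_lit 485)) (XT.lf (nat_lit 0) (nat_lit 1599656122) (nat_lit 608) (nat_lit 5555682622) (nat_lit 684) (nat_lit 1096927335) (nat_lit 281) (nat_lit 5) (nat_lit 289) (nat_lit 5) (nat_lit 290) (nat_lit 4) (nat_lit 581) (nat_lit 495) (nat_lit 484))) (XT.nd (nat_lit 78) (nat_lit 608) (nat_lit 0) (XT.lf (nat_lit 0) (nat_lit 65561756) (nat_lit 608) (nat_lit 2616638702) (nat_lit 684) (nat_lit 5634016815) (nat_lit 272)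 (nat_lit 5) (nat_lit 280) (nat_lit 5) (nat_lit 281) (nat_lit 5) (nat_lit 582) (nat_lit 495) (nat_lit 483)) (XT.nd (nat_lit 78) (nat_lit 608) (nat_lit 0) (XT.lf (nat_lit 0) (nat_lit 6507954940) (nat_lit 684) (nat_lit 1466724225) (nat_lit 76) (nat_lit 406911845) (nat_lit 272) (nat_lit 5) (nat_lit 281) (nat_lit 5) (nat_lit 273) (nat_lit 4) (nat_lit 583) (nat_lit 495) (nat_lit 482)) (XT.lf (nat_lit 0) (nat_lit 1928224701) (nat_lit 608) (nat_lit 3037181248) (nat_lit 76) (nat_lit 3482774481) (nat_lit 264) (nat_lit 5) (nat_lit 272) (nat_lit 5) (nat_lit 265) (nat_lit 5) (nat_lit 584) (nat_lit 495) (nat_lit 481))))) (XT.nd (nat_lit 156) (nat_lit 1064) (nat_lit 0) (XT.nd (nat_lit 78) (nat_lit 608) (nat_lit 0) (XT.lf (nat_lit 0) (nat_lit 3885729461) (nat_lit 532) (nat_lit 1870232953) (nat_lit 608) (nat_lit 2760395966) (nat_lit 257) (nat_lit 5) (nat_lit 264) (nat_lit 5) (nat_lit 265) (nat_lit 5) (nat_lit 585) (nat_lit 495) (nat_lit 480)) (XT.lf (nat_lit 0) (nat_lit 1044496463) (nat_lit 608) (nat_lit 6251606172) (nat_lit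 76) (nat_lit 1289975983) (nat_lit 249) (nat_lit 5) (nat_lit 257) (nat_lit 5) (nat_lit 250) (nat_lit 5) (nat_lit 586) (nat_lit 495) (nat_lit 479))) (XT.nd (nat_lit 78) (nat_lit 532) (nat_lit 0) (XT.lf (nat_lit 0) (nat_lit 740151115) (nat_lit 532) (nat_lit 4137382686) (nat_lit 608) (nat_lit 3779517177) (nat_lit 242) (nat_lit 5) (nat_lit 249) (nat_lit 5) (nat_lit 250) (nat_lit 5) (nat_lit 587) (nat_lit 495) (nat_lit 478)) (XT.nd (nat_lit 78) (nat_lit 456) (nat_lit 0) (XT.lf (nat_lit 0) (nat_lit 39997620) (nat_lit 608) (nat_lit 856767663) (nat_lit 76) (nat_lit 7833013378) (nat_lit 241) (nat_lit 5) (nat_lit 249) (nat_lit 5) (nat_lit 242) (nat_lit 5) (nat_lit 588) (nat_lit 495) (nat_lit 477)) (XT.lf (nat_lit 0) (nat_lit 3884194195) (nat_lit 532) (nat_lit 2499646404) (nat_lit 76) (nat_lit 2419645317) (nat_lit 235) (nat_lit 5) (nat_lit 242) (nat_lit 5) (nat_lit 236) (nat_lit 5) (nat_lit 589) (nat_lit 495) (nat_lit 476)))))) (XT.nd (nat_lit 390) (nat_lit 1824) (nat_lit 0) (XT.nd (nat_lit 156) (nat_lit 988) (nat_lit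 0) (XT.nd (nat_lit 78) (nat_lit 532) (nat_lit 0) (XT.lf (nat_lit 0) (nat_lit 4713762722) (nat_lit 532) (nat_lit 3076192409) (nat_lit 608) (nat_lit 1089021180) (nat_lit 228) (nat_lit 5) (nat_lit 235) (nat_lit 5) (nat_lit 236) (nat_lit 5) (nat_lit 590) (nat_lit 495) (nat_lit 475)) (XT.lf (nat_lit 0) (nat_lit 2762534596) (nat_lit 532) (nat_lit 5869392828) (nat_lit 76) (nat_lit 324052955) (nat_lit 221) (nat_lit 5) (nat_lit 228) (nat_lit 5) (nat_lit 222) (nat_lit 5) (nat_lit 591) (nat_lit 495) (nat_lit 474))) (XT.nd (nat_lit 78) (nat_lit 532) (nat_lit 0) (XT.lf (nat_lit 0) (nat_lit 1413235157) (nat_lit 456) (nat_lit 5263991139) (nat_lit 532) (nat_lit 2357142979) (nat_lit 215) (nat_lit 5) (nat_lit 221) (nat_lit 5) (nat_lit 222) (nat_lit 5) (nat_lit 592) (nat_lit 495) (nat_lit 473)) (XT.nd (nat_lit 78) (nat_lit 456) (nat_lit 0) (XT.lf (nat_lit 0) (nat_lit 1518320722) (nat_lit 532) (nat_lit 286482456) (nat_lit 76) (nat_lit 7309666281) (nat_lit 214) (nat_lit 5) (nat_lit 221) (nat_lit 5) (nat_lit 215) (nat_lit 5)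 (nat_lit 593) (nat_lit 495) (nat_lit 472)) (XT.lf (nat_lit 0) (nat_lit 5442192491) (nat_lit 532) (nat_lit 2015921539) (nat_lit 76) (nat_lit 1737699095) (nat_lit 208) (nat_lit 5) (nat_lit 215) (nat_lit 5) (nat_lit 209) (nat_lit 5) (nat_lit 594) (nat_lit 495) (nat_lit 471))))) (XT.nd (nat_lit 156) (nat_lit 912) (nat_lit 0) (XT.nd (nat_lit 78) (nat_lit 380) (nat_lit 0) (XT.lf (nat_lit 0) (nat_lit 157830033) (nat_lit 532) (nat_lit 3781471279) (nat_lit 76) (nat_lit 5339578132) (nat_lit 201) (nat_lit 5) (nat_lit 208) (nat_lit 5) (nat_lit 202) (nat_lit 5) (nat_lit 595) (nat_lit 495) (nat_lit 470)) (XT.lf (nat_lit 0) (nat_lit 3766844434) (nat_lit 380) (nat_lit 313412449) (nat_lit 456) (nat_lit 5283195991) (nat_lit 196) (nat_lit 5) (nat_lit 201) (nat_lit 5) (nat_lit 202) (nat_lit 5) (nat_lit 596) (nat_lit 495) (nat_lit 469))) (XT.nd (nat_lit 78) (nat_lit 456) (nat_lit 0) (XT.lf (nat_lit 0) (nat_lit 1989141152) (nat_lit 456) (nat_lit 6097683447) (nat_lit 532) (nat_lit 1362781464) (nat_lit 190) (nat_lit 5) (nat_lit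 196) (nat_lit 5) (nat_lit 197) (nat_lit 5) (nat_lit 597) (nat_lit 495) (nat_lit 468)) (XT.nd (nat_lit 78) (nat_lit 0) (nat_lit 0) (XT.lf (nat_lit 0) (nat_lit 165309411) (nat_lit 380) (nat_lit 2422546903) (nat_lit 456) (nat_lit 6949558013) (nat_lit 184) (nat_lit 5) (nat_lit 189) (nat_lit 5) (nat_lit 190) (nat_lit 5) (nat_lit 598) (nat_lit 495) (nat_lit 467)) (XT.lf (nat_lit 0) (nat_lit 6604062694) (nat_lit 456) (nat_lit 1682723673) (nat_lit 76) (nat_lit 1339918171) (nat_lit 184) (nat_lit 5) (nat_lit 190) (nat_lit 5) (nat_lit 185) (nat_lit 5) (nat_lit 599) (nat_lit 495) (nat_lit 466))))))) (XT.nd (nat_lit 780) (nat_lit 2660) (nat_lit 0) (XT.nd (nat_lit 390) (nat_lit 1520) (nat_lit 0) (XT.nd (nat_lit 156) (nat_lit 836) (nat_lit 0) (XT.nd (nat_lit 78) (nat_lit 380) (nat_lit 0) (XT.lf (nat_lit 0) (nat_lit 972712208) (nat_lit 456) (nat_lit 3581026911) (nat_lit 76) (nat_lit 5163859961) (nat_lit 178) (nat_lit 5) (nat_lit 184) (nat_lit 5) (nat_lit 179) (nat_lit 5) (nat_lit 600) (nat_lit 495) (nat_lit 465)) (XT.lf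 (nat_lit 0) (nat_lit 4278967546) (nat_lit 380) (nat_lit 714727251) (nat_lit 456) (nat_lit 4816495126) (nat_lit 173) (nat_lit 5) (nat_lit 178) (nat_lit 5) (nat_lit 179) (nat_lit 5) (nat_lit 601) (nat_lit 495) (nat_lit 464))) (XT.nd (nat_lit 78) (nat_lit 456) (nat_lit 0) (XT.lf (nat_lit 0) (nat_lit 2368308892) (nat_lit 380) (nat_lit 6734467617) (nat_lit 456) (nat_lit 801704344) (nat_lit 168) (nat_lit 5) (nat_lit 173) (nat_lit 5) (nat_lit 174) (nat_lit 5) (nat_lit 602) (nat_lit 495) (nat_lit 463)) (XT.nd (nat_lit 78) (nat_lit 0) (nat_lit 0) (XT.lf (nat_lit 0) (nat_lit 397221557) (nat_lit 380) (nat_lit 2845126861) (nat_lit 456) (nat_lit 6758040124) (nat_lit 162) (nat_lit 5) (nat_lit 167) (nat_lit 5) (nat_lit 168) (nat_lit 5) (nat_lit 603) (nat_lit 495) (nat_lit 462)) (XT.lf (nat_lit 0) (nat_lit 7362535721) (nat_lit 456) (nat_lit 1601517786) (nat_lit 76) (nat_lit 1133936879) (nat_lit 162) (nat_lit 5) (nat_lit 168) (nat_lit 5) (nat_lit 163) (nat_lit 5) (nat_lit 604) (nat_lit 495) (nat_lit 461))))) (XT.nd (nat_lit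 156) (nat_lit 760) (nat_lit 0) (XT.nd (nat_lit 78) (nat_lit 304) (nat_lit 0) (XT.lf (nat_lit 0) (nat_lit 1359865356) (nat_lit 456) (nat_lit 3660314867) (nat_lit 76) (nat_lit 5176983762) (nat_lit 156) (nat_lit 5) (nat_lit 162) (nat_lit 5) (nat_lit 157) (nat_lit 5) (nat_lit 605) (nat_lit 495) (nat_lit 460)) (XT.lf (nat_lit 0) (nat_lit 4521352396) (nat_lit 304) (nat_lit 968272886) (nat_lit 380) (nat_lit 4808552574) (nat_lit 152) (nat_lit 5) (nat_lit 156) (nat_lit 5) (nat_lit 157) (nat_lit 5) (nat_lit 606) (nat_lit 495) (nat_lit 459))) (XT.nd (nat_lit 78) (nat_lit 380) (nat_lit 0) (XT.lf (nat_lit 0) (nat_lit 2445282328) (nat_lit 380) (nat_lit 7267080026) (nat_lit 456) (nat_lit 688643630) (nat_lit 147) (nat_lit 5) (nat_lit 152) (nat_lit 5) (nat_lit 153) (nat_lit 5) (nat_lit 607) (nat_lit 495) (nat_lit 458)) (XT.nd (nat_lit 78) (nat_lit 0) (nat_lit 0) (XT.lf (nat_lit 0) (nat_lit 297680903) (nat_lit 304) (nat_lit 3166635038) (nat_lit 380) (nat_lit 7041185333) (nat_lit 142) (nat_lit 5) (nat_lit 146) (nat_lit 5)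 (nat_lit 147) (nat_lit 5) (nat_lit 608) (nat_lit 495) (nat_lit 457)) (XT.lf (nat_lit 0) (nat_lit 7701089537) (nat_lit 380) (nat_lit 1880562384) (nat_lit 76) (nat_lit 1030145519) (nat_lit 142) (nat_lit 5) (nat_lit 147) (nat_lit 5) (nat_lit 143) (nat_lit 5) (nat_lit 609) (nat_lit 495) (nat_lit 456)))))) (XT.nd (nat_lit 390) (nat_lit 1216) (nat_lit 0) (XT.nd (nat_lit 156) (nat_lit 684) (nat_lit 0) (XT.nd (nat_lit 78) (nat_lit 304) (nat_lit 0) (XT.lf (nat_lit 0) (nat_lit 1299823189) (nat_lit 456) (nat_lit 4130096401) (nat_lit 76) (nat_lit 5289841786) (nat_lit 136) (nat_lit 5) (nat_lit 142) (nat_lit 5) (nat_lit 137) (nat_lit 5) (nat_lit 610) (nat_lit 495) (nat_lit 455)) (XT.lf (nat_lit 0) (nat_lit 4382728501) (nat_lit 304) (nat_lit 1164799978) (nat_lit 380) (nat_lit 5282133994) (nat_lit 132) (nat_lit 5) (nat_lit 136) (nat_lit 5) (nat_lit 137) (nat_lit 5) (nat_lit 611) (nat_lit 495) (nat_lit 454))) (XT.nd (nat_lit 78) (nat_lit 380) (nat_lit 0) (XT.lf (nat_lit 0) (nat_lit 2106555015) (nat_lit 304) (nat_lit 7786878331)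 (nat_lit 380) (nat_lit 1048064746) (nat_lit 128) (nat_lit 5) (nat_lit 132) (nat_lit 5) (nat_lit 133) (nat_lit 5) (nat_lit 612) (nat_lit 495) (nat_lit 453)) (XT.nd (nat_lit 78) (nat_lit 304) (nat_lit 0) (XT.lf (nat_lit 0) (nat_lit 3230156362) (nat_lit 380) (nat_lit 246350283) (nat_lit 76) (nat_lit 7578593100) (nat_lit 127) (nat_lit 5) (nat_lit 132) (nat_lit 5) (nat_lit 128) (nat_lit 5) (nat_lit 613) (nat_lit 495) (nat_lit 452)) (XT.lf (nat_lit 0) (nat_lit 7593612345) (nat_lit 380) (nat_lit 2637121380) (nat_lit 76) (nat_lit 939828400) (nat_lit 123) (nat_lit 5) (nat_lit 128) (nat_lit 5) (nat_lit 124) (nat_lit 5) (nat_lit 614) (nat_lit 495) (nat_lit 451))))) (XT.nd (nat_lit 156) (nat_lit 608) (nat_lit 0) (XT.nd (nat_lit 78) (nat_lit 228) (nat_lit 0) (XT.lf (nat_lit 0) (nat_lit 763315186) (nat_lit 380) (nat_lit 5110652503) (nat_lit 76) (nat_lit 5413924639) (nat_lit 118) (nat_lit 5) (nat_lit 123) (nat_lit 5) (nat_lit 119) (nat_lit 5) (nat_lit 615) (nat_lit 495) (nat_lit 450)) (XT.lf (nat_lit 0) (nat_lit 3742028381)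 (nat_lit 228) (nat_lit 1395011129) (nat_lit 304) (nat_lit 6270167012) (nat_lit 115) (nat_lit 5) (nat_lit 118) (nat_lit 5) (nat_lit 119) (nat_lit 5) (nat_lit 616) (nat_lit 495) (nat_lit 449))) (XT.nd (nat_lit 78) (nat_lit 304) (nat_lit 0) (XT.lf (nat_lit 0) (nat_lit 1228217898) (nat_lit 304) (nat_lit 8385729125) (nat_lit 380) (nat_lit 1914647032) (nat_lit 111) (nat_lit 5) (nat_lit 115) (nat_lit 5) (nat_lit 116) (nat_lit 5) (nat_lit 617) (nat_lit 495) (nat_lit 448)) (XT.nd (nat_lit 78) (nat_lit 228) (nat_lit 0) (XT.lf (nat_lit 0) (nat_lit 2508554046) (nat_lit 380) (nat_lit 1353968520) (nat_lit 76) (nat_lit 7789285170) (nat_lit 110) (nat_lit 5) (nat_lit 115) (nat_lit 5) (nat_lit 111) (nat_lit 5) (nat_lit 618) (nat_lit 495) (nat_lit 447)) (XT.lf (nat_lit 0) (nat_lit 7003857991) (nat_lit 304) (nat_lit 3999895696) (nat_lit 76) (nat_lit 773294523) (nat_lit 107) (nat_lit 5) (nat_lit 111) (nat_lit 5) (nat_lit 108) (nat_lit 5) (nat_lit 619) (nat_lit 495) (nat_lit 446))))))))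
noncomputable def xc19 : XT := (XT.nd (nat_lit 78390) (nat_lit 0) (nat_lit 5168) (XT.nd (nat_lit 77610) (nat_lit 0) (nat_lit 13528) (XT.nd (nat_lit 77220) (nat_lit 0) (nat_lit 18924) (XT.nd (nat_lit 156) (nat_lit 380) (nat_lit 0) (XT.nd (nat_lit 78) (nat_lit 304) (nat_lit 0) (XT.lf (nat_lit 0) (nat_lit 5168169591) (nat_lit 304) (nat_lit 6443011639) (nat_lit 380) (nat_lit 293171134) (nat_lit 103) (nat_lit 5) (nat_lit 107) (nat_lit 5) (nat_lit 108) (nat_lit 5) (nat_lit 620) (nat_lit 495) (nat_lit 445)) (XT.lf (nat_lit 0) (nat_lit 2465840800) (nat_lit 228) (nat_lit 1751476591) (nat_lit 304) (nat_lit 7816391879) (nat_lit 99) (nat_lit 5) (nat_lit 102) (nat_lit 5) (nat_lit 103) (nat_lit 5) (nat_lit 621) (nat_lit 495) (nat_lit 444))) (XT.nd (nat_lit 78) (nat_lit 380) (nat_lit 0) (XT.lf (nat_lit 0) (nat_lit 8833405595) (nat_lit 304) (nat_lit 322364225) (nat_lit 76) (nat_lit 3009459494) (nat_lit 99) (nat_lit 5) (nat_lit 103) (nat_lit 5) (nat_lit 100) (nat_lit 5) (nat_lit 622) (nat_lit 495) (nat_lit 443)) (XT.nd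 (nat_lit 76908) (nat_lit 0) (nat_lit 22116) (XT.lf (nat_lit 0) (nat_lit 1252258107) (nat_lit 380) (nat_lit 3168135074) (nat_lit 76) (nat_lit 7878303930) (nat_lit 94) (nat_lit 5) (nat_lit 99) (nat_lit 5) (nat_lit 95) (nat_lit 5) (nat_lit 623) (nat_lit 495) (nat_lit 442)) (XT.lf (nat_lit 0) (nat_lit 2499046979) (nat_lit 836) (nat_lit 636761510) (nat_lit 836) (nat_lit 636761510) (nat_lit 385) (nat_lit 4) (nat_lit 396) (nat_lit 5) (nat_lit 396) (nat_lit 4) (nat_lit 568) (nat_lit 496) (nat_lit 496))))) (XT.nd (nat_lit 156) (nat_lit 1596) (nat_lit 0) (XT.nd (nat_lit 78) (nat_lit 760) (nat_lit 0) (XT.lf (nat_lit 0) (nat_lit 2459086636) (nat_lit 836) (nat_lit 4095542778) (nat_lit 0) (nat_lit 1037411177) (nat_lit 374) (nat_lit 5) (nat_lit 385) (nat_lit 4) (nat_lit 374) (nat_lit 4) (nat_lit 569) (nat_lit 496) (nat_lit 495)) (XT.lf (nat_lit 0) (nat_lit 1983947370) (nat_lit 760) (nat_lit 4235915790) (nat_lit 760) (nat_lit 1420440861) (nat_lit 364) (nat_lit 4) (nat_lit 374) (nat_lit 5) (nat_lit 374) (nat_lit 4) (nat_lit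 570) (nat_lit 496) (nat_lit 494))) (XT.nd (nat_lit 78) (nat_lit 836) (nat_lit 0) (XT.lf (nat_lit 0) (nat_lit 460694303) (nat_lit 684) (nat_lit 1837641984) (nat_lit 760) (nat_lit 5391632543) (nat_lit 354) (nat_lit 5) (nat_lit 363) (nat_lit 5) (nat_lit 364) (nat_lit 4) (nat_lit 571) (nat_lit 496) (nat_lit 493)) (XT.nd (nat_lit 78) (nat_lit 836) (nat_lit 0) (XT.lf (nat_lit 0) (nat_lit 6047748956) (nat_lit 760) (nat_lit 1058794366) (nat_lit 0) (nat_lit 634394509) (nat_lit 354) (nat_lit 5) (nat_lit 364) (nat_lit 4) (nat_lit 354) (nat_lit 4) (nat_lit 572) (nat_lit 496) (nat_lit 492)) (XT.lf (nat_lit 0) (nat_lit 2032235927) (nat_lit 836) (nat_lit 2595893138) (nat_lit 76) (nat_lit 3164925623) (nat_lit 343) (nat_lit 5) (nat_lit 354) (nat_lit 5) (nat_lit 344) (nat_lit 4) (nat_lit 573) (nat_lit 496) (nat_lit 491)))))) (XT.nd (nat_lit 390) (nat_lit 2584) (nat_lit 0) (XT.nd (nat_lit 156) (nat_lit 1368) (nat_lit 0) (XT.nd (nat_lit 78) (nat_lit 760) (nat_lit 0) (XT.lf (nat_lit 0) (nat_lit 3703013469) (nat_lit 684) (nat_lit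 2072447077) (nat_lit 760) (nat_lit 2071214259) (nat_lit 334) (nat_lit 5) (nat_lit 343) (nat_lit 5) (nat_lit 344) (nat_lit 4) (nat_lit 574) (nat_lit 496) (nat_lit 490)) (XT.lf (nat_lit 0) (nat_lit 1640521459) (nat_lit 760) (nat_lit 5706804372) (nat_lit 76) (nat_lit 554414977) (nat_lit 324) (nat_lit 5) (nat_lit 334) (nat_lit 5) (nat_lit 325) (nat_lit 4) (nat_lit 575) (nat_lit 496) (nat_lit 489))) (XT.nd (nat_lit 78) (nat_lit 760) (nat_lit 0) (XT.lf (nat_lit 0) (nat_lit 658340369) (nat_lit 608) (nat_lit 4722150976) (nat_lit 684) (nat_lit 2577512106) (nat_lit 316) (nat_lit 5) (nat_lit 324) (nat_lit 5) (nat_lit 325) (nat_lit 4) (nat_lit 576) (nat_lit 496) (nat_lit 488)) (XT.nd (nat_lit 78) (nat_lit 684) (nat_lit 0) (XT.lf (nat_lit 0) (nat_lit 1138970318) (nat_lit 684) (nat_lit 876500874) (nat_lit 76) (nat_lit 6000279083) (nat_lit 315) (nat_lit 5) (nat_lit 324) (nat_lit 5) (nat_lit 316) (nat_lit 5) (nat_lit 577) (nat_lit 496) (nat_lit 487)) (XT.lf (nat_lit 0) (nat_lit 4874356470) (nat_lit 760) (nat_lit 2428233479)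 (nat_lit 76) (nat_lit 772143175) (nat_lit 306) (nat_lit 5) (nat_lit 316) (nat_lit 5) (nat_lit 307) (nat_lit 4) (nat_lit 578) (nat_lit 496) (nat_lit 486))))) (XT.nd (nat_lit 156) (nat_lit 1292) (nat_lit 0) (XT.nd (nat_lit 78) (nat_lit 608) (nat_lit 0) (XT.lf (nat_lit 0) (nat_lit 526239477) (nat_lit 684) (nat_lit 4001843034) (nat_lit 76) (nat_lit 3607067345) (nat_lit 297) (nat_lit 5) (nat_lit 306) (nat_lit 5) (nat_lit 298) (nat_lit 5) (nat_lit 579) (nat_lit 496) (nat_lit 485)) (XT.lf (nat_lit 0) (nat_lit 2593875090) (nat_lit 608) (nat_lit 1662102887) (nat_lit 684) (nat_lit 3940948363) (nat_lit 289) (nat_lit 5) (nat_lit 297) (nat_lit 5) (nat_lit 298) (nat_lit 5) (nat_lit 580) (nat_lit 496) (nat_lit 484))) (XT.nd (nat_lit 78) (nat_lit 684) (nat_lit 0) (XT.lf (nat_lit 0) (nat_lit 1039672599) (nat_lit 608) (nat_lit 7001328712) (nat_lit 684) (nat_lit 219326542) (nat_lit 281) (nat_lit 5) (nat_lit 289) (nat_lit 5) (nat_lit 290) (nat_lit 4) (nat_lit 581) (nat_lit 496) (nat_lit 483)) (XT.nd (nat_lit 78) (nat_lit 608)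 (nat_lit 0) (XT.lf (nat_lit 0) (nat_lit 3517661447) (nat_lit 684) (nat_lit 549746180) (nat_lit 76) (nat_lit 4257371630) (nat_lit 280) (nat_lit 5) (nat_lit 289) (nat_lit 5) (nat_lit 281) (nat_lit 5) (nat_lit 582) (nat_lit 496) (nat_lit 482)) (XT.lf (nat_lit 0) (nat_lit 6254546579) (nat_lit 608) (nat_lit 1052700999) (nat_lit 684) (nat_lit 1083630322) (nat_lit 272) (nat_lit 5) (nat_lit 280) (nat_lit 5) (nat_lit 281) (nat_lit 5) (nat_lit 583) (nat_lit 496) (nat_lit 481))))))) (XT.nd (nat_lit 780) (nat_lit 3952) (nat_lit 0) (XT.nd (nat_lit 390) (nat_lit 2052) (nat_lit 0) (XT.nd (nat_lit 156) (nat_lit 1216) (nat_lit 0) (XT.nd (nat_lit 78) (nat_lit 532) (nat_lit 0) (XT.lf (nat_lit 0) (nat_lit 2666782171) (nat_lit 608) (nat_lit 3764423000) (nat_lit 76) (nat_lit 2026982788) (nat_lit 264) (nat_lit 5) (nat_lit 272) (nat_lit 5) (nat_lit 265) (nat_lit 5) (nat_lit 584) (nat_lit 496) (nat_lit 480)) (XT.lf (nat_lit 0) (nat_lit 3107997717) (nat_lit 532) (nat_lit 3352239388) (nat_lit 608) (nat_lit 2066815912) (nat_lit 257)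 (nat_lit 5) (nat_lit 264) (nat_lit 5) (nat_lit 265) (nat_lit 5) (nat_lit 585) (nat_lit 496) (nat_lit 479))) (XT.nd (nat_lit 78) (nat_lit 608) (nat_lit 0) (XT.lf (nat_lit 0) (nat_lit 1498711491) (nat_lit 532) (nat_lit 187186574) (nat_lit 608) (nat_lit 6911648161) (nat_lit 249) (nat_lit 5) (nat_lit 256) (nat_lit 5) (nat_lit 257) (nat_lit 5) (nat_lit 586) (nat_lit 496) (nat_lit 478)) (XT.nd (nat_lit 78) (nat_lit 608) (nat_lit 0) (XT.lf (nat_lit 0) (nat_lit 5484038210) (nat_lit 608) (nat_lit 156220336) (nat_lit 76) (nat_lit 3028959352) (nat_lit 249) (nat_lit 5) (nat_lit 257) (nat_lit 5) (nat_lit 250) (nat_lit 5) (nat_lit 587) (nat_lit 496) (nat_lit 477)) (XT.lf (nat_lit 0) (nat_lit 596742853) (nat_lit 608) (nat_lit 1812021832) (nat_lit 76) (nat_lit 6333700982) (nat_lit 241) (nat_lit 5) (nat_lit 249) (nat_lit 5) (nat_lit 242) (nat_lit 5) (nat_lit 588) (nat_lit 496) (nat_lit 476))))) (XT.nd (nat_lit 156) (nat_lit 1064) (nat_lit 0) (XT.nd (nat_lit 78) (nat_lit 532) (nat_lit 0) (XT.lf (nat_lit 0) (nat_lit 4396256376)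 (nat_lit 532) (nat_lit 3511540869) (nat_lit 76) (nat_lit 909270627) (nat_lit 235) (nat_lit 5) (nat_lit 242) (nat_lit 5) (nat_lit 236) (nat_lit 5) (nat_lit 589) (nat_lit 496) (nat_lit 475)) (XT.lf (nat_lit 0) (nat_lit 3647699096) (nat_lit 532) (nat_lit 4619416269) (nat_lit 608) (nat_lit 626142205) (nat_lit 228) (nat_lit 5) (nat_lit 235) (nat_lit 5) (nat_lit 236) (nat_lit 5) (nat_lit 590) (nat_lit 496) (nat_lit 474))) (XT.nd (nat_lit 78) (nat_lit 532) (nat_lit 0) (XT.lf (nat_lit 0) (nat_lit 1950184446) (nat_lit 456) (nat_lit 1231758521) (nat_lit 532) (nat_lit 5789007775) (nat_lit 221) (nat_lit 5) (nat_lit 227) (nat_lit 5) (nat_lit 228) (nat_lit 5) (nat_lit 591) (nat_lit 496) (nat_lit 473)) (XT.nd (nat_lit 78) (nat_lit 76) (nat_lit 0) (XT.lf (nat_lit 0) (nat_lit 213624051) (nat_lit 456) (nat_lit 6839554922) (nat_lit 532) (nat_lit 1997030969) (nat_lit 215) (nat_lit 5) (nat_lit 221) (nat_lit 5) (nat_lit 222) (nat_lit 5) (nat_lit 592) (nat_lit 496) (nat_lit 472)) (XT.lf (nat_lit 0) (nat_lit 1846138944) (nat_lit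 532) (nat_lit 1544875316) (nat_lit 76) (nat_lit 5739801667) (nat_lit 214) (nat_lit 5) (nat_lit 221) (nat_lit 5) (nat_lit 215) (nat_lit 5) (nat_lit 593) (nat_lit 496) (nat_lit 471)))))) (XT.nd (nat_lit 390) (nat_lit 2052) (nat_lit 0) (XT.nd (nat_lit 156) (nat_lit 912) (nat_lit 0) (XT.nd (nat_lit 78) (nat_lit 532) (nat_lit 0) (XT.lf (nat_lit 0) (nat_lit 5724001425) (nat_lit 532) (nat_lit 3337994414) (nat_lit 76) (nat_lit 151085061) (nat_lit 208) (nat_lit 5) (nat_lit 215) (nat_lit 5) (nat_lit 209) (nat_lit 5) (nat_lit 594) (nat_lit 496) (nat_lit 470)) (XT.lf (nat_lit 0) (nat_lit 382862491) (nat_lit 532) (nat_lit 5181108921) (nat_lit 76) (nat_lit 3732863317) (nat_lit 201) (nat_lit 5) (nat_lit 208) (nat_lit 5) (nat_lit 202) (nat_lit 5) (nat_lit 595) (nat_lit 496) (nat_lit 469))) (XT.nd (nat_lit 78) (nat_lit 532) (nat_lit 0) (XT.lf (nat_lit 0) (nat_lit 2307981972) (nat_lit 380) (nat_lit 1961086695) (nat_lit 456) (nat_lit 5113064964) (nat_lit 196) (nat_lit 5) (nat_lit 201) (nat_lit 5) (nat_lit 202) (nat_lit 5)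 (nat_lit 596) (nat_lit 496) (nat_lit 468)) (XT.nd (nat_lit 78) (nat_lit 76) (nat_lit 0) (XT.lf (nat_lit 0) (nat_lit 461995066) (nat_lit 456) (nat_lit 7766458758) (nat_lit 532) (nat_lit 1240777683) (nat_lit 190) (nat_lit 5) (nat_lit 196) (nat_lit 5) (nat_lit 197) (nat_lit 5) (nat_lit 597) (nat_lit 496) (nat_lit 467)) (XT.lf (nat_lit 0) (nat_lit 2680703166) (nat_lit 532) (nat_lit 1424782177) (nat_lit 76) (nat_lit 5452090716) (nat_lit 189) (nat_lit 5) (nat_lit 196) (nat_lit 5) (nat_lit 190) (nat_lit 5) (nat_lit 598) (nat_lit 496) (nat_lit 466))))) (XT.nd (nat_lit 234) (nat_lit 836) (nat_lit 0) (XT.nd (nat_lit 78) (nat_lit 836) (nat_lit 0) (XT.lf (nat_lit 0) (nat_lit 6303851885) (nat_lit 380) (nat_lit 348644279) (nat_lit 456) (nat_lit 2995259352) (nat_lit 184) (nat_lit 5) (nat_lit 189) (nat_lit 5) (nat_lit 190) (nat_lit 5) (nat_lit 599) (nat_lit 496) (nat_lit 465)) (XT.nd (nat_lit 78) (nat_lit 380) (nat_lit 0) (XT.lf (nat_lit 0) (nat_lit 960237167) (nat_lit 456) (nat_lit 5324007095) (nat_lit 76) (nat_lit 3455193147)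 (nat_lit 178) (nat_lit 5) (nat_lit 184) (nat_lit 5) (nat_lit 179) (nat_lit 5) (nat_lit 600) (nat_lit 496) (nat_lit 464)) (XT.lf (nat_lit 0) (nat_lit 2472478577) (nat_lit 380) (nat_lit 2471293053) (nat_lit 456) (nat_lit 4889006504) (nat_lit 173) (nat_lit 5) (nat_lit 178) (nat_lit 5) (nat_lit 179) (nat_lit 5) (nat_lit 601) (nat_lit 496) (nat_lit 463)))) (XT.nd (nat_lit 78) (nat_lit 456) (nat_lit 0) (XT.lf (nat_lit 0) (nat_lit 485976058) (nat_lit 380) (nat_lit 8517687990) (nat_lit 456) (nat_lit 924389705) (nat_lit 168) (nat_lit 5) (nat_lit 173) (nat_lit 5) (nat_lit 174) (nat_lit 5) (nat_lit 602) (nat_lit 496) (nat_lit 462)) (XT.nd (nat_lit 78) (nat_lit 380) (nat_lit 0) (XT.lf (nat_lit 0) (nat_lit 3093204780) (nat_lit 456) (nat_lit 1553147174) (nat_lit 76) (nat_lit 5378187632) (nat_lit 167) (nat_lit 5) (nat_lit 173) (nat_lit 5) (nat_lit 168) (nat_lit 5) (nat_lit 603) (nat_lit 496) (nat_lit 461)) (XT.lf (nat_lit 0) (nat_lit 6493286238) (nat_lit 380) (nat_lit 677180818) (nat_lit 456) (nat_lit 2952533725) (nat_lit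 162) (nat_lit 5) (nat_lit 167) (nat_lit 5) (nat_lit 168) (nat_lit 5) (nat_lit 604) (nat_lit 496) (nat_lit 460))))))))
noncomputable def xc20 : XT := (XT.nd (nat_lit 78234) (nat_lit 0) (nat_lit 11780) (XT.nd (nat_lit 780) (nat_lit 2204) (nat_lit 0) (XT.nd (nat_lit 390) (nat_lit 1444) (nat_lit 0) (XT.nd (nat_lit 156) (nat_lit 760) (nat_lit 0) (XT.nd (nat_lit 78) (nat_lit 304) (nat_lit 0) (XT.lf (nat_lit 0) (nat_lit 1102534153) (nat_lit 456) (nat_lit 5775118073) (nat_lit 76) (nat_lit 3345413143) (nat_lit 156) (nat_lit 5) (nat_lit 162) (nat_lit 5) (nat_lit 157) (nat_lit 5) (nat_lit 605) (nat_lit 496) (nat_lit 459)) (XT.lf (nat_lit 0) (nat_lit 2338439490) (nat_lit 304) (nat_lit 2854906475) (nat_lit 380) (nat_lit 5131513040) (nat_lit 152) (nat_lit 5) (nat_lit 156) (nat_lit 5) (nat_lit 157) (nat_lit 5) (nat_lit 606) (nat_lit 496) (nat_lit 458))) (XT.nd (nat_lit 78) (nat_lit 380) (nat_lit 0) (XT.lf (nat_lit 0) (nat_lit 178592463) (nat_lit 380) (nat_lit 9185885097) (nat_lit 456) (nat_lit 1064242467) (nat_lit 147)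 (nat_lit 5) (nat_lit 152) (nat_lit 5) (nat_lit 153) (nat_lit 5) (nat_lit 607) (nat_lit 496) (nat_lit 457)) (XT.nd (nat_lit 78) (nat_lit 304) (nat_lit 0) (XT.lf (nat_lit 0) (nat_lit 3067136233) (nat_lit 456) (nat_lit 2037872241) (nat_lit 76) (nat_lit 5428786508) (nat_lit 146) (nat_lit 5) (nat_lit 152) (nat_lit 5) (nat_lit 147) (nat_lit 5) (nat_lit 608) (nat_lit 496) (nat_lit 456)) (XT.lf (nat_lit 0) (nat_lit 6336089821) (nat_lit 304) (nat_lit 923287392) (nat_lit 380) (nat_lit 3381605328) (nat_lit 142) (nat_lit 5) (nat_lit 146) (nat_lit 5) (nat_lit 147) (nat_lit 5) (nat_lit 609) (nat_lit 496) (nat_lit 455))))) (XT.nd (nat_lit 156) (nat_lit 684) (nat_lit 0) (XT.nd (nat_lit 78) (nat_lit 304) (nat_lit 0) (XT.lf (nat_lit 0) (nat_lit 788667157) (nat_lit 456) (nat_lit 6646866645) (nat_lit 76) (nat_lit 3314403224) (nat_lit 136) (nat_lit 5) (nat_lit 142) (nat_lit 5) (nat_lit 137) (nat_lit 5) (nat_lit 610) (nat_lit 496) (nat_lit 454)) (XT.lf (nat_lit 0) (nat_lit 1792898703) (nat_lit 304) (nat_lit 3202752234) (nat_lit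 380) (nat_lit 5865002315) (nat_lit 132) (nat_lit 5) (nat_lit 136) (nat_lit 5) (nat_lit 137) (nat_lit 5) (nat_lit 611) (nat_lit 496) (nat_lit 453))) (XT.nd (nat_lit 78) (nat_lit 684) (nat_lit 0) (XT.lf (nat_lit 0) (nat_lit 9290858564) (nat_lit 380) (nat_lit 567874091) (nat_lit 76) (nat_lit 1114770844) (nat_lit 132) (nat_lit 5) (nat_lit 137) (nat_lit 5) (nat_lit 133) (nat_lit 5) (nat_lit 612) (nat_lit 496) (nat_lit 452)) (XT.nd (nat_lit 78) (nat_lit 304) (nat_lit 0) (XT.lf (nat_lit 0) (nat_lit 2576406433) (nat_lit 380) (nat_lit 2995531891) (nat_lit 76) (nat_lit 5515799736) (nat_lit 127) (nat_lit 5) (nat_lit 132) (nat_lit 5) (nat_lit 128) (nat_lit 5) (nat_lit 613) (nat_lit 496) (nat_lit 451)) (XT.lf (nat_lit 0) (nat_lit 5715018581) (nat_lit 304) (nat_lit 1177054449) (nat_lit 380) (nat_lit 4312083842) (nat_lit 123) (nat_lit 5) (nat_lit 127) (nat_lit 5) (nat_lit 128) (nat_lit 5) (nat_lit 614) (nat_lit 496) (nat_lit 450)))))) (XT.nd (nat_lit 390) (nat_lit 988) (nat_lit 0) (XT.nd (nat_lit 156) (nat_lit 608) (nat_lit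 0) (XT.nd (nat_lit 78) (nat_lit 304) (nat_lit 0) (XT.lf (nat_lit 0) (nat_lit 3261063660) (nat_lit 304) (nat_lit 8049082776) (nat_lit 380) (nat_lit 12437030) (nat_lit 119) (nat_lit 5) (nat_lit 123) (nat_lit 5) (nat_lit 124) (nat_lit 5) (nat_lit 615) (nat_lit 496) (nat_lit 449)) (XT.lf (nat_lit 0) (nat_lit 712849597) (nat_lit 228) (nat_lit 3605828754) (nat_lit 304) (nat_lit 7124076973) (nat_lit 115) (nat_lit 5) (nat_lit 118) (nat_lit 5) (nat_lit 119) (nat_lit 5) (nat_lit 616) (nat_lit 496) (nat_lit 448))) (XT.nd (nat_lit 78) (nat_lit 608) (nat_lit 0) (XT.lf (nat_lit 0) (nat_lit 8750255706) (nat_lit 304) (nat_lit 1877031450) (nat_lit 76) (nat_lit 937762899) (nat_lit 115) (nat_lit 5) (nat_lit 119) (nat_lit 5) (nat_lit 116) (nat_lit 5) (nat_lit 617) (nat_lit 496) (nat_lit 447)) (XT.nd (nat_lit 78) (nat_lit 228) (nat_lit 0) (XT.lf (nat_lit 0) (nat_lit 1584829381) (nat_lit 380) (nat_lit 4553757576) (nat_lit 76) (nat_lit 5550501897) (nat_lit 110) (nat_lit 5) (nat_lit 115) (nat_lit 5) (nat_lit 111) (nat_lit 5) (nat_lit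 618) (nat_lit 496) (nat_lit 446)) (XT.lf (nat_lit 0) (nat_lit 4501466437) (nat_lit 228) (nat_lit 1529775582) (nat_lit 304) (nat_lit 5784065697) (nat_lit 107) (nat_lit 5) (nat_lit 110) (nat_lit 5) (nat_lit 111) (nat_lit 5) (nat_lit 619) (nat_lit 496) (nat_lit 445))))) (XT.nd (nat_lit 156) (nat_lit 608) (nat_lit 0) (XT.nd (nat_lit 78) (nat_lit 76) (nat_lit 0) (XT.lf (nat_lit 0) (nat_lit 1781588066) (nat_lit 304) (nat_lit 8802649834) (nat_lit 380) (nat_lit 1359461067) (nat_lit 103) (nat_lit 5) (nat_lit 107) (nat_lit 5) (nat_lit 108) (nat_lit 5) (nat_lit 620) (nat_lit 496) (nat_lit 444)) (XT.lf (nat_lit 0) (nat_lit 3126640691) (nat_lit 380) (nat_lit 1023703540) (nat_lit 76) (nat_lit 7923618059) (nat_lit 102) (nat_lit 5) (nat_lit 107) (nat_lit 5) (nat_lit 103) (nat_lit 5) (nat_lit 621) (nat_lit 496) (nat_lit 443))) (XT.nd (nat_lit 78) (nat_lit 380) (nat_lit 0) (XT.lf (nat_lit 0) (nat_lit 7698102515) (nat_lit 304) (nat_lit 3888570601) (nat_lit 76) (nat_lit 619702264) (nat_lit 99) (nat_lit 5) (nat_lit 103) (nat_lit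 5) (nat_lit 100) (nat_lit 5) (nat_lit 622) (nat_lit 496) (nat_lit 442)) (XT.nd (nat_lit 76752) (nat_lit 0) (nat_lit 22952) (XT.lf (nat_lit 0) (nat_lit 45392193) (nat_lit 380) (nat_lit 6853889577) (nat_lit 76) (nat_lit 5441631593) (nat_lit 94) (nat_lit 5) (nat_lit 99) (nat_lit 5) (nat_lit 95) (nat_lit 5) (nat_lit 623) (nat_lit 496) (nat_lit 441)) (XT.lf (nat_lit 0) (nat_lit 142251215) (nat_lit 912) (nat_lit 3442869009) (nat_lit 0) (nat_lit 142251215) (nat_lit 396) (nat_lit 5) (nat_lit 408) (nat_lit 4) (nat_lit 396) (nat_lit 4) (nat_lit 566) (nat_lit 497) (nat_lit 497))))))) (XT.nd (nat_lit 780) (nat_lit 5092) (nat_lit 0) (XT.nd (nat_lit 390) (nat_lit 2888) (nat_lit 0) (XT.nd (nat_lit 156) (nat_lit 2280) (nat_lit 0) (XT.nd (nat_lit 78) (nat_lit 912) (nat_lit 0) (XT.lf (nat_lit 0) (nat_lit 3981524932) (nat_lit 912) (nat_lit 1015536611) (nat_lit 0) (nat_lit 2502413784) (nat_lit 396) (nat_lit 5) (nat_lit 408) (nat_lit 4) (nat_lit 396) (nat_lit 4) (nat_lit 567) (nat_lit 497) (nat_lit 496)) (XT.lf (nat_lit 0)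 (nat_lit 168870852) (nat_lit 912) (nat_lit 2588100993) (nat_lit 76) (nat_lit 4788824167) (nat_lit 384) (nat_lit 5) (nat_lit 396) (nat_lit 5) (nat_lit 385) (nat_lit 4) (nat_lit 568) (nat_lit 497) (nat_lit 495))) (XT.nd (nat_lit 78) (nat_lit 1520) (nat_lit 0) (XT.lf (nat_lit 0) (nat_lit 3414021580) (nat_lit 760) (nat_lit 429996813) (nat_lit 836) (nat_lit 3749330274) (nat_lit 374) (nat_lit 5) (nat_lit 384) (nat_lit 5) (nat_lit 385) (nat_lit 4) (nat_lit 569) (nat_lit 497) (nat_lit 494)) (XT.nd (nat_lit 78) (nat_lit 760) (nat_lit 0) (XT.lf (nat_lit 0) (nat_lit 1862047033) (nat_lit 760) (nat_lit 5706176330) (nat_lit 760) (nat_lit 74122364) (nat_lit 364) (nat_lit 4) (nat_lit 374) (nat_lit 5) (nat_lit 374) (nat_lit 4) (nat_lit 570) (nat_lit 497) (nat_lit 493)) (XT.lf (nat_lit 0) (nat_lit 286234317) (nat_lit 684) (nat_lit 3306817574) (nat_lit 760) (nat_lit 4099464850) (nat_lit 354) (nat_lit 5) (nat_lit 363) (nat_lit 5) (nat_lit 364) (nat_lit 4) (nat_lit 571) (nat_lit 497) (nat_lit 492))))) (XT.nd (nat_lit 156) (nat_lit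 2052) (nat_lit 0) (XT.nd (nat_lit 78) (nat_lit 836) (nat_lit 0) (XT.lf (nat_lit 0) (nat_lit 6472711718) (nat_lit 684) (nat_lit 833154911) (nat_lit 760) (nat_lit 438353143) (nat_lit 354) (nat_lit 5) (nat_lit 363) (nat_lit 5) (nat_lit 364) (nat_lit 4) (nat_lit 572) (nat_lit 497) (nat_lit 491)) (XT.lf (nat_lit 0) (nat_lit 3231492894) (nat_lit 836) (nat_lit 2857476646) (nat_lit 76) (nat_lit 1707988565) (nat_lit 343) (nat_lit 5) (nat_lit 354) (nat_lit 5) (nat_lit 344) (nat_lit 4) (nat_lit 573) (nat_lit 497) (nat_lit 490))) (XT.nd (nat_lit 78) (nat_lit 1368) (nat_lit 0) (XT.lf (nat_lit 0) (nat_lit 3398212369) (nat_lit 684) (nat_lit 3542856296) (nat_lit 760) (nat_lit 910184487) (nat_lit 334) (nat_lit 5) (nat_lit 343) (nat_lit 5) (nat_lit 344) (nat_lit 4) (nat_lit 574) (nat_lit 497) (nat_lit 489)) (XT.nd (nat_lit 78) (nat_lit 608) (nat_lit 0) (XT.lf (nat_lit 0) (nat_lit 1837621500) (nat_lit 684) (nat_lit 911200015) (nat_lit 760) (nat_lit 5158098807) (nat_lit 324) (nat_lit 5) (nat_lit 333) (nat_lit 5) (nat_lit 334)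 (nat_lit 5) (nat_lit 575) (nat_lit 497) (nat_lit 488)) (XT.lf (nat_lit 0) (nat_lit 256799162) (nat_lit 608) (nat_lit 6192270058) (nat_lit 684) (nat_lit 1514910027) (nat_lit 316) (nat_lit 5) (nat_lit 324) (nat_lit 5) (nat_lit 325) (nat_lit 4) (nat_lit 576) (nat_lit 497) (nat_lit 487)))))) (XT.nd (nat_lit 390) (nat_lit 2356) (nat_lit 0) (XT.nd (nat_lit 156) (nat_lit 1976) (nat_lit 0) (XT.nd (nat_lit 78) (nat_lit 684) (nat_lit 0) (XT.lf (nat_lit 0) (nat_lit 2156586849) (nat_lit 684) (nat_lit 1330766818) (nat_lit 76) (nat_lit 4534857178) (nat_lit 315) (nat_lit 5) (nat_lit 324) (nat_lit 5) (nat_lit 316) (nat_lit 5) (nat_lit 577) (nat_lit 497) (nat_lit 486)) (XT.lf (nat_lit 0) (nat_lit 5151790580) (nat_lit 684) (nat_lit 701416390) (nat_lit 760) (nat_lit 2228763779) (nat_lit 306) (nat_lit 5) (nat_lit 315) (nat_lit 5) (nat_lit 316) (nat_lit 5) (nat_lit 578) (nat_lit 497) (nat_lit 485))) (XT.nd (nat_lit 78) (nat_lit 1292) (nat_lit 0) (XT.lf (nat_lit 0) (nat_lit 1446617025) (nat_lit 684) (nat_lit 4559786445) (nat_lit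 76) (nat_lit 2136629361) (nat_lit 297) (nat_lit 5) (nat_lit 306) (nat_lit 5) (nat_lit 298) (nat_lit 5) (nat_lit 579) (nat_lit 497) (nat_lit 484)) (XT.nd (nat_lit 78) (nat_lit 684) (nat_lit 0) (XT.lf (nat_lit 0) (nat_lit 1988491955) (nat_lit 608) (nat_lit 3153919061) (nat_lit 684) (nat_lit 3063078822) (nat_lit 289) (nat_lit 5) (nat_lit 297) (nat_lit 5) (nat_lit 298) (nat_lit 5) (nat_lit 580) (nat_lit 497) (nat_lit 483)) (XT.lf (nat_lit 0) (nat_lit 381517400) (nat_lit 608) (nat_lit 225899401) (nat_lit 684) (nat_lit 7662240393) (nat_lit 280) (nat_lit 5) (nat_lit 288) (nat_lit 5) (nat_lit 289) (nat_lit 5) (nat_lit 581) (nat_lit 497) (nat_lit 482))))) (XT.nd (nat_lit 156) (nat_lit 1748) (nat_lit 0) (XT.nd (nat_lit 78) (nat_lit 608) (nat_lit 0) (XT.lf (nat_lit 0) (nat_lit 4310449593) (nat_lit 684) (nat_lit 1257094730) (nat_lit 76) (nat_lit 2767158908) (nat_lit 280) (nat_lit 5) (nat_lit 289) (nat_lit 5) (nat_lit 281) (nat_lit 5) (nat_lit 582) (nat_lit 497) (nat_lit 481)) (XT.lf (nat_lit 0) (nat_lit 5498153596)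 (nat_lit 608) (nat_lit 2567939748) (nat_lit 684) (nat_lit 335388888) (nat_lit 272) (nat_lit 5) (nat_lit 280) (nat_lit 5) (nat_lit 281) (nat_lit 5) (nat_lit 583) (nat_lit 497) (nat_lit 480))) (XT.nd (nat_lit 78) (nat_lit 1140) (nat_lit 0) (XT.lf (nat_lit 0) (nat_lit 3361059668) (nat_lit 608) (nat_lit 4587595187) (nat_lit 76) (nat_lit 520924739) (nat_lit 264) (nat_lit 5) (nat_lit 272) (nat_lit 5) (nat_lit 265) (nat_lit 5) (nat_lit 584) (nat_lit 497) (nat_lit 479)) (XT.nd (nat_lit 78) (nat_lit 608) (nat_lit 0) (XT.lf (nat_lit 0) (nat_lit 2233861169) (nat_lit 532) (nat_lit 4886317930) (nat_lit 608) (nat_lit 1418953685) (nat_lit 257) (nat_lit 5) (nat_lit 264) (nat_lit 5) (nat_lit 265) (nat_lit 5) (nat_lit 585) (nat_lit 497) (nat_lit 478)) (XT.lf (nat_lit 0) (nat_lit 556308327) (nat_lit 532) (nat_lit 1734294445) (nat_lit 608) (nat_lit 6319633675) (nat_lit 249) (nat_lit 5) (nat_lit 256) (nat_lit 5) (nat_lit 257) (nat_lit 5) (nat_lit 586) (nat_lit 497) (nat_lit 477))))))))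
noncomputable def xc21 : XT := (XT.nd (nat_lit 1560) (nat_lit 4332) (nat_lit 0) (XT.nd (nat_lit 780) (nat_lit 3344) (nat_lit 0) (XT.nd (nat_lit 390) (nat_lit 1900) (nat_lit 0) (XT.nd (nat_lit 156) (nat_lit 1520) (nat_lit 0) (XT.nd (nat_lit 78) (nat_lit 608) (nat_lit 0) (XT.lf (nat_lit 0) (nat_lit 6050387966) (nat_lit 608) (nat_lit 1141122805) (nat_lit 76) (nat_lit 1491165788) (nat_lit 249) (nat_lit 5) (nat_lit 257) (nat_lit 5) (nat_lit 250) (nat_lit 5) (nat_lit 587) (nat_lit 497) (nat_lit 476)) (XT.lf (nat_lit 0) (nat_lit 1107661285) (nat_lit 608) (nat_lit 2867115987) (nat_lit 76) (nat_lit 4781770977) (nat_lit 241) (nat_lit 5) (nat_lit 249) (nat_lit 5) (nat_lit 242) (nat_lit 5) (nat_lit 588) (nat_lit 497) (nat_lit 475))) (XT.nd (nat_lit 78) (nat_lit 1064) (nat_lit 0) (XT.lf (nat_lit 0) (nat_lit 4202808058) (nat_lit 456) (nat_lit 663539562) (nat_lit 532) (nat_lit 3965620642) (nat_lit 235) (nat_lit 5) (nat_lit 241) (nat_lit 5) (nat_lit 242) (nat_lit 5) (nat_lit 589) (nat_lit 497) (nat_lit 474)) (XT.nd (nat_lit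 78) (nat_lit 532) (nat_lit 0) (XT.lf (nat_lit 0) (nat_lit 2479669426) (nat_lit 532) (nat_lit 6218213700) (nat_lit 608) (nat_lit 211062542) (nat_lit 228) (nat_lit 5) (nat_lit 235) (nat_lit 5) (nat_lit 236) (nat_lit 5) (nat_lit 590) (nat_lit 497) (nat_lit 473)) (XT.lf (nat_lit 0) (nat_lit 707975183) (nat_lit 456) (nat_lit 2848209400) (nat_lit 532) (nat_lit 5431109432) (nat_lit 221) (nat_lit 5) (nat_lit 227) (nat_lit 5) (nat_lit 228) (nat_lit 5) (nat_lit 591) (nat_lit 497) (nat_lit 472))))) (XT.nd (nat_lit 156) (nat_lit 1368) (nat_lit 0) (XT.nd (nat_lit 78) (nat_lit 532) (nat_lit 0) (XT.lf (nat_lit 0) (nat_lit 7388411442) (nat_lit 532) (nat_lit 1076942890) (nat_lit 76) (nat_lit 601980234) (nat_lit 221) (nat_lit 5) (nat_lit 228) (nat_lit 5) (nat_lit 222) (nat_lit 5) (nat_lit 592) (nat_lit 497) (nat_lit 471)) (XT.lf (nat_lit 0) (nat_lit 2125912426) (nat_lit 532) (nat_lit 2908845899) (nat_lit 76) (nat_lit 4113825286) (nat_lit 214) (nat_lit 5) (nat_lit 221) (nat_lit 5) (nat_lit 215) (nat_lit 5) (nat_lit 593) (nat_lit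 497) (nat_lit 470))) (XT.nd (nat_lit 78) (nat_lit 912) (nat_lit 0) (XT.lf (nat_lit 0) (nat_lit 4454458336) (nat_lit 456) (nat_lit 1512592103) (nat_lit 532) (nat_lit 3264533735) (nat_lit 208) (nat_lit 5) (nat_lit 214) (nat_lit 5) (nat_lit 215) (nat_lit 5) (nat_lit 594) (nat_lit 497) (nat_lit 469)) (XT.nd (nat_lit 78) (nat_lit 380) (nat_lit 0) (XT.lf (nat_lit 0) (nat_lit 558363079) (nat_lit 532) (nat_lit 6689724301) (nat_lit 76) (nat_lit 2068144526) (nat_lit 201) (nat_lit 5) (nat_lit 208) (nat_lit 5) (nat_lit 202) (nat_lit 5) (nat_lit 595) (nat_lit 497) (nat_lit 468)) (XT.lf (nat_lit 0) (nat_lit 739490071) (nat_lit 380) (nat_lit 3668671207) (nat_lit 456) (nat_lit 4994098724) (nat_lit 196) (nat_lit 5) (nat_lit 201) (nat_lit 5) (nat_lit 202) (nat_lit 5) (nat_lit 596) (nat_lit 497) (nat_lit 467)))))) (XT.nd (nat_lit 390) (nat_lit 1596) (nat_lit 0) (XT.nd (nat_lit 156) (nat_lit 1216) (nat_lit 0) (XT.nd (nat_lit 78) (nat_lit 532) (nat_lit 0) (XT.lf (nat_lit 0) (nat_lit 8327411538) (nat_lit 456) (nat_lit 1161077805)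 (nat_lit 76) (nat_lit 1672250) (nat_lit 196) (nat_lit 5) (nat_lit 202) (nat_lit 5) (nat_lit 197) (nat_lit 5) (nat_lit 597) (nat_lit 497) (nat_lit 466)) (XT.lf (nat_lit 0) (nat_lit 2724053946) (nat_lit 532) (nat_lit 3124392540) (nat_lit 76) (nat_lit 3730723575) (nat_lit 189) (nat_lit 5) (nat_lit 196) (nat_lit 5) (nat_lit 190) (nat_lit 5) (nat_lit 598) (nat_lit 497) (nat_lit 465))) (XT.nd (nat_lit 78) (nat_lit 836) (nat_lit 0) (XT.lf (nat_lit 0) (nat_lit 4542346416) (nat_lit 380) (nat_lit 2116608524) (nat_lit 456) (nat_lit 3011133375) (nat_lit 184) (nat_lit 5) (nat_lit 189) (nat_lit 5) (nat_lit 190) (nat_lit 5) (nat_lit 599) (nat_lit 497) (nat_lit 464)) (XT.nd (nat_lit 78) (nat_lit 380) (nat_lit 0) (XT.lf (nat_lit 0) (nat_lit 895559839) (nat_lit 456) (nat_lit 7182275924) (nat_lit 76) (nat_lit 1684917656) (nat_lit 178) (nat_lit 5) (nat_lit 184) (nat_lit 5) (nat_lit 179) (nat_lit 5) (nat_lit 600) (nat_lit 497) (nat_lit 463)) (XT.lf (nat_lit 0) (nat_lit 549959925) (nat_lit 380) (nat_lit 4291437207) (nat_lit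 456) (nat_lit 5015451858) (nat_lit 173) (nat_lit 5) (nat_lit 178) (nat_lit 5) (nat_lit 179) (nat_lit 5) (nat_lit 601) (nat_lit 497) (nat_lit 462))))) (XT.nd (nat_lit 156) (nat_lit 1140) (nat_lit 0) (XT.nd (nat_lit 78) (nat_lit 456) (nat_lit 0) (XT.lf (nat_lit 0) (nat_lit 8455864894) (nat_lit 380) (nat_lit 408039141) (nat_lit 456) (nat_lit 1088969168) (nat_lit 173) (nat_lit 5) (nat_lit 178) (nat_lit 5) (nat_lit 179) (nat_lit 5) (nat_lit 602) (nat_lit 497) (nat_lit 461)) (XT.lf (nat_lit 0) (nat_lit 2893232062) (nat_lit 456) (nat_lit 3616524006) (nat_lit 76) (nat_lit 3540376226) (nat_lit 167) (nat_lit 5) (nat_lit 173) (nat_lit 5) (nat_lit 168) (nat_lit 5) (nat_lit 603) (nat_lit 497) (nat_lit 460))) (XT.nd (nat_lit 78) (nat_lit 760) (nat_lit 0) (XT.lf (nat_lit 0) (nat_lit 4363481905) (nat_lit 380) (nat_lit 2568685779) (nat_lit 456) (nat_lit 3217193169) (nat_lit 162) (nat_lit 5) (nat_lit 167) (nat_lit 5) (nat_lit 168) (nat_lit 5) (nat_lit 604) (nat_lit 497) (nat_lit 459)) (XT.nd (nat_lit 78) (nat_lit 304) (nat_lit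 0) (XT.lf (nat_lit 0) (nat_lit 790010429) (nat_lit 456) (nat_lit 8011967762) (nat_lit 76) (nat_lit 1448509127) (nat_lit 156) (nat_lit 5) (nat_lit 162) (nat_lit 5) (nat_lit 157) (nat_lit 5) (nat_lit 605) (nat_lit 497) (nat_lit 458)) (XT.lf (nat_lit 0) (nat_lit 32642580) (nat_lit 304) (nat_lit 4808919488) (nat_lit 380) (nat_lit 5511504873) (nat_lit 152) (nat_lit 5) (nat_lit 156) (nat_lit 5) (nat_lit 157) (nat_lit 5) (nat_lit 606) (nat_lit 497) (nat_lit 457))))))) (XT.nd (nat_lit 780) (nat_lit 1748) (nat_lit 0) (XT.nd (nat_lit 390) (nat_lit 1368) (nat_lit 0) (XT.nd (nat_lit 156) (nat_lit 760) (nat_lit 0) (XT.nd (nat_lit 78) (nat_lit 456) (nat_lit 0) (XT.lf (nat_lit 0) (nat_lit 8269077163) (nat_lit 304) (nat_lit 710225244) (nat_lit 380) (nat_lit 1478294152) (nat_lit 152) (nat_lit 5) (nat_lit 156) (nat_lit 5) (nat_lit 157) (nat_lit 5) (nat_lit 607) (nat_lit 497) (nat_lit 456)) (XT.lf (nat_lit 0) (nat_lit 2615317821) (nat_lit 456) (nat_lit 4494743589) (nat_lit 76) (nat_lit 3453528553) (nat_lit 146) (nat_lit 5)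 (nat_lit 152) (nat_lit 5) (nat_lit 147) (nat_lit 5) (nat_lit 608) (nat_lit 497) (nat_lit 455))) (XT.nd (nat_lit 78) (nat_lit 456) (nat_lit 0) (XT.lf (nat_lit 0) (nat_lit 3807918281) (nat_lit 304) (nat_lit 2959606024) (nat_lit 380) (nat_lit 3904054633) (nat_lit 142) (nat_lit 5) (nat_lit 146) (nat_lit 5) (nat_lit 147) (nat_lit 5) (nat_lit 609) (nat_lit 497) (nat_lit 454)) (XT.nd (nat_lit 78) (nat_lit 0) (nat_lit 0) (XT.lf (nat_lit 0) (nat_lit 218996637) (nat_lit 456) (nat_lit 9292941105) (nat_lit 76) (nat_lit 1269745684) (nat_lit 136) (nat_lit 5) (nat_lit 142) (nat_lit 5) (nat_lit 137) (nat_lit 5) (nat_lit 610) (nat_lit 497) (nat_lit 453)) (XT.lf (nat_lit 0) (nat_lit 4390901870) (nat_lit 456) (nat_lit 915016876) (nat_lit 76) (nat_lit 5587183160) (nat_lit 136) (nat_lit 5) (nat_lit 142) (nat_lit 5) (nat_lit 137) (nat_lit 5) (nat_lit 611) (nat_lit 497) (nat_lit 452))))) (XT.nd (nat_lit 156) (nat_lit 684) (nat_lit 0) (XT.nd (nat_lit 78) (nat_lit 380) (nat_lit 0) (XT.lf (nat_lit 0) (nat_lit 7654959653) (nat_lit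 304) (nat_lit 994570475) (nat_lit 380) (nat_lit 2357154283) (nat_lit 132) (nat_lit 5) (nat_lit 136) (nat_lit 5) (nat_lit 137) (nat_lit 5) (nat_lit 612) (nat_lit 497) (nat_lit 451)) (XT.lf (nat_lit 0) (nat_lit 1862583598) (nat_lit 380) (nat_lit 5877468086) (nat_lit 76) (nat_lit 3381918716) (nat_lit 127) (nat_lit 5) (nat_lit 132) (nat_lit 5) (nat_lit 128) (nat_lit 5) (nat_lit 613) (nat_lit 497) (nat_lit 450))) (XT.nd (nat_lit 78) (nat_lit 380) (nat_lit 0) (XT.lf (nat_lit 0) (nat_lit 2756535790) (nat_lit 304) (nat_lit 3379695882) (nat_lit 380) (nat_lit 5102998541) (nat_lit 123) (nat_lit 5) (nat_lit 127) (nat_lit 5) (nat_lit 128) (nat_lit 5) (nat_lit 614) (nat_lit 497) (nat_lit 449)) (XT.nd (nat_lit 78) (nat_lit 76) (nat_lit 0) (XT.lf (nat_lit 0) (nat_lit 203859455) (nat_lit 304) (nat_lit 10293592246) (nat_lit 380) (nat_lit 861342794) (nat_lit 119) (nat_lit 5) (nat_lit 123) (nat_lit 5) (nat_lit 124) (nat_lit 5) (nat_lit 615) (nat_lit 497) (nat_lit 448)) (XT.lf (nat_lit 0) (nat_lit 3453626261) (nat_lit 380)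 (nat_lit 2422309014) (nat_lit 76) (nat_lit 5603687504) (nat_lit 118) (nat_lit 5) (nat_lit 123) (nat_lit 5) (nat_lit 119) (nat_lit 5) (nat_lit 616) (nat_lit 497) (nat_lit 447)))))) (XT.nd (nat_lit 390) (nat_lit 532) (nat_lit 0) (XT.nd (nat_lit 156) (nat_lit 608) (nat_lit 0) (XT.nd (nat_lit 78) (nat_lit 380) (nat_lit 0) (XT.lf (nat_lit 0) (nat_lit 6489305158) (nat_lit 228) (nat_lit 1351340793) (nat_lit 304) (nat_lit 3762163296) (nat_lit 115) (nat_lit 5) (nat_lit 118) (nat_lit 5) (nat_lit 119) (nat_lit 5) (nat_lit 617) (nat_lit 497) (nat_lit 446)) (XT.lf (nat_lit 0) (nat_lit 597175729) (nat_lit 380) (nat_lit 7894417484) (nat_lit 76) (nat_lit 3236432605) (nat_lit 110) (nat_lit 5) (nat_lit 115) (nat_lit 5) (nat_lit 111) (nat_lit 5) (nat_lit 618) (nat_lit 497) (nat_lit 445))) (XT.nd (nat_lit 78) (nat_lit 380) (nat_lit 0) (XT.lf (nat_lit 0) (nat_lit 1078604328) (nat_lit 228) (nat_lit 3920699545) (nat_lit 304) (nat_lit 6855827048) (nat_lit 107) (nat_lit 5) (nat_lit 110) (nat_lit 5) (nat_lit 111) (nat_lit 5) (nat_lit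 619) (nat_lit 497) (nat_lit 444)) (XT.nd (nat_lit 78) (nat_lit 380) (nat_lit 0) (XT.lf (nat_lit 0) (nat_lit 9503241286) (nat_lit 304) (nat_lit 1726344171) (nat_lit 76) (nat_lit 754918422) (nat_lit 107) (nat_lit 5) (nat_lit 111) (nat_lit 5) (nat_lit 108) (nat_lit 5) (nat_lit 620) (nat_lit 497) (nat_lit 443)) (XT.lf (nat_lit 0) (nat_lit 1986196032) (nat_lit 380) (nat_lit 4625701675) (nat_lit 76) (nat_lit 5503682798) (nat_lit 102) (nat_lit 5) (nat_lit 107) (nat_lit 5) (nat_lit 103) (nat_lit 5) (nat_lit 621) (nat_lit 497) (nat_lit 442))))) (XT.nd (nat_lit 76752) (nat_lit 0) (nat_lit 22876) (XT.nd (nat_lit 78) (nat_lit 304) (nat_lit 0) (XT.lf (nat_lit 0) (nat_lit 4634892574) (nat_lit 228) (nat_lit 1873256230) (nat_lit 304) (nat_lit 5740835481) (nat_lit 99) (nat_lit 5) (nat_lit 102) (nat_lit 5) (nat_lit 103) (nat_lit 5) (nat_lit 622) (nat_lit 497) (nat_lit 441)) (XT.nd (nat_lit 76596) (nat_lit 0) (nat_lit 24624) (XT.lf (nat_lit 0) (nat_lit 1687329382) (nat_lit 304) (nat_lit 9451390135) (nat_lit 380) (nat_lit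 1245974051) (nat_lit 95) (nat_lit 5) (nat_lit 99) (nat_lit 5) (nat_lit 100) (nat_lit 5) (nat_lit 623) (nat_lit 497) (nat_lit 440)) (XT.lf (nat_lit 0) (nat_lit 937762236) (nat_lit 912) (nat_lit 1808426284) (nat_lit 0) (nat_lit 937762236) (nat_lit 419) (nat_lit 5) (nat_lit 431) (nat_lit 4) (nat_lit 419) (nat_lit 4) (nat_lit 564) (nat_lit 498) (nat_lit 498)))) (XT.nd (nat_lit 78) (nat_lit 912) (nat_lit 0) (XT.lf (nat_lit 0) (nat_lit 2138911319) (nat_lit 836) (nat_lit 3405410164) (nat_lit 836) (nat_lit 1866542926) (nat_lit 408) (nat_lit 4) (nat_lit 419) (nat_lit 5) (nat_lit 419) (nat_lit 4) (nat_lit 565) (nat_lit 498) (nat_lit 497)) (XT.nd (nat_lit 78) (nat_lit 0) (nat_lit 0) (XT.lf (nat_lit 0) (nat_lit 521919665) (nat_lit 836) (nat_lit 1245149777) (nat_lit 912) (nat_lit 5688198343) (nat_lit 396) (nat_lit 5) (nat_lit 407) (nat_lit 5) (nat_lit 408) (nat_lit 4) (nat_lit 566) (nat_lit 498) (nat_lit 496)) (XT.lf (nat_lit 0) (nat_lit 5422467708) (nat_lit 912) (nat_lit 1093813125) (nat_lit 0) (nat_lit 984554221)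 (nat_lit 396) (nat_lit 5) (nat_lit 408) (nat_lit 4) (nat_lit 396) (nat_lit 4) (nat_lit 567) (nat_lit 498) (nat_lit 495))))))))
noncomputable def xc22 : XT := (XT.nd (nat_lit 1560) (nat_lit 7828) (nat_lit 0) (XT.nd (nat_lit 780) (nat_lit 5016) (nat_lit 0) (XT.nd (nat_lit 390) (nat_lit 2888) (nat_lit 0) (XT.nd (nat_lit 156) (nat_lit 1596) (nat_lit 0) (XT.nd (nat_lit 78) (nat_lit 760) (nat_lit 0) (XT.lf (nat_lit 0) (nat_lit 1555701253) (nat_lit 912) (nat_lit 2717072413) (nat_lit 76) (nat_lit 3274874827) (nat_lit 384) (nat_lit 5) (nat_lit 396) (nat_lit 5) (nat_lit 385) (nat_lit 4) (nat_lit 568) (nat_lit 498) (nat_lit 494)) (XT.lf (nat_lit 0) (nat_lit 3244651081) (nat_lit 760) (nat_lit 1952398174) (nat_lit 836) (nat_lit 2398830083) (nat_lit 374) (nat_lit 5) (nat_lit 384) (nat_lit 5) (nat_lit 385) (nat_lit 4) (nat_lit 569) (nat_lit 498) (nat_lit 493))) (XT.nd (nat_lit 78) (nat_lit 760) (nat_lit 0) (XT.lf (nat_lit 0) (nat_lit 1215802070) (nat_lit 836) (nat_lit 5994921470) (nat_lit 76) (nat_lit 434865949) (nat_lit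 363) (nat_lit 5) (nat_lit 374) (nat_lit 5) (nat_lit 364) (nat_lit 4) (nat_lit 570) (nat_lit 498) (nat_lit 492)) (XT.nd (nat_lit 78) (nat_lit 76) (nat_lit 0) (XT.lf (nat_lit 0) (nat_lit 29042789) (nat_lit 684) (nat_lit 4819121968) (nat_lit 760) (nat_lit 2848264980) (nat_lit 354) (nat_lit 5) (nat_lit 363) (nat_lit 5) (nat_lit 364) (nat_lit 4) (nat_lit 571) (nat_lit 498) (nat_lit 491)) (XT.lf (nat_lit 0) (nat_lit 770185058) (nat_lit 760) (nat_lit 1576777076) (nat_lit 76) (nat_lit 5401707097) (nat_lit 353) (nat_lit 5) (nat_lit 363) (nat_lit 5) (nat_lit 354) (nat_lit 5) (nat_lit 572) (nat_lit 498) (nat_lit 490))))) (XT.nd (nat_lit 156) (nat_lit 1368) (nat_lit 0) (XT.nd (nat_lit 78) (nat_lit 760) (nat_lit 0) (XT.lf (nat_lit 0) (nat_lit 4390761849) (nat_lit 836) (nat_lit 3203516368) (nat_lit 76) (nat_lit 207944782) (nat_lit 343) (nat_lit 5) (nat_lit 354) (nat_lit 5) (nat_lit 344) (nat_lit 4) (nat_lit 573) (nat_lit 498) (nat_lit 489)) (XT.lf (nat_lit 0) (nat_lit 206819128) (nat_lit 760) (nat_lit 4849940265) (nat_lit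 76) (nat_lit 2800404924) (nat_lit 333) (nat_lit 5) (nat_lit 343) (nat_lit 5) (nat_lit 334) (nat_lit 5) (nat_lit 574) (nat_lit 498) (nat_lit 488))) (XT.nd (nat_lit 78) (nat_lit 684) (nat_lit 0) (XT.lf (nat_lit 0) (nat_lit 1390335789) (nat_lit 684) (nat_lit 2429754845) (nat_lit 760) (nat_lit 4093300448) (nat_lit 324) (nat_lit 5) (nat_lit 333) (nat_lit 5) (nat_lit 334) (nat_lit 5) (nat_lit 575) (nat_lit 498) (nat_lit 487)) (XT.nd (nat_lit 78) (nat_lit 684) (nat_lit 0) (XT.lf (nat_lit 0) (nat_lit 7478224315) (nat_lit 760) (nat_lit 229384032) (nat_lit 76) (nat_lit 263685745) (nat_lit 324) (nat_lit 5) (nat_lit 334) (nat_lit 5) (nat_lit 325) (nat_lit 4) (nat_lit 576) (nat_lit 498) (nat_lit 486)) (XT.lf (nat_lit 0) (nat_lit 3133065860) (nat_lit 684) (nat_lit 1873036358) (nat_lit 76) (nat_lit 3023931710) (nat_lit 315) (nat_lit 5) (nat_lit 324) (nat_lit 5) (nat_lit 316) (nat_lit 5) (nat_lit 577) (nat_lit 498) (nat_lit 485)))))) (XT.nd (nat_lit 390) (nat_lit 2356) (nat_lit 0) (XT.nd (nat_lit 156) (nat_lit 1292) (nat_lit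 0) (XT.nd (nat_lit 78) (nat_lit 684) (nat_lit 0) (XT.lf (nat_lit 0) (nat_lit 4563503139) (nat_lit 684) (nat_lit 2232519642) (nat_lit 760) (nat_lit 1294446014) (nat_lit 306) (nat_lit 5) (nat_lit 315) (nat_lit 5) (nat_lit 316) (nat_lit 5) (nat_lit 578) (nat_lit 498) (nat_lit 484)) (XT.lf (nat_lit 0) (nat_lit 2324773924) (nat_lit 684) (nat_lit 5208678755) (nat_lit 76) (nat_lit 618836650) (nat_lit 297) (nat_lit 5) (nat_lit 306) (nat_lit 5) (nat_lit 298) (nat_lit 5) (nat_lit 579) (nat_lit 498) (nat_lit 483))) (XT.nd (nat_lit 78) (nat_lit 684) (nat_lit 0) (XT.lf (nat_lit 0) (nat_lit 1291736060) (nat_lit 608) (nat_lit 4694882603) (nat_lit 684) (nat_lit 2228808261) (nat_lit 289) (nat_lit 5) (nat_lit 297) (nat_lit 5) (nat_lit 298) (nat_lit 5) (nat_lit 580) (nat_lit 498) (nat_lit 482)) (XT.nd (nat_lit 78) (nat_lit 608) (nat_lit 0) (XT.lf (nat_lit 0) (nat_lit 1398976178) (nat_lit 684) (nat_lit 374457442) (nat_lit 76) (nat_lit 6506689259) (nat_lit 288) (nat_lit 5) (nat_lit 297) (nat_lit 5) (nat_lit 289) (nat_lit 5)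 (nat_lit 581) (nat_lit 498) (nat_lit 481)) (XT.lf (nat_lit 0) (nat_lit 5060450125) (nat_lit 684) (nat_lit 2057621140) (nat_lit 76) (nat_lit 1227930338) (nat_lit 280) (nat_lit 5) (nat_lit 289) (nat_lit 5) (nat_lit 281) (nat_lit 5) (nat_lit 582) (nat_lit 498) (nat_lit 480))))) (XT.nd (nat_lit 156) (nat_lit 1140) (nat_lit 0) (XT.nd (nat_lit 78) (nat_lit 532) (nat_lit 0) (XT.lf (nat_lit 0) (nat_lit 363816141) (nat_lit 684) (nat_lit 3767733429) (nat_lit 76) (nat_lit 4281864265) (nat_lit 271) (nat_lit 5) (nat_lit 280) (nat_lit 5) (nat_lit 272) (nat_lit 5) (nat_lit 583) (nat_lit 498) (nat_lit 479)) (XT.lf (nat_lit 0) (nat_lit 2968387139) (nat_lit 532) (nat_lit 1049758043) (nat_lit 608) (nat_lit 4464078304) (nat_lit 264) (nat_lit 5) (nat_lit 271) (nat_lit 5) (nat_lit 272) (nat_lit 5) (nat_lit 584) (nat_lit 498) (nat_lit 478))) (XT.nd (nat_lit 78) (nat_lit 608) (nat_lit 0) (XT.lf (nat_lit 0) (nat_lit 1262977019) (nat_lit 532) (nat_lit 6473070177) (nat_lit 608) (nat_lit 816555222) (nat_lit 257) (nat_lit 5) (nat_lit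 264) (nat_lit 5) (nat_lit 265) (nat_lit 5) (nat_lit 585) (nat_lit 498) (nat_lit 477)) (XT.nd (nat_lit 78) (nat_lit 532) (nat_lit 0) (XT.lf (nat_lit 0) (nat_lit 2853506412) (nat_lit 608) (nat_lit 478096545) (nat_lit 76) (nat_lit 5292658128) (nat_lit 256) (nat_lit 5) (nat_lit 264) (nat_lit 5) (nat_lit 257) (nat_lit 5) (nat_lit 586) (nat_lit 498) (nat_lit 476)) (XT.lf (nat_lit 0) (nat_lit 6472213455) (nat_lit 532) (nat_lit 100438272) (nat_lit 608) (nat_lit 2124863580) (nat_lit 249) (nat_lit 5) (nat_lit 256) (nat_lit 5) (nat_lit 257) (nat_lit 5) (nat_lit 587) (nat_lit 498) (nat_lit 475))))))) (XT.nd (nat_lit 780) (nat_lit 3800) (nat_lit 0) (XT.nd (nat_lit 390) (nat_lit 1900) (nat_lit 0) (XT.nd (nat_lit 156) (nat_lit 1064) (nat_lit 0) (XT.nd (nat_lit 78) (nat_lit 456) (nat_lit 0) (XT.lf (nat_lit 0) (nat_lit 1572953277) (nat_lit 608) (nat_lit 4022463892) (nat_lit 76) (nat_lit 3176614763) (nat_lit 241) (nat_lit 5) (nat_lit 249) (nat_lit 5) (nat_lit 242) (nat_lit 5) (nat_lit 588) (nat_lit 498) (nat_lit 474)) (XT.lf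 (nat_lit 0) (nat_lit 2993179887) (nat_lit 456) (nat_lit 2303502150) (nat_lit 532) (nat_lit 3551470298) (nat_lit 235) (nat_lit 5) (nat_lit 241) (nat_lit 5) (nat_lit 242) (nat_lit 5) (nat_lit 589) (nat_lit 498) (nat_lit 473))) (XT.nd (nat_lit 78) (nat_lit 456) (nat_lit 0) (XT.lf (nat_lit 0) (nat_lit 154329625) (nat_lit 608) (nat_lit 7717846423) (nat_lit 76) (nat_lit 1053850404) (nat_lit 227) (nat_lit 5) (nat_lit 235) (nat_lit 5) (nat_lit 228) (nat_lit 5) (nat_lit 590) (nat_lit 498) (nat_lit 472)) (XT.nd (nat_lit 78) (nat_lit 456) (nat_lit 0) (XT.lf (nat_lit 0) (nat_lit 3887418890) (nat_lit 608) (nat_lit 629980699) (nat_lit 76) (nat_lit 4487576765) (nat_lit 227) (nat_lit 5) (nat_lit 235) (nat_lit 5) (nat_lit 228) (nat_lit 5) (nat_lit 591) (nat_lit 498) (nat_lit 471)) (XT.lf (nat_lit 0) (nat_lit 6609627967) (nat_lit 456) (nat_lit 1075395229) (nat_lit 532) (nat_lit 1400687305) (nat_lit 221) (nat_lit 5) (nat_lit 227) (nat_lit 5) (nat_lit 228) (nat_lit 5) (nat_lit 592) (nat_lit 498) (nat_lit 470))))) (XT.nd (nat_lit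 156) (nat_lit 912) (nat_lit 0) (XT.nd (nat_lit 78) (nat_lit 456) (nat_lit 0) (XT.lf (nat_lit 0) (nat_lit 2357750883) (nat_lit 532) (nat_lit 4378929095) (nat_lit 76) (nat_lit 2431099502) (nat_lit 214) (nat_lit 5) (nat_lit 221) (nat_lit 5) (nat_lit 215) (nat_lit 5) (nat_lit 593) (nat_lit 498) (nat_lit 469)) (XT.lf (nat_lit 0) (nat_lit 2926068923) (nat_lit 456) (nat_lit 3236916024) (nat_lit 532) (nat_lit 3088514254) (nat_lit 208) (nat_lit 5) (nat_lit 214) (nat_lit 5) (nat_lit 215) (nat_lit 5) (nat_lit 594) (nat_lit 498) (nat_lit 468))) (XT.nd (nat_lit 78) (nat_lit 380) (nat_lit 0) (XT.lf (nat_lit 0) (nat_lit 684400620) (nat_lit 532) (nat_lit 8307909033) (nat_lit 76) (nat_lit 344768928) (nat_lit 201) (nat_lit 5) (nat_lit 208) (nat_lit 5) (nat_lit 202) (nat_lit 5) (nat_lit 595) (nat_lit 498) (nat_lit 467)) (XT.nd (nat_lit 78) (nat_lit 380) (nat_lit 0) (XT.lf (nat_lit 0) (nat_lit 4503687476) (nat_lit 532) (nat_lit 926927977) (nat_lit 76) (nat_lit 3993102468) (nat_lit 201) (nat_lit 5) (nat_lit 208) (nat_lit 5)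 (nat_lit 202) (nat_lit 5) (nat_lit 596) (nat_lit 498) (nat_lit 466)) (XT.lf (nat_lit 0) (nat_lit 6612077322) (nat_lit 380) (nat_lit 1779296688) (nat_lit 456) (nat_lit 1120877772) (nat_lit 196) (nat_lit 5) (nat_lit 201) (nat_lit 5) (nat_lit 202) (nat_lit 5) (nat_lit 597) (nat_lit 498) (nat_lit 465)))))) (XT.nd (nat_lit 390) (nat_lit 2052) (nat_lit 0) (XT.nd (nat_lit 156) (nat_lit 836) (nat_lit 0) (XT.nd (nat_lit 78) (nat_lit 380) (nat_lit 0) (XT.lf (nat_lit 0) (nat_lit 2716852355) (nat_lit 532) (nat_lit 4936356253) (nat_lit 76) (nat_lit 1949017656) (nat_lit 189) (nat_lit 5) (nat_lit 196) (nat_lit 5) (nat_lit 190) (nat_lit 5) (nat_lit 598) (nat_lit 498) (nat_lit 464)) (XT.lf (nat_lit 0) (nat_lit 2667765228) (nat_lit 380) (nat_lit 3946861074) (nat_lit 456) (nat_lit 3079261695) (nat_lit 184) (nat_lit 5) (nat_lit 189) (nat_lit 5) (nat_lit 190) (nat_lit 5) (nat_lit 599) (nat_lit 498) (nat_lit 463))) (XT.nd (nat_lit 78) (nat_lit 380) (nat_lit 0) (XT.lf (nat_lit 0) (nat_lit 630003241) (nat_lit 380) (nat_lit 149623069)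 (nat_lit 456) (nat_lit 9007910514) (nat_lit 178) (nat_lit 5) (nat_lit 183) (nat_lit 5) (nat_lit 184) (nat_lit 5) (nat_lit 600) (nat_lit 498) (nat_lit 462)) (XT.nd (nat_lit 78) (nat_lit 380) (nat_lit 0) (XT.lf (nat_lit 0) (nat_lit 4696200955) (nat_lit 456) (nat_lit 1469809345) (nat_lit 76) (nat_lit 3716208235) (nat_lit 178) (nat_lit 5) (nat_lit 184) (nat_lit 5) (nat_lit 179) (nat_lit 5) (nat_lit 601) (nat_lit 498) (nat_lit 461)) (XT.lf (nat_lit 0) (nat_lit 6378544169) (nat_lit 380) (nat_lit 2306011271) (nat_lit 456) (nat_lit 1294371222) (nat_lit 173) (nat_lit 5) (nat_lit 178) (nat_lit 5) (nat_lit 179) (nat_lit 5) (nat_lit 602) (nat_lit 498) (nat_lit 460))))) (XT.nd (nat_lit 234) (nat_lit 1140) (nat_lit 0) (XT.nd (nat_lit 78) (nat_lit 456) (nat_lit 0) (XT.lf (nat_lit 0) (nat_lit 2639772818) (nat_lit 456) (nat_lit 5798927736) (nat_lit 76) (nat_lit 1638527726) (nat_lit 167) (nat_lit 5) (nat_lit 173) (nat_lit 5) (nat_lit 168) (nat_lit 5) (nat_lit 603) (nat_lit 498) (nat_lit 459)) (XT.nd (nat_lit 78) (nat_lit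 76) (nat_lit 0) (XT.lf (nat_lit 0) (nat_lit 2113833699) (nat_lit 380) (nat_lit 4526250346) (nat_lit 456) (nat_lit 3537146100) (nat_lit 162) (nat_lit 5) (nat_lit 167) (nat_lit 5) (nat_lit 168) (nat_lit 5) (nat_lit 604) (nat_lit 498) (nat_lit 458)) (XT.lf (nat_lit 0) (nat_lit 426178002) (nat_lit 456) (nat_lit 94497106) (nat_lit 76) (nat_lit 9758685349) (nat_lit 161) (nat_lit 5) (nat_lit 167) (nat_lit 5) (nat_lit 162) (nat_lit 5) (nat_lit 605) (nat_lit 498) (nat_lit 457)))) (XT.nd (nat_lit 78) (nat_lit 760) (nat_lit 0) (XT.lf (nat_lit 0) (nat_lit 4449698182) (nat_lit 456) (nat_lit 2365506232) (nat_lit 76) (nat_lit 3567297065) (nat_lit 156) (nat_lit 5) (nat_lit 162) (nat_lit 5) (nat_lit 157) (nat_lit 5) (nat_lit 606) (nat_lit 498) (nat_lit 456)) (XT.nd (nat_lit 78) (nat_lit 456) (nat_lit 0) (XT.lf (nat_lit 0) (nat_lit 5801794337) (nat_lit 304) (nat_lit 2746490663) (nat_lit 380) (nat_lit 1939529922) (nat_lit 152) (nat_lit 5) (nat_lit 156) (nat_lit 5) (nat_lit 157) (nat_lit 5) (nat_lit 607) (nat_lit 498) (nat_lit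 455)) (XT.lf (nat_lit 0) (nat_lit 2106750781) (nat_lit 456) (nat_lit 7077800756) (nat_lit 76) (nat_lit 1410385017) (nat_lit 146) (nat_lit 5) (nat_lit 152) (nat_lit 5) (nat_lit 147) (nat_lit 5) (nat_lit 608) (nat_lit 498) (nat_lit 454))))))))
noncomputable def xc23 : XT := (XT.nd (nat_lit 77922) (nat_lit 0) (nat_lit 11400) (XT.nd (nat_lit 780) (nat_lit 912) (nat_lit 0) (XT.nd (nat_lit 390) (nat_lit 1216) (nat_lit 0) (XT.nd (nat_lit 156) (nat_lit 1140) (nat_lit 0) (XT.nd (nat_lit 78) (nat_lit 0) (nat_lit 0) (XT.lf (nat_lit 0) (nat_lit 1152641814) (nat_lit 304) (nat_lit 5065918839) (nat_lit 380) (nat_lit 4485173518) (nat_lit 142) (nat_lit 5) (nat_lit 146) (nat_lit 5) (nat_lit 147) (nat_lit 5) (nat_lit 609) (nat_lit 498) (nat_lit 453)) (XT.lf (nat_lit 0) (nat_lit 9568594007) (nat_lit 304) (nat_lit 845161735) (nat_lit 380) (nat_lit 400930428) (nat_lit 142) (nat_lit 5) (nat_lit 146) (nat_lit 5) (nat_lit 147) (nat_lit 5) (nat_lit 610) (nat_lit 498) (nat_lit 452))) (XT.nd (nat_lit 78) (nat_lit 684) (nat_lit 0)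 (XT.lf (nat_lit 0) (nat_lit 3739515168) (nat_lit 456) (nat_lit 3729008651) (nat_lit 76) (nat_lit 3458367922) (nat_lit 136) (nat_lit 5) (nat_lit 142) (nat_lit 5) (nat_lit 137) (nat_lit 5) (nat_lit 611) (nat_lit 498) (nat_lit 451)) (XT.nd (nat_lit 78) (nat_lit 380) (nat_lit 0) (XT.lf (nat_lit 0) (nat_lit 4766243193) (nat_lit 304) (nat_lit 3190617030) (nat_lit 380) (nat_lit 3084440344) (nat_lit 132) (nat_lit 5) (nat_lit 136) (nat_lit 5) (nat_lit 137) (nat_lit 5) (nat_lit 612) (nat_lit 498) (nat_lit 450)) (XT.lf (nat_lit 0) (nat_lit 1088407925) (nat_lit 380) (nat_lit 8893289040) (nat_lit 76) (nat_lit 1176113225) (nat_lit 127) (nat_lit 5) (nat_lit 132) (nat_lit 5) (nat_lit 128) (nat_lit 5) (nat_lit 613) (nat_lit 498) (nat_lit 449))))) (XT.nd (nat_lit 156) (nat_lit 912) (nat_lit 0) (XT.nd (nat_lit 78) (nat_lit 304) (nat_lit 0) (XT.lf (nat_lit 0) (nat_lit 5321795909) (nat_lit 380) (nat_lit 332443078) (nat_lit 76) (nat_lit 5621636838) (nat_lit 127) (nat_lit 5) (nat_lit 132) (nat_lit 5) (nat_lit 128) (nat_lit 5)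 (nat_lit 614) (nat_lit 498) (nat_lit 448)) (XT.lf (nat_lit 0) (nat_lit 8436987096) (nat_lit 304) (nat_lit 1213355893) (nat_lit 380) (nat_lit 1745751182) (nat_lit 123) (nat_lit 5) (nat_lit 127) (nat_lit 5) (nat_lit 128) (nat_lit 5) (nat_lit 615) (nat_lit 498) (nat_lit 447))) (XT.nd (nat_lit 78) (nat_lit 532) (nat_lit 0) (XT.lf (nat_lit 0) (nat_lit 2531134964) (nat_lit 380) (nat_lit 5685703187) (nat_lit 76) (nat_lit 3301193374) (nat_lit 118) (nat_lit 5) (nat_lit 123) (nat_lit 5) (nat_lit 119) (nat_lit 5) (nat_lit 616) (nat_lit 498) (nat_lit 446)) (XT.nd (nat_lit 78) (nat_lit 304) (nat_lit 0) (XT.lf (nat_lit 0) (nat_lit 3145624051) (nat_lit 228) (nat_lit 3729049210) (nat_lit 304) (nat_lit 4767414932) (nat_lit 115) (nat_lit 5) (nat_lit 118) (nat_lit 5) (nat_lit 119) (nat_lit 5) (nat_lit 617) (nat_lit 498) (nat_lit 445)) (XT.lf (nat_lit 0) (nat_lit 388323685) (nat_lit 304) (nat_lit 10919412172) (nat_lit 380) (nat_lit 460838199) (nat_lit 111) (nat_lit 5) (nat_lit 115) (nat_lit 5) (nat_lit 116) (nat_lit 5) (nat_lit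 618) (nat_lit 498) (nat_lit 444)))))) (XT.nd (nat_lit 76752) (nat_lit 0) (nat_lit 22572) (XT.nd (nat_lit 156) (nat_lit 608) (nat_lit 0) (XT.nd (nat_lit 78) (nat_lit 228) (nat_lit 0) (XT.lf (nat_lit 0) (nat_lit 3918702469) (nat_lit 380) (nat_lit 2454961748) (nat_lit 76) (nat_lit 5522647950) (nat_lit 110) (nat_lit 5) (nat_lit 115) (nat_lit 5) (nat_lit 111) (nat_lit 5) (nat_lit 619) (nat_lit 498) (nat_lit 443)) (XT.lf (nat_lit 0) (nat_lit 6660695867) (nat_lit 228) (nat_lit 1719386099) (nat_lit 304) (nat_lit 3646454846) (nat_lit 107) (nat_lit 5) (nat_lit 110) (nat_lit 5) (nat_lit 111) (nat_lit 5) (nat_lit 620) (nat_lit 498) (nat_lit 442))) (XT.nd (nat_lit 78) (nat_lit 228) (nat_lit 0) (XT.lf (nat_lit 0) (nat_lit 779526308) (nat_lit 380) (nat_lit 8373906098) (nat_lit 76) (nat_lit 3005468028) (nat_lit 102) (nat_lit 5) (nat_lit 107) (nat_lit 5) (nat_lit 103) (nat_lit 5) (nat_lit 621) (nat_lit 498) (nat_lit 441)) (XT.nd (nat_lit 78) (nat_lit 0) (nat_lit 0) (XT.lf (nat_lit 0) (nat_lit 800402037) (nat_lit 228) (nat_lit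 4455109267) (nat_lit 304) (nat_lit 7037712764) (nat_lit 99) (nat_lit 5) (nat_lit 102) (nat_lit 5) (nat_lit 103) (nat_lit 5) (nat_lit 622) (nat_lit 498) (nat_lit 440)) (XT.lf (nat_lit 0) (nat_lit 9837376395) (nat_lit 304) (nat_lit 2232848494) (nat_lit 76) (nat_lit 359683063) (nat_lit 99) (nat_lit 5) (nat_lit 103) (nat_lit 5) (nat_lit 100) (nat_lit 5) (nat_lit 623) (nat_lit 498) (nat_lit 439))))) (XT.nd (nat_lit 156) (nat_lit 2660) (nat_lit 0) (XT.nd (nat_lit 78) (nat_lit 912) (nat_lit 0) (XT.lf (nat_lit 0) (nat_lit 1746696617) (nat_lit 988) (nat_lit 149251286) (nat_lit 0) (nat_lit 1746696617) (nat_lit 443) (nat_lit 5) (nat_lit 456) (nat_lit 4) (nat_lit 443) (nat_lit 4) (nat_lit 562) (nat_lit 499) (nat_lit 499)) (XT.lf (nat_lit 0) (nat_lit 5358422548) (nat_lit 912) (nat_lit 1784481997) (nat_lit 912) (nat_lit 183444522) (nat_lit 431) (nat_lit 4) (nat_lit 443) (nat_lit 5) (nat_lit 443) (nat_lit 4) (nat_lit 563) (nat_lit 499) (nat_lit 498))) (XT.nd (nat_lit 78) (nat_lit 1748) (nat_lit 0) (XT.lf (nat_lit 0) (nat_lit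 3411043766) (nat_lit 912) (nat_lit 3655010783) (nat_lit 0) (nat_lit 302531945) (nat_lit 419) (nat_lit 5) (nat_lit 431) (nat_lit 4) (nat_lit 419) (nat_lit 4) (nat_lit 564) (nat_lit 499) (nat_lit 497)) (XT.nd (nat_lit 78) (nat_lit 912) (nat_lit 0) (XT.lf (nat_lit 0) (nat_lit 2062338827) (nat_lit 836) (nat_lit 4983548626) (nat_lit 836) (nat_lit 366343434) (nat_lit 408) (nat_lit 4) (nat_lit 419) (nat_lit 5) (nat_lit 419) (nat_lit 4) (nat_lit 565) (nat_lit 499) (nat_lit 496)) (XT.lf (nat_lit 0) (nat_lit 394967126) (nat_lit 836) (nat_lit 2818539540) (nat_lit 912) (nat_lit 4243616863) (nat_lit 396) (nat_lit 5) (nat_lit 407) (nat_lit 5) (nat_lit 408) (nat_lit 4) (nat_lit 566) (nat_lit 499) (nat_lit 495))))))) (XT.nd (nat_lit 780) (nat_lit 5624) (nat_lit 0) (XT.nd (nat_lit 390) (nat_lit 3040) (nat_lit 0) (XT.nd (nat_lit 156) (nat_lit 1596) (nat_lit 0) (XT.nd (nat_lit 78) (nat_lit 912) (nat_lit 0) (XT.lf (nat_lit 0) (nat_lit 6249315417) (nat_lit 836) (nat_lit 580259199) (nat_lit 912) (nat_lit 673905077) (nat_lit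 396) (nat_lit 5) (nat_lit 407) (nat_lit 5) (nat_lit 408) (nat_lit 4) (nat_lit 567) (nat_lit 499) (nat_lit 494)) (XT.lf (nat_lit 0) (nat_lit 2904214519) (nat_lit 912) (nat_lit 2925742325) (nat_lit 76) (nat_lit 1720906698) (nat_lit 384) (nat_lit 5) (nat_lit 396) (nat_lit 5) (nat_lit 385) (nat_lit 4) (nat_lit 568) (nat_lit 499) (nat_lit 493))) (XT.nd (nat_lit 78) (nat_lit 836) (nat_lit 0) (XT.lf (nat_lit 0) (nat_lit 2995281472) (nat_lit 760) (nat_lit 3516603278) (nat_lit 836) (nat_lit 1087885349) (nat_lit 374) (nat_lit 5) (nat_lit 384) (nat_lit 5) (nat_lit 385) (nat_lit 4) (nat_lit 569) (nat_lit 499) (nat_lit 492)) (XT.nd (nat_lit 78) (nat_lit 0) (nat_lit 0) (XT.lf (nat_lit 0) (nat_lit 1350226983) (nat_lit 760) (nat_lit 1122612629) (nat_lit 836) (nat_lit 5177206757) (nat_lit 363) (nat_lit 5) (nat_lit 373) (nat_lit 5) (nat_lit 374) (nat_lit 5) (nat_lit 570) (nat_lit 499) (nat_lit 491)) (XT.lf (nat_lit 0) (nat_lit 6066186185) (nat_lit 836) (nat_lit 306902565) (nat_lit 76) (nat_lit 1328580224) (nat_lit 363) (nat_lit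 5) (nat_lit 374) (nat_lit 5) (nat_lit 364) (nat_lit 4) (nat_lit 571) (nat_lit 499) (nat_lit 490))))) (XT.nd (nat_lit 156) (nat_lit 1520) (nat_lit 0) (XT.nd (nat_lit 78) (nat_lit 760) (nat_lit 0) (XT.lf (nat_lit 0) (nat_lit 1933655360) (nat_lit 760) (nat_lit 1968065905) (nat_lit 76) (nat_lit 3852699792) (nat_lit 353) (nat_lit 5) (nat_lit 363) (nat_lit 5) (nat_lit 354) (nat_lit 5) (nat_lit 572) (nat_lit 499) (nat_lit 489)) (XT.lf (nat_lit 0) (nat_lit 4165739550) (nat_lit 760) (nat_lit 1353545975) (nat_lit 836) (nat_lit 2289390147) (nat_lit 343) (nat_lit 5) (nat_lit 353) (nat_lit 5) (nat_lit 354) (nat_lit 5) (nat_lit 573) (nat_lit 499) (nat_lit 488))) (XT.nd (nat_lit 78) (nat_lit 760) (nat_lit 0) (XT.lf (nat_lit 0) (nat_lit 1271582596) (nat_lit 760) (nat_lit 5338798610) (nat_lit 76) (nat_lit 1253943746) (nat_lit 333) (nat_lit 5) (nat_lit 343) (nat_lit 5) (nat_lit 334) (nat_lit 5) (nat_lit 574) (nat_lit 499) (nat_lit 487)) (XT.nd (nat_lit 78) (nat_lit 76) (nat_lit 0) (XT.lf (nat_lit 0) (nat_lit 856624313) (nat_lit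 684) (nat_lit 3994477140) (nat_lit 760) (nat_lit 3070127123) (nat_lit 324) (nat_lit 5) (nat_lit 333) (nat_lit 5) (nat_lit 334) (nat_lit 5) (nat_lit 575) (nat_lit 499) (nat_lit 486)) (XT.lf (nat_lit 0) (nat_lit 491267149) (nat_lit 760) (nat_lit 810635144) (nat_lit 76) (nat_lit 6677799871) (nat_lit 323) (nat_lit 5) (nat_lit 333) (nat_lit 5) (nat_lit 324) (nat_lit 5) (nat_lit 576) (nat_lit 499) (nat_lit 485)))))) (XT.nd (nat_lit 390) (nat_lit 2964) (nat_lit 0) (XT.nd (nat_lit 156) (nat_lit 1368) (nat_lit 0) (XT.nd (nat_lit 78) (nat_lit 684) (nat_lit 0) (XT.lf (nat_lit 0) (nat_lit 4068790283) (nat_lit 684) (nat_lit 2503522148) (nat_lit 76) (nat_lit 1466910158) (nat_lit 315) (nat_lit 5) (nat_lit 324) (nat_lit 5) (nat_lit 316) (nat_lit 5) (nat_lit 577) (nat_lit 499) (nat_lit 484)) (XT.lf (nat_lit 0) (nat_lit 3886588108) (nat_lit 684) (nat_lit 3811505637) (nat_lit 760) (nat_lit 402238448) (nat_lit 306) (nat_lit 5) (nat_lit 315) (nat_lit 5) (nat_lit 316) (nat_lit 5) (nat_lit 578) (nat_lit 499) (nat_lit 483))) (XT.nd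 (nat_lit 78) (nat_lit 684) (nat_lit 0) (XT.lf (nat_lit 0) (nat_lit 2207794312) (nat_lit 608) (nat_lit 959489883) (nat_lit 684) (nat_lit 4995514195) (nat_lit 297) (nat_lit 5) (nat_lit 305) (nat_lit 5) (nat_lit 306) (nat_lit 5) (nat_lit 579) (nat_lit 499) (nat_lit 482)) (XT.nd (nat_lit 78) (nat_lit 76) (nat_lit 0) (XT.lf (nat_lit 0) (nat_lit 503334167) (nat_lit 608) (nat_lit 6285597814) (nat_lit 684) (nat_lit 1437809514) (nat_lit 289) (nat_lit 5) (nat_lit 297) (nat_lit 5) (nat_lit 298) (nat_lit 5) (nat_lit 580) (nat_lit 499) (nat_lit 481)) (XT.lf (nat_lit 0) (nat_lit 2150882684) (nat_lit 684) (nat_lit 1217409158) (nat_lit 76) (nat_lit 4923618767) (nat_lit 288) (nat_lit 5) (nat_lit 297) (nat_lit 5) (nat_lit 289) (nat_lit 5) (nat_lit 581) (nat_lit 499) (nat_lit 480))))) (XT.nd (nat_lit 234) (nat_lit 1140) (nat_lit 0) (XT.nd (nat_lit 78) (nat_lit 1216) (nat_lit 0) (XT.lf (nat_lit 0) (nat_lit 5404617513) (nat_lit 608) (nat_lit 365714105) (nat_lit 684) (nat_lit 2588299695) (nat_lit 280) (nat_lit 5) (nat_lit 288)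 (nat_lit 5) (nat_lit 289) (nat_lit 5) (nat_lit 582) (nat_lit 499) (nat_lit 479)) (XT.nd (nat_lit 78) (nat_lit 532) (nat_lit 0) (XT.lf (nat_lit 0) (nat_lit 1015273190) (nat_lit 684) (nat_lit 4729382589) (nat_lit 76) (nat_lit 2682031652) (nat_lit 271) (nat_lit 5) (nat_lit 280) (nat_lit 5) (nat_lit 272) (nat_lit 5) (nat_lit 583) (nat_lit 499) (nat_lit 478)) (XT.lf (nat_lit 0) (nat_lit 1955728594) (nat_lit 532) (nat_lit 2679515140) (nat_lit 608) (nat_lit 3860941912) (nat_lit 264) (nat_lit 5) (nat_lit 271) (nat_lit 5) (nat_lit 272) (nat_lit 5) (nat_lit 584) (nat_lit 499) (nat_lit 477)))) (XT.nd (nat_lit 78) (nat_lit 608) (nat_lit 0) (XT.lf (nat_lit 0) (nat_lit 194964529) (nat_lit 532) (nat_lit 8113118386) (nat_lit 608) (nat_lit 259384288) (nat_lit 257) (nat_lit 5) (nat_lit 264) (nat_lit 5) (nat_lit 265) (nat_lit 5) (nat_lit 585) (nat_lit 499) (nat_lit 476)) (XT.nd (nat_lit 78) (nat_lit 532) (nat_lit 0) (XT.lf (nat_lit 0) (nat_lit 3375936285) (nat_lit 608) (nat_lit 1602673533) (nat_lit 76) (nat_lit 3660993688)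 (nat_lit 256) (nat_lit 5) (nat_lit 264) (nat_lit 5) (nat_lit 257) (nat_lit 5) (nat_lit 586) (nat_lit 499) (nat_lit 475)) (XT.lf (nat_lit 0) (nat_lit 5294859781) (nat_lit 532) (nat_lit 1765681911) (nat_lit 608) (nat_lit 1653008125) (nat_lit 249) (nat_lit 5) (nat_lit 256) (nat_lit 5) (nat_lit 257) (nat_lit 5) (nat_lit 587) (nat_lit 499) (nat_lit 474))))))))
noncomputable def xc24 : XT := (XT.nd (nat_lit 1560) (nat_lit 4028) (nat_lit 0) (XT.nd (nat_lit 780) (nat_lit 3344) (nat_lit 0) (XT.nd (nat_lit 390) (nat_lit 1900) (nat_lit 0) (XT.nd (nat_lit 156) (nat_lit 1064) (nat_lit 0) (XT.nd (nat_lit 78) (nat_lit 456) (nat_lit 0) (XT.lf (nat_lit 0) (nat_lit 1992801297) (nat_lit 608) (nat_lit 5278518623) (nat_lit 76) (nat_lit 1517602868) (nat_lit 241) (nat_lit 5) (nat_lit 249) (nat_lit 5) (nat_lit 242) (nat_lit 5) (nat_lit 588) (nat_lit 499) (nat_lit 473)) (XT.lf (nat_lit 0) (nat_lit 1682269809) (nat_lit 456) (nat_lit 3999176530) (nat_lit 532) (nat_lit 3184299739) (nat_lit 235) (nat_lit 5) (nat_lit 241) (nat_lit 5)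 (nat_lit 242) (nat_lit 5) (nat_lit 589) (nat_lit 499) (nat_lit 472))) (XT.nd (nat_lit 78) (nat_lit 988) (nat_lit 0) (XT.lf (nat_lit 0) (nat_lit 475391607) (nat_lit 532) (nat_lit 169341743) (nat_lit 76) (nat_lit 8299666196) (nat_lit 234) (nat_lit 5) (nat_lit 241) (nat_lit 5) (nat_lit 235) (nat_lit 5) (nat_lit 590) (nat_lit 499) (nat_lit 471)) (XT.nd (nat_lit 78) (nat_lit 456) (nat_lit 0) (XT.lf (nat_lit 0) (nat_lit 4176905628) (nat_lit 608) (nat_lit 2061925604) (nat_lit 76) (nat_lit 2785150865) (nat_lit 227) (nat_lit 5) (nat_lit 235) (nat_lit 5) (nat_lit 228) (nat_lit 5) (nat_lit 591) (nat_lit 499) (nat_lit 470)) (XT.lf (nat_lit 0) (nat_lit 5120932367) (nat_lit 456) (nat_lit 2818159282) (nat_lit 532) (nat_lit 1166334082) (nat_lit 221) (nat_lit 5) (nat_lit 227) (nat_lit 5) (nat_lit 228) (nat_lit 5) (nat_lit 592) (nat_lit 499) (nat_lit 469))))) (XT.nd (nat_lit 156) (nat_lit 912) (nat_lit 0) (XT.nd (nat_lit 78) (nat_lit 456) (nat_lit 0) (XT.lf (nat_lit 0) (nat_lit 2541745234) (nat_lit 532) (nat_lit 5955701407)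 (nat_lit 76) (nat_lit 690964422) (nat_lit 214) (nat_lit 5) (nat_lit 221) (nat_lit 5) (nat_lit 215) (nat_lit 5) (nat_lit 593) (nat_lit 499) (nat_lit 468)) (XT.lf (nat_lit 0) (nat_lit 1290332740) (nat_lit 456) (nat_lit 5020555065) (nat_lit 532) (nat_lit 2961965865) (nat_lit 208) (nat_lit 5) (nat_lit 214) (nat_lit 5) (nat_lit 215) (nat_lit 5) (nat_lit 594) (nat_lit 499) (nat_lit 467))) (XT.nd (nat_lit 78) (nat_lit 836) (nat_lit 0) (XT.lf (nat_lit 0) (nat_lit 774942298) (nat_lit 532) (nat_lit 677559686) (nat_lit 76) (nat_lit 7906602589) (nat_lit 207) (nat_lit 5) (nat_lit 214) (nat_lit 5) (nat_lit 208) (nat_lit 5) (nat_lit 595) (nat_lit 499) (nat_lit 466)) (XT.nd (nat_lit 78) (nat_lit 380) (nat_lit 0) (XT.lf (nat_lit 0) (nat_lit 4555105432) (nat_lit 532) (nat_lit 2693095831) (nat_lit 76) (nat_lit 2198326122) (nat_lit 201) (nat_lit 5) (nat_lit 208) (nat_lit 5) (nat_lit 202) (nat_lit 5) (nat_lit 596) (nat_lit 499) (nat_lit 465)) (XT.lf (nat_lit 0) (nat_lit 4784907386) (nat_lit 380) (nat_lit 3621309650) (nat_lit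 456) (nat_lit 1129576684) (nat_lit 196) (nat_lit 5) (nat_lit 201) (nat_lit 5) (nat_lit 202) (nat_lit 5) (nat_lit 597) (nat_lit 499) (nat_lit 464)))))) (XT.nd (nat_lit 390) (nat_lit 1596) (nat_lit 0) (XT.nd (nat_lit 156) (nat_lit 836) (nat_lit 0) (XT.nd (nat_lit 78) (nat_lit 380) (nat_lit 0) (XT.lf (nat_lit 0) (nat_lit 2659095569) (nat_lit 532) (nat_lit 6861383891) (nat_lit 76) (nat_lit 106274251) (nat_lit 189) (nat_lit 5) (nat_lit 196) (nat_lit 5) (nat_lit 190) (nat_lit 5) (nat_lit 598) (nat_lit 499) (nat_lit 463)) (XT.lf (nat_lit 0) (nat_lit 679373193) (nat_lit 380) (nat_lit 5840119676) (nat_lit 456) (nat_lit 3199671028) (nat_lit 184) (nat_lit 5) (nat_lit 189) (nat_lit 5) (nat_lit 190) (nat_lit 5) (nat_lit 599) (nat_lit 499) (nat_lit 462))) (XT.nd (nat_lit 78) (nat_lit 760) (nat_lit 0) (XT.lf (nat_lit 0) (nat_lit 632316989) (nat_lit 456) (nat_lit 1428511495) (nat_lit 76) (nat_lit 7752570344) (nat_lit 183) (nat_lit 5) (nat_lit 189) (nat_lit 5) (nat_lit 184) (nat_lit 5) (nat_lit 600) (nat_lit 499) (nat_lit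 461)) (XT.nd (nat_lit 78) (nat_lit 380) (nat_lit 0) (XT.lf (nat_lit 0) (nat_lit 4502786700) (nat_lit 456) (nat_lit 3598407004) (nat_lit 76) (nat_lit 1807809799) (nat_lit 178) (nat_lit 5) (nat_lit 184) (nat_lit 5) (nat_lit 179) (nat_lit 5) (nat_lit 601) (nat_lit 499) (nat_lit 460)) (XT.lf (nat_lit 0) (nat_lit 4184385564) (nat_lit 380) (nat_lit 4268749121) (nat_lit 456) (nat_lit 1553337926) (nat_lit 173) (nat_lit 5) (nat_lit 178) (nat_lit 5) (nat_lit 179) (nat_lit 5) (nat_lit 602) (nat_lit 499) (nat_lit 459))))) (XT.nd (nat_lit 156) (nat_lit 1140) (nat_lit 0) (XT.nd (nat_lit 78) (nat_lit 0) (nat_lit 0) (XT.lf (nat_lit 0) (nat_lit 2002422213) (nat_lit 380) (nat_lit 332464015) (nat_lit 456) (nat_lit 7770908772) (nat_lit 167) (nat_lit 5) (nat_lit 172) (nat_lit 5) (nat_lit 173) (nat_lit 5) (nat_lit 603) (nat_lit 499) (nat_lit 458)) (XT.lf (nat_lit 0) (nat_lit 6295767227) (nat_lit 456) (nat_lit 253176020) (nat_lit 76) (nat_lit 3657643024) (nat_lit 167) (nat_lit 5) (nat_lit 173) (nat_lit 5) (nat_lit 168) (nat_lit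 5) (nat_lit 604) (nat_lit 499) (nat_lit 457))) (XT.nd (nat_lit 78) (nat_lit 684) (nat_lit 0) (XT.lf (nat_lit 0) (nat_lit 32249764) (nat_lit 456) (nat_lit 2528892992) (nat_lit 76) (nat_lit 7748126241) (nat_lit 161) (nat_lit 5) (nat_lit 167) (nat_lit 5) (nat_lit 162) (nat_lit 5) (nat_lit 605) (nat_lit 499) (nat_lit 456)) (XT.nd (nat_lit 78) (nat_lit 304) (nat_lit 0) (XT.lf (nat_lit 0) (nat_lit 4003053826) (nat_lit 456) (nat_lit 4886331947) (nat_lit 76) (nat_lit 1524079323) (nat_lit 156) (nat_lit 5) (nat_lit 162) (nat_lit 5) (nat_lit 157) (nat_lit 5) (nat_lit 606) (nat_lit 499) (nat_lit 455)) (XT.lf (nat_lit 0) (nat_lit 3210509666) (nat_lit 304) (nat_lit 4851418187) (nat_lit 380) (nat_lit 2457645682) (nat_lit 152) (nat_lit 5) (nat_lit 156) (nat_lit 5) (nat_lit 157) (nat_lit 5) (nat_lit 607) (nat_lit 499) (nat_lit 454))))))) (XT.nd (nat_lit 780) (nat_lit 1444) (nat_lit 0) (XT.nd (nat_lit 390) (nat_lit 1064) (nat_lit 0) (XT.nd (nat_lit 156) (nat_lit 1064) (nat_lit 0) (XT.nd (nat_lit 78) (nat_lit 0) (nat_lit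 0) (XT.lf (nat_lit 0) (nat_lit 835083276) (nat_lit 380) (nat_lit 710767170) (nat_lit 456) (nat_lit 9081904306) (nat_lit 146) (nat_lit 5) (nat_lit 151) (nat_lit 5) (nat_lit 152) (nat_lit 5) (nat_lit 608) (nat_lit 499) (nat_lit 453)) (XT.lf (nat_lit 0) (nat_lit 5622859092) (nat_lit 456) (nat_lit 1609392878) (nat_lit 76) (nat_lit 3504997123) (nat_lit 146) (nat_lit 5) (nat_lit 152) (nat_lit 5) (nat_lit 147) (nat_lit 5) (nat_lit 609) (nat_lit 499) (nat_lit 452))) (XT.nd (nat_lit 78) (nat_lit 760) (nat_lit 0) (XT.lf (nat_lit 0) (nat_lit 6748750887) (nat_lit 304) (nat_lit 3036221129) (nat_lit 380) (nat_lit 1063891403) (nat_lit 142) (nat_lit 5) (nat_lit 146) (nat_lit 5) (nat_lit 147) (nat_lit 5) (nat_lit 610) (nat_lit 499) (nat_lit 451)) (XT.nd (nat_lit 78) (nat_lit 304) (nat_lit 0) (XT.lf (nat_lit 0) (nat_lit 3029594698) (nat_lit 456) (nat_lit 6673694334) (nat_lit 76) (nat_lit 1258979789) (nat_lit 136) (nat_lit 5) (nat_lit 142) (nat_lit 5) (nat_lit 137) (nat_lit 5) (nat_lit 611) (nat_lit 499) (nat_lit 450)) (XT.lf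 (nat_lit 0) (nat_lit 1745827895) (nat_lit 304) (nat_lit 5459415298) (nat_lit 380) (nat_lit 3872269029) (nat_lit 132) (nat_lit 5) (nat_lit 136) (nat_lit 5) (nat_lit 137) (nat_lit 5) (nat_lit 612) (nat_lit 499) (nat_lit 449))))) (XT.nd (nat_lit 156) (nat_lit 684) (nat_lit 0) (XT.nd (nat_lit 78) (nat_lit 304) (nat_lit 0) (XT.lf (nat_lit 0) (nat_lit 266388682) (nat_lit 380) (nat_lit 845073590) (nat_lit 76) (nat_lit 10083552956) (nat_lit 131) (nat_lit 5) (nat_lit 136) (nat_lit 5) (nat_lit 132) (nat_lit 5) (nat_lit 613) (nat_lit 499) (nat_lit 448)) (XT.lf (nat_lit 0) (nat_lit 4465039456) (nat_lit 380) (nat_lit 3519611321) (nat_lit 76) (nat_lit 3329125438) (nat_lit 127) (nat_lit 5) (nat_lit 132) (nat_lit 5) (nat_lit 128) (nat_lit 5) (nat_lit 614) (nat_lit 499) (nat_lit 447))) (XT.nd (nat_lit 78) (nat_lit 380) (nat_lit 0) (XT.lf (nat_lit 0) (nat_lit 5171421893) (nat_lit 304) (nat_lit 3579467972) (nat_lit 380) (nat_lit 2683959226) (nat_lit 123) (nat_lit 5) (nat_lit 127) (nat_lit 5) (nat_lit 128) (nat_lit 5) (nat_lit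 615) (nat_lit 499) (nat_lit 446)) (XT.nd (nat_lit 78) (nat_lit 0) (nat_lit 0) (XT.lf (nat_lit 0) (nat_lit 1546214407) (nat_lit 380) (nat_lit 9087961832) (nat_lit 76) (nat_lit 923912952) (nat_lit 118) (nat_lit 5) (nat_lit 123) (nat_lit 5) (nat_lit 119) (nat_lit 5) (nat_lit 616) (nat_lit 499) (nat_lit 445)) (XT.lf (nat_lit 0) (nat_lit 5847984131) (nat_lit 380) (nat_lit 333609582) (nat_lit 76) (nat_lit 5501388077) (nat_lit 118) (nat_lit 5) (nat_lit 123) (nat_lit 5) (nat_lit 119) (nat_lit 5) (nat_lit 617) (nat_lit 499) (nat_lit 444)))))) (XT.nd (nat_lit 390) (nat_lit 228) (nat_lit 0) (XT.nd (nat_lit 156) (nat_lit 608) (nat_lit 0) (XT.nd (nat_lit 78) (nat_lit 380) (nat_lit 0) (XT.lf (nat_lit 0) (nat_lit 8638384939) (nat_lit 228) (nat_lit 1611218775) (nat_lit 304) (nat_lit 1560493349) (nat_lit 115) (nat_lit 5) (nat_lit 118) (nat_lit 5) (nat_lit 119) (nat_lit 5) (nat_lit 618) (nat_lit 499) (nat_lit 443)) (XT.lf (nat_lit 0) (nat_lit 2780799328) (nat_lit 380) (nat_lit 6117211230) (nat_lit 76) (nat_lit 3041021343)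 (nat_lit 110) (nat_lit 5) (nat_lit 115) (nat_lit 5) (nat_lit 111) (nat_lit 5) (nat_lit 619) (nat_lit 499) (nat_lit 442))) (XT.nd (nat_lit 78) (nat_lit 380) (nat_lit 0) (XT.lf (nat_lit 0) (nat_lit 2914151023) (nat_lit 228) (nat_lit 4282914171) (nat_lit 304) (nat_lit 4873094143) (nat_lit 107) (nat_lit 5) (nat_lit 110) (nat_lit 5) (nat_lit 111) (nat_lit 5) (nat_lit 620) (nat_lit 499) (nat_lit 441)) (XT.nd (nat_lit 78) (nat_lit 380) (nat_lit 0) (XT.lf (nat_lit 0) (nat_lit 11703918550) (nat_lit 304) (nat_lit 68254497) (nat_lit 76) (nat_lit 431692059) (nat_lit 107) (nat_lit 5) (nat_lit 111) (nat_lit 5) (nat_lit 108) (nat_lit 5) (nat_lit 621) (nat_lit 499) (nat_lit 440)) (XT.lf (nat_lit 0) (nat_lit 3956288021) (nat_lit 380) (nat_lit 3141266249) (nat_lit 76) (nat_lit 5241226023) (nat_lit 102) (nat_lit 5) (nat_lit 107) (nat_lit 5) (nat_lit 103) (nat_lit 5) (nat_lit 622) (nat_lit 499) (nat_lit 439))))) (XT.nd (nat_lit 76362) (nat_lit 0) (nat_lit 25156) (XT.nd (nat_lit 76284) (nat_lit 0) (nat_lit 27132) (XT.lf (nat_lit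 0) (nat_lit 6181000956) (nat_lit 228) (nat_lit 2313638494) (nat_lit 304) (nat_lit 3981695480) (nat_lit 99) (nat_lit 5) (nat_lit 102) (nat_lit 5) (nat_lit 103) (nat_lit 5) (nat_lit 623) (nat_lit 499) (nat_lit 438)) (XT.lf (nat_lit 0) (nat_lit 1557387202) (nat_lit 1064) (nat_lit 1022933974) (nat_lit 1064) (nat_lit 1022933974) (nat_lit 456) (nat_lit 4) (nat_lit 470) (nat_lit 5) (nat_lit 470) (nat_lit 4) (nat_lit 560) (nat_lit 500) (nat_lit 500))) (XT.nd (nat_lit 78) (nat_lit 988) (nat_lit 0) (XT.lf (nat_lit 0) (nat_lit 1396440506) (nat_lit 912) (nat_lit 119480233) (nat_lit 988) (nat_lit 5729770049) (nat_lit 443) (nat_lit 5) (nat_lit 455) (nat_lit 5) (nat_lit 456) (nat_lit 4) (nat_lit 561) (nat_lit 500) (nat_lit 499)) (XT.nd (nat_lit 78) (nat_lit 988) (nat_lit 0) (XT.lf (nat_lit 0) (nat_lit 5092386253) (nat_lit 988) (nat_lit 335296116) (nat_lit 0) (nat_lit 1858290554) (nat_lit 443) (nat_lit 5) (nat_lit 456) (nat_lit 4) (nat_lit 443) (nat_lit 4) (nat_lit 562) (nat_lit 500) (nat_lit 498)) (XT.lf (nat_lit 0) (nat_lit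 1362204929) (nat_lit 988) (nat_lit 2052086324) (nat_lit 76) (nat_lit 3913242517) (nat_lit 430) (nat_lit 5) (nat_lit 443) (nat_lit 5) (nat_lit 431) (nat_lit 4) (nat_lit 563) (nat_lit 500) (nat_lit 497))))))))
noncomputable def xc25 : XT := (XT.nd (nat_lit 1560) (nat_lit 7904) (nat_lit 0) (XT.nd (nat_lit 780) (nat_lit 5472) (nat_lit 0) (XT.nd (nat_lit 390) (nat_lit 3116) (nat_lit 0) (XT.nd (nat_lit 156) (nat_lit 1748) (nat_lit 0) (XT.nd (nat_lit 78) (nat_lit 912) (nat_lit 0) (XT.lf (nat_lit 0) (nat_lit 3592360255) (nat_lit 836) (nat_lit 1325940623) (nat_lit 912) (nat_lit 2452168656) (nat_lit 419) (nat_lit 5) (nat_lit 430) (nat_lit 5) (nat_lit 431) (nat_lit 4) (nat_lit 564) (nat_lit 500) (nat_lit 496)) (XT.lf (nat_lit 0) (nat_lit 1081405317) (nat_lit 912) (nat_lit 5512915073) (nat_lit 76) (nat_lit 820501697) (nat_lit 407) (nat_lit 5) (nat_lit 419) (nat_lit 5) (nat_lit 408) (nat_lit 4) (nat_lit 565) (nat_lit 500) (nat_lit 495))) (XT.nd (nat_lit 78) (nat_lit 912) (nat_lit 0) (XT.lf (nat_lit 0) (nat_lit 190006618)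 (nat_lit 836) (nat_lit 4432502986) (nat_lit 912) (nat_lit 2837838667) (nat_lit 396) (nat_lit 5) (nat_lit 407) (nat_lit 5) (nat_lit 408) (nat_lit 4) (nat_lit 566) (nat_lit 500) (nat_lit 494)) (XT.nd (nat_lit 78) (nat_lit 836) (nat_lit 0) (XT.lf (nat_lit 0) (nat_lit 689850145) (nat_lit 912) (nat_lit 1504162719) (nat_lit 76) (nat_lit 5313247221) (nat_lit 395) (nat_lit 5) (nat_lit 407) (nat_lit 5) (nat_lit 396) (nat_lit 5) (nat_lit 567) (nat_lit 500) (nat_lit 493)) (XT.lf (nat_lit 0) (nat_lit 4214939478) (nat_lit 912) (nat_lit 3214192559) (nat_lit 76) (nat_lit 126310382) (nat_lit 384) (nat_lit 5) (nat_lit 396) (nat_lit 5) (nat_lit 385) (nat_lit 4) (nat_lit 568) (nat_lit 500) (nat_lit 492))))) (XT.nd (nat_lit 156) (nat_lit 1520) (nat_lit 0) (XT.nd (nat_lit 78) (nat_lit 760) (nat_lit 0) (XT.lf (nat_lit 0) (nat_lit 181604592) (nat_lit 836) (nat_lit 4940402282) (nat_lit 76) (nat_lit 2482991705) (nat_lit 373) (nat_lit 5) (nat_lit 384) (nat_lit 5) (nat_lit 374) (nat_lit 5) (nat_lit 569) (nat_lit 500) (nat_lit 491))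 (XT.lf (nat_lit 0) (nat_lit 965330787) (nat_lit 760) (nat_lit 2728973773) (nat_lit 836) (nat_lit 3961506199) (nat_lit 363) (nat_lit 5) (nat_lit 373) (nat_lit 5) (nat_lit 374) (nat_lit 5) (nat_lit 570) (nat_lit 500) (nat_lit 490))) (XT.nd (nat_lit 78) (nat_lit 1520) (nat_lit 0) (XT.lf (nat_lit 0) (nat_lit 6982156973) (nat_lit 760) (nat_lit 265870405) (nat_lit 836) (nat_lit 460200452) (nat_lit 363) (nat_lit 5) (nat_lit 373) (nat_lit 5) (nat_lit 374) (nat_lit 5) (nat_lit 571) (nat_lit 500) (nat_lit 489)) (XT.nd (nat_lit 78) (nat_lit 760) (nat_lit 0) (XT.lf (nat_lit 0) (nat_lit 3058263103) (nat_lit 760) (nat_lit 2442681908) (nat_lit 76) (nat_lit 2260589414) (nat_lit 353) (nat_lit 5) (nat_lit 363) (nat_lit 5) (nat_lit 354) (nat_lit 5) (nat_lit 572) (nat_lit 500) (nat_lit 488)) (XT.lf (nat_lit 0) (nat_lit 3647685122) (nat_lit 760) (nat_lit 2962689302) (nat_lit 836) (nat_lit 1206086871) (nat_lit 343) (nat_lit 5) (nat_lit 353) (nat_lit 5) (nat_lit 354) (nat_lit 5) (nat_lit 573) (nat_lit 500) (nat_lit 487))))))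 (XT.nd (nat_lit 390) (nat_lit 2584) (nat_lit 0) (XT.nd (nat_lit 156) (nat_lit 1444) (nat_lit 0) (XT.nd (nat_lit 78) (nat_lit 684) (nat_lit 0) (XT.lf (nat_lit 0) (nat_lit 1956693231) (nat_lit 684) (nat_lit 341987884) (nat_lit 760) (nat_lit 5574130535) (nat_lit 333) (nat_lit 5) (nat_lit 342) (nat_lit 5) (nat_lit 343) (nat_lit 5) (nat_lit 574) (nat_lit 500) (nat_lit 486)) (XT.lf (nat_lit 0) (nat_lit 236277773) (nat_lit 684) (nat_lit 5605980516) (nat_lit 760) (nat_lit 2088177587) (nat_lit 324) (nat_lit 5) (nat_lit 333) (nat_lit 5) (nat_lit 334) (nat_lit 5) (nat_lit 575) (nat_lit 500) (nat_lit 485))) (XT.nd (nat_lit 78) (nat_lit 1368) (nat_lit 0) (XT.lf (nat_lit 0) (nat_lit 1430791446) (nat_lit 760) (nat_lit 1483825847) (nat_lit 76) (nat_lit 5074757300) (nat_lit 323) (nat_lit 5) (nat_lit 333) (nat_lit 5) (nat_lit 324) (nat_lit 5) (nat_lit 576) (nat_lit 500) (nat_lit 484)) (XT.nd (nat_lit 78) (nat_lit 760) (nat_lit 0) (XT.lf (nat_lit 0) (nat_lit 4826390875) (nat_lit 608) (nat_lit 138636313) (nat_lit 684) (nat_lit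 3084735244) (nat_lit 315) (nat_lit 5) (nat_lit 323) (nat_lit 5) (nat_lit 324) (nat_lit 5) (nat_lit 577) (nat_lit 500) (nat_lit 483)) (XT.lf (nat_lit 0) (nat_lit 442330465) (nat_lit 760) (nat_lit 4993694849) (nat_lit 76) (nat_lit 2675481295) (nat_lit 305) (nat_lit 5) (nat_lit 315) (nat_lit 5) (nat_lit 306) (nat_lit 5) (nat_lit 578) (nat_lit 500) (nat_lit 482))))) (XT.nd (nat_lit 156) (nat_lit 1976) (nat_lit 0) (XT.nd (nat_lit 78) (nat_lit 0) (nat_lit 0) (XT.lf (nat_lit 0) (nat_lit 1377387164) (nat_lit 608) (nat_lit 2595249777) (nat_lit 684) (nat_lit 4201964019) (nat_lit 297) (nat_lit 5) (nat_lit 305) (nat_lit 5) (nat_lit 306) (nat_lit 5) (nat_lit 579) (nat_lit 500) (nat_lit 481)) (XT.lf (nat_lit 0) (nat_lit 7552113485) (nat_lit 684) (nat_lit 372078177) (nat_lit 76) (nat_lit 315197368) (nat_lit 297) (nat_lit 5) (nat_lit 306) (nat_lit 5) (nat_lit 298) (nat_lit 5) (nat_lit 580) (nat_lit 500) (nat_lit 480))) (XT.nd (nat_lit 78) (nat_lit 1292) (nat_lit 0) (XT.lf (nat_lit 0) (nat_lit 2860954122) (nat_lit 684)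 (nat_lit 2152671984) (nat_lit 76) (nat_lit 3291448440) (nat_lit 288) (nat_lit 5) (nat_lit 297) (nat_lit 5) (nat_lit 289) (nat_lit 5) (nat_lit 581) (nat_lit 500) (nat_lit 479)) (XT.nd (nat_lit 78) (nat_lit 684) (nat_lit 0) (XT.lf (nat_lit 0) (nat_lit 4419818762) (nat_lit 608) (nat_lit 2026587338) (nat_lit 684) (nat_lit 1926070541) (nat_lit 280) (nat_lit 5) (nat_lit 288) (nat_lit 5) (nat_lit 289) (nat_lit 5) (nat_lit 582) (nat_lit 500) (nat_lit 478)) (XT.lf (nat_lit 0) (nat_lit 1623636416) (nat_lit 684) (nat_lit 5786475668) (nat_lit 76) (nat_lit 1031239692) (nat_lit 271) (nat_lit 5) (nat_lit 280) (nat_lit 5) (nat_lit 272) (nat_lit 5) (nat_lit 583) (nat_lit 500) (nat_lit 477))))))) (XT.nd (nat_lit 780) (nat_lit 3572) (nat_lit 0) (XT.nd (nat_lit 390) (nat_lit 2052) (nat_lit 0) (XT.nd (nat_lit 156) (nat_lit 1672) (nat_lit 0) (XT.nd (nat_lit 78) (nat_lit 76) (nat_lit 0) (XT.lf (nat_lit 0) (nat_lit 847107331) (nat_lit 532) (nat_lit 4362062857) (nat_lit 608) (nat_lit 3302369905) (nat_lit 264) (nat_lit 5) (nat_lit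 271) (nat_lit 5) (nat_lit 272) (nat_lit 5) (nat_lit 584) (nat_lit 500) (nat_lit 476)) (XT.lf (nat_lit 0) (nat_lit 263865944) (nat_lit 608) (nat_lit 967608607) (nat_lit 76) (nat_lit 7351937521) (nat_lit 263) (nat_lit 5) (nat_lit 271) (nat_lit 5) (nat_lit 264) (nat_lit 5) (nat_lit 585) (nat_lit 500) (nat_lit 475))) (XT.nd (nat_lit 78) (nat_lit 1140) (nat_lit 0) (XT.lf (nat_lit 0) (nat_lit 3854485345) (nat_lit 608) (nat_lit 2825159732) (nat_lit 76) (nat_lit 1976696891) (nat_lit 256) (nat_lit 5) (nat_lit 264) (nat_lit 5) (nat_lit 257) (nat_lit 5) (nat_lit 586) (nat_lit 500) (nat_lit 474)) (XT.nd (nat_lit 78) (nat_lit 608) (nat_lit 0) (XT.lf (nat_lit 0) (nat_lit 4019037532) (nat_lit 532) (nat_lit 3485401354) (nat_lit 608) (nat_lit 1226543693) (nat_lit 249) (nat_lit 5) (nat_lit 256) (nat_lit 5) (nat_lit 257) (nat_lit 5) (nat_lit 587) (nat_lit 500) (nat_lit 473)) (XT.lf (nat_lit 0) (nat_lit 2170139993) (nat_lit 532) (nat_lit 198518913) (nat_lit 608) (nat_lit 6438542753) (nat_lit 241) (nat_lit 5) (nat_lit 248)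 (nat_lit 5) (nat_lit 249) (nat_lit 5) (nat_lit 588) (nat_lit 500) (nat_lit 472))))) (XT.nd (nat_lit 156) (nat_lit 1520) (nat_lit 0) (XT.nd (nat_lit 78) (nat_lit 76) (nat_lit 0) (XT.lf (nat_lit 0) (nat_lit 269563742) (nat_lit 456) (nat_lit 5751227674) (nat_lit 532) (nat_lit 2863964975) (nat_lit 235) (nat_lit 5) (nat_lit 241) (nat_lit 5) (nat_lit 242) (nat_lit 5) (nat_lit 589) (nat_lit 500) (nat_lit 471)) (XT.lf (nat_lit 0) (nat_lit 765574513) (nat_lit 532) (nat_lit 1640165086) (nat_lit 76) (nat_lit 6558148820) (nat_lit 234) (nat_lit 5) (nat_lit 241) (nat_lit 5) (nat_lit 235) (nat_lit 5) (nat_lit 590) (nat_lit 500) (nat_lit 470))) (XT.nd (nat_lit 78) (nat_lit 988) (nat_lit 0) (XT.lf (nat_lit 0) (nat_lit 4420161676) (nat_lit 608) (nat_lit 3597706299) (nat_lit 76) (nat_lit 1026542654) (nat_lit 227) (nat_lit 5) (nat_lit 235) (nat_lit 5) (nat_lit 228) (nat_lit 5) (nat_lit 591) (nat_lit 500) (nat_lit 469)) (XT.nd (nat_lit 78) (nat_lit 532) (nat_lit 0) (XT.lf (nat_lit 0) (nat_lit 3527760680) (nat_lit 456) (nat_lit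 4618995359) (nat_lit 532) (nat_lit 979811157) (nat_lit 221) (nat_lit 5) (nat_lit 227) (nat_lit 5) (nat_lit 228) (nat_lit 5) (nat_lit 592) (nat_lit 500) (nat_lit 468)) (XT.lf (nat_lit 0) (nat_lit 1563274959) (nat_lit 456) (nat_lit 1121977292) (nat_lit 532) (nat_lit 6525088505) (nat_lit 214) (nat_lit 5) (nat_lit 220) (nat_lit 5) (nat_lit 221) (nat_lit 5) (nat_lit 593) (nat_lit 500) (nat_lit 467)))))) (XT.nd (nat_lit 390) (nat_lit 1672) (nat_lit 0) (XT.nd (nat_lit 156) (nat_lit 1368) (nat_lit 0) (XT.nd (nat_lit 78) (nat_lit 532) (nat_lit 0) (XT.lf (nat_lit 0) (nat_lit 6413760735) (nat_lit 532) (nat_lit 447445365) (nat_lit 76) (nat_lit 2434390982) (nat_lit 214) (nat_lit 5) (nat_lit 221) (nat_lit 5) (nat_lit 215) (nat_lit 5) (nat_lit 594) (nat_lit 500) (nat_lit 466)) (XT.lf (nat_lit 0) (nat_lit 826173652) (nat_lit 532) (nat_lit 2481452289) (nat_lit 76) (nat_lit 6074769581) (nat_lit 207) (nat_lit 5) (nat_lit 214) (nat_lit 5) (nat_lit 208) (nat_lit 5) (nat_lit 595) (nat_lit 500) (nat_lit 465))) (XT.nd (nat_lit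 78) (nat_lit 912) (nat_lit 0) (XT.lf (nat_lit 0) (nat_lit 4557634051) (nat_lit 532) (nat_lit 4569404650) (nat_lit 76) (nat_lit 343754663) (nat_lit 201) (nat_lit 5) (nat_lit 208) (nat_lit 5) (nat_lit 202) (nat_lit 5) (nat_lit 596) (nat_lit 500) (nat_lit 464)) (XT.nd (nat_lit 78) (nat_lit 532) (nat_lit 0) (XT.lf (nat_lit 0) (nat_lit 2846868664) (nat_lit 380) (nat_lit 5525066772) (nat_lit 456) (nat_lit 1188861426) (nat_lit 196) (nat_lit 5) (nat_lit 201) (nat_lit 5) (nat_lit 202) (nat_lit 5) (nat_lit 597) (nat_lit 500) (nat_lit 463)) (XT.lf (nat_lit 0) (nat_lit 740464589) (nat_lit 456) (nat_lit 1822126804) (nat_lit 532) (nat_lit 7089934016) (nat_lit 189) (nat_lit 5) (nat_lit 195) (nat_lit 5) (nat_lit 196) (nat_lit 5) (nat_lit 598) (nat_lit 500) (nat_lit 462))))) (XT.nd (nat_lit 234) (nat_lit 836) (nat_lit 0) (XT.nd (nat_lit 78) (nat_lit 836) (nat_lit 0) (XT.lf (nat_lit 0) (nat_lit 6382760349) (nat_lit 532) (nat_lit 1404938558) (nat_lit 76) (nat_lit 1958042158) (nat_lit 189) (nat_lit 5) (nat_lit 196) (nat_lit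 5) (nat_lit 190) (nat_lit 5) (nat_lit 599) (nat_lit 500) (nat_lit 461)) (XT.nd (nat_lit 78) (nat_lit 380) (nat_lit 0) (XT.lf (nat_lit 0) (nat_lit 437934338) (nat_lit 456) (nat_lit 3593767951) (nat_lit 76) (nat_lit 5808960078) (nat_lit 183) (nat_lit 5) (nat_lit 189) (nat_lit 5) (nat_lit 184) (nat_lit 5) (nat_lit 600) (nat_lit 500) (nat_lit 460)) (XT.lf (nat_lit 0) (nat_lit 4092303982) (nat_lit 380) (nat_lit 166283456) (nat_lit 456) (nat_lit 5678676786) (nat_lit 178) (nat_lit 5) (nat_lit 183) (nat_lit 5) (nat_lit 184) (nat_lit 5) (nat_lit 601) (nat_lit 500) (nat_lit 459)))) (XT.nd (nat_lit 78) (nat_lit 456) (nat_lit 0) (XT.lf (nat_lit 0) (nat_lit 1872528628) (nat_lit 380) (nat_lit 6297022392) (nat_lit 456) (nat_lit 1865970834) (nat_lit 173) (nat_lit 5) (nat_lit 178) (nat_lit 5) (nat_lit 179) (nat_lit 5) (nat_lit 602) (nat_lit 500) (nat_lit 458)) (XT.nd (nat_lit 78) (nat_lit 380) (nat_lit 0) (XT.lf (nat_lit 0) (nat_lit 1990128394) (nat_lit 456) (nat_lit 398851356) (nat_lit 76) (nat_lit 7746630393) (nat_lit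 172) (nat_lit 5) (nat_lit 178) (nat_lit 5) (nat_lit 173) (nat_lit 5) (nat_lit 603) (nat_lit 500) (nat_lit 457)) (XT.lf (nat_lit 0) (nat_lit 5911930197) (nat_lit 456) (nat_lit 2712522543) (nat_lit 76) (nat_lit 1612731043) (nat_lit 167) (nat_lit 5) (nat_lit 173) (nat_lit 5) (nat_lit 168) (nat_lit 5) (nat_lit 604) (nat_lit 500) (nat_lit 456))))))))
noncomputable def xc26 : XT := (XT.nd (nat_lit 77688) (nat_lit 0) (nat_lit 14744) (XT.nd (nat_lit 780) (nat_lit 1900) (nat_lit 0) (XT.nd (nat_lit 390) (nat_lit 1444) (nat_lit 0) (XT.nd (nat_lit 156) (nat_lit 760) (nat_lit 0) (XT.nd (nat_lit 78) (nat_lit 456) (nat_lit 0) (XT.lf (nat_lit 0) (nat_lit 5252526675) (nat_lit 380) (nat_lit 4666541129) (nat_lit 456) (nat_lit 421584653) (nat_lit 162) (nat_lit 5) (nat_lit 167) (nat_lit 5) (nat_lit 168) (nat_lit 5) (nat_lit 605) (nat_lit 500) (nat_lit 455)) (XT.lf (nat_lit 0) (nat_lit 2910787089) (nat_lit 380) (nat_lit 594313498) (nat_lit 456) (nat_lit 6940796414) (nat_lit 156) (nat_lit 5) (nat_lit 161) (nat_lit 5) (nat_lit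 162) (nat_lit 5) (nat_lit 606) (nat_lit 500) (nat_lit 454))) (XT.nd (nat_lit 78) (nat_lit 456) (nat_lit 0) (XT.lf (nat_lit 0) (nat_lit 494206960) (nat_lit 304) (nat_lit 7025833279) (nat_lit 380) (nat_lit 3032844614) (nat_lit 152) (nat_lit 5) (nat_lit 156) (nat_lit 5) (nat_lit 157) (nat_lit 5) (nat_lit 607) (nat_lit 500) (nat_lit 453)) (XT.nd (nat_lit 78) (nat_lit 380) (nat_lit 0) (XT.lf (nat_lit 0) (nat_lit 950395208) (nat_lit 380) (nat_lit 1957569899) (nat_lit 76) (nat_lit 7753732354) (nat_lit 151) (nat_lit 5) (nat_lit 156) (nat_lit 5) (nat_lit 152) (nat_lit 5) (nat_lit 608) (nat_lit 500) (nat_lit 452)) (XT.lf (nat_lit 0) (nat_lit 4977916560) (nat_lit 456) (nat_lit 4483853238) (nat_lit 76) (nat_lit 1310412434) (nat_lit 146) (nat_lit 5) (nat_lit 152) (nat_lit 5) (nat_lit 147) (nat_lit 5) (nat_lit 609) (nat_lit 500) (nat_lit 451))))) (XT.nd (nat_lit 156) (nat_lit 684) (nat_lit 0) (XT.nd (nat_lit 78) (nat_lit 456) (nat_lit 0) (XT.lf (nat_lit 0) (nat_lit 3800384144) (nat_lit 304) (nat_lit 5298681422) (nat_lit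 380) (nat_lit 1785550941) (nat_lit 142) (nat_lit 5) (nat_lit 146) (nat_lit 5) (nat_lit 147) (nat_lit 5) (nat_lit 610) (nat_lit 500) (nat_lit 450)) (XT.lf (nat_lit 0) (nat_lit 1242228309) (nat_lit 380) (nat_lit 1025290616) (nat_lit 456) (nat_lit 8731594956) (nat_lit 136) (nat_lit 5) (nat_lit 141) (nat_lit 5) (nat_lit 142) (nat_lit 5) (nat_lit 611) (nat_lit 500) (nat_lit 449))) (XT.nd (nat_lit 78) (nat_lit 684) (nat_lit 0) (XT.lf (nat_lit 0) (nat_lit 6403522524) (nat_lit 456) (nat_lit 1389011482) (nat_lit 76) (nat_lit 3322616807) (nat_lit 136) (nat_lit 5) (nat_lit 142) (nat_lit 5) (nat_lit 137) (nat_lit 5) (nat_lit 612) (nat_lit 500) (nat_lit 448)) (XT.nd (nat_lit 78) (nat_lit 380) (nat_lit 0) (XT.lf (nat_lit 0) (nat_lit 7163255424) (nat_lit 304) (nat_lit 3469408026) (nat_lit 380) (nat_lit 600637939) (nat_lit 132) (nat_lit 5) (nat_lit 136) (nat_lit 5) (nat_lit 137) (nat_lit 5) (nat_lit 613) (nat_lit 500) (nat_lit 447)) (XT.lf (nat_lit 0) (nat_lit 3547729071) (nat_lit 380) (nat_lit 6842371270) (nat_lit 76)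 (nat_lit 963203849) (nat_lit 127) (nat_lit 5) (nat_lit 132) (nat_lit 5) (nat_lit 128) (nat_lit 5) (nat_lit 614) (nat_lit 500) (nat_lit 446)))))) (XT.nd (nat_lit 390) (nat_lit 608) (nat_lit 0) (XT.nd (nat_lit 156) (nat_lit 912) (nat_lit 0) (XT.nd (nat_lit 78) (nat_lit 76) (nat_lit 0) (XT.lf (nat_lit 0) (nat_lit 1769169730) (nat_lit 304) (nat_lit 6021247076) (nat_lit 380) (nat_lit 3684824098) (nat_lit 123) (nat_lit 5) (nat_lit 127) (nat_lit 5) (nat_lit 128) (nat_lit 5) (nat_lit 615) (nat_lit 500) (nat_lit 445)) (XT.lf (nat_lit 0) (nat_lit 515296133) (nat_lit 380) (nat_lit 1027217475) (nat_lit 76) (nat_lit 10056961521) (nat_lit 122) (nat_lit 5) (nat_lit 127) (nat_lit 5) (nat_lit 123) (nat_lit 5) (nat_lit 616) (nat_lit 500) (nat_lit 444))) (XT.nd (nat_lit 78) (nat_lit 608) (nat_lit 0) (XT.lf (nat_lit 0) (nat_lit 4779321507) (nat_lit 380) (nat_lit 3911086100) (nat_lit 76) (nat_lit 3034715559) (nat_lit 118) (nat_lit 5) (nat_lit 123) (nat_lit 5) (nat_lit 119) (nat_lit 5) (nat_lit 617) (nat_lit 500) (nat_lit 443))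 (XT.nd (nat_lit 78) (nat_lit 380) (nat_lit 0) (XT.lf (nat_lit 0) (nat_lit 4978576851) (nat_lit 228) (nat_lit 4158086099) (nat_lit 304) (nat_lit 2716461591) (nat_lit 115) (nat_lit 5) (nat_lit 118) (nat_lit 5) (nat_lit 119) (nat_lit 5) (nat_lit 618) (nat_lit 500) (nat_lit 442)) (XT.lf (nat_lit 0) (nat_lit 1578145198) (nat_lit 380) (nat_lit 9923726382) (nat_lit 76) (nat_lit 481575354) (nat_lit 110) (nat_lit 5) (nat_lit 115) (nat_lit 5) (nat_lit 111) (nat_lit 5) (nat_lit 619) (nat_lit 500) (nat_lit 441))))) (XT.nd (nat_lit 156) (nat_lit 380) (nat_lit 0) (XT.nd (nat_lit 78) (nat_lit 228) (nat_lit 0) (XT.lf (nat_lit 0) (nat_lit 5955109506) (nat_lit 380) (nat_lit 965053109) (nat_lit 76) (nat_lit 5195198296) (nat_lit 110) (nat_lit 5) (nat_lit 115) (nat_lit 5) (nat_lit 111) (nat_lit 5) (nat_lit 620) (nat_lit 500) (nat_lit 440)) (XT.lf (nat_lit 0) (nat_lit 8212235716) (nat_lit 228) (nat_lit 2220334374) (nat_lit 304) (nat_lit 1817084942) (nat_lit 107) (nat_lit 5) (nat_lit 110) (nat_lit 5) (nat_lit 111) (nat_lit 5)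 (nat_lit 621) (nat_lit 500) (nat_lit 439))) (XT.nd (nat_lit 76206) (nat_lit 0) (nat_lit 27968) (XT.lf (nat_lit 0) (nat_lit 2595468920) (nat_lit 380) (nat_lit 7220949123) (nat_lit 76) (nat_lit 2569542796) (nat_lit 102) (nat_lit 5) (nat_lit 107) (nat_lit 5) (nat_lit 103) (nat_lit 5) (nat_lit 622) (nat_lit 500) (nat_lit 438)) (XT.nd (nat_lit 78) (nat_lit 1900) (nat_lit 0) (XT.lf (nat_lit 0) (nat_lit 3295773106) (nat_lit 1748) (nat_lit 135097531) (nat_lit 1748) (nat_lit 135097531) (nat_lit 495) (nat_lit 4) (nat_lit 518) (nat_lit 5) (nat_lit 518) (nat_lit 4) (nat_lit 558) (nat_lit 501) (nat_lit 501)) (XT.lf (nat_lit 0) (nat_lit 3265713044) (nat_lit 1900) (nat_lit 2336388600) (nat_lit 0) (nat_lit 1566679268) (nat_lit 470) (nat_lit 5) (nat_lit 495) (nat_lit 4) (nat_lit 470) (nat_lit 4) (nat_lit 559) (nat_lit 501) (nat_lit 500))))))) (XT.nd (nat_lit 780) (nat_lit 5852) (nat_lit 0) (XT.nd (nat_lit 390) (nat_lit 3496) (nat_lit 0) (XT.nd (nat_lit 156) (nat_lit 1824) (nat_lit 0) (XT.nd (nat_lit 78) (nat_lit 988) (nat_lit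 0) (XT.lf (nat_lit 0) (nat_lit 3078872826) (nat_lit 1064) (nat_lit 3746539301) (nat_lit 1064) (nat_lit 381786136) (nat_lit 456) (nat_lit 4) (nat_lit 470) (nat_lit 5) (nat_lit 470) (nat_lit 4) (nat_lit 560) (nat_lit 501) (nat_lit 499)) (XT.lf (nat_lit 0) (nat_lit 1312293423) (nat_lit 912) (nat_lit 1811520840) (nat_lit 988) (nat_lit 4123038249) (nat_lit 443) (nat_lit 5) (nat_lit 455) (nat_lit 5) (nat_lit 456) (nat_lit 4) (nat_lit 561) (nat_lit 501) (nat_lit 498))) (XT.nd (nat_lit 78) (nat_lit 1824) (nat_lit 0) (XT.lf (nat_lit 0) (nat_lit 6655896666) (nat_lit 988) (nat_lit 445691173) (nat_lit 0) (nat_lit 186436996) (nat_lit 443) (nat_lit 5) (nat_lit 456) (nat_lit 4) (nat_lit 443) (nat_lit 4) (nat_lit 562) (nat_lit 501) (nat_lit 497)) (XT.nd (nat_lit 78) (nat_lit 836) (nat_lit 0) (XT.lf (nat_lit 0) (nat_lit 2869257631) (nat_lit 988) (nat_lit 2212426494) (nat_lit 76) (nat_lit 2248379765) (nat_lit 430) (nat_lit 5) (nat_lit 443) (nat_lit 5) (nat_lit 431) (nat_lit 4) (nat_lit 563) (nat_lit 501) (nat_lit 496)) (XT.lf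 (nat_lit 0) (nat_lit 3393849553) (nat_lit 836) (nat_lit 2997670165) (nat_lit 912) (nat_lit 982158993) (nat_lit 419) (nat_lit 5) (nat_lit 430) (nat_lit 5) (nat_lit 431) (nat_lit 4) (nat_lit 564) (nat_lit 501) (nat_lit 495))))) (XT.nd (nat_lit 156) (nat_lit 2584) (nat_lit 0) (XT.nd (nat_lit 78) (nat_lit 0) (nat_lit 0) (XT.lf (nat_lit 0) (nat_lit 1657100709) (nat_lit 836) (nat_lit 835660206) (nat_lit 912) (nat_lit 4925869247) (nat_lit 407) (nat_lit 5) (nat_lit 418) (nat_lit 5) (nat_lit 419) (nat_lit 5) (nat_lit 565) (nat_lit 501) (nat_lit 494)) (XT.lf (nat_lit 0) (nat_lit 5995234899) (nat_lit 912) (nat_lit 91821969) (nat_lit 76) (nat_lit 1377874325) (nat_lit 407) (nat_lit 5) (nat_lit 419) (nat_lit 5) (nat_lit 408) (nat_lit 4) (nat_lit 566) (nat_lit 501) (nat_lit 493))) (XT.nd (nat_lit 78) (nat_lit 1672) (nat_lit 0) (XT.lf (nat_lit 0) (nat_lit 2007652436) (nat_lit 912) (nat_lit 1837020157) (nat_lit 76) (nat_lit 3667642846) (nat_lit 395) (nat_lit 5) (nat_lit 407) (nat_lit 5) (nat_lit 396) (nat_lit 5) (nat_lit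 567) (nat_lit 501) (nat_lit 492)) (XT.nd (nat_lit 78) (nat_lit 836) (nat_lit 0) (XT.lf (nat_lit 0) (nat_lit 3968720882) (nat_lit 836) (nat_lit 1529600438) (nat_lit 912) (nat_lit 2062866977) (nat_lit 384) (nat_lit 5) (nat_lit 395) (nat_lit 5) (nat_lit 396) (nat_lit 5) (nat_lit 568) (nat_lit 501) (nat_lit 491)) (XT.lf (nat_lit 0) (nat_lit 1398789638) (nat_lit 836) (nat_lit 5364718746) (nat_lit 76) (nat_lit 847946089) (nat_lit 373) (nat_lit 5) (nat_lit 384) (nat_lit 5) (nat_lit 374) (nat_lit 5) (nat_lit 569) (nat_lit 501) (nat_lit 490)))))) (XT.nd (nat_lit 390) (nat_lit 2812) (nat_lit 0) (XT.nd (nat_lit 156) (nat_lit 2204) (nat_lit 0) (XT.nd (nat_lit 78) (nat_lit 76) (nat_lit 0) (XT.lf (nat_lit 0) (nat_lit 498746668) (nat_lit 760) (nat_lit 4379068289) (nat_lit 836) (nat_lit 2785127181) (nat_lit 363) (nat_lit 5) (nat_lit 373) (nat_lit 5) (nat_lit 374) (nat_lit 5) (nat_lit 570) (nat_lit 501) (nat_lit 489)) (XT.lf (nat_lit 0) (nat_lit 676305771) (nat_lit 836) (nat_lit 1240753741) (nat_lit 76) (nat_lit 5798818215)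 (nat_lit 362) (nat_lit 5) (nat_lit 373) (nat_lit 5) (nat_lit 363) (nat_lit 5) (nat_lit 571) (nat_lit 501) (nat_lit 488))) (XT.nd (nat_lit 78) (nat_lit 1520) (nat_lit 0) (XT.lf (nat_lit 0) (nat_lit 4144449313) (nat_lit 760) (nat_lit 3000811209) (nat_lit 76) (nat_lit 624751607) (nat_lit 353) (nat_lit 5) (nat_lit 363) (nat_lit 5) (nat_lit 354) (nat_lit 5) (nat_lit 572) (nat_lit 501) (nat_lit 487)) (XT.nd (nat_lit 78) (nat_lit 760) (nat_lit 0) (XT.lf (nat_lit 0) (nat_lit 3045735607) (nat_lit 760) (nat_lit 4617352759) (nat_lit 836) (nat_lit 162521917) (nat_lit 343) (nat_lit 5) (nat_lit 353) (nat_lit 5) (nat_lit 354) (nat_lit 5) (nat_lit 573) (nat_lit 501) (nat_lit 486)) (XT.lf (nat_lit 0) (nat_lit 1294046668) (nat_lit 684) (nat_lit 2000799211) (nat_lit 760) (nat_lit 4587655292) (nat_lit 333) (nat_lit 5) (nat_lit 342) (nat_lit 5) (nat_lit 343) (nat_lit 5) (nat_lit 574) (nat_lit 501) (nat_lit 485))))) (XT.nd (nat_lit 234) (nat_lit 1444) (nat_lit 0) (XT.nd (nat_lit 78) (nat_lit 1368) (nat_lit 0) (XT.lf (nat_lit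 0) (nat_lit 6797007535) (nat_lit 760) (nat_lit 464770545) (nat_lit 76) (nat_lit 679177360) (nat_lit 333) (nat_lit 5) (nat_lit 343) (nat_lit 5) (nat_lit 334) (nat_lit 5) (nat_lit 575) (nat_lit 501) (nat_lit 484)) (XT.nd (nat_lit 78) (nat_lit 608) (nat_lit 0) (XT.lf (nat_lit 0) (nat_lit 2330591988) (nat_lit 760) (nat_lit 2244272535) (nat_lit 76) (nat_lit 3425549597) (nat_lit 323) (nat_lit 5) (nat_lit 333) (nat_lit 5) (nat_lit 324) (nat_lit 5) (nat_lit 576) (nat_lit 501) (nat_lit 483)) (XT.lf (nat_lit 0) (nat_lit 4019547806) (nat_lit 608) (nat_lit 1811641907) (nat_lit 684) (nat_lit 2230286642) (nat_lit 315) (nat_lit 5) (nat_lit 323) (nat_lit 5) (nat_lit 324) (nat_lit 5) (nat_lit 577) (nat_lit 501) (nat_lit 482)))) (XT.nd (nat_lit 78) (nat_lit 684) (nat_lit 0) (XT.lf (nat_lit 0) (nat_lit 1240740466) (nat_lit 760) (nat_lit 5866555229) (nat_lit 76) (nat_lit 1016712102) (nat_lit 305) (nat_lit 5) (nat_lit 315) (nat_lit 5) (nat_lit 306) (nat_lit 5) (nat_lit 578) (nat_lit 501) (nat_lit 481)) (XT.nd (nat_lit 78) (nat_lit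 76) (nat_lit 0) (XT.lf (nat_lit 0) (nat_lit 456216200) (nat_lit 608) (nat_lit 4280860491) (nat_lit 684) (nat_lit 3450706402) (nat_lit 297) (nat_lit 5) (nat_lit 305) (nat_lit 5) (nat_lit 306) (nat_lit 5) (nat_lit 579) (nat_lit 501) (nat_lit 480)) (XT.lf (nat_lit 0) (nat_lit 33196509) (nat_lit 684) (nat_lit 1341121911) (nat_lit 76) (nat_lit 6878844843) (nat_lit 296) (nat_lit 5) (nat_lit 305) (nat_lit 5) (nat_lit 297) (nat_lit 5) (nat_lit 580) (nat_lit 501) (nat_lit 479))))))))
noncomputable def xc27 : XT := (XT.nd (nat_lit 1560) (nat_lit 5776) (nat_lit 0) (XT.nd (nat_lit 780) (nat_lit 3876) (nat_lit 0) (XT.nd (nat_lit 390) (nat_lit 2204) (nat_lit 0) (XT.nd (nat_lit 156) (nat_lit 1292) (nat_lit 0) (XT.nd (nat_lit 78) (nat_lit 608) (nat_lit 0) (XT.lf (nat_lit 0) (nat_lit 3529468952) (nat_lit 684) (nat_lit 3180612692) (nat_lit 76) (nat_lit 1609538213) (nat_lit 288) (nat_lit 5) (nat_lit 297) (nat_lit 5) (nat_lit 289) (nat_lit 5) (nat_lit 581) (nat_lit 501) (nat_lit 478)) (XT.lf (nat_lit 0) (nat_lit 3341838075)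 (nat_lit 608) (nat_lit 3739022135) (nat_lit 684) (nat_lit 1306844378) (nat_lit 280) (nat_lit 5) (nat_lit 288) (nat_lit 5) (nat_lit 289) (nat_lit 5) (nat_lit 582) (nat_lit 501) (nat_lit 477))) (XT.nd (nat_lit 78) (nat_lit 608) (nat_lit 0) (XT.lf (nat_lit 0) (nat_lit 1513481580) (nat_lit 608) (nat_lit 680078334) (nat_lit 684) (nat_lit 6263764396) (nat_lit 271) (nat_lit 5) (nat_lit 279) (nat_lit 5) (nat_lit 280) (nat_lit 5) (nat_lit 583) (nat_lit 501) (nat_lit 476)) (XT.nd (nat_lit 78) (nat_lit 608) (nat_lit 0) (XT.lf (nat_lit 0) (nat_lit 5742473412) (nat_lit 684) (nat_lit 353217330) (nat_lit 76) (nat_lit 2432555631) (nat_lit 271) (nat_lit 5) (nat_lit 280) (nat_lit 5) (nat_lit 272) (nat_lit 5) (nat_lit 584) (nat_lit 501) (nat_lit 475)) (XT.lf (nat_lit 0) (nat_lit 744757161) (nat_lit 608) (nat_lit 2229098051) (nat_lit 76) (nat_lit 5626775955) (nat_lit 263) (nat_lit 5) (nat_lit 271) (nat_lit 5) (nat_lit 264) (nat_lit 5) (nat_lit 585) (nat_lit 501) (nat_lit 474))))) (XT.nd (nat_lit 156) (nat_lit 1140) (nat_lit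 0) (XT.nd (nat_lit 78) (nat_lit 532) (nat_lit 0) (XT.lf (nat_lit 0) (nat_lit 4289341256) (nat_lit 608) (nat_lit 4146034547) (nat_lit 76) (nat_lit 239107230) (nat_lit 256) (nat_lit 5) (nat_lit 264) (nat_lit 5) (nat_lit 257) (nat_lit 5) (nat_lit 586) (nat_lit 501) (nat_lit 473)) (XT.lf (nat_lit 0) (nat_lit 2644246385) (nat_lit 532) (nat_lit 5260271003) (nat_lit 608) (nat_lit 845303043) (nat_lit 249) (nat_lit 5) (nat_lit 256) (nat_lit 5) (nat_lit 257) (nat_lit 5) (nat_lit 587) (nat_lit 501) (nat_lit 472))) (XT.nd (nat_lit 78) (nat_lit 532) (nat_lit 0) (XT.lf (nat_lit 0) (nat_lit 719010952) (nat_lit 532) (nat_lit 1990720371) (nat_lit 608) (nat_lit 6116963237) (nat_lit 241) (nat_lit 5) (nat_lit 248) (nat_lit 5) (nat_lit 249) (nat_lit 5) (nat_lit 588) (nat_lit 501) (nat_lit 471)) (XT.nd (nat_lit 78) (nat_lit 532) (nat_lit 0) (XT.lf (nat_lit 0) (nat_lit 6322936907) (nat_lit 608) (nat_lit 1229157459) (nat_lit 76) (nat_lit 1352934632) (nat_lit 241) (nat_lit 5) (nat_lit 249) (nat_lit 5) (nat_lit 242) (nat_lit 5)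 (nat_lit 589) (nat_lit 501) (nat_lit 470)) (XT.lf (nat_lit 0) (nat_lit 1010168692) (nat_lit 532) (nat_lit 3213733150) (nat_lit 76) (nat_lit 4760895341) (nat_lit 234) (nat_lit 5) (nat_lit 241) (nat_lit 5) (nat_lit 235) (nat_lit 5) (nat_lit 590) (nat_lit 501) (nat_lit 469)))))) (XT.nd (nat_lit 390) (nat_lit 1824) (nat_lit 0) (XT.nd (nat_lit 156) (nat_lit 1064) (nat_lit 0) (XT.nd (nat_lit 78) (nat_lit 456) (nat_lit 0) (XT.lf (nat_lit 0) (nat_lit 3823050724) (nat_lit 532) (nat_lit 799422083) (nat_lit 608) (nat_lit 4443693347) (nat_lit 227) (nat_lit 5) (nat_lit 234) (nat_lit 5) (nat_lit 235) (nat_lit 5) (nat_lit 591) (nat_lit 501) (nat_lit 468)) (XT.lf (nat_lit 0) (nat_lit 1829488131) (nat_lit 456) (nat_lit 6478609672) (nat_lit 532) (nat_lit 841045383) (nat_lit 221) (nat_lit 5) (nat_lit 227) (nat_lit 5) (nat_lit 228) (nat_lit 5) (nat_lit 592) (nat_lit 501) (nat_lit 467))) (XT.nd (nat_lit 78) (nat_lit 988) (nat_lit 0) (XT.lf (nat_lit 0) (nat_lit 2787386874) (nat_lit 532) (nat_lit 214851191) (nat_lit 76) (nat_lit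 6231357924) (nat_lit 220) (nat_lit 5) (nat_lit 227) (nat_lit 5) (nat_lit 221) (nat_lit 5) (nat_lit 593) (nat_lit 501) (nat_lit 466)) (XT.nd (nat_lit 78) (nat_lit 532) (nat_lit 0) (XT.lf (nat_lit 0) (nat_lit 6477782471) (nat_lit 532) (nat_lit 2275547320) (nat_lit 76) (nat_lit 566285797) (nat_lit 214) (nat_lit 5) (nat_lit 221) (nat_lit 5) (nat_lit 215) (nat_lit 5) (nat_lit 594) (nat_lit 501) (nat_lit 465)) (XT.lf (nat_lit 0) (nat_lit 829149483) (nat_lit 532) (nat_lit 4394430174) (nat_lit 76) (nat_lit 4183560208) (nat_lit 207) (nat_lit 5) (nat_lit 214) (nat_lit 5) (nat_lit 208) (nat_lit 5) (nat_lit 595) (nat_lit 501) (nat_lit 464))))) (XT.nd (nat_lit 156) (nat_lit 988) (nat_lit 0) (XT.nd (nat_lit 78) (nat_lit 380) (nat_lit 0) (XT.lf (nat_lit 0) (nat_lit 2929390621) (nat_lit 456) (nat_lit 1592221461) (nat_lit 532) (nat_lit 4974706538) (nat_lit 201) (nat_lit 5) (nat_lit 207) (nat_lit 5) (nat_lit 208) (nat_lit 5) (nat_lit 596) (nat_lit 501) (nat_lit 463)) (XT.lf (nat_lit 0) (nat_lit 797201141) (nat_lit 380) (nat_lit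 7491314624) (nat_lit 456) (nat_lit 1298755246) (nat_lit 196) (nat_lit 5) (nat_lit 201) (nat_lit 5) (nat_lit 202) (nat_lit 5) (nat_lit 597) (nat_lit 501) (nat_lit 462))) (XT.nd (nat_lit 78) (nat_lit 912) (nat_lit 0) (XT.lf (nat_lit 0) (nat_lit 2425658585) (nat_lit 456) (nat_lit 1380356365) (nat_lit 76) (nat_lit 5873569386) (nat_lit 195) (nat_lit 5) (nat_lit 201) (nat_lit 5) (nat_lit 196) (nat_lit 5) (nat_lit 598) (nat_lit 501) (nat_lit 461)) (XT.nd (nat_lit 78) (nat_lit 456) (nat_lit 0) (XT.lf (nat_lit 0) (nat_lit 6179330121) (nat_lit 456) (nat_lit 21095619) (nat_lit 532) (nat_lit 3573283173) (nat_lit 189) (nat_lit 5) (nat_lit 195) (nat_lit 5) (nat_lit 196) (nat_lit 5) (nat_lit 599) (nat_lit 501) (nat_lit 460)) (XT.lf (nat_lit 0) (nat_lit 192311731) (nat_lit 456) (nat_lit 5874877850) (nat_lit 76) (nat_lit 3802230358) (nat_lit 183) (nat_lit 5) (nat_lit 189) (nat_lit 5) (nat_lit 184) (nat_lit 5) (nat_lit 600) (nat_lit 501) (nat_lit 459))))))) (XT.nd (nat_lit 780) (nat_lit 2660) (nat_lit 0) (XT.nd (nat_lit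 390) (nat_lit 1520) (nat_lit 0) (XT.nd (nat_lit 156) (nat_lit 1216) (nat_lit 0) (XT.nd (nat_lit 78) (nat_lit 0) (nat_lit 0) (XT.lf (nat_lit 0) (nat_lit 1745200609) (nat_lit 380) (nat_lit 2229543178) (nat_lit 456) (nat_lit 5992043263) (nat_lit 178) (nat_lit 5) (nat_lit 183) (nat_lit 5) (nat_lit 184) (nat_lit 5) (nat_lit 601) (nat_lit 501) (nat_lit 458)) (XT.lf (nat_lit 0) (nat_lit 7837315706) (nat_lit 456) (nat_lit 550615856) (nat_lit 76) (nat_lit 1678081769) (nat_lit 178) (nat_lit 5) (nat_lit 184) (nat_lit 5) (nat_lit 179) (nat_lit 5) (nat_lit 602) (nat_lit 501) (nat_lit 457))) (XT.nd (nat_lit 78) (nat_lit 760) (nat_lit 0) (XT.lf (nat_lit 0) (nat_lit 1605743631) (nat_lit 456) (nat_lit 2892924661) (nat_lit 76) (nat_lit 5668009518) (nat_lit 172) (nat_lit 5) (nat_lit 178) (nat_lit 5) (nat_lit 173) (nat_lit 5) (nat_lit 603) (nat_lit 501) (nat_lit 456)) (XT.nd (nat_lit 78) (nat_lit 380) (nat_lit 0) (XT.lf (nat_lit 0) (nat_lit 4973071805) (nat_lit 380) (nat_lit 504904390) (nat_lit 456) (nat_lit 4791267411) (nat_lit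 167) (nat_lit 5) (nat_lit 172) (nat_lit 5) (nat_lit 173) (nat_lit 5) (nat_lit 604) (nat_lit 501) (nat_lit 455)) (XT.lf (nat_lit 0) (nat_lit 2602534601) (nat_lit 380) (nat_lit 6839906429) (nat_lit 456) (nat_lit 931125460) (nat_lit 162) (nat_lit 5) (nat_lit 167) (nat_lit 5) (nat_lit 168) (nat_lit 5) (nat_lit 605) (nat_lit 501) (nat_lit 454))))) (XT.nd (nat_lit 156) (nat_lit 1064) (nat_lit 0) (XT.nd (nat_lit 78) (nat_lit 0) (nat_lit 0) (XT.lf (nat_lit 0) (nat_lit 160183353) (nat_lit 380) (nat_lit 2802075222) (nat_lit 456) (nat_lit 7517419028) (nat_lit 156) (nat_lit 5) (nat_lit 161) (nat_lit 5) (nat_lit 162) (nat_lit 5) (nat_lit 606) (nat_lit 501) (nat_lit 453)) (XT.lf (nat_lit 0) (nat_lit 6937655590) (nat_lit 456) (nat_lit 2317382207) (nat_lit 76) (nat_lit 1332419224) (nat_lit 156) (nat_lit 5) (nat_lit 162) (nat_lit 5) (nat_lit 157) (nat_lit 5) (nat_lit 607) (nat_lit 501) (nat_lit 452))) (XT.nd (nat_lit 78) (nat_lit 684) (nat_lit 0) (XT.lf (nat_lit 0) (nat_lit 304243548) (nat_lit 380) (nat_lit 4865845360)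 (nat_lit 76) (nat_lit 5527007246) (nat_lit 151) (nat_lit 5) (nat_lit 156) (nat_lit 5) (nat_lit 152) (nat_lit 5) (nat_lit 608) (nat_lit 501) (nat_lit 451)) (XT.nd (nat_lit 78) (nat_lit 304) (nat_lit 0) (XT.lf (nat_lit 0) (nat_lit 3315309611) (nat_lit 380) (nat_lit 966964990) (nat_lit 456) (nat_lit 6526296799) (nat_lit 146) (nat_lit 5) (nat_lit 151) (nat_lit 5) (nat_lit 152) (nat_lit 5) (nat_lit 609) (nat_lit 501) (nat_lit 450)) (XT.lf (nat_lit 0) (nat_lit 722337556) (nat_lit 304) (nat_lit 7633429855) (nat_lit 380) (nat_lit 2566192045) (nat_lit 142) (nat_lit 5) (nat_lit 146) (nat_lit 5) (nat_lit 147) (nat_lit 5) (nat_lit 610) (nat_lit 501) (nat_lit 449)))))) (XT.nd (nat_lit 390) (nat_lit 1520) (nat_lit 0) (XT.nd (nat_lit 156) (nat_lit 684) (nat_lit 0) (XT.nd (nat_lit 78) (nat_lit 380) (nat_lit 0) (XT.lf (nat_lit 0) (nat_lit 1467713039) (nat_lit 380) (nat_lit 1918988829) (nat_lit 76) (nat_lit 7650445022) (nat_lit 141) (nat_lit 5) (nat_lit 146) (nat_lit 5) (nat_lit 142) (nat_lit 5) (nat_lit 611) (nat_lit 501)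 (nat_lit 448)) (XT.lf (nat_lit 0) (nat_lit 5554447861) (nat_lit 456) (nat_lit 4633314908) (nat_lit 76) (nat_lit 966407048) (nat_lit 136) (nat_lit 5) (nat_lit 142) (nat_lit 5) (nat_lit 137) (nat_lit 5) (nat_lit 612) (nat_lit 501) (nat_lit 447))) (XT.nd (nat_lit 78) (nat_lit 380) (nat_lit 0) (XT.lf (nat_lit 0) (nat_lit 3841351411) (nat_lit 304) (nat_lit 5899857224) (nat_lit 380) (nat_lit 1531959970) (nat_lit 132) (nat_lit 5) (nat_lit 136) (nat_lit 5) (nat_lit 137) (nat_lit 5) (nat_lit 613) (nat_lit 501) (nat_lit 446)) (XT.nd (nat_lit 78) (nat_lit 0) (nat_lit 0) (XT.lf (nat_lit 0) (nat_lit 1082537464) (nat_lit 304) (nat_lit 1496685033) (nat_lit 380) (nat_lit 8815058407) (nat_lit 127) (nat_lit 5) (nat_lit 131) (nat_lit 5) (nat_lit 132) (nat_lit 5) (nat_lit 614) (nat_lit 501) (nat_lit 445)) (XT.lf (nat_lit 0) (nat_lit 6780046337) (nat_lit 380) (nat_lit 1747875265) (nat_lit 76) (nat_lit 2989133866) (nat_lit 127) (nat_lit 5) (nat_lit 132) (nat_lit 5) (nat_lit 128) (nat_lit 5) (nat_lit 615) (nat_lit 501) (nat_lit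 444))))) (XT.nd (nat_lit 234) (nat_lit 608) (nat_lit 0) (XT.nd (nat_lit 78) (nat_lit 608) (nat_lit 0) (XT.lf (nat_lit 0) (nat_lit 7001479823) (nat_lit 304) (nat_lit 4077862396) (nat_lit 380) (nat_lit 562655326) (nat_lit 123) (nat_lit 5) (nat_lit 127) (nat_lit 5) (nat_lit 128) (nat_lit 5) (nat_lit 616) (nat_lit 501) (nat_lit 443)) (XT.nd (nat_lit 78) (nat_lit 228) (nat_lit 0) (XT.lf (nat_lit 0) (nat_lit 3647842827) (nat_lit 380) (nat_lit 7629463858) (nat_lit 76) (nat_lit 491630629) (nat_lit 118) (nat_lit 5) (nat_lit 123) (nat_lit 5) (nat_lit 119) (nat_lit 5) (nat_lit 617) (nat_lit 501) (nat_lit 442)) (XT.lf (nat_lit 0) (nat_lit 1176677152) (nat_lit 228) (nat_lit 6783708703) (nat_lit 304) (nat_lit 3937449330) (nat_lit 115) (nat_lit 5) (nat_lit 118) (nat_lit 5) (nat_lit 119) (nat_lit 5) (nat_lit 618) (nat_lit 501) (nat_lit 441)))) (XT.nd (nat_lit 78) (nat_lit 532) (nat_lit 0) (XT.lf (nat_lit 0) (nat_lit 336539408) (nat_lit 304) (nat_lit 1836491809) (nat_lit 76) (nat_lit 9856018050) (nat_lit 114) (nat_lit 5)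 (nat_lit 118) (nat_lit 5) (nat_lit 115) (nat_lit 5) (nat_lit 619) (nat_lit 501) (nat_lit 440)) (XT.nd (nat_lit 78) (nat_lit 228) (nat_lit 0) (XT.lf (nat_lit 0) (nat_lit 4667251427) (nat_lit 380) (nat_lit 4951120179) (nat_lit 76) (nat_lit 2543517181) (nat_lit 110) (nat_lit 5) (nat_lit 115) (nat_lit 5) (nat_lit 111) (nat_lit 5) (nat_lit 620) (nat_lit 501) (nat_lit 439)) (XT.lf (nat_lit 0) (nat_lit 4139624742) (nat_lit 228) (nat_lit 4959055637) (nat_lit 304) (nat_lit 3198423650) (nat_lit 107) (nat_lit 5) (nat_lit 110) (nat_lit 5) (nat_lit 111) (nat_lit 5) (nat_lit 621) (nat_lit 501) (nat_lit 438))))))))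
noncomputable def xc28 : XT := (XT.nd (nat_lit 77532) (nat_lit 0) (nat_lit 8512) (XT.nd (nat_lit 76752) (nat_lit 0) (nat_lit 17556) (XT.nd (nat_lit 76362) (nat_lit 0) (nat_lit 24016) (XT.nd (nat_lit 76128) (nat_lit 0) (nat_lit 27968) (XT.nd (nat_lit 76050) (nat_lit 0) (nat_lit 31616) (XT.lf (nat_lit 0) (nat_lit 982915035) (nat_lit 304) (nat_lit 185613696) (nat_lit 380) (nat_lit 11266335305) (nat_lit 102) (nat_lit 5) (nat_lit 106) (nat_lit 5) (nat_lit 107) (nat_lit 5) (nat_lit 622) (nat_lit 501) (nat_lit 437)) (XT.lf (nat_lit 0) (nat_lit 772841042) (nat_lit 1748) (nat_lit 1984727006) (nat_lit 0) (nat_lit 772841042) (nat_lit 518) (nat_lit 5) (nat_lit 541) (nat_lit 4) (nat_lit 518) (nat_lit 4) (nat_lit 556) (nat_lit 502) (nat_lit 502))) (XT.nd (nat_lit 78) (nat_lit 1900) (nat_lit 0) (XT.lf (nat_lit 0) (nat_lit 1249558428) (nat_lit 1748) (nat_lit 3807028983) (nat_lit 1748) (nat_lit 2039354242) (nat_lit 495) (nat_lit 4) (nat_lit 518) (nat_lit 5) (nat_lit 518) (nat_lit 4) (nat_lit 557) (nat_lit 502) (nat_lit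 501)) (XT.nd (nat_lit 78) (nat_lit 1824) (nat_lit 0) (XT.lf (nat_lit 0) (nat_lit 1443363395) (nat_lit 1824) (nat_lit 585095134) (nat_lit 76) (nat_lit 5103975621) (nat_lit 494) (nat_lit 5) (nat_lit 518) (nat_lit 5) (nat_lit 495) (nat_lit 4) (nat_lit 558) (nat_lit 502) (nat_lit 500)) (XT.lf (nat_lit 0) (nat_lit 4761076608) (nat_lit 1824) (nat_lit 170012291) (nat_lit 1900) (nat_lit 2239050202) (nat_lit 470) (nat_lit 5) (nat_lit 494) (nat_lit 5) (nat_lit 495) (nat_lit 4) (nat_lit 559) (nat_lit 502) (nat_lit 499))))) (XT.nd (nat_lit 156) (nat_lit 1900) (nat_lit 0) (XT.nd (nat_lit 78) (nat_lit 912) (nat_lit 0) (XT.lf (nat_lit 0) (nat_lit 1230012498) (nat_lit 1140) (nat_lit 4246200593) (nat_lit 76) (nat_lit 1732887481) (nat_lit 455) (nat_lit 5) (nat_lit 470) (nat_lit 5) (nat_lit 456) (nat_lit 4) (nat_lit 560) (nat_lit 502) (nat_lit 498)) (XT.lf (nat_lit 0) (nat_lit 1154924938) (nat_lit 912) (nat_lit 3541504890) (nat_lit 988) (nat_lit 2552961462) (nat_lit 443) (nat_lit 5) (nat_lit 455) (nat_lit 5) (nat_lit 456)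 (nat_lit 4) (nat_lit 561) (nat_lit 502) (nat_lit 497))) (XT.nd (nat_lit 78) (nat_lit 1824) (nat_lit 0) (XT.lf (nat_lit 0) (nat_lit 891463890) (nat_lit 988) (nat_lit 645614504) (nat_lit 76) (nat_lit 5754049519) (nat_lit 442) (nat_lit 5) (nat_lit 455) (nat_lit 5) (nat_lit 443) (nat_lit 5) (nat_lit 562) (nat_lit 502) (nat_lit 496)) (XT.nd (nat_lit 78) (nat_lit 912) (nat_lit 0) (XT.lf (nat_lit 0) (nat_lit 4340710490) (nat_lit 988) (nat_lit 2447818864) (nat_lit 76) (nat_lit 545434884) (nat_lit 430) (nat_lit 5) (nat_lit 443) (nat_lit 5) (nat_lit 431) (nat_lit 4) (nat_lit 563) (nat_lit 502) (nat_lit 495)) (XT.lf (nat_lit 0) (nat_lit 445117210) (nat_lit 912) (nat_lit 4261187589) (nat_lit 76) (nat_lit 2671891726) (nat_lit 418) (nat_lit 5) (nat_lit 430) (nat_lit 5) (nat_lit 419) (nat_lit 5) (nat_lit 564) (nat_lit 502) (nat_lit 494)))))) (XT.nd (nat_lit 390) (nat_lit 3040) (nat_lit 0) (XT.nd (nat_lit 156) (nat_lit 2584) (nat_lit 0) (XT.nd (nat_lit 78) (nat_lit 0) (nat_lit 0) (XT.lf (nat_lit 0) (nat_lit 1330011643)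 (nat_lit 836) (nat_lit 2543303554) (nat_lit 912) (nat_lit 3550384300) (nat_lit 407) (nat_lit 5) (nat_lit 418) (nat_lit 5) (nat_lit 419) (nat_lit 5) (nat_lit 565) (nat_lit 502) (nat_lit 493)) (XT.lf (nat_lit 0) (nat_lit 7020433128) (nat_lit 836) (nat_lit 314969780) (nat_lit 912) (nat_lit 135407545) (nat_lit 407) (nat_lit 5) (nat_lit 418) (nat_lit 5) (nat_lit 419) (nat_lit 5) (nat_lit 566) (nat_lit 502) (nat_lit 492))) (XT.nd (nat_lit 78) (nat_lit 1672) (nat_lit 0) (XT.lf (nat_lit 0) (nat_lit 3288856967) (nat_lit 912) (nat_lit 2248491685) (nat_lit 76) (nat_lit 1981386595) (nat_lit 395) (nat_lit 5) (nat_lit 407) (nat_lit 5) (nat_lit 396) (nat_lit 5) (nat_lit 567) (nat_lit 502) (nat_lit 491)) (XT.nd (nat_lit 78) (nat_lit 836) (nat_lit 0) (XT.lf (nat_lit 0) (nat_lit 3516393224) (nat_lit 836) (nat_lit 3229641650) (nat_lit 912) (nat_lit 822245124) (nat_lit 384) (nat_lit 5) (nat_lit 395) (nat_lit 5) (nat_lit 396) (nat_lit 5) (nat_lit 568) (nat_lit 502) (nat_lit 490)) (XT.lf (nat_lit 0) (nat_lit 1743172882) (nat_lit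 760) (nat_lit 840700432) (nat_lit 836) (nat_lit 5035299097) (nat_lit 373) (nat_lit 5) (nat_lit 383) (nat_lit 5) (nat_lit 384) (nat_lit 5) (nat_lit 569) (nat_lit 502) (nat_lit 489))))) (XT.nd (nat_lit 156) (nat_lit 2204) (nat_lit 0) (XT.nd (nat_lit 78) (nat_lit 836) (nat_lit 0) (XT.lf (nat_lit 0) (nat_lit 6024157666) (nat_lit 836) (nat_lit 49056410) (nat_lit 76) (nat_lit 1598222772) (nat_lit 373) (nat_lit 5) (nat_lit 384) (nat_lit 5) (nat_lit 374) (nat_lit 5) (nat_lit 570) (nat_lit 502) (nat_lit 488)) (XT.lf (nat_lit 0) (nat_lit 1769023474) (nat_lit 836) (nat_lit 1840700818) (nat_lit 76) (nat_lit 4115106413) (nat_lit 362) (nat_lit 5) (nat_lit 373) (nat_lit 5) (nat_lit 363) (nat_lit 5) (nat_lit 571) (nat_lit 502) (nat_lit 487))) (XT.nd (nat_lit 78) (nat_lit 1520) (nat_lit 0) (XT.lf (nat_lit 0) (nat_lit 4130102148) (nat_lit 684) (nat_lit 1069481578) (nat_lit 760) (nat_lit 2580134887) (nat_lit 353) (nat_lit 5) (nat_lit 362) (nat_lit 5) (nat_lit 363) (nat_lit 5) (nat_lit 572) (nat_lit 502) (nat_lit 486)) (XT.nd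 (nat_lit 78) (nat_lit 684) (nat_lit 0) (XT.lf (nat_lit 0) (nat_lit 830674725) (nat_lit 836) (nat_lit 5481936243) (nat_lit 76) (nat_lit 1523405958) (nat_lit 342) (nat_lit 5) (nat_lit 353) (nat_lit 5) (nat_lit 343) (nat_lit 5) (nat_lit 573) (nat_lit 502) (nat_lit 485)) (XT.lf (nat_lit 0) (nat_lit 545741415) (nat_lit 684) (nat_lit 3706476493) (nat_lit 760) (nat_lit 3641344397) (nat_lit 333) (nat_lit 5) (nat_lit 342) (nat_lit 5) (nat_lit 343) (nat_lit 5) (nat_lit 574) (nat_lit 502) (nat_lit 484))))))) (XT.nd (nat_lit 780) (nat_lit 4332) (nat_lit 0) (XT.nd (nat_lit 390) (nat_lit 2584) (nat_lit 0) (XT.nd (nat_lit 156) (nat_lit 1368) (nat_lit 0) (XT.nd (nat_lit 78) (nat_lit 760) (nat_lit 0) (XT.lf (nat_lit 0) (nat_lit 6697295678) (nat_lit 684) (nat_lit 1024118221) (nat_lit 760) (nat_lit 231263690) (nat_lit 333) (nat_lit 5) (nat_lit 342) (nat_lit 5) (nat_lit 343) (nat_lit 5) (nat_lit 575) (nat_lit 502) (nat_lit 483)) (XT.lf (nat_lit 0) (nat_lit 3191021638) (nat_lit 760) (nat_lit 3092273425) (nat_lit 76) (nat_lit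 1729530015) (nat_lit 323) (nat_lit 5) (nat_lit 333) (nat_lit 5) (nat_lit 324) (nat_lit 5) (nat_lit 576) (nat_lit 502) (nat_lit 482))) (XT.nd (nat_lit 78) (nat_lit 760) (nat_lit 0) (XT.lf (nat_lit 0) (nat_lit 3124698563) (nat_lit 608) (nat_lit 3533268241) (nat_lit 684) (nat_lit 1416595163) (nat_lit 315) (nat_lit 5) (nat_lit 323) (nat_lit 5) (nat_lit 324) (nat_lit 5) (nat_lit 577) (nat_lit 502) (nat_lit 481)) (XT.nd (nat_lit 78) (nat_lit 0) (nat_lit 0) (XT.lf (nat_lit 0) (nat_lit 1303201717) (nat_lit 684) (nat_lit 699922729) (nat_lit 760) (nat_lit 6134677558) (nat_lit 305) (nat_lit 5) (nat_lit 314) (nat_lit 5) (nat_lit 315) (nat_lit 5) (nat_lit 578) (nat_lit 502) (nat_lit 480)) (XT.lf (nat_lit 0) (nat_lit 5464513666) (nat_lit 760) (nat_lit 548786736) (nat_lit 76) (nat_lit 2188977348) (nat_lit 305) (nat_lit 5) (nat_lit 315) (nat_lit 5) (nat_lit 306) (nat_lit 5) (nat_lit 579) (nat_lit 502) (nat_lit 479))))) (XT.nd (nat_lit 156) (nat_lit 1292) (nat_lit 0) (XT.nd (nat_lit 78) (nat_lit 608) (nat_lit 0) (XT.lf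 (nat_lit 0) (nat_lit 705841340) (nat_lit 684) (nat_lit 2408239416) (nat_lit 76) (nat_lit 5154104980) (nat_lit 296) (nat_lit 5) (nat_lit 305) (nat_lit 5) (nat_lit 297) (nat_lit 5) (nat_lit 580) (nat_lit 502) (nat_lit 478)) (XT.lf (nat_lit 0) (nat_lit 4033093986) (nat_lit 608) (nat_lit 124403055) (nat_lit 684) (nat_lit 4178039045) (nat_lit 288) (nat_lit 5) (nat_lit 296) (nat_lit 5) (nat_lit 297) (nat_lit 5) (nat_lit 581) (nat_lit 502) (nat_lit 477))) (XT.nd (nat_lit 78) (nat_lit 684) (nat_lit 0) (XT.lf (nat_lit 0) (nat_lit 2170252712) (nat_lit 608) (nat_lit 5503690040) (nat_lit 684) (nat_lit 730378372) (nat_lit 280) (nat_lit 5) (nat_lit 288) (nat_lit 5) (nat_lit 289) (nat_lit 5) (nat_lit 582) (nat_lit 502) (nat_lit 476)) (XT.nd (nat_lit 78) (nat_lit 0) (nat_lit 0) (XT.lf (nat_lit 0) (nat_lit 269908297) (nat_lit 608) (nat_lit 2458070016) (nat_lit 684) (nat_lit 5746578761) (nat_lit 271) (nat_lit 5) (nat_lit 279) (nat_lit 5) (nat_lit 280) (nat_lit 5) (nat_lit 583) (nat_lit 502) (nat_lit 475)) (XT.lf (nat_lit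 0) (nat_lit 6239166760) (nat_lit 684) (nat_lit 1638031587) (nat_lit 76) (nat_lit 669036605) (nat_lit 271) (nat_lit 5) (nat_lit 280) (nat_lit 5) (nat_lit 272) (nat_lit 5) (nat_lit 584) (nat_lit 502) (nat_lit 474)))))) (XT.nd (nat_lit 390) (nat_lit 2052) (nat_lit 0) (XT.nd (nat_lit 156) (nat_lit 1140) (nat_lit 0) (XT.nd (nat_lit 78) (nat_lit 532) (nat_lit 0) (XT.lf (nat_lit 0) (nat_lit 1182605049) (nat_lit 608) (nat_lit 3587862472) (nat_lit 76) (nat_lit 3848782899) (nat_lit 263) (nat_lit 5) (nat_lit 271) (nat_lit 5) (nat_lit 264) (nat_lit 5) (nat_lit 585) (nat_lit 502) (nat_lit 473)) (XT.lf (nat_lit 0) (nat_lit 3117800046) (nat_lit 532) (nat_lit 1573088036) (nat_lit 608) (nat_lit 4002941464) (nat_lit 256) (nat_lit 5) (nat_lit 263) (nat_lit 5) (nat_lit 264) (nat_lit 5) (nat_lit 586) (nat_lit 502) (nat_lit 472))) (XT.nd (nat_lit 78) (nat_lit 608) (nat_lit 0) (XT.lf (nat_lit 0) (nat_lit 1169947207) (nat_lit 532) (nat_lit 7090986883) (nat_lit 608) (nat_lit 509136670) (nat_lit 249) (nat_lit 5) (nat_lit 256) (nat_lit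 5) (nat_lit 257) (nat_lit 5) (nat_lit 587) (nat_lit 502) (nat_lit 471)) (XT.nd (nat_lit 78) (nat_lit 532) (nat_lit 0) (XT.lf (nat_lit 0) (nat_lit 3011578851) (nat_lit 608) (nat_lit 822438339) (nat_lit 76) (nat_lit 5013483413) (nat_lit 248) (nat_lit 5) (nat_lit 256) (nat_lit 5) (nat_lit 249) (nat_lit 5) (nat_lit 588) (nat_lit 502) (nat_lit 470)) (XT.lf (nat_lit 0) (nat_lit 6097516318) (nat_lit 532) (nat_lit 487982118) (nat_lit 608) (nat_lit 2341123470) (nat_lit 241) (nat_lit 5) (nat_lit 248) (nat_lit 5) (nat_lit 249) (nat_lit 5) (nat_lit 589) (nat_lit 502) (nat_lit 469))))) (XT.nd (nat_lit 156) (nat_lit 988) (nat_lit 0) (XT.nd (nat_lit 78) (nat_lit 532) (nat_lit 0) (XT.lf (nat_lit 0) (nat_lit 1209270065) (nat_lit 532) (nat_lit 4890663019) (nat_lit 76) (nat_lit 2907200954) (nat_lit 234) (nat_lit 5) (nat_lit 241) (nat_lit 5) (nat_lit 235) (nat_lit 5) (nat_lit 590) (nat_lit 502) (nat_lit 468)) (XT.lf (nat_lit 0) (nat_lit 2088480151) (nat_lit 532) (nat_lit 2697378207) (nat_lit 608) (nat_lit 4303360046) (nat_lit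 227) (nat_lit 5) (nat_lit 234) (nat_lit 5) (nat_lit 235) (nat_lit 5) (nat_lit 591) (nat_lit 502) (nat_lit 467))) (XT.nd (nat_lit 78) (nat_lit 532) (nat_lit 0) (XT.lf (nat_lit 0) (nat_lit 25448732) (nat_lit 456) (nat_lit 8397731481) (nat_lit 532) (nat_lit 749982343) (nat_lit 221) (nat_lit 5) (nat_lit 227) (nat_lit 5) (nat_lit 228) (nat_lit 5) (nat_lit 592) (nat_lit 502) (nat_lit 466)) (XT.nd (nat_lit 78) (nat_lit 456) (nat_lit 0) (XT.lf (nat_lit 0) (nat_lit 2853077766) (nat_lit 532) (nat_lit 2078671811) (nat_lit 76) (nat_lit 4326338530) (nat_lit 220) (nat_lit 5) (nat_lit 227) (nat_lit 5) (nat_lit 221) (nat_lit 5) (nat_lit 593) (nat_lit 502) (nat_lit 465)) (XT.lf (nat_lit 0) (nat_lit 5124339307) (nat_lit 456) (nat_lit 1379215901) (nat_lit 532) (nat_lit 2841351857) (nat_lit 214) (nat_lit 5) (nat_lit 220) (nat_lit 5) (nat_lit 221) (nat_lit 5) (nat_lit 594) (nat_lit 502) (nat_lit 464))))))))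
noncomputable def xc29 : XT := (XT.nd (nat_lit 1560) (nat_lit 1824) (nat_lit 0) (XT.nd (nat_lit 780) (nat_lit 2736) (nat_lit 0) (XT.nd (nat_lit 390) (nat_lit 1672) (nat_lit 0) (XT.nd (nat_lit 156) (nat_lit 912) (nat_lit 0) (XT.nd (nat_lit 78) (nat_lit 456) (nat_lit 0) (XT.lf (nat_lit 0) (nat_lit 783870959) (nat_lit 532) (nat_lit 6417243528) (nat_lit 76) (nat_lit 2232232820) (nat_lit 207) (nat_lit 5) (nat_lit 214) (nat_lit 5) (nat_lit 208) (nat_lit 5) (nat_lit 595) (nat_lit 502) (nat_lit 463)) (XT.lf (nat_lit 0) (nat_lit 844494639) (nat_lit 456) (nat_lit 3594853609) (nat_lit 532) (nat_lit 5083918459) (nat_lit 201) (nat_lit 5) (nat_lit 207) (nat_lit 5) (nat_lit 208) (nat_lit 5) (nat_lit 596) (nat_lit 502) (nat_lit 462))) (XT.nd (nat_lit 78) (nat_lit 912) (nat_lit 0) (XT.lf (nat_lit 0) (nat_lit 8164787140) (nat_lit 532) (nat_lit 1346998077) (nat_lit 76) (nat_lit 103264096) (nat_lit 201) (nat_lit 5) (nat_lit 208) (nat_lit 5) (nat_lit 202) (nat_lit 5) (nat_lit 597) (nat_lit 502) (nat_lit 461)) (XT.nd (nat_lit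 78) (nat_lit 456) (nat_lit 0) (XT.lf (nat_lit 0) (nat_lit 2244009672) (nat_lit 456) (nat_lit 3604351472) (nat_lit 76) (nat_lit 3859664633) (nat_lit 195) (nat_lit 5) (nat_lit 201) (nat_lit 5) (nat_lit 196) (nat_lit 5) (nat_lit 598) (nat_lit 502) (nat_lit 460)) (XT.lf (nat_lit 0) (nat_lit 3891027609) (nat_lit 456) (nat_lit 2090138601) (nat_lit 532) (nat_lit 3821737224) (nat_lit 189) (nat_lit 5) (nat_lit 195) (nat_lit 5) (nat_lit 196) (nat_lit 5) (nat_lit 599) (nat_lit 502) (nat_lit 459))))) (XT.nd (nat_lit 156) (nat_lit 1216) (nat_lit 0) (XT.nd (nat_lit 78) (nat_lit 76) (nat_lit 0) (XT.lf (nat_lit 0) (nat_lit 1626244840) (nat_lit 380) (nat_lit 8167386354) (nat_lit 456) (nat_lit 106037859) (nat_lit 184) (nat_lit 5) (nat_lit 189) (nat_lit 5) (nat_lit 190) (nat_lit 5) (nat_lit 600) (nat_lit 502) (nat_lit 458)) (XT.lf (nat_lit 0) (nat_lit 3643922439) (nat_lit 456) (nat_lit 710066289) (nat_lit 76) (nat_lit 5643739272) (nat_lit 183) (nat_lit 5) (nat_lit 189) (nat_lit 5) (nat_lit 184) (nat_lit 5) (nat_lit 601) (nat_lit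 502) (nat_lit 457))) (XT.nd (nat_lit 78) (nat_lit 836) (nat_lit 0) (XT.lf (nat_lit 0) (nat_lit 7027661705) (nat_lit 380) (nat_lit 440808828) (nat_lit 456) (nat_lit 2629245027) (nat_lit 178) (nat_lit 5) (nat_lit 183) (nat_lit 5) (nat_lit 184) (nat_lit 5) (nat_lit 602) (nat_lit 502) (nat_lit 456)) (XT.nd (nat_lit 78) (nat_lit 380) (nat_lit 0) (XT.lf (nat_lit 0) (nat_lit 1168580148) (nat_lit 456) (nat_lit 5507037899) (nat_lit 76) (nat_lit 3523652160) (nat_lit 172) (nat_lit 5) (nat_lit 178) (nat_lit 5) (nat_lit 173) (nat_lit 5) (nat_lit 603) (nat_lit 502) (nat_lit 455)) (XT.lf (nat_lit 0) (nat_lit 2289714964) (nat_lit 380) (nat_lit 2711791019) (nat_lit 456) (nat_lit 5301116910) (nat_lit 167) (nat_lit 5) (nat_lit 172) (nat_lit 5) (nat_lit 173) (nat_lit 5) (nat_lit 604) (nat_lit 502) (nat_lit 454)))))) (XT.nd (nat_lit 390) (nat_lit 1140) (nat_lit 0) (XT.nd (nat_lit 156) (nat_lit 1140) (nat_lit 0) (XT.nd (nat_lit 78) (nat_lit 456) (nat_lit 0) (XT.lf (nat_lit 0) (nat_lit 8912990854) (nat_lit 456) (nat_lit 168187885)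 (nat_lit 76) (nat_lit 1326827377) (nat_lit 167) (nat_lit 5) (nat_lit 173) (nat_lit 5) (nat_lit 168) (nat_lit 5) (nat_lit 605) (nat_lit 502) (nat_lit 453)) (XT.lf (nat_lit 0) (nat_lit 2381919091) (nat_lit 456) (nat_lit 2679914695) (nat_lit 76) (nat_lit 5452834282) (nat_lit 161) (nat_lit 5) (nat_lit 167) (nat_lit 5) (nat_lit 162) (nat_lit 5) (nat_lit 606) (nat_lit 502) (nat_lit 452))) (XT.nd (nat_lit 78) (nat_lit 760) (nat_lit 0) (XT.lf (nat_lit 0) (nat_lit 5369282331) (nat_lit 380) (nat_lit 940149919) (nat_lit 456) (nat_lit 4313973609) (nat_lit 156) (nat_lit 5) (nat_lit 161) (nat_lit 5) (nat_lit 162) (nat_lit 5) (nat_lit 607) (nat_lit 502) (nat_lit 451)) (XT.nd (nat_lit 78) (nat_lit 456) (nat_lit 0) (XT.lf (nat_lit 0) (nat_lit 2829564607) (nat_lit 304) (nat_lit 7500883363) (nat_lit 380) (nat_lit 403572771) (nat_lit 152) (nat_lit 5) (nat_lit 156) (nat_lit 5) (nat_lit 157) (nat_lit 5) (nat_lit 608) (nat_lit 502) (nat_lit 450)) (XT.lf (nat_lit 0) (nat_lit 204768432) (nat_lit 380) (nat_lit 3333699577) (nat_lit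 456) (nat_lit 7307906706) (nat_lit 146) (nat_lit 5) (nat_lit 151) (nat_lit 5) (nat_lit 152) (nat_lit 5) (nat_lit 609) (nat_lit 502) (nat_lit 449))))) (XT.nd (nat_lit 156) (nat_lit 760) (nat_lit 0) (XT.nd (nat_lit 78) (nat_lit 380) (nat_lit 0) (XT.lf (nat_lit 0) (nat_lit 7570930690) (nat_lit 456) (nat_lit 2453983800) (nat_lit 76) (nat_lit 935669526) (nat_lit 146) (nat_lit 5) (nat_lit 152) (nat_lit 5) (nat_lit 147) (nat_lit 5) (nat_lit 610) (nat_lit 502) (nat_lit 448)) (XT.lf (nat_lit 0) (nat_lit 617880777) (nat_lit 380) (nat_lit 5195341904) (nat_lit 76) (nat_lit 5263399737) (nat_lit 141) (nat_lit 5) (nat_lit 146) (nat_lit 5) (nat_lit 142) (nat_lit 5) (nat_lit 611) (nat_lit 502) (nat_lit 447))) (XT.nd (nat_lit 78) (nat_lit 380) (nat_lit 0) (XT.lf (nat_lit 0) (nat_lit 3173743636) (nat_lit 380) (nat_lit 1482231156) (nat_lit 456) (nat_lit 6538643976) (nat_lit 136) (nat_lit 5) (nat_lit 141) (nat_lit 5) (nat_lit 142) (nat_lit 5) (nat_lit 612) (nat_lit 502) (nat_lit 446)) (XT.nd (nat_lit 78) (nat_lit 76) (nat_lit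 0) (XT.lf (nat_lit 0) (nat_lit 384714499) (nat_lit 304) (nat_lit 8405550591) (nat_lit 380) (nat_lit 2524402468) (nat_lit 132) (nat_lit 5) (nat_lit 136) (nat_lit 5) (nat_lit 137) (nat_lit 5) (nat_lit 613) (nat_lit 502) (nat_lit 445)) (XT.lf (nat_lit 0) (nat_lit 1572413835) (nat_lit 380) (nat_lit 2456769930) (nat_lit 76) (nat_lit 7407273182) (nat_lit 131) (nat_lit 5) (nat_lit 136) (nat_lit 5) (nat_lit 132) (nat_lit 5) (nat_lit 614) (nat_lit 502) (nat_lit 444))))))) (XT.nd (nat_lit 76596) (nat_lit 0) (nat_lit 22724) (XT.nd (nat_lit 390) (nat_lit 608) (nat_lit 0) (XT.nd (nat_lit 156) (nat_lit 608) (nat_lit 0) (XT.nd (nat_lit 78) (nat_lit 304) (nat_lit 0) (XT.lf (nat_lit 0) (nat_lit 5720270307) (nat_lit 380) (nat_lit 5379298419) (nat_lit 76) (nat_lit 460722693) (nat_lit 127) (nat_lit 5) (nat_lit 132) (nat_lit 5) (nat_lit 128) (nat_lit 5) (nat_lit 615) (nat_lit 502) (nat_lit 443)) (XT.lf (nat_lit 0) (nat_lit 3288500494) (nat_lit 304) (nat_lit 6687101014) (nat_lit 380) (nat_lit 1710511831) (nat_lit 123) (nat_lit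 5) (nat_lit 127) (nat_lit 5) (nat_lit 128) (nat_lit 5) (nat_lit 616) (nat_lit 502) (nat_lit 442))) (XT.nd (nat_lit 78) (nat_lit 228) (nat_lit 0) (XT.lf (nat_lit 0) (nat_lit 309954575) (nat_lit 304) (nat_lit 2157155483) (nat_lit 380) (nat_lit 9347051244) (nat_lit 118) (nat_lit 5) (nat_lit 122) (nat_lit 5) (nat_lit 123) (nat_lit 5) (nat_lit 617) (nat_lit 502) (nat_lit 441)) (XT.nd (nat_lit 78) (nat_lit 228) (nat_lit 0) (XT.lf (nat_lit 0) (nat_lit 6738288066) (nat_lit 380) (nat_lit 2732491721) (nat_lit 76) (nat_lit 2473107206) (nat_lit 118) (nat_lit 5) (nat_lit 123) (nat_lit 5) (nat_lit 119) (nat_lit 5) (nat_lit 618) (nat_lit 502) (nat_lit 440)) (XT.lf (nat_lit 0) (nat_lit 6216551309) (nat_lit 228) (nat_lit 4893933616) (nat_lit 304) (nat_lit 965411392) (nat_lit 115) (nat_lit 5) (nat_lit 118) (nat_lit 5) (nat_lit 119) (nat_lit 5) (nat_lit 619) (nat_lit 502) (nat_lit 439))))) (XT.nd (nat_lit 156) (nat_lit 228) (nat_lit 0) (XT.nd (nat_lit 78) (nat_lit 0) (nat_lit 0) (XT.lf (nat_lit 0) (nat_lit 3125046701) (nat_lit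 304) (nat_lit 190253867) (nat_lit 380) (nat_lit 8894814351) (nat_lit 110) (nat_lit 5) (nat_lit 114) (nat_lit 5) (nat_lit 115) (nat_lit 5) (nat_lit 620) (nat_lit 502) (nat_lit 438)) (XT.lf (nat_lit 0) (nat_lit 7699411646) (nat_lit 380) (nat_lit 79861219) (nat_lit 76) (nat_lit 4567004134) (nat_lit 110) (nat_lit 5) (nat_lit 115) (nat_lit 5) (nat_lit 111) (nat_lit 5) (nat_lit 621) (nat_lit 502) (nat_lit 437))) (XT.nd (nat_lit 75894) (nat_lit 0) (nat_lit 32984) (XT.lf (nat_lit 0) (nat_lit 9159999382) (nat_lit 228) (nat_lit 3033904027) (nat_lit 304) (nat_lit 290805889) (nat_lit 107) (nat_lit 5) (nat_lit 110) (nat_lit 5) (nat_lit 111) (nat_lit 5) (nat_lit 622) (nat_lit 502) (nat_lit 436)) (XT.nd (nat_lit 78) (nat_lit 1596) (nat_lit 0) (XT.lf (nat_lit 0) (nat_lit 1698015458) (nat_lit 1596) (nat_lit 100881218) (nat_lit 0) (nat_lit 1698015458) (nat_lit 562) (nat_lit 5) (nat_lit 583) (nat_lit 4) (nat_lit 562) (nat_lit 4) (nat_lit 554) (nat_lit 503) (nat_lit 503)) (XT.lf (nat_lit 0) (nat_lit 4929663995) (nat_lit 1596)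 (nat_lit 1968239570) (nat_lit 1596) (nat_lit 129150769) (nat_lit 541) (nat_lit 4) (nat_lit 562) (nat_lit 5) (nat_lit 562) (nat_lit 4) (nat_lit 555) (nat_lit 503) (nat_lit 502)))))) (XT.nd (nat_lit 390) (nat_lit 3724) (nat_lit 0) (XT.nd (nat_lit 156) (nat_lit 3040) (nat_lit 0) (XT.nd (nat_lit 78) (nat_lit 1748) (nat_lit 0) (XT.lf (nat_lit 0) (nat_lit 3055588429) (nat_lit 1672) (nat_lit 260107345) (nat_lit 1748) (nat_lit 3745785543) (nat_lit 518) (nat_lit 5) (nat_lit 540) (nat_lit 5) (nat_lit 541) (nat_lit 4) (nat_lit 556) (nat_lit 503) (nat_lit 501)) (XT.lf (nat_lit 0) (nat_lit 1179825061) (nat_lit 1748) (nat_lit 5610611618) (nat_lit 1748) (nat_lit 306894189) (nat_lit 495) (nat_lit 4) (nat_lit 518) (nat_lit 5) (nat_lit 518) (nat_lit 4) (nat_lit 557) (nat_lit 503) (nat_lit 500))) (XT.nd (nat_lit 78) (nat_lit 2964) (nat_lit 0) (XT.lf (nat_lit 0) (nat_lit 3119301366) (nat_lit 1824) (nat_lit 701762445) (nat_lit 76) (nat_lit 3313213280) (nat_lit 494) (nat_lit 5) (nat_lit 518) (nat_lit 5) (nat_lit 495) (nat_lit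 4) (nat_lit 558) (nat_lit 503) (nat_lit 499)) (XT.nd (nat_lit 78) (nat_lit 1140) (nat_lit 0) (XT.lf (nat_lit 0) (nat_lit 4608788034) (nat_lit 1824) (nat_lit 1964112276) (nat_lit 1900) (nat_lit 599766891) (nat_lit 470) (nat_lit 5) (nat_lit 494) (nat_lit 5) (nat_lit 495) (nat_lit 4) (nat_lit 559) (nat_lit 503) (nat_lit 498)) (XT.lf (nat_lit 0) (nat_lit 2772577118) (nat_lit 1064) (nat_lit 29583371) (nat_lit 1140) (nat_lit 4410170561) (nat_lit 455) (nat_lit 5) (nat_lit 469) (nat_lit 5) (nat_lit 470) (nat_lit 5) (nat_lit 560) (nat_lit 503) (nat_lit 497))))) (XT.nd (nat_lit 234) (nat_lit 1824) (nat_lit 0) (XT.nd (nat_lit 78) (nat_lit 988) (nat_lit 0) (XT.lf (nat_lit 0) (nat_lit 924273338) (nat_lit 912) (nat_lit 5310110809) (nat_lit 988) (nat_lit 1018923971) (nat_lit 443) (nat_lit 5) (nat_lit 455) (nat_lit 5) (nat_lit 456) (nat_lit 4) (nat_lit 561) (nat_lit 503) (nat_lit 496)) (XT.nd (nat_lit 78) (nat_lit 912) (nat_lit 0) (XT.lf (nat_lit 0) (nat_lit 2373079575) (nat_lit 988) (nat_lit 924614455) (nat_lit 76) (nat_lit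 3997799944) (nat_lit 442) (nat_lit 5) (nat_lit 455) (nat_lit 5) (nat_lit 443) (nat_lit 5) (nat_lit 562) (nat_lit 503) (nat_lit 495)) (XT.lf (nat_lit 0) (nat_lit 4572853068) (nat_lit 912) (nat_lit 1212157611) (nat_lit 988) (nat_lit 1554068265) (nat_lit 430) (nat_lit 5) (nat_lit 442) (nat_lit 5) (nat_lit 443) (nat_lit 5) (nat_lit 563) (nat_lit 503) (nat_lit 494)))) (XT.nd (nat_lit 78) (nat_lit 912) (nat_lit 0) (XT.lf (nat_lit 0) (nat_lit 1823731679) (nat_lit 912) (nat_lit 4625506784) (nat_lit 76) (nat_lit 934722045) (nat_lit 418) (nat_lit 5) (nat_lit 430) (nat_lit 5) (nat_lit 419) (nat_lit 5) (nat_lit 564) (nat_lit 503) (nat_lit 493)) (XT.nd (nat_lit 78) (nat_lit 76) (nat_lit 0) (XT.lf (nat_lit 0) (nat_lit 926017544) (nat_lit 836) (nat_lit 4292193974) (nat_lit 912) (nat_lit 2211928523) (nat_lit 407) (nat_lit 5) (nat_lit 418) (nat_lit 5) (nat_lit 419) (nat_lit 5) (nat_lit 565) (nat_lit 503) (nat_lit 492)) (XT.lf (nat_lit 0) (nat_lit 1156357384) (nat_lit 912) (nat_lit 903186170) (nat_lit 76) (nat_lit 5418171592)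 (nat_lit 406) (nat_lit 5) (nat_lit 418) (nat_lit 5) (nat_lit 407) (nat_lit 5) (nat_lit 566) (nat_lit 503) (nat_lit 491))))))))
noncomputable def xc30 : XT := (XT.nd (nat_lit 1560) (nat_lit 7600) (nat_lit 0) (XT.nd (nat_lit 780) (nat_lit 5092) (nat_lit 0) (XT.nd (nat_lit 390) (nat_lit 2964) (nat_lit 0) (XT.nd (nat_lit 156) (nat_lit 1596) (nat_lit 0) (XT.nd (nat_lit 78) (nat_lit 912) (nat_lit 0) (XT.lf (nat_lit 0) (nat_lit 4533966171) (nat_lit 912) (nat_lit 2738738663) (nat_lit 76) (nat_lit 253817191) (nat_lit 395) (nat_lit 5) (nat_lit 407) (nat_lit 5) (nat_lit 396) (nat_lit 5) (nat_lit 567) (nat_lit 503) (nat_lit 490)) (XT.lf (nat_lit 0) (nat_lit 376004620) (nat_lit 912) (nat_lit 4594273527) (nat_lit 76) (nat_lit 2606409300) (nat_lit 383) (nat_lit 5) (nat_lit 395) (nat_lit 5) (nat_lit 384) (nat_lit 5) (nat_lit 568) (nat_lit 503) (nat_lit 489))) (XT.nd (nat_lit 78) (nat_lit 836) (nat_lit 0) (XT.lf (nat_lit 0) (nat_lit 1153299740) (nat_lit 760) (nat_lit 2584423110) (nat_lit 836) (nat_lit 3890424518) (nat_lit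 373) (nat_lit 5) (nat_lit 383) (nat_lit 5) (nat_lit 384) (nat_lit 5) (nat_lit 569) (nat_lit 503) (nat_lit 488)) (XT.nd (nat_lit 78) (nat_lit 836) (nat_lit 0) (XT.lf (nat_lit 0) (nat_lit 7009047070) (nat_lit 760) (nat_lit 129021138) (nat_lit 836) (nat_lit 543144294) (nat_lit 373) (nat_lit 5) (nat_lit 383) (nat_lit 5) (nat_lit 384) (nat_lit 5) (nat_lit 570) (nat_lit 503) (nat_lit 487)) (XT.lf (nat_lit 0) (nat_lit 2824416786) (nat_lit 836) (nat_lit 2523159436) (nat_lit 76) (nat_lit 2387573814) (nat_lit 362) (nat_lit 5) (nat_lit 373) (nat_lit 5) (nat_lit 363) (nat_lit 5) (nat_lit 571) (nat_lit 503) (nat_lit 486))))) (XT.nd (nat_lit 156) (nat_lit 1444) (nat_lit 0) (XT.nd (nat_lit 78) (nat_lit 836) (nat_lit 0) (XT.lf (nat_lit 0) (nat_lit 3403896440) (nat_lit 684) (nat_lit 2817643619) (nat_lit 760) (nat_lit 1569168429) (nat_lit 353) (nat_lit 5) (nat_lit 362) (nat_lit 5) (nat_lit 363) (nat_lit 5) (nat_lit 572) (nat_lit 503) (nat_lit 485)) (XT.lf (nat_lit 0) (nat_lit 1575824014) (nat_lit 760) (nat_lit 208847204)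 (nat_lit 836) (nat_lit 6063080258) (nat_lit 342) (nat_lit 5) (nat_lit 352) (nat_lit 5) (nat_lit 353) (nat_lit 5) (nat_lit 573) (nat_lit 503) (nat_lit 484))) (XT.nd (nat_lit 78) (nat_lit 1444) (nat_lit 0) (XT.lf (nat_lit 0) (nat_lit 5173045882) (nat_lit 836) (nat_lit 284732041) (nat_lit 76) (nat_lit 2448184005) (nat_lit 342) (nat_lit 5) (nat_lit 353) (nat_lit 5) (nat_lit 343) (nat_lit 5) (nat_lit 574) (nat_lit 503) (nat_lit 483)) (XT.nd (nat_lit 78) (nat_lit 684) (nat_lit 0) (XT.lf (nat_lit 0) (nat_lit 638272592) (nat_lit 760) (nat_lit 2141288547) (nat_lit 76) (nat_lit 5186029993) (nat_lit 332) (nat_lit 5) (nat_lit 342) (nat_lit 5) (nat_lit 333) (nat_lit 5) (nat_lit 575) (nat_lit 503) (nat_lit 482)) (XT.lf (nat_lit 0) (nat_lit 3998357546) (nat_lit 684) (nat_lit 14152159) (nat_lit 760) (nat_lit 4014100792) (nat_lit 323) (nat_lit 5) (nat_lit 332) (nat_lit 5) (nat_lit 333) (nat_lit 5) (nat_lit 576) (nat_lit 503) (nat_lit 481)))))) (XT.nd (nat_lit 390) (nat_lit 2432) (nat_lit 0) (XT.nd (nat_lit 156) (nat_lit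 1292) (nat_lit 0) (XT.nd (nat_lit 78) (nat_lit 760) (nat_lit 0) (XT.lf (nat_lit 0) (nat_lit 2141492226) (nat_lit 608) (nat_lit 5304190461) (nat_lit 684) (nat_lit 643341712) (nat_lit 315) (nat_lit 5) (nat_lit 323) (nat_lit 5) (nat_lit 324) (nat_lit 5) (nat_lit 577) (nat_lit 503) (nat_lit 480)) (XT.lf (nat_lit 0) (nat_lit 252168183) (nat_lit 684) (nat_lit 2480080657) (nat_lit 760) (nat_lit 5420596451) (nat_lit 305) (nat_lit 5) (nat_lit 314) (nat_lit 5) (nat_lit 315) (nat_lit 5) (nat_lit 578) (nat_lit 503) (nat_lit 479))) (XT.nd (nat_lit 78) (nat_lit 1292) (nat_lit 0) (XT.lf (nat_lit 0) (nat_lit 6155177559) (nat_lit 760) (nat_lit 1638128026) (nat_lit 76) (nat_lit 424786141) (nat_lit 305) (nat_lit 5) (nat_lit 315) (nat_lit 5) (nat_lit 306) (nat_lit 5) (nat_lit 579) (nat_lit 503) (nat_lit 478)) (XT.nd (nat_lit 78) (nat_lit 608) (nat_lit 0) (XT.lf (nat_lit 0) (nat_lit 1337849072) (nat_lit 684) (nat_lit 3567299519) (nat_lit 76) (nat_lit 3379444741) (nat_lit 296) (nat_lit 5) (nat_lit 305) (nat_lit 5) (nat_lit 297)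 (nat_lit 5) (nat_lit 580) (nat_lit 503) (nat_lit 477)) (XT.lf (nat_lit 0) (nat_lit 2823909904) (nat_lit 608) (nat_lit 1931491862) (nat_lit 684) (nat_lit 3597225372) (nat_lit 288) (nat_lit 5) (nat_lit 296) (nat_lit 5) (nat_lit 297) (nat_lit 5) (nat_lit 581) (nat_lit 503) (nat_lit 476))))) (XT.nd (nat_lit 156) (nat_lit 1748) (nat_lit 0) (XT.nd (nat_lit 78) (nat_lit 76) (nat_lit 0) (XT.lf (nat_lit 0) (nat_lit 904603230) (nat_lit 608) (nat_lit 7321283079) (nat_lit 684) (nat_lit 196446457) (nat_lit 280) (nat_lit 5) (nat_lit 288) (nat_lit 5) (nat_lit 289) (nat_lit 5) (nat_lit 582) (nat_lit 503) (nat_lit 475)) (XT.lf (nat_lit 0) (nat_lit 3227260044) (nat_lit 684) (nat_lit 1055385732) (nat_lit 76) (nat_lit 4210407872) (nat_lit 279) (nat_lit 5) (nat_lit 288) (nat_lit 5) (nat_lit 280) (nat_lit 5) (nat_lit 583) (nat_lit 503) (nat_lit 474))) (XT.nd (nat_lit 78) (nat_lit 1140) (nat_lit 0) (XT.lf (nat_lit 0) (nat_lit 5538974838) (nat_lit 608) (nat_lit 1162518032) (nat_lit 684) (nat_lit 1863979058) (nat_lit 271) (nat_lit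 5) (nat_lit 279) (nat_lit 5) (nat_lit 280) (nat_lit 5) (nat_lit 584) (nat_lit 503) (nat_lit 473)) (XT.nd (nat_lit 78) (nat_lit 532) (nat_lit 0) (XT.lf (nat_lit 0) (nat_lit 1577581311) (nat_lit 608) (nat_lit 5044434719) (nat_lit 76) (nat_lit 2017261101) (nat_lit 263) (nat_lit 5) (nat_lit 271) (nat_lit 5) (nat_lit 264) (nat_lit 5) (nat_lit 585) (nat_lit 503) (nat_lit 472)) (XT.lf (nat_lit 0) (nat_lit 1607134161) (nat_lit 532) (nat_lit 3443864385) (nat_lit 608) (nat_lit 3663556242) (nat_lit 256) (nat_lit 5) (nat_lit 263) (nat_lit 5) (nat_lit 264) (nat_lit 5) (nat_lit 586) (nat_lit 503) (nat_lit 471))))))) (XT.nd (nat_lit 780) (nat_lit 3876) (nat_lit 0) (XT.nd (nat_lit 390) (nat_lit 1520) (nat_lit 0) (XT.nd (nat_lit 156) (nat_lit 1596) (nat_lit 0) (XT.nd (nat_lit 78) (nat_lit 608) (nat_lit 0) (XT.lf (nat_lit 0) (nat_lit 8391321050) (nat_lit 532) (nat_lit 186343462) (nat_lit 608) (nat_lit 214000282) (nat_lit 256) (nat_lit 5) (nat_lit 263) (nat_lit 5) (nat_lit 264) (nat_lit 5) (nat_lit 587) (nat_lit 503) (nat_lit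 470)) (XT.lf (nat_lit 0) (nat_lit 3274236591) (nat_lit 608) (nat_lit 2454980578) (nat_lit 76) (nat_lit 3140412445) (nat_lit 248) (nat_lit 5) (nat_lit 256) (nat_lit 5) (nat_lit 249) (nat_lit 5) (nat_lit 588) (nat_lit 503) (nat_lit 469))) (XT.nd (nat_lit 78) (nat_lit 1064) (nat_lit 0) (XT.lf (nat_lit 0) (nat_lit 4408910747) (nat_lit 532) (nat_lit 2404020379) (nat_lit 608) (nat_lit 2136525413) (nat_lit 241) (nat_lit 5) (nat_lit 248) (nat_lit 5) (nat_lit 249) (nat_lit 5) (nat_lit 589) (nat_lit 503) (nat_lit 468)) (XT.nd (nat_lit 78) (nat_lit 532) (nat_lit 0) (XT.lf (nat_lit 0) (nat_lit 1362956710) (nat_lit 532) (nat_lit 6671612314) (nat_lit 76) (nat_lit 996338720) (nat_lit 234) (nat_lit 5) (nat_lit 241) (nat_lit 5) (nat_lit 235) (nat_lit 5) (nat_lit 590) (nat_lit 503) (nat_lit 467)) (XT.lf (nat_lit 0) (nat_lit 249201028) (nat_lit 532) (nat_lit 4654427802) (nat_lit 608) (nat_lit 4210082660) (nat_lit 227) (nat_lit 5) (nat_lit 234) (nat_lit 5) (nat_lit 235) (nat_lit 5) (nat_lit 591) (nat_lit 503) (nat_lit 466)))))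 (XT.nd (nat_lit 156) (nat_lit 988) (nat_lit 0) (XT.nd (nat_lit 78) (nat_lit 532) (nat_lit 0) (XT.lf (nat_lit 0) (nat_lit 7330221845) (nat_lit 532) (nat_lit 1181738275) (nat_lit 608) (nat_lit 686276370) (nat_lit 227) (nat_lit 5) (nat_lit 234) (nat_lit 5) (nat_lit 235) (nat_lit 5) (nat_lit 592) (nat_lit 503) (nat_lit 465)) (XT.lf (nat_lit 0) (nat_lit 2872200873) (nat_lit 532) (nat_lit 4049420439) (nat_lit 76) (nat_lit 2362408399) (nat_lit 220) (nat_lit 5) (nat_lit 227) (nat_lit 5) (nat_lit 221) (nat_lit 5) (nat_lit 593) (nat_lit 503) (nat_lit 464))) (XT.nd (nat_lit 78) (nat_lit 532) (nat_lit 0) (XT.lf (nat_lit 0) (nat_lit 3093146326) (nat_lit 456) (nat_lit 3393105152) (nat_lit 532) (nat_lit 2885326705) (nat_lit 214) (nat_lit 5) (nat_lit 220) (nat_lit 5) (nat_lit 221) (nat_lit 5) (nat_lit 594) (nat_lit 503) (nat_lit 463)) (XT.nd (nat_lit 78) (nat_lit 0) (nat_lit 0) (XT.lf (nat_lit 0) (nat_lit 690320323) (nat_lit 532) (nat_lit 8550685611) (nat_lit 76) (nat_lit 220022190) (nat_lit 207) (nat_lit 5) (nat_lit 214)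 (nat_lit 5) (nat_lit 208) (nat_lit 5) (nat_lit 595) (nat_lit 503) (nat_lit 462)) (XT.lf (nat_lit 0) (nat_lit 4317325590) (nat_lit 532) (nat_lit 1334080832) (nat_lit 76) (nat_lit 3900111463) (nat_lit 207) (nat_lit 5) (nat_lit 214) (nat_lit 5) (nat_lit 208) (nat_lit 5) (nat_lit 596) (nat_lit 503) (nat_lit 461)))))) (XT.nd (nat_lit 390) (nat_lit 2052) (nat_lit 0) (XT.nd (nat_lit 156) (nat_lit 912) (nat_lit 0) (XT.nd (nat_lit 78) (nat_lit 456) (nat_lit 0) (XT.lf (nat_lit 0) (nat_lit 6038605865) (nat_lit 456) (nat_lit 1971944491) (nat_lit 532) (nat_lit 1633395320) (nat_lit 201) (nat_lit 5) (nat_lit 207) (nat_lit 5) (nat_lit 208) (nat_lit 5) (nat_lit 597) (nat_lit 503) (nat_lit 460)) (XT.lf (nat_lit 0) (nat_lit 2012765834) (nat_lit 456) (nat_lit 5942104212) (nat_lit 76) (nat_lit 1783086993) (nat_lit 195) (nat_lit 5) (nat_lit 201) (nat_lit 5) (nat_lit 196) (nat_lit 5) (nat_lit 598) (nat_lit 503) (nat_lit 459))) (XT.nd (nat_lit 78) (nat_lit 456) (nat_lit 0) (XT.lf (nat_lit 0) (nat_lit 1488137090) (nat_lit 456)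 (nat_lit 4223876828) (nat_lit 532) (nat_lit 4121579795) (nat_lit 189) (nat_lit 5) (nat_lit 195) (nat_lit 5) (nat_lit 196) (nat_lit 5) (nat_lit 599) (nat_lit 503) (nat_lit 458)) (XT.nd (nat_lit 78) (nat_lit 456) (nat_lit 0) (XT.lf (nat_lit 0) (nat_lit 9080057500) (nat_lit 456) (nat_lit 400448846) (nat_lit 532) (nat_lit 450733272) (nat_lit 189) (nat_lit 5) (nat_lit 195) (nat_lit 5) (nat_lit 196) (nat_lit 5) (nat_lit 600) (nat_lit 503) (nat_lit 457)) (XT.lf (nat_lit 0) (nat_lit 3273421151) (nat_lit 456) (nat_lit 3259456032) (nat_lit 76) (nat_lit 3497073476) (nat_lit 183) (nat_lit 5) (nat_lit 189) (nat_lit 5) (nat_lit 184) (nat_lit 5) (nat_lit 601) (nat_lit 503) (nat_lit 456))))) (XT.nd (nat_lit 234) (nat_lit 1216) (nat_lit 0) (XT.nd (nat_lit 78) (nat_lit 456) (nat_lit 0) (XT.lf (nat_lit 0) (nat_lit 4410771056) (nat_lit 380) (nat_lit 2648551060) (nat_lit 456) (nat_lit 3071389829) (nat_lit 178) (nat_lit 5) (nat_lit 183) (nat_lit 5) (nat_lit 184) (nat_lit 5) (nat_lit 602) (nat_lit 503) (nat_lit 455)) (XT.nd (nat_lit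 78) (nat_lit 0) (nat_lit 0) (XT.lf (nat_lit 0) (nat_lit 678466509) (nat_lit 456) (nat_lit 8242216212) (nat_lit 76) (nat_lit 1312717394) (nat_lit 172) (nat_lit 5) (nat_lit 178) (nat_lit 5) (nat_lit 173) (nat_lit 5) (nat_lit 603) (nat_lit 503) (nat_lit 454)) (XT.lf (nat_lit 0) (nat_lit 4475070508) (nat_lit 456) (nat_lit 508876603) (nat_lit 76) (nat_lit 5353532867) (nat_lit 172) (nat_lit 5) (nat_lit 178) (nat_lit 5) (nat_lit 173) (nat_lit 5) (nat_lit 604) (nat_lit 503) (nat_lit 453)))) (XT.nd (nat_lit 78) (nat_lit 836) (nat_lit 0) (XT.lf (nat_lit 0) (nat_lit 7410204067) (nat_lit 380) (nat_lit 943024198) (nat_lit 456) (nat_lit 2090302204) (nat_lit 167) (nat_lit 5) (nat_lit 172) (nat_lit 5) (nat_lit 173) (nat_lit 5) (nat_lit 605) (nat_lit 503) (nat_lit 452)) (XT.nd (nat_lit 78) (nat_lit 380) (nat_lit 0) (XT.lf (nat_lit 0) (nat_lit 1748076247) (nat_lit 456) (nat_lit 5642492992) (nat_lit 76) (nat_lit 3160628443) (nat_lit 161) (nat_lit 5) (nat_lit 167) (nat_lit 5) (nat_lit 162) (nat_lit 5) (nat_lit 606) (nat_lit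 503) (nat_lit 451)) (XT.lf (nat_lit 0) (nat_lit 2333978994) (nat_lit 380) (nat_lit 3301054158) (nat_lit 456) (nat_lit 5025714130) (nat_lit 156) (nat_lit 5) (nat_lit 161) (nat_lit 5) (nat_lit 162) (nat_lit 5) (nat_lit 607) (nat_lit 503) (nat_lit 450))))))))
noncomputable def xc31 : XT := (XT.nd (nat_lit 77220) (nat_lit 0) (nat_lit 15732) (XT.nd (nat_lit 780) (nat_lit 1140) (nat_lit 0) (XT.nd (nat_lit 390) (nat_lit 1444) (nat_lit 0) (XT.nd (nat_lit 156) (nat_lit 760) (nat_lit 0) (XT.nd (nat_lit 78) (nat_lit 380) (nat_lit 0) (XT.lf (nat_lit 0) (nat_lit 9601618129) (nat_lit 456) (nat_lit 297897281) (nat_lit 76) (nat_lit 872936039) (nat_lit 156) (nat_lit 5) (nat_lit 162) (nat_lit 5) (nat_lit 157) (nat_lit 5) (nat_lit 608) (nat_lit 503) (nat_lit 449)) (XT.lf (nat_lit 0) (nat_lit 2757293872) (nat_lit 380) (nat_lit 2995906781) (nat_lit 76) (nat_lit 5132184571) (nat_lit 151) (nat_lit 5) (nat_lit 156) (nat_lit 5) (nat_lit 152) (nat_lit 5) (nat_lit 609) (nat_lit 503) (nat_lit 448))) (XT.nd (nat_lit 78) (nat_lit 380)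 (nat_lit 0) (XT.lf (nat_lit 0) (nat_lit 5239514044) (nat_lit 380) (nat_lit 1503894772) (nat_lit 456) (nat_lit 4257113298) (nat_lit 146) (nat_lit 5) (nat_lit 151) (nat_lit 5) (nat_lit 152) (nat_lit 5) (nat_lit 610) (nat_lit 503) (nat_lit 447)) (XT.nd (nat_lit 78) (nat_lit 76) (nat_lit 0) (XT.lf (nat_lit 0) (nat_lit 2511360864) (nat_lit 304) (nat_lit 8312082728) (nat_lit 380) (nat_lit 294235449) (nat_lit 142) (nat_lit 5) (nat_lit 146) (nat_lit 5) (nat_lit 147) (nat_lit 5) (nat_lit 611) (nat_lit 503) (nat_lit 446)) (XT.lf (nat_lit 0) (nat_lit 3707004514) (nat_lit 380) (nat_lit 309554601) (nat_lit 76) (nat_lit 7219969339) (nat_lit 141) (nat_lit 5) (nat_lit 146) (nat_lit 5) (nat_lit 142) (nat_lit 5) (nat_lit 612) (nat_lit 503) (nat_lit 445))))) (XT.nd (nat_lit 156) (nat_lit 684) (nat_lit 0) (XT.nd (nat_lit 78) (nat_lit 380) (nat_lit 0) (XT.lf (nat_lit 0) (nat_lit 7800288434) (nat_lit 456) (nat_lit 3165937214) (nat_lit 76) (nat_lit 391172308) (nat_lit 136) (nat_lit 5) (nat_lit 142) (nat_lit 5) (nat_lit 137) (nat_lit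 5) (nat_lit 613) (nat_lit 503) (nat_lit 444)) (XT.lf (nat_lit 0) (nat_lit 512329865) (nat_lit 380) (nat_lit 6118561501) (nat_lit 76) (nat_lit 4849249061) (nat_lit 131) (nat_lit 5) (nat_lit 136) (nat_lit 5) (nat_lit 132) (nat_lit 5) (nat_lit 614) (nat_lit 503) (nat_lit 443))) (XT.nd (nat_lit 78) (nat_lit 380) (nat_lit 0) (XT.lf (nat_lit 0) (nat_lit 2441083174) (nat_lit 304) (nat_lit 2172206728) (nat_lit 380) (nat_lit 6991623476) (nat_lit 127) (nat_lit 5) (nat_lit 131) (nat_lit 5) (nat_lit 132) (nat_lit 5) (nat_lit 615) (nat_lit 503) (nat_lit 442)) (XT.nd (nat_lit 78) (nat_lit 380) (nat_lit 0) (XT.lf (nat_lit 0) (nat_lit 8813698379) (nat_lit 380) (nat_lit 557272632) (nat_lit 76) (nat_lit 2360863280) (nat_lit 127) (nat_lit 5) (nat_lit 132) (nat_lit 5) (nat_lit 128) (nat_lit 5) (nat_lit 616) (nat_lit 503) (nat_lit 441)) (XT.lf (nat_lit 0) (nat_lit 1250198657) (nat_lit 380) (nat_lit 3617480986) (nat_lit 76) (nat_lit 6992862454) (nat_lit 122) (nat_lit 5) (nat_lit 127) (nat_lit 5) (nat_lit 123) (nat_lit 5) (nat_lit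 617) (nat_lit 503) (nat_lit 440)))))) (XT.nd (nat_lit 76050) (nat_lit 0) (nat_lit 31236) (XT.nd (nat_lit 156) (nat_lit 608) (nat_lit 0) (XT.nd (nat_lit 78) (nat_lit 228) (nat_lit 0) (XT.lf (nat_lit 0) (nat_lit 5220431230) (nat_lit 304) (nat_lit 241625970) (nat_lit 380) (nat_lit 6529397484) (nat_lit 118) (nat_lit 5) (nat_lit 122) (nat_lit 5) (nat_lit 123) (nat_lit 5) (nat_lit 618) (nat_lit 503) (nat_lit 439)) (XT.lf (nat_lit 0) (nat_lit 2093799794) (nat_lit 228) (nat_lit 7693164000) (nat_lit 304) (nat_lit 2337446519) (nat_lit 115) (nat_lit 5) (nat_lit 118) (nat_lit 5) (nat_lit 119) (nat_lit 5) (nat_lit 619) (nat_lit 503) (nat_lit 438))) (XT.nd (nat_lit 78) (nat_lit 532) (nat_lit 0) (XT.lf (nat_lit 0) (nat_lit 1922058386) (nat_lit 304) (nat_lit 1110057281) (nat_lit 76) (nat_lit 9227475921) (nat_lit 114) (nat_lit 5) (nat_lit 118) (nat_lit 5) (nat_lit 115) (nat_lit 5) (nat_lit 620) (nat_lit 503) (nat_lit 437)) (XT.nd (nat_lit 78) (nat_lit 228) (nat_lit 0) (XT.lf (nat_lit 0) (nat_lit 6261537984) (nat_lit 380)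 (nat_lit 4392684757) (nat_lit 76) (nat_lit 1742424025) (nat_lit 110) (nat_lit 5) (nat_lit 115) (nat_lit 5) (nat_lit 111) (nat_lit 5) (nat_lit 621) (nat_lit 503) (nat_lit 436)) (XT.lf (nat_lit 0) (nat_lit 4758225825) (nat_lit 228) (nat_lit 5950765027) (nat_lit 304) (nat_lit 1827029452) (nat_lit 107) (nat_lit 5) (nat_lit 110) (nat_lit 5) (nat_lit 111) (nat_lit 5) (nat_lit 622) (nat_lit 503) (nat_lit 435))))) (XT.nd (nat_lit 156) (nat_lit 3344) (nat_lit 0) (XT.nd (nat_lit 78) (nat_lit 1596) (nat_lit 0) (XT.lf (nat_lit 0) (nat_lit 1840127315) (nat_lit 1444) (nat_lit 812597152) (nat_lit 1444) (nat_lit 812597152) (nat_lit 583) (nat_lit 4) (nat_lit 602) (nat_lit 5) (nat_lit 602) (nat_lit 4) (nat_lit 552) (nat_lit 504) (nat_lit 504)) (XT.lf (nat_lit 0) (nat_lit 1726245000) (nat_lit 1520) (nat_lit 75553508) (nat_lit 1596) (nat_lit 5160191014) (nat_lit 562) (nat_lit 5) (nat_lit 582) (nat_lit 5) (nat_lit 583) (nat_lit 4) (nat_lit 553) (nat_lit 504) (nat_lit 503))) (XT.nd (nat_lit 78) (nat_lit 3344) (nat_lit 0) (XT.lf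 (nat_lit 0) (nat_lit 5237179019) (nat_lit 1596) (nat_lit 235123016) (nat_lit 0) (nat_lit 1522219642) (nat_lit 562) (nat_lit 5) (nat_lit 583) (nat_lit 4) (nat_lit 562) (nat_lit 4) (nat_lit 554) (nat_lit 504) (nat_lit 502)) (XT.nd (nat_lit 78) (nat_lit 1672) (nat_lit 0) (XT.lf (nat_lit 0) (nat_lit 1654148441) (nat_lit 1672) (nat_lit 2176607761) (nat_lit 76) (nat_lit 3197470318) (nat_lit 540) (nat_lit 5) (nat_lit 562) (nat_lit 5) (nat_lit 541) (nat_lit 4) (nat_lit 555) (nat_lit 504) (nat_lit 501)) (XT.lf (nat_lit 0) (nat_lit 2941087385) (nat_lit 1672) (nat_lit 2121660010) (nat_lit 1748) (nat_lit 2000583204) (nat_lit 518) (nat_lit 5) (nat_lit 540) (nat_lit 5) (nat_lit 541) (nat_lit 4) (nat_lit 556) (nat_lit 504) (nat_lit 500))))))) (XT.nd (nat_lit 780) (nat_lit 6992) (nat_lit 0) (XT.nd (nat_lit 390) (nat_lit 2736) (nat_lit 0) (XT.nd (nat_lit 156) (nat_lit 3952) (nat_lit 0) (XT.nd (nat_lit 78) (nat_lit 0) (nat_lit 0) (XT.lf (nat_lit 0) (nat_lit 1028826085) (nat_lit 1748) (nat_lit 346208687) (nat_lit 1824) (nat_lit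 5724849483) (nat_lit 494) (nat_lit 5) (nat_lit 517) (nat_lit 5) (nat_lit 518) (nat_lit 5) (nat_lit 557) (nat_lit 504) (nat_lit 499)) (XT.lf (nat_lit 0) (nat_lit 4761819738) (nat_lit 1824) (nat_lit 888683523) (nat_lit 76) (nat_lit 1486997707) (nat_lit 494) (nat_lit 5) (nat_lit 518) (nat_lit 5) (nat_lit 495) (nat_lit 4) (nat_lit 558) (nat_lit 504) (nat_lit 498))) (XT.nd (nat_lit 78) (nat_lit 2052) (nat_lit 0) (XT.lf (nat_lit 0) (nat_lit 991732078) (nat_lit 1900) (nat_lit 2797116789) (nat_lit 76) (nat_lit 3387592991) (nat_lit 469) (nat_lit 5) (nat_lit 494) (nat_lit 5) (nat_lit 470) (nat_lit 5) (nat_lit 559) (nat_lit 504) (nat_lit 497)) (XT.nd (nat_lit 78) (nat_lit 988) (nat_lit 0) (XT.lf (nat_lit 0) (nat_lit 2498673877) (nat_lit 1064) (nat_lit 1853062695) (nat_lit 1140) (nat_lit 2864974867) (nat_lit 455) (nat_lit 5) (nat_lit 469) (nat_lit 5) (nat_lit 470) (nat_lit 5) (nat_lit 560) (nat_lit 504) (nat_lit 496)) (XT.lf (nat_lit 0) (nat_lit 473384771) (nat_lit 988) (nat_lit 6641470735) (nat_lit 76) (nat_lit 143686739)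 (nat_lit 442) (nat_lit 5) (nat_lit 455) (nat_lit 5) (nat_lit 443) (nat_lit 5) (nat_lit 561) (nat_lit 504) (nat_lit 495))))) (XT.nd (nat_lit 156) (nat_lit 1824) (nat_lit 0) (XT.nd (nat_lit 78) (nat_lit 912) (nat_lit 0) (XT.lf (nat_lit 0) (nat_lit 3820355704) (nat_lit 988) (nat_lit 1277461562) (nat_lit 76) (nat_lit 2203414244) (nat_lit 442) (nat_lit 5) (nat_lit 455) (nat_lit 5) (nat_lit 443) (nat_lit 5) (nat_lit 562) (nat_lit 504) (nat_lit 494)) (XT.lf (nat_lit 0) (nat_lit 4181743527) (nat_lit 912) (nat_lit 3016955662) (nat_lit 988) (nat_lit 146791332) (nat_lit 430) (nat_lit 5) (nat_lit 442) (nat_lit 5) (nat_lit 443) (nat_lit 5) (nat_lit 563) (nat_lit 504) (nat_lit 493))) (XT.nd (nat_lit 78) (nat_lit 912) (nat_lit 0) (XT.lf (nat_lit 0) (nat_lit 2318893660) (nat_lit 836) (nat_lit 853755725) (nat_lit 912) (nat_lit 4218340211) (nat_lit 418) (nat_lit 5) (nat_lit 429) (nat_lit 5) (nat_lit 430) (nat_lit 5) (nat_lit 564) (nat_lit 504) (nat_lit 492)) (XT.nd (nat_lit 78) (nat_lit 76) (nat_lit 0) (XT.lf (nat_lit 0)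 (nat_lit 444959985) (nat_lit 836) (nat_lit 6083017307) (nat_lit 912) (nat_lit 909977032) (nat_lit 407) (nat_lit 5) (nat_lit 418) (nat_lit 5) (nat_lit 419) (nat_lit 5) (nat_lit 565) (nat_lit 504) (nat_lit 491)) (XT.lf (nat_lit 0) (nat_lit 2410927025) (nat_lit 912) (nat_lit 1434396648) (nat_lit 76) (nat_lit 3640644897) (nat_lit 406) (nat_lit 5) (nat_lit 418) (nat_lit 5) (nat_lit 407) (nat_lit 5) (nat_lit 566) (nat_lit 504) (nat_lit 490)))))) (XT.nd (nat_lit 390) (nat_lit 3648) (nat_lit 0) (XT.nd (nat_lit 156) (nat_lit 1596) (nat_lit 0) (XT.nd (nat_lit 78) (nat_lit 912) (nat_lit 0) (XT.lf (nat_lit 0) (nat_lit 4217554052) (nat_lit 836) (nat_lit 1535886267) (nat_lit 912) (nat_lit 1782039072) (nat_lit 395) (nat_lit 5) (nat_lit 406) (nat_lit 5) (nat_lit 407) (nat_lit 5) (nat_lit 567) (nat_lit 504) (nat_lit 489)) (XT.lf (nat_lit 0) (nat_lit 1527051125) (nat_lit 912) (nat_lit 5222464648) (nat_lit 76) (nat_lit 836845685) (nat_lit 383) (nat_lit 5) (nat_lit 395) (nat_lit 5) (nat_lit 384) (nat_lit 5) (nat_lit 568) (nat_lit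 504) (nat_lit 488))) (XT.nd (nat_lit 78) (nat_lit 836) (nat_lit 0) (XT.lf (nat_lit 0) (nat_lit 482575146) (nat_lit 760) (nat_lit 4372637001) (nat_lit 836) (nat_lit 2783282292) (nat_lit 373) (nat_lit 5) (nat_lit 383) (nat_lit 5) (nat_lit 384) (nat_lit 5) (nat_lit 569) (nat_lit 504) (nat_lit 487)) (XT.nd (nat_lit 78) (nat_lit 760) (nat_lit 0) (XT.lf (nat_lit 0) (nat_lit 527560678) (nat_lit 836) (nat_lit 1390801564) (nat_lit 76) (nat_lit 5773706740) (nat_lit 372) (nat_lit 5) (nat_lit 383) (nat_lit 5) (nat_lit 373) (nat_lit 5) (nat_lit 570) (nat_lit 504) (nat_lit 486)) (XT.lf (nat_lit 0) (nat_lit 3842899585) (nat_lit 836) (nat_lit 3288397226) (nat_lit 76) (nat_lit 615542954) (nat_lit 362) (nat_lit 5) (nat_lit 373) (nat_lit 5) (nat_lit 363) (nat_lit 5) (nat_lit 571) (nat_lit 504) (nat_lit 485))))) (XT.nd (nat_lit 234) (nat_lit 2128) (nat_lit 0) (XT.nd (nat_lit 78) (nat_lit 836) (nat_lit 0) (XT.lf (nat_lit 0) (nat_lit 2594491421) (nat_lit 684) (nat_lit 4612117450) (nat_lit 760) (nat_lit 596459396) (nat_lit 353)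 (nat_lit 5) (nat_lit 362) (nat_lit 5) (nat_lit 363) (nat_lit 5) (nat_lit 572) (nat_lit 504) (nat_lit 484)) (XT.nd (nat_lit 78) (nat_lit 0) (nat_lit 0) (XT.lf (nat_lit 0) (nat_lit 702586144) (nat_lit 760) (nat_lit 2008358176) (nat_lit 836) (nat_lit 5149715899) (nat_lit 342) (nat_lit 5) (nat_lit 352) (nat_lit 5) (nat_lit 353) (nat_lit 5) (nat_lit 573) (nat_lit 504) (nat_lit 483)) (XT.lf (nat_lit 0) (nat_lit 6059920433) (nat_lit 836) (nat_lit 1193195735) (nat_lit 76) (nat_lit 666544140) (nat_lit 342) (nat_lit 5) (nat_lit 353) (nat_lit 5) (nat_lit 343) (nat_lit 5) (nat_lit 574) (nat_lit 504) (nat_lit 482)))) (XT.nd (nat_lit 78) (nat_lit 1368) (nat_lit 0) (XT.lf (nat_lit 0) (nat_lit 1466406770) (nat_lit 760) (nat_lit 3115417874) (nat_lit 76) (nat_lit 3398024888) (nat_lit 332) (nat_lit 5) (nat_lit 342) (nat_lit 5) (nat_lit 333) (nat_lit 5) (nat_lit 575) (nat_lit 504) (nat_lit 481)) (XT.nd (nat_lit 78) (nat_lit 684) (nat_lit 0) (XT.lf (nat_lit 0) (nat_lit 2977362135) (nat_lit 684) (nat_lit 1829619618) (nat_lit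 760) (nat_lit 3234561958) (nat_lit 323) (nat_lit 5) (nat_lit 332) (nat_lit 5) (nat_lit 333) (nat_lit 5) (nat_lit 576) (nat_lit 504) (nat_lit 480)) (XT.lf (nat_lit 0) (nat_lit 88599506) (nat_lit 684) (nat_lit 7035908991) (nat_lit 76) (nat_lit 980349168) (nat_lit 314) (nat_lit 5) (nat_lit 323) (nat_lit 5) (nat_lit 315) (nat_lit 5) (nat_lit 577) (nat_lit 504) (nat_lit 479))))))))
noncomputable def xc32 : XT := (XT.nd (nat_lit 1560) (nat_lit 5928) (nat_lit 0) (XT.nd (nat_lit 780) (nat_lit 4104) (nat_lit 0) (XT.nd (nat_lit 390) (nat_lit 2432) (nat_lit 0) (XT.nd (nat_lit 156) (nat_lit 1368) (nat_lit 0) (XT.nd (nat_lit 78) (nat_lit 684) (nat_lit 0) (XT.lf (nat_lit 0) (nat_lit 3427484203) (nat_lit 684) (nat_lit 877575021) (nat_lit 76) (nat_lit 3864102639) (nat_lit 314) (nat_lit 5) (nat_lit 323) (nat_lit 5) (nat_lit 315) (nat_lit 5) (nat_lit 578) (nat_lit 504) (nat_lit 478)) (XT.lf (nat_lit 0) (nat_lit 5407749280) (nat_lit 684) (nat_lit 1407768045) (nat_lit 760) (nat_lit 1419590337) (nat_lit 305) (nat_lit 5) (nat_lit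 314) (nat_lit 5) (nat_lit 315) (nat_lit 5) (nat_lit 579) (nat_lit 504) (nat_lit 477))) (XT.nd (nat_lit 78) (nat_lit 684) (nat_lit 0) (XT.lf (nat_lit 0) (nat_lit 1929467551) (nat_lit 684) (nat_lit 4818756754) (nat_lit 76) (nat_lit 1554168181) (nat_lit 296) (nat_lit 5) (nat_lit 305) (nat_lit 5) (nat_lit 297) (nat_lit 5) (nat_lit 580) (nat_lit 504) (nat_lit 476)) (XT.nd (nat_lit 78) (nat_lit 76) (nat_lit 0) (XT.lf (nat_lit 0) (nat_lit 1521781579) (nat_lit 608) (nat_lit 3791046951) (nat_lit 684) (nat_lit 3058282962) (nat_lit 288) (nat_lit 5) (nat_lit 296) (nat_lit 5) (nat_lit 297) (nat_lit 5) (nat_lit 581) (nat_lit 504) (nat_lit 475)) (XT.lf (nat_lit 0) (nat_lit 299219735) (nat_lit 684) (nat_lit 456519690) (nat_lit 76) (nat_lit 7685810223) (nat_lit 287) (nat_lit 5) (nat_lit 296) (nat_lit 5) (nat_lit 288) (nat_lit 5) (nat_lit 582) (nat_lit 504) (nat_lit 474))))) (XT.nd (nat_lit 156) (nat_lit 1216) (nat_lit 0) (XT.nd (nat_lit 78) (nat_lit 608) (nat_lit 0) (XT.lf (nat_lit 0) (nat_lit 3687032337) (nat_lit 684)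 (nat_lit 2472148740) (nat_lit 76) (nat_lit 2353731582) (nat_lit 279) (nat_lit 5) (nat_lit 288) (nat_lit 5) (nat_lit 280) (nat_lit 5) (nat_lit 583) (nat_lit 504) (nat_lit 473)) (XT.lf (nat_lit 0) (nat_lit 4069659712) (nat_lit 608) (nat_lit 3057176075) (nat_lit 684) (nat_lit 1459185003) (nat_lit 271) (nat_lit 5) (nat_lit 279) (nat_lit 5) (nat_lit 280) (nat_lit 5) (nat_lit 584) (nat_lit 504) (nat_lit 472))) (XT.nd (nat_lit 78) (nat_lit 608) (nat_lit 0) (XT.lf (nat_lit 0) (nat_lit 1929840841) (nat_lit 608) (nat_lit 6599385997) (nat_lit 76) (nat_lit 131492317) (nat_lit 263) (nat_lit 5) (nat_lit 271) (nat_lit 5) (nat_lit 264) (nat_lit 5) (nat_lit 585) (nat_lit 504) (nat_lit 471)) (XT.nd (nat_lit 78) (nat_lit 608) (nat_lit 0) (XT.lf (nat_lit 0) (nat_lit 5368257266) (nat_lit 608) (nat_lit 2503777) (nat_lit 76) (nat_lit 3365936975) (nat_lit 263) (nat_lit 5) (nat_lit 271) (nat_lit 5) (nat_lit 264) (nat_lit 5) (nat_lit 586) (nat_lit 504) (nat_lit 470)) (XT.lf (nat_lit 0) (nat_lit 55571384) (nat_lit 608) (nat_lit 2066399007)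 (nat_lit 76) (nat_lit 6692317843) (nat_lit 255) (nat_lit 5) (nat_lit 263) (nat_lit 5) (nat_lit 256) (nat_lit 5) (nat_lit 587) (nat_lit 504) (nat_lit 469)))))) (XT.nd (nat_lit 390) (nat_lit 1976) (nat_lit 0) (XT.nd (nat_lit 156) (nat_lit 1064) (nat_lit 0) (XT.nd (nat_lit 78) (nat_lit 532) (nat_lit 0) (XT.lf (nat_lit 0) (nat_lit 3493139251) (nat_lit 608) (nat_lit 4188685933) (nat_lit 76) (nat_lit 1211358451) (nat_lit 248) (nat_lit 5) (nat_lit 256) (nat_lit 5) (nat_lit 249) (nat_lit 5) (nat_lit 588) (nat_lit 504) (nat_lit 468)) (XT.lf (nat_lit 0) (nat_lit 2618471532) (nat_lit 532) (nat_lit 4377951748) (nat_lit 608) (nat_lit 1977296590) (nat_lit 241) (nat_lit 5) (nat_lit 248) (nat_lit 5) (nat_lit 249) (nat_lit 5) (nat_lit 589) (nat_lit 504) (nat_lit 467))) (XT.nd (nat_lit 78) (nat_lit 532) (nat_lit 0) (XT.lf (nat_lit 0) (nat_lit 492322588) (nat_lit 456) (nat_lit 985363943) (nat_lit 532) (nat_lit 7578313138) (nat_lit 234) (nat_lit 5) (nat_lit 240) (nat_lit 5) (nat_lit 241) (nat_lit 5) (nat_lit 590) (nat_lit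 504) (nat_lit 466)) (XT.nd (nat_lit 78) (nat_lit 532) (nat_lit 0) (XT.lf (nat_lit 0) (nat_lit 4986838771) (nat_lit 532) (nat_lit 1673271038) (nat_lit 76) (nat_lit 2479325040) (nat_lit 234) (nat_lit 5) (nat_lit 241) (nat_lit 5) (nat_lit 235) (nat_lit 5) (nat_lit 591) (nat_lit 504) (nat_lit 465)) (XT.lf (nat_lit 0) (nat_lit 5352196902) (nat_lit 532) (nat_lit 3208705088) (nat_lit 608) (nat_lit 663744238) (nat_lit 227) (nat_lit 5) (nat_lit 234) (nat_lit 5) (nat_lit 235) (nat_lit 5) (nat_lit 592) (nat_lit 504) (nat_lit 464))))) (XT.nd (nat_lit 156) (nat_lit 988) (nat_lit 0) (XT.nd (nat_lit 78) (nat_lit 456) (nat_lit 0) (XT.lf (nat_lit 0) (nat_lit 2844763693) (nat_lit 532) (nat_lit 6127869920) (nat_lit 76) (nat_lit 338797362) (nat_lit 220) (nat_lit 5) (nat_lit 227) (nat_lit 5) (nat_lit 221) (nat_lit 5) (nat_lit 593) (nat_lit 504) (nat_lit 463)) (XT.lf (nat_lit 0) (nat_lit 953492855) (nat_lit 456) (nat_lit 5468646076) (nat_lit 532) (nat_lit 2977574981) (nat_lit 214) (nat_lit 5) (nat_lit 220) (nat_lit 5) (nat_lit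 221) (nat_lit 5) (nat_lit 594) (nat_lit 504) (nat_lit 462))) (XT.nd (nat_lit 78) (nat_lit 912) (nat_lit 0) (XT.lf (nat_lit 0) (nat_lit 569213634) (nat_lit 532) (nat_lit 1300556564) (nat_lit 76) (nat_lit 7620007920) (nat_lit 213) (nat_lit 5) (nat_lit 220) (nat_lit 5) (nat_lit 214) (nat_lit 5) (nat_lit 595) (nat_lit 504) (nat_lit 461)) (XT.nd (nat_lit 78) (nat_lit 456) (nat_lit 0) (XT.lf (nat_lit 0) (nat_lit 4152927917) (nat_lit 532) (nat_lit 3612378180) (nat_lit 76) (nat_lit 1815828504) (nat_lit 207) (nat_lit 5) (nat_lit 214) (nat_lit 5) (nat_lit 208) (nat_lit 5) (nat_lit 596) (nat_lit 504) (nat_lit 460)) (XT.lf (nat_lit 0) (nat_lit 3696860923) (nat_lit 456) (nat_lit 4111991287) (nat_lit 532) (nat_lit 1865457076) (nat_lit 201) (nat_lit 5) (nat_lit 207) (nat_lit 5) (nat_lit 208) (nat_lit 5) (nat_lit 597) (nat_lit 504) (nat_lit 459))))))) (XT.nd (nat_lit 780) (nat_lit 2888) (nat_lit 0) (XT.nd (nat_lit 390) (nat_lit 1292) (nat_lit 0) (XT.nd (nat_lit 156) (nat_lit 1292) (nat_lit 0) (XT.nd (nat_lit 78) (nat_lit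 0) (nat_lit 0) (XT.lf (nat_lit 0) (nat_lit 1372462997) (nat_lit 380) (nat_lit 361721926) (nat_lit 456) (nat_lit 8035157963) (nat_lit 195) (nat_lit 5) (nat_lit 200) (nat_lit 5) (nat_lit 201) (nat_lit 5) (nat_lit 598) (nat_lit 504) (nat_lit 458)) (XT.lf (nat_lit 0) (nat_lit 5399552601) (nat_lit 456) (nat_lit 1016771388) (nat_lit 76) (nat_lit 3449334014) (nat_lit 195) (nat_lit 5) (nat_lit 201) (nat_lit 5) (nat_lit 196) (nat_lit 5) (nat_lit 599) (nat_lit 504) (nat_lit 457))) (XT.nd (nat_lit 78) (nat_lit 836) (nat_lit 0) (XT.lf (nat_lit 0) (nat_lit 6528889380) (nat_lit 456) (nat_lit 2610812672) (nat_lit 532) (nat_lit 824169532) (nat_lit 189) (nat_lit 5) (nat_lit 195) (nat_lit 5) (nat_lit 196) (nat_lit 5) (nat_lit 600) (nat_lit 504) (nat_lit 456)) (XT.nd (nat_lit 78) (nat_lit 380) (nat_lit 0) (XT.lf (nat_lit 0) (nat_lit 2851763629) (nat_lit 456) (nat_lit 5926856997) (nat_lit 76) (nat_lit 1285073655) (nat_lit 183) (nat_lit 5) (nat_lit 189) (nat_lit 5) (nat_lit 184) (nat_lit 5) (nat_lit 601) (nat_lit 504) (nat_lit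 455)) (XT.lf (nat_lit 0) (nat_lit 1674960109) (nat_lit 380) (nat_lit 4923709884) (nat_lit 456) (nat_lit 3566566236) (nat_lit 178) (nat_lit 5) (nat_lit 183) (nat_lit 5) (nat_lit 184) (nat_lit 5) (nat_lit 602) (nat_lit 504) (nat_lit 454))))) (XT.nd (nat_lit 156) (nat_lit 836) (nat_lit 0) (XT.nd (nat_lit 78) (nat_lit 380) (nat_lit 0) (XT.lf (nat_lit 0) (nat_lit 146997463) (nat_lit 456) (nat_lit 825954891) (nat_lit 76) (nat_lit 9295892825) (nat_lit 177) (nat_lit 5) (nat_lit 183) (nat_lit 5) (nat_lit 178) (nat_lit 5) (nat_lit 603) (nat_lit 504) (nat_lit 453)) (XT.lf (nat_lit 0) (nat_lit 3910779718) (nat_lit 456) (nat_lit 3398921267) (nat_lit 76) (nat_lit 3063881217) (nat_lit 172) (nat_lit 5) (nat_lit 178) (nat_lit 5) (nat_lit 173) (nat_lit 5) (nat_lit 604) (nat_lit 504) (nat_lit 452))) (XT.nd (nat_lit 78) (nat_lit 456) (nat_lit 0) (XT.lf (nat_lit 0) (nat_lit 4449238893) (nat_lit 380) (nat_lit 3299851688) (nat_lit 456) (nat_lit 2731339762) (nat_lit 167) (nat_lit 5) (nat_lit 172) (nat_lit 5) (nat_lit 173) (nat_lit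 5) (nat_lit 605) (nat_lit 504) (nat_lit 451)) (XT.nd (nat_lit 78) (nat_lit 0) (nat_lit 0) (XT.lf (nat_lit 0) (nat_lit 1059441461) (nat_lit 456) (nat_lit 8730814166) (nat_lit 76) (nat_lit 799045944) (nat_lit 161) (nat_lit 5) (nat_lit 167) (nat_lit 5) (nat_lit 162) (nat_lit 5) (nat_lit 606) (nat_lit 504) (nat_lit 450)) (XT.lf (nat_lit 0) (nat_lit 4910804380) (nat_lit 456) (nat_lit 817223803) (nat_lit 76) (nat_lit 4971535539) (nat_lit 161) (nat_lit 5) (nat_lit 167) (nat_lit 5) (nat_lit 162) (nat_lit 5) (nat_lit 607) (nat_lit 504) (nat_lit 449)))))) (XT.nd (nat_lit 390) (nat_lit 1368) (nat_lit 0) (XT.nd (nat_lit 156) (nat_lit 760) (nat_lit 0) (XT.nd (nat_lit 78) (nat_lit 380) (nat_lit 0) (XT.lf (nat_lit 0) (nat_lit 7286289997) (nat_lit 380) (nat_lit 1559732282) (nat_lit 456) (nat_lit 1965873609) (nat_lit 156) (nat_lit 5) (nat_lit 161) (nat_lit 5) (nat_lit 162) (nat_lit 5) (nat_lit 608) (nat_lit 504) (nat_lit 448)) (XT.lf (nat_lit 0) (nat_lit 1920909658) (nat_lit 380) (nat_lit 6323394301) (nat_lit 76) (nat_lit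 2681664995) (nat_lit 151) (nat_lit 5) (nat_lit 156) (nat_lit 5) (nat_lit 152) (nat_lit 5) (nat_lit 609) (nat_lit 504) (nat_lit 447))) (XT.nd (nat_lit 78) (nat_lit 380) (nat_lit 0) (XT.lf (nat_lit 0) (nat_lit 1835574820) (nat_lit 380) (nat_lit 4029477923) (nat_lit 456) (nat_lit 5176893156) (nat_lit 146) (nat_lit 5) (nat_lit 151) (nat_lit 5) (nat_lit 152) (nat_lit 5) (nat_lit 610) (nat_lit 504) (nat_lit 446)) (XT.nd (nat_lit 78) (nat_lit 380) (nat_lit 0) (XT.lf (nat_lit 0) (nat_lit 9892620237) (nat_lit 456) (nat_lit 982457495) (nat_lit 76) (nat_lit 285075048) (nat_lit 146) (nat_lit 5) (nat_lit 152) (nat_lit 5) (nat_lit 147) (nat_lit 5) (nat_lit 611) (nat_lit 504) (nat_lit 445)) (XT.lf (nat_lit 0) (nat_lit 2720253345) (nat_lit 380) (nat_lit 3884638961) (nat_lit 76) (nat_lit 4674761237) (nat_lit 141) (nat_lit 5) (nat_lit 146) (nat_lit 5) (nat_lit 142) (nat_lit 5) (nat_lit 612) (nat_lit 504) (nat_lit 444))))) (XT.nd (nat_lit 156) (nat_lit 684) (nat_lit 0) (XT.nd (nat_lit 78) (nat_lit 304) (nat_lit 0) (XT.lf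 (nat_lit 0) (nat_lit 4539731943) (nat_lit 380) (nat_lit 2228179154) (nat_lit 456) (nat_lit 4633525043) (nat_lit 136) (nat_lit 5) (nat_lit 141) (nat_lit 5) (nat_lit 142) (nat_lit 5) (nat_lit 613) (nat_lit 504) (nat_lit 443)) (XT.lf (nat_lit 0) (nat_lit 1602934949) (nat_lit 304) (nat_lit 9305914057) (nat_lit 380) (nat_lit 616559977) (nat_lit 132) (nat_lit 5) (nat_lit 136) (nat_lit 5) (nat_lit 137) (nat_lit 5) (nat_lit 614) (nat_lit 504) (nat_lit 442))) (XT.nd (nat_lit 78) (nat_lit 608) (nat_lit 0) (XT.lf (nat_lit 0) (nat_lit 3457457501) (nat_lit 380) (nat_lit 1422331497) (nat_lit 76) (nat_lit 6771174114) (nat_lit 131) (nat_lit 5) (nat_lit 136) (nat_lit 5) (nat_lit 132) (nat_lit 5) (nat_lit 615) (nat_lit 504) (nat_lit 441)) (XT.nd (nat_lit 78) (nat_lit 304) (nat_lit 0) (XT.lf (nat_lit 0) (nat_lit 7276804747) (nat_lit 304) (nat_lit 337165033) (nat_lit 380) (nat_lit 4164792698) (nat_lit 127) (nat_lit 5) (nat_lit 131) (nat_lit 5) (nat_lit 132) (nat_lit 5) (nat_lit 616) (nat_lit 504) (nat_lit 440)) (XT.lf (nat_lit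 0) (nat_lit 4225184896) (nat_lit 304) (nat_lit 7655563737) (nat_lit 380) (nat_lit 27827519) (nat_lit 123) (nat_lit 5) (nat_lit 127) (nat_lit 5) (nat_lit 128) (nat_lit 5) (nat_lit 617) (nat_lit 504) (nat_lit 439))))))))
noncomputable def xc33 : XT := (XT.nd (nat_lit 77064) (nat_lit 0) (nat_lit 11856) (XT.nd (nat_lit 76284) (nat_lit 0) (nat_lit 23636) (XT.nd (nat_lit 75894) (nat_lit 0) (nat_lit 34504) (XT.nd (nat_lit 156) (nat_lit 836) (nat_lit 0) (XT.nd (nat_lit 78) (nat_lit 0) (nat_lit 0) (XT.lf (nat_lit 0) (nat_lit 1069248746) (nat_lit 304) (nat_lit 3069526664) (nat_lit 380) (nat_lit 7901629853) (nat_lit 118) (nat_lit 5) (nat_lit 122) (nat_lit 5) (nat_lit 123) (nat_lit 5) (nat_lit 618) (nat_lit 504) (nat_lit 438)) (XT.lf (nat_lit 0) (nat_lit 8413144870) (nat_lit 380) (nat_lit 2146529252) (nat_lit 76) (nat_lit 1614698000) (nat_lit 118) (nat_lit 5) (nat_lit 123) (nat_lit 5) (nat_lit 119) (nat_lit 5) (nat_lit 619) (nat_lit 504) (nat_lit 437))) (XT.nd (nat_lit 78) (nat_lit 532) (nat_lit 0) (XT.lf (nat_lit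 0) (nat_lit 484194517) (nat_lit 304) (nat_lit 5450957486) (nat_lit 76) (nat_lit 6375241871) (nat_lit 114) (nat_lit 5) (nat_lit 118) (nat_lit 5) (nat_lit 115) (nat_lit 5) (nat_lit 620) (nat_lit 504) (nat_lit 436)) (XT.nd (nat_lit 78) (nat_lit 228) (nat_lit 0) (XT.lf (nat_lit 0) (nat_lit 3586132646) (nat_lit 304) (nat_lit 1179141454) (nat_lit 380) (nat_lit 7683343413) (nat_lit 110) (nat_lit 5) (nat_lit 114) (nat_lit 5) (nat_lit 115) (nat_lit 5) (nat_lit 621) (nat_lit 504) (nat_lit 435)) (XT.lf (nat_lit 0) (nat_lit 205767361) (nat_lit 228) (nat_lit 8951648552) (nat_lit 304) (nat_lit 3431681810) (nat_lit 107) (nat_lit 5) (nat_lit 110) (nat_lit 5) (nat_lit 111) (nat_lit 5) (nat_lit 622) (nat_lit 504) (nat_lit 434))))) (XT.nd (nat_lit 156) (nat_lit 3116) (nat_lit 0) (XT.nd (nat_lit 78) (nat_lit 0) (nat_lit 0) (XT.lf (nat_lit 0) (nat_lit 192582949) (nat_lit 1444) (nat_lit 3050606907) (nat_lit 0) (nat_lit 192582949) (nat_lit 602) (nat_lit 5) (nat_lit 621) (nat_lit 4) (nat_lit 602) (nat_lit 4) (nat_lit 550) (nat_lit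 505) (nat_lit 505)) (XT.lf (nat_lit 0) (nat_lit 3792843632) (nat_lit 1444) (nat_lit 1266654235) (nat_lit 0) (nat_lit 1841187884) (nat_lit 602) (nat_lit 5) (nat_lit 621) (nat_lit 4) (nat_lit 602) (nat_lit 4) (nat_lit 551) (nat_lit 505) (nat_lit 504))) (XT.nd (nat_lit 78) (nat_lit 1596) (nat_lit 0) (XT.lf (nat_lit 0) (nat_lit 286965321) (nat_lit 1520) (nat_lit 3285373786) (nat_lit 76) (nat_lit 3358969050) (nat_lit 582) (nat_lit 5) (nat_lit 602) (nat_lit 5) (nat_lit 583) (nat_lit 4) (nat_lit 552) (nat_lit 505) (nat_lit 503)) (XT.nd (nat_lit 78) (nat_lit 76) (nat_lit 0) (XT.lf (nat_lit 0) (nat_lit 1647453469) (nat_lit 1520) (nat_lit 2010154343) (nat_lit 1596) (nat_lit 3305539264) (nat_lit 562) (nat_lit 5) (nat_lit 582) (nat_lit 5) (nat_lit 583) (nat_lit 4) (nat_lit 553) (nat_lit 505) (nat_lit 502)) (XT.lf (nat_lit 0) (nat_lit 51668623) (nat_lit 1596) (nat_lit 338090592) (nat_lit 76) (nat_lit 6606797509) (nat_lit 561) (nat_lit 5) (nat_lit 582) (nat_lit 5) (nat_lit 562) (nat_lit 5) (nat_lit 554) (nat_lit 505)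 (nat_lit 501)))))) (XT.nd (nat_lit 390) (nat_lit 3876) (nat_lit 0) (XT.nd (nat_lit 156) (nat_lit 3724) (nat_lit 0) (XT.nd (nat_lit 78) (nat_lit 1672) (nat_lit 0) (XT.lf (nat_lit 0) (nat_lit 3403089040) (nat_lit 1672) (nat_lit 2324810480) (nat_lit 76) (nat_lit 1302877098) (nat_lit 540) (nat_lit 5) (nat_lit 562) (nat_lit 5) (nat_lit 541) (nat_lit 4) (nat_lit 555) (nat_lit 505) (nat_lit 500)) (XT.lf (nat_lit 0) (nat_lit 2758188474) (nat_lit 1672) (nat_lit 4019164628) (nat_lit 1748) (nat_lit 289217026) (nat_lit 518) (nat_lit 5) (nat_lit 540) (nat_lit 5) (nat_lit 541) (nat_lit 4) (nat_lit 556) (nat_lit 505) (nat_lit 499))) (XT.nd (nat_lit 78) (nat_lit 1900) (nat_lit 0) (XT.lf (nat_lit 0) (nat_lit 795997592) (nat_lit 1748) (nat_lit 2233521807) (nat_lit 1824) (nat_lit 4074073522) (nat_lit 494) (nat_lit 5) (nat_lit 517) (nat_lit 5) (nat_lit 518) (nat_lit 5) (nat_lit 557) (nat_lit 505) (nat_lit 498)) (XT.nd (nat_lit 78) (nat_lit 1900) (nat_lit 0) (XT.lf (nat_lit 0) (nat_lit 5993656329) (nat_lit 1748) (nat_lit 380375959)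 (nat_lit 1824) (nat_lit 768025364) (nat_lit 494) (nat_lit 5) (nat_lit 517) (nat_lit 5) (nat_lit 518) (nat_lit 5) (nat_lit 558) (nat_lit 505) (nat_lit 497)) (XT.lf (nat_lit 0) (nat_lit 2541835134) (nat_lit 1900) (nat_lit 3106013205) (nat_lit 76) (nat_lit 1533673283) (nat_lit 469) (nat_lit 5) (nat_lit 494) (nat_lit 5) (nat_lit 470) (nat_lit 5) (nat_lit 559) (nat_lit 505) (nat_lit 496))))) (XT.nd (nat_lit 156) (nat_lit 1824) (nat_lit 0) (XT.nd (nat_lit 78) (nat_lit 988) (nat_lit 0) (XT.lf (nat_lit 0) (nat_lit 2152711430) (nat_lit 1064) (nat_lit 3715236416) (nat_lit 1140) (nat_lit 1354523621) (nat_lit 455) (nat_lit 5) (nat_lit 469) (nat_lit 5) (nat_lit 470) (nat_lit 5) (nat_lit 560) (nat_lit 505) (nat_lit 495)) (XT.lf (nat_lit 0) (nat_lit 218531957) (nat_lit 912) (nat_lit 1710510994) (nat_lit 988) (nat_lit 5335765183) (nat_lit 442) (nat_lit 5) (nat_lit 454) (nat_lit 5) (nat_lit 455) (nat_lit 5) (nat_lit 561) (nat_lit 505) (nat_lit 494))) (XT.nd (nat_lit 78) (nat_lit 1824) (nat_lit 0) (XT.lf (nat_lit 0) (nat_lit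 5233859836) (nat_lit 988) (nat_lit 1704294196) (nat_lit 76) (nat_lit 370188737) (nat_lit 442) (nat_lit 5) (nat_lit 455) (nat_lit 5) (nat_lit 443) (nat_lit 5) (nat_lit 562) (nat_lit 505) (nat_lit 493)) (XT.nd (nat_lit 78) (nat_lit 836) (nat_lit 0) (XT.lf (nat_lit 0) (nat_lit 1209396523) (nat_lit 988) (nat_lit 3644906278) (nat_lit 76) (nat_lit 2498811318) (nat_lit 429) (nat_lit 5) (nat_lit 442) (nat_lit 5) (nat_lit 430) (nat_lit 5) (nat_lit 563) (nat_lit 505) (nat_lit 492)) (XT.lf (nat_lit 0) (nat_lit 1797266276) (nat_lit 836) (nat_lit 2696005679) (nat_lit 912) (nat_lit 2905997136) (nat_lit 418) (nat_lit 5) (nat_lit 429) (nat_lit 5) (nat_lit 430) (nat_lit 5) (nat_lit 564) (nat_lit 505) (nat_lit 491))))))) (XT.nd (nat_lit 780) (nat_lit 6004) (nat_lit 0) (XT.nd (nat_lit 390) (nat_lit 3116) (nat_lit 0) (XT.nd (nat_lit 156) (nat_lit 1748) (nat_lit 0) (XT.nd (nat_lit 78) (nat_lit 836) (nat_lit 0) (XT.lf (nat_lit 0) (nat_lit 355156081) (nat_lit 912) (nat_lit 117282494) (nat_lit 76) (nat_lit 6974583725) (nat_lit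 417) (nat_lit 5) (nat_lit 429) (nat_lit 5) (nat_lit 418) (nat_lit 5) (nat_lit 565) (nat_lit 505) (nat_lit 490)) (XT.lf (nat_lit 0) (nat_lit 3630569259) (nat_lit 912) (nat_lit 2043337921) (nat_lit 76) (nat_lit 1821684362) (nat_lit 406) (nat_lit 5) (nat_lit 418) (nat_lit 5) (nat_lit 407) (nat_lit 5) (nat_lit 566) (nat_lit 505) (nat_lit 489))) (XT.nd (nat_lit 78) (nat_lit 912) (nat_lit 0) (XT.lf (nat_lit 0) (nat_lit 3567517748) (nat_lit 836) (nat_lit 3372214655) (nat_lit 912) (nat_lit 606038955) (nat_lit 395) (nat_lit 5) (nat_lit 406) (nat_lit 5) (nat_lit 407) (nat_lit 5) (nat_lit 567) (nat_lit 505) (nat_lit 488)) (XT.nd (nat_lit 78) (nat_lit 0) (nat_lit 0) (XT.lf (nat_lit 0) (nat_lit 1659494624) (nat_lit 836) (nat_lit 989056660) (nat_lit 912) (nat_lit 4948732879) (nat_lit 383) (nat_lit 5) (nat_lit 394) (nat_lit 5) (nat_lit 395) (nat_lit 5) (nat_lit 568) (nat_lit 505) (nat_lit 487)) (XT.lf (nat_lit 0) (nat_lit 5938527674) (nat_lit 912) (nat_lit 265732486) (nat_lit 76) (nat_lit 1445922553) (nat_lit 383) (nat_lit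 5) (nat_lit 395) (nat_lit 5) (nat_lit 384) (nat_lit 5) (nat_lit 569) (nat_lit 505) (nat_lit 486))))) (XT.nd (nat_lit 156) (nat_lit 1520) (nat_lit 0) (XT.nd (nat_lit 78) (nat_lit 760) (nat_lit 0) (XT.lf (nat_lit 0) (nat_lit 1554902627) (nat_lit 836) (nat_lit 2194547879) (nat_lit 76) (nat_lit 3954774015) (nat_lit 372) (nat_lit 5) (nat_lit 383) (nat_lit 5) (nat_lit 373) (nat_lit 5) (nat_lit 570) (nat_lit 505) (nat_lit 485)) (XT.lf (nat_lit 0) (nat_lit 3615126286) (nat_lit 760) (nat_lit 1217650788) (nat_lit 836) (nat_lit 2926969288) (nat_lit 362) (nat_lit 5) (nat_lit 372) (nat_lit 5) (nat_lit 373) (nat_lit 5) (nat_lit 571) (nat_lit 505) (nat_lit 484))) (XT.nd (nat_lit 78) (nat_lit 760) (nat_lit 0) (XT.lf (nat_lit 0) (nat_lit 333935835) (nat_lit 760) (nat_lit 6117430066) (nat_lit 76) (nat_lit 1365392956) (nat_lit 352) (nat_lit 5) (nat_lit 362) (nat_lit 5) (nat_lit 353) (nat_lit 5) (nat_lit 572) (nat_lit 505) (nat_lit 483)) (XT.nd (nat_lit 78) (nat_lit 760) (nat_lit 0) (XT.lf (nat_lit 0) (nat_lit 3601495383)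 (nat_lit 760) (nat_lit 252398275) (nat_lit 76) (nat_lit 4021021796) (nat_lit 352) (nat_lit 5) (nat_lit 362) (nat_lit 5) (nat_lit 353) (nat_lit 5) (nat_lit 573) (nat_lit 505) (nat_lit 482)) (XT.lf (nat_lit 0) (nat_lit 5739772124) (nat_lit 760) (nat_lit 1177519153) (nat_lit 836) (nat_lit 1017289505) (nat_lit 342) (nat_lit 5) (nat_lit 352) (nat_lit 5) (nat_lit 353) (nat_lit 5) (nat_lit 574) (nat_lit 505) (nat_lit 481)))))) (XT.nd (nat_lit 390) (nat_lit 3192) (nat_lit 0) (XT.nd (nat_lit 156) (nat_lit 1368) (nat_lit 0) (XT.nd (nat_lit 78) (nat_lit 684) (nat_lit 0) (XT.lf (nat_lit 0) (nat_lit 2256496668) (nat_lit 760) (nat_lit 4176650388) (nat_lit 76) (nat_lit 1562341358) (nat_lit 332) (nat_lit 5) (nat_lit 342) (nat_lit 5) (nat_lit 333) (nat_lit 5) (nat_lit 575) (nat_lit 505) (nat_lit 480)) (XT.lf (nat_lit 0) (nat_lit 1868771089) (nat_lit 684) (nat_lit 3694599764) (nat_lit 760) (nat_lit 2494487294) (nat_lit 323) (nat_lit 5) (nat_lit 332) (nat_lit 5) (nat_lit 333) (nat_lit 5) (nat_lit 576) (nat_lit 505) (nat_lit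 479))) (XT.nd (nat_lit 78) (nat_lit 1292) (nat_lit 0) (XT.lf (nat_lit 0) (nat_lit 779165185) (nat_lit 760) (nat_lit 101244110) (nat_lit 76) (nat_lit 7241464242) (nat_lit 322) (nat_lit 5) (nat_lit 332) (nat_lit 5) (nat_lit 323) (nat_lit 5) (nat_lit 577) (nat_lit 505) (nat_lit 478)) (XT.nd (nat_lit 78) (nat_lit 684) (nat_lit 0) (XT.lf (nat_lit 0) (nat_lit 4085554297) (nat_lit 684) (nat_lit 2093639666) (nat_lit 76) (nat_lit 2007635135) (nat_lit 314) (nat_lit 5) (nat_lit 323) (nat_lit 5) (nat_lit 315) (nat_lit 5) (nat_lit 578) (nat_lit 505) (nat_lit 477)) (XT.lf (nat_lit 0) (nat_lit 4142524515) (nat_lit 684) (nat_lit 3297251271) (nat_lit 760) (nat_lit 813676766) (nat_lit 305) (nat_lit 5) (nat_lit 314) (nat_lit 5) (nat_lit 315) (nat_lit 5) (nat_lit 579) (nat_lit 505) (nat_lit 476))))) (XT.nd (nat_lit 234) (nat_lit 1824) (nat_lit 0) (XT.nd (nat_lit 78) (nat_lit 684) (nat_lit 0) (XT.lf (nat_lit 0) (nat_lit 2156324544) (nat_lit 608) (nat_lit 326725559) (nat_lit 684) (nat_lit 5838497648) (nat_lit 296) (nat_lit 5)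 (nat_lit 304) (nat_lit 5) (nat_lit 305) (nat_lit 5) (nat_lit 580) (nat_lit 505) (nat_lit 475)) (XT.nd (nat_lit 78) (nat_lit 76) (nat_lit 0) (XT.lf (nat_lit 0) (nat_lit 126198372) (nat_lit 608) (nat_lit 5703797562) (nat_lit 684) (nat_lit 2561000468) (nat_lit 288) (nat_lit 5) (nat_lit 296) (nat_lit 5) (nat_lit 297) (nat_lit 5) (nat_lit 581) (nat_lit 505) (nat_lit 474)) (XT.lf (nat_lit 0) (nat_lit 764863303) (nat_lit 684) (nat_lit 1908269646) (nat_lit 76) (nat_lit 5788740662) (nat_lit 287) (nat_lit 5) (nat_lit 296) (nat_lit 5) (nat_lit 288) (nat_lit 5) (nat_lit 582) (nat_lit 505) (nat_lit 473)))) (XT.nd (nat_lit 78) (nat_lit 1216) (nat_lit 0) (XT.lf (nat_lit 0) (nat_lit 4105723070) (nat_lit 684) (nat_lit 3984476216) (nat_lit 76) (nat_lit 443977657) (nat_lit 279) (nat_lit 5) (nat_lit 288) (nat_lit 5) (nat_lit 280) (nat_lit 5) (nat_lit 583) (nat_lit 505) (nat_lit 472)) (XT.nd (nat_lit 78) (nat_lit 608) (nat_lit 0) (XT.lf (nat_lit 0) (nat_lit 2504171374) (nat_lit 608) (nat_lit 5006789382) (nat_lit 684) (nat_lit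 1097016871) (nat_lit 271) (nat_lit 5) (nat_lit 279) (nat_lit 5) (nat_lit 280) (nat_lit 5) (nat_lit 584) (nat_lit 505) (nat_lit 471)) (XT.lf (nat_lit 0) (nat_lit 418117703) (nat_lit 532) (nat_lit 1833307122) (nat_lit 608) (nat_lit 6431922014) (nat_lit 263) (nat_lit 5) (nat_lit 270) (nat_lit 5) (nat_lit 271) (nat_lit 5) (nat_lit 585) (nat_lit 505) (nat_lit 470))))))))
noncomputable def xc34 : XT := (XT.nd (nat_lit 1560) (nat_lit 4332) (nat_lit 0) (XT.nd (nat_lit 780) (nat_lit 3496) (nat_lit 0) (XT.nd (nat_lit 390) (nat_lit 2052) (nat_lit 0) (XT.nd (nat_lit 156) (nat_lit 1140) (nat_lit 0) (XT.nd (nat_lit 78) (nat_lit 608) (nat_lit 0) (XT.lf (nat_lit 0) (nat_lit 5653853667) (nat_lit 608) (nat_lit 1689393681) (nat_lit 76) (nat_lit 1416799273) (nat_lit 263) (nat_lit 5) (nat_lit 271) (nat_lit 5) (nat_lit 264) (nat_lit 5) (nat_lit 586) (nat_lit 505) (nat_lit 469)) (XT.lf (nat_lit 0) (nat_lit 279224572) (nat_lit 608) (nat_lit 3833959431) (nat_lit 76) (nat_lit 4725123005) (nat_lit 255) (nat_lit 5) (nat_lit 263) (nat_lit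 5) (nat_lit 256) (nat_lit 5) (nat_lit 587) (nat_lit 505) (nat_lit 468))) (XT.nd (nat_lit 78) (nat_lit 608) (nat_lit 0) (XT.lf (nat_lit 0) (nat_lit 2888740749) (nat_lit 532) (nat_lit 784726893) (nat_lit 608) (nat_lit 5244602364) (nat_lit 248) (nat_lit 5) (nat_lit 255) (nat_lit 5) (nat_lit 256) (nat_lit 5) (nat_lit 588) (nat_lit 505) (nat_lit 467)) (XT.nd (nat_lit 78) (nat_lit 76) (nat_lit 0) (XT.lf (nat_lit 0) (nat_lit 725496538) (nat_lit 532) (nat_lit 6410550317) (nat_lit 608) (nat_lit 1863374560) (nat_lit 241) (nat_lit 5) (nat_lit 248) (nat_lit 5) (nat_lit 249) (nat_lit 5) (nat_lit 589) (nat_lit 505) (nat_lit 466)) (XT.lf (nat_lit 0) (nat_lit 1563691706) (nat_lit 608) (nat_lit 1466245663) (nat_lit 76) (nat_lit 6052278543) (nat_lit 240) (nat_lit 5) (nat_lit 248) (nat_lit 5) (nat_lit 241) (nat_lit 5) (nat_lit 590) (nat_lit 505) (nat_lit 465))))) (XT.nd (nat_lit 156) (nat_lit 1064) (nat_lit 0) (XT.nd (nat_lit 78) (nat_lit 532) (nat_lit 0) (XT.lf (nat_lit 0) (nat_lit 5026815583) (nat_lit 532) (nat_lit 3697274523)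 (nat_lit 76) (nat_lit 442482570) (nat_lit 234) (nat_lit 5) (nat_lit 241) (nat_lit 5) (nat_lit 235) (nat_lit 5) (nat_lit 591) (nat_lit 505) (nat_lit 464)) (XT.lf (nat_lit 0) (nat_lit 3268632747) (nat_lit 532) (nat_lit 5296126606) (nat_lit 608) (nat_lit 687748086) (nat_lit 227) (nat_lit 5) (nat_lit 234) (nat_lit 5) (nat_lit 235) (nat_lit 5) (nat_lit 592) (nat_lit 505) (nat_lit 463))) (XT.nd (nat_lit 78) (nat_lit 532) (nat_lit 0) (XT.lf (nat_lit 0) (nat_lit 1013755512) (nat_lit 456) (nat_lit 1768482114) (nat_lit 532) (nat_lit 6557835376) (nat_lit 220) (nat_lit 5) (nat_lit 226) (nat_lit 5) (nat_lit 227) (nat_lit 5) (nat_lit 593) (nat_lit 505) (nat_lit 462)) (XT.nd (nat_lit 78) (nat_lit 532) (nat_lit 0) (XT.lf (nat_lit 0) (nat_lit 6319603411) (nat_lit 532) (nat_lit 1278469991) (nat_lit 76) (nat_lit 1831083664) (nat_lit 220) (nat_lit 5) (nat_lit 227) (nat_lit 5) (nat_lit 221) (nat_lit 5) (nat_lit 594) (nat_lit 505) (nat_lit 461)) (XT.lf (nat_lit 0) (nat_lit 408243687) (nat_lit 532) (nat_lit 3610783491) (nat_lit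 76) (nat_lit 5500826577) (nat_lit 213) (nat_lit 5) (nat_lit 220) (nat_lit 5) (nat_lit 214) (nat_lit 5) (nat_lit 595) (nat_lit 505) (nat_lit 460)))))) (XT.nd (nat_lit 390) (nat_lit 1672) (nat_lit 0) (XT.nd (nat_lit 156) (nat_lit 912) (nat_lit 0) (XT.nd (nat_lit 78) (nat_lit 456) (nat_lit 0) (XT.lf (nat_lit 0) (nat_lit 3607652162) (nat_lit 456) (nat_lit 335131475) (nat_lit 532) (nat_lit 5669410973) (nat_lit 207) (nat_lit 5) (nat_lit 213) (nat_lit 5) (nat_lit 214) (nat_lit 5) (nat_lit 596) (nat_lit 505) (nat_lit 459)) (XT.lf (nat_lit 0) (nat_lit 1242591038) (nat_lit 456) (nat_lit 6316343197) (nat_lit 532) (nat_lit 2147231401) (nat_lit 201) (nat_lit 5) (nat_lit 207) (nat_lit 5) (nat_lit 208) (nat_lit 5) (nat_lit 597) (nat_lit 505) (nat_lit 458))) (XT.nd (nat_lit 78) (nat_lit 836) (nat_lit 0) (XT.lf (nat_lit 0) (nat_lit 1425607033) (nat_lit 532) (nat_lit 1162003781) (nat_lit 76) (nat_lit 7214235828) (nat_lit 200) (nat_lit 5) (nat_lit 207) (nat_lit 5) (nat_lit 201) (nat_lit 5) (nat_lit 598) (nat_lit 505) (nat_lit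 457)) (XT.nd (nat_lit 78) (nat_lit 456) (nat_lit 0) (XT.lf (nat_lit 0) (nat_lit 5047386299) (nat_lit 456) (nat_lit 3617152459) (nat_lit 76) (nat_lit 1234495585) (nat_lit 195) (nat_lit 5) (nat_lit 201) (nat_lit 5) (nat_lit 196) (nat_lit 5) (nat_lit 599) (nat_lit 505) (nat_lit 456)) (XT.lf (nat_lit 0) (nat_lit 3861845431) (nat_lit 456) (nat_lit 4887353439) (nat_lit 532) (nat_lit 1248816593) (nat_lit 189) (nat_lit 5) (nat_lit 195) (nat_lit 5) (nat_lit 196) (nat_lit 5) (nat_lit 600) (nat_lit 505) (nat_lit 455))))) (XT.nd (nat_lit 156) (nat_lit 1216) (nat_lit 0) (XT.nd (nat_lit 78) (nat_lit 0) (nat_lit 0) (XT.lf (nat_lit 0) (nat_lit 1378992465) (nat_lit 380) (nat_lit 1006325785) (nat_lit 456) (nat_lit 7713523175) (nat_lit 183) (nat_lit 5) (nat_lit 188) (nat_lit 5) (nat_lit 189) (nat_lit 5) (nat_lit 601) (nat_lit 505) (nat_lit 454)) (XT.lf (nat_lit 0) (nat_lit 6094000340) (nat_lit 456) (nat_lit 1165357020) (nat_lit 76) (nat_lit 2941791253) (nat_lit 183) (nat_lit 5) (nat_lit 189) (nat_lit 5) (nat_lit 184) (nat_lit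 5) (nat_lit 602) (nat_lit 505) (nat_lit 453))) (XT.nd (nat_lit 78) (nat_lit 836) (nat_lit 0) (XT.lf (nat_lit 0) (nat_lit 6556390921) (nat_lit 380) (nat_lit 3328474968) (nat_lit 456) (nat_lit 420477356) (nat_lit 178) (nat_lit 5) (nat_lit 183) (nat_lit 5) (nat_lit 184) (nat_lit 5) (nat_lit 603) (nat_lit 505) (nat_lit 452)) (XT.nd (nat_lit 78) (nat_lit 380) (nat_lit 0) (XT.lf (nat_lit 0) (nat_lit 3293545975) (nat_lit 456) (nat_lit 6411582402) (nat_lit 76) (nat_lit 706112674) (nat_lit 172) (nat_lit 5) (nat_lit 178) (nat_lit 5) (nat_lit 173) (nat_lit 5) (nat_lit 604) (nat_lit 505) (nat_lit 451)) (XT.lf (nat_lit 0) (nat_lit 1364665255) (nat_lit 380) (nat_lit 5726946500) (nat_lit 456) (nat_lit 3427283036) (nat_lit 167) (nat_lit 5) (nat_lit 172) (nat_lit 5) (nat_lit 173) (nat_lit 5) (nat_lit 605) (nat_lit 505) (nat_lit 450))))))) (XT.nd (nat_lit 780) (nat_lit 1596) (nat_lit 0) (XT.nd (nat_lit 390) (nat_lit 1520) (nat_lit 0) (XT.nd (nat_lit 156) (nat_lit 760) (nat_lit 0) (XT.nd (nat_lit 78) (nat_lit 380) (nat_lit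 0) (XT.lf (nat_lit 0) (nat_lit 335109638) (nat_lit 456) (nat_lit 1310634217) (nat_lit 76) (nat_lit 8982863525) (nat_lit 166) (nat_lit 5) (nat_lit 172) (nat_lit 5) (nat_lit 167) (nat_lit 5) (nat_lit 606) (nat_lit 505) (nat_lit 449)) (XT.lf (nat_lit 0) (nat_lit 4147068141) (nat_lit 456) (nat_lit 4064137265) (nat_lit 76) (nat_lit 2528452869) (nat_lit 161) (nat_lit 5) (nat_lit 167) (nat_lit 5) (nat_lit 162) (nat_lit 5) (nat_lit 607) (nat_lit 505) (nat_lit 448))) (XT.nd (nat_lit 78) (nat_lit 380) (nat_lit 0) (XT.lf (nat_lit 0) (nat_lit 3964796608) (nat_lit 380) (nat_lit 4076277567) (nat_lit 456) (nat_lit 2811741149) (nat_lit 156) (nat_lit 5) (nat_lit 161) (nat_lit 5) (nat_lit 162) (nat_lit 5) (nat_lit 608) (nat_lit 505) (nat_lit 447)) (XT.nd (nat_lit 78) (nat_lit 0) (nat_lit 0) (XT.lf (nat_lit 0) (nat_lit 1027657880) (nat_lit 380) (nat_lit 9781684598) (nat_lit 76) (nat_lit 158825928) (nat_lit 151) (nat_lit 5) (nat_lit 156) (nat_lit 5) (nat_lit 152) (nat_lit 5) (nat_lit 609) (nat_lit 505) (nat_lit 446)) (XT.lf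 (nat_lit 0) (nat_lit 4940401601) (nat_lit 380) (nat_lit 1677974104) (nat_lit 76) (nat_lit 4466398241) (nat_lit 151) (nat_lit 5) (nat_lit 156) (nat_lit 5) (nat_lit 152) (nat_lit 5) (nat_lit 610) (nat_lit 505) (nat_lit 445))))) (XT.nd (nat_lit 156) (nat_lit 760) (nat_lit 0) (XT.nd (nat_lit 78) (nat_lit 380) (nat_lit 0) (XT.lf (nat_lit 0) (nat_lit 6612780399) (nat_lit 380) (nat_lit 2322973154) (nat_lit 456) (nat_lit 2267872179) (nat_lit 146) (nat_lit 5) (nat_lit 151) (nat_lit 5) (nat_lit 152) (nat_lit 5) (nat_lit 611) (nat_lit 505) (nat_lit 444)) (XT.lf (nat_lit 0) (nat_lit 1674728276) (nat_lit 380) (nat_lit 7594535655) (nat_lit 76) (nat_lit 2055159136) (nat_lit 141) (nat_lit 5) (nat_lit 146) (nat_lit 5) (nat_lit 142) (nat_lit 5) (nat_lit 612) (nat_lit 505) (nat_lit 443))) (XT.nd (nat_lit 78) (nat_lit 380) (nat_lit 0) (XT.lf (nat_lit 0) (nat_lit 749396967) (nat_lit 380) (nat_lit 4929432460) (nat_lit 456) (nat_lit 5768247930) (nat_lit 136) (nat_lit 5) (nat_lit 141) (nat_lit 5) (nat_lit 142) (nat_lit 5) (nat_lit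 613) (nat_lit 505) (nat_lit 442)) (XT.nd (nat_lit 78) (nat_lit 380) (nat_lit 0) (XT.lf (nat_lit 0) (nat_lit 9301493260) (nat_lit 380) (nat_lit 474559381) (nat_lit 456) (nat_lit 1795872403) (nat_lit 136) (nat_lit 5) (nat_lit 141) (nat_lit 5) (nat_lit 142) (nat_lit 5) (nat_lit 614) (nat_lit 505) (nat_lit 441)) (XT.lf (nat_lit 0) (nat_lit 2256691194) (nat_lit 380) (nat_lit 5392721480) (nat_lit 76) (nat_lit 4048958580) (nat_lit 131) (nat_lit 5) (nat_lit 136) (nat_lit 5) (nat_lit 132) (nat_lit 5) (nat_lit 615) (nat_lit 505) (nat_lit 440)))))) (XT.nd (nat_lit 390) (nat_lit 380) (nat_lit 0) (XT.nd (nat_lit 156) (nat_lit 608) (nat_lit 0) (XT.nd (nat_lit 78) (nat_lit 304) (nat_lit 0) (XT.lf (nat_lit 0) (nat_lit 3222980921) (nat_lit 304) (nat_lit 3145467489) (nat_lit 380) (nat_lit 5458617830) (nat_lit 127) (nat_lit 5) (nat_lit 131) (nat_lit 5) (nat_lit 132) (nat_lit 5) (nat_lit 616) (nat_lit 505) (nat_lit 439)) (XT.lf (nat_lit 0) (nat_lit 56257072) (nat_lit 304) (nat_lit 10515324073) (nat_lit 380) (nat_lit 1386572199)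 (nat_lit 123) (nat_lit 5) (nat_lit 127) (nat_lit 5) (nat_lit 128) (nat_lit 5) (nat_lit 617) (nat_lit 505) (nat_lit 438))) (XT.nd (nat_lit 78) (nat_lit 532) (nat_lit 0) (XT.lf (nat_lit 0) (nat_lit 2772606338) (nat_lit 380) (nat_lit 3184859144) (nat_lit 76) (nat_lit 6133198791) (nat_lit 122) (nat_lit 5) (nat_lit 127) (nat_lit 5) (nat_lit 123) (nat_lit 5) (nat_lit 618) (nat_lit 505) (nat_lit 437)) (XT.nd (nat_lit 78) (nat_lit 228) (nat_lit 0) (XT.lf (nat_lit 0) (nat_lit 5712044004) (nat_lit 304) (nat_lit 1285216239) (nat_lit 380) (nat_lit 5228365678) (nat_lit 118) (nat_lit 5) (nat_lit 122) (nat_lit 5) (nat_lit 123) (nat_lit 5) (nat_lit 619) (nat_lit 505) (nat_lit 436)) (XT.lf (nat_lit 0) (nat_lit 2415766725) (nat_lit 228) (nat_lit 8914357998) (nat_lit 304) (nat_lit 1032688679) (nat_lit 115) (nat_lit 5) (nat_lit 118) (nat_lit 5) (nat_lit 119) (nat_lit 5) (nat_lit 620) (nat_lit 505) (nat_lit 435))))) (XT.nd (nat_lit 75504) (nat_lit 0) (nat_lit 37392) (XT.nd (nat_lit 78) (nat_lit 304) (nat_lit 0) (XT.lf (nat_lit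 0) (nat_lit 3220830364) (nat_lit 304) (nat_lit 980213598) (nat_lit 76) (nat_lit 8300949717) (nat_lit 114) (nat_lit 5) (nat_lit 118) (nat_lit 5) (nat_lit 115) (nat_lit 5) (nat_lit 621) (nat_lit 505) (nat_lit 434)) (XT.lf (nat_lit 0) (nat_lit 7567781671) (nat_lit 380) (nat_lit 4440153977) (nat_lit 76) (nat_lit 635442492) (nat_lit 110) (nat_lit 5) (nat_lit 115) (nat_lit 5) (nat_lit 111) (nat_lit 5) (nat_lit 622) (nat_lit 505) (nat_lit 433))) (XT.nd (nat_lit 78) (nat_lit 2736) (nat_lit 0) (XT.lf (nat_lit 0) (nat_lit 1221500293) (nat_lit 1292) (nat_lit 964959441) (nat_lit 0) (nat_lit 1221500293) (nat_lit 638) (nat_lit 5) (nat_lit 655) (nat_lit 4) (nat_lit 638) (nat_lit 4) (nat_lit 548) (nat_lit 506) (nat_lit 506)) (XT.nd (nat_lit 78) (nat_lit 1444) (nat_lit 0) (XT.lf (nat_lit 0) (nat_lit 2808878563) (nat_lit 1292) (nat_lit 3032476792) (nat_lit 1292) (nat_lit 1001974152) (nat_lit 621) (nat_lit 4) (nat_lit 638) (nat_lit 5) (nat_lit 638) (nat_lit 4) (nat_lit 549) (nat_lit 506) (nat_lit 505)) (XT.lf (nat_lit 0)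 (nat_lit 727685174) (nat_lit 1368) (nat_lit 1623243873) (nat_lit 1444) (nat_lit 4521118221) (nat_lit 602) (nat_lit 5) (nat_lit 620) (nat_lit 5) (nat_lit 621) (nat_lit 4) (nat_lit 550) (nat_lit 506) (nat_lit 504))))))))
noncomputable def xc35 : XT := (XT.nd (nat_lit 1560) (nat_lit 10488) (nat_lit 0) (XT.nd (nat_lit 780) (nat_lit 6232) (nat_lit 0) (XT.nd (nat_lit 390) (nat_lit 6536) (nat_lit 0) (XT.nd (nat_lit 156) (nat_lit 3192) (nat_lit 0) (XT.nd (nat_lit 78) (nat_lit 1520) (nat_lit 0) (XT.lf (nat_lit 0) (nat_lit 5569907800) (nat_lit 1368) (nat_lit 144327373) (nat_lit 1444) (nat_lit 1187842746) (nat_lit 602) (nat_lit 5) (nat_lit 620) (nat_lit 5) (nat_lit 621) (nat_lit 4) (nat_lit 551) (nat_lit 506) (nat_lit 503)) (XT.lf (nat_lit 0) (nat_lit 2145888569) (nat_lit 1520) (nat_lit 3396908265) (nat_lit 76) (nat_lit 1390375033) (nat_lit 582) (nat_lit 5) (nat_lit 602) (nat_lit 5) (nat_lit 583) (nat_lit 4) (nat_lit 552) (nat_lit 506) (nat_lit 502))) (XT.nd (nat_lit 78) (nat_lit 1672) (nat_lit 0) (XT.lf (nat_lit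 0) (nat_lit 1502427587) (nat_lit 1520) (nat_lit 3979314770) (nat_lit 1596) (nat_lit 1483967104) (nat_lit 562) (nat_lit 5) (nat_lit 582) (nat_lit 5) (nat_lit 583) (nat_lit 4) (nat_lit 553) (nat_lit 506) (nat_lit 501)) (XT.nd (nat_lit 78) (nat_lit 1596) (nat_lit 0) (XT.lf (nat_lit 0) (nat_lit 1815739442) (nat_lit 1596) (nat_lit 529336716) (nat_lit 76) (nat_lit 4654481427) (nat_lit 561) (nat_lit 5) (nat_lit 582) (nat_lit 5) (nat_lit 562) (nat_lit 5) (nat_lit 554) (nat_lit 506) (nat_lit 500)) (XT.lf (nat_lit 0) (nat_lit 4489299859) (nat_lit 1596) (nat_lit 634872879) (nat_lit 1672) (nat_lit 1910467217) (nat_lit 540) (nat_lit 5) (nat_lit 561) (nat_lit 5) (nat_lit 562) (nat_lit 5) (nat_lit 555) (nat_lit 506) (nat_lit 499))))) (XT.nd (nat_lit 156) (nat_lit 3040) (nat_lit 0) (XT.nd (nat_lit 78) (nat_lit 1748) (nat_lit 0) (XT.lf (nat_lit 0) (nat_lit 1370767337) (nat_lit 1748) (nat_lit 4573399411) (nat_lit 76) (nat_lit 1126854065) (nat_lit 517) (nat_lit 5) (nat_lit 540) (nat_lit 5) (nat_lit 518) (nat_lit 5) (nat_lit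 556) (nat_lit 506) (nat_lit 498)) (XT.lf (nat_lit 0) (nat_lit 493243985) (nat_lit 1748) (nat_lit 4158221556) (nat_lit 1824) (nat_lit 2457227987) (nat_lit 494) (nat_lit 5) (nat_lit 517) (nat_lit 5) (nat_lit 518) (nat_lit 5) (nat_lit 557) (nat_lit 506) (nat_lit 497))) (XT.nd (nat_lit 78) (nat_lit 2964) (nat_lit 0) (XT.lf (nat_lit 0) (nat_lit 805622152) (nat_lit 1824) (nat_lit 1493872861) (nat_lit 76) (nat_lit 4848196813) (nat_lit 493) (nat_lit 5) (nat_lit 517) (nat_lit 5) (nat_lit 494) (nat_lit 5) (nat_lit 558) (nat_lit 506) (nat_lit 496)) (XT.nd (nat_lit 78) (nat_lit 1140) (nat_lit 0) (XT.lf (nat_lit 0) (nat_lit 3698789707) (nat_lit 1824) (nat_lit 362580618) (nat_lit 1900) (nat_lit 3126568960) (nat_lit 469) (nat_lit 5) (nat_lit 493) (nat_lit 5) (nat_lit 494) (nat_lit 5) (nat_lit 559) (nat_lit 506) (nat_lit 495)) (XT.lf (nat_lit 0) (nat_lit 120178403) (nat_lit 1140) (nat_lit 5495849935) (nat_lit 76) (nat_lit 1613569242) (nat_lit 454) (nat_lit 5) (nat_lit 469) (nat_lit 5) (nat_lit 455) (nat_lit 5) (nat_lit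 560) (nat_lit 506) (nat_lit 494)))))) (XT.nd (nat_lit 390) (nat_lit 3420) (nat_lit 0) (XT.nd (nat_lit 156) (nat_lit 1900) (nat_lit 0) (XT.nd (nat_lit 78) (nat_lit 912) (nat_lit 0) (XT.lf (nat_lit 0) (nat_lit 3353733777) (nat_lit 1140) (nat_lit 251311508) (nat_lit 76) (nat_lit 3667360290) (nat_lit 454) (nat_lit 5) (nat_lit 469) (nat_lit 5) (nat_lit 455) (nat_lit 5) (nat_lit 561) (nat_lit 506) (nat_lit 493)) (XT.lf (nat_lit 0) (nat_lit 5101467593) (nat_lit 912) (nat_lit 1522564189) (nat_lit 988) (nat_lit 692601049) (nat_lit 442) (nat_lit 5) (nat_lit 454) (nat_lit 5) (nat_lit 455) (nat_lit 5) (nat_lit 562) (nat_lit 506) (nat_lit 492))) (XT.nd (nat_lit 78) (nat_lit 912) (nat_lit 0) (XT.lf (nat_lit 0) (nat_lit 2529632688) (nat_lit 988) (nat_lit 4202661946) (nat_lit 76) (nat_lit 629802703) (nat_lit 429) (nat_lit 5) (nat_lit 442) (nat_lit 5) (nat_lit 430) (nat_lit 5) (nat_lit 563) (nat_lit 506) (nat_lit 491)) (XT.nd (nat_lit 78) (nat_lit 76) (nat_lit 0) (XT.lf (nat_lit 0) (nat_lit 1199639489) (nat_lit 836) (nat_lit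 4580328302) (nat_lit 912) (nat_lit 1628957438) (nat_lit 418) (nat_lit 5) (nat_lit 429) (nat_lit 5) (nat_lit 430) (nat_lit 5) (nat_lit 564) (nat_lit 506) (nat_lit 490)) (XT.lf (nat_lit 0) (nat_lit 1585966006) (nat_lit 912) (nat_lit 765073021) (nat_lit 76) (nat_lit 5106065239) (nat_lit 417) (nat_lit 5) (nat_lit 429) (nat_lit 5) (nat_lit 418) (nat_lit 5) (nat_lit 565) (nat_lit 506) (nat_lit 489))))) (XT.nd (nat_lit 156) (nat_lit 1672) (nat_lit 0) (XT.nd (nat_lit 78) (nat_lit 912) (nat_lit 0) (XT.lf (nat_lit 0) (nat_lit 4776074496) (nat_lit 836) (nat_lit 39947245) (nat_lit 912) (nat_lit 2690560908) (nat_lit 406) (nat_lit 5) (nat_lit 417) (nat_lit 5) (nat_lit 418) (nat_lit 5) (nat_lit 566) (nat_lit 506) (nat_lit 488)) (XT.lf (nat_lit 0) (nat_lit 527196262) (nat_lit 912) (nat_lit 4721780976) (nat_lit 76) (nat_lit 2308388754) (nat_lit 394) (nat_lit 5) (nat_lit 406) (nat_lit 5) (nat_lit 395) (nat_lit 5) (nat_lit 567) (nat_lit 506) (nat_lit 487))) (XT.nd (nat_lit 78) (nat_lit 836) (nat_lit 0) (XT.lf (nat_lit 0)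 (nat_lit 869572276) (nat_lit 836) (nat_lit 2870744046) (nat_lit 912) (nat_lit 3869156094) (nat_lit 383) (nat_lit 5) (nat_lit 394) (nat_lit 5) (nat_lit 395) (nat_lit 5) (nat_lit 568) (nat_lit 506) (nat_lit 486)) (XT.nd (nat_lit 78) (nat_lit 836) (nat_lit 0) (XT.lf (nat_lit 0) (nat_lit 6572341765) (nat_lit 836) (nat_lit 420394812) (nat_lit 912) (nat_lit 670387353) (nat_lit 383) (nat_lit 5) (nat_lit 394) (nat_lit 5) (nat_lit 395) (nat_lit 5) (nat_lit 569) (nat_lit 506) (nat_lit 485)) (XT.lf (nat_lit 0) (nat_lit 2546407866) (nat_lit 836) (nat_lit 3080193119) (nat_lit 76) (nat_lit 2091153429) (nat_lit 372) (nat_lit 5) (nat_lit 383) (nat_lit 5) (nat_lit 373) (nat_lit 5) (nat_lit 570) (nat_lit 506) (nat_lit 484))))))) (XT.nd (nat_lit 780) (nat_lit 4712) (nat_lit 0) (XT.nd (nat_lit 390) (nat_lit 2736) (nat_lit 0) (XT.nd (nat_lit 156) (nat_lit 1520) (nat_lit 0) (XT.nd (nat_lit 78) (nat_lit 760) (nat_lit 0) (XT.lf (nat_lit 0) (nat_lit 2685339531) (nat_lit 760) (nat_lit 3105540649) (nat_lit 836) (nat_lit 1983065854)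 (nat_lit 362) (nat_lit 5) (nat_lit 372) (nat_lit 5) (nat_lit 373) (nat_lit 5) (nat_lit 571) (nat_lit 506) (nat_lit 483)) (XT.lf (nat_lit 0) (nat_lit 713222938) (nat_lit 684) (nat_lit 509576537) (nat_lit 760) (nat_lit 6608891358) (nat_lit 352) (nat_lit 5) (nat_lit 361) (nat_lit 5) (nat_lit 362) (nat_lit 5) (nat_lit 572) (nat_lit 506) (nat_lit 482))) (XT.nd (nat_lit 78) (nat_lit 1520) (nat_lit 0) (XT.lf (nat_lit 0) (nat_lit 4460129102) (nat_lit 760) (nat_lit 1282523720) (nat_lit 76) (nat_lit 2147800841) (nat_lit 352) (nat_lit 5) (nat_lit 362) (nat_lit 5) (nat_lit 353) (nat_lit 5) (nat_lit 573) (nat_lit 506) (nat_lit 481)) (XT.nd (nat_lit 78) (nat_lit 760) (nat_lit 0) (XT.lf (nat_lit 0) (nat_lit 4663773862) (nat_lit 760) (nat_lit 3078771498) (nat_lit 836) (nat_lit 208242826) (nat_lit 342) (nat_lit 5) (nat_lit 352) (nat_lit 5) (nat_lit 353) (nat_lit 5) (nat_lit 574) (nat_lit 506) (nat_lit 480)) (XT.lf (nat_lit 0) (nat_lit 2684952603) (nat_lit 684) (nat_lit 326016234) (nat_lit 760) (nat_lit 5001502737) (nat_lit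 332) (nat_lit 5) (nat_lit 341) (nat_lit 5) (nat_lit 342) (nat_lit 5) (nat_lit 575) (nat_lit 506) (nat_lit 479))))) (XT.nd (nat_lit 156) (nat_lit 1976) (nat_lit 0) (XT.nd (nat_lit 78) (nat_lit 76) (nat_lit 0) (XT.lf (nat_lit 0) (nat_lit 672149666) (nat_lit 684) (nat_lit 5609823964) (nat_lit 760) (nat_lit 1793586576) (nat_lit 323) (nat_lit 5) (nat_lit 332) (nat_lit 5) (nat_lit 333) (nat_lit 5) (nat_lit 576) (nat_lit 506) (nat_lit 478)) (XT.lf (nat_lit 0) (nat_lit 1445020454) (nat_lit 760) (nat_lit 1352427294) (nat_lit 76) (nat_lit 5342555344) (nat_lit 322) (nat_lit 5) (nat_lit 332) (nat_lit 5) (nat_lit 323) (nat_lit 5) (nat_lit 577) (nat_lit 506) (nat_lit 477))) (XT.nd (nat_lit 78) (nat_lit 1368) (nat_lit 0) (XT.lf (nat_lit 0) (nat_lit 4705079946) (nat_lit 684) (nat_lit 3399809872) (nat_lit 76) (nat_lit 100996851) (nat_lit 314) (nat_lit 5) (nat_lit 323) (nat_lit 5) (nat_lit 315) (nat_lit 5) (nat_lit 578) (nat_lit 506) (nat_lit 476)) (XT.nd (nat_lit 78) (nat_lit 684) (nat_lit 0) (XT.lf (nat_lit 0) (nat_lit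 2786643779) (nat_lit 684) (nat_lit 5238759327) (nat_lit 760) (nat_lit 247786379) (nat_lit 305) (nat_lit 5) (nat_lit 314) (nat_lit 5) (nat_lit 315) (nat_lit 5) (nat_lit 579) (nat_lit 506) (nat_lit 475)) (XT.lf (nat_lit 0) (nat_lit 726225637) (nat_lit 608) (nat_lit 2281033374) (nat_lit 684) (nat_lit 5334638724) (nat_lit 296) (nat_lit 5) (nat_lit 304) (nat_lit 5) (nat_lit 305) (nat_lit 5) (nat_lit 580) (nat_lit 506) (nat_lit 474)))))) (XT.nd (nat_lit 390) (nat_lit 2736) (nat_lit 0) (XT.nd (nat_lit 156) (nat_lit 1292) (nat_lit 0) (XT.nd (nat_lit 78) (nat_lit 684) (nat_lit 0) (XT.lf (nat_lit 0) (nat_lit 6315958799) (nat_lit 684) (nat_lit 1345505939) (nat_lit 76) (nat_lit 750647884) (nat_lit 296) (nat_lit 5) (nat_lit 305) (nat_lit 5) (nat_lit 297) (nat_lit 5) (nat_lit 581) (nat_lit 506) (nat_lit 473)) (XT.lf (nat_lit 0) (nat_lit 1190078279) (nat_lit 684) (nat_lit 3454512805) (nat_lit 76) (nat_lit 3839010351) (nat_lit 287) (nat_lit 5) (nat_lit 296) (nat_lit 5) (nat_lit 288) (nat_lit 5) (nat_lit 582) (nat_lit 506)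 (nat_lit 472))) (XT.nd (nat_lit 78) (nat_lit 684) (nat_lit 0) (XT.lf (nat_lit 0) (nat_lit 2953696275) (nat_lit 608) (nat_lit 1539797547) (nat_lit 684) (nat_lit 4063161067) (nat_lit 279) (nat_lit 5) (nat_lit 287) (nat_lit 5) (nat_lit 288) (nat_lit 5) (nat_lit 583) (nat_lit 506) (nat_lit 471)) (XT.nd (nat_lit 78) (nat_lit 76) (nat_lit 0) (XT.lf (nat_lit 0) (nat_lit 841895907) (nat_lit 608) (nat_lit 7012122507) (nat_lit 684) (nat_lit 777332636) (nat_lit 271) (nat_lit 5) (nat_lit 279) (nat_lit 5) (nat_lit 280) (nat_lit 5) (nat_lit 584) (nat_lit 506) (nat_lit 470)) (XT.lf (nat_lit 0) (nat_lit 2540383418) (nat_lit 684) (nat_lit 1307187133) (nat_lit 76) (nat_lit 4859640025) (nat_lit 270) (nat_lit 5) (nat_lit 279) (nat_lit 5) (nat_lit 271) (nat_lit 5) (nat_lit 585) (nat_lit 506) (nat_lit 469))))) (XT.nd (nat_lit 234) (nat_lit 1064) (nat_lit 0) (XT.nd (nat_lit 78) (nat_lit 1140) (nat_lit 0) (XT.lf (nat_lit 0) (nat_lit 5305598250) (nat_lit 532) (nat_lit 595734820) (nat_lit 608) (nat_lit 2883408015) (nat_lit 263)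 (nat_lit 5) (nat_lit 270) (nat_lit 5) (nat_lit 271) (nat_lit 5) (nat_lit 586) (nat_lit 506) (nat_lit 468)) (XT.nd (nat_lit 78) (nat_lit 532) (nat_lit 0) (XT.lf (nat_lit 0) (nat_lit 459853641) (nat_lit 608) (nat_lit 5702328745) (nat_lit 76) (nat_lit 2701575938) (nat_lit 255) (nat_lit 5) (nat_lit 263) (nat_lit 5) (nat_lit 256) (nat_lit 5) (nat_lit 587) (nat_lit 506) (nat_lit 467)) (XT.lf (nat_lit 0) (nat_lit 963350187) (nat_lit 532) (nat_lit 2855193202) (nat_lit 608) (nat_lit 5125690077) (nat_lit 248) (nat_lit 5) (nat_lit 255) (nat_lit 5) (nat_lit 256) (nat_lit 5) (nat_lit 588) (nat_lit 506) (nat_lit 466)))) (XT.nd (nat_lit 78) (nat_lit 1064) (nat_lit 0) (XT.lf (nat_lit 0) (nat_lit 7240107202) (nat_lit 608) (nat_lit 1254090375) (nat_lit 76) (nat_lit 532208664) (nat_lit 248) (nat_lit 5) (nat_lit 256) (nat_lit 5) (nat_lit 249) (nat_lit 5) (nat_lit 589) (nat_lit 506) (nat_lit 465)) (XT.nd (nat_lit 78) (nat_lit 456) (nat_lit 0) (XT.lf (nat_lit 0) (nat_lit 1608680285) (nat_lit 608) (nat_lit 3522148476) (nat_lit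 76) (nat_lit 3978984505) (nat_lit 240) (nat_lit 5) (nat_lit 248) (nat_lit 5) (nat_lit 241) (nat_lit 5) (nat_lit 590) (nat_lit 506) (nat_lit 464)) (XT.lf (nat_lit 0) (nat_lit 3357199572) (nat_lit 456) (nat_lit 1675636737) (nat_lit 532) (nat_lit 4162114075) (nat_lit 234) (nat_lit 5) (nat_lit 240) (nat_lit 5) (nat_lit 241) (nat_lit 5) (nat_lit 591) (nat_lit 506) (nat_lit 463))))))))
noncomputable def xc36 : XT := (XT.nd (nat_lit 1560) (nat_lit 2736) (nat_lit 0) (XT.nd (nat_lit 780) (nat_lit 3192) (nat_lit 0) (XT.nd (nat_lit 390) (nat_lit 1444) (nat_lit 0) (XT.nd (nat_lit 156) (nat_lit 1444) (nat_lit 0) (XT.nd (nat_lit 78) (nat_lit 76) (nat_lit 0) (XT.lf (nat_lit 0) (nat_lit 1078712297) (nat_lit 532) (nat_lit 7444821426) (nat_lit 608) (nat_lit 758297327) (nat_lit 227) (nat_lit 5) (nat_lit 234) (nat_lit 5) (nat_lit 235) (nat_lit 5) (nat_lit 592) (nat_lit 506) (nat_lit 462)) (XT.lf (nat_lit 0) (nat_lit 2683967437) (nat_lit 608) (nat_lit 1250014638) (nat_lit 76) (nat_lit 5435997563) (nat_lit 226) (nat_lit 5) (nat_lit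 234) (nat_lit 5) (nat_lit 227) (nat_lit 5) (nat_lit 593) (nat_lit 506) (nat_lit 461))) (XT.nd (nat_lit 78) (nat_lit 988) (nat_lit 0) (XT.lf (nat_lit 0) (nat_lit 5851112344) (nat_lit 456) (nat_lit 328114495) (nat_lit 532) (nat_lit 3280679911) (nat_lit 220) (nat_lit 5) (nat_lit 226) (nat_lit 5) (nat_lit 227) (nat_lit 5) (nat_lit 594) (nat_lit 506) (nat_lit 460)) (XT.nd (nat_lit 78) (nat_lit 456) (nat_lit 0) (XT.lf (nat_lit 0) (nat_lit 199979710) (nat_lit 532) (nat_lit 6031726444) (nat_lit 76) (nat_lit 3319708031) (nat_lit 213) (nat_lit 5) (nat_lit 220) (nat_lit 5) (nat_lit 214) (nat_lit 5) (nat_lit 595) (nat_lit 506) (nat_lit 459)) (XT.lf (nat_lit 0) (nat_lit 1122809879) (nat_lit 456) (nat_lit 2574185238) (nat_lit 532) (nat_lit 5947511282) (nat_lit 207) (nat_lit 5) (nat_lit 213) (nat_lit 5) (nat_lit 214) (nat_lit 5) (nat_lit 596) (nat_lit 506) (nat_lit 458))))) (XT.nd (nat_lit 156) (nat_lit 912) (nat_lit 0) (XT.nd (nat_lit 78) (nat_lit 532) (nat_lit 0) (XT.lf (nat_lit 0) (nat_lit 7269302283) (nat_lit 532)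 (nat_lit 1307786456) (nat_lit 76) (nat_lit 1162266405) (nat_lit 207) (nat_lit 5) (nat_lit 214) (nat_lit 5) (nat_lit 208) (nat_lit 5) (nat_lit 597) (nat_lit 506) (nat_lit 457)) (XT.lf (nat_lit 0) (nat_lit 1077193747) (nat_lit 532) (nat_lit 3792508830) (nat_lit 76) (nat_lit 4965972822) (nat_lit 200) (nat_lit 5) (nat_lit 207) (nat_lit 5) (nat_lit 201) (nat_lit 5) (nat_lit 598) (nat_lit 506) (nat_lit 456))) (XT.nd (nat_lit 78) (nat_lit 532) (nat_lit 0) (XT.lf (nat_lit 0) (nat_lit 3593371290) (nat_lit 380) (nat_lit 1059220810) (nat_lit 456) (nat_lit 5281199420) (nat_lit 195) (nat_lit 5) (nat_lit 200) (nat_lit 5) (nat_lit 201) (nat_lit 5) (nat_lit 599) (nat_lit 506) (nat_lit 455)) (XT.nd (nat_lit 78) (nat_lit 76) (nat_lit 0) (XT.lf (nat_lit 0) (nat_lit 1077879754) (nat_lit 456) (nat_lit 7230963911) (nat_lit 532) (nat_lit 1724840982) (nat_lit 189) (nat_lit 5) (nat_lit 195) (nat_lit 5) (nat_lit 196) (nat_lit 5) (nat_lit 600) (nat_lit 506) (nat_lit 454)) (XT.lf (nat_lit 0) (nat_lit 1886043026) (nat_lit 532) (nat_lit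 1486769689) (nat_lit 76) (nat_lit 6762350341) (nat_lit 188) (nat_lit 5) (nat_lit 195) (nat_lit 5) (nat_lit 189) (nat_lit 5) (nat_lit 601) (nat_lit 506) (nat_lit 453)))))) (XT.nd (nat_lit 390) (nat_lit 1596) (nat_lit 0) (XT.nd (nat_lit 156) (nat_lit 836) (nat_lit 0) (XT.nd (nat_lit 78) (nat_lit 380) (nat_lit 0) (XT.lf (nat_lit 0) (nat_lit 5549106715) (nat_lit 456) (nat_lit 4103231416) (nat_lit 76) (nat_lit 586045222) (nat_lit 183) (nat_lit 5) (nat_lit 189) (nat_lit 5) (nat_lit 184) (nat_lit 5) (nat_lit 602) (nat_lit 506) (nat_lit 452)) (XT.lf (nat_lit 0) (nat_lit 3548413244) (nat_lit 380) (nat_lit 5752021939) (nat_lit 456) (nat_lit 1042934267) (nat_lit 178) (nat_lit 5) (nat_lit 183) (nat_lit 5) (nat_lit 184) (nat_lit 5) (nat_lit 603) (nat_lit 506) (nat_lit 451))) (XT.nd (nat_lit 78) (nat_lit 380) (nat_lit 0) (XT.lf (nat_lit 0) (nat_lit 890883063) (nat_lit 380) (nat_lit 1743564541) (nat_lit 456) (nat_lit 7815797281) (nat_lit 172) (nat_lit 5) (nat_lit 177) (nat_lit 5) (nat_lit 178) (nat_lit 5) (nat_lit 604)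 (nat_lit 506) (nat_lit 450)) (XT.nd (nat_lit 78) (nat_lit 380) (nat_lit 0) (XT.lf (nat_lit 0) (nat_lit 6392511140) (nat_lit 456) (nat_lit 1820532562) (nat_lit 76) (nat_lit 2345655651) (nat_lit 172) (nat_lit 5) (nat_lit 178) (nat_lit 5) (nat_lit 173) (nat_lit 5) (nat_lit 605) (nat_lit 506) (nat_lit 449)) (XT.lf (nat_lit 0) (nat_lit 6080192143) (nat_lit 380) (nat_lit 4157312778) (nat_lit 456) (nat_lit 431583965) (nat_lit 167) (nat_lit 5) (nat_lit 172) (nat_lit 5) (nat_lit 173) (nat_lit 5) (nat_lit 606) (nat_lit 506) (nat_lit 448))))) (XT.nd (nat_lit 156) (nat_lit 760) (nat_lit 0) (XT.nd (nat_lit 78) (nat_lit 380) (nat_lit 0) (XT.lf (nat_lit 0) (nat_lit 3328371192) (nat_lit 456) (nat_lit 7438645244) (nat_lit 76) (nat_lit 14333305) (nat_lit 161) (nat_lit 5) (nat_lit 167) (nat_lit 5) (nat_lit 162) (nat_lit 5) (nat_lit 607) (nat_lit 506) (nat_lit 447)) (XT.lf (nat_lit 0) (nat_lit 514629315) (nat_lit 380) (nat_lit 6666085835) (nat_lit 456) (nat_lit 3714625513) (nat_lit 156) (nat_lit 5) (nat_lit 161) (nat_lit 5)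 (nat_lit 162) (nat_lit 5) (nat_lit 608) (nat_lit 506) (nat_lit 446))) (XT.nd (nat_lit 78) (nat_lit 684) (nat_lit 0) (XT.lf (nat_lit 0) (nat_lit 108653002) (nat_lit 456) (nat_lit 2345321360) (nat_lit 76) (nat_lit 8557396473) (nat_lit 155) (nat_lit 5) (nat_lit 161) (nat_lit 5) (nat_lit 156) (nat_lit 5) (nat_lit 609) (nat_lit 506) (nat_lit 445)) (XT.nd (nat_lit 78) (nat_lit 380) (nat_lit 0) (XT.lf (nat_lit 0) (nat_lit 3970832361) (nat_lit 380) (nat_lit 5298996640) (nat_lit 76) (nat_lit 1859159257) (nat_lit 151) (nat_lit 5) (nat_lit 156) (nat_lit 5) (nat_lit 152) (nat_lit 5) (nat_lit 610) (nat_lit 506) (nat_lit 444)) (XT.lf (nat_lit 0) (nat_lit 2913264250) (nat_lit 380) (nat_lit 5010175249) (nat_lit 456) (nat_lit 3325256025) (nat_lit 146) (nat_lit 5) (nat_lit 151) (nat_lit 5) (nat_lit 152) (nat_lit 5) (nat_lit 611) (nat_lit 506) (nat_lit 443))))))) (XT.nd (nat_lit 780) (nat_lit 304) (nat_lit 0) (XT.nd (nat_lit 390) (nat_lit 1292) (nat_lit 0) (XT.nd (nat_lit 156) (nat_lit 760) (nat_lit 0) (XT.nd (nat_lit 78)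 (nat_lit 304) (nat_lit 0) (XT.lf (nat_lit 0) (nat_lit 574710288) (nat_lit 456) (nat_lit 73166444) (nat_lit 76) (nat_lit 10722884030) (nat_lit 145) (nat_lit 5) (nat_lit 151) (nat_lit 5) (nat_lit 146) (nat_lit 5) (nat_lit 612) (nat_lit 506) (nat_lit 442)) (XT.lf (nat_lit 0) (nat_lit 4550679149) (nat_lit 380) (nat_lit 3136720258) (nat_lit 76) (nat_lit 3806578841) (nat_lit 141) (nat_lit 5) (nat_lit 146) (nat_lit 5) (nat_lit 142) (nat_lit 5) (nat_lit 613) (nat_lit 506) (nat_lit 441))) (XT.nd (nat_lit 78) (nat_lit 380) (nat_lit 0) (XT.lf (nat_lit 0) (nat_lit 5343764002) (nat_lit 380) (nat_lit 3265096250) (nat_lit 456) (nat_lit 3010747063) (nat_lit 136) (nat_lit 5) (nat_lit 141) (nat_lit 5) (nat_lit 142) (nat_lit 5) (nat_lit 614) (nat_lit 506) (nat_lit 440)) (XT.nd (nat_lit 78) (nat_lit 0) (nat_lit 0) (XT.lf (nat_lit 0) (nat_lit 994670963) (nat_lit 380) (nat_lit 9503659036) (nat_lit 76) (nat_lit 1249143380) (nat_lit 131) (nat_lit 5) (nat_lit 136) (nat_lit 5) (nat_lit 132) (nat_lit 5) (nat_lit 615) (nat_lit 506)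 (nat_lit 439)) (XT.lf (nat_lit 0) (nat_lit 5067428969) (nat_lit 380) (nat_lit 959900346) (nat_lit 76) (nat_lit 5849619540) (nat_lit 131) (nat_lit 5) (nat_lit 136) (nat_lit 5) (nat_lit 132) (nat_lit 5) (nat_lit 616) (nat_lit 506) (nat_lit 438))))) (XT.nd (nat_lit 156) (nat_lit 608) (nat_lit 0) (XT.nd (nat_lit 78) (nat_lit 380) (nat_lit 0) (XT.lf (nat_lit 0) (nat_lit 7798243238) (nat_lit 304) (nat_lit 1438237686) (nat_lit 380) (nat_lit 2772237149) (nat_lit 127) (nat_lit 5) (nat_lit 131) (nat_lit 5) (nat_lit 132) (nat_lit 5) (nat_lit 617) (nat_lit 506) (nat_lit 437)) (XT.lf (nat_lit 0) (nat_lit 1349949267) (nat_lit 380) (nat_lit 7569951944) (nat_lit 76) (nat_lit 3222611510) (nat_lit 122) (nat_lit 5) (nat_lit 127) (nat_lit 5) (nat_lit 123) (nat_lit 5) (nat_lit 618) (nat_lit 506) (nat_lit 436))) (XT.nd (nat_lit 78) (nat_lit 304) (nat_lit 0) (XT.lf (nat_lit 0) (nat_lit 1239066464) (nat_lit 304) (nat_lit 4288903571) (nat_lit 380) (nat_lit 6750437468) (nat_lit 118) (nat_lit 5) (nat_lit 122) (nat_lit 5) (nat_lit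 123) (nat_lit 5) (nat_lit 619) (nat_lit 506) (nat_lit 435)) (XT.nd (nat_lit 78) (nat_lit 304) (nat_lit 0) (XT.lf (nat_lit 0) (nat_lit 9808137412) (nat_lit 380) (nat_lit 2151476163) (nat_lit 76) (nat_lit 457035810) (nat_lit 118) (nat_lit 5) (nat_lit 123) (nat_lit 5) (nat_lit 119) (nat_lit 5) (nat_lit 620) (nat_lit 506) (nat_lit 434)) (XT.lf (nat_lit 0) (nat_lit 1633954632) (nat_lit 304) (nat_lit 5649184849) (nat_lit 76) (nat_lit 5273529641) (nat_lit 114) (nat_lit 5) (nat_lit 118) (nat_lit 5) (nat_lit 115) (nat_lit 5) (nat_lit 621) (nat_lit 506) (nat_lit 433)))))) (XT.nd (nat_lit 75582) (nat_lit 0) (nat_lit 34276) (XT.nd (nat_lit 75348) (nat_lit 0) (nat_lit 38760) (XT.nd (nat_lit 75270) (nat_lit 0) (nat_lit 41420) (XT.lf (nat_lit 0) (nat_lit 3447319604) (nat_lit 304) (nat_lit 2481370740) (nat_lit 380) (nat_lit 6770407986) (nat_lit 110) (nat_lit 5) (nat_lit 114) (nat_lit 5) (nat_lit 115) (nat_lit 5) (nat_lit 622) (nat_lit 506) (nat_lit 432)) (XT.lf (nat_lit 0) (nat_lit 1173277081) (nat_lit 1140) (nat_lit 1104449148)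 (nat_lit 1140) (nat_lit 1104449148) (nat_lit 655) (nat_lit 4) (nat_lit 670) (nat_lit 5) (nat_lit 670) (nat_lit 4) (nat_lit 546) (nat_lit 507) (nat_lit 507))) (XT.nd (nat_lit 78) (nat_lit 1368) (nat_lit 0) (XT.lf (nat_lit 0) (nat_lit 182342195) (nat_lit 1216) (nat_lit 953735597) (nat_lit 1292) (nat_lit 5653903023) (nat_lit 638) (nat_lit 5) (nat_lit 654) (nat_lit 5) (nat_lit 655) (nat_lit 4) (nat_lit 547) (nat_lit 507) (nat_lit 506)) (XT.nd (nat_lit 78) (nat_lit 1368) (nat_lit 0) (XT.lf (nat_lit 0) (nat_lit 4478571368) (nat_lit 1292) (nat_lit 1961106756) (nat_lit 0) (nat_lit 376956035) (nat_lit 638) (nat_lit 5) (nat_lit 655) (nat_lit 4) (nat_lit 638) (nat_lit 4) (nat_lit 548) (nat_lit 507) (nat_lit 505)) (XT.lf (nat_lit 0) (nat_lit 983848115) (nat_lit 1368) (nat_lit 4104931003) (nat_lit 76) (nat_lit 1755843273) (nat_lit 620) (nat_lit 5) (nat_lit 638) (nat_lit 5) (nat_lit 621) (nat_lit 4) (nat_lit 549) (nat_lit 507) (nat_lit 504))))) (XT.nd (nat_lit 156) (nat_lit 3040) (nat_lit 0) (XT.nd (nat_lit 78) (nat_lit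 76) (nat_lit 0) (XT.lf (nat_lit 0) (nat_lit 618428772) (nat_lit 1368) (nat_lit 3669882473) (nat_lit 1444) (nat_lit 2585607858) (nat_lit 602) (nat_lit 5) (nat_lit 620) (nat_lit 5) (nat_lit 621) (nat_lit 4) (nat_lit 550) (nat_lit 507) (nat_lit 503)) (XT.lf (nat_lit 0) (nat_lit 703522636) (nat_lit 1444) (nat_lit 1479247083) (nat_lit 76) (nat_lit 4721772691) (nat_lit 601) (nat_lit 5) (nat_lit 620) (nat_lit 5) (nat_lit 602) (nat_lit 5) (nat_lit 551) (nat_lit 507) (nat_lit 502))) (XT.nd (nat_lit 78) (nat_lit 1596) (nat_lit 0) (XT.lf (nat_lit 0) (nat_lit 3357857651) (nat_lit 1444) (nat_lit 619785551) (nat_lit 1520) (nat_lit 2958722453) (nat_lit 582) (nat_lit 5) (nat_lit 601) (nat_lit 5) (nat_lit 602) (nat_lit 5) (nat_lit 552) (nat_lit 507) (nat_lit 501)) (XT.nd (nat_lit 78) (nat_lit 0) (nat_lit 0) (XT.lf (nat_lit 0) (nat_lit 301236530) (nat_lit 1596) (nat_lit 5680549023) (nat_lit 76) (nat_lit 987852495) (nat_lit 561) (nat_lit 5) (nat_lit 582) (nat_lit 5) (nat_lit 562) (nat_lit 5) (nat_lit 553) (nat_lit 507) (nat_lit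 500)) (XT.lf (nat_lit 0) (nat_lit 3548528528) (nat_lit 1596) (nat_lit 787445627) (nat_lit 76) (nat_lit 2667981095) (nat_lit 561) (nat_lit 5) (nat_lit 582) (nat_lit 5) (nat_lit 562) (nat_lit 5) (nat_lit 554) (nat_lit 507) (nat_lit 499))))))))
noncomputable def xc37 : XT := (XT.nd (nat_lit 1560) (nat_lit 9652) (nat_lit 0) (XT.nd (nat_lit 780) (nat_lit 5852) (nat_lit 0) (XT.nd (nat_lit 390) (nat_lit 3876) (nat_lit 0) (XT.nd (nat_lit 156) (nat_lit 3648) (nat_lit 0) (XT.nd (nat_lit 78) (nat_lit 1748) (nat_lit 0) (XT.lf (nat_lit 0) (nat_lit 4196759261) (nat_lit 1596) (nat_lit 2625997261) (nat_lit 1672) (nat_lit 216967885) (nat_lit 540) (nat_lit 5) (nat_lit 561) (nat_lit 5) (nat_lit 562) (nat_lit 5) (nat_lit 555) (nat_lit 507) (nat_lit 498)) (XT.lf (nat_lit 0) (nat_lit 2161229165) (nat_lit 1672) (nat_lit 839096790) (nat_lit 1748) (nat_lit 4076396584) (nat_lit 517) (nat_lit 5) (nat_lit 539) (nat_lit 5) (nat_lit 540) (nat_lit 5) (nat_lit 556) (nat_lit 507) (nat_lit 497))) (XT.nd (nat_lit 78) (nat_lit 1900) (nat_lit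 0) (XT.lf (nat_lit 0) (nat_lit 120446538) (nat_lit 1748) (nat_lit 6121062719) (nat_lit 1824) (nat_lit 873678822) (nat_lit 494) (nat_lit 5) (nat_lit 517) (nat_lit 5) (nat_lit 518) (nat_lit 5) (nat_lit 557) (nat_lit 507) (nat_lit 496)) (XT.nd (nat_lit 78) (nat_lit 1824) (nat_lit 0) (XT.lf (nat_lit 0) (nat_lit 2336965934) (nat_lit 1824) (nat_lit 1914922997) (nat_lit 76) (nat_lit 2902722983) (nat_lit 493) (nat_lit 5) (nat_lit 517) (nat_lit 5) (nat_lit 494) (nat_lit 5) (nat_lit 558) (nat_lit 507) (nat_lit 495)) (XT.lf (nat_lit 0) (nat_lit 3240874434) (nat_lit 1824) (nat_lit 2318046141) (nat_lit 1900) (nat_lit 1636617049) (nat_lit 469) (nat_lit 5) (nat_lit 493) (nat_lit 5) (nat_lit 494) (nat_lit 5) (nat_lit 559) (nat_lit 507) (nat_lit 494))))) (XT.nd (nat_lit 156) (nat_lit 2736) (nat_lit 0) (XT.nd (nat_lit 78) (nat_lit 0) (nat_lit 0) (XT.lf (nat_lit 0) (nat_lit 1231594670) (nat_lit 1064) (nat_lit 314429566) (nat_lit 1140) (nat_lit 5691871798) (nat_lit 454) (nat_lit 5) (nat_lit 468) (nat_lit 5) (nat_lit 469) (nat_lit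 5) (nat_lit 560) (nat_lit 507) (nat_lit 493)) (XT.lf (nat_lit 0) (nat_lit 4747315063) (nat_lit 1140) (nat_lit 791185194) (nat_lit 76) (nat_lit 1742851307) (nat_lit 454) (nat_lit 5) (nat_lit 469) (nat_lit 5) (nat_lit 455) (nat_lit 5) (nat_lit 561) (nat_lit 507) (nat_lit 492))) (XT.nd (nat_lit 78) (nat_lit 1748) (nat_lit 0) (XT.lf (nat_lit 0) (nat_lit 649349635) (nat_lit 988) (nat_lit 2807358234) (nat_lit 76) (nat_lit 3869455414) (nat_lit 441) (nat_lit 5) (nat_lit 454) (nat_lit 5) (nat_lit 442) (nat_lit 5) (nat_lit 562) (nat_lit 507) (nat_lit 491)) (XT.nd (nat_lit 78) (nat_lit 836) (nat_lit 0) (XT.lf (nat_lit 0) (nat_lit 2527592437) (nat_lit 912) (nat_lit 1297189875) (nat_lit 988) (nat_lit 3547512003) (nat_lit 429) (nat_lit 5) (nat_lit 441) (nat_lit 5) (nat_lit 442) (nat_lit 5) (nat_lit 563) (nat_lit 507) (nat_lit 490)) (XT.lf (nat_lit 0) (nat_lit 525778936) (nat_lit 836) (nat_lit 6507462545) (nat_lit 912) (nat_lit 386720318) (nat_lit 418) (nat_lit 5) (nat_lit 429) (nat_lit 5) (nat_lit 430) (nat_lit 5) (nat_lit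 564) (nat_lit 507) (nat_lit 489)))))) (XT.nd (nat_lit 390) (nat_lit 3116) (nat_lit 0) (XT.nd (nat_lit 156) (nat_lit 1824) (nat_lit 0) (XT.nd (nat_lit 78) (nat_lit 836) (nat_lit 0) (XT.lf (nat_lit 0) (nat_lit 2783007858) (nat_lit 912) (nat_lit 1489620093) (nat_lit 76) (nat_lit 3195931630) (nat_lit 417) (nat_lit 5) (nat_lit 429) (nat_lit 5) (nat_lit 418) (nat_lit 5) (nat_lit 565) (nat_lit 507) (nat_lit 488)) (XT.lf (nat_lit 0) (nat_lit 4010521845) (nat_lit 836) (nat_lit 1969234895) (nat_lit 912) (nat_lit 1538949314) (nat_lit 406) (nat_lit 5) (nat_lit 417) (nat_lit 5) (nat_lit 418) (nat_lit 5) (nat_lit 566) (nat_lit 507) (nat_lit 487))) (XT.nd (nat_lit 78) (nat_lit 912) (nat_lit 0) (XT.lf (nat_lit 0) (nat_lit 1617634705) (nat_lit 912) (nat_lit 5549034799) (nat_lit 76) (nat_lit 403593622) (nat_lit 394) (nat_lit 5) (nat_lit 406) (nat_lit 5) (nat_lit 395) (nat_lit 5) (nat_lit 567) (nat_lit 507) (nat_lit 486)) (XT.nd (nat_lit 78) (nat_lit 912) (nat_lit 0) (XT.lf (nat_lit 0) (nat_lit 4797272483) (nat_lit 912) (nat_lit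 556929) (nat_lit 76) (nat_lit 2825211623) (nat_lit 394) (nat_lit 5) (nat_lit 406) (nat_lit 5) (nat_lit 395) (nat_lit 5) (nat_lit 568) (nat_lit 507) (nat_lit 485)) (XT.lf (nat_lit 0) (nat_lit 340427063) (nat_lit 912) (nat_lit 2008542535) (nat_lit 76) (nat_lit 5328229908) (nat_lit 382) (nat_lit 5) (nat_lit 394) (nat_lit 5) (nat_lit 383) (nat_lit 5) (nat_lit 569) (nat_lit 507) (nat_lit 484))))) (XT.nd (nat_lit 156) (nat_lit 1596) (nat_lit 0) (XT.nd (nat_lit 78) (nat_lit 760) (nat_lit 0) (XT.lf (nat_lit 0) (nat_lit 3502465221) (nat_lit 836) (nat_lit 4048084596) (nat_lit 76) (nat_lit 182114152) (nat_lit 372) (nat_lit 5) (nat_lit 383) (nat_lit 5) (nat_lit 373) (nat_lit 5) (nat_lit 570) (nat_lit 507) (nat_lit 483)) (XT.lf (nat_lit 0) (nat_lit 1672848270) (nat_lit 760) (nat_lit 5040686734) (nat_lit 836) (nat_lit 1075990335) (nat_lit 362) (nat_lit 5) (nat_lit 372) (nat_lit 5) (nat_lit 373) (nat_lit 5) (nat_lit 571) (nat_lit 507) (nat_lit 482))) (XT.nd (nat_lit 78) (nat_lit 1520) (nat_lit 0) (XT.lf (nat_lit 0) (nat_lit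 2086665916) (nat_lit 836) (nat_lit 361561955) (nat_lit 76) (nat_lit 5399552367) (nat_lit 361) (nat_lit 5) (nat_lit 372) (nat_lit 5) (nat_lit 362) (nat_lit 5) (nat_lit 572) (nat_lit 507) (nat_lit 481)) (XT.nd (nat_lit 78) (nat_lit 836) (nat_lit 0) (XT.lf (nat_lit 0) (nat_lit 5282620541) (nat_lit 760) (nat_lit 2397408704) (nat_lit 76) (nat_lit 227342925) (nat_lit 352) (nat_lit 5) (nat_lit 362) (nat_lit 5) (nat_lit 353) (nat_lit 5) (nat_lit 573) (nat_lit 507) (nat_lit 480)) (XT.lf (nat_lit 0) (nat_lit 555857519) (nat_lit 836) (nat_lit 4469512846) (nat_lit 76) (nat_lit 2942933073) (nat_lit 341) (nat_lit 5) (nat_lit 352) (nat_lit 5) (nat_lit 342) (nat_lit 5) (nat_lit 574) (nat_lit 507) (nat_lit 479))))))) (XT.nd (nat_lit 780) (nat_lit 4940) (nat_lit 0) (XT.nd (nat_lit 390) (nat_lit 1900) (nat_lit 0) (XT.nd (nat_lit 156) (nat_lit 2128) (nat_lit 0) (XT.nd (nat_lit 78) (nat_lit 0) (nat_lit 0) (XT.lf (nat_lit 0) (nat_lit 1453676755) (nat_lit 684) (nat_lit 2284926686) (nat_lit 760) (nat_lit 4292032548) (nat_lit 332)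 (nat_lit 5) (nat_lit 341) (nat_lit 5) (nat_lit 342) (nat_lit 5) (nat_lit 575) (nat_lit 507) (nat_lit 478)) (XT.lf (nat_lit 0) (nat_lit 6967051704) (nat_lit 760) (nat_lit 604932167) (nat_lit 76) (nat_lit 522593360) (nat_lit 332) (nat_lit 5) (nat_lit 342) (nat_lit 5) (nat_lit 333) (nat_lit 5) (nat_lit 576) (nat_lit 507) (nat_lit 477))) (XT.nd (nat_lit 78) (nat_lit 1368) (nat_lit 0) (XT.lf (nat_lit 0) (nat_lit 2072993731) (nat_lit 760) (nat_lit 2692618613) (nat_lit 76) (nat_lit 3393909750) (nat_lit 322) (nat_lit 5) (nat_lit 332) (nat_lit 5) (nat_lit 323) (nat_lit 5) (nat_lit 577) (nat_lit 507) (nat_lit 476)) (XT.nd (nat_lit 78) (nat_lit 760) (nat_lit 0) (XT.lf (nat_lit 0) (nat_lit 3417285693) (nat_lit 608) (nat_lit 1881232617) (nat_lit 684) (nat_lit 2927579453) (nat_lit 314) (nat_lit 5) (nat_lit 322) (nat_lit 5) (nat_lit 323) (nat_lit 5) (nat_lit 578) (nat_lit 507) (nat_lit 475)) (XT.lf (nat_lit 0) (nat_lit 274652750) (nat_lit 760) (nat_lit 6956557771) (nat_lit 76) (nat_lit 1063079538) (nat_lit 304) (nat_lit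 5) (nat_lit 314) (nat_lit 5) (nat_lit 305) (nat_lit 5) (nat_lit 579) (nat_lit 507) (nat_lit 474))))) (XT.nd (nat_lit 156) (nat_lit 1292) (nat_lit 0) (XT.nd (nat_lit 78) (nat_lit 608) (nat_lit 0) (XT.lf (nat_lit 0) (nat_lit 3497248364) (nat_lit 760) (nat_lit 786342446) (nat_lit 76) (nat_lit 4079960639) (nat_lit 304) (nat_lit 5) (nat_lit 314) (nat_lit 5) (nat_lit 305) (nat_lit 5) (nat_lit 580) (nat_lit 507) (nat_lit 473)) (XT.lf (nat_lit 0) (nat_lit 5517409847) (nat_lit 608) (nat_lit 1254219071) (nat_lit 684) (nat_lit 1662825090) (nat_lit 296) (nat_lit 5) (nat_lit 304) (nat_lit 5) (nat_lit 305) (nat_lit 5) (nat_lit 581) (nat_lit 507) (nat_lit 472))) (XT.nd (nat_lit 78) (nat_lit 608) (nat_lit 0) (XT.lf (nat_lit 0) (nat_lit 1575031413) (nat_lit 684) (nat_lit 5095855535) (nat_lit 76) (nat_lit 1835854692) (nat_lit 287) (nat_lit 5) (nat_lit 296) (nat_lit 5) (nat_lit 288) (nat_lit 5) (nat_lit 582) (nat_lit 507) (nat_lit 471)) (XT.nd (nat_lit 78) (nat_lit 0) (nat_lit 0) (XT.lf (nat_lit 0) (nat_lit 1258980316) (nat_lit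 608) (nat_lit 3584795131) (nat_lit 684) (nat_lit 3736714291) (nat_lit 279) (nat_lit 5) (nat_lit 287) (nat_lit 5) (nat_lit 288) (nat_lit 5) (nat_lit 583) (nat_lit 507) (nat_lit 470)) (XT.lf (nat_lit 0) (nat_lit 7747486090) (nat_lit 608) (nat_lit 417325846) (nat_lit 684) (nat_lit 491164916) (nat_lit 279) (nat_lit 5) (nat_lit 287) (nat_lit 5) (nat_lit 288) (nat_lit 5) (nat_lit 584) (nat_lit 507) (nat_lit 469)))))) (XT.nd (nat_lit 390) (nat_lit 2584) (nat_lit 0) (XT.nd (nat_lit 156) (nat_lit 1140) (nat_lit 0) (XT.nd (nat_lit 78) (nat_lit 532) (nat_lit 0) (XT.lf (nat_lit 0) (nat_lit 2790720742) (nat_lit 684) (nat_lit 3124968668) (nat_lit 76) (nat_lit 2816752497) (nat_lit 270) (nat_lit 5) (nat_lit 279) (nat_lit 5) (nat_lit 271) (nat_lit 5) (nat_lit 585) (nat_lit 507) (nat_lit 468)) (XT.lf (nat_lit 0) (nat_lit 3432399067) (nat_lit 532) (nat_lit 2684215938) (nat_lit 608) (nat_lit 2694059642) (nat_lit 263) (nat_lit 5) (nat_lit 270) (nat_lit 5) (nat_lit 271) (nat_lit 5) (nat_lit 586) (nat_lit 507) (nat_lit 467)))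 (XT.nd (nat_lit 78) (nat_lit 532) (nat_lit 0) (XT.lf (nat_lit 0) (nat_lit 597529425) (nat_lit 608) (nat_lit 7672239642) (nat_lit 76) (nat_lit 620883094) (nat_lit 255) (nat_lit 5) (nat_lit 263) (nat_lit 5) (nat_lit 256) (nat_lit 5) (nat_lit 587) (nat_lit 507) (nat_lit 466)) (XT.nd (nat_lit 78) (nat_lit 532) (nat_lit 0) (XT.lf (nat_lit 0) (nat_lit 3927364063) (nat_lit 608) (nat_lit 1050341696) (nat_lit 76) (nat_lit 3993999703) (nat_lit 255) (nat_lit 5) (nat_lit 263) (nat_lit 5) (nat_lit 256) (nat_lit 5) (nat_lit 588) (nat_lit 507) (nat_lit 465)) (XT.lf (nat_lit 0) (nat_lit 5717295331) (nat_lit 532) (nat_lit 1598862880) (nat_lit 608) (nat_lit 1738376455) (nat_lit 248) (nat_lit 5) (nat_lit 255) (nat_lit 5) (nat_lit 256) (nat_lit 5) (nat_lit 589) (nat_lit 507) (nat_lit 464))))) (XT.nd (nat_lit 234) (nat_lit 1520) (nat_lit 0) (XT.nd (nat_lit 78) (nat_lit 456) (nat_lit 0) (XT.lf (nat_lit 0) (nat_lit 1609473429) (nat_lit 608) (nat_lit 5682648986) (nat_lit 76) (nat_lit 1846744070) (nat_lit 240) (nat_lit 5) (nat_lit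 248) (nat_lit 5) (nat_lit 241) (nat_lit 5) (nat_lit 590) (nat_lit 507) (nat_lit 463)) (XT.nd (nat_lit 78) (nat_lit 0) (nat_lit 0) (XT.lf (nat_lit 0) (nat_lit 1136768330) (nat_lit 456) (nat_lit 3860557982) (nat_lit 532) (nat_lit 4227404329) (nat_lit 234) (nat_lit 5) (nat_lit 240) (nat_lit 5) (nat_lit 241) (nat_lit 5) (nat_lit 591) (nat_lit 507) (nat_lit 462)) (XT.lf (nat_lit 0) (nat_lit 8107778295) (nat_lit 456) (nat_lit 339546006) (nat_lit 532) (nat_lit 865101952) (nat_lit 234) (nat_lit 5) (nat_lit 240) (nat_lit 5) (nat_lit 241) (nat_lit 5) (nat_lit 592) (nat_lit 507) (nat_lit 461)))) (XT.nd (nat_lit 78) (nat_lit 912) (nat_lit 0) (XT.lf (nat_lit 0) (nat_lit 2546749606) (nat_lit 608) (nat_lit 3608254465) (nat_lit 76) (nat_lit 3246221839) (nat_lit 226) (nat_lit 5) (nat_lit 234) (nat_lit 5) (nat_lit 227) (nat_lit 5) (nat_lit 593) (nat_lit 507) (nat_lit 460)) (XT.nd (nat_lit 78) (nat_lit 456) (nat_lit 0) (XT.lf (nat_lit 0) (nat_lit 3430669929) (nat_lit 456) (nat_lit 2574416502) (nat_lit 532) (nat_lit 3486805944)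 (nat_lit 220) (nat_lit 5) (nat_lit 226) (nat_lit 5) (nat_lit 227) (nat_lit 5) (nat_lit 594) (nat_lit 507) (nat_lit 459)) (XT.lf (nat_lit 0) (nat_lit 1019763465) (nat_lit 456) (nat_lit 8508301336) (nat_lit 532) (nat_lit 56399661) (nat_lit 214) (nat_lit 5) (nat_lit 220) (nat_lit 5) (nat_lit 221) (nat_lit 5) (nat_lit 595) (nat_lit 507) (nat_lit 458))))))))
noncomputable def xc38 : XT := (XT.nd (nat_lit 1560) (nat_lit 1672) (nat_lit 0) (XT.nd (nat_lit 780) (nat_lit 2736) (nat_lit 0) (XT.nd (nat_lit 390) (nat_lit 1748) (nat_lit 0) (XT.nd (nat_lit 156) (nat_lit 912) (nat_lit 0) (XT.nd (nat_lit 78) (nat_lit 456) (nat_lit 0) (XT.lf (nat_lit 0) (nat_lit 3413093549) (nat_lit 532) (nat_lit 1455220594) (nat_lit 76) (nat_lit 4809815943) (nat_lit 213) (nat_lit 5) (nat_lit 220) (nat_lit 5) (nat_lit 214) (nat_lit 5) (nat_lit 596) (nat_lit 507) (nat_lit 457)) (XT.lf (nat_lit 0) (nat_lit 5811504216) (nat_lit 456) (nat_lit 1135917551) (nat_lit 532) (nat_lit 2826317476) (nat_lit 207) (nat_lit 5) (nat_lit 213) (nat_lit 5) (nat_lit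 214) (nat_lit 5) (nat_lit 597) (nat_lit 507) (nat_lit 456))) (XT.nd (nat_lit 78) (nat_lit 380) (nat_lit 0) (XT.lf (nat_lit 0) (nat_lit 679897495) (nat_lit 532) (nat_lit 6538083820) (nat_lit 76) (nat_lit 2653039329) (nat_lit 200) (nat_lit 5) (nat_lit 207) (nat_lit 5) (nat_lit 201) (nat_lit 5) (nat_lit 598) (nat_lit 507) (nat_lit 455)) (XT.nd (nat_lit 78) (nat_lit 0) (nat_lit 0) (XT.lf (nat_lit 0) (nat_lit 780591767) (nat_lit 380) (nat_lit 3436098658) (nat_lit 456) (nat_lit 5753219235) (nat_lit 195) (nat_lit 5) (nat_lit 200) (nat_lit 5) (nat_lit 201) (nat_lit 5) (nat_lit 599) (nat_lit 507) (nat_lit 454)) (XT.lf (nat_lit 0) (nat_lit 7830307009) (nat_lit 456) (nat_lit 1800176010) (nat_lit 76) (nat_lit 440173236) (nat_lit 195) (nat_lit 5) (nat_lit 201) (nat_lit 5) (nat_lit 196) (nat_lit 5) (nat_lit 600) (nat_lit 507) (nat_lit 453))))) (XT.nd (nat_lit 156) (nat_lit 836) (nat_lit 0) (XT.nd (nat_lit 78) (nat_lit 380) (nat_lit 0) (XT.lf (nat_lit 0) (nat_lit 1345236159) (nat_lit 532) (nat_lit 4453053658) (nat_lit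 76) (nat_lit 4374553720) (nat_lit 188) (nat_lit 5) (nat_lit 195) (nat_lit 5) (nat_lit 189) (nat_lit 5) (nat_lit 601) (nat_lit 507) (nat_lit 452)) (XT.lf (nat_lit 0) (nat_lit 3103059298) (nat_lit 380) (nat_lit 1861930070) (nat_lit 456) (nat_lit 5311941401) (nat_lit 183) (nat_lit 5) (nat_lit 188) (nat_lit 5) (nat_lit 189) (nat_lit 5) (nat_lit 602) (nat_lit 507) (nat_lit 451))) (XT.nd (nat_lit 78) (nat_lit 456) (nat_lit 0) (XT.lf (nat_lit 0) (nat_lit 418764090) (nat_lit 380) (nat_lit 8245530109) (nat_lit 456) (nat_lit 1718663853) (nat_lit 178) (nat_lit 5) (nat_lit 183) (nat_lit 5) (nat_lit 184) (nat_lit 5) (nat_lit 603) (nat_lit 507) (nat_lit 450)) (XT.nd (nat_lit 78) (nat_lit 380) (nat_lit 0) (XT.lf (nat_lit 0) (nat_lit 1942242583) (nat_lit 456) (nat_lit 2315766399) (nat_lit 76) (nat_lit 6232419687) (nat_lit 177) (nat_lit 5) (nat_lit 183) (nat_lit 5) (nat_lit 178) (nat_lit 5) (nat_lit 604) (nat_lit 507) (nat_lit 449)) (XT.lf (nat_lit 0) (nat_lit 5486565820) (nat_lit 380) (nat_lit 163708666) (nat_lit 456)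 (nat_lit 4949609956) (nat_lit 172) (nat_lit 5) (nat_lit 177) (nat_lit 5) (nat_lit 178) (nat_lit 5) (nat_lit 605) (nat_lit 507) (nat_lit 448)))))) (XT.nd (nat_lit 390) (nat_lit 1140) (nat_lit 0) (XT.nd (nat_lit 156) (nat_lit 1140) (nat_lit 0) (XT.nd (nat_lit 78) (nat_lit 76) (nat_lit 0) (XT.lf (nat_lit 0) (nat_lit 2714686422) (nat_lit 380) (nat_lit 6738615985) (nat_lit 456) (nat_lit 1257811541) (nat_lit 167) (nat_lit 5) (nat_lit 172) (nat_lit 5) (nat_lit 173) (nat_lit 5) (nat_lit 606) (nat_lit 507) (nat_lit 447)) (XT.lf (nat_lit 0) (nat_lit 2472186670) (nat_lit 456) (nat_lit 132908514) (nat_lit 76) (nat_lit 8219203401) (nat_lit 166) (nat_lit 5) (nat_lit 172) (nat_lit 5) (nat_lit 167) (nat_lit 5) (nat_lit 607) (nat_lit 507) (nat_lit 446))) (XT.nd (nat_lit 78) (nat_lit 760) (nat_lit 0) (XT.lf (nat_lit 0) (nat_lit 6284511490) (nat_lit 456) (nat_lit 3025359453) (nat_lit 76) (nat_lit 1629219566) (nat_lit 161) (nat_lit 5) (nat_lit 167) (nat_lit 5) (nat_lit 162) (nat_lit 5) (nat_lit 608) (nat_lit 507) (nat_lit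 445)) (XT.nd (nat_lit 78) (nat_lit 380) (nat_lit 0) (XT.lf (nat_lit 0) (nat_lit 5056967053) (nat_lit 380) (nat_lit 5129702025) (nat_lit 456) (nat_lit 869238693) (nat_lit 156) (nat_lit 5) (nat_lit 161) (nat_lit 5) (nat_lit 162) (nat_lit 5) (nat_lit 609) (nat_lit 507) (nat_lit 444)) (XT.lf (nat_lit 0) (nat_lit 2116340518) (nat_lit 304) (nat_lit 833115652) (nat_lit 380) (nat_lit 8225280176) (nat_lit 151) (nat_lit 5) (nat_lit 155) (nat_lit 5) (nat_lit 156) (nat_lit 5) (nat_lit 610) (nat_lit 507) (nat_lit 443))))) (XT.nd (nat_lit 156) (nat_lit 760) (nat_lit 0) (XT.nd (nat_lit 78) (nat_lit 380) (nat_lit 0) (XT.lf (nat_lit 0) (nat_lit 6859381383) (nat_lit 380) (nat_lit 908319854) (nat_lit 76) (nat_lit 3527596585) (nat_lit 151) (nat_lit 5) (nat_lit 156) (nat_lit 5) (nat_lit 152) (nat_lit 5) (nat_lit 611) (nat_lit 507) (nat_lit 442)) (XT.lf (nat_lit 0) (nat_lit 7438602986) (nat_lit 380) (nat_lit 3426359855) (nat_lit 456) (nat_lit 552959666) (nat_lit 146) (nat_lit 5) (nat_lit 151) (nat_lit 5) (nat_lit 152) (nat_lit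 5) (nat_lit 612) (nat_lit 507) (nat_lit 441))) (XT.nd (nat_lit 78) (nat_lit 380) (nat_lit 0) (XT.lf (nat_lit 0) (nat_lit 3368141553) (nat_lit 380) (nat_lit 7150193820) (nat_lit 76) (nat_lit 1024119360) (nat_lit 141) (nat_lit 5) (nat_lit 146) (nat_lit 5) (nat_lit 142) (nat_lit 5) (nat_lit 613) (nat_lit 507) (nat_lit 440)) (XT.nd (nat_lit 78) (nat_lit 0) (nat_lit 0) (XT.lf (nat_lit 0) (nat_lit 1247613616) (nat_lit 380) (nat_lit 6134259716) (nat_lit 456) (nat_lit 4287099984) (nat_lit 136) (nat_lit 5) (nat_lit 141) (nat_lit 5) (nat_lit 142) (nat_lit 5) (nat_lit 614) (nat_lit 507) (nat_lit 439)) (XT.lf (nat_lit 0) (nat_lit 9852195507) (nat_lit 380) (nat_lit 1635929838) (nat_lit 456) (nat_lit 309653061) (nat_lit 136) (nat_lit 5) (nat_lit 141) (nat_lit 5) (nat_lit 142) (nat_lit 5) (nat_lit 615) (nat_lit 507) (nat_lit 438))))))) (XT.nd (nat_lit 75816) (nat_lit 0) (nat_lit 30552) (XT.nd (nat_lit 390) (nat_lit 304) (nat_lit 0) (XT.nd (nat_lit 156) (nat_lit 684) (nat_lit 0) (XT.nd (nat_lit 78) (nat_lit 304) (nat_lit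 0) (XT.lf (nat_lit 0) (nat_lit 3725940805) (nat_lit 380) (nat_lit 5242089507) (nat_lit 76) (nat_lit 2960088785) (nat_lit 131) (nat_lit 5) (nat_lit 136) (nat_lit 5) (nat_lit 132) (nat_lit 5) (nat_lit 616) (nat_lit 507) (nat_lit 437)) (XT.lf (nat_lit 0) (nat_lit 3430245530) (nat_lit 304) (nat_lit 4419015626) (nat_lit 380) (nat_lit 4211542279) (nat_lit 127) (nat_lit 5) (nat_lit 131) (nat_lit 5) (nat_lit 132) (nat_lit 5) (nat_lit 617) (nat_lit 507) (nat_lit 436))) (XT.nd (nat_lit 78) (nat_lit 380) (nat_lit 0) (XT.lf (nat_lit 0) (nat_lit 93419800) (nat_lit 304) (nat_lit 11964159407) (nat_lit 380) (nat_lit 138512595) (nat_lit 123) (nat_lit 5) (nat_lit 127) (nat_lit 5) (nat_lit 128) (nat_lit 5) (nat_lit 618) (nat_lit 507) (nat_lit 435)) (XT.nd (nat_lit 78) (nat_lit 304) (nat_lit 0) (XT.lf (nat_lit 0) (nat_lit 4016033282) (nat_lit 380) (nat_lit 3337652735) (nat_lit 76) (nat_lit 4978824843) (nat_lit 122) (nat_lit 5) (nat_lit 127) (nat_lit 5) (nat_lit 123) (nat_lit 5) (nat_lit 619) (nat_lit 507) (nat_lit 434)) (XT.lf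 (nat_lit 0) (nat_lit 5618705921) (nat_lit 304) (nat_lit 2635436406) (nat_lit 380) (nat_lit 4217452033) (nat_lit 118) (nat_lit 5) (nat_lit 122) (nat_lit 5) (nat_lit 123) (nat_lit 5) (nat_lit 620) (nat_lit 507) (nat_lit 433))))) (XT.nd (nat_lit 75192) (nat_lit 0) (nat_lit 41116) (XT.nd (nat_lit 78) (nat_lit 76) (nat_lit 0) (XT.lf (nat_lit 0) (nat_lit 2143356869) (nat_lit 228) (nat_lit 10450256665) (nat_lit 304) (nat_lit 19514890) (nat_lit 115) (nat_lit 5) (nat_lit 118) (nat_lit 5) (nat_lit 119) (nat_lit 5) (nat_lit 621) (nat_lit 507) (nat_lit 432)) (XT.lf (nat_lit 0) (nat_lit 4236301459) (nat_lit 304) (nat_lit 1446555548) (nat_lit 76) (nat_lit 7073487091) (nat_lit 114) (nat_lit 5) (nat_lit 118) (nat_lit 5) (nat_lit 115) (nat_lit 5) (nat_lit 622) (nat_lit 507) (nat_lit 431))) (XT.nd (nat_lit 78) (nat_lit 1140) (nat_lit 0) (XT.lf (nat_lit 0) (nat_lit 3181272) (nat_lit 1140) (nat_lit 3352095271) (nat_lit 0) (nat_lit 3181272) (nat_lit 670) (nat_lit 5) (nat_lit 685) (nat_lit 4) (nat_lit 670) (nat_lit 4) (nat_lit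 544) (nat_lit 508) (nat_lit 508)) (XT.nd (nat_lit 78) (nat_lit 1140) (nat_lit 0) (XT.lf (nat_lit 0) (nat_lit 3335571343) (nat_lit 1140) (nat_lit 2223830439) (nat_lit 0) (nat_lit 1180785697) (nat_lit 670) (nat_lit 5) (nat_lit 685) (nat_lit 4) (nat_lit 670) (nat_lit 4) (nat_lit 545) (nat_lit 508) (nat_lit 507)) (XT.lf (nat_lit 0) (nat_lit 2316395703) (nat_lit 1140) (nat_lit 4357997968) (nat_lit 1140) (nat_lit 90677375) (nat_lit 655) (nat_lit 4) (nat_lit 670) (nat_lit 5) (nat_lit 670) (nat_lit 4) (nat_lit 546) (nat_lit 508) (nat_lit 506)))))) (XT.nd (nat_lit 390) (nat_lit 6460) (nat_lit 0) (XT.nd (nat_lit 156) (nat_lit 2812) (nat_lit 0) (XT.nd (nat_lit 78) (nat_lit 0) (nat_lit 0) (XT.lf (nat_lit 0) (nat_lit 106677664) (nat_lit 1216) (nat_lit 3083971320) (nat_lit 1292) (nat_lit 3600497709) (nat_lit 638) (nat_lit 5) (nat_lit 654) (nat_lit 5) (nat_lit 655) (nat_lit 4) (nat_lit 547) (nat_lit 508) (nat_lit 505)) (XT.lf (nat_lit 0) (nat_lit 4752549546) (nat_lit 1216) (nat_lit 1743235340) (nat_lit 1292) (nat_lit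 322765509) (nat_lit 638) (nat_lit 5) (nat_lit 654) (nat_lit 5) (nat_lit 655) (nat_lit 4) (nat_lit 548) (nat_lit 508) (nat_lit 504))) (XT.nd (nat_lit 78) (nat_lit 1444) (nat_lit 0) (XT.lf (nat_lit 0) (nat_lit 2599284599) (nat_lit 1292) (nat_lit 328963122) (nat_lit 1368) (nat_lit 3918921625) (nat_lit 620) (nat_lit 5) (nat_lit 637) (nat_lit 5) (nat_lit 638) (nat_lit 5) (nat_lit 549) (nat_lit 508) (nat_lit 503)) (XT.nd (nat_lit 78) (nat_lit 76) (nat_lit 0) (XT.lf (nat_lit 0) (nat_lit 445104414) (nat_lit 1368) (nat_lit 5750433849) (nat_lit 1444) (nat_lit 681674267) (nat_lit 602) (nat_lit 5) (nat_lit 620) (nat_lit 5) (nat_lit 621) (nat_lit 4) (nat_lit 550) (nat_lit 508) (nat_lit 502)) (XT.lf (nat_lit 0) (nat_lit 2548819929) (nat_lit 1444) (nat_lit 1698711148) (nat_lit 76) (nat_lit 2660733748) (nat_lit 601) (nat_lit 5) (nat_lit 620) (nat_lit 5) (nat_lit 602) (nat_lit 5) (nat_lit 551) (nat_lit 508) (nat_lit 501))))) (XT.nd (nat_lit 234) (nat_lit 3420) (nat_lit 0) (XT.nd (nat_lit 78) (nat_lit 1596) (nat_lit 0) (XT.lf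 (nat_lit 0) (nat_lit 3105192901) (nat_lit 1444) (nat_lit 2683101374) (nat_lit 1520) (nat_lit 1152489565) (nat_lit 582) (nat_lit 5) (nat_lit 601) (nat_lit 5) (nat_lit 602) (nat_lit 5) (nat_lit 552) (nat_lit 508) (nat_lit 500)) (XT.nd (nat_lit 78) (nat_lit 0) (nat_lit 0) (XT.lf (nat_lit 0) (nat_lit 992806557) (nat_lit 1520) (nat_lit 1049738385) (nat_lit 1596) (nat_lit 4932104189) (nat_lit 561) (nat_lit 5) (nat_lit 581) (nat_lit 5) (nat_lit 582) (nat_lit 5) (nat_lit 553) (nat_lit 508) (nat_lit 499)) (XT.lf (nat_lit 0) (nat_lit 5250715408) (nat_lit 1596) (nat_lit 1112518544) (nat_lit 76) (nat_lit 646517492) (nat_lit 561) (nat_lit 5) (nat_lit 582) (nat_lit 5) (nat_lit 562) (nat_lit 5) (nat_lit 554) (nat_lit 508) (nat_lit 498)))) (XT.nd (nat_lit 78) (nat_lit 1748) (nat_lit 0) (XT.lf (nat_lit 0) (nat_lit 1425783629) (nat_lit 1672) (nat_lit 3218610942) (nat_lit 76) (nat_lit 2401621226) (nat_lit 539) (nat_lit 5) (nat_lit 561) (nat_lit 5) (nat_lit 540) (nat_lit 5) (nat_lit 555) (nat_lit 508) (nat_lit 497)) (XT.nd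 (nat_lit 78) (nat_lit 76) (nat_lit 0) (XT.lf (nat_lit 0) (nat_lit 1748543964) (nat_lit 1672) (nat_lit 2857554121) (nat_lit 1748) (nat_lit 2477572872) (nat_lit 517) (nat_lit 5) (nat_lit 539) (nat_lit 5) (nat_lit 540) (nat_lit 5) (nat_lit 556) (nat_lit 508) (nat_lit 496)) (XT.lf (nat_lit 0) (nat_lit 677028356) (nat_lit 1748) (nat_lit 329328327) (nat_lit 76) (nat_lit 6116460202) (nat_lit 516) (nat_lit 5) (nat_lit 539) (nat_lit 5) (nat_lit 517) (nat_lit 5) (nat_lit 557) (nat_lit 508) (nat_lit 495))))))))
noncomputable def xc39 : XT := (XT.nd (nat_lit 1560) (nat_lit 9272) (nat_lit 0) (XT.nd (nat_lit 780) (nat_lit 5472) (nat_lit 0) (XT.nd (nat_lit 390) (nat_lit 3572) (nat_lit 0) (XT.nd (nat_lit 156) (nat_lit 2128) (nat_lit 0) (XT.nd (nat_lit 78) (nat_lit 1824) (nat_lit 0) (XT.lf (nat_lit 0) (nat_lit 3836679299) (nat_lit 1824) (nat_lit 2406730317) (nat_lit 76) (nat_lit 919510743) (nat_lit 493) (nat_lit 5) (nat_lit 517) (nat_lit 5) (nat_lit 494) (nat_lit 5) (nat_lit 558) (nat_lit 508) (nat_lit 494)) (XT.lf (nat_lit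 0) (nat_lit 2711874780) (nat_lit 1824) (nat_lit 4313108423) (nat_lit 1900) (nat_lit 179538215) (nat_lit 469) (nat_lit 5) (nat_lit 493) (nat_lit 5) (nat_lit 494) (nat_lit 5) (nat_lit 559) (nat_lit 508) (nat_lit 493))) (XT.nd (nat_lit 78) (nat_lit 988) (nat_lit 0) (XT.lf (nat_lit 0) (nat_lit 646014370) (nat_lit 1064) (nat_lit 2304158354) (nat_lit 1140) (nat_lit 4297196550) (nat_lit 454) (nat_lit 5) (nat_lit 468) (nat_lit 5) (nat_lit 469) (nat_lit 5) (nat_lit 560) (nat_lit 508) (nat_lit 492)) (XT.nd (nat_lit 78) (nat_lit 988) (nat_lit 0) (XT.lf (nat_lit 0) (nat_lit 5886025352) (nat_lit 1064) (nat_lit 224345707) (nat_lit 1140) (nat_lit 1181277795) (nat_lit 454) (nat_lit 5) (nat_lit 468) (nat_lit 5) (nat_lit 469) (nat_lit 5) (nat_lit 561) (nat_lit 508) (nat_lit 491)) (XT.lf (nat_lit 0) (nat_lit 1949396687) (nat_lit 988) (nat_lit 3478677154) (nat_lit 76) (nat_lit 1908912584) (nat_lit 441) (nat_lit 5) (nat_lit 454) (nat_lit 5) (nat_lit 442) (nat_lit 5) (nat_lit 562) (nat_lit 508) (nat_lit 490))))) (XT.nd (nat_lit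 156) (nat_lit 2584) (nat_lit 0) (XT.nd (nat_lit 78) (nat_lit 76) (nat_lit 0) (XT.lf (nat_lit 0) (nat_lit 1816518955) (nat_lit 912) (nat_lit 3274826736) (nat_lit 988) (nat_lit 2292443514) (nat_lit 429) (nat_lit 5) (nat_lit 441) (nat_lit 5) (nat_lit 442) (nat_lit 5) (nat_lit 563) (nat_lit 508) (nat_lit 489)) (XT.lf (nat_lit 0) (nat_lit 818814994) (nat_lit 988) (nat_lit 233891725) (nat_lit 76) (nat_lit 6379402096) (nat_lit 428) (nat_lit 5) (nat_lit 441) (nat_lit 5) (nat_lit 429) (nat_lit 5) (nat_lit 564) (nat_lit 508) (nat_lit 488))) (XT.nd (nat_lit 78) (nat_lit 1748) (nat_lit 0) (XT.lf (nat_lit 0) (nat_lit 3946751065) (nat_lit 912) (nat_lit 2291207847) (nat_lit 76) (nat_lit 1243433826) (nat_lit 417) (nat_lit 5) (nat_lit 429) (nat_lit 5) (nat_lit 418) (nat_lit 5) (nat_lit 565) (nat_lit 508) (nat_lit 487)) (XT.nd (nat_lit 78) (nat_lit 912) (nat_lit 0) (XT.lf (nat_lit 0) (nat_lit 3167519913) (nat_lit 836) (nat_lit 3942725944) (nat_lit 912) (nat_lit 421960350) (nat_lit 406) (nat_lit 5) (nat_lit 417) (nat_lit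 5) (nat_lit 418) (nat_lit 5) (nat_lit 566) (nat_lit 508) (nat_lit 486)) (XT.lf (nat_lit 0) (nat_lit 1117770638) (nat_lit 836) (nat_lit 1566049498) (nat_lit 912) (nat_lit 4900523020) (nat_lit 394) (nat_lit 5) (nat_lit 405) (nat_lit 5) (nat_lit 406) (nat_lit 5) (nat_lit 567) (nat_lit 508) (nat_lit 485)))))) (XT.nd (nat_lit 390) (nat_lit 2964) (nat_lit 0) (XT.nd (nat_lit 156) (nat_lit 1596) (nat_lit 0) (XT.nd (nat_lit 78) (nat_lit 912) (nat_lit 0) (XT.lf (nat_lit 0) (nat_lit 5825999454) (nat_lit 912) (nat_lit 938780528) (nat_lit 76) (nat_lit 873092057) (nat_lit 394) (nat_lit 5) (nat_lit 406) (nat_lit 5) (nat_lit 395) (nat_lit 5) (nat_lit 568) (nat_lit 508) (nat_lit 484)) (XT.lf (nat_lit 0) (nat_lit 1307677425) (nat_lit 912) (nat_lit 3011744161) (nat_lit 76) (nat_lit 3373145964) (nat_lit 382) (nat_lit 5) (nat_lit 394) (nat_lit 5) (nat_lit 383) (nat_lit 5) (nat_lit 569) (nat_lit 508) (nat_lit 483))) (XT.nd (nat_lit 78) (nat_lit 836) (nat_lit 0) (XT.lf (nat_lit 0) (nat_lit 2638458773) (nat_lit 760) (nat_lit 1796655925)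 (nat_lit 836) (nat_lit 3313611033) (nat_lit 372) (nat_lit 5) (nat_lit 382) (nat_lit 5) (nat_lit 383) (nat_lit 5) (nat_lit 570) (nat_lit 508) (nat_lit 482)) (XT.nd (nat_lit 78) (nat_lit 76) (nat_lit 0) (XT.lf (nat_lit 0) (nat_lit 577255448) (nat_lit 760) (nat_lit 7023847925) (nat_lit 836) (nat_lit 205387018) (nat_lit 362) (nat_lit 5) (nat_lit 372) (nat_lit 5) (nat_lit 373) (nat_lit 5) (nat_lit 571) (nat_lit 508) (nat_lit 481)) (XT.lf (nat_lit 0) (nat_lit 2919692388) (nat_lit 836) (nat_lit 1510626228) (nat_lit 76) (nat_lit 3434838399) (nat_lit 361) (nat_lit 5) (nat_lit 372) (nat_lit 5) (nat_lit 362) (nat_lit 5) (nat_lit 572) (nat_lit 508) (nat_lit 480))))) (XT.nd (nat_lit 156) (nat_lit 1444) (nat_lit 0) (XT.nd (nat_lit 78) (nat_lit 836) (nat_lit 0) (XT.lf (nat_lit 0) (nat_lit 4316503445) (nat_lit 684) (nat_lit 1764243440) (nat_lit 760) (nat_lit 1844701637) (nat_lit 352) (nat_lit 5) (nat_lit 361) (nat_lit 5) (nat_lit 362) (nat_lit 5) (nat_lit 573) (nat_lit 508) (nat_lit 479)) (XT.lf (nat_lit 0) (nat_lit 1280458617)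 (nat_lit 836) (nat_lit 5740219712) (nat_lit 76) (nat_lit 966506046) (nat_lit 341) (nat_lit 5) (nat_lit 352) (nat_lit 5) (nat_lit 342) (nat_lit 5) (nat_lit 574) (nat_lit 508) (nat_lit 478))) (XT.nd (nat_lit 78) (nat_lit 760) (nat_lit 0) (XT.lf (nat_lit 0) (nat_lit 135011759) (nat_lit 684) (nat_lit 4294395501) (nat_lit 760) (nat_lit 3620787089) (nat_lit 332) (nat_lit 5) (nat_lit 341) (nat_lit 5) (nat_lit 342) (nat_lit 5) (nat_lit 575) (nat_lit 508) (nat_lit 477)) (XT.nd (nat_lit 78) (nat_lit 760) (nat_lit 0) (XT.lf (nat_lit 0) (nat_lit 6144025080) (nat_lit 684) (nat_lit 1485453738) (nat_lit 760) (nat_lit 485225760) (nat_lit 332) (nat_lit 5) (nat_lit 341) (nat_lit 5) (nat_lit 342) (nat_lit 5) (nat_lit 576) (nat_lit 508) (nat_lit 476)) (XT.lf (nat_lit 0) (nat_lit 2663331281) (nat_lit 760) (nat_lit 4122343633) (nat_lit 76) (nat_lit 1394763285) (nat_lit 322) (nat_lit 5) (nat_lit 332) (nat_lit 5) (nat_lit 323) (nat_lit 5) (nat_lit 577) (nat_lit 508) (nat_lit 475))))))) (XT.nd (nat_lit 780) (nat_lit 4712) (nat_lit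 0) (XT.nd (nat_lit 390) (nat_lit 1900) (nat_lit 0) (XT.nd (nat_lit 156) (nat_lit 1976) (nat_lit 0) (XT.nd (nat_lit 78) (nat_lit 76) (nat_lit 0) (XT.lf (nat_lit 0) (nat_lit 1937710293) (nat_lit 608) (nat_lit 3917177314) (nat_lit 684) (nat_lit 2392806994) (nat_lit 314) (nat_lit 5) (nat_lit 322) (nat_lit 5) (nat_lit 323) (nat_lit 5) (nat_lit 578) (nat_lit 508) (nat_lit 474)) (XT.lf (nat_lit 0) (nat_lit 762444512) (nat_lit 684) (nat_lit 207985036) (nat_lit 76) (nat_lit 7346188562) (nat_lit 313) (nat_lit 5) (nat_lit 322) (nat_lit 5) (nat_lit 314) (nat_lit 5) (nat_lit 579) (nat_lit 508) (nat_lit 473))) (XT.nd (nat_lit 78) (nat_lit 1292) (nat_lit 0) (XT.lf (nat_lit 0) (nat_lit 3953357289) (nat_lit 760) (nat_lit 2381675980) (nat_lit 76) (nat_lit 2051481175) (nat_lit 304) (nat_lit 5) (nat_lit 314) (nat_lit 5) (nat_lit 305) (nat_lit 5) (nat_lit 580) (nat_lit 508) (nat_lit 472)) (XT.nd (nat_lit 78) (nat_lit 684) (nat_lit 0) (XT.lf (nat_lit 0) (nat_lit 3870271329) (nat_lit 608) (nat_lit 3323238100) (nat_lit 684) (nat_lit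 1264593407) (nat_lit 296) (nat_lit 5) (nat_lit 304) (nat_lit 5) (nat_lit 305) (nat_lit 5) (nat_lit 581) (nat_lit 508) (nat_lit 471)) (XT.lf (nat_lit 0) (nat_lit 1696875338) (nat_lit 608) (nat_lit 224455644) (nat_lit 684) (nat_lit 6609943173) (nat_lit 287) (nat_lit 5) (nat_lit 295) (nat_lit 5) (nat_lit 296) (nat_lit 5) (nat_lit 582) (nat_lit 508) (nat_lit 470))))) (XT.nd (nat_lit 156) (nat_lit 1292) (nat_lit 0) (XT.nd (nat_lit 78) (nat_lit 608) (nat_lit 0) (XT.lf (nat_lit 0) (nat_lit 5157239363) (nat_lit 684) (nat_lit 525153406) (nat_lit 76) (nat_lit 2923287387) (nat_lit 287) (nat_lit 5) (nat_lit 296) (nat_lit 5) (nat_lit 288) (nat_lit 5) (nat_lit 583) (nat_lit 508) (nat_lit 469)) (XT.lf (nat_lit 0) (nat_lit 5926038246) (nat_lit 608) (nat_lit 2525836473) (nat_lit 684) (nat_lit 229821740) (nat_lit 279) (nat_lit 5) (nat_lit 287) (nat_lit 5) (nat_lit 288) (nat_lit 5) (nat_lit 584) (nat_lit 508) (nat_lit 468))) (XT.nd (nat_lit 78) (nat_lit 608) (nat_lit 0) (XT.lf (nat_lit 0) (nat_lit 2999820270) (nat_lit 684)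 (nat_lit 5041423447) (nat_lit 76) (nat_lit 717861305) (nat_lit 270) (nat_lit 5) (nat_lit 279) (nat_lit 5) (nat_lit 271) (nat_lit 5) (nat_lit 585) (nat_lit 508) (nat_lit 467)) (XT.nd (nat_lit 78) (nat_lit 76) (nat_lit 0) (XT.lf (nat_lit 0) (nat_lit 1459828272) (nat_lit 532) (nat_lit 4830634574) (nat_lit 608) (nat_lit 2547581049) (nat_lit 263) (nat_lit 5) (nat_lit 270) (nat_lit 5) (nat_lit 271) (nat_lit 5) (nat_lit 586) (nat_lit 508) (nat_lit 466)) (XT.lf (nat_lit 0) (nat_lit 707716851) (nat_lit 608) (nat_lit 824690907) (nat_lit 76) (nat_lit 7386283090) (nat_lit 262) (nat_lit 5) (nat_lit 270) (nat_lit 5) (nat_lit 263) (nat_lit 5) (nat_lit 587) (nat_lit 508) (nat_lit 465)))))) (XT.nd (nat_lit 390) (nat_lit 2584) (nat_lit 0) (XT.nd (nat_lit 156) (nat_lit 1064) (nat_lit 0) (XT.nd (nat_lit 78) (nat_lit 532) (nat_lit 0) (XT.lf (nat_lit 0) (nat_lit 3999983297) (nat_lit 608) (nat_lit 3153102451) (nat_lit 76) (nat_lit 1847410801) (nat_lit 255) (nat_lit 5) (nat_lit 263) (nat_lit 5) (nat_lit 256) (nat_lit 5) (nat_lit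 588) (nat_lit 508) (nat_lit 464)) (XT.lf (nat_lit 0) (nat_lit 3556255125) (nat_lit 532) (nat_lit 3796768613) (nat_lit 608) (nat_lit 1731018105) (nat_lit 248) (nat_lit 5) (nat_lit 255) (nat_lit 5) (nat_lit 256) (nat_lit 5) (nat_lit 589) (nat_lit 508) (nat_lit 463))) (XT.nd (nat_lit 78) (nat_lit 456) (nat_lit 0) (XT.lf (nat_lit 0) (nat_lit 1218475509) (nat_lit 532) (nat_lit 349867510) (nat_lit 608) (nat_lit 7600998509) (nat_lit 240) (nat_lit 5) (nat_lit 247) (nat_lit 5) (nat_lit 248) (nat_lit 5) (nat_lit 590) (nat_lit 508) (nat_lit 462)) (XT.nd (nat_lit 78) (nat_lit 456) (nat_lit 0) (XT.lf (nat_lit 0) (nat_lit 4925086199) (nat_lit 608) (nat_lit 1174291323) (nat_lit 76) (nat_lit 3156451314) (nat_lit 240) (nat_lit 5) (nat_lit 248) (nat_lit 5) (nat_lit 241) (nat_lit 5) (nat_lit 591) (nat_lit 508) (nat_lit 461)) (XT.lf (nat_lit 0) (nat_lit 5751106375) (nat_lit 456) (nat_lit 2595020646) (nat_lit 532) (nat_lit 997977509) (nat_lit 234) (nat_lit 5) (nat_lit 240) (nat_lit 5) (nat_lit 241) (nat_lit 5) (nat_lit 592)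 (nat_lit 508) (nat_lit 460))))) (XT.nd (nat_lit 234) (nat_lit 1520) (nat_lit 0) (XT.nd (nat_lit 78) (nat_lit 456) (nat_lit 0) (XT.lf (nat_lit 0) (nat_lit 2363948350) (nat_lit 608) (nat_lit 6075184351) (nat_lit 76) (nat_lit 994823009) (nat_lit 226) (nat_lit 5) (nat_lit 234) (nat_lit 5) (nat_lit 227) (nat_lit 5) (nat_lit 593) (nat_lit 508) (nat_lit 459)) (XT.nd (nat_lit 78) (nat_lit 0) (nat_lit 0) (XT.lf (nat_lit 0) (nat_lit 900698173) (nat_lit 456) (nat_lit 4884369120) (nat_lit 532) (nat_lit 3740300125) (nat_lit 220) (nat_lit 5) (nat_lit 226) (nat_lit 5) (nat_lit 227) (nat_lit 5) (nat_lit 594) (nat_lit 508) (nat_lit 458)) (XT.lf (nat_lit 0) (nat_lit 8038527020) (nat_lit 456) (nat_lit 1235284652) (nat_lit 532) (nat_lit 344813380) (nat_lit 220) (nat_lit 5) (nat_lit 226) (nat_lit 5) (nat_lit 227) (nat_lit 5) (nat_lit 595) (nat_lit 508) (nat_lit 457)))) (XT.nd (nat_lit 78) (nat_lit 988) (nat_lit 0) (XT.lf (nat_lit 0) (nat_lit 3089417266) (nat_lit 532) (nat_lit 4130581921) (nat_lit 76) (nat_lit 2493110677) (nat_lit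 213) (nat_lit 5) (nat_lit 220) (nat_lit 5) (nat_lit 214) (nat_lit 5) (nat_lit 596) (nat_lit 508) (nat_lit 456)) (XT.nd (nat_lit 78) (nat_lit 532) (nat_lit 0) (XT.lf (nat_lit 0) (nat_lit 3070692370) (nat_lit 456) (nat_lit 3515100448) (nat_lit 532) (nat_lit 3223686074) (nat_lit 207) (nat_lit 5) (nat_lit 213) (nat_lit 5) (nat_lit 214) (nat_lit 5) (nat_lit 597) (nat_lit 508) (nat_lit 455)) (XT.lf (nat_lit 0) (nat_lit 233562473) (nat_lit 532) (nat_lit 9399805446) (nat_lit 76) (nat_lit 274528319) (nat_lit 200) (nat_lit 5) (nat_lit 207) (nat_lit 5) (nat_lit 201) (nat_lit 5) (nat_lit 598) (nat_lit 508) (nat_lit 454))))))))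
noncomputable def xc40 : XT := (XT.nd (nat_lit 1560) (nat_lit 684) (nat_lit 0) (XT.nd (nat_lit 780) (nat_lit 2584) (nat_lit 0) (XT.nd (nat_lit 390) (nat_lit 1672) (nat_lit 0) (XT.nd (nat_lit 156) (nat_lit 912) (nat_lit 0) (XT.nd (nat_lit 78) (nat_lit 380) (nat_lit 0) (XT.lf (nat_lit 0) (nat_lit 3745343174) (nat_lit 532) (nat_lit 2121087483) (nat_lit 76) (nat_lit 4140855611) (nat_lit 200) (nat_lit 5) (nat_lit 207) (nat_lit 5) (nat_lit 201) (nat_lit 5) (nat_lit 599) (nat_lit 508) (nat_lit 453)) (XT.lf (nat_lit 0) (nat_lit 5314042155) (nat_lit 380) (nat_lit 2008322461) (nat_lit 456) (nat_lit 2786400905) (nat_lit 195) (nat_lit 5) (nat_lit 200) (nat_lit 5) (nat_lit 201) (nat_lit 5) (nat_lit 600) (nat_lit 508) (nat_lit 452))) (XT.nd (nat_lit 78) (nat_lit 380) (nat_lit 0) (XT.lf (nat_lit 0) (nat_lit 753732236) (nat_lit 532) (nat_lit 7539108422) (nat_lit 76) (nat_lit 1919236054) (nat_lit 188) (nat_lit 5) (nat_lit 195) (nat_lit 5) (nat_lit 189) (nat_lit 5) (nat_lit 601) (nat_lit 508) (nat_lit 451)) (XT.nd (nat_lit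 78) (nat_lit 380) (nat_lit 0) (XT.lf (nat_lit 0) (nat_lit 4333982414) (nat_lit 532) (nat_lit 53029240) (nat_lit 76) (nat_lit 5929943062) (nat_lit 188) (nat_lit 5) (nat_lit 195) (nat_lit 5) (nat_lit 189) (nat_lit 5) (nat_lit 602) (nat_lit 508) (nat_lit 450)) (XT.lf (nat_lit 0) (nat_lit 7624672517) (nat_lit 380) (nat_lit 372337215) (nat_lit 456) (nat_lit 2426698514) (nat_lit 183) (nat_lit 5) (nat_lit 188) (nat_lit 5) (nat_lit 189) (nat_lit 5) (nat_lit 603) (nat_lit 508) (nat_lit 449))))) (XT.nd (nat_lit 156) (nat_lit 836) (nat_lit 0) (XT.nd (nat_lit 78) (nat_lit 380) (nat_lit 0) (XT.lf (nat_lit 0) (nat_lit 1203369660) (nat_lit 456) (nat_lit 5634270390) (nat_lit 76) (nat_lit 3694433911) (nat_lit 177) (nat_lit 5) (nat_lit 183) (nat_lit 5) (nat_lit 178) (nat_lit 5) (nat_lit 604) (nat_lit 508) (nat_lit 448)) (XT.lf (nat_lit 0) (nat_lit 2094630485) (nat_lit 380) (nat_lit 2775954125) (nat_lit 456) (nat_lit 5771762119) (nat_lit 172) (nat_lit 5) (nat_lit 177) (nat_lit 5) (nat_lit 178) (nat_lit 5) (nat_lit 605) (nat_lit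 508) (nat_lit 447))) (XT.nd (nat_lit 78) (nat_lit 836) (nat_lit 0) (XT.lf (nat_lit 0) (nat_lit 8620348263) (nat_lit 456) (nat_lit 767416482) (nat_lit 76) (nat_lit 1366877421) (nat_lit 172) (nat_lit 5) (nat_lit 178) (nat_lit 5) (nat_lit 173) (nat_lit 5) (nat_lit 606) (nat_lit 508) (nat_lit 446)) (XT.nd (nat_lit 78) (nat_lit 380) (nat_lit 0) (XT.lf (nat_lit 0) (nat_lit 1583494666) (nat_lit 456) (nat_lit 3692234051) (nat_lit 76) (nat_lit 5592686617) (nat_lit 166) (nat_lit 5) (nat_lit 172) (nat_lit 5) (nat_lit 167) (nat_lit 5) (nat_lit 607) (nat_lit 508) (nat_lit 445)) (XT.lf (nat_lit 0) (nat_lit 4289109432) (nat_lit 380) (nat_lit 1054129584) (nat_lit 456) (nat_lit 5641020458) (nat_lit 161) (nat_lit 5) (nat_lit 166) (nat_lit 5) (nat_lit 167) (nat_lit 5) (nat_lit 608) (nat_lit 508) (nat_lit 444)))))) (XT.nd (nat_lit 390) (nat_lit 1064) (nat_lit 0) (XT.nd (nat_lit 156) (nat_lit 1064) (nat_lit 0) (XT.nd (nat_lit 78) (nat_lit 76) (nat_lit 0) (XT.lf (nat_lit 0) (nat_lit 1316305335) (nat_lit 380) (nat_lit 7879809949)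 (nat_lit 456) (nat_lit 1905947673) (nat_lit 156) (nat_lit 5) (nat_lit 161) (nat_lit 5) (nat_lit 162) (nat_lit 5) (nat_lit 609) (nat_lit 508) (nat_lit 443)) (XT.lf (nat_lit 0) (nat_lit 1894504191) (nat_lit 456) (nat_lit 1720209928) (nat_lit 76) (nat_lit 7606949397) (nat_lit 155) (nat_lit 5) (nat_lit 161) (nat_lit 5) (nat_lit 156) (nat_lit 5) (nat_lit 610) (nat_lit 508) (nat_lit 442))) (XT.nd (nat_lit 78) (nat_lit 760) (nat_lit 0) (XT.lf (nat_lit 0) (nat_lit 5756979320) (nat_lit 380) (nat_lit 4825559444) (nat_lit 76) (nat_lit 760635792) (nat_lit 151) (nat_lit 5) (nat_lit 156) (nat_lit 5) (nat_lit 152) (nat_lit 5) (nat_lit 611) (nat_lit 508) (nat_lit 441)) (XT.nd (nat_lit 78) (nat_lit 380) (nat_lit 0) (XT.lf (nat_lit 0) (nat_lit 3440685008) (nat_lit 380) (nat_lit 6278273553) (nat_lit 456) (nat_lit 1747713274) (nat_lit 146) (nat_lit 5) (nat_lit 151) (nat_lit 5) (nat_lit 152) (nat_lit 5) (nat_lit 612) (nat_lit 508) (nat_lit 440)) (XT.lf (nat_lit 0) (nat_lit 277878580) (nat_lit 304) (nat_lit 1860085647) (nat_lit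 380) (nat_lit 9454417368) (nat_lit 141) (nat_lit 5) (nat_lit 145) (nat_lit 5) (nat_lit 146) (nat_lit 5) (nat_lit 613) (nat_lit 508) (nat_lit 439))))) (XT.nd (nat_lit 156) (nat_lit 684) (nat_lit 0) (XT.nd (nat_lit 78) (nat_lit 380) (nat_lit 0) (XT.lf (nat_lit 0) (nat_lit 6114014448) (nat_lit 380) (nat_lit 2949368673) (nat_lit 76) (nat_lit 2656271205) (nat_lit 141) (nat_lit 5) (nat_lit 146) (nat_lit 5) (nat_lit 142) (nat_lit 5) (nat_lit 614) (nat_lit 508) (nat_lit 438)) (XT.lf (nat_lit 0) (nat_lit 5587817089) (nat_lit 380) (nat_lit 4595701441) (nat_lit 456) (nat_lit 1665676353) (nat_lit 136) (nat_lit 5) (nat_lit 141) (nat_lit 5) (nat_lit 142) (nat_lit 5) (nat_lit 615) (nat_lit 508) (nat_lit 437))) (XT.nd (nat_lit 78) (nat_lit 304) (nat_lit 0) (XT.lf (nat_lit 0) (nat_lit 2313418976) (nat_lit 304) (nat_lit 9172693) (nat_lit 380) (nat_lit 9658422685) (nat_lit 131) (nat_lit 5) (nat_lit 135) (nat_lit 5) (nat_lit 136) (nat_lit 5) (nat_lit 616) (nat_lit 508) (nat_lit 436)) (XT.nd (nat_lit 78) (nat_lit 304) (nat_lit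 0) (XT.lf (nat_lit 0) (nat_lit 6406549993) (nat_lit 380) (nat_lit 1068151299) (nat_lit 76) (nat_lit 4639785119) (nat_lit 131) (nat_lit 5) (nat_lit 136) (nat_lit 5) (nat_lit 132) (nat_lit 5) (nat_lit 617) (nat_lit 508) (nat_lit 435)) (XT.lf (nat_lit 0) (nat_lit 7749480570) (nat_lit 304) (nat_lit 2839354280) (nat_lit 380) (nat_lit 1661461060) (nat_lit 127) (nat_lit 5) (nat_lit 131) (nat_lit 5) (nat_lit 132) (nat_lit 5) (nat_lit 618) (nat_lit 508) (nat_lit 434))))))) (XT.nd (nat_lit 75738) (nat_lit 0) (nat_lit 28500) (XT.nd (nat_lit 75348) (nat_lit 0) (nat_lit 39444) (XT.nd (nat_lit 156) (nat_lit 0) (nat_lit 0) (XT.nd (nat_lit 78) (nat_lit 304) (nat_lit 0) (XT.lf (nat_lit 0) (nat_lit 2447908366) (nat_lit 380) (nat_lit 8046064761) (nat_lit 76) (nat_lit 1894243057) (nat_lit 122) (nat_lit 5) (nat_lit 127) (nat_lit 5) (nat_lit 123) (nat_lit 5) (nat_lit 619) (nat_lit 508) (nat_lit 433)) (XT.lf (nat_lit 0) (nat_lit 819820200) (nat_lit 304) (nat_lit 5818462704) (nat_lit 380) (nat_lit 5889971912) (nat_lit 118) (nat_lit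 5) (nat_lit 122) (nat_lit 5) (nat_lit 123) (nat_lit 5) (nat_lit 620) (nat_lit 508) (nat_lit 432))) (XT.nd (nat_lit 75036) (nat_lit 0) (nat_lit 43092) (XT.lf (nat_lit 0) (nat_lit 9916833718) (nat_lit 304) (nat_lit 1016436911) (nat_lit 380) (nat_lit 1737408356) (nat_lit 118) (nat_lit 5) (nat_lit 122) (nat_lit 5) (nat_lit 123) (nat_lit 5) (nat_lit 621) (nat_lit 508) (nat_lit 431)) (XT.nd (nat_lit 78) (nat_lit 988) (nat_lit 0) (XT.lf (nat_lit 0) (nat_lit 1138780094) (nat_lit 988) (nat_lit 1058808094) (nat_lit 0) (nat_lit 1138780094) (nat_lit 698) (nat_lit 5) (nat_lit 711) (nat_lit 4) (nat_lit 698) (nat_lit 4) (nat_lit 542) (nat_lit 509) (nat_lit 509)) (XT.lf (nat_lit 0) (nat_lit 2262460763) (nat_lit 988) (nat_lit 3336881441) (nat_lit 988) (nat_lit 1095042455) (nat_lit 685) (nat_lit 4) (nat_lit 698) (nat_lit 5) (nat_lit 698) (nat_lit 4) (nat_lit 543) (nat_lit 509) (nat_lit 508))))) (XT.nd (nat_lit 156) (nat_lit 2508) (nat_lit 0) (XT.nd (nat_lit 78) (nat_lit 1064) (nat_lit 0) (XT.lf (nat_lit 0) (nat_lit 2182460820)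 (nat_lit 1064) (nat_lit 31149487) (nat_lit 76) (nat_lit 4503744456) (nat_lit 684) (nat_lit 5) (nat_lit 698) (nat_lit 5) (nat_lit 685) (nat_lit 4) (nat_lit 544) (nat_lit 509) (nat_lit 507)) (XT.lf (nat_lit 0) (nat_lit 4450947251) (nat_lit 1064) (nat_lit 1017098907) (nat_lit 1140) (nat_lit 1273456321) (nat_lit 670) (nat_lit 5) (nat_lit 684) (nat_lit 5) (nat_lit 685) (nat_lit 4) (nat_lit 545) (nat_lit 509) (nat_lit 506))) (XT.nd (nat_lit 78) (nat_lit 1292) (nat_lit 0) (XT.lf (nat_lit 0) (nat_lit 1971297961) (nat_lit 1216) (nat_lit 4554292762) (nat_lit 76) (nat_lit 241382092) (nat_lit 654) (nat_lit 5) (nat_lit 670) (nat_lit 5) (nat_lit 655) (nat_lit 4) (nat_lit 546) (nat_lit 509) (nat_lit 505)) (XT.nd (nat_lit 78) (nat_lit 1292) (nat_lit 0) (XT.lf (nat_lit 0) (nat_lit 5216058510) (nat_lit 1216) (nat_lit 30379093) (nat_lit 76) (nat_lit 1547309820) (nat_lit 654) (nat_lit 5) (nat_lit 670) (nat_lit 5) (nat_lit 655) (nat_lit 4) (nat_lit 547) (nat_lit 509) (nat_lit 504)) (XT.lf (nat_lit 0) (nat_lit 1643122354) (nat_lit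 1292) (nat_lit 2246820834) (nat_lit 76) (nat_lit 2931682751) (nat_lit 637) (nat_lit 5) (nat_lit 654) (nat_lit 5) (nat_lit 638) (nat_lit 5) (nat_lit 548) (nat_lit 509) (nat_lit 503)))))) (XT.nd (nat_lit 390) (nat_lit 5168) (nat_lit 0) (XT.nd (nat_lit 156) (nat_lit 3040) (nat_lit 0) (XT.nd (nat_lit 78) (nat_lit 1444) (nat_lit 0) (XT.lf (nat_lit 0) (nat_lit 2384415376) (nat_lit 1292) (nat_lit 2470343604) (nat_lit 1368) (nat_lit 1996149888) (nat_lit 620) (nat_lit 5) (nat_lit 637) (nat_lit 5) (nat_lit 638) (nat_lit 5) (nat_lit 549) (nat_lit 509) (nat_lit 502)) (XT.lf (nat_lit 0) (nat_lit 193204063) (nat_lit 1368) (nat_lit 989020699) (nat_lit 1444) (nat_lit 5699420941) (nat_lit 601) (nat_lit 5) (nat_lit 619) (nat_lit 5) (nat_lit 620) (nat_lit 5) (nat_lit 550) (nat_lit 509) (nat_lit 501))) (XT.nd (nat_lit 78) (nat_lit 3040) (nat_lit 0) (XT.lf (nat_lit 0) (nat_lit 4364351547) (nat_lit 1444) (nat_lit 1982936117) (nat_lit 76) (nat_lit 566113205) (nat_lit 601) (nat_lit 5) (nat_lit 620) (nat_lit 5) (nat_lit 602) (nat_lit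 5) (nat_lit 551) (nat_lit 509) (nat_lit 500)) (XT.nd (nat_lit 78) (nat_lit 1520) (nat_lit 0) (XT.lf (nat_lit 0) (nat_lit 614625495) (nat_lit 1520) (nat_lit 4163154271) (nat_lit 76) (nat_lit 2168750460) (nat_lit 581) (nat_lit 5) (nat_lit 601) (nat_lit 5) (nat_lit 582) (nat_lit 5) (nat_lit 552) (nat_lit 509) (nat_lit 499)) (XT.lf (nat_lit 0) (nat_lit 623377584) (nat_lit 1520) (nat_lit 3136641600) (nat_lit 1596) (nat_lit 3220919873) (nat_lit 561) (nat_lit 5) (nat_lit 581) (nat_lit 5) (nat_lit 582) (nat_lit 5) (nat_lit 553) (nat_lit 509) (nat_lit 498))))) (XT.nd (nat_lit 156) (nat_lit 3496) (nat_lit 0) (XT.nd (nat_lit 78) (nat_lit 1672) (nat_lit 0) (XT.lf (nat_lit 0) (nat_lit 5502798939) (nat_lit 1520) (nat_lit 1429449600) (nat_lit 1596) (nat_lit 84514282) (nat_lit 561) (nat_lit 5) (nat_lit 581) (nat_lit 5) (nat_lit 582) (nat_lit 5) (nat_lit 554) (nat_lit 509) (nat_lit 497)) (XT.lf (nat_lit 0) (nat_lit 3034949830) (nat_lit 1672) (nat_lit 3664247423) (nat_lit 76) (nat_lit 354482883) (nat_lit 539) (nat_lit 5)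 (nat_lit 561) (nat_lit 5) (nat_lit 540) (nat_lit 5) (nat_lit 555) (nat_lit 509) (nat_lit 496))) (XT.nd (nat_lit 78) (nat_lit 1824) (nat_lit 0) (XT.lf (nat_lit 0) (nat_lit 1266965747) (nat_lit 1672) (nat_lit 4914334181) (nat_lit 1748) (nat_lit 910717133) (nat_lit 517) (nat_lit 5) (nat_lit 539) (nat_lit 5) (nat_lit 540) (nat_lit 5) (nat_lit 556) (nat_lit 509) (nat_lit 495)) (XT.nd (nat_lit 78) (nat_lit 1748) (nat_lit 0) (XT.lf (nat_lit 0) (nat_lit 2192706561) (nat_lit 1748) (nat_lit 859265970) (nat_lit 76) (nat_lit 4079601937) (nat_lit 516) (nat_lit 5) (nat_lit 539) (nat_lit 5) (nat_lit 517) (nat_lit 5) (nat_lit 557) (nat_lit 509) (nat_lit 494)) (XT.lf (nat_lit 0) (nat_lit 4195736270) (nat_lit 1748) (nat_lit 1116865529) (nat_lit 1824) (nat_lit 1859873590) (nat_lit 493) (nat_lit 5) (nat_lit 516) (nat_lit 5) (nat_lit 517) (nat_lit 5) (nat_lit 558) (nat_lit 509) (nat_lit 493))))))))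
noncomputable def xc41 : XT := (XT.nd (nat_lit 1560) (nat_lit 8664) (nat_lit 0) (XT.nd (nat_lit 780) (nat_lit 6080) (nat_lit 0) (XT.nd (nat_lit 390) (nat_lit 2660) (nat_lit 0) (XT.nd (nat_lit 156) (nat_lit 2964) (nat_lit 0) (XT.nd (nat_lit 78) (nat_lit 0) (nat_lit 0) (XT.lf (nat_lit 0) (nat_lit 1228907413) (nat_lit 1900) (nat_lit 5111395812) (nat_lit 76) (nat_lit 874429265) (nat_lit 468) (nat_lit 5) (nat_lit 493) (nat_lit 5) (nat_lit 469) (nat_lit 5) (nat_lit 559) (nat_lit 509) (nat_lit 492)) (XT.lf (nat_lit 0) (nat_lit 4322639402) (nat_lit 1900) (nat_lit 12232432) (nat_lit 76) (nat_lit 2923359885) (nat_lit 468) (nat_lit 5) (nat_lit 493) (nat_lit 5) (nat_lit 469) (nat_lit 5) (nat_lit 560) (nat_lit 509) (nat_lit 491))) (XT.nd (nat_lit 78) (nat_lit 1824) (nat_lit 0) (XT.lf (nat_lit 0) (nat_lit 148640476) (nat_lit 1140) (nat_lit 2106120793) (nat_lit 76) (nat_lit 5048315144) (nat_lit 453) (nat_lit 5) (nat_lit 468) (nat_lit 5) (nat_lit 454) (nat_lit 5) (nat_lit 561) (nat_lit 509) (nat_lit 490)) (XT.nd (nat_lit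 78) (nat_lit 912) (nat_lit 0) (XT.lf (nat_lit 0) (nat_lit 3123685098) (nat_lit 912) (nat_lit 94059112) (nat_lit 988) (nat_lit 4131440018) (nat_lit 441) (nat_lit 5) (nat_lit 453) (nat_lit 5) (nat_lit 454) (nat_lit 5) (nat_lit 562) (nat_lit 509) (nat_lit 489)) (XT.lf (nat_lit 0) (nat_lit 1030162402) (nat_lit 912) (nat_lit 5295513675) (nat_lit 988) (nat_lit 1070993305) (nat_lit 429) (nat_lit 5) (nat_lit 441) (nat_lit 5) (nat_lit 442) (nat_lit 5) (nat_lit 563) (nat_lit 509) (nat_lit 488))))) (XT.nd (nat_lit 156) (nat_lit 1748) (nat_lit 0) (XT.nd (nat_lit 78) (nat_lit 836) (nat_lit 0) (XT.lf (nat_lit 0) (nat_lit 1996120284) (nat_lit 988) (nat_lit 1071070445) (nat_lit 76) (nat_lit 4378204115) (nat_lit 428) (nat_lit 5) (nat_lit 441) (nat_lit 5) (nat_lit 429) (nat_lit 5) (nat_lit 564) (nat_lit 509) (nat_lit 487)) (XT.lf (nat_lit 0) (nat_lit 4320410523) (nat_lit 836) (nat_lit 762190117) (nat_lit 912) (nat_lit 2412909155) (nat_lit 417) (nat_lit 5) (nat_lit 428) (nat_lit 5) (nat_lit 429) (nat_lit 5) (nat_lit 565)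 (nat_lit 509) (nat_lit 486))) (XT.nd (nat_lit 78) (nat_lit 836) (nat_lit 0) (XT.lf (nat_lit 0) (nat_lit 652176930) (nat_lit 912) (nat_lit 5304640930) (nat_lit 76) (nat_lit 1590184730) (nat_lit 405) (nat_lit 5) (nat_lit 417) (nat_lit 5) (nat_lit 406) (nat_lit 5) (nat_lit 566) (nat_lit 509) (nat_lit 485)) (XT.nd (nat_lit 78) (nat_lit 0) (nat_lit 0) (XT.lf (nat_lit 0) (nat_lit 132222115) (nat_lit 836) (nat_lit 3586728489) (nat_lit 912) (nat_lit 3880805399) (nat_lit 394) (nat_lit 5) (nat_lit 405) (nat_lit 5) (nat_lit 406) (nat_lit 5) (nat_lit 567) (nat_lit 509) (nat_lit 484)) (XT.lf (nat_lit 0) (nat_lit 5689670200) (nat_lit 836) (nat_lit 1138979626) (nat_lit 912) (nat_lit 825286432) (nat_lit 394) (nat_lit 5) (nat_lit 405) (nat_lit 5) (nat_lit 406) (nat_lit 5) (nat_lit 568) (nat_lit 509) (nat_lit 483)))))) (XT.nd (nat_lit 390) (nat_lit 2888) (nat_lit 0) (XT.nd (nat_lit 156) (nat_lit 1520) (nat_lit 0) (XT.nd (nat_lit 78) (nat_lit 760) (nat_lit 0) (XT.lf (nat_lit 0) (nat_lit 2240535296) (nat_lit 912) (nat_lit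 4096427856) (nat_lit 76) (nat_lit 1372357987) (nat_lit 382) (nat_lit 5) (nat_lit 394) (nat_lit 5) (nat_lit 383) (nat_lit 5) (nat_lit 569) (nat_lit 509) (nat_lit 482)) (XT.lf (nat_lit 0) (nat_lit 1509155267) (nat_lit 760) (nat_lit 3825404015) (nat_lit 836) (nat_lit 2431589970) (nat_lit 372) (nat_lit 5) (nat_lit 382) (nat_lit 5) (nat_lit 383) (nat_lit 5) (nat_lit 570) (nat_lit 509) (nat_lit 481))) (XT.nd (nat_lit 78) (nat_lit 1444) (nat_lit 0) (XT.lf (nat_lit 0) (nat_lit 632894686) (nat_lit 836) (nat_lit 606211419) (nat_lit 76) (nat_lit 6585418849) (nat_lit 371) (nat_lit 5) (nat_lit 382) (nat_lit 5) (nat_lit 372) (nat_lit 5) (nat_lit 571) (nat_lit 509) (nat_lit 480)) (XT.nd (nat_lit 78) (nat_lit 684) (nat_lit 0) (XT.lf (nat_lit 0) (nat_lit 3717574849) (nat_lit 836) (nat_lit 2743774542) (nat_lit 76) (nat_lit 1422571200) (nat_lit 361) (nat_lit 5) (nat_lit 372) (nat_lit 5) (nat_lit 362) (nat_lit 5) (nat_lit 572) (nat_lit 509) (nat_lit 479)) (XT.lf (nat_lit 0) (nat_lit 3036917356) (nat_lit 684) (nat_lit 3808261116)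 (nat_lit 760) (nat_lit 1099704182) (nat_lit 352) (nat_lit 5) (nat_lit 361) (nat_lit 5) (nat_lit 362) (nat_lit 5) (nat_lit 573) (nat_lit 509) (nat_lit 478))))) (XT.nd (nat_lit 156) (nat_lit 2052) (nat_lit 0) (XT.nd (nat_lit 78) (nat_lit 0) (nat_lit 0) (XT.lf (nat_lit 0) (nat_lit 902075175) (nat_lit 760) (nat_lit 1073470270) (nat_lit 836) (nat_lit 6031780599) (nat_lit 341) (nat_lit 5) (nat_lit 351) (nat_lit 5) (nat_lit 352) (nat_lit 5) (nat_lit 574) (nat_lit 509) (nat_lit 477)) (XT.lf (nat_lit 0) (nat_lit 5091907010) (nat_lit 836) (nat_lit 1254882773) (nat_lit 76) (nat_lit 1724199430) (nat_lit 341) (nat_lit 5) (nat_lit 352) (nat_lit 5) (nat_lit 342) (nat_lit 5) (nat_lit 575) (nat_lit 509) (nat_lit 476))) (XT.nd (nat_lit 78) (nat_lit 1292) (nat_lit 0) (XT.lf (nat_lit 0) (nat_lit 121503469) (nat_lit 760) (nat_lit 3429365098) (nat_lit 76) (nat_lit 4585270418) (nat_lit 331) (nat_lit 5) (nat_lit 341) (nat_lit 5) (nat_lit 332) (nat_lit 5) (nat_lit 576) (nat_lit 509) (nat_lit 475)) (XT.nd (nat_lit 78) (nat_lit 608)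 (nat_lit 0) (XT.lf (nat_lit 0) (nat_lit 2556196700) (nat_lit 684) (nat_lit 664381512) (nat_lit 760) (nat_lit 4982095122) (nat_lit 322) (nat_lit 5) (nat_lit 331) (nat_lit 5) (nat_lit 332) (nat_lit 5) (nat_lit 577) (nat_lit 509) (nat_lit 474)) (XT.lf (nat_lit 0) (nat_lit 367448112) (nat_lit 608) (nat_lit 6006293452) (nat_lit 684) (nat_lit 1896957372) (nat_lit 314) (nat_lit 5) (nat_lit 322) (nat_lit 5) (nat_lit 323) (nat_lit 5) (nat_lit 578) (nat_lit 509) (nat_lit 473))))))) (XT.nd (nat_lit 780) (nat_lit 4180) (nat_lit 0) (XT.nd (nat_lit 390) (nat_lit 2432) (nat_lit 0) (XT.nd (nat_lit 156) (nat_lit 1292) (nat_lit 0) (XT.nd (nat_lit 78) (nat_lit 684) (nat_lit 0) (XT.lf (nat_lit 0) (nat_lit 1228024944) (nat_lit 684) (nat_lit 1834440204) (nat_lit 76) (nat_lit 5277569519) (nat_lit 313) (nat_lit 5) (nat_lit 322) (nat_lit 5) (nat_lit 314) (nat_lit 5) (nat_lit 579) (nat_lit 509) (nat_lit 472)) (XT.lf (nat_lit 0) (nat_lit 4340762979) (nat_lit 684) (nat_lit 30484459) (nat_lit 760) (nat_lit 4039638632) (nat_lit 304)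 (nat_lit 5) (nat_lit 313) (nat_lit 5) (nat_lit 314) (nat_lit 5) (nat_lit 580) (nat_lit 509) (nat_lit 471))) (XT.nd (nat_lit 78) (nat_lit 684) (nat_lit 0) (XT.lf (nat_lit 0) (nat_lit 2129582434) (nat_lit 608) (nat_lit 5447244868) (nat_lit 684) (nat_lit 906339845) (nat_lit 296) (nat_lit 5) (nat_lit 304) (nat_lit 5) (nat_lit 305) (nat_lit 5) (nat_lit 581) (nat_lit 509) (nat_lit 470)) (XT.nd (nat_lit 78) (nat_lit 608) (nat_lit 0) (XT.lf (nat_lit 0) (nat_lit 2240905252) (nat_lit 684) (nat_lit 123180531) (nat_lit 76) (nat_lit 6192886966) (nat_lit 295) (nat_lit 5) (nat_lit 304) (nat_lit 5) (nat_lit 296) (nat_lit 5) (nat_lit 582) (nat_lit 509) (nat_lit 469)) (XT.lf (nat_lit 0) (nat_lit 5439356750) (nat_lit 684) (nat_lit 2388601077) (nat_lit 76) (nat_lit 804171229) (nat_lit 287) (nat_lit 5) (nat_lit 296) (nat_lit 5) (nat_lit 288) (nat_lit 5) (nat_lit 583) (nat_lit 509) (nat_lit 468))))) (XT.nd (nat_lit 156) (nat_lit 1140) (nat_lit 0) (XT.nd (nat_lit 78) (nat_lit 684) (nat_lit 0) (XT.lf (nat_lit 0) (nat_lit 4008086034)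 (nat_lit 608) (nat_lit 4691150298) (nat_lit 684) (nat_lit 9605288) (nat_lit 279) (nat_lit 5) (nat_lit 287) (nat_lit 5) (nat_lit 288) (nat_lit 5) (nat_lit 584) (nat_lit 509) (nat_lit 467)) (XT.lf (nat_lit 0) (nat_lit 1720258583) (nat_lit 608) (nat_lit 1456965003) (nat_lit 684) (nat_lit 5609797600) (nat_lit 270) (nat_lit 5) (nat_lit 278) (nat_lit 5) (nat_lit 279) (nat_lit 5) (nat_lit 585) (nat_lit 509) (nat_lit 466))) (XT.nd (nat_lit 78) (nat_lit 1140) (nat_lit 0) (XT.lf (nat_lit 0) (nat_lit 6426924044) (nat_lit 684) (nat_lit 604849559) (nat_lit 76) (nat_lit 1835006375) (nat_lit 270) (nat_lit 5) (nat_lit 279) (nat_lit 5) (nat_lit 271) (nat_lit 5) (nat_lit 586) (nat_lit 509) (nat_lit 465)) (XT.nd (nat_lit 78) (nat_lit 532) (nat_lit 0) (XT.lf (nat_lit 0) (nat_lit 788114168) (nat_lit 608) (nat_lit 2956645078) (nat_lit 76) (nat_lit 5203173033) (nat_lit 262) (nat_lit 5) (nat_lit 270) (nat_lit 5) (nat_lit 263) (nat_lit 5) (nat_lit 587) (nat_lit 509) (nat_lit 464)) (XT.lf (nat_lit 0) (nat_lit 3669950731) (nat_lit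 532) (nat_lit 362578226) (nat_lit 608) (nat_lit 4998167071) (nat_lit 255) (nat_lit 5) (nat_lit 262) (nat_lit 5) (nat_lit 263) (nat_lit 5) (nat_lit 588) (nat_lit 509) (nat_lit 463)))))) (XT.nd (nat_lit 390) (nat_lit 1976) (nat_lit 0) (XT.nd (nat_lit 156) (nat_lit 1596) (nat_lit 0) (XT.nd (nat_lit 78) (nat_lit 76) (nat_lit 0) (XT.lf (nat_lit 0) (nat_lit 1291919183) (nat_lit 532) (nat_lit 6055297685) (nat_lit 608) (nat_lit 1767792502) (nat_lit 248) (nat_lit 5) (nat_lit 255) (nat_lit 5) (nat_lit 256) (nat_lit 5) (nat_lit 589) (nat_lit 509) (nat_lit 462)) (XT.lf (nat_lit 0) (nat_lit 1502930699) (nat_lit 608) (nat_lit 1122009462) (nat_lit 76) (nat_lit 6575957030) (nat_lit 247) (nat_lit 5) (nat_lit 255) (nat_lit 5) (nat_lit 248) (nat_lit 5) (nat_lit 590) (nat_lit 509) (nat_lit 461))) (XT.nd (nat_lit 78) (nat_lit 1064) (nat_lit 0) (XT.lf (nat_lit 0) (nat_lit 4816435329) (nat_lit 608) (nat_lit 3576183353) (nat_lit 76) (nat_lit 895631528) (nat_lit 240) (nat_lit 5) (nat_lit 248) (nat_lit 5) (nat_lit 241) (nat_lit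 5) (nat_lit 591) (nat_lit 509) (nat_lit 460)) (XT.nd (nat_lit 78) (nat_lit 608) (nat_lit 0) (XT.lf (nat_lit 0) (nat_lit 3287876275) (nat_lit 456) (nat_lit 4912982694) (nat_lit 532) (nat_lit 1176400199) (nat_lit 234) (nat_lit 5) (nat_lit 240) (nat_lit 5) (nat_lit 241) (nat_lit 5) (nat_lit 592) (nat_lit 509) (nat_lit 459)) (XT.lf (nat_lit 0) (nat_lit 807558422) (nat_lit 532) (nat_lit 1336611730) (nat_lit 608) (nat_lit 7323838160) (nat_lit 226) (nat_lit 5) (nat_lit 233) (nat_lit 5) (nat_lit 234) (nat_lit 5) (nat_lit 593) (nat_lit 509) (nat_lit 458))))) (XT.nd (nat_lit 234) (nat_lit 988) (nat_lit 0) (XT.nd (nat_lit 78) (nat_lit 988) (nat_lit 0) (XT.lf (nat_lit 0) (nat_lit 5530379049) (nat_lit 608) (nat_lit 1716977342) (nat_lit 76) (nat_lit 2312762698) (nat_lit 226) (nat_lit 5) (nat_lit 234) (nat_lit 5) (nat_lit 227) (nat_lit 5) (nat_lit 594) (nat_lit 509) (nat_lit 457)) (XT.nd (nat_lit 78) (nat_lit 532) (nat_lit 0) (XT.lf (nat_lit 0) (nat_lit 5368951051) (nat_lit 456) (nat_lit 3618703385) (nat_lit 532) (nat_lit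 666352516) (nat_lit 220) (nat_lit 5) (nat_lit 226) (nat_lit 5) (nat_lit 227) (nat_lit 5) (nat_lit 595) (nat_lit 509) (nat_lit 456)) (XT.lf (nat_lit 0) (nat_lit 2718549311) (nat_lit 532) (nat_lit 6919049118) (nat_lit 76) (nat_lit 112006823) (nat_lit 213) (nat_lit 5) (nat_lit 220) (nat_lit 5) (nat_lit 214) (nat_lit 5) (nat_lit 596) (nat_lit 509) (nat_lit 455)))) (XT.nd (nat_lit 78) (nat_lit 532) (nat_lit 0) (XT.lf (nat_lit 0) (nat_lit 215857741) (nat_lit 456) (nat_lit 5960769389) (nat_lit 532) (nat_lit 3670113907) (nat_lit 207) (nat_lit 5) (nat_lit 213) (nat_lit 5) (nat_lit 214) (nat_lit 5) (nat_lit 597) (nat_lit 509) (nat_lit 454)) (XT.nd (nat_lit 78) (nat_lit 532) (nat_lit 0) (XT.lf (nat_lit 0) (nat_lit 7529206635) (nat_lit 456) (nat_lit 2181576448) (nat_lit 532) (nat_lit 234899708) (nat_lit 207) (nat_lit 5) (nat_lit 213) (nat_lit 5) (nat_lit 214) (nat_lit 5) (nat_lit 598) (nat_lit 509) (nat_lit 453)) (XT.lf (nat_lit 0) (nat_lit 3230241300) (nat_lit 532) (nat_lit 5129215268) (nat_lit 76) (nat_lit 1686641919)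 (nat_lit 200) (nat_lit 5) (nat_lit 207) (nat_lit 5) (nat_lit 201) (nat_lit 5) (nat_lit 599) (nat_lit 509) (nat_lit 452))))))))
noncomputable def xc42 : XT := (XT.nd (nat_lit 1560) (nat_lit 608) (nat_lit 0) (XT.nd (nat_lit 780) (nat_lit 2660) (nat_lit 0) (XT.nd (nat_lit 390) (nat_lit 1216) (nat_lit 0) (XT.nd (nat_lit 156) (nat_lit 1292) (nat_lit 0) (XT.nd (nat_lit 78) (nat_lit 76) (nat_lit 0) (XT.lf (nat_lit 0) (nat_lit 2236992350) (nat_lit 380) (nat_lit 4531122488) (nat_lit 456) (nat_lit 3380246601) (nat_lit 195) (nat_lit 5) (nat_lit 200) (nat_lit 5) (nat_lit 201) (nat_lit 5) (nat_lit 600) (nat_lit 509) (nat_lit 451)) (XT.lf (nat_lit 0) (nat_lit 118505650) (nat_lit 456) (nat_lit 490800702) (nat_lit 76) (nat_lit 9643427487) (nat_lit 194) (nat_lit 5) (nat_lit 200) (nat_lit 5) (nat_lit 195) (nat_lit 5) (nat_lit 601) (nat_lit 509) (nat_lit 450))) (XT.nd (nat_lit 78) (nat_lit 836) (nat_lit 0) (XT.lf (nat_lit 0) (nat_lit 3672573088) (nat_lit 532) (nat_lit 3288826384) (nat_lit 76) (nat_lit 3396736724) (nat_lit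 188) (nat_lit 5) (nat_lit 195) (nat_lit 5) (nat_lit 189) (nat_lit 5) (nat_lit 602) (nat_lit 509) (nat_lit 449)) (XT.nd (nat_lit 78) (nat_lit 456) (nat_lit 0) (XT.lf (nat_lit 0) (nat_lit 4317301186) (nat_lit 380) (nat_lit 2978221275) (nat_lit 456) (nat_lit 3170169508) (nat_lit 183) (nat_lit 5) (nat_lit 188) (nat_lit 5) (nat_lit 189) (nat_lit 5) (nat_lit 603) (nat_lit 509) (nat_lit 448)) (XT.lf (nat_lit 0) (nat_lit 411754875) (nat_lit 456) (nat_lit 9077614375) (nat_lit 76) (nat_lit 1085943522) (nat_lit 177) (nat_lit 5) (nat_lit 183) (nat_lit 5) (nat_lit 178) (nat_lit 5) (nat_lit 604) (nat_lit 509) (nat_lit 447))))) (XT.nd (nat_lit 156) (nat_lit 836) (nat_lit 0) (XT.nd (nat_lit 78) (nat_lit 380) (nat_lit 0) (XT.lf (nat_lit 0) (nat_lit 4046944351) (nat_lit 456) (nat_lit 1404562899) (nat_lit 76) (nat_lit 5234719445) (nat_lit 177) (nat_lit 5) (nat_lit 183) (nat_lit 5) (nat_lit 178) (nat_lit 5) (nat_lit 605) (nat_lit 509) (nat_lit 446)) (XT.lf (nat_lit 0) (nat_lit 6450347619) (nat_lit 380) (nat_lit 1309879734)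 (nat_lit 456) (nat_lit 3039025024) (nat_lit 172) (nat_lit 5) (nat_lit 177) (nat_lit 5) (nat_lit 178) (nat_lit 5) (nat_lit 606) (nat_lit 509) (nat_lit 445))) (XT.nd (nat_lit 78) (nat_lit 380) (nat_lit 0) (XT.lf (nat_lit 0) (nat_lit 640148695) (nat_lit 456) (nat_lit 7380413173) (nat_lit 76) (nat_lit 2893591377) (nat_lit 166) (nat_lit 5) (nat_lit 172) (nat_lit 5) (nat_lit 167) (nat_lit 5) (nat_lit 607) (nat_lit 509) (nat_lit 444)) (XT.nd (nat_lit 78) (nat_lit 0) (nat_lit 0) (XT.lf (nat_lit 0) (nat_lit 523556109) (nat_lit 380) (nat_lit 3833988967) (nat_lit 456) (nat_lit 6673299863) (nat_lit 161) (nat_lit 5) (nat_lit 166) (nat_lit 5) (nat_lit 167) (nat_lit 5) (nat_lit 608) (nat_lit 509) (nat_lit 443)) (XT.lf (nat_lit 0) (nat_lit 8166031862) (nat_lit 456) (nat_lit 2523142251) (nat_lit 76) (nat_lit 460362684) (nat_lit 161) (nat_lit 5) (nat_lit 167) (nat_lit 5) (nat_lit 162) (nat_lit 5) (nat_lit 609) (nat_lit 509) (nat_lit 442)))))) (XT.nd (nat_lit 390) (nat_lit 1140) (nat_lit 0) (XT.nd (nat_lit 156) (nat_lit 760)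 (nat_lit 0) (XT.nd (nat_lit 78) (nat_lit 304) (nat_lit 0) (XT.lf (nat_lit 0) (nat_lit 796625678) (nat_lit 456) (nat_lit 5662033882) (nat_lit 76) (nat_lit 4811307353) (nat_lit 155) (nat_lit 5) (nat_lit 161) (nat_lit 5) (nat_lit 156) (nat_lit 5) (nat_lit 610) (nat_lit 509) (nat_lit 441)) (XT.lf (nat_lit 0) (nat_lit 2500550377) (nat_lit 304) (nat_lit 2110035524) (nat_lit 380) (nat_lit 6781862900) (nat_lit 151) (nat_lit 5) (nat_lit 155) (nat_lit 5) (nat_lit 156) (nat_lit 5) (nat_lit 611) (nat_lit 509) (nat_lit 440))) (XT.nd (nat_lit 78) (nat_lit 760) (nat_lit 0) (XT.lf (nat_lit 0) (nat_lit 8519227085) (nat_lit 380) (nat_lit 684770576) (nat_lit 76) (nat_lit 2313015720) (nat_lit 151) (nat_lit 5) (nat_lit 156) (nat_lit 5) (nat_lit 152) (nat_lit 5) (nat_lit 612) (nat_lit 509) (nat_lit 439)) (XT.nd (nat_lit 78) (nat_lit 304) (nat_lit 0) (XT.lf (nat_lit 0) (nat_lit 880694531) (nat_lit 456) (nat_lit 3930345950) (nat_lit 76) (nat_lit 6832317336) (nat_lit 145) (nat_lit 5) (nat_lit 151) (nat_lit 5) (nat_lit 146) (nat_lit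 5) (nat_lit 613) (nat_lit 509) (nat_lit 438)) (XT.lf (nat_lit 0) (nat_lit 4500097595) (nat_lit 304) (nat_lit 296220990) (nat_lit 380) (nat_lit 6975520995) (nat_lit 141) (nat_lit 5) (nat_lit 145) (nat_lit 5) (nat_lit 146) (nat_lit 5) (nat_lit 614) (nat_lit 509) (nat_lit 437))))) (XT.nd (nat_lit 156) (nat_lit 684) (nat_lit 0) (XT.nd (nat_lit 78) (nat_lit 76) (nat_lit 0) (XT.lf (nat_lit 0) (nat_lit 1182302915) (nat_lit 380) (nat_lit 7636168369) (nat_lit 456) (nat_lit 3083856378) (nat_lit 136) (nat_lit 5) (nat_lit 141) (nat_lit 5) (nat_lit 142) (nat_lit 5) (nat_lit 615) (nat_lit 509) (nat_lit 436)) (XT.lf (nat_lit 0) (nat_lit 891209504) (nat_lit 456) (nat_lit 2193690121) (nat_lit 76) (nat_lit 8950068179) (nat_lit 135) (nat_lit 5) (nat_lit 141) (nat_lit 5) (nat_lit 136) (nat_lit 5) (nat_lit 616) (nat_lit 509) (nat_lit 435))) (XT.nd (nat_lit 78) (nat_lit 380) (nat_lit 0) (XT.lf (nat_lit 0) (nat_lit 4923973317) (nat_lit 380) (nat_lit 5666004189) (nat_lit 76) (nat_lit 1579486715) (nat_lit 131) (nat_lit 5) (nat_lit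 136) (nat_lit 5) (nat_lit 132) (nat_lit 5) (nat_lit 617) (nat_lit 509) (nat_lit 434)) (XT.nd (nat_lit 78) (nat_lit 76) (nat_lit 0) (XT.lf (nat_lit 0) (nat_lit 3063291042) (nat_lit 304) (nat_lit 5996171574) (nat_lit 380) (nat_lit 3246747476) (nat_lit 127) (nat_lit 5) (nat_lit 131) (nat_lit 5) (nat_lit 132) (nat_lit 5) (nat_lit 618) (nat_lit 509) (nat_lit 433)) (XT.lf (nat_lit 0) (nat_lit 826346523) (nat_lit 380) (nat_lit 460980054) (nat_lit 76) (nat_lit 11158151419) (nat_lit 126) (nat_lit 5) (nat_lit 131) (nat_lit 5) (nat_lit 127) (nat_lit 5) (nat_lit 619) (nat_lit 509) (nat_lit 432))))))) (XT.nd (nat_lit 75582) (nat_lit 0) (nat_lit 28500) (XT.nd (nat_lit 75192) (nat_lit 0) (nat_lit 40660) (XT.nd (nat_lit 74958) (nat_lit 0) (nat_lit 44080) (XT.nd (nat_lit 78) (nat_lit 304) (nat_lit 0) (XT.lf (nat_lit 0) (nat_lit 4983735299) (nat_lit 380) (nat_lit 4076129290) (nat_lit 76) (nat_lit 3526312189) (nat_lit 122) (nat_lit 5) (nat_lit 127) (nat_lit 5) (nat_lit 123) (nat_lit 5) (nat_lit 620) (nat_lit 509) (nat_lit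 431)) (XT.lf (nat_lit 0) (nat_lit 4939896681) (nat_lit 304) (nat_lit 4295902327) (nat_lit 380) (nat_lit 3493660842) (nat_lit 118) (nat_lit 5) (nat_lit 122) (nat_lit 5) (nat_lit 123) (nat_lit 5) (nat_lit 621) (nat_lit 509) (nat_lit 430))) (XT.nd (nat_lit 78) (nat_lit 988) (nat_lit 0) (XT.lf (nat_lit 0) (nat_lit 1293395157) (nat_lit 836) (nat_lit 1011473606) (nat_lit 836) (nat_lit 1011473606) (nat_lit 711) (nat_lit 4) (nat_lit 722) (nat_lit 5) (nat_lit 722) (nat_lit 4) (nat_lit 540) (nat_lit 510) (nat_lit 510)) (XT.nd (nat_lit 78) (nat_lit 0) (nat_lit 0) (XT.lf (nat_lit 0) (nat_lit 205767879) (nat_lit 912) (nat_lit 1050755467) (nat_lit 988) (nat_lit 5396018017) (nat_lit 698) (nat_lit 5) (nat_lit 710) (nat_lit 5) (nat_lit 711) (nat_lit 4) (nat_lit 541) (nat_lit 510) (nat_lit 509)) (XT.lf (nat_lit 0) (nat_lit 4526949065) (nat_lit 912) (nat_lit 790594) (nat_lit 988) (nat_lit 2145730442) (nat_lit 698) (nat_lit 5) (nat_lit 710) (nat_lit 5) (nat_lit 711) (nat_lit 4) (nat_lit 542) (nat_lit 510) (nat_lit 508)))))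 (XT.nd (nat_lit 156) (nat_lit 2356) (nat_lit 0) (XT.nd (nat_lit 78) (nat_lit 0) (nat_lit 0) (XT.lf (nat_lit 0) (nat_lit 1102852881) (nat_lit 1064) (nat_lit 4498633290) (nat_lit 76) (nat_lit 1094213797) (nat_lit 684) (nat_lit 5) (nat_lit 698) (nat_lit 5) (nat_lit 685) (nat_lit 4) (nat_lit 543) (nat_lit 510) (nat_lit 507)) (XT.lf (nat_lit 0) (nat_lit 4330490719) (nat_lit 1064) (nat_lit 133590501) (nat_lit 76) (nat_lit 2255160130) (nat_lit 684) (nat_lit 5) (nat_lit 698) (nat_lit 5) (nat_lit 685) (nat_lit 4) (nat_lit 544) (nat_lit 510) (nat_lit 506))) (XT.nd (nat_lit 78) (nat_lit 1216) (nat_lit 0) (XT.lf (nat_lit 0) (nat_lit 825335882) (nat_lit 1140) (nat_lit 2430824294) (nat_lit 76) (nat_lit 3487836951) (nat_lit 669) (nat_lit 5) (nat_lit 684) (nat_lit 5) (nat_lit 670) (nat_lit 5) (nat_lit 545) (nat_lit 510) (nat_lit 505)) (XT.nd (nat_lit 78) (nat_lit 76) (nat_lit 0) (XT.lf (nat_lit 0) (nat_lit 2035073851) (nat_lit 1140) (nat_lit 1981026498) (nat_lit 1216) (nat_lit 2753950720) (nat_lit 654) (nat_lit 5) (nat_lit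 669) (nat_lit 5) (nat_lit 670) (nat_lit 5) (nat_lit 546) (nat_lit 510) (nat_lit 504)) (XT.lf (nat_lit 0) (nat_lit 415030136) (nat_lit 1216) (nat_lit 234038162) (nat_lit 76) (nat_lit 6148558587) (nat_lit 653) (nat_lit 5) (nat_lit 669) (nat_lit 5) (nat_lit 654) (nat_lit 5) (nat_lit 547) (nat_lit 510) (nat_lit 503)))))) (XT.nd (nat_lit 390) (nat_lit 6688) (nat_lit 0) (XT.nd (nat_lit 156) (nat_lit 2964) (nat_lit 0) (XT.nd (nat_lit 78) (nat_lit 1292) (nat_lit 0) (XT.lf (nat_lit 0) (nat_lit 3575838409) (nat_lit 1292) (nat_lit 2492248613) (nat_lit 76) (nat_lit 758002757) (nat_lit 637) (nat_lit 5) (nat_lit 654) (nat_lit 5) (nat_lit 638) (nat_lit 5) (nat_lit 548) (nat_lit 510) (nat_lit 502)) (XT.lf (nat_lit 0) (nat_lit 2106782091) (nat_lit 1292) (nat_lit 4645803693) (nat_lit 1368) (nat_lit 103487668) (nat_lit 620) (nat_lit 5) (nat_lit 637) (nat_lit 5) (nat_lit 638) (nat_lit 5) (nat_lit 549) (nat_lit 510) (nat_lit 501))) (XT.nd (nat_lit 78) (nat_lit 2888) (nat_lit 0) (XT.lf (nat_lit 0) (nat_lit 3015968912) (nat_lit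 1368) (nat_lit 133231789) (nat_lit 76) (nat_lit 3738048573) (nat_lit 619) (nat_lit 5) (nat_lit 637) (nat_lit 5) (nat_lit 620) (nat_lit 5) (nat_lit 550) (nat_lit 510) (nat_lit 500)) (XT.nd (nat_lit 78) (nat_lit 1520) (nat_lit 0) (XT.lf (nat_lit 0) (nat_lit 4577431155) (nat_lit 1368) (nat_lit 1583680615) (nat_lit 1444) (nat_lit 758635138) (nat_lit 601) (nat_lit 5) (nat_lit 619) (nat_lit 5) (nat_lit 620) (nat_lit 5) (nat_lit 551) (nat_lit 510) (nat_lit 499)) (XT.lf (nat_lit 0) (nat_lit 2336768639) (nat_lit 1520) (nat_lit 4564567581) (nat_lit 76) (nat_lit 52206023) (nat_lit 581) (nat_lit 5) (nat_lit 601) (nat_lit 5) (nat_lit 582) (nat_lit 5) (nat_lit 552) (nat_lit 510) (nat_lit 498))))) (XT.nd (nat_lit 234) (nat_lit 3496) (nat_lit 0) (XT.nd (nat_lit 78) (nat_lit 1672) (nat_lit 0) (XT.lf (nat_lit 0) (nat_lit 187286242) (nat_lit 1520) (nat_lit 5260547505) (nat_lit 1596) (nat_lit 1540806530) (nat_lit 561) (nat_lit 5) (nat_lit 581) (nat_lit 5) (nat_lit 582) (nat_lit 5) (nat_lit 553) (nat_lit 510) (nat_lit 497))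 (XT.nd (nat_lit 78) (nat_lit 1596) (nat_lit 0) (XT.lf (nat_lit 0) (nat_lit 1543397833) (nat_lit 1596) (nat_lit 1997302379) (nat_lit 76) (nat_lit 3484184654) (nat_lit 560) (nat_lit 5) (nat_lit 581) (nat_lit 5) (nat_lit 561) (nat_lit 5) (nat_lit 554) (nat_lit 510) (nat_lit 496)) (XT.lf (nat_lit 0) (nat_lit 2872499421) (nat_lit 1596) (nat_lit 1752888831) (nat_lit 1672) (nat_lit 2437132736) (nat_lit 539) (nat_lit 5) (nat_lit 560) (nat_lit 5) (nat_lit 561) (nat_lit 5) (nat_lit 555) (nat_lit 510) (nat_lit 495)))) (XT.nd (nat_lit 78) (nat_lit 1748) (nat_lit 0) (XT.lf (nat_lit 0) (nat_lit 616590915) (nat_lit 1748) (nat_lit 6389514986) (nat_lit 76) (nat_lit 95577094) (nat_lit 516) (nat_lit 5) (nat_lit 539) (nat_lit 5) (nat_lit 517) (nat_lit 5) (nat_lit 556) (nat_lit 510) (nat_lit 494)) (XT.nd (nat_lit 78) (nat_lit 1748) (nat_lit 0) (XT.lf (nat_lit 0) (nat_lit 3678043000) (nat_lit 1748) (nat_lit 1458897773) (nat_lit 76) (nat_lit 2004784250) (nat_lit 516) (nat_lit 5) (nat_lit 539) (nat_lit 5) (nat_lit 517) (nat_lit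 5) (nat_lit 557) (nat_lit 510) (nat_lit 493)) (XT.lf (nat_lit 0) (nat_lit 3559072993) (nat_lit 1748) (nat_lit 3205292987) (nat_lit 1824) (nat_lit 418933699) (nat_lit 493) (nat_lit 5) (nat_lit 516) (nat_lit 5) (nat_lit 517) (nat_lit 5) (nat_lit 558) (nat_lit 510) (nat_lit 492))))))))
noncomputable def xc43 : XT := (XT.nd (nat_lit 1560) (nat_lit 9272) (nat_lit 0) (XT.nd (nat_lit 780) (nat_lit 5396) (nat_lit 0) (XT.nd (nat_lit 390) (nat_lit 2660) (nat_lit 0) (XT.nd (nat_lit 156) (nat_lit 3040) (nat_lit 0) (XT.nd (nat_lit 78) (nat_lit 0) (nat_lit 0) (XT.lf (nat_lit 0) (nat_lit 1414364884) (nat_lit 1824) (nat_lit 1197079090) (nat_lit 1900) (nat_lit 4614717997) (nat_lit 468) (nat_lit 5) (nat_lit 492) (nat_lit 5) (nat_lit 493) (nat_lit 5) (nat_lit 559) (nat_lit 510) (nat_lit 491)) (XT.lf (nat_lit 0) (nat_lit 5668550867) (nat_lit 1900) (nat_lit 734135351) (nat_lit 76) (nat_lit 867709639) (nat_lit 468) (nat_lit 5) (nat_lit 493) (nat_lit 5) (nat_lit 469) (nat_lit 5) (nat_lit 560) (nat_lit 510) (nat_lit 490))) (XT.nd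 (nat_lit 78) (nat_lit 1900) (nat_lit 0) (XT.lf (nat_lit 0) (nat_lit 1431448047) (nat_lit 1140) (nat_lit 2887968990) (nat_lit 76) (nat_lit 2996321347) (nat_lit 453) (nat_lit 5) (nat_lit 468) (nat_lit 5) (nat_lit 454) (nat_lit 5) (nat_lit 561) (nat_lit 510) (nat_lit 489)) (XT.nd (nat_lit 78) (nat_lit 988) (nat_lit 0) (XT.lf (nat_lit 0) (nat_lit 2302176074) (nat_lit 912) (nat_lit 2164937410) (nat_lit 988) (nat_lit 2895403512) (nat_lit 441) (nat_lit 5) (nat_lit 453) (nat_lit 5) (nat_lit 454) (nat_lit 5) (nat_lit 562) (nat_lit 510) (nat_lit 488)) (XT.lf (nat_lit 0) (nat_lit 115778981) (nat_lit 988) (nat_lit 7243487200) (nat_lit 76) (nat_lit 51658484) (nat_lit 428) (nat_lit 5) (nat_lit 441) (nat_lit 5) (nat_lit 429) (nat_lit 5) (nat_lit 563) (nat_lit 510) (nat_lit 487))))) (XT.nd (nat_lit 156) (nat_lit 1824) (nat_lit 0) (XT.nd (nat_lit 78) (nat_lit 836) (nat_lit 0) (XT.lf (nat_lit 0) (nat_lit 3141272400) (nat_lit 988) (nat_lit 1984427326) (nat_lit 76) (nat_lit 2334364721) (nat_lit 428) (nat_lit 5) (nat_lit 441)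 (nat_lit 5) (nat_lit 429) (nat_lit 5) (nat_lit 564) (nat_lit 510) (nat_lit 486)) (XT.lf (nat_lit 0) (nat_lit 3365686119) (nat_lit 836) (nat_lit 2828834696) (nat_lit 912) (nat_lit 1316325099) (nat_lit 417) (nat_lit 5) (nat_lit 428) (nat_lit 5) (nat_lit 429) (nat_lit 5) (nat_lit 565) (nat_lit 510) (nat_lit 485))) (XT.nd (nat_lit 78) (nat_lit 912) (nat_lit 0) (XT.lf (nat_lit 0) (nat_lit 1233465328) (nat_lit 836) (nat_lit 456964516) (nat_lit 912) (nat_lit 5872647259) (nat_lit 405) (nat_lit 5) (nat_lit 416) (nat_lit 5) (nat_lit 417) (nat_lit 5) (nat_lit 566) (nat_lit 510) (nat_lit 484)) (XT.nd (nat_lit 78) (nat_lit 912) (nat_lit 0) (XT.lf (nat_lit 0) (nat_lit 4726835098) (nat_lit 912) (nat_lit 920857689) (nat_lit 76) (nat_lit 1968746867) (nat_lit 405) (nat_lit 5) (nat_lit 417) (nat_lit 5) (nat_lit 406) (nat_lit 5) (nat_lit 567) (nat_lit 510) (nat_lit 483)) (XT.lf (nat_lit 0) (nat_lit 131252885) (nat_lit 912) (nat_lit 3076926592) (nat_lit 76) (nat_lit 4463070297) (nat_lit 393) (nat_lit 5) (nat_lit 405) (nat_lit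 5) (nat_lit 394) (nat_lit 5) (nat_lit 568) (nat_lit 510) (nat_lit 482)))))) (XT.nd (nat_lit 390) (nat_lit 2280) (nat_lit 0) (XT.nd (nat_lit 156) (nat_lit 1520) (nat_lit 0) (XT.nd (nat_lit 78) (nat_lit 760) (nat_lit 0) (XT.lf (nat_lit 0) (nat_lit 2459918798) (nat_lit 836) (nat_lit 683887959) (nat_lit 912) (nat_lit 4583571281) (nat_lit 382) (nat_lit 5) (nat_lit 393) (nat_lit 5) (nat_lit 394) (nat_lit 5) (nat_lit 569) (nat_lit 510) (nat_lit 481)) (XT.lf (nat_lit 0) (nat_lit 297448072) (nat_lit 760) (nat_lit 5902505504) (nat_lit 836) (nat_lit 1585011752) (nat_lit 372) (nat_lit 5) (nat_lit 382) (nat_lit 5) (nat_lit 383) (nat_lit 5) (nat_lit 570) (nat_lit 510) (nat_lit 480))) (XT.nd (nat_lit 78) (nat_lit 1444) (nat_lit 0) (XT.lf (nat_lit 0) (nat_lit 1442944199) (nat_lit 836) (nat_lit 1871602744) (nat_lit 76) (nat_lit 4529194241) (nat_lit 371) (nat_lit 5) (nat_lit 382) (nat_lit 5) (nat_lit 372) (nat_lit 5) (nat_lit 571) (nat_lit 510) (nat_lit 479)) (XT.nd (nat_lit 78) (nat_lit 684) (nat_lit 0) (XT.lf (nat_lit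 0) (nat_lit 3838306269) (nat_lit 760) (nat_lit 646517548) (nat_lit 836) (nat_lit 3419170556) (nat_lit 361) (nat_lit 5) (nat_lit 371) (nat_lit 5) (nat_lit 372) (nat_lit 5) (nat_lit 572) (nat_lit 510) (nat_lit 478)) (XT.lf (nat_lit 0) (nat_lit 1672228994) (nat_lit 684) (nat_lit 5902490410) (nat_lit 760) (nat_lit 390992702) (nat_lit 352) (nat_lit 5) (nat_lit 361) (nat_lit 5) (nat_lit 362) (nat_lit 5) (nat_lit 573) (nat_lit 510) (nat_lit 477))))) (XT.nd (nat_lit 156) (nat_lit 1444) (nat_lit 0) (XT.nd (nat_lit 78) (nat_lit 760) (nat_lit 0) (XT.lf (nat_lit 0) (nat_lit 2644588282) (nat_lit 760) (nat_lit 529085218) (nat_lit 76) (nat_lit 4854998895) (nat_lit 351) (nat_lit 5) (nat_lit 361) (nat_lit 5) (nat_lit 352) (nat_lit 5) (nat_lit 574) (nat_lit 510) (nat_lit 476)) (XT.lf (nat_lit 0) (nat_lit 5360466964) (nat_lit 760) (nat_lit 361434065) (nat_lit 836) (nat_lit 2371216934) (nat_lit 341) (nat_lit 5) (nat_lit 351) (nat_lit 5) (nat_lit 352) (nat_lit 5) (nat_lit 575) (nat_lit 510) (nat_lit 475))) (XT.nd (nat_lit 78)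 (nat_lit 684) (nat_lit 0) (XT.lf (nat_lit 0) (nat_lit 685132947) (nat_lit 760) (nat_lit 4980231929) (nat_lit 76) (nat_lit 2493550563) (nat_lit 331) (nat_lit 5) (nat_lit 341) (nat_lit 5) (nat_lit 332) (nat_lit 5) (nat_lit 576) (nat_lit 510) (nat_lit 474)) (XT.nd (nat_lit 78) (nat_lit 0) (nat_lit 0) (XT.lf (nat_lit 0) (nat_lit 955313367) (nat_lit 684) (nat_lit 2794843154) (nat_lit 760) (nat_lit 4475975630) (nat_lit 322) (nat_lit 5) (nat_lit 331) (nat_lit 5) (nat_lit 332) (nat_lit 5) (nat_lit 577) (nat_lit 510) (nat_lit 473)) (XT.lf (nat_lit 0) (nat_lit 6863685920) (nat_lit 760) (nat_lit 1277144063) (nat_lit 76) (nat_lit 154121764) (nat_lit 322) (nat_lit 5) (nat_lit 332) (nat_lit 5) (nat_lit 323) (nat_lit 5) (nat_lit 578) (nat_lit 510) (nat_lit 472))))))) (XT.nd (nat_lit 780) (nat_lit 4180) (nat_lit 0) (XT.nd (nat_lit 390) (nat_lit 2432) (nat_lit 0) (XT.nd (nat_lit 156) (nat_lit 1292) (nat_lit 0) (XT.nd (nat_lit 78) (nat_lit 684) (nat_lit 0) (XT.lf (nat_lit 0) (nat_lit 1655850920) (nat_lit 684) (nat_lit 3552775380)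 (nat_lit 76) (nat_lit 3156237129) (nat_lit 313) (nat_lit 5) (nat_lit 322) (nat_lit 5) (nat_lit 314) (nat_lit 5) (nat_lit 579) (nat_lit 510) (nat_lit 471)) (XT.lf (nat_lit 0) (nat_lit 2570403699) (nat_lit 684) (nat_lit 2194332200) (nat_lit 760) (nat_lit 3671666923) (nat_lit 304) (nat_lit 5) (nat_lit 313) (nat_lit 5) (nat_lit 314) (nat_lit 5) (nat_lit 580) (nat_lit 510) (nat_lit 470))) (XT.nd (nat_lit 78) (nat_lit 684) (nat_lit 0) (XT.lf (nat_lit 0) (nat_lit 294660539) (nat_lit 608) (nat_lit 7627072317) (nat_lit 684) (nat_lit 587923913) (nat_lit 296) (nat_lit 5) (nat_lit 304) (nat_lit 5) (nat_lit 305) (nat_lit 5) (nat_lit 581) (nat_lit 510) (nat_lit 469)) (XT.nd (nat_lit 78) (nat_lit 608) (nat_lit 0) (XT.lf (nat_lit 0) (nat_lit 2532631875) (nat_lit 684) (nat_lit 2015798455) (nat_lit 76) (nat_lit 4035442127) (nat_lit 295) (nat_lit 5) (nat_lit 304) (nat_lit 5) (nat_lit 296) (nat_lit 5) (nat_lit 582) (nat_lit 510) (nat_lit 468)) (XT.lf (nat_lit 0) (nat_lit 4302207237) (nat_lit 608) (nat_lit 1388874365) (nat_lit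 684) (nat_lit 2968748342) (nat_lit 287) (nat_lit 5) (nat_lit 295) (nat_lit 5) (nat_lit 296) (nat_lit 5) (nat_lit 583) (nat_lit 510) (nat_lit 467))))) (XT.nd (nat_lit 156) (nat_lit 1748) (nat_lit 0) (XT.nd (nat_lit 78) (nat_lit 0) (nat_lit 0) (XT.lf (nat_lit 0) (nat_lit 167346850) (nat_lit 684) (nat_lit 6745646628) (nat_lit 76) (nat_lit 1824407479) (nat_lit 278) (nat_lit 5) (nat_lit 287) (nat_lit 5) (nat_lit 279) (nat_lit 5) (nat_lit 584) (nat_lit 510) (nat_lit 466)) (XT.lf (nat_lit 0) (nat_lit 3321113714) (nat_lit 684) (nat_lit 376132123) (nat_lit 76) (nat_lit 5118993238) (nat_lit 278) (nat_lit 5) (nat_lit 287) (nat_lit 5) (nat_lit 279) (nat_lit 5) (nat_lit 585) (nat_lit 510) (nat_lit 465))) (XT.nd (nat_lit 78) (nat_lit 1140) (nat_lit 0) (XT.lf (nat_lit 0) (nat_lit 6144169146) (nat_lit 608) (nat_lit 390571643) (nat_lit 684) (nat_lit 2361979605) (nat_lit 270) (nat_lit 5) (nat_lit 278) (nat_lit 5) (nat_lit 279) (nat_lit 5) (nat_lit 586) (nat_lit 510) (nat_lit 464)) (XT.nd (nat_lit 78) (nat_lit 532) (nat_lit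 0) (XT.lf (nat_lit 0) (nat_lit 826730355) (nat_lit 608) (nat_lit 5190153943) (nat_lit 76) (nat_lit 2961744074) (nat_lit 262) (nat_lit 5) (nat_lit 270) (nat_lit 5) (nat_lit 263) (nat_lit 5) (nat_lit 587) (nat_lit 510) (nat_lit 463)) (XT.lf (nat_lit 0) (nat_lit 1377785447) (nat_lit 532) (nat_lit 2657418870) (nat_lit 608) (nat_lit 5026907619) (nat_lit 255) (nat_lit 5) (nat_lit 262) (nat_lit 5) (nat_lit 263) (nat_lit 5) (nat_lit 588) (nat_lit 510) (nat_lit 462)))))) (XT.nd (nat_lit 390) (nat_lit 2508) (nat_lit 0) (XT.nd (nat_lit 156) (nat_lit 1064) (nat_lit 0) (XT.nd (nat_lit 78) (nat_lit 608) (nat_lit 0) (XT.lf (nat_lit 0) (nat_lit 7305725327) (nat_lit 608) (nat_lit 1062480660) (nat_lit 76) (nat_lit 779103604) (nat_lit 255) (nat_lit 5) (nat_lit 263) (nat_lit 5) (nat_lit 256) (nat_lit 5) (nat_lit 589) (nat_lit 510) (nat_lit 461)) (XT.lf (nat_lit 0) (nat_lit 1402277223) (nat_lit 608) (nat_lit 3551306232) (nat_lit 76) (nat_lit 4280181068) (nat_lit 247) (nat_lit 5) (nat_lit 255) (nat_lit 5) (nat_lit 248) (nat_lit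 5) (nat_lit 590) (nat_lit 510) (nat_lit 460))) (XT.nd (nat_lit 78) (nat_lit 532) (nat_lit 0) (XT.lf (nat_lit 0) (nat_lit 3227823564) (nat_lit 532) (nat_lit 1445512099) (nat_lit 608) (nat_lit 4648631722) (nat_lit 240) (nat_lit 5) (nat_lit 247) (nat_lit 5) (nat_lit 248) (nat_lit 5) (nat_lit 591) (nat_lit 510) (nat_lit 459)) (XT.nd (nat_lit 78) (nat_lit 76) (nat_lit 0) (XT.lf (nat_lit 0) (nat_lit 717122023) (nat_lit 456) (nat_lit 7294341155) (nat_lit 532) (nat_lit 1400439991) (nat_lit 234) (nat_lit 5) (nat_lit 240) (nat_lit 5) (nat_lit 241) (nat_lit 5) (nat_lit 592) (nat_lit 510) (nat_lit 458)) (XT.lf (nat_lit 0) (nat_lit 1897685130) (nat_lit 532) (nat_lit 1835520855) (nat_lit 76) (nat_lit 5769983959) (nat_lit 233) (nat_lit 5) (nat_lit 240) (nat_lit 5) (nat_lit 234) (nat_lit 5) (nat_lit 593) (nat_lit 510) (nat_lit 457))))) (XT.nd (nat_lit 234) (nat_lit 1444) (nat_lit 0) (XT.nd (nat_lit 78) (nat_lit 532) (nat_lit 0) (XT.lf (nat_lit 0) (nat_lit 5162832643) (nat_lit 532) (nat_lit 73840494) (nat_lit 608) (nat_lit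 4359572851) (nat_lit 226) (nat_lit 5) (nat_lit 233) (nat_lit 5) (nat_lit 234) (nat_lit 5) (nat_lit 594) (nat_lit 510) (nat_lit 456)) (XT.nd (nat_lit 78) (nat_lit 76) (nat_lit 0) (XT.lf (nat_lit 0) (nat_lit 2588388358) (nat_lit 456) (nat_lit 6067435073) (nat_lit 532) (nat_lit 1035073755) (nat_lit 220) (nat_lit 5) (nat_lit 226) (nat_lit 5) (nat_lit 227) (nat_lit 5) (nat_lit 595) (nat_lit 510) (nat_lit 455)) (XT.lf (nat_lit 0) (nat_lit 2316025346) (nat_lit 532) (nat_lit 49097902) (nat_lit 76) (nat_lit 7422193691) (nat_lit 219) (nat_lit 5) (nat_lit 226) (nat_lit 5) (nat_lit 220) (nat_lit 5) (nat_lit 596) (nat_lit 510) (nat_lit 454)))) (XT.nd (nat_lit 78) (nat_lit 988) (nat_lit 0) (XT.lf (nat_lit 0) (nat_lit 5737645814) (nat_lit 532) (nat_lit 2717998445) (nat_lit 76) (nat_lit 1429538396) (nat_lit 213) (nat_lit 5) (nat_lit 220) (nat_lit 5) (nat_lit 214) (nat_lit 5) (nat_lit 597) (nat_lit 510) (nat_lit 453)) (XT.nd (nat_lit 78) (nat_lit 532) (nat_lit 0) (XT.lf (nat_lit 0) (nat_lit 4531057658) (nat_lit 456) (nat_lit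 4703684768) (nat_lit 532) (nat_lit 750123941) (nat_lit 207) (nat_lit 5) (nat_lit 213) (nat_lit 5) (nat_lit 214) (nat_lit 5) (nat_lit 598) (nat_lit 510) (nat_lit 452)) (XT.lf (nat_lit 0) (nat_lit 1825651701) (nat_lit 456) (nat_lit 845955486) (nat_lit 532) (nat_lit 7414745862) (nat_lit 200) (nat_lit 5) (nat_lit 206) (nat_lit 5) (nat_lit 207) (nat_lit 5) (nat_lit 599) (nat_lit 510) (nat_lit 451))))))))
noncomputable def xc44 : XT := (XT.nd (nat_lit 1560) (nat_lit 380) (nat_lit 0) (XT.nd (nat_lit 780) (nat_lit 2584) (nat_lit 0) (XT.nd (nat_lit 390) (nat_lit 1672) (nat_lit 0) (XT.nd (nat_lit 156) (nat_lit 912) (nat_lit 0) (XT.nd (nat_lit 78) (nat_lit 380) (nat_lit 0) (XT.lf (nat_lit 0) (nat_lit 6170670403) (nat_lit 532) (nat_lit 946345625) (nat_lit 76) (nat_lit 3072376905) (nat_lit 200) (nat_lit 5) (nat_lit 207) (nat_lit 5) (nat_lit 201) (nat_lit 5) (nat_lit 600) (nat_lit 510) (nat_lit 450)) (XT.lf (nat_lit 0) (nat_lit 6538992368) (nat_lit 380) (nat_lit 3211561288) (nat_lit 456) (nat_lit 543724619) (nat_lit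 195) (nat_lit 5) (nat_lit 200) (nat_lit 5) (nat_lit 201) (nat_lit 5) (nat_lit 601) (nat_lit 510) (nat_lit 449))) (XT.nd (nat_lit 78) (nat_lit 380) (nat_lit 0) (XT.lf (nat_lit 0) (nat_lit 2960354894) (nat_lit 532) (nat_lit 6646298255) (nat_lit 76) (nat_lit 794241151) (nat_lit 188) (nat_lit 5) (nat_lit 195) (nat_lit 5) (nat_lit 189) (nat_lit 5) (nat_lit 602) (nat_lit 510) (nat_lit 448)) (XT.nd (nat_lit 78) (nat_lit 0) (nat_lit 0) (XT.lf (nat_lit 0) (nat_lit 887198373) (nat_lit 380) (nat_lit 5655595883) (nat_lit 456) (nat_lit 3966466687) (nat_lit 183) (nat_lit 5) (nat_lit 188) (nat_lit 5) (nat_lit 189) (nat_lit 5) (nat_lit 603) (nat_lit 510) (nat_lit 447)) (XT.lf (nat_lit 0) (nat_lit 8605982693) (nat_lit 380) (nat_lit 1599018318) (nat_lit 456) (nat_lit 414632865) (nat_lit 183) (nat_lit 5) (nat_lit 188) (nat_lit 5) (nat_lit 189) (nat_lit 5) (nat_lit 604) (nat_lit 510) (nat_lit 446))))) (XT.nd (nat_lit 156) (nat_lit 836) (nat_lit 0) (XT.nd (nat_lit 78) (nat_lit 380) (nat_lit 0) (XT.lf (nat_lit 0) (nat_lit 3184212814)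 (nat_lit 456) (nat_lit 5001918723) (nat_lit 76) (nat_lit 2545306369) (nat_lit 177) (nat_lit 5) (nat_lit 183) (nat_lit 5) (nat_lit 178) (nat_lit 5) (nat_lit 605) (nat_lit 510) (nat_lit 445)) (XT.lf (nat_lit 0) (nat_lit 2777546352) (nat_lit 380) (nat_lit 4078392953) (nat_lit 456) (nat_lit 3989356033) (nat_lit 172) (nat_lit 5) (nat_lit 177) (nat_lit 5) (nat_lit 178) (nat_lit 5) (nat_lit 606) (nat_lit 510) (nat_lit 444))) (XT.nd (nat_lit 78) (nat_lit 836) (nat_lit 0) (XT.lf (nat_lit 0) (nat_lit 10600058090) (nat_lit 456) (nat_lit 236621248) (nat_lit 76) (nat_lit 124772651) (nat_lit 172) (nat_lit 5) (nat_lit 178) (nat_lit 5) (nat_lit 173) (nat_lit 5) (nat_lit 607) (nat_lit 510) (nat_lit 443)) (XT.nd (nat_lit 78) (nat_lit 380) (nat_lit 0) (XT.lf (nat_lit 0) (nat_lit 3338227398) (nat_lit 456) (nat_lit 3329228976) (nat_lit 76) (nat_lit 4411185117) (nat_lit 166) (nat_lit 5) (nat_lit 172) (nat_lit 5) (nat_lit 167) (nat_lit 5) (nat_lit 608) (nat_lit 510) (nat_lit 442)) (XT.lf (nat_lit 0) (nat_lit 4705196057) (nat_lit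 380) (nat_lit 2399205180) (nat_lit 456) (nat_lit 4093778944) (nat_lit 161) (nat_lit 5) (nat_lit 166) (nat_lit 5) (nat_lit 167) (nat_lit 5) (nat_lit 609) (nat_lit 510) (nat_lit 441)))))) (XT.nd (nat_lit 390) (nat_lit 1064) (nat_lit 0) (XT.nd (nat_lit 156) (nat_lit 1064) (nat_lit 0) (XT.nd (nat_lit 78) (nat_lit 76) (nat_lit 0) (XT.lf (nat_lit 0) (nat_lit 1579102230) (nat_lit 380) (nat_lit 9377678028) (nat_lit 456) (nat_lit 363112885) (nat_lit 156) (nat_lit 5) (nat_lit 161) (nat_lit 5) (nat_lit 162) (nat_lit 5) (nat_lit 610) (nat_lit 510) (nat_lit 440)) (XT.lf (nat_lit 0) (nat_lit 3422319363) (nat_lit 456) (nat_lit 1635696779) (nat_lit 76) (nat_lit 6385072383) (nat_lit 155) (nat_lit 5) (nat_lit 161) (nat_lit 5) (nat_lit 156) (nat_lit 5) (nat_lit 611) (nat_lit 510) (nat_lit 439))) (XT.nd (nat_lit 78) (nat_lit 760) (nat_lit 0) (XT.lf (nat_lit 0) (nat_lit 6662905101) (nat_lit 304) (nat_lit 625181965) (nat_lit 380) (nat_lit 4280424037) (nat_lit 151) (nat_lit 5) (nat_lit 155) (nat_lit 5) (nat_lit 156) (nat_lit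 5) (nat_lit 612) (nat_lit 510) (nat_lit 438)) (XT.nd (nat_lit 78) (nat_lit 380) (nat_lit 0) (XT.lf (nat_lit 0) (nat_lit 3419137141) (nat_lit 380) (nat_lit 7836991532) (nat_lit 456) (nat_lit 439815335) (nat_lit 146) (nat_lit 5) (nat_lit 151) (nat_lit 5) (nat_lit 152) (nat_lit 5) (nat_lit 613) (nat_lit 510) (nat_lit 437)) (XT.lf (nat_lit 0) (nat_lit 71752064) (nat_lit 304) (nat_lit 3364490563) (nat_lit 380) (nat_lit 8389147442) (nat_lit 141) (nat_lit 5) (nat_lit 145) (nat_lit 5) (nat_lit 146) (nat_lit 5) (nat_lit 614) (nat_lit 510) (nat_lit 436))))) (XT.nd (nat_lit 156) (nat_lit 684) (nat_lit 0) (XT.nd (nat_lit 78) (nat_lit 380) (nat_lit 0) (XT.lf (nat_lit 0) (nat_lit 7414303085) (nat_lit 380) (nat_lit 3321927991) (nat_lit 76) (nat_lit 1220529407) (nat_lit 141) (nat_lit 5) (nat_lit 146) (nat_lit 5) (nat_lit 142) (nat_lit 5) (nat_lit 615) (nat_lit 510) (nat_lit 435)) (XT.lf (nat_lit 0) (nat_lit 5272306559) (nat_lit 380) (nat_lit 6223464913) (nat_lit 456) (nat_lit 594510868) (nat_lit 136) (nat_lit 5) (nat_lit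 141) (nat_lit 5) (nat_lit 142) (nat_lit 5) (nat_lit 616) (nat_lit 510) (nat_lit 434))) (XT.nd (nat_lit 78) (nat_lit 304) (nat_lit 0) (XT.lf (nat_lit 0) (nat_lit 1805613621) (nat_lit 304) (nat_lit 1583344801) (nat_lit 380) (nat_lit 8837039828) (nat_lit 131) (nat_lit 5) (nat_lit 135) (nat_lit 5) (nat_lit 136) (nat_lit 5) (nat_lit 617) (nat_lit 510) (nat_lit 433)) (XT.nd (nat_lit 78) (nat_lit 304) (nat_lit 0) (XT.lf (nat_lit 0) (nat_lit 7478229946) (nat_lit 380) (nat_lit 1747334316) (nat_lit 76) (nat_lit 3138104664) (nat_lit 131) (nat_lit 5) (nat_lit 136) (nat_lit 5) (nat_lit 132) (nat_lit 5) (nat_lit 618) (nat_lit 510) (nat_lit 432)) (XT.lf (nat_lit 0) (nat_lit 7130020570) (nat_lit 304) (nat_lit 4544262095) (nat_lit 380) (nat_lit 829311331) (nat_lit 127) (nat_lit 5) (nat_lit 131) (nat_lit 5) (nat_lit 132) (nat_lit 5) (nat_lit 619) (nat_lit 510) (nat_lit 431))))))) (XT.nd (nat_lit 75426) (nat_lit 0) (nat_lit 31692) (XT.nd (nat_lit 75036) (nat_lit 0) (nat_lit 41572) (XT.nd (nat_lit 74802) (nat_lit 0) (nat_lit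 44688) (XT.nd (nat_lit 78) (nat_lit 0) (nat_lit 0) (XT.lf (nat_lit 0) (nat_lit 3269340840) (nat_lit 380) (nat_lit 9112492385) (nat_lit 76) (nat_lit 263959930) (nat_lit 122) (nat_lit 5) (nat_lit 127) (nat_lit 5) (nat_lit 123) (nat_lit 5) (nat_lit 620) (nat_lit 510) (nat_lit 430)) (XT.lf (nat_lit 0) (nat_lit 7473710626) (nat_lit 380) (nat_lit 187201312) (nat_lit 76) (nat_lit 5129118586) (nat_lit 122) (nat_lit 5) (nat_lit 127) (nat_lit 5) (nat_lit 123) (nat_lit 5) (nat_lit 621) (nat_lit 510) (nat_lit 429))) (XT.nd (nat_lit 78) (nat_lit 912) (nat_lit 0) (XT.lf (nat_lit 0) (nat_lit 204702929) (nat_lit 836) (nat_lit 2888916850) (nat_lit 0) (nat_lit 204702929) (nat_lit 722) (nat_lit 5) (nat_lit 733) (nat_lit 4) (nat_lit 722) (nat_lit 4) (nat_lit 538) (nat_lit 511) (nat_lit 511)) (XT.nd (nat_lit 78) (nat_lit 912) (nat_lit 0) (XT.lf (nat_lit 0) (nat_lit 3676732793) (nat_lit 836) (nat_lit 1639872579) (nat_lit 0) (nat_lit 1297675327) (nat_lit 722) (nat_lit 5) (nat_lit 733) (nat_lit 4) (nat_lit 722) (nat_lit 4) (nat_lit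 539) (nat_lit 511) (nat_lit 510)) (XT.lf (nat_lit 0) (nat_lit 314338570) (nat_lit 912) (nat_lit 4076502834) (nat_lit 76) (nat_lit 2242542800) (nat_lit 710) (nat_lit 5) (nat_lit 722) (nat_lit 5) (nat_lit 711) (nat_lit 4) (nat_lit 540) (nat_lit 511) (nat_lit 509))))) (XT.nd (nat_lit 156) (nat_lit 2128) (nat_lit 0) (XT.nd (nat_lit 78) (nat_lit 76) (nat_lit 0) (XT.lf (nat_lit 0) (nat_lit 133333695) (nat_lit 912) (nat_lit 3397100070) (nat_lit 988) (nat_lit 3123284863) (nat_lit 698) (nat_lit 5) (nat_lit 710) (nat_lit 5) (nat_lit 711) (nat_lit 4) (nat_lit 541) (nat_lit 511) (nat_lit 508)) (XT.lf (nat_lit 0) (nat_lit 89256731) (nat_lit 988) (nat_lit 2248998993) (nat_lit 76) (nat_lit 4337100226) (nat_lit 697) (nat_lit 5) (nat_lit 710) (nat_lit 5) (nat_lit 698) (nat_lit 5) (nat_lit 542) (nat_lit 511) (nat_lit 507))) (XT.nd (nat_lit 78) (nat_lit 1140) (nat_lit 0) (XT.lf (nat_lit 0) (nat_lit 2058595511) (nat_lit 988) (nat_lit 1207584548) (nat_lit 1064) (nat_lit 3432000895) (nat_lit 684) (nat_lit 5) (nat_lit 697) (nat_lit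 5) (nat_lit 698) (nat_lit 5) (nat_lit 543) (nat_lit 511) (nat_lit 506)) (XT.nd (nat_lit 78) (nat_lit 1140) (nat_lit 0) (XT.lf (nat_lit 0) (nat_lit 6427659034) (nat_lit 988) (nat_lit 23664463) (nat_lit 1064) (nat_lit 271252063) (nat_lit 684) (nat_lit 5) (nat_lit 697) (nat_lit 5) (nat_lit 698) (nat_lit 5) (nat_lit 544) (nat_lit 511) (nat_lit 505)) (XT.lf (nat_lit 0) (nat_lit 2879304535) (nat_lit 1140) (nat_lit 2639575457) (nat_lit 76) (nat_lit 1228894756) (nat_lit 669) (nat_lit 5) (nat_lit 684) (nat_lit 5) (nat_lit 670) (nat_lit 5) (nat_lit 545) (nat_lit 511) (nat_lit 504)))))) (XT.nd (nat_lit 390) (nat_lit 6080) (nat_lit 0) (XT.nd (nat_lit 156) (nat_lit 2584) (nat_lit 0) (XT.nd (nat_lit 78) (nat_lit 76) (nat_lit 0) (XT.lf (nat_lit 0) (nat_lit 1795396699) (nat_lit 1140) (nat_lit 4239256835) (nat_lit 1216) (nat_lit 739886607) (nat_lit 654) (nat_lit 5) (nat_lit 669) (nat_lit 5) (nat_lit 670) (nat_lit 5) (nat_lit 546) (nat_lit 511) (nat_lit 503)) (XT.lf (nat_lit 0) (nat_lit 2369080759) (nat_lit 1216) (nat_lit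 519330354) (nat_lit 76) (nat_lit 3914118302) (nat_lit 653) (nat_lit 5) (nat_lit 669) (nat_lit 5) (nat_lit 654) (nat_lit 5) (nat_lit 547) (nat_lit 511) (nat_lit 502))) (XT.nd (nat_lit 78) (nat_lit 1368) (nat_lit 0) (XT.lf (nat_lit 0) (nat_lit 4021979395) (nat_lit 1216) (nat_lit 1467925058) (nat_lit 1292) (nat_lit 1341890509) (nat_lit 637) (nat_lit 5) (nat_lit 653) (nat_lit 5) (nat_lit 654) (nat_lit 5) (nat_lit 548) (nat_lit 511) (nat_lit 501)) (XT.nd (nat_lit 78) (nat_lit 0) (nat_lit 0) (XT.lf (nat_lit 0) (nat_lit 1736727064) (nat_lit 1368) (nat_lit 5107815096) (nat_lit 76) (nat_lit 17894450) (nat_lit 619) (nat_lit 5) (nat_lit 637) (nat_lit 5) (nat_lit 620) (nat_lit 5) (nat_lit 549) (nat_lit 511) (nat_lit 500)) (XT.lf (nat_lit 0) (nat_lit 4822629272) (nat_lit 1368) (nat_lit 520678079) (nat_lit 76) (nat_lit 1550938374) (nat_lit 619) (nat_lit 5) (nat_lit 637) (nat_lit 5) (nat_lit 620) (nat_lit 5) (nat_lit 550) (nat_lit 511) (nat_lit 499))))) (XT.nd (nat_lit 156) (nat_lit 3192) (nat_lit 0) (XT.nd (nat_lit 78)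 (nat_lit 1444) (nat_lit 0) (XT.lf (nat_lit 0) (nat_lit 992848658) (nat_lit 1444) (nat_lit 2777192811) (nat_lit 76) (nat_lit 3157259926) (nat_lit 600) (nat_lit 5) (nat_lit 619) (nat_lit 5) (nat_lit 601) (nat_lit 5) (nat_lit 551) (nat_lit 511) (nat_lit 498)) (XT.lf (nat_lit 0) (nat_lit 1915372864) (nat_lit 1444) (nat_lit 2128174986) (nat_lit 1520) (nat_lit 2918148098) (nat_lit 581) (nat_lit 5) (nat_lit 600) (nat_lit 5) (nat_lit 601) (nat_lit 5) (nat_lit 552) (nat_lit 511) (nat_lit 497))) (XT.nd (nat_lit 78) (nat_lit 3116) (nat_lit 0) (XT.lf (nat_lit 0) (nat_lit 112327348) (nat_lit 1520) (nat_lit 315017323) (nat_lit 76) (nat_lit 6570299779) (nat_lit 580) (nat_lit 5) (nat_lit 600) (nat_lit 5) (nat_lit 581) (nat_lit 5) (nat_lit 553) (nat_lit 511) (nat_lit 496)) (XT.nd (nat_lit 78) (nat_lit 1596) (nat_lit 0) (XT.lf (nat_lit 0) (nat_lit 3140801514) (nat_lit 1596) (nat_lit 2548667560) (nat_lit 76) (nat_lit 1344932809) (nat_lit 560) (nat_lit 5) (nat_lit 581) (nat_lit 5) (nat_lit 561) (nat_lit 5) (nat_lit 554) (nat_lit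 511) (nat_lit 495)) (XT.lf (nat_lit 0) (nat_lit 2285381168) (nat_lit 1596) (nat_lit 3903538579) (nat_lit 1672) (nat_lit 883798131) (nat_lit 539) (nat_lit 5) (nat_lit 560) (nat_lit 5) (nat_lit 561) (nat_lit 5) (nat_lit 555) (nat_lit 511) (nat_lit 494))))))))
noncomputable def xc45 : XT := (XT.nd (nat_lit 1560) (nat_lit 9272) (nat_lit 0) (XT.nd (nat_lit 780) (nat_lit 5776) (nat_lit 0) (XT.nd (nat_lit 390) (nat_lit 3876) (nat_lit 0) (XT.nd (nat_lit 156) (nat_lit 3648) (nat_lit 0) (XT.nd (nat_lit 78) (nat_lit 0) (nat_lit 0) (XT.lf (nat_lit 0) (nat_lit 68693887) (nat_lit 1672) (nat_lit 2046198080) (nat_lit 1748) (nat_lit 4997481771) (nat_lit 516) (nat_lit 5) (nat_lit 538) (nat_lit 5) (nat_lit 539) (nat_lit 5) (nat_lit 556) (nat_lit 511) (nat_lit 493)) (XT.lf (nat_lit 0) (nat_lit 5024083500) (nat_lit 1672) (nat_lit 110252490) (nat_lit 1748) (nat_lit 2018922226) (nat_lit 516) (nat_lit 5) (nat_lit 538) (nat_lit 5) (nat_lit 539) (nat_lit 5) (nat_lit 557) (nat_lit 511) (nat_lit 492))) (XT.nd (nat_lit 78) (nat_lit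 1824) (nat_lit 0) (XT.lf (nat_lit 0) (nat_lit 977976492) (nat_lit 1824) (nat_lit 4349831578) (nat_lit 76) (nat_lit 1867581710) (nat_lit 492) (nat_lit 5) (nat_lit 516) (nat_lit 5) (nat_lit 493) (nat_lit 5) (nat_lit 558) (nat_lit 511) (nat_lit 491)) (XT.nd (nat_lit 78) (nat_lit 0) (nat_lit 0) (XT.lf (nat_lit 0) (nat_lit 647667343) (nat_lit 1824) (nat_lit 3321546916) (nat_lit 1900) (nat_lit 3269658479) (nat_lit 468) (nat_lit 5) (nat_lit 492) (nat_lit 5) (nat_lit 493) (nat_lit 5) (nat_lit 559) (nat_lit 511) (nat_lit 490)) (XT.lf (nat_lit 0) (nat_lit 5747254775) (nat_lit 1824) (nat_lit 1245069619) (nat_lit 1900) (nat_lit 291464281) (nat_lit 468) (nat_lit 5) (nat_lit 492) (nat_lit 5) (nat_lit 493) (nat_lit 5) (nat_lit 560) (nat_lit 511) (nat_lit 489))))) (XT.nd (nat_lit 156) (nat_lit 1824) (nat_lit 0) (XT.nd (nat_lit 78) (nat_lit 912) (nat_lit 0) (XT.lf (nat_lit 0) (nat_lit 2683140647) (nat_lit 1140) (nat_lit 3743805060) (nat_lit 76) (nat_lit 902847412) (nat_lit 453) (nat_lit 5) (nat_lit 468) (nat_lit 5) (nat_lit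 454) (nat_lit 5) (nat_lit 561) (nat_lit 511) (nat_lit 488)) (XT.lf (nat_lit 0) (nat_lit 1406269848) (nat_lit 912) (nat_lit 4279165973) (nat_lit 988) (nat_lit 1691805308) (nat_lit 441) (nat_lit 5) (nat_lit 453) (nat_lit 5) (nat_lit 454) (nat_lit 5) (nat_lit 562) (nat_lit 511) (nat_lit 487))) (XT.nd (nat_lit 78) (nat_lit 1748) (nat_lit 0) (XT.lf (nat_lit 0) (nat_lit 1274784674) (nat_lit 988) (nat_lit 781360936) (nat_lit 76) (nat_lit 5369924953) (nat_lit 440) (nat_lit 5) (nat_lit 453) (nat_lit 5) (nat_lit 441) (nat_lit 5) (nat_lit 563) (nat_lit 511) (nat_lit 486)) (XT.nd (nat_lit 78) (nat_lit 836) (nat_lit 0) (XT.lf (nat_lit 0) (nat_lit 4254720420) (nat_lit 988) (nat_lit 2974320549) (nat_lit 76) (nat_lit 247082408) (nat_lit 428) (nat_lit 5) (nat_lit 441) (nat_lit 5) (nat_lit 429) (nat_lit 5) (nat_lit 564) (nat_lit 511) (nat_lit 485)) (XT.lf (nat_lit 0) (nat_lit 2333981374) (nat_lit 836) (nat_lit 4940785777) (nat_lit 912) (nat_lit 252803568) (nat_lit 417) (nat_lit 5) (nat_lit 428) (nat_lit 5) (nat_lit 429)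 (nat_lit 5) (nat_lit 565) (nat_lit 511) (nat_lit 484)))))) (XT.nd (nat_lit 390) (nat_lit 3116) (nat_lit 0) (XT.nd (nat_lit 156) (nat_lit 1748) (nat_lit 0) (XT.nd (nat_lit 78) (nat_lit 0) (nat_lit 0) (XT.lf (nat_lit 0) (nat_lit 135281513) (nat_lit 836) (nat_lit 2571250473) (nat_lit 912) (nat_lit 4873803011) (nat_lit 405) (nat_lit 5) (nat_lit 416) (nat_lit 5) (nat_lit 417) (nat_lit 5) (nat_lit 566) (nat_lit 511) (nat_lit 483)) (XT.lf (nat_lit 0) (nat_lit 5582350325) (nat_lit 836) (nat_lit 121626669) (nat_lit 912) (nat_lit 1930501493) (nat_lit 405) (nat_lit 5) (nat_lit 416) (nat_lit 5) (nat_lit 417) (nat_lit 5) (nat_lit 567) (nat_lit 511) (nat_lit 482))) (XT.nd (nat_lit 78) (nat_lit 836) (nat_lit 0) (XT.lf (nat_lit 0) (nat_lit 1043625863) (nat_lit 912) (nat_lit 4275729543) (nat_lit 76) (nat_lit 2370493350) (nat_lit 393) (nat_lit 5) (nat_lit 405) (nat_lit 5) (nat_lit 394) (nat_lit 5) (nat_lit 568) (nat_lit 511) (nat_lit 481)) (XT.nd (nat_lit 78) (nat_lit 0) (nat_lit 0) (XT.lf (nat_lit 0) (nat_lit 1216452027)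 (nat_lit 836) (nat_lit 2806291810) (nat_lit 912) (nat_lit 3723903536) (nat_lit 382) (nat_lit 5) (nat_lit 393) (nat_lit 5) (nat_lit 394) (nat_lit 5) (nat_lit 569) (nat_lit 511) (nat_lit 480)) (XT.lf (nat_lit 0) (nat_lit 6819534528) (nat_lit 836) (nat_lit 220004924) (nat_lit 912) (nat_lit 765483839) (nat_lit 382) (nat_lit 5) (nat_lit 393) (nat_lit 5) (nat_lit 394) (nat_lit 5) (nat_lit 570) (nat_lit 511) (nat_lit 479))))) (XT.nd (nat_lit 156) (nat_lit 1520) (nat_lit 0) (XT.nd (nat_lit 78) (nat_lit 760) (nat_lit 0) (XT.lf (nat_lit 0) (nat_lit 2218841887) (nat_lit 836) (nat_lit 3220468996) (nat_lit 76) (nat_lit 2425041023) (nat_lit 371) (nat_lit 5) (nat_lit 382) (nat_lit 5) (nat_lit 372) (nat_lit 5) (nat_lit 571) (nat_lit 511) (nat_lit 478)) (XT.lf (nat_lit 0) (nat_lit 2442908145) (nat_lit 760) (nat_lit 2784315141) (nat_lit 836) (nat_lit 2698053283) (nat_lit 361) (nat_lit 5) (nat_lit 371) (nat_lit 5) (nat_lit 372) (nat_lit 5) (nat_lit 572) (nat_lit 511) (nat_lit 477))) (XT.nd (nat_lit 78) (nat_lit 760) (nat_lit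 0) (XT.lf (nat_lit 0) (nat_lit 219648486) (nat_lit 684) (nat_lit 58748993) (nat_lit 760) (nat_lit 7709503356) (nat_lit 351) (nat_lit 5) (nat_lit 360) (nat_lit 5) (nat_lit 361) (nat_lit 5) (nat_lit 573) (nat_lit 511) (nat_lit 476)) (XT.nd (nat_lit 78) (nat_lit 760) (nat_lit 0) (XT.lf (nat_lit 0) (nat_lit 3284432916) (nat_lit 760) (nat_lit 2034649127) (nat_lit 76) (nat_lit 2732218083) (nat_lit 351) (nat_lit 5) (nat_lit 361) (nat_lit 5) (nat_lit 352) (nat_lit 5) (nat_lit 574) (nat_lit 511) (nat_lit 475)) (XT.lf (nat_lit 0) (nat_lit 3806445781) (nat_lit 760) (nat_lit 2521645272) (nat_lit 836) (nat_lit 1788329129) (nat_lit 341) (nat_lit 5) (nat_lit 351) (nat_lit 5) (nat_lit 352) (nat_lit 5) (nat_lit 575) (nat_lit 511) (nat_lit 474))))))) (XT.nd (nat_lit 780) (nat_lit 4484) (nat_lit 0) (XT.nd (nat_lit 390) (nat_lit 1976) (nat_lit 0) (XT.nd (nat_lit 156) (nat_lit 2052) (nat_lit 0) (XT.nd (nat_lit 78) (nat_lit 0) (nat_lit 0) (XT.lf (nat_lit 0) (nat_lit 1212247527) (nat_lit 760) (nat_lit 6620737767) (nat_lit 76)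 (nat_lit 350120585) (nat_lit 331) (nat_lit 5) (nat_lit 341) (nat_lit 5) (nat_lit 332) (nat_lit 5) (nat_lit 576) (nat_lit 511) (nat_lit 473)) (XT.lf (nat_lit 0) (nat_lit 4247875268) (nat_lit 760) (nat_lit 726173174) (nat_lit 76) (nat_lit 3276863382) (nat_lit 331) (nat_lit 5) (nat_lit 341) (nat_lit 5) (nat_lit 332) (nat_lit 5) (nat_lit 577) (nat_lit 511) (nat_lit 472))) (XT.nd (nat_lit 78) (nat_lit 1368) (nat_lit 0) (XT.lf (nat_lit 0) (nat_lit 5299440506) (nat_lit 684) (nat_lit 2033250699) (nat_lit 760) (nat_lit 987615772) (nat_lit 322) (nat_lit 5) (nat_lit 331) (nat_lit 5) (nat_lit 332) (nat_lit 5) (nat_lit 578) (nat_lit 511) (nat_lit 471)) (XT.nd (nat_lit 78) (nat_lit 684) (nat_lit 0) (XT.lf (nat_lit 0) (nat_lit 2046090214) (nat_lit 684) (nat_lit 5363664419) (nat_lit 76) (nat_lit 981359499) (nat_lit 313) (nat_lit 5) (nat_lit 322) (nat_lit 5) (nat_lit 314) (nat_lit 5) (nat_lit 579) (nat_lit 511) (nat_lit 470)) (XT.lf (nat_lit 0) (nat_lit 706832883) (nat_lit 684) (nat_lit 4413647509) (nat_lit 760) (nat_lit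 3342864243) (nat_lit 304) (nat_lit 5) (nat_lit 313) (nat_lit 5) (nat_lit 314) (nat_lit 5) (nat_lit 580) (nat_lit 511) (nat_lit 469))))) (XT.nd (nat_lit 156) (nat_lit 1292) (nat_lit 0) (XT.nd (nat_lit 78) (nat_lit 684) (nat_lit 0) (XT.lf (nat_lit 0) (nat_lit 6914775083) (nat_lit 684) (nat_lit 1332856952) (nat_lit 760) (nat_lit 289564645) (nat_lit 304) (nat_lit 5) (nat_lit 313) (nat_lit 5) (nat_lit 314) (nat_lit 5) (nat_lit 581) (nat_lit 511) (nat_lit 468)) (XT.lf (nat_lit 0) (nat_lit 2785608012) (nat_lit 684) (nat_lit 4003975461) (nat_lit 76) (nat_lit 1822620698) (nat_lit 295) (nat_lit 5) (nat_lit 304) (nat_lit 5) (nat_lit 296) (nat_lit 5) (nat_lit 582) (nat_lit 511) (nat_lit 467))) (XT.nd (nat_lit 78) (nat_lit 684) (nat_lit 0) (XT.lf (nat_lit 0) (nat_lit 2259228666) (nat_lit 608) (nat_lit 3649925691) (nat_lit 684) (nat_lit 2779706490) (nat_lit 287) (nat_lit 5) (nat_lit 295) (nat_lit 5) (nat_lit 296) (nat_lit 5) (nat_lit 583) (nat_lit 511) (nat_lit 466)) (XT.nd (nat_lit 78) (nat_lit 608) (nat_lit 0) (XT.lf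 (nat_lit 0) (nat_lit 307357284) (nat_lit 684) (nat_lit 123633160) (nat_lit 76) (nat_lit 8336348989) (nat_lit 286) (nat_lit 5) (nat_lit 295) (nat_lit 5) (nat_lit 287) (nat_lit 5) (nat_lit 584) (nat_lit 511) (nat_lit 465)) (XT.lf (nat_lit 0) (nat_lit 3436166937) (nat_lit 684) (nat_lit 2548623322) (nat_lit 76) (nat_lit 2861887493) (nat_lit 278) (nat_lit 5) (nat_lit 287) (nat_lit 5) (nat_lit 279) (nat_lit 5) (nat_lit 585) (nat_lit 511) (nat_lit 464)))))) (XT.nd (nat_lit 390) (nat_lit 2128) (nat_lit 0) (XT.nd (nat_lit 156) (nat_lit 1140) (nat_lit 0) (XT.nd (nat_lit 78) (nat_lit 608) (nat_lit 0) (XT.lf (nat_lit 0) (nat_lit 3914683322) (nat_lit 608) (nat_lit 2699713652) (nat_lit 684) (nat_lit 2313471073) (nat_lit 270) (nat_lit 5) (nat_lit 278) (nat_lit 5) (nat_lit 279) (nat_lit 5) (nat_lit 586) (nat_lit 511) (nat_lit 463)) (XT.lf (nat_lit 0) (nat_lit 823580554) (nat_lit 608) (nat_lit 7526093389) (nat_lit 76) (nat_lit 661117223) (nat_lit 262) (nat_lit 5) (nat_lit 270) (nat_lit 5) (nat_lit 263) (nat_lit 5) (nat_lit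 587) (nat_lit 511) (nat_lit 462))) (XT.nd (nat_lit 78) (nat_lit 1140) (nat_lit 0) (XT.lf (nat_lit 0) (nat_lit 4002463363) (nat_lit 608) (nat_lit 1004257490) (nat_lit 76) (nat_lit 4088146676) (nat_lit 262) (nat_lit 5) (nat_lit 270) (nat_lit 5) (nat_lit 263) (nat_lit 5) (nat_lit 588) (nat_lit 511) (nat_lit 461)) (XT.nd (nat_lit 78) (nat_lit 608) (nat_lit 0) (XT.lf (nat_lit 0) (nat_lit 5666818980) (nat_lit 532) (nat_lit 1574011097) (nat_lit 608) (nat_lit 1939879151) (nat_lit 255) (nat_lit 5) (nat_lit 262) (nat_lit 5) (nat_lit 263) (nat_lit 5) (nat_lit 589) (nat_lit 511) (nat_lit 460)) (XT.lf (nat_lit 0) (nat_lit 1258431968) (nat_lit 608) (nat_lit 6086347990) (nat_lit 76) (nat_lit 1923334677) (nat_lit 247) (nat_lit 5) (nat_lit 255) (nat_lit 5) (nat_lit 248) (nat_lit 5) (nat_lit 590) (nat_lit 511) (nat_lit 459))))) (XT.nd (nat_lit 234) (nat_lit 1064) (nat_lit 0) (XT.nd (nat_lit 78) (nat_lit 532) (nat_lit 0) (XT.lf (nat_lit 0) (nat_lit 630982036) (nat_lit 532) (nat_lit 3861662170) (nat_lit 608) (nat_lit 4864411117)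 (nat_lit 240) (nat_lit 5) (nat_lit 247) (nat_lit 5) (nat_lit 248) (nat_lit 5) (nat_lit 591) (nat_lit 511) (nat_lit 458)) (XT.nd (nat_lit 78) (nat_lit 532) (nat_lit 0) (XT.lf (nat_lit 0) (nat_lit 7509491098) (nat_lit 532) (nat_lit 282951055) (nat_lit 608) (nat_lit 1655316429) (nat_lit 240) (nat_lit 5) (nat_lit 247) (nat_lit 5) (nat_lit 248) (nat_lit 5) (nat_lit 592) (nat_lit 511) (nat_lit 457)) (XT.lf (nat_lit 0) (nat_lit 1611732688) (nat_lit 532) (nat_lit 4577187659) (nat_lit 76) (nat_lit 3350847332) (nat_lit 233) (nat_lit 5) (nat_lit 240) (nat_lit 5) (nat_lit 234) (nat_lit 5) (nat_lit 593) (nat_lit 511) (nat_lit 456)))) (XT.nd (nat_lit 78) (nat_lit 532) (nat_lit 0) (XT.lf (nat_lit 0) (nat_lit 2356929967) (nat_lit 532) (nat_lit 2556214674) (nat_lit 608) (nat_lit 4720431438) (nat_lit 226) (nat_lit 5) (nat_lit 233) (nat_lit 5) (nat_lit 234) (nat_lit 5) (nat_lit 594) (nat_lit 511) (nat_lit 455)) (XT.nd (nat_lit 78) (nat_lit 532) (nat_lit 0) (XT.lf (nat_lit 0) (nat_lit 8280163932) (nat_lit 608) (nat_lit 300261162)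 (nat_lit 76) (nat_lit 1148845620) (nat_lit 226) (nat_lit 5) (nat_lit 234) (nat_lit 5) (nat_lit 227) (nat_lit 5) (nat_lit 595) (nat_lit 511) (nat_lit 454)) (XT.lf (nat_lit 0) (nat_lit 1886297719) (nat_lit 532) (nat_lit 3005109912) (nat_lit 76) (nat_lit 4934759879) (nat_lit 219) (nat_lit 5) (nat_lit 226) (nat_lit 5) (nat_lit 220) (nat_lit 5) (nat_lit 596) (nat_lit 511) (nat_lit 453))))))))
noncomputable def xc46 : XT := (XT.nd (nat_lit 1560) (nat_lit 1064) (nat_lit 0) (XT.nd (nat_lit 780) (nat_lit 3116) (nat_lit 0) (XT.nd (nat_lit 390) (nat_lit 1368) (nat_lit 0) (XT.nd (nat_lit 156) (nat_lit 912) (nat_lit 0) (XT.nd (nat_lit 78) (nat_lit 456) (nat_lit 0) (XT.lf (nat_lit 0) (nat_lit 4154002889) (nat_lit 456) (nat_lit 1106123572) (nat_lit 532) (nat_lit 4664863370) (nat_lit 213) (nat_lit 5) (nat_lit 219) (nat_lit 5) (nat_lit 220) (nat_lit 5) (nat_lit 597) (nat_lit 511) (nat_lit 452)) (XT.lf (nat_lit 0) (nat_lit 1417154050) (nat_lit 456) (nat_lit 7294047395) (nat_lit 532) (nat_lit 1314393285) (nat_lit 207) (nat_lit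 5) (nat_lit 213) (nat_lit 5) (nat_lit 214) (nat_lit 5) (nat_lit 598) (nat_lit 511) (nat_lit 451))) (XT.nd (nat_lit 78) (nat_lit 836) (nat_lit 0) (XT.lf (nat_lit 0) (nat_lit 2084329116) (nat_lit 532) (nat_lit 1376585799) (nat_lit 76) (nat_lit 6666848680) (nat_lit 206) (nat_lit 5) (nat_lit 213) (nat_lit 5) (nat_lit 207) (nat_lit 5) (nat_lit 599) (nat_lit 511) (nat_lit 450)) (XT.nd (nat_lit 78) (nat_lit 380) (nat_lit 0) (XT.lf (nat_lit 0) (nat_lit 5538872543) (nat_lit 532) (nat_lit 4218887583) (nat_lit 76) (nat_lit 473934460) (nat_lit 200) (nat_lit 5) (nat_lit 207) (nat_lit 5) (nat_lit 201) (nat_lit 5) (nat_lit 600) (nat_lit 511) (nat_lit 449)) (XT.lf (nat_lit 0) (nat_lit 3195683979) (nat_lit 380) (nat_lit 5883300847) (nat_lit 456) (nat_lit 1258391219) (nat_lit 195) (nat_lit 5) (nat_lit 200) (nat_lit 5) (nat_lit 201) (nat_lit 5) (nat_lit 601) (nat_lit 511) (nat_lit 448))))) (XT.nd (nat_lit 156) (nat_lit 836) (nat_lit 0) (XT.nd (nat_lit 78) (nat_lit 0) (nat_lit 0) (XT.lf (nat_lit 0) (nat_lit 305878135) (nat_lit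 456) (nat_lit 1903529371) (nat_lit 532) (nat_lit 8235591110) (nat_lit 188) (nat_lit 5) (nat_lit 194) (nat_lit 5) (nat_lit 195) (nat_lit 5) (nat_lit 602) (nat_lit 511) (nat_lit 447)) (XT.lf (nat_lit 0) (nat_lit 5755845744) (nat_lit 532) (nat_lit 2632003122) (nat_lit 76) (nat_lit 2166237074) (nat_lit 188) (nat_lit 5) (nat_lit 195) (nat_lit 5) (nat_lit 189) (nat_lit 5) (nat_lit 603) (nat_lit 511) (nat_lit 446))) (XT.nd (nat_lit 78) (nat_lit 456) (nat_lit 0) (XT.lf (nat_lit 0) (nat_lit 5024879089) (nat_lit 380) (nat_lit 4358151544) (nat_lit 456) (nat_lit 1282129321) (nat_lit 183) (nat_lit 5) (nat_lit 188) (nat_lit 5) (nat_lit 189) (nat_lit 5) (nat_lit 604) (nat_lit 511) (nat_lit 445)) (XT.nd (nat_lit 78) (nat_lit 0) (nat_lit 0) (XT.lf (nat_lit 0) (nat_lit 2050498082) (nat_lit 380) (nat_lit 219378209) (nat_lit 456) (nat_lit 8508365309) (nat_lit 177) (nat_lit 5) (nat_lit 182) (nat_lit 5) (nat_lit 183) (nat_lit 5) (nat_lit 605) (nat_lit 511) (nat_lit 444)) (XT.lf (nat_lit 0) (nat_lit 5904781770) (nat_lit 456)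 (nat_lit 1010023283) (nat_lit 76) (nat_lit 3978031005) (nat_lit 177) (nat_lit 5) (nat_lit 183) (nat_lit 5) (nat_lit 178) (nat_lit 5) (nat_lit 606) (nat_lit 511) (nat_lit 443)))))) (XT.nd (nat_lit 390) (nat_lit 1444) (nat_lit 0) (XT.nd (nat_lit 156) (nat_lit 836) (nat_lit 0) (XT.nd (nat_lit 78) (nat_lit 456) (nat_lit 0) (XT.lf (nat_lit 0) (nat_lit 6898110476) (nat_lit 380) (nat_lit 2726129298) (nat_lit 456) (nat_lit 1385246747) (nat_lit 172) (nat_lit 5) (nat_lit 177) (nat_lit 5) (nat_lit 178) (nat_lit 5) (nat_lit 607) (nat_lit 511) (nat_lit 442)) (XT.lf (nat_lit 0) (nat_lit 2267237658) (nat_lit 456) (nat_lit 7306406874) (nat_lit 76) (nat_lit 1554376312) (nat_lit 166) (nat_lit 5) (nat_lit 172) (nat_lit 5) (nat_lit 167) (nat_lit 5) (nat_lit 608) (nat_lit 511) (nat_lit 441))) (XT.nd (nat_lit 78) (nat_lit 456) (nat_lit 0) (XT.lf (nat_lit 0) (nat_lit 648439070) (nat_lit 380) (nat_lit 5341766173) (nat_lit 456) (nat_lit 5258218977) (nat_lit 161) (nat_lit 5) (nat_lit 166) (nat_lit 5) (nat_lit 167) (nat_lit 5) (nat_lit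 609) (nat_lit 511) (nat_lit 440)) (XT.nd (nat_lit 78) (nat_lit 456) (nat_lit 0) (XT.lf (nat_lit 0) (nat_lit 8808497235) (nat_lit 380) (nat_lit 994417689) (nat_lit 456) (nat_lit 1568016194) (nat_lit 161) (nat_lit 5) (nat_lit 166) (nat_lit 5) (nat_lit 167) (nat_lit 5) (nat_lit 610) (nat_lit 511) (nat_lit 439)) (XT.lf (nat_lit 0) (nat_lit 2193071777) (nat_lit 456) (nat_lit 5874792421) (nat_lit 76) (nat_lit 3427222229) (nat_lit 155) (nat_lit 5) (nat_lit 161) (nat_lit 5) (nat_lit 156) (nat_lit 5) (nat_lit 611) (nat_lit 511) (nat_lit 438))))) (XT.nd (nat_lit 156) (nat_lit 1140) (nat_lit 0) (XT.nd (nat_lit 78) (nat_lit 0) (nat_lit 0) (XT.lf (nat_lit 0) (nat_lit 2341126510) (nat_lit 304) (nat_lit 3673260350) (nat_lit 380) (nat_lit 5607011714) (nat_lit 151) (nat_lit 5) (nat_lit 155) (nat_lit 5) (nat_lit 156) (nat_lit 5) (nat_lit 612) (nat_lit 511) (nat_lit 437)) (XT.lf (nat_lit 0) (nat_lit 9924137688) (nat_lit 380) (nat_lit 1006675363) (nat_lit 76) (nat_lit 819184752) (nat_lit 151) (nat_lit 5) (nat_lit 156) (nat_lit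 5) (nat_lit 152) (nat_lit 5) (nat_lit 613) (nat_lit 511) (nat_lit 436))) (XT.nd (nat_lit 78) (nat_lit 684) (nat_lit 0) (XT.lf (nat_lit 0) (nat_lit 2044986043) (nat_lit 456) (nat_lit 4439661798) (nat_lit 76) (nat_lit 5395444294) (nat_lit 145) (nat_lit 5) (nat_lit 151) (nat_lit 5) (nat_lit 146) (nat_lit 5) (nat_lit 614) (nat_lit 511) (nat_lit 435)) (XT.nd (nat_lit 78) (nat_lit 380) (nat_lit 0) (XT.lf (nat_lit 0) (nat_lit 4046641361) (nat_lit 304) (nat_lit 1923059774) (nat_lit 380) (nat_lit 6042828801) (nat_lit 141) (nat_lit 5) (nat_lit 145) (nat_lit 5) (nat_lit 146) (nat_lit 5) (nat_lit 615) (nat_lit 511) (nat_lit 434)) (XT.lf (nat_lit 0) (nat_lit 553228924) (nat_lit 380) (nat_lit 9438961241) (nat_lit 456) (nat_lit 2155041684) (nat_lit 136) (nat_lit 5) (nat_lit 141) (nat_lit 5) (nat_lit 142) (nat_lit 5) (nat_lit 616) (nat_lit 511) (nat_lit 433))))))) (XT.nd (nat_lit 75270) (nat_lit 0) (nat_lit 36328) (XT.nd (nat_lit 74880) (nat_lit 0) (nat_lit 44688) (XT.nd (nat_lit 156) (nat_lit 684) (nat_lit 0) (XT.nd (nat_lit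 78) (nat_lit 304) (nat_lit 0) (XT.lf (nat_lit 0) (nat_lit 1821357352) (nat_lit 456) (nat_lit 3009715200) (nat_lit 76) (nat_lit 7452629035) (nat_lit 135) (nat_lit 5) (nat_lit 141) (nat_lit 5) (nat_lit 136) (nat_lit 5) (nat_lit 617) (nat_lit 511) (nat_lit 432)) (XT.lf (nat_lit 0) (nat_lit 5756483287) (nat_lit 304) (nat_lit 98029720) (nat_lit 380) (nat_lit 6567982019) (nat_lit 131) (nat_lit 5) (nat_lit 135) (nat_lit 5) (nat_lit 136) (nat_lit 5) (nat_lit 618) (nat_lit 511) (nat_lit 431))) (XT.nd (nat_lit 78) (nat_lit 380) (nat_lit 0) (XT.lf (nat_lit 0) (nat_lit 2120958622) (nat_lit 304) (nat_lit 7881022935) (nat_lit 380) (nat_lit 2561410653) (nat_lit 127) (nat_lit 5) (nat_lit 131) (nat_lit 5) (nat_lit 132) (nat_lit 5) (nat_lit 619) (nat_lit 511) (nat_lit 430)) (XT.nd (nat_lit 78) (nat_lit 304) (nat_lit 0) (XT.lf (nat_lit 0) (nat_lit 1519881614) (nat_lit 380) (nat_lit 1594269796) (nat_lit 76) (nat_lit 9592466831) (nat_lit 126) (nat_lit 5) (nat_lit 131) (nat_lit 5) (nat_lit 127) (nat_lit 5) (nat_lit 620) (nat_lit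 511) (nat_lit 429)) (XT.lf (nat_lit 0) (nat_lit 5678159638) (nat_lit 380) (nat_lit 5402143641) (nat_lit 76) (nat_lit 1771474573) (nat_lit 122) (nat_lit 5) (nat_lit 127) (nat_lit 5) (nat_lit 123) (nat_lit 5) (nat_lit 621) (nat_lit 511) (nat_lit 428))))) (XT.nd (nat_lit 156) (nat_lit 1748) (nat_lit 0) (XT.nd (nat_lit 78) (nat_lit 684) (nat_lit 0) (XT.lf (nat_lit 0) (nat_lit 1450846309) (nat_lit 684) (nat_lit 380348614) (nat_lit 0) (nat_lit 1450846309) (nat_lit 742) (nat_lit 5) (nat_lit 751) (nat_lit 4) (nat_lit 742) (nat_lit 4) (nat_lit 536) (nat_lit 512) (nat_lit 512)) (XT.lf (nat_lit 0) (nat_lit 3292522182) (nat_lit 684) (nat_lit 2881315997) (nat_lit 684) (nat_lit 406144609) (nat_lit 733) (nat_lit 4) (nat_lit 742) (nat_lit 5) (nat_lit 742) (nat_lit 4) (nat_lit 537) (nat_lit 512) (nat_lit 511))) (XT.nd (nat_lit 78) (nat_lit 912) (nat_lit 0) (XT.lf (nat_lit 0) (nat_lit 778111591) (nat_lit 760) (nat_lit 2033730782) (nat_lit 836) (nat_lit 3785290918) (nat_lit 722) (nat_lit 5) (nat_lit 732) (nat_lit 5) (nat_lit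 733) (nat_lit 4) (nat_lit 538) (nat_lit 512) (nat_lit 510)) (XT.nd (nat_lit 78) (nat_lit 912) (nat_lit 0) (XT.lf (nat_lit 0) (nat_lit 4913037932) (nat_lit 760) (nat_lit 1123548900) (nat_lit 836) (nat_lit 579037143) (nat_lit 722) (nat_lit 5) (nat_lit 732) (nat_lit 5) (nat_lit 733) (nat_lit 4) (nat_lit 539) (nat_lit 512) (nat_lit 509)) (XT.lf (nat_lit 0) (nat_lit 2457210960) (nat_lit 836) (nat_lit 141541157) (nat_lit 912) (nat_lit 4036536009) (nat_lit 710) (nat_lit 5) (nat_lit 721) (nat_lit 5) (nat_lit 722) (nat_lit 5) (nat_lit 540) (nat_lit 512) (nat_lit 508)))))) (XT.nd (nat_lit 390) (nat_lit 5244) (nat_lit 0) (XT.nd (nat_lit 156) (nat_lit 2128) (nat_lit 0) (XT.nd (nat_lit 78) (nat_lit 76) (nat_lit 0) (XT.lf (nat_lit 0) (nat_lit 3781721) (nat_lit 912) (nat_lit 5773644930) (nat_lit 988) (nat_lit 878947852) (nat_lit 698) (nat_lit 5) (nat_lit 710) (nat_lit 5) (nat_lit 711) (nat_lit 4) (nat_lit 541) (nat_lit 512) (nat_lit 507)) (XT.lf (nat_lit 0) (nat_lit 2268786000) (nat_lit 988) (nat_lit 2423270644) (nat_lit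 76) (nat_lit 1986374602) (nat_lit 697) (nat_lit 5) (nat_lit 710) (nat_lit 5) (nat_lit 698) (nat_lit 5) (nat_lit 542) (nat_lit 512) (nat_lit 506))) (XT.nd (nat_lit 78) (nat_lit 1140) (nat_lit 0) (XT.lf (nat_lit 0) (nat_lit 1854696670) (nat_lit 988) (nat_lit 3555009538) (nat_lit 1064) (nat_lit 1292273438) (nat_lit 684) (nat_lit 5) (nat_lit 697) (nat_lit 5) (nat_lit 698) (nat_lit 5) (nat_lit 543) (nat_lit 512) (nat_lit 505)) (XT.nd (nat_lit 78) (nat_lit 1064) (nat_lit 0) (XT.lf (nat_lit 0) (nat_lit 1809567331) (nat_lit 1064) (nat_lit 541981535) (nat_lit 76) (nat_lit 4375274016) (nat_lit 683) (nat_lit 5) (nat_lit 697) (nat_lit 5) (nat_lit 684) (nat_lit 5) (nat_lit 544) (nat_lit 512) (nat_lit 504)) (XT.lf (nat_lit 0) (nat_lit 3837255987) (nat_lit 1064) (nat_lit 1075684794) (nat_lit 1140) (nat_lit 1839921720) (nat_lit 669) (nat_lit 5) (nat_lit 683) (nat_lit 5) (nat_lit 684) (nat_lit 5) (nat_lit 545) (nat_lit 512) (nat_lit 503))))) (XT.nd (nat_lit 234) (nat_lit 2736) (nat_lit 0) (XT.nd (nat_lit 78) (nat_lit 1292)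 (nat_lit 0) (XT.lf (nat_lit 0) (nat_lit 1229350097) (nat_lit 1216) (nat_lit 5293386972) (nat_lit 76) (nat_lit 257574722) (nat_lit 653) (nat_lit 5) (nat_lit 669) (nat_lit 5) (nat_lit 654) (nat_lit 5) (nat_lit 546) (nat_lit 512) (nat_lit 502)) (XT.nd (nat_lit 78) (nat_lit 1292) (nat_lit 0) (XT.lf (nat_lit 0) (nat_lit 4295673838) (nat_lit 1216) (nat_lit 865877062) (nat_lit 76) (nat_lit 1647315849) (nat_lit 653) (nat_lit 5) (nat_lit 669) (nat_lit 5) (nat_lit 654) (nat_lit 5) (nat_lit 547) (nat_lit 512) (nat_lit 501)) (XT.lf (nat_lit 0) (nat_lit 535795585) (nat_lit 1292) (nat_lit 3198846355) (nat_lit 76) (nat_lit 3104117783) (nat_lit 636) (nat_lit 5) (nat_lit 653) (nat_lit 5) (nat_lit 637) (nat_lit 5) (nat_lit 548) (nat_lit 512) (nat_lit 500)))) (XT.nd (nat_lit 78) (nat_lit 1444) (nat_lit 0) (XT.lf (nat_lit 0) (nat_lit 1324139476) (nat_lit 1292) (nat_lit 2237712757) (nat_lit 1368) (nat_lit 3308076914) (nat_lit 619) (nat_lit 5) (nat_lit 636) (nat_lit 5) (nat_lit 637) (nat_lit 5) (nat_lit 549) (nat_lit 512) (nat_lit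 499)) (XT.nd (nat_lit 78) (nat_lit 1444) (nat_lit 0) (XT.lf (nat_lit 0) (nat_lit 5926340697) (nat_lit 1292) (nat_lit 679732506) (nat_lit 1368) (nat_lit 296501419) (nat_lit 619) (nat_lit 5) (nat_lit 636) (nat_lit 5) (nat_lit 637) (nat_lit 5) (nat_lit 550) (nat_lit 512) (nat_lit 498)) (XT.lf (nat_lit 0) (nat_lit 2705918261) (nat_lit 1444) (nat_lit 3282217236) (nat_lit 76) (nat_lit 948042209) (nat_lit 600) (nat_lit 5) (nat_lit 619) (nat_lit 5) (nat_lit 601) (nat_lit 5) (nat_lit 551) (nat_lit 512) (nat_lit 497))))))))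
noncomputable def xc47 : XT := (XT.nd (nat_lit 1560) (nat_lit 9956) (nat_lit 0) (XT.nd (nat_lit 780) (nat_lit 6232) (nat_lit 0) (XT.nd (nat_lit 390) (nat_lit 6460) (nat_lit 0) (XT.nd (nat_lit 156) (nat_lit 3192) (nat_lit 0) (XT.nd (nat_lit 78) (nat_lit 76) (nat_lit 0) (XT.lf (nat_lit 0) (nat_lit 1375887163) (nat_lit 1444) (nat_lit 4346507711) (nat_lit 1520) (nat_lit 1248864414) (nat_lit 581) (nat_lit 5) (nat_lit 600) (nat_lit 5) (nat_lit 601) (nat_lit 5) (nat_lit 552) (nat_lit 512) (nat_lit 496)) (XT.lf (nat_lit 0) (nat_lit 1729220792) (nat_lit 1520) (nat_lit 902517885) (nat_lit 76) (nat_lit 4375864773) (nat_lit 580) (nat_lit 5) (nat_lit 600) (nat_lit 5) (nat_lit 581) (nat_lit 5) (nat_lit 553) (nat_lit 512) (nat_lit 495))) (XT.nd (nat_lit 78) (nat_lit 1672) (nat_lit 0) (XT.lf (nat_lit 0) (nat_lit 3872019638) (nat_lit 1520) (nat_lit 842884540) (nat_lit 1596) (nat_lit 2330314950) (nat_lit 560) (nat_lit 5) (nat_lit 580) (nat_lit 5) (nat_lit 581) (nat_lit 5) (nat_lit 554) (nat_lit 512) (nat_lit 494)) (XT.nd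 (nat_lit 78) (nat_lit 0) (nat_lit 0) (XT.lf (nat_lit 0) (nat_lit 631116682) (nat_lit 1672) (nat_lit 5458247050) (nat_lit 76) (nat_lit 994874671) (nat_lit 538) (nat_lit 5) (nat_lit 560) (nat_lit 5) (nat_lit 539) (nat_lit 5) (nat_lit 555) (nat_lit 512) (nat_lit 493)) (XT.lf (nat_lit 0) (nat_lit 3588504440) (nat_lit 1672) (nat_lit 636568709) (nat_lit 76) (nat_lit 2899302863) (nat_lit 538) (nat_lit 5) (nat_lit 560) (nat_lit 5) (nat_lit 539) (nat_lit 5) (nat_lit 556) (nat_lit 512) (nat_lit 492))))) (XT.nd (nat_lit 156) (nat_lit 2964) (nat_lit 0) (XT.nd (nat_lit 78) (nat_lit 1824) (nat_lit 0) (XT.lf (nat_lit 0) (nat_lit 4282830442) (nat_lit 1672) (nat_lit 2292059982) (nat_lit 1748) (nat_lit 591033470) (nat_lit 516) (nat_lit 5) (nat_lit 538) (nat_lit 5) (nat_lit 539) (nat_lit 5) (nat_lit 557) (nat_lit 512) (nat_lit 491)) (XT.lf (nat_lit 0) (nat_lit 2057023178) (nat_lit 1748) (nat_lit 284133648) (nat_lit 1824) (nat_lit 4867634999) (nat_lit 492) (nat_lit 5) (nat_lit 515) (nat_lit 5) (nat_lit 516) (nat_lit 5) (nat_lit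 558) (nat_lit 512) (nat_lit 490))) (XT.nd (nat_lit 78) (nat_lit 2964) (nat_lit 0) (XT.lf (nat_lit 0) (nat_lit 5298239226) (nat_lit 1824) (nat_lit 188681253) (nat_lit 76) (nat_lit 1766039526) (nat_lit 492) (nat_lit 5) (nat_lit 516) (nat_lit 5) (nat_lit 493) (nat_lit 5) (nat_lit 559) (nat_lit 512) (nat_lit 489)) (XT.nd (nat_lit 78) (nat_lit 1064) (nat_lit 0) (XT.lf (nat_lit 0) (nat_lit 980881651) (nat_lit 1900) (nat_lit 2424091368) (nat_lit 76) (nat_lit 3893355427) (nat_lit 467) (nat_lit 5) (nat_lit 492) (nat_lit 5) (nat_lit 468) (nat_lit 5) (nat_lit 560) (nat_lit 512) (nat_lit 488)) (XT.lf (nat_lit 0) (nat_lit 2663007915) (nat_lit 1064) (nat_lit 1249312589) (nat_lit 1140) (nat_lit 3432763402) (nat_lit 453) (nat_lit 5) (nat_lit 467) (nat_lit 5) (nat_lit 468) (nat_lit 5) (nat_lit 561) (nat_lit 512) (nat_lit 487)))))) (XT.nd (nat_lit 390) (nat_lit 3420) (nat_lit 0) (XT.nd (nat_lit 156) (nat_lit 1824) (nat_lit 0) (XT.nd (nat_lit 78) (nat_lit 76) (nat_lit 0) (XT.lf (nat_lit 0) (nat_lit 435615083) (nat_lit 912)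 (nat_lit 6437573911) (nat_lit 988) (nat_lit 520173408) (nat_lit 441) (nat_lit 5) (nat_lit 453) (nat_lit 5) (nat_lit 454) (nat_lit 5) (nat_lit 562) (nat_lit 512) (nat_lit 486)) (XT.lf (nat_lit 0) (nat_lit 2404209353) (nat_lit 988) (nat_lit 1803684790) (nat_lit 76) (nat_lit 3234684251) (nat_lit 440) (nat_lit 5) (nat_lit 453) (nat_lit 5) (nat_lit 441) (nat_lit 5) (nat_lit 563) (nat_lit 512) (nat_lit 485))) (XT.nd (nat_lit 78) (nat_lit 912) (nat_lit 0) (XT.lf (nat_lit 0) (nat_lit 3439793898) (nat_lit 912) (nat_lit 1909504864) (nat_lit 988) (nat_lit 2144031213) (nat_lit 428) (nat_lit 5) (nat_lit 440) (nat_lit 5) (nat_lit 441) (nat_lit 5) (nat_lit 564) (nat_lit 512) (nat_lit 484)) (XT.nd (nat_lit 78) (nat_lit 0) (nat_lit 0) (XT.lf (nat_lit 0) (nat_lit 767867945) (nat_lit 912) (nat_lit 6325850833) (nat_lit 76) (nat_lit 451870953) (nat_lit 416) (nat_lit 5) (nat_lit 428) (nat_lit 5) (nat_lit 417) (nat_lit 5) (nat_lit 565) (nat_lit 512) (nat_lit 483)) (XT.lf (nat_lit 0) (nat_lit 3697185112) (nat_lit 912) (nat_lit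 1028284113) (nat_lit 76) (nat_lit 2873387747) (nat_lit 416) (nat_lit 5) (nat_lit 428) (nat_lit 5) (nat_lit 417) (nat_lit 5) (nat_lit 566) (nat_lit 512) (nat_lit 482))))) (XT.nd (nat_lit 156) (nat_lit 1672) (nat_lit 0) (XT.nd (nat_lit 78) (nat_lit 912) (nat_lit 0) (XT.lf (nat_lit 0) (nat_lit 4377414290) (nat_lit 836) (nat_lit 2284952799) (nat_lit 912) (nat_lit 991280335) (nat_lit 405) (nat_lit 5) (nat_lit 416) (nat_lit 5) (nat_lit 417) (nat_lit 5) (nat_lit 567) (nat_lit 512) (nat_lit 481)) (XT.lf (nat_lit 0) (nat_lit 1923014076) (nat_lit 912) (nat_lit 5555786724) (nat_lit 76) (nat_lit 231046865) (nat_lit 393) (nat_lit 5) (nat_lit 405) (nat_lit 5) (nat_lit 394) (nat_lit 5) (nat_lit 568) (nat_lit 512) (nat_lit 480))) (XT.nd (nat_lit 78) (nat_lit 1672) (nat_lit 0) (XT.lf (nat_lit 0) (nat_lit 4869368852) (nat_lit 912) (nat_lit 107358679) (nat_lit 76) (nat_lit 2790575615) (nat_lit 393) (nat_lit 5) (nat_lit 405) (nat_lit 5) (nat_lit 394) (nat_lit 5) (nat_lit 569) (nat_lit 512) (nat_lit 479)) (XT.nd (nat_lit 78)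 (nat_lit 760) (nat_lit 0) (XT.lf (nat_lit 0) (nat_lit 34260024) (nat_lit 912) (nat_lit 2359730862) (nat_lit 76) (nat_lit 5432190507) (nat_lit 381) (nat_lit 5) (nat_lit 393) (nat_lit 5) (nat_lit 382) (nat_lit 5) (nat_lit 570) (nat_lit 512) (nat_lit 478)) (XT.lf (nat_lit 0) (nat_lit 2960892024) (nat_lit 836) (nat_lit 4653339142) (nat_lit 76) (nat_lit 272134037) (nat_lit 371) (nat_lit 5) (nat_lit 382) (nat_lit 5) (nat_lit 372) (nat_lit 5) (nat_lit 571) (nat_lit 512) (nat_lit 477))))))) (XT.nd (nat_lit 780) (nat_lit 4864) (nat_lit 0) (XT.nd (nat_lit 390) (nat_lit 2736) (nat_lit 0) (XT.nd (nat_lit 156) (nat_lit 1520) (nat_lit 0) (XT.nd (nat_lit 78) (nat_lit 76) (nat_lit 0) (XT.lf (nat_lit 0) (nat_lit 962950664) (nat_lit 760) (nat_lit 4972754708) (nat_lit 836) (nat_lit 2012257335) (nat_lit 361) (nat_lit 5) (nat_lit 371) (nat_lit 5) (nat_lit 372) (nat_lit 5) (nat_lit 572) (nat_lit 512) (nat_lit 476)) (XT.lf (nat_lit 0) (nat_lit 929946898) (nat_lit 836) (nat_lit 1318141900) (nat_lit 76) (nat_lit 5762915589) (nat_lit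 360) (nat_lit 5) (nat_lit 371) (nat_lit 5) (nat_lit 361) (nat_lit 5) (nat_lit 573) (nat_lit 512) (nat_lit 475))) (XT.nd (nat_lit 78) (nat_lit 836) (nat_lit 0) (XT.lf (nat_lit 0) (nat_lit 3889473398) (nat_lit 760) (nat_lit 3627037848) (nat_lit 76) (nat_lit 558824006) (nat_lit 351) (nat_lit 5) (nat_lit 361) (nat_lit 5) (nat_lit 352) (nat_lit 5) (nat_lit 574) (nat_lit 512) (nat_lit 474)) (XT.nd (nat_lit 78) (nat_lit 76) (nat_lit 0) (XT.lf (nat_lit 0) (nat_lit 2165003756) (nat_lit 760) (nat_lit 4734367629) (nat_lit 836) (nat_lit 1241760491) (nat_lit 341) (nat_lit 5) (nat_lit 351) (nat_lit 5) (nat_lit 352) (nat_lit 5) (nat_lit 575) (nat_lit 512) (nat_lit 473)) (XT.lf (nat_lit 0) (nat_lit 1716205352) (nat_lit 836) (nat_lit 153157464) (nat_lit 76) (nat_lit 6339093949) (nat_lit 340) (nat_lit 5) (nat_lit 351) (nat_lit 5) (nat_lit 341) (nat_lit 5) (nat_lit 576) (nat_lit 512) (nat_lit 472))))) (XT.nd (nat_lit 156) (nat_lit 1368) (nat_lit 0) (XT.nd (nat_lit 78) (nat_lit 684) (nat_lit 0) (XT.lf (nat_lit 0) (nat_lit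 4715943127) (nat_lit 760) (nat_lit 2484855078) (nat_lit 76) (nat_lit 1076183593) (nat_lit 331) (nat_lit 5) (nat_lit 341) (nat_lit 5) (nat_lit 332) (nat_lit 5) (nat_lit 577) (nat_lit 512) (nat_lit 471)) (XT.lf (nat_lit 0) (nat_lit 3489676434) (nat_lit 684) (nat_lit 4277039760) (nat_lit 760) (nat_lit 580342878) (nat_lit 322) (nat_lit 5) (nat_lit 331) (nat_lit 5) (nat_lit 332) (nat_lit 5) (nat_lit 578) (nat_lit 512) (nat_lit 470))) (XT.nd (nat_lit 78) (nat_lit 684) (nat_lit 0) (XT.lf (nat_lit 0) (nat_lit 1142605423) (nat_lit 608) (nat_lit 1264500414) (nat_lit 684) (nat_lit 6011527034) (nat_lit 313) (nat_lit 5) (nat_lit 321) (nat_lit 5) (nat_lit 322) (nat_lit 5) (nat_lit 579) (nat_lit 512) (nat_lit 469)) (XT.nd (nat_lit 78) (nat_lit 684) (nat_lit 0) (XT.lf (nat_lit 0) (nat_lit 5446740672) (nat_lit 684) (nat_lit 1234277383) (nat_lit 76) (nat_lit 1810541618) (nat_lit 313) (nat_lit 5) (nat_lit 322) (nat_lit 5) (nat_lit 314) (nat_lit 5) (nat_lit 580) (nat_lit 512) (nat_lit 468)) (XT.lf (nat_lit 0) (nat_lit 4929757100)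 (nat_lit 684) (nat_lit 3614310761) (nat_lit 760) (nat_lit 21941512) (nat_lit 304) (nat_lit 5) (nat_lit 313) (nat_lit 5) (nat_lit 314) (nat_lit 5) (nat_lit 581) (nat_lit 512) (nat_lit 467)))))) (XT.nd (nat_lit 390) (nat_lit 2280) (nat_lit 0) (XT.nd (nat_lit 156) (nat_lit 1292) (nat_lit 0) (XT.nd (nat_lit 78) (nat_lit 608) (nat_lit 0) (XT.lf (nat_lit 0) (nat_lit 2550491893) (nat_lit 608) (nat_lit 452378115) (nat_lit 684) (nat_lit 5639050250) (nat_lit 295) (nat_lit 5) (nat_lit 303) (nat_lit 5) (nat_lit 304) (nat_lit 5) (nat_lit 582) (nat_lit 512) (nat_lit 466)) (XT.lf (nat_lit 0) (nat_lit 119187509) (nat_lit 608) (nat_lit 5969182422) (nat_lit 684) (nat_lit 2630969031) (nat_lit 287) (nat_lit 5) (nat_lit 295) (nat_lit 5) (nat_lit 296) (nat_lit 5) (nat_lit 583) (nat_lit 512) (nat_lit 465))) (XT.nd (nat_lit 78) (nat_lit 1216) (nat_lit 0) (XT.lf (nat_lit 0) (nat_lit 433028201) (nat_lit 684) (nat_lit 2322677529) (nat_lit 76) (nat_lit 6042515877) (nat_lit 286) (nat_lit 5) (nat_lit 295) (nat_lit 5) (nat_lit 287) (nat_lit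 5) (nat_lit 584) (nat_lit 512) (nat_lit 464)) (XT.nd (nat_lit 78) (nat_lit 608) (nat_lit 0) (XT.lf (nat_lit 0) (nat_lit 3511259316) (nat_lit 684) (nat_lit 4820628471) (nat_lit 76) (nat_lit 546684748) (nat_lit 278) (nat_lit 5) (nat_lit 287) (nat_lit 5) (nat_lit 279) (nat_lit 5) (nat_lit 585) (nat_lit 512) (nat_lit 463)) (XT.lf (nat_lit 0) (nat_lit 1584912498) (nat_lit 608) (nat_lit 5068938929) (nat_lit 684) (nat_lit 2306625177) (nat_lit 270) (nat_lit 5) (nat_lit 278) (nat_lit 5) (nat_lit 279) (nat_lit 5) (nat_lit 586) (nat_lit 512) (nat_lit 462))))) (XT.nd (nat_lit 234) (nat_lit 1140) (nat_lit 0) (XT.nd (nat_lit 78) (nat_lit 1064) (nat_lit 0) (XT.lf (nat_lit 0) (nat_lit 795898618) (nat_lit 684) (nat_lit 920123515) (nat_lit 76) (nat_lit 7328066439) (nat_lit 269) (nat_lit 5) (nat_lit 278) (nat_lit 5) (nat_lit 270) (nat_lit 5) (nat_lit 587) (nat_lit 512) (nat_lit 461)) (XT.nd (nat_lit 78) (nat_lit 532) (nat_lit 0) (XT.lf (nat_lit 0) (nat_lit 3937305499) (nat_lit 608) (nat_lit 3471027481) (nat_lit 76) (nat_lit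 1720582431) (nat_lit 262) (nat_lit 5) (nat_lit 270) (nat_lit 5) (nat_lit 263) (nat_lit 5) (nat_lit 588) (nat_lit 512) (nat_lit 460)) (XT.lf (nat_lit 0) (nat_lit 3139963821) (nat_lit 532) (nat_lit 3999458413) (nat_lit 608) (nat_lit 2076060814) (nat_lit 255) (nat_lit 5) (nat_lit 262) (nat_lit 5) (nat_lit 263) (nat_lit 5) (nat_lit 589) (nat_lit 512) (nat_lit 459)))) (XT.nd (nat_lit 78) (nat_lit 532) (nat_lit 0) (XT.lf (nat_lit 0) (nat_lit 572507020) (nat_lit 532) (nat_lit 502091415) (nat_lit 608) (nat_lit 8229297364) (nat_lit 247) (nat_lit 5) (nat_lit 254) (nat_lit 5) (nat_lit 255) (nat_lit 5) (nat_lit 590) (nat_lit 512) (nat_lit 458)) (XT.nd (nat_lit 78) (nat_lit 532) (nat_lit 0) (XT.lf (nat_lit 0) (nat_lit 4281860103) (nat_lit 608) (nat_lit 2046272057) (nat_lit 76) (nat_lit 3065244224) (nat_lit 247) (nat_lit 5) (nat_lit 255) (nat_lit 5) (nat_lit 248) (nat_lit 5) (nat_lit 591) (nat_lit 512) (nat_lit 457)) (XT.lf (nat_lit 0) (nat_lit 4778024287) (nat_lit 532) (nat_lit 2770786310) (nat_lit 608) (nat_lit 1935926862)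 (nat_lit 240) (nat_lit 5) (nat_lit 247) (nat_lit 5) (nat_lit 248) (nat_lit 5) (nat_lit 592) (nat_lit 512) (nat_lit 456))))))))
noncomputable def xc48 : XT := (XT.nd (nat_lit 1560) (nat_lit 2508) (nat_lit 0) (XT.nd (nat_lit 780) (nat_lit 2964) (nat_lit 0) (XT.nd (nat_lit 390) (nat_lit 1444) (nat_lit 0) (XT.nd (nat_lit 156) (nat_lit 1520) (nat_lit 0) (XT.nd (nat_lit 78) (nat_lit 0) (nat_lit 0) (XT.lf (nat_lit 0) (nat_lit 1280957484) (nat_lit 532) (nat_lit 7429108426) (nat_lit 76) (nat_lit 867794817) (nat_lit 233) (nat_lit 5) (nat_lit 240) (nat_lit 5) (nat_lit 234) (nat_lit 5) (nat_lit 593) (nat_lit 512) (nat_lit 455)) (XT.lf (nat_lit 0) (nat_lit 4548087985) (nat_lit 532) (nat_lit 552800354) (nat_lit 76) (nat_lit 4571467235) (nat_lit 233) (nat_lit 5) (nat_lit 240) (nat_lit 5) (nat_lit 234) (nat_lit 5) (nat_lit 594) (nat_lit 512) (nat_lit 454))) (XT.nd (nat_lit 78) (nat_lit 988) (nat_lit 0) (XT.lf (nat_lit 0) (nat_lit 6492921131) (nat_lit 532) (nat_lit 1392211046) (nat_lit 608) (nat_lit 1883518335) (nat_lit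 226) (nat_lit 5) (nat_lit 233) (nat_lit 5) (nat_lit 234) (nat_lit 5) (nat_lit 595) (nat_lit 512) (nat_lit 453)) (XT.nd (nat_lit 78) (nat_lit 456) (nat_lit 0) (XT.lf (nat_lit 0) (nat_lit 1410078295) (nat_lit 532) (nat_lit 6075020600) (nat_lit 76) (nat_lit 2381455698) (nat_lit 219) (nat_lit 5) (nat_lit 226) (nat_lit 5) (nat_lit 220) (nat_lit 5) (nat_lit 596) (nat_lit 512) (nat_lit 452)) (XT.lf (nat_lit 0) (nat_lit 1016355074) (nat_lit 456) (nat_lit 3728787123) (nat_lit 532) (nat_lit 5221010768) (nat_lit 213) (nat_lit 5) (nat_lit 219) (nat_lit 5) (nat_lit 220) (nat_lit 5) (nat_lit 597) (nat_lit 512) (nat_lit 451))))) (XT.nd (nat_lit 156) (nat_lit 912) (nat_lit 0) (XT.nd (nat_lit 78) (nat_lit 532) (nat_lit 0) (XT.lf (nat_lit 0) (nat_lit 8151730739) (nat_lit 532) (nat_lit 1789937992) (nat_lit 76) (nat_lit 125979603) (nat_lit 213) (nat_lit 5) (nat_lit 220) (nat_lit 5) (nat_lit 214) (nat_lit 5) (nat_lit 598) (nat_lit 512) (nat_lit 450)) (XT.lf (nat_lit 0) (nat_lit 1460647972) (nat_lit 532) (nat_lit 4672560416)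 (nat_lit 76) (nat_lit 4037288551) (nat_lit 206) (nat_lit 5) (nat_lit 213) (nat_lit 5) (nat_lit 207) (nat_lit 5) (nat_lit 599) (nat_lit 512) (nat_lit 449))) (XT.nd (nat_lit 78) (nat_lit 456) (nat_lit 0) (XT.lf (nat_lit 0) (nat_lit 2649597616) (nat_lit 456) (nat_lit 2222783625) (nat_lit 532) (nat_lit 5402903589) (nat_lit 200) (nat_lit 5) (nat_lit 206) (nat_lit 5) (nat_lit 207) (nat_lit 5) (nat_lit 600) (nat_lit 512) (nat_lit 448)) (XT.nd (nat_lit 78) (nat_lit 456) (nat_lit 0) (XT.lf (nat_lit 0) (nat_lit 8359603440) (nat_lit 532) (nat_lit 264986366) (nat_lit 76) (nat_lit 1757434969) (nat_lit 200) (nat_lit 5) (nat_lit 207) (nat_lit 5) (nat_lit 201) (nat_lit 5) (nat_lit 601) (nat_lit 512) (nat_lit 447)) (XT.lf (nat_lit 0) (nat_lit 1434007405) (nat_lit 456) (nat_lit 3228488965) (nat_lit 76) (nat_lit 5827678653) (nat_lit 194) (nat_lit 5) (nat_lit 200) (nat_lit 5) (nat_lit 195) (nat_lit 5) (nat_lit 602) (nat_lit 512) (nat_lit 446)))))) (XT.nd (nat_lit 390) (nat_lit 1292) (nat_lit 0) (XT.nd (nat_lit 156) (nat_lit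 836) (nat_lit 0) (XT.nd (nat_lit 78) (nat_lit 380) (nat_lit 0) (XT.lf (nat_lit 0) (nat_lit 4333069297) (nat_lit 456) (nat_lit 594410642) (nat_lit 532) (nat_lit 5672842366) (nat_lit 188) (nat_lit 5) (nat_lit 194) (nat_lit 5) (nat_lit 195) (nat_lit 5) (nat_lit 603) (nat_lit 512) (nat_lit 445)) (XT.lf (nat_lit 0) (nat_lit 1318832995) (nat_lit 380) (nat_lit 7190722921) (nat_lit 456) (nat_lit 2202743212) (nat_lit 183) (nat_lit 5) (nat_lit 188) (nat_lit 5) (nat_lit 189) (nat_lit 5) (nat_lit 604) (nat_lit 512) (nat_lit 444))) (XT.nd (nat_lit 78) (nat_lit 760) (nat_lit 0) (XT.lf (nat_lit 0) (nat_lit 1330891399) (nat_lit 456) (nat_lit 1749709555) (nat_lit 76) (nat_lit 7745508873) (nat_lit 182) (nat_lit 5) (nat_lit 188) (nat_lit 5) (nat_lit 183) (nat_lit 5) (nat_lit 605) (nat_lit 512) (nat_lit 443)) (XT.nd (nat_lit 78) (nat_lit 380) (nat_lit 0) (XT.lf (nat_lit 0) (nat_lit 4918609903) (nat_lit 456) (nat_lit 4889145736) (nat_lit 76) (nat_lit 1133892982) (nat_lit 177) (nat_lit 5) (nat_lit 183) (nat_lit 5) (nat_lit 178)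 (nat_lit 5) (nat_lit 606) (nat_lit 512) (nat_lit 442)) (XT.lf (nat_lit 0) (nat_lit 2941392174) (nat_lit 380) (nat_lit 5654297329) (nat_lit 456) (nat_lit 2463457731) (nat_lit 172) (nat_lit 5) (nat_lit 177) (nat_lit 5) (nat_lit 178) (nat_lit 5) (nat_lit 607) (nat_lit 512) (nat_lit 441))))) (XT.nd (nat_lit 156) (nat_lit 836) (nat_lit 0) (XT.nd (nat_lit 78) (nat_lit 380) (nat_lit 0) (XT.lf (nat_lit 0) (nat_lit 1151423938) (nat_lit 456) (nat_lit 243347197) (nat_lit 76) (nat_lit 9784085867) (nat_lit 171) (nat_lit 5) (nat_lit 177) (nat_lit 5) (nat_lit 172) (nat_lit 5) (nat_lit 608) (nat_lit 512) (nat_lit 440)) (XT.lf (nat_lit 0) (nat_lit 4842977706) (nat_lit 456) (nat_lit 3495919098) (nat_lit 76) (nat_lit 2960992398) (nat_lit 166) (nat_lit 5) (nat_lit 172) (nat_lit 5) (nat_lit 167) (nat_lit 5) (nat_lit 609) (nat_lit 512) (nat_lit 439))) (XT.nd (nat_lit 78) (nat_lit 456) (nat_lit 0) (XT.lf (nat_lit 0) (nat_lit 4591993397) (nat_lit 380) (nat_lit 4024315619) (nat_lit 456) (nat_lit 2806875192) (nat_lit 161) (nat_lit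 5) (nat_lit 166) (nat_lit 5) (nat_lit 167) (nat_lit 5) (nat_lit 610) (nat_lit 512) (nat_lit 438)) (XT.nd (nat_lit 78) (nat_lit 0) (nat_lit 0) (XT.lf (nat_lit 0) (nat_lit 906125852) (nat_lit 456) (nat_lit 10251194107) (nat_lit 76) (nat_lit 391467641) (nat_lit 155) (nat_lit 5) (nat_lit 161) (nat_lit 5) (nat_lit 156) (nat_lit 5) (nat_lit 611) (nat_lit 512) (nat_lit 437)) (XT.lf (nat_lit 0) (nat_lit 4696169452) (nat_lit 456) (nat_lit 2091471671) (nat_lit 76) (nat_lit 4888084563) (nat_lit 155) (nat_lit 5) (nat_lit 161) (nat_lit 5) (nat_lit 156) (nat_lit 5) (nat_lit 612) (nat_lit 512) (nat_lit 436))))))) (XT.nd (nat_lit 75114) (nat_lit 0) (nat_lit 42636) (XT.nd (nat_lit 390) (nat_lit 988) (nat_lit 0) (XT.nd (nat_lit 156) (nat_lit 760) (nat_lit 0) (XT.nd (nat_lit 78) (nat_lit 456) (nat_lit 0) (XT.lf (nat_lit 0) (nat_lit 6263102372) (nat_lit 304) (nat_lit 2307748213) (nat_lit 380) (nat_lit 3234176221) (nat_lit 151) (nat_lit 5) (nat_lit 155) (nat_lit 5) (nat_lit 156) (nat_lit 5) (nat_lit 613) (nat_lit 512) (nat_lit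 435)) (XT.lf (nat_lit 0) (nat_lit 594183391) (nat_lit 456) (nat_lit 9092109272) (nat_lit 76) (nat_lit 2250230965) (nat_lit 145) (nat_lit 5) (nat_lit 151) (nat_lit 5) (nat_lit 146) (nat_lit 5) (nat_lit 614) (nat_lit 512) (nat_lit 434))) (XT.nd (nat_lit 78) (nat_lit 760) (nat_lit 0) (XT.lf (nat_lit 0) (nat_lit 4476998857) (nat_lit 456) (nat_lit 684002399) (nat_lit 76) (nat_lit 6908798636) (nat_lit 145) (nat_lit 5) (nat_lit 151) (nat_lit 5) (nat_lit 146) (nat_lit 5) (nat_lit 615) (nat_lit 512) (nat_lit 433)) (XT.nd (nat_lit 78) (nat_lit 456) (nat_lit 0) (XT.lf (nat_lit 0) (nat_lit 7946734372) (nat_lit 304) (nat_lit 511385830) (nat_lit 380) (nat_lit 3747209416) (nat_lit 141) (nat_lit 5) (nat_lit 145) (nat_lit 5) (nat_lit 146) (nat_lit 5) (nat_lit 616) (nat_lit 512) (nat_lit 432)) (XT.lf (nat_lit 0) (nat_lit 203044730) (nat_lit 456) (nat_lit 7948196539) (nat_lit 76) (nat_lit 4191705807) (nat_lit 135) (nat_lit 5) (nat_lit 141) (nat_lit 5) (nat_lit 136) (nat_lit 5) (nat_lit 617) (nat_lit 512) (nat_lit 431)))))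 (XT.nd (nat_lit 156) (nat_lit 684) (nat_lit 0) (XT.nd (nat_lit 78) (nat_lit 0) (nat_lit 0) (XT.lf (nat_lit 0) (nat_lit 727290458) (nat_lit 304) (nat_lit 3461057480) (nat_lit 380) (nat_lit 8294350059) (nat_lit 131) (nat_lit 5) (nat_lit 135) (nat_lit 5) (nat_lit 136) (nat_lit 5) (nat_lit 618) (nat_lit 512) (nat_lit 430)) (XT.lf (nat_lit 0) (nat_lit 8285087733) (nat_lit 380) (nat_lit 2999248582) (nat_lit 76) (nat_lit 1340273868) (nat_lit 131) (nat_lit 5) (nat_lit 136) (nat_lit 5) (nat_lit 132) (nat_lit 5) (nat_lit 619) (nat_lit 512) (nat_lit 429))) (XT.nd (nat_lit 78) (nat_lit 380) (nat_lit 0) (XT.lf (nat_lit 0) (nat_lit 5937815706) (nat_lit 304) (nat_lit 6557470137) (nat_lit 380) (nat_lit 273445142) (nat_lit 127) (nat_lit 5) (nat_lit 131) (nat_lit 5) (nat_lit 132) (nat_lit 5) (nat_lit 620) (nat_lit 512) (nat_lit 428)) (XT.nd (nat_lit 74412) (nat_lit 0) (nat_lit 47804) (XT.lf (nat_lit 0) (nat_lit 2132379370) (nat_lit 304) (nat_lit 1694994479) (nat_lit 380) (nat_lit 9087773562) (nat_lit 122) (nat_lit 5) (nat_lit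 126) (nat_lit 5) (nat_lit 127) (nat_lit 5) (nat_lit 621) (nat_lit 512) (nat_lit 427)) (XT.lf (nat_lit 0) (nat_lit 2204480063) (nat_lit 532) (nat_lit 531646331) (nat_lit 532) (nat_lit 531646331) (nat_lit 751) (nat_lit 4) (nat_lit 758) (nat_lit 5) (nat_lit 758) (nat_lit 4) (nat_lit 534) (nat_lit 513) (nat_lit 513)))))) (XT.nd (nat_lit 390) (nat_lit 2888) (nat_lit 0) (XT.nd (nat_lit 156) (nat_lit 1596) (nat_lit 0) (XT.nd (nat_lit 78) (nat_lit 0) (nat_lit 0) (XT.lf (nat_lit 0) (nat_lit 1802606831) (nat_lit 608) (nat_lit 364608586) (nat_lit 684) (nat_lit 4382309708) (nat_lit 742) (nat_lit 5) (nat_lit 750) (nat_lit 5) (nat_lit 751) (nat_lit 4) (nat_lit 535) (nat_lit 513) (nat_lit 512)) (XT.lf (nat_lit 0) (nat_lit 5388752899) (nat_lit 684) (nat_lit 787179144) (nat_lit 0) (nat_lit 388906695) (nat_lit 742) (nat_lit 5) (nat_lit 751) (nat_lit 4) (nat_lit 742) (nat_lit 4) (nat_lit 536) (nat_lit 513) (nat_lit 511))) (XT.nd (nat_lit 78) (nat_lit 836) (nat_lit 0) (XT.lf (nat_lit 0) (nat_lit 2015405348) (nat_lit 760) (nat_lit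 3355366014) (nat_lit 76) (nat_lit 1210450861) (nat_lit 732) (nat_lit 5) (nat_lit 742) (nat_lit 5) (nat_lit 733) (nat_lit 4) (nat_lit 537) (nat_lit 513) (nat_lit 510)) (XT.nd (nat_lit 78) (nat_lit 76) (nat_lit 0) (XT.lf (nat_lit 0) (nat_lit 680000934) (nat_lit 760) (nat_lit 4510862045) (nat_lit 836) (nat_lit 1408204817) (nat_lit 722) (nat_lit 5) (nat_lit 732) (nat_lit 5) (nat_lit 733) (nat_lit 4) (nat_lit 538) (nat_lit 513) (nat_lit 509)) (XT.lf (nat_lit 0) (nat_lit 1738206825) (nat_lit 836) (nat_lit 1840899468) (nat_lit 76) (nat_lit 3038947522) (nat_lit 721) (nat_lit 5) (nat_lit 732) (nat_lit 5) (nat_lit 722) (nat_lit 5) (nat_lit 539) (nat_lit 513) (nat_lit 508))))) (XT.nd (nat_lit 156) (nat_lit 1976) (nat_lit 0) (XT.nd (nat_lit 78) (nat_lit 76) (nat_lit 0) (XT.lf (nat_lit 0) (nat_lit 2286830796) (nat_lit 836) (nat_lit 2584915485) (nat_lit 912) (nat_lit 1766633146) (nat_lit 710) (nat_lit 5) (nat_lit 721) (nat_lit 5) (nat_lit 722) (nat_lit 5) (nat_lit 540) (nat_lit 513) (nat_lit 507)) (XT.lf (nat_lit 0)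 (nat_lit 1331586065) (nat_lit 912) (nat_lit 199297535) (nat_lit 76) (nat_lit 5129227509) (nat_lit 709) (nat_lit 5) (nat_lit 721) (nat_lit 5) (nat_lit 710) (nat_lit 5) (nat_lit 541) (nat_lit 513) (nat_lit 506))) (XT.nd (nat_lit 78) (nat_lit 1064) (nat_lit 0) (XT.lf (nat_lit 0) (nat_lit 4024856698) (nat_lit 912) (nat_lit 399591437) (nat_lit 988) (nat_lit 2258475803) (nat_lit 697) (nat_lit 5) (nat_lit 709) (nat_lit 5) (nat_lit 710) (nat_lit 5) (nat_lit 542) (nat_lit 513) (nat_lit 505)) (XT.nd (nat_lit 78) (nat_lit 0) (nat_lit 0) (XT.lf (nat_lit 0) (nat_lit 809079401) (nat_lit 1064) (nat_lit 5119931455) (nat_lit 76) (nat_lit 778124196) (nat_lit 683) (nat_lit 5) (nat_lit 697) (nat_lit 5) (nat_lit 684) (nat_lit 5) (nat_lit 543) (nat_lit 513) (nat_lit 504)) (XT.lf (nat_lit 0) (nat_lit 3860243664) (nat_lit 1064) (nat_lit 849722363) (nat_lit 76) (nat_lit 2022522159) (nat_lit 683) (nat_lit 5) (nat_lit 697) (nat_lit 5) (nat_lit 684) (nat_lit 5) (nat_lit 544) (nat_lit 513) (nat_lit 503))))))))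
noncomputable def xc49 : XT := (XT.nd (nat_lit 1560) (nat_lit 11400) (nat_lit 0) (XT.nd (nat_lit 780) (nat_lit 10032) (nat_lit 0) (XT.nd (nat_lit 390) (nat_lit 4484) (nat_lit 0) (XT.nd (nat_lit 156) (nat_lit 2584) (nat_lit 0) (XT.nd (nat_lit 78) (nat_lit 1140) (nat_lit 0) (XT.lf (nat_lit 0) (nat_lit 166899341) (nat_lit 1140) (nat_lit 3261435115) (nat_lit 76) (nat_lit 3330879740) (nat_lit 668) (nat_lit 5) (nat_lit 683) (nat_lit 5) (nat_lit 669) (nat_lit 5) (nat_lit 545) (nat_lit 513) (nat_lit 502)) (XT.lf (nat_lit 0) (nat_lit 1099327418) (nat_lit 1140) (nat_lit 2075684459) (nat_lit 1216) (nat_lit 3612156217) (nat_lit 653) (nat_lit 5) (nat_lit 668) (nat_lit 5) (nat_lit 669) (nat_lit 5) (nat_lit 546) (nat_lit 513) (nat_lit 501))) (XT.nd (nat_lit 78) (nat_lit 2584) (nat_lit 0) (XT.lf (nat_lit 0) (nat_lit 5538446970) (nat_lit 1140) (nat_lit 661412256) (nat_lit 1216) (nat_lit 616696255) (nat_lit 653) (nat_lit 5) (nat_lit 668) (nat_lit 5) (nat_lit 669) (nat_lit 5) (nat_lit 547) (nat_lit 513) (nat_lit 500)) (XT.nd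 (nat_lit 78) (nat_lit 1292) (nat_lit 0) (XT.lf (nat_lit 0) (nat_lit 2368346700) (nat_lit 1292) (nat_lit 3659511610) (nat_lit 76) (nat_lit 819128122) (nat_lit 636) (nat_lit 5) (nat_lit 653) (nat_lit 5) (nat_lit 637) (nat_lit 5) (nat_lit 548) (nat_lit 513) (nat_lit 499)) (XT.lf (nat_lit 0) (nat_lit 830319781) (nat_lit 1292) (nat_lit 4529457452) (nat_lit 1368) (nat_lit 1519073881) (nat_lit 619) (nat_lit 5) (nat_lit 636) (nat_lit 5) (nat_lit 637) (nat_lit 5) (nat_lit 549) (nat_lit 513) (nat_lit 498))))) (XT.nd (nat_lit 156) (nat_lit 3040) (nat_lit 0) (XT.nd (nat_lit 78) (nat_lit 1368) (nat_lit 0) (XT.lf (nat_lit 0) (nat_lit 1441743497) (nat_lit 1368) (nat_lit 1515585334) (nat_lit 76) (nat_lit 3954600253) (nat_lit 618) (nat_lit 5) (nat_lit 636) (nat_lit 5) (nat_lit 619) (nat_lit 5) (nat_lit 550) (nat_lit 513) (nat_lit 497)) (XT.lf (nat_lit 0) (nat_lit 3085110224) (nat_lit 1368) (nat_lit 1314620260) (nat_lit 1444) (nat_lit 2546576641) (nat_lit 600) (nat_lit 5) (nat_lit 618) (nat_lit 5) (nat_lit 619) (nat_lit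 5) (nat_lit 551) (nat_lit 513) (nat_lit 496))) (XT.nd (nat_lit 78) (nat_lit 1520) (nat_lit 0) (XT.lf (nat_lit 0) (nat_lit 386248696) (nat_lit 1520) (nat_lit 6214127666) (nat_lit 76) (nat_lit 381815697) (nat_lit 580) (nat_lit 5) (nat_lit 600) (nat_lit 5) (nat_lit 581) (nat_lit 5) (nat_lit 552) (nat_lit 513) (nat_lit 495)) (XT.nd (nat_lit 78) (nat_lit 1520) (nat_lit 0) (XT.lf (nat_lit 0) (nat_lit 3318055524) (nat_lit 1520) (nat_lit 1556453867) (nat_lit 76) (nat_lit 2144465077) (nat_lit 580) (nat_lit 5) (nat_lit 600) (nat_lit 5) (nat_lit 581) (nat_lit 5) (nat_lit 553) (nat_lit 513) (nat_lit 494)) (XT.lf (nat_lit 0) (nat_lit 3182499312) (nat_lit 1520) (nat_lit 3087449737) (nat_lit 1596) (nat_lit 787319274) (nat_lit 560) (nat_lit 5) (nat_lit 580) (nat_lit 5) (nat_lit 581) (nat_lit 5) (nat_lit 554) (nat_lit 513) (nat_lit 493)))))) (XT.nd (nat_lit 390) (nat_lit 4864) (nat_lit 0) (XT.nd (nat_lit 156) (nat_lit 3496) (nat_lit 0) (XT.nd (nat_lit 78) (nat_lit 0) (nat_lit 0) (XT.lf (nat_lit 0) (nat_lit 884512016) (nat_lit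 1596) (nat_lit 1228857708) (nat_lit 1672) (nat_lit 4983529920) (nat_lit 538) (nat_lit 5) (nat_lit 559) (nat_lit 5) (nat_lit 560) (nat_lit 5) (nat_lit 555) (nat_lit 513) (nat_lit 492)) (XT.lf (nat_lit 0) (nat_lit 5034087584) (nat_lit 1672) (nat_lit 1409900454) (nat_lit 76) (nat_lit 693784855) (nat_lit 538) (nat_lit 5) (nat_lit 560) (nat_lit 5) (nat_lit 539) (nat_lit 5) (nat_lit 556) (nat_lit 513) (nat_lit 491))) (XT.nd (nat_lit 78) (nat_lit 1748) (nat_lit 0) (XT.lf (nat_lit 0) (nat_lit 796505898) (nat_lit 1748) (nat_lit 3713000434) (nat_lit 76) (nat_lit 2670379674) (nat_lit 515) (nat_lit 5) (nat_lit 538) (nat_lit 5) (nat_lit 516) (nat_lit 5) (nat_lit 557) (nat_lit 513) (nat_lit 490)) (XT.nd (nat_lit 78) (nat_lit 0) (nat_lit 0) (XT.lf (nat_lit 0) (nat_lit 1185007069) (nat_lit 1748) (nat_lit 2502340987) (nat_lit 1824) (nat_lit 3536003181) (nat_lit 492) (nat_lit 5) (nat_lit 515) (nat_lit 5) (nat_lit 516) (nat_lit 5) (nat_lit 558) (nat_lit 513) (nat_lit 489)) (XT.lf (nat_lit 0) (nat_lit 6177455147) (nat_lit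 1748) (nat_lit 427796364) (nat_lit 1824) (nat_lit 663053557) (nat_lit 492) (nat_lit 5) (nat_lit 515) (nat_lit 5) (nat_lit 516) (nat_lit 5) (nat_lit 559) (nat_lit 513) (nat_lit 488))))) (XT.nd (nat_lit 156) (nat_lit 1900) (nat_lit 0) (XT.nd (nat_lit 78) (nat_lit 1064) (nat_lit 0) (XT.lf (nat_lit 0) (nat_lit 2219484512) (nat_lit 1900) (nat_lit 3386687037) (nat_lit 76) (nat_lit 1708058703) (nat_lit 467) (nat_lit 5) (nat_lit 492) (nat_lit 5) (nat_lit 468) (nat_lit 5) (nat_lit 560) (nat_lit 513) (nat_lit 487)) (XT.lf (nat_lit 0) (nat_lit 1660395779) (nat_lit 1064) (nat_lit 3457182914) (nat_lit 1140) (nat_lit 2244075865) (nat_lit 453) (nat_lit 5) (nat_lit 467) (nat_lit 5) (nat_lit 468) (nat_lit 5) (nat_lit 561) (nat_lit 513) (nat_lit 486))) (XT.nd (nat_lit 78) (nat_lit 1824) (nat_lit 0) (XT.lf (nat_lit 0) (nat_lit 623928988) (nat_lit 1140) (nat_lit 614338024) (nat_lit 76) (nat_lit 6172297460) (nat_lit 452) (nat_lit 5) (nat_lit 467) (nat_lit 5) (nat_lit 453) (nat_lit 5) (nat_lit 562) (nat_lit 513) (nat_lit 485))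 (XT.nd (nat_lit 78) (nat_lit 912) (nat_lit 0) (XT.lf (nat_lit 0) (nat_lit 3503066705) (nat_lit 988) (nat_lit 2901788871) (nat_lit 76) (nat_lit 1055627640) (nat_lit 440) (nat_lit 5) (nat_lit 453) (nat_lit 5) (nat_lit 441) (nat_lit 5) (nat_lit 563) (nat_lit 513) (nat_lit 484)) (XT.lf (nat_lit 0) (nat_lit 2299883862) (nat_lit 912) (nat_lit 4115072413) (nat_lit 988) (nat_lit 1096944323) (nat_lit 428) (nat_lit 5) (nat_lit 440) (nat_lit 5) (nat_lit 441) (nat_lit 5) (nat_lit 564) (nat_lit 513) (nat_lit 483))))))) (XT.nd (nat_lit 780) (nat_lit 5548) (nat_lit 0) (XT.nd (nat_lit 390) (nat_lit 3192) (nat_lit 0) (XT.nd (nat_lit 156) (nat_lit 1748) (nat_lit 0) (XT.nd (nat_lit 78) (nat_lit 0) (nat_lit 0) (XT.lf (nat_lit 0) (nat_lit 14625525) (nat_lit 836) (nat_lit 1750143115) (nat_lit 912) (nat_lit 5799986550) (nat_lit 416) (nat_lit 5) (nat_lit 427) (nat_lit 5) (nat_lit 428) (nat_lit 5) (nat_lit 565) (nat_lit 513) (nat_lit 482)) (XT.lf (nat_lit 0) (nat_lit 4657404594) (nat_lit 912) (nat_lit 2268541552) (nat_lit 76) (nat_lit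 692811610) (nat_lit 416) (nat_lit 5) (nat_lit 428) (nat_lit 5) (nat_lit 417) (nat_lit 5) (nat_lit 566) (nat_lit 513) (nat_lit 481))) (XT.nd (nat_lit 78) (nat_lit 912) (nat_lit 0) (XT.lf (nat_lit 0) (nat_lit 3093512666) (nat_lit 836) (nat_lit 4495916274) (nat_lit 912) (nat_lit 84784087) (nat_lit 405) (nat_lit 5) (nat_lit 416) (nat_lit 5) (nat_lit 417) (nat_lit 5) (nat_lit 567) (nat_lit 513) (nat_lit 480)) (XT.nd (nat_lit 78) (nat_lit 0) (nat_lit 0) (XT.lf (nat_lit 0) (nat_lit 800527710) (nat_lit 836) (nat_lit 1982103803) (nat_lit 912) (nat_lit 4948365445) (nat_lit 393) (nat_lit 5) (nat_lit 404) (nat_lit 5) (nat_lit 405) (nat_lit 5) (nat_lit 568) (nat_lit 513) (nat_lit 479)) (XT.lf (nat_lit 0) (nat_lit 5691739526) (nat_lit 912) (nat_lit 1496426521) (nat_lit 76) (nat_lit 601032899) (nat_lit 393) (nat_lit 5) (nat_lit 405) (nat_lit 5) (nat_lit 394) (nat_lit 5) (nat_lit 569) (nat_lit 513) (nat_lit 478))))) (XT.nd (nat_lit 156) (nat_lit 1520) (nat_lit 0) (XT.nd (nat_lit 78) (nat_lit 760) (nat_lit 0) (XT.lf (nat_lit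 0) (nat_lit 790801013) (nat_lit 912) (nat_lit 3821872693) (nat_lit 76) (nat_lit 3235969762) (nat_lit 381) (nat_lit 5) (nat_lit 393) (nat_lit 5) (nat_lit 382) (nat_lit 5) (nat_lit 570) (nat_lit 513) (nat_lit 477)) (XT.lf (nat_lit 0) (nat_lit 1726060810) (nat_lit 760) (nat_lit 1956024608) (nat_lit 836) (nat_lit 4227450293) (nat_lit 371) (nat_lit 5) (nat_lit 381) (nat_lit 5) (nat_lit 382) (nat_lit 5) (nat_lit 571) (nat_lit 513) (nat_lit 476))) (XT.nd (nat_lit 78) (nat_lit 1520) (nat_lit 0) (XT.lf (nat_lit 0) (nat_lit 6614457445) (nat_lit 836) (nat_lit 594249288) (nat_lit 76) (nat_lit 763276758) (nat_lit 371) (nat_lit 5) (nat_lit 382) (nat_lit 5) (nat_lit 372) (nat_lit 5) (nat_lit 572) (nat_lit 513) (nat_lit 475)) (XT.nd (nat_lit 78) (nat_lit 684) (nat_lit 0) (XT.lf (nat_lit 0) (nat_lit 1548796932) (nat_lit 836) (nat_lit 2938831184) (nat_lit 76) (nat_lit 3547859319) (nat_lit 360) (nat_lit 5) (nat_lit 371) (nat_lit 5) (nat_lit 361) (nat_lit 5) (nat_lit 573) (nat_lit 513) (nat_lit 474)) (XT.lf (nat_lit 0) (nat_lit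 2782731375) (nat_lit 684) (nat_lit 1688176383) (nat_lit 760) (nat_lit 3629660223) (nat_lit 351) (nat_lit 5) (nat_lit 360) (nat_lit 5) (nat_lit 361) (nat_lit 5) (nat_lit 574) (nat_lit 513) (nat_lit 473)))))) (XT.nd (nat_lit 390) (nat_lit 3268) (nat_lit 0) (XT.nd (nat_lit 156) (nat_lit 1444) (nat_lit 0) (XT.nd (nat_lit 78) (nat_lit 76) (nat_lit 0) (XT.lf (nat_lit 0) (nat_lit 435497188) (nat_lit 760) (nat_lit 7000468871) (nat_lit 836) (nat_lit 731296680) (nat_lit 341) (nat_lit 5) (nat_lit 351) (nat_lit 5) (nat_lit 352) (nat_lit 5) (nat_lit 575) (nat_lit 513) (nat_lit 472)) (XT.lf (nat_lit 0) (nat_lit 2197445067) (nat_lit 836) (nat_lit 1939218098) (nat_lit 76) (nat_lit 4098310051) (nat_lit 340) (nat_lit 5) (nat_lit 351) (nat_lit 5) (nat_lit 341) (nat_lit 5) (nat_lit 576) (nat_lit 513) (nat_lit 471))) (XT.nd (nat_lit 78) (nat_lit 760) (nat_lit 0) (XT.lf (nat_lit 0) (nat_lit 3962621453) (nat_lit 684) (nat_lit 1193468461) (nat_lit 760) (nat_lit 3148231456) (nat_lit 331) (nat_lit 5) (nat_lit 340) (nat_lit 5) (nat_lit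 341) (nat_lit 5) (nat_lit 577) (nat_lit 513) (nat_lit 470)) (XT.nd (nat_lit 78) (nat_lit 76) (nat_lit 0) (XT.lf (nat_lit 0) (nat_lit 1588839995) (nat_lit 684) (nat_lit 6576077137) (nat_lit 760) (nat_lit 210321669) (nat_lit 322) (nat_lit 5) (nat_lit 331) (nat_lit 5) (nat_lit 332) (nat_lit 5) (nat_lit 578) (nat_lit 513) (nat_lit 469)) (XT.lf (nat_lit 0) (nat_lit 2743111399) (nat_lit 760) (nat_lit 830722993) (nat_lit 76) (nat_lit 4873514607) (nat_lit 321) (nat_lit 5) (nat_lit 331) (nat_lit 5) (nat_lit 322) (nat_lit 5) (nat_lit 579) (nat_lit 513) (nat_lit 468))))) (XT.nd (nat_lit 234) (nat_lit 1292) (nat_lit 0) (XT.nd (nat_lit 78) (nat_lit 1368) (nat_lit 0) (XT.lf (nat_lit 0) (nat_lit 5258316474) (nat_lit 608) (nat_lit 485561513) (nat_lit 684) (nat_lit 2777176343) (nat_lit 313) (nat_lit 5) (nat_lit 321) (nat_lit 5) (nat_lit 322) (nat_lit 5) (nat_lit 580) (nat_lit 513) (nat_lit 467)) (XT.nd (nat_lit 78) (nat_lit 608) (nat_lit 0) (XT.lf (nat_lit 0) (nat_lit 204471947) (nat_lit 760) (nat_lit 5747037072) (nat_lit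 76) (nat_lit 2644724365) (nat_lit 303) (nat_lit 5) (nat_lit 313) (nat_lit 5) (nat_lit 304) (nat_lit 5) (nat_lit 581) (nat_lit 513) (nat_lit 466)) (XT.lf (nat_lit 0) (nat_lit 384439508) (nat_lit 608) (nat_lit 2809492076) (nat_lit 684) (nat_lit 5478912218) (nat_lit 295) (nat_lit 5) (nat_lit 303) (nat_lit 5) (nat_lit 304) (nat_lit 5) (nat_lit 582) (nat_lit 513) (nat_lit 465)))) (XT.nd (nat_lit 78) (nat_lit 1292) (nat_lit 0) (XT.lf (nat_lit 0) (nat_lit 6242554974) (nat_lit 684) (nat_lit 2090967606) (nat_lit 76) (nat_lit 417478536) (nat_lit 295) (nat_lit 5) (nat_lit 304) (nat_lit 5) (nat_lit 296) (nat_lit 5) (nat_lit 583) (nat_lit 513) (nat_lit 464)) (XT.nd (nat_lit 78) (nat_lit 608) (nat_lit 0) (XT.lf (nat_lit 0) (nat_lit 519394925) (nat_lit 684) (nat_lit 4620281197) (nat_lit 76) (nat_lit 3690883751) (nat_lit 286) (nat_lit 5) (nat_lit 295) (nat_lit 5) (nat_lit 287) (nat_lit 5) (nat_lit 584) (nat_lit 513) (nat_lit 463)) (XT.lf (nat_lit 0) (nat_lit 1706633738) (nat_lit 608) (nat_lit 1851809736) (nat_lit 684)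 (nat_lit 5353251992) (nat_lit 278) (nat_lit 5) (nat_lit 286) (nat_lit 5) (nat_lit 287) (nat_lit 5) (nat_lit 585) (nat_lit 513) (nat_lit 462))))))))
noncomputable def xc50 : XT := (XT.nd (nat_lit 1560) (nat_lit 4256) (nat_lit 0) (XT.nd (nat_lit 780) (nat_lit 3344) (nat_lit 0) (XT.nd (nat_lit 390) (nat_lit 2128) (nat_lit 0) (XT.nd (nat_lit 156) (nat_lit 1140) (nat_lit 0) (XT.nd (nat_lit 78) (nat_lit 684) (nat_lit 0) (XT.lf (nat_lit 0) (nat_lit 6658612785) (nat_lit 684) (nat_lit 834960770) (nat_lit 76) (nat_lit 1500875432) (nat_lit 278) (nat_lit 5) (nat_lit 287) (nat_lit 5) (nat_lit 279) (nat_lit 5) (nat_lit 586) (nat_lit 513) (nat_lit 461)) (XT.lf (nat_lit 0) (nat_lit 741521406) (nat_lit 684) (nat_lit 3411717465) (nat_lit 76) (nat_lit 4925337820) (nat_lit 269) (nat_lit 5) (nat_lit 278) (nat_lit 5) (nat_lit 270) (nat_lit 5) (nat_lit 587) (nat_lit 513) (nat_lit 460))) (XT.nd (nat_lit 78) (nat_lit 608) (nat_lit 0) (XT.lf (nat_lit 0) (nat_lit 3118135848) (nat_lit 532) (nat_lit 717280892) (nat_lit 608) (nat_lit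 5328937960) (nat_lit 262) (nat_lit 5) (nat_lit 269) (nat_lit 5) (nat_lit 270) (nat_lit 5) (nat_lit 588) (nat_lit 513) (nat_lit 459)) (XT.nd (nat_lit 78) (nat_lit 76) (nat_lit 0) (XT.lf (nat_lit 0) (nat_lit 508500725) (nat_lit 532) (nat_lit 6487835619) (nat_lit 608) (nat_lit 2255410856) (nat_lit 255) (nat_lit 5) (nat_lit 262) (nat_lit 5) (nat_lit 263) (nat_lit 5) (nat_lit 589) (nat_lit 513) (nat_lit 458)) (XT.lf (nat_lit 0) (nat_lit 874511391) (nat_lit 608) (nat_lit 2128065512) (nat_lit 76) (nat_lit 6338069006) (nat_lit 254) (nat_lit 5) (nat_lit 262) (nat_lit 5) (nat_lit 255) (nat_lit 5) (nat_lit 590) (nat_lit 513) (nat_lit 457))))) (XT.nd (nat_lit 156) (nat_lit 1064) (nat_lit 0) (XT.nd (nat_lit 78) (nat_lit 532) (nat_lit 0) (XT.lf (nat_lit 0) (nat_lit 4032235388) (nat_lit 608) (nat_lit 4822492532) (nat_lit 76) (nat_lit 576390194) (nat_lit 247) (nat_lit 5) (nat_lit 255) (nat_lit 5) (nat_lit 248) (nat_lit 5) (nat_lit 591) (nat_lit 513) (nat_lit 456)) (XT.lf (nat_lit 0) (nat_lit 1938420246) (nat_lit 532) (nat_lit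 5323495993) (nat_lit 608) (nat_lit 2261309194) (nat_lit 240) (nat_lit 5) (nat_lit 247) (nat_lit 5) (nat_lit 248) (nat_lit 5) (nat_lit 592) (nat_lit 513) (nat_lit 455))) (XT.nd (nat_lit 78) (nat_lit 988) (nat_lit 0) (XT.lf (nat_lit 0) (nat_lit 921387885) (nat_lit 608) (nat_lit 775881149) (nat_lit 76) (nat_lit 7919891832) (nat_lit 239) (nat_lit 5) (nat_lit 247) (nat_lit 5) (nat_lit 240) (nat_lit 5) (nat_lit 593) (nat_lit 513) (nat_lit 454)) (XT.nd (nat_lit 78) (nat_lit 532) (nat_lit 0) (XT.lf (nat_lit 0) (nat_lit 4153753735) (nat_lit 532) (nat_lit 3542464067) (nat_lit 76) (nat_lit 2016134003) (nat_lit 233) (nat_lit 5) (nat_lit 240) (nat_lit 5) (nat_lit 234) (nat_lit 5) (nat_lit 594) (nat_lit 513) (nat_lit 453)) (XT.lf (nat_lit 0) (nat_lit 3437329268) (nat_lit 532) (nat_lit 4015387996) (nat_lit 608) (nat_lit 2356691879) (nat_lit 226) (nat_lit 5) (nat_lit 233) (nat_lit 5) (nat_lit 234) (nat_lit 5) (nat_lit 595) (nat_lit 513) (nat_lit 452)))))) (XT.nd (nat_lit 390) (nat_lit 1824) (nat_lit 0) (XT.nd (nat_lit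 156) (nat_lit 988) (nat_lit 0) (XT.nd (nat_lit 78) (nat_lit 0) (nat_lit 0) (XT.lf (nat_lit 0) (nat_lit 646858236) (nat_lit 456) (nat_lit 241892613) (nat_lit 532) (nat_lit 9019711766) (nat_lit 219) (nat_lit 5) (nat_lit 225) (nat_lit 5) (nat_lit 226) (nat_lit 5) (nat_lit 596) (nat_lit 513) (nat_lit 451)) (XT.lf (nat_lit 0) (nat_lit 4197612874) (nat_lit 532) (nat_lit 2208052869) (nat_lit 76) (nat_lit 3602920022) (nat_lit 219) (nat_lit 5) (nat_lit 226) (nat_lit 5) (nat_lit 220) (nat_lit 5) (nat_lit 597) (nat_lit 513) (nat_lit 450))) (XT.nd (nat_lit 78) (nat_lit 532) (nat_lit 0) (XT.lf (nat_lit 0) (nat_lit 4998910396) (nat_lit 456) (nat_lit 2572088503) (nat_lit 532) (nat_lit 2539747010) (nat_lit 213) (nat_lit 5) (nat_lit 219) (nat_lit 5) (nat_lit 220) (nat_lit 5) (nat_lit 598) (nat_lit 513) (nat_lit 449)) (XT.nd (nat_lit 78) (nat_lit 0) (nat_lit 0) (XT.lf (nat_lit 0) (nat_lit 788465834) (nat_lit 532) (nat_lit 8087508437) (nat_lit 76) (nat_lit 1338832634) (nat_lit 206) (nat_lit 5) (nat_lit 213) (nat_lit 5) (nat_lit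 207) (nat_lit 5) (nat_lit 599) (nat_lit 513) (nat_lit 448)) (XT.lf (nat_lit 0) (nat_lit 4165510538) (nat_lit 532) (nat_lit 825849680) (nat_lit 76) (nat_lit 5328929034) (nat_lit 206) (nat_lit 5) (nat_lit 213) (nat_lit 5) (nat_lit 207) (nat_lit 5) (nat_lit 600) (nat_lit 513) (nat_lit 447))))) (XT.nd (nat_lit 156) (nat_lit 912) (nat_lit 0) (XT.nd (nat_lit 78) (nat_lit 456) (nat_lit 0) (XT.lf (nat_lit 0) (nat_lit 6616829395) (nat_lit 456) (nat_lit 1001599200) (nat_lit 532) (nat_lit 2809287355) (nat_lit 200) (nat_lit 5) (nat_lit 206) (nat_lit 5) (nat_lit 207) (nat_lit 5) (nat_lit 601) (nat_lit 513) (nat_lit 446)) (XT.lf (nat_lit 0) (nat_lit 610171977) (nat_lit 456) (nat_lit 6881837098) (nat_lit 76) (nat_lit 3044905730) (nat_lit 194) (nat_lit 5) (nat_lit 200) (nat_lit 5) (nat_lit 195) (nat_lit 5) (nat_lit 602) (nat_lit 513) (nat_lit 445))) (XT.nd (nat_lit 78) (nat_lit 456) (nat_lit 0) (XT.lf (nat_lit 0) (nat_lit 605407256) (nat_lit 456) (nat_lit 3457070616) (nat_lit 532) (nat_lit 6585408180) (nat_lit 188) (nat_lit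 5) (nat_lit 194) (nat_lit 5) (nat_lit 195) (nat_lit 5) (nat_lit 603) (nat_lit 513) (nat_lit 444)) (XT.nd (nat_lit 78) (nat_lit 456) (nat_lit 0) (XT.lf (nat_lit 0) (nat_lit 7600554337) (nat_lit 532) (nat_lit 2480642507) (nat_lit 76) (nat_lit 679546641) (nat_lit 188) (nat_lit 5) (nat_lit 195) (nat_lit 5) (nat_lit 189) (nat_lit 5) (nat_lit 604) (nat_lit 513) (nat_lit 443)) (XT.lf (nat_lit 0) (nat_lit 352778538) (nat_lit 456) (nat_lit 5650192846) (nat_lit 76) (nat_lit 4872372202) (nat_lit 182) (nat_lit 5) (nat_lit 188) (nat_lit 5) (nat_lit 183) (nat_lit 5) (nat_lit 605) (nat_lit 513) (nat_lit 442))))))) (XT.nd (nat_lit 780) (nat_lit 1444) (nat_lit 0) (XT.nd (nat_lit 390) (nat_lit 1216) (nat_lit 0) (XT.nd (nat_lit 156) (nat_lit 1216) (nat_lit 0) (XT.nd (nat_lit 78) (nat_lit 0) (nat_lit 0) (XT.lf (nat_lit 0) (nat_lit 2082366578) (nat_lit 380) (nat_lit 1808377905) (nat_lit 456) (nat_lit 7101133531) (nat_lit 177) (nat_lit 5) (nat_lit 182) (nat_lit 5) (nat_lit 183) (nat_lit 5) (nat_lit 606) (nat_lit 513) (nat_lit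 441)) (XT.lf (nat_lit 0) (nat_lit 7520623894) (nat_lit 456) (nat_lit 1131008026) (nat_lit 76) (nat_lit 2458689284) (nat_lit 177) (nat_lit 5) (nat_lit 183) (nat_lit 5) (nat_lit 178) (nat_lit 5) (nat_lit 607) (nat_lit 513) (nat_lit 440))) (XT.nd (nat_lit 78) (nat_lit 760) (nat_lit 0) (XT.lf (nat_lit 0) (nat_lit 16153964) (nat_lit 456) (nat_lit 4399989451) (nat_lit 76) (nat_lit 6814510377) (nat_lit 171) (nat_lit 5) (nat_lit 177) (nat_lit 5) (nat_lit 172) (nat_lit 5) (nat_lit 608) (nat_lit 513) (nat_lit 439)) (XT.nd (nat_lit 78) (nat_lit 380) (nat_lit 0) (XT.lf (nat_lit 0) (nat_lit 3586873865) (nat_lit 380) (nat_lit 57853175) (nat_lit 456) (nat_lit 7708219106) (nat_lit 166) (nat_lit 5) (nat_lit 171) (nat_lit 5) (nat_lit 172) (nat_lit 5) (nat_lit 609) (nat_lit 513) (nat_lit 438)) (XT.lf (nat_lit 0) (nat_lit 240289656) (nat_lit 380) (nat_lit 7133244684) (nat_lit 456) (nat_lit 4103597820) (nat_lit 161) (nat_lit 5) (nat_lit 166) (nat_lit 5) (nat_lit 167) (nat_lit 5) (nat_lit 610) (nat_lit 513) (nat_lit 437)))))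 (XT.nd (nat_lit 156) (nat_lit 760) (nat_lit 0) (XT.nd (nat_lit 78) (nat_lit 456) (nat_lit 0) (XT.lf (nat_lit 0) (nat_lit 8461789383) (nat_lit 380) (nat_lit 2735822811) (nat_lit 456) (nat_lit 405776858) (nat_lit 161) (nat_lit 5) (nat_lit 166) (nat_lit 5) (nat_lit 167) (nat_lit 5) (nat_lit 611) (nat_lit 513) (nat_lit 436)) (XT.lf (nat_lit 0) (nat_lit 3335264290) (nat_lit 456) (nat_lit 6631887990) (nat_lit 76) (nat_lit 1764314533) (nat_lit 155) (nat_lit 5) (nat_lit 161) (nat_lit 5) (nat_lit 156) (nat_lit 5) (nat_lit 612) (nat_lit 513) (nat_lit 435))) (XT.nd (nat_lit 78) (nat_lit 456) (nat_lit 0) (XT.lf (nat_lit 0) (nat_lit 1637518379) (nat_lit 304) (nat_lit 5526947416) (nat_lit 380) (nat_lit 4697212220) (nat_lit 151) (nat_lit 5) (nat_lit 155) (nat_lit 5) (nat_lit 156) (nat_lit 5) (nat_lit 613) (nat_lit 513) (nat_lit 434)) (XT.nd (nat_lit 78) (nat_lit 456) (nat_lit 0) (XT.lf (nat_lit 0) (nat_lit 10113040825) (nat_lit 304) (nat_lit 970803077) (nat_lit 380) (nat_lit 910378655) (nat_lit 151) (nat_lit 5) (nat_lit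 155) (nat_lit 5) (nat_lit 156) (nat_lit 5) (nat_lit 614) (nat_lit 513) (nat_lit 433)) (XT.lf (nat_lit 0) (nat_lit 2950295583) (nat_lit 456) (nat_lit 5504880246) (nat_lit 76) (nat_lit 3673123287) (nat_lit 145) (nat_lit 5) (nat_lit 151) (nat_lit 5) (nat_lit 146) (nat_lit 5) (nat_lit 615) (nat_lit 513) (nat_lit 432)))))) (XT.nd (nat_lit 390) (nat_lit 76) (nat_lit 0) (XT.nd (nat_lit 156) (nat_lit 1064) (nat_lit 0) (XT.nd (nat_lit 78) (nat_lit 0) (nat_lit 0) (XT.lf (nat_lit 0) (nat_lit 3037320410) (nat_lit 304) (nat_lit 3847201981) (nat_lit 380) (nat_lit 5380244793) (nat_lit 141) (nat_lit 5) (nat_lit 145) (nat_lit 5) (nat_lit 146) (nat_lit 5) (nat_lit 616) (nat_lit 513) (nat_lit 431)) (XT.lf (nat_lit 0) (nat_lit 10909978495) (nat_lit 380) (nat_lit 632964245) (nat_lit 76) (nat_lit 860771872) (nat_lit 141) (nat_lit 5) (nat_lit 146) (nat_lit 5) (nat_lit 142) (nat_lit 5) (nat_lit 617) (nat_lit 513) (nat_lit 430))) (XT.nd (nat_lit 78) (nat_lit 608) (nat_lit 0) (XT.lf (nat_lit 0) (nat_lit 2487342279) (nat_lit 456)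 (nat_lit 4393766923) (nat_lit 76) (nat_lit 5663027030) (nat_lit 135) (nat_lit 5) (nat_lit 141) (nat_lit 5) (nat_lit 136) (nat_lit 5) (nat_lit 618) (nat_lit 513) (nat_lit 429)) (XT.nd (nat_lit 78) (nat_lit 304) (nat_lit 0) (XT.lf (nat_lit 0) (nat_lit 4430799593) (nat_lit 304) (nat_lit 2100792632) (nat_lit 380) (nat_lit 6155506407) (nat_lit 131) (nat_lit 5) (nat_lit 135) (nat_lit 5) (nat_lit 136) (nat_lit 5) (nat_lit 619) (nat_lit 513) (nat_lit 428)) (XT.lf (nat_lit 0) (nat_lit 600540166) (nat_lit 304) (nat_lit 10078421465) (nat_lit 380) (nat_lit 2153514786) (nat_lit 127) (nat_lit 5) (nat_lit 131) (nat_lit 5) (nat_lit 132) (nat_lit 5) (nat_lit 620) (nat_lit 513) (nat_lit 427))))) (XT.nd (nat_lit 74334) (nat_lit 0) (nat_lit 46816) (XT.nd (nat_lit 74256) (nat_lit 0) (nat_lit 48032) (XT.lf (nat_lit 0) (nat_lit 1943616298) (nat_lit 380) (nat_lit 3308303059) (nat_lit 76) (nat_lit 7727784920) (nat_lit 126) (nat_lit 5) (nat_lit 131) (nat_lit 5) (nat_lit 127) (nat_lit 5) (nat_lit 621) (nat_lit 513) (nat_lit 426))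 (XT.lf (nat_lit 0) (nat_lit 800147564) (nat_lit 532) (nat_lit 1655067633) (nat_lit 0) (nat_lit 800147564) (nat_lit 758) (nat_lit 5) (nat_lit 765) (nat_lit 4) (nat_lit 758) (nat_lit 4) (nat_lit 532) (nat_lit 514) (nat_lit 514))) (XT.nd (nat_lit 78) (nat_lit 684) (nat_lit 0) (XT.lf (nat_lit 0) (nat_lit 501763077) (nat_lit 532) (nat_lit 4323877540) (nat_lit 532) (nat_lit 1697205862) (nat_lit 751) (nat_lit 4) (nat_lit 758) (nat_lit 5) (nat_lit 758) (nat_lit 4) (nat_lit 533) (nat_lit 514) (nat_lit 513)) (XT.nd (nat_lit 78) (nat_lit 608) (nat_lit 0) (XT.lf (nat_lit 0) (nat_lit 1504598252) (nat_lit 608) (nat_lit 2162551521) (nat_lit 76) (nat_lit 2868962268) (nat_lit 750) (nat_lit 5) (nat_lit 758) (nat_lit 5) (nat_lit 751) (nat_lit 4) (nat_lit 534) (nat_lit 514) (nat_lit 512)) (XT.lf (nat_lit 0) (nat_lit 1733521457) (nat_lit 608) (nat_lit 2949664811) (nat_lit 684) (nat_lit 1867530854) (nat_lit 742) (nat_lit 5) (nat_lit 750) (nat_lit 5) (nat_lit 751) (nat_lit 4) (nat_lit 535) (nat_lit 514) (nat_lit 511))))))))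
noncomputable def xc51 : XT := (XT.nd (nat_lit 1560) (nat_lit 15048) (nat_lit 0) (XT.nd (nat_lit 780) (nat_lit 9880) (nat_lit 0) (XT.nd (nat_lit 390) (nat_lit 3116) (nat_lit 0) (XT.nd (nat_lit 156) (nat_lit 1748) (nat_lit 0) (XT.nd (nat_lit 78) (nat_lit 684) (nat_lit 0) (XT.lf (nat_lit 0) (nat_lit 1281358014) (nat_lit 684) (nat_lit 889213887) (nat_lit 76) (nat_lit 4396084388) (nat_lit 741) (nat_lit 5) (nat_lit 750) (nat_lit 5) (nat_lit 742) (nat_lit 5) (nat_lit 536) (nat_lit 514) (nat_lit 510)) (XT.lf (nat_lit 0) (nat_lit 3094768530) (nat_lit 684) (nat_lit 1319891494) (nat_lit 760) (nat_lit 2169086076) (nat_lit 732) (nat_lit 5) (nat_lit 741) (nat_lit 5) (nat_lit 742) (nat_lit 5) (nat_lit 537) (nat_lit 514) (nat_lit 509))) (XT.nd (nat_lit 78) (nat_lit 912) (nat_lit 0) (XT.lf (nat_lit 0) (nat_lit 518204925) (nat_lit 760) (nat_lit 414331624) (nat_lit 836) (nat_lit 5669790864) (nat_lit 721) (nat_lit 5) (nat_lit 731) (nat_lit 5) (nat_lit 732) (nat_lit 5) (nat_lit 538) (nat_lit 514) (nat_lit 508)) (XT.nd (nat_lit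 78) (nat_lit 912) (nat_lit 0) (XT.lf (nat_lit 0) (nat_lit 4022239808) (nat_lit 836) (nat_lit 2038480659) (nat_lit 76) (nat_lit 561178433) (nat_lit 721) (nat_lit 5) (nat_lit 732) (nat_lit 5) (nat_lit 722) (nat_lit 5) (nat_lit 539) (nat_lit 514) (nat_lit 507)) (XT.lf (nat_lit 0) (nat_lit 470255028) (nat_lit 912) (nat_lit 4585325468) (nat_lit 76) (nat_lit 1587312017) (nat_lit 709) (nat_lit 5) (nat_lit 721) (nat_lit 5) (nat_lit 710) (nat_lit 5) (nat_lit 540) (nat_lit 514) (nat_lit 506))))) (XT.nd (nat_lit 156) (nat_lit 2204) (nat_lit 0) (XT.nd (nat_lit 78) (nat_lit 912) (nat_lit 0) (XT.lf (nat_lit 0) (nat_lit 3510739944) (nat_lit 912) (nat_lit 470400489) (nat_lit 76) (nat_lit 2683948984) (nat_lit 709) (nat_lit 5) (nat_lit 721) (nat_lit 5) (nat_lit 710) (nat_lit 5) (nat_lit 541) (nat_lit 514) (nat_lit 505)) (XT.lf (nat_lit 0) (nat_lit 3724465069) (nat_lit 912) (nat_lit 2843299756) (nat_lit 988) (nat_lit 120857433) (nat_lit 697) (nat_lit 5) (nat_lit 709) (nat_lit 5) (nat_lit 710) (nat_lit 5) (nat_lit 542) (nat_lit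 514) (nat_lit 504))) (XT.nd (nat_lit 78) (nat_lit 1140) (nat_lit 0) (XT.lf (nat_lit 0) (nat_lit 1242231565) (nat_lit 988) (nat_lit 1635427869) (nat_lit 1064) (nat_lit 3835719565) (nat_lit 683) (nat_lit 5) (nat_lit 696) (nat_lit 5) (nat_lit 697) (nat_lit 5) (nat_lit 543) (nat_lit 514) (nat_lit 503)) (XT.nd (nat_lit 78) (nat_lit 1140) (nat_lit 0) (XT.lf (nat_lit 0) (nat_lit 5520680970) (nat_lit 988) (nat_lit 366839436) (nat_lit 1064) (nat_lit 852040872) (nat_lit 683) (nat_lit 5) (nat_lit 696) (nat_lit 5) (nat_lit 697) (nat_lit 5) (nat_lit 544) (nat_lit 514) (nat_lit 502)) (XT.lf (nat_lit 0) (nat_lit 2122975092) (nat_lit 1140) (nat_lit 3679784487) (nat_lit 76) (nat_lit 964020991) (nat_lit 668) (nat_lit 5) (nat_lit 683) (nat_lit 5) (nat_lit 669) (nat_lit 5) (nat_lit 545) (nat_lit 514) (nat_lit 501)))))) (XT.nd (nat_lit 390) (nat_lit 6080) (nat_lit 0) (XT.nd (nat_lit 156) (nat_lit 2584) (nat_lit 0) (XT.nd (nat_lit 78) (nat_lit 76) (nat_lit 0) (XT.lf (nat_lit 0) (nat_lit 649147193) (nat_lit 1140) (nat_lit 4446854778)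 (nat_lit 1216) (nat_lit 1699437113) (nat_lit 653) (nat_lit 5) (nat_lit 668) (nat_lit 5) (nat_lit 669) (nat_lit 5) (nat_lit 546) (nat_lit 514) (nat_lit 500)) (XT.lf (nat_lit 0) (nat_lit 1247113166) (nat_lit 1216) (nat_lit 1771157340) (nat_lit 76) (nat_lit 3807028704) (nat_lit 652) (nat_lit 5) (nat_lit 668) (nat_lit 5) (nat_lit 653) (nat_lit 5) (nat_lit 547) (nat_lit 514) (nat_lit 499))) (XT.nd (nat_lit 78) (nat_lit 1368) (nat_lit 0) (XT.lf (nat_lit 0) (nat_lit 2663302487) (nat_lit 1216) (nat_lit 1520651207) (nat_lit 1292) (nat_lit 2672501409) (nat_lit 636) (nat_lit 5) (nat_lit 652) (nat_lit 5) (nat_lit 653) (nat_lit 5) (nat_lit 548) (nat_lit 514) (nat_lit 498)) (XT.nd (nat_lit 78) (nat_lit 0) (nat_lit 0) (XT.lf (nat_lit 0) (nat_lit 238708727) (nat_lit 1368) (nat_lit 6617689959) (nat_lit 76) (nat_lit 32778268) (nat_lit 618) (nat_lit 5) (nat_lit 636) (nat_lit 5) (nat_lit 619) (nat_lit 5) (nat_lit 549) (nat_lit 514) (nat_lit 497)) (XT.lf (nat_lit 0) (nat_lit 3149030934) (nat_lit 1368) (nat_lit 2120998400) (nat_lit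 76) (nat_lit 1652642355) (nat_lit 618) (nat_lit 5) (nat_lit 636) (nat_lit 5) (nat_lit 619) (nat_lit 5) (nat_lit 550) (nat_lit 514) (nat_lit 496))))) (XT.nd (nat_lit 156) (nat_lit 3192) (nat_lit 0) (XT.nd (nat_lit 78) (nat_lit 1520) (nat_lit 0) (XT.lf (nat_lit 0) (nat_lit 2445433561) (nat_lit 1368) (nat_lit 3627458367) (nat_lit 1444) (nat_lit 884842849) (nat_lit 600) (nat_lit 5) (nat_lit 618) (nat_lit 5) (nat_lit 619) (nat_lit 5) (nat_lit 551) (nat_lit 514) (nat_lit 495)) (XT.lf (nat_lit 0) (nat_lit 73488402) (nat_lit 1444) (nat_lit 1915911792) (nat_lit 1520) (nat_lit 5004741931) (nat_lit 580) (nat_lit 5) (nat_lit 599) (nat_lit 5) (nat_lit 600) (nat_lit 5) (nat_lit 552) (nat_lit 514) (nat_lit 494))) (XT.nd (nat_lit 78) (nat_lit 3192) (nat_lit 0) (XT.lf (nat_lit 0) (nat_lit 4753842946) (nat_lit 1444) (nat_lit 126432552) (nat_lit 1520) (nat_lit 2151470046) (nat_lit 580) (nat_lit 5) (nat_lit 599) (nat_lit 5) (nat_lit 600) (nat_lit 5) (nat_lit 553) (nat_lit 514) (nat_lit 493)) (XT.nd (nat_lit 78) (nat_lit 1596)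 (nat_lit 0) (XT.lf (nat_lit 0) (nat_lit 717432249) (nat_lit 1596) (nat_lit 4649522959) (nat_lit 76) (nat_lit 1703681554) (nat_lit 559) (nat_lit 5) (nat_lit 580) (nat_lit 5) (nat_lit 560) (nat_lit 5) (nat_lit 554) (nat_lit 514) (nat_lit 492)) (XT.lf (nat_lit 0) (nat_lit 67702685) (nat_lit 1596) (nat_lit 3506256894) (nat_lit 1672) (nat_lit 3536885226) (nat_lit 538) (nat_lit 5) (nat_lit 559) (nat_lit 5) (nat_lit 560) (nat_lit 5) (nat_lit 555) (nat_lit 514) (nat_lit 491))))))) (XT.nd (nat_lit 780) (nat_lit 6612) (nat_lit 0) (XT.nd (nat_lit 390) (nat_lit 3040) (nat_lit 0) (XT.nd (nat_lit 156) (nat_lit 3648) (nat_lit 0) (XT.nd (nat_lit 78) (nat_lit 1748) (nat_lit 0) (XT.lf (nat_lit 0) (nat_lit 4889660359) (nat_lit 1596) (nat_lit 1572310413) (nat_lit 1672) (nat_lit 690403616) (nat_lit 538) (nat_lit 5) (nat_lit 559) (nat_lit 5) (nat_lit 560) (nat_lit 5) (nat_lit 556) (nat_lit 514) (nat_lit 490)) (XT.lf (nat_lit 0) (nat_lit 2147460972) (nat_lit 1748) (nat_lit 4617626582) (nat_lit 76) (nat_lit 430094366) (nat_lit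 515) (nat_lit 5) (nat_lit 538) (nat_lit 5) (nat_lit 516) (nat_lit 5) (nat_lit 557) (nat_lit 514) (nat_lit 489))) (XT.nd (nat_lit 78) (nat_lit 1900) (nat_lit 0) (XT.lf (nat_lit 0) (nat_lit 241700364) (nat_lit 1748) (nat_lit 4763091013) (nat_lit 1824) (nat_lit 2234528080) (nat_lit 492) (nat_lit 5) (nat_lit 515) (nat_lit 5) (nat_lit 516) (nat_lit 5) (nat_lit 558) (nat_lit 514) (nat_lit 488)) (XT.nd (nat_lit 78) (nat_lit 1824) (nat_lit 0) (XT.lf (nat_lit 0) (nat_lit 602847718) (nat_lit 1824) (nat_lit 2080769215) (nat_lit 76) (nat_lit 4601119464) (nat_lit 491) (nat_lit 5) (nat_lit 515) (nat_lit 5) (nat_lit 492) (nat_lit 5) (nat_lit 559) (nat_lit 514) (nat_lit 487)) (XT.lf (nat_lit 0) (nat_lit 2905243222) (nat_lit 1824) (nat_lit 526829941) (nat_lit 1900) (nat_lit 3899396604) (nat_lit 467) (nat_lit 5) (nat_lit 491) (nat_lit 5) (nat_lit 492) (nat_lit 5) (nat_lit 560) (nat_lit 514) (nat_lit 486))))) (XT.nd (nat_lit 156) (nat_lit 1900) (nat_lit 0) (XT.nd (nat_lit 78) (nat_lit 76) (nat_lit 0) (XT.lf (nat_lit 0) (nat_lit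 583817054) (nat_lit 1064) (nat_lit 5709631027) (nat_lit 1140) (nat_lit 1086182290) (nat_lit 453) (nat_lit 5) (nat_lit 467) (nat_lit 5) (nat_lit 468) (nat_lit 5) (nat_lit 561) (nat_lit 514) (nat_lit 485)) (XT.lf (nat_lit 0) (nat_lit 1740499885) (nat_lit 1140) (nat_lit 1742926492) (nat_lit 76) (nat_lit 3945488127) (nat_lit 452) (nat_lit 5) (nat_lit 467) (nat_lit 5) (nat_lit 453) (nat_lit 5) (nat_lit 562) (nat_lit 514) (nat_lit 484))) (XT.nd (nat_lit 78) (nat_lit 988) (nat_lit 0) (XT.lf (nat_lit 0) (nat_lit 3395849681) (nat_lit 912) (nat_lit 1183622838) (nat_lit 988) (nat_lit 2900165835) (nat_lit 440) (nat_lit 5) (nat_lit 452) (nat_lit 5) (nat_lit 453) (nat_lit 5) (nat_lit 563) (nat_lit 514) (nat_lit 483)) (XT.nd (nat_lit 78) (nat_lit 76) (nat_lit 0) (XT.lf (nat_lit 0) (nat_lit 1083283751) (nat_lit 912) (nat_lit 6367201571) (nat_lit 988) (nat_lit 81389718) (nat_lit 428) (nat_lit 5) (nat_lit 440) (nat_lit 5) (nat_lit 441) (nat_lit 5) (nat_lit 564) (nat_lit 514) (nat_lit 482)) (XT.lf (nat_lit 0) (nat_lit 2741775240)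 (nat_lit 988) (nat_lit 1255226239) (nat_lit 76) (nat_lit 3588102557) (nat_lit 427) (nat_lit 5) (nat_lit 440) (nat_lit 5) (nat_lit 428) (nat_lit 5) (nat_lit 565) (nat_lit 514) (nat_lit 481)))))) (XT.nd (nat_lit 390) (nat_lit 3116) (nat_lit 0) (XT.nd (nat_lit 156) (nat_lit 1748) (nat_lit 0) (XT.nd (nat_lit 78) (nat_lit 912) (nat_lit 0) (XT.lf (nat_lit 0) (nat_lit 4042014820) (nat_lit 836) (nat_lit 1554768419) (nat_lit 912) (nat_lit 2043077588) (nat_lit 416) (nat_lit 5) (nat_lit 427) (nat_lit 5) (nat_lit 428) (nat_lit 5) (nat_lit 566) (nat_lit 514) (nat_lit 480)) (XT.lf (nat_lit 0) (nat_lit 778990366) (nat_lit 912) (nat_lit 5971166338) (nat_lit 76) (nat_lit 945924160) (nat_lit 404) (nat_lit 5) (nat_lit 416) (nat_lit 5) (nat_lit 405) (nat_lit 5) (nat_lit 567) (nat_lit 514) (nat_lit 479))) (XT.nd (nat_lit 78) (nat_lit 1748) (nat_lit 0) (XT.lf (nat_lit 0) (nat_lit 3615908412) (nat_lit 912) (nat_lit 627417912) (nat_lit 76) (nat_lit 3510116745) (nat_lit 404) (nat_lit 5) (nat_lit 416) (nat_lit 5) (nat_lit 405) (nat_lit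 5) (nat_lit 568) (nat_lit 514) (nat_lit 478)) (XT.nd (nat_lit 78) (nat_lit 912) (nat_lit 0) (XT.lf (nat_lit 0) (nat_lit 4834265771) (nat_lit 836) (nat_lit 1658784501) (nat_lit 912) (nat_lit 1319235648) (nat_lit 393) (nat_lit 5) (nat_lit 404) (nat_lit 5) (nat_lit 405) (nat_lit 5) (nat_lit 569) (nat_lit 514) (nat_lit 477)) (XT.lf (nat_lit 0) (nat_lit 1514475269) (nat_lit 912) (nat_lit 5367517616) (nat_lit 76) (nat_lit 990524841) (nat_lit 381) (nat_lit 5) (nat_lit 393) (nat_lit 5) (nat_lit 382) (nat_lit 5) (nat_lit 570) (nat_lit 514) (nat_lit 476))))) (XT.nd (nat_lit 234) (nat_lit 1520) (nat_lit 0) (XT.nd (nat_lit 78) (nat_lit 836) (nat_lit 0) (XT.lf (nat_lit 0) (nat_lit 133190286) (nat_lit 760) (nat_lit 4238932155) (nat_lit 836) (nat_lit 3561961723) (nat_lit 371) (nat_lit 5) (nat_lit 381) (nat_lit 5) (nat_lit 382) (nat_lit 5) (nat_lit 571) (nat_lit 514) (nat_lit 475)) (XT.nd (nat_lit 78) (nat_lit 836) (nat_lit 0) (XT.lf (nat_lit 0) (nat_lit 5763824108) (nat_lit 760) (nat_lit 1512640455) (nat_lit 836) (nat_lit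 720629404) (nat_lit 371) (nat_lit 5) (nat_lit 381) (nat_lit 5) (nat_lit 382) (nat_lit 5) (nat_lit 572) (nat_lit 514) (nat_lit 474)) (XT.lf (nat_lit 0) (nat_lit 2133764162) (nat_lit 836) (nat_lit 4645935659) (nat_lit 76) (nat_lit 1281688280) (nat_lit 360) (nat_lit 5) (nat_lit 371) (nat_lit 5) (nat_lit 361) (nat_lit 5) (nat_lit 573) (nat_lit 514) (nat_lit 473)))) (XT.nd (nat_lit 78) (nat_lit 836) (nat_lit 0) (XT.lf (nat_lit 0) (nat_lit 1026382889) (nat_lit 684) (nat_lit 3995636865) (nat_lit 760) (nat_lit 3105127339) (nat_lit 351) (nat_lit 5) (nat_lit 360) (nat_lit 5) (nat_lit 361) (nat_lit 5) (nat_lit 574) (nat_lit 514) (nat_lit 472)) (XT.nd (nat_lit 78) (nat_lit 836) (nat_lit 0) (XT.lf (nat_lit 0) (nat_lit 6822530441) (nat_lit 684) (nat_lit 1131881734) (nat_lit 760) (nat_lit 240084309) (nat_lit 351) (nat_lit 5) (nat_lit 360) (nat_lit 5) (nat_lit 361) (nat_lit 5) (nat_lit 575) (nat_lit 514) (nat_lit 471)) (XT.lf (nat_lit 0) (nat_lit 2643692783) (nat_lit 836) (nat_lit 3814686264) (nat_lit 76) (nat_lit 1804535838)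 (nat_lit 340) (nat_lit 5) (nat_lit 351) (nat_lit 5) (nat_lit 341) (nat_lit 5) (nat_lit 576) (nat_lit 514) (nat_lit 470))))))))
noncomputable def xc52 : XT := (XT.nd (nat_lit 1560) (nat_lit 6080) (nat_lit 0) (XT.nd (nat_lit 780) (nat_lit 4028) (nat_lit 0) (XT.nd (nat_lit 390) (nat_lit 1900) (nat_lit 0) (XT.nd (nat_lit 156) (nat_lit 2052) (nat_lit 0) (XT.nd (nat_lit 78) (nat_lit 76) (nat_lit 0) (XT.lf (nat_lit 0) (nat_lit 2035826768) (nat_lit 684) (nat_lit 3532346402) (nat_lit 760) (nat_lit 2764774398) (nat_lit 331) (nat_lit 5) (nat_lit 340) (nat_lit 5) (nat_lit 341) (nat_lit 5) (nat_lit 577) (nat_lit 514) (nat_lit 469)) (XT.lf (nat_lit 0) (nat_lit 127093102) (nat_lit 760) (nat_lit 402800234) (nat_lit 76) (nat_lit 7874825801) (nat_lit 330) (nat_lit 5) (nat_lit 340) (nat_lit 5) (nat_lit 331) (nat_lit 5) (nat_lit 578) (nat_lit 514) (nat_lit 468))) (XT.nd (nat_lit 78) (nat_lit 1368) (nat_lit 0) (XT.lf (nat_lit 0) (nat_lit 3050341950) (nat_lit 760) (nat_lit 2881553563) (nat_lit 76) (nat_lit 2545456194) (nat_lit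 321) (nat_lit 5) (nat_lit 331) (nat_lit 5) (nat_lit 322) (nat_lit 5) (nat_lit 579) (nat_lit 514) (nat_lit 467)) (XT.nd (nat_lit 78) (nat_lit 760) (nat_lit 0) (XT.lf (nat_lit 0) (nat_lit 3154008684) (nat_lit 608) (nat_lit 2862537445) (nat_lit 684) (nat_lit 2535203303) (nat_lit 313) (nat_lit 5) (nat_lit 321) (nat_lit 5) (nat_lit 322) (nat_lit 5) (nat_lit 580) (nat_lit 514) (nat_lit 466)) (XT.lf (nat_lit 0) (nat_lit 392698802) (nat_lit 760) (nat_lit 7954151137) (nat_lit 76) (nat_lit 281059678) (nat_lit 303) (nat_lit 5) (nat_lit 313) (nat_lit 5) (nat_lit 304) (nat_lit 5) (nat_lit 581) (nat_lit 514) (nat_lit 465))))) (XT.nd (nat_lit 156) (nat_lit 1292) (nat_lit 0) (XT.nd (nat_lit 78) (nat_lit 608) (nat_lit 0) (XT.lf (nat_lit 0) (nat_lit 3359073512) (nat_lit 760) (nat_lit 1853909650) (nat_lit 76) (nat_lit 3491999650) (nat_lit 303) (nat_lit 5) (nat_lit 313) (nat_lit 5) (nat_lit 304) (nat_lit 5) (nat_lit 582) (nat_lit 514) (nat_lit 464)) (XT.lf (nat_lit 0) (nat_lit 4373827591) (nat_lit 608) (nat_lit 1998571835)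 (nat_lit 684) (nat_lit 2411447706) (nat_lit 295) (nat_lit 5) (nat_lit 303) (nat_lit 5) (nat_lit 304) (nat_lit 5) (nat_lit 583) (nat_lit 514) (nat_lit 463))) (XT.nd (nat_lit 78) (nat_lit 608) (nat_lit 0) (XT.lf (nat_lit 0) (nat_lit 566491325) (nat_lit 684) (nat_lit 7017345182) (nat_lit 76) (nat_lit 1280530400) (nat_lit 286) (nat_lit 5) (nat_lit 295) (nat_lit 5) (nat_lit 287) (nat_lit 5) (nat_lit 584) (nat_lit 514) (nat_lit 462)) (XT.nd (nat_lit 78) (nat_lit 608) (nat_lit 0) (XT.lf (nat_lit 0) (nat_lit 3574561363) (nat_lit 684) (nat_lit 738782889) (nat_lit 76) (nat_lit 4632778815) (nat_lit 286) (nat_lit 5) (nat_lit 295) (nat_lit 5) (nat_lit 287) (nat_lit 5) (nat_lit 585) (nat_lit 514) (nat_lit 461)) (XT.lf (nat_lit 0) (nat_lit 5688526239) (nat_lit 608) (nat_lit 951794579) (nat_lit 684) (nat_lit 2389244945) (nat_lit 278) (nat_lit 5) (nat_lit 286) (nat_lit 5) (nat_lit 287) (nat_lit 5) (nat_lit 586) (nat_lit 514) (nat_lit 460)))))) (XT.nd (nat_lit 390) (nat_lit 1672) (nat_lit 0) (XT.nd (nat_lit 156) (nat_lit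 1140) (nat_lit 0) (XT.nd (nat_lit 78) (nat_lit 532) (nat_lit 0) (XT.lf (nat_lit 0) (nat_lit 646409694) (nat_lit 684) (nat_lit 6006154986) (nat_lit 76) (nat_lit 2461984729) (nat_lit 269) (nat_lit 5) (nat_lit 278) (nat_lit 5) (nat_lit 270) (nat_lit 5) (nat_lit 587) (nat_lit 514) (nat_lit 459)) (XT.lf (nat_lit 0) (nat_lit 463148859) (nat_lit 532) (nat_lit 3240675872) (nat_lit 608) (nat_lit 5497233213) (nat_lit 262) (nat_lit 5) (nat_lit 269) (nat_lit 5) (nat_lit 270) (nat_lit 5) (nat_lit 588) (nat_lit 514) (nat_lit 458))) (XT.nd (nat_lit 78) (nat_lit 1140) (nat_lit 0) (XT.lf (nat_lit 0) (nat_lit 6825985863) (nat_lit 608) (nat_lit 2199373733) (nat_lit 76) (nat_lit 263866920) (nat_lit 262) (nat_lit 5) (nat_lit 270) (nat_lit 5) (nat_lit 263) (nat_lit 5) (nat_lit 589) (nat_lit 514) (nat_lit 457)) (XT.nd (nat_lit 78) (nat_lit 532) (nat_lit 0) (XT.lf (nat_lit 0) (nat_lit 635849661) (nat_lit 608) (nat_lit 4927473584) (nat_lit 76) (nat_lit 3815500989) (nat_lit 254) (nat_lit 5) (nat_lit 262) (nat_lit 5) (nat_lit 255)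 (nat_lit 5) (nat_lit 590) (nat_lit 514) (nat_lit 456)) (XT.lf (nat_lit 0) (nat_lit 1750072085) (nat_lit 532) (nat_lit 2002504922) (nat_lit 608) (nat_lit 5717540215) (nat_lit 247) (nat_lit 5) (nat_lit 254) (nat_lit 5) (nat_lit 255) (nat_lit 5) (nat_lit 591) (nat_lit 514) (nat_lit 455))))) (XT.nd (nat_lit 156) (nat_lit 1064) (nat_lit 0) (XT.nd (nat_lit 78) (nat_lit 608) (nat_lit 0) (XT.lf (nat_lit 0) (nat_lit 6938206982) (nat_lit 608) (nat_lit 997182565) (nat_lit 76) (nat_lit 1627716844) (nat_lit 247) (nat_lit 5) (nat_lit 255) (nat_lit 5) (nat_lit 248) (nat_lit 5) (nat_lit 592) (nat_lit 514) (nat_lit 454)) (XT.lf (nat_lit 0) (nat_lit 537573536) (nat_lit 608) (nat_lit 3788049677) (nat_lit 76) (nat_lit 5331966479) (nat_lit 239) (nat_lit 5) (nat_lit 247) (nat_lit 5) (nat_lit 240) (nat_lit 5) (nat_lit 593) (nat_lit 514) (nat_lit 453))) (XT.nd (nat_lit 78) (nat_lit 608) (nat_lit 0) (XT.lf (nat_lit 0) (nat_lit 3105681879) (nat_lit 456) (nat_lit 612982507) (nat_lit 532) (nat_lit 6035142531) (nat_lit 233) (nat_lit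 5) (nat_lit 239) (nat_lit 5) (nat_lit 240) (nat_lit 5) (nat_lit 594) (nat_lit 514) (nat_lit 452)) (XT.nd (nat_lit 78) (nat_lit 76) (nat_lit 0) (XT.lf (nat_lit 0) (nat_lit 268745054) (nat_lit 532) (nat_lit 6706446370) (nat_lit 608) (nat_lit 2876522330) (nat_lit 226) (nat_lit 5) (nat_lit 233) (nat_lit 5) (nat_lit 234) (nat_lit 5) (nat_lit 595) (nat_lit 514) (nat_lit 451)) (XT.lf (nat_lit 0) (nat_lit 353723422) (nat_lit 608) (nat_lit 2594556484) (nat_lit 76) (nat_lit 7002995855) (nat_lit 225) (nat_lit 5) (nat_lit 233) (nat_lit 5) (nat_lit 226) (nat_lit 5) (nat_lit 596) (nat_lit 514) (nat_lit 450))))))) (XT.nd (nat_lit 780) (nat_lit 2812) (nat_lit 0) (XT.nd (nat_lit 390) (nat_lit 1368) (nat_lit 0) (XT.nd (nat_lit 156) (nat_lit 988) (nat_lit 0) (XT.nd (nat_lit 78) (nat_lit 456) (nat_lit 0) (XT.lf (nat_lit 0) (nat_lit 3610152372) (nat_lit 532) (nat_lit 5534971644) (nat_lit 76) (nat_lit 907324282) (nat_lit 219) (nat_lit 5) (nat_lit 226) (nat_lit 5) (nat_lit 220) (nat_lit 5) (nat_lit 597) (nat_lit 514) (nat_lit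 449)) (XT.lf (nat_lit 0) (nat_lit 1602392806) (nat_lit 456) (nat_lit 5341760871) (nat_lit 532) (nat_lit 3211243172) (nat_lit 213) (nat_lit 5) (nat_lit 219) (nat_lit 5) (nat_lit 220) (nat_lit 5) (nat_lit 598) (nat_lit 514) (nat_lit 448))) (XT.nd (nat_lit 78) (nat_lit 912) (nat_lit 0) (XT.lf (nat_lit 0) (nat_lit 85829884) (nat_lit 532) (nat_lit 1353661947) (nat_lit 76) (nat_lit 8820852826) (nat_lit 212) (nat_lit 5) (nat_lit 219) (nat_lit 5) (nat_lit 213) (nat_lit 5) (nat_lit 599) (nat_lit 514) (nat_lit 447)) (XT.nd (nat_lit 78) (nat_lit 456) (nat_lit 0) (XT.lf (nat_lit 0) (nat_lit 3427421038) (nat_lit 532) (nat_lit 4386354739) (nat_lit 76) (nat_lit 2552760966) (nat_lit 206) (nat_lit 5) (nat_lit 213) (nat_lit 5) (nat_lit 207) (nat_lit 5) (nat_lit 600) (nat_lit 514) (nat_lit 446)) (XT.lf (nat_lit 0) (nat_lit 2983928742) (nat_lit 456) (nat_lit 3856016521) (nat_lit 532) (nat_lit 3634826713) (nat_lit 200) (nat_lit 5) (nat_lit 206) (nat_lit 5) (nat_lit 207) (nat_lit 5) (nat_lit 601) (nat_lit 514) (nat_lit 445)))))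 (XT.nd (nat_lit 156) (nat_lit 912) (nat_lit 0) (XT.nd (nat_lit 78) (nat_lit 456) (nat_lit 0) (XT.lf (nat_lit 0) (nat_lit 10317813718) (nat_lit 532) (nat_lit 75110714) (nat_lit 76) (nat_lit 192306907) (nat_lit 200) (nat_lit 5) (nat_lit 207) (nat_lit 5) (nat_lit 201) (nat_lit 5) (nat_lit 602) (nat_lit 514) (nat_lit 444)) (XT.lf (nat_lit 0) (nat_lit 3167335822) (nat_lit 456) (nat_lit 3205232687) (nat_lit 76) (nat_lit 4324090615) (nat_lit 194) (nat_lit 5) (nat_lit 200) (nat_lit 5) (nat_lit 195) (nat_lit 5) (nat_lit 603) (nat_lit 514) (nat_lit 443))) (XT.nd (nat_lit 78) (nat_lit 456) (nat_lit 0) (XT.lf (nat_lit 0) (nat_lit 4406662862) (nat_lit 456) (nat_lit 2256725446) (nat_lit 532) (nat_lit 4146969335) (nat_lit 188) (nat_lit 5) (nat_lit 194) (nat_lit 5) (nat_lit 195) (nat_lit 5) (nat_lit 604) (nat_lit 514) (nat_lit 442)) (XT.nd (nat_lit 78) (nat_lit 76) (nat_lit 0) (XT.lf (nat_lit 0) (nat_lit 1242303601) (nat_lit 380) (nat_lit 8996664181) (nat_lit 456) (nat_lit 687171437) (nat_lit 183) (nat_lit 5) (nat_lit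 188) (nat_lit 5) (nat_lit 189) (nat_lit 5) (nat_lit 605) (nat_lit 514) (nat_lit 441)) (XT.lf (nat_lit 0) (nat_lit 2830143081) (nat_lit 456) (nat_lit 1998726397) (nat_lit 76) (nat_lit 6214487248) (nat_lit 182) (nat_lit 5) (nat_lit 188) (nat_lit 5) (nat_lit 183) (nat_lit 5) (nat_lit 606) (nat_lit 514) (nat_lit 440)))))) (XT.nd (nat_lit 390) (nat_lit 1216) (nat_lit 0) (XT.nd (nat_lit 156) (nat_lit 836) (nat_lit 0) (XT.nd (nat_lit 78) (nat_lit 380) (nat_lit 0) (XT.lf (nat_lit 0) (nat_lit 5863717964) (nat_lit 380) (nat_lit 550993589) (nat_lit 456) (nat_lit 4747995141) (nat_lit 177) (nat_lit 5) (nat_lit 182) (nat_lit 5) (nat_lit 183) (nat_lit 5) (nat_lit 607) (nat_lit 514) (nat_lit 439)) (XT.lf (nat_lit 0) (nat_lit 2586484549) (nat_lit 380) (nat_lit 7507767326) (nat_lit 456) (nat_lit 1189727290) (nat_lit 172) (nat_lit 5) (nat_lit 177) (nat_lit 5) (nat_lit 178) (nat_lit 5) (nat_lit 608) (nat_lit 514) (nat_lit 438))) (XT.nd (nat_lit 78) (nat_lit 760) (nat_lit 0) (XT.lf (nat_lit 0) (nat_lit 2415483180) (nat_lit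 456) (nat_lit 774219131) (nat_lit 76) (nat_lit 8217503549) (nat_lit 171) (nat_lit 5) (nat_lit 177) (nat_lit 5) (nat_lit 172) (nat_lit 5) (nat_lit 609) (nat_lit 514) (nat_lit 437)) (XT.nd (nat_lit 78) (nat_lit 380) (nat_lit 0) (XT.lf (nat_lit 0) (nat_lit 6101686449) (nat_lit 456) (nat_lit 4192603049) (nat_lit 76) (nat_lit 1237954974) (nat_lit 166) (nat_lit 5) (nat_lit 172) (nat_lit 5) (nat_lit 167) (nat_lit 5) (nat_lit 610) (nat_lit 514) (nat_lit 436)) (XT.lf (nat_lit 0) (nat_lit 3948973996) (nat_lit 380) (nat_lit 5933773185) (nat_lit 456) (nat_lit 1776615034) (nat_lit 161) (nat_lit 5) (nat_lit 166) (nat_lit 5) (nat_lit 167) (nat_lit 5) (nat_lit 611) (nat_lit 514) (nat_lit 435))))) (XT.nd (nat_lit 156) (nat_lit 760) (nat_lit 0) (XT.nd (nat_lit 78) (nat_lit 0) (nat_lit 0) (XT.lf (nat_lit 0) (nat_lit 466680069) (nat_lit 380) (nat_lit 1458728506) (nat_lit 456) (nat_lit 9863349824) (nat_lit 155) (nat_lit 5) (nat_lit 160) (nat_lit 5) (nat_lit 161) (nat_lit 5) (nat_lit 612) (nat_lit 514) (nat_lit 434)) (XT.lf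 (nat_lit 0) (nat_lit 5719362811) (nat_lit 456) (nat_lit 3088699146) (nat_lit 76) (nat_lit 3111613068) (nat_lit 155) (nat_lit 5) (nat_lit 161) (nat_lit 5) (nat_lit 156) (nat_lit 5) (nat_lit 613) (nat_lit 514) (nat_lit 433))) (XT.nd (nat_lit 78) (nat_lit 456) (nat_lit 0) (XT.lf (nat_lit 0) (nat_lit 5321912281) (nat_lit 304) (nat_lit 4281505874) (nat_lit 380) (nat_lit 2449508336) (nat_lit 151) (nat_lit 5) (nat_lit 155) (nat_lit 5) (nat_lit 156) (nat_lit 5) (nat_lit 614) (nat_lit 514) (nat_lit 432)) (XT.nd (nat_lit 78) (nat_lit 0) (nat_lit 0) (XT.lf (nat_lit 0) (nat_lit 1362719125) (nat_lit 456) (nat_lit 10470955151) (nat_lit 76) (nat_lit 354901741) (nat_lit 145) (nat_lit 5) (nat_lit 151) (nat_lit 5) (nat_lit 146) (nat_lit 5) (nat_lit 615) (nat_lit 514) (nat_lit 431)) (XT.lf (nat_lit 0) (nat_lit 5262500767) (nat_lit 456) (nat_lit 1992264268) (nat_lit 76) (nat_lit 5070968396) (nat_lit 145) (nat_lit 5) (nat_lit 151) (nat_lit 5) (nat_lit 146) (nat_lit 5) (nat_lit 616) (nat_lit 514) (nat_lit 430))))))))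
noncomputable def xc53 : XT := (XT.nd (nat_lit 75660) (nat_lit 0) (nat_lit 21660) (XT.nd (nat_lit 74880) (nat_lit 0) (nat_lit 40812) (XT.nd (nat_lit 74490) (nat_lit 0) (nat_lit 46360) (XT.nd (nat_lit 156) (nat_lit 304) (nat_lit 0) (XT.nd (nat_lit 78) (nat_lit 456) (nat_lit 0) (XT.lf (nat_lit 0) (nat_lit 6696946759) (nat_lit 304) (nat_lit 2557651290) (nat_lit 380) (nat_lit 3210750420) (nat_lit 141) (nat_lit 5) (nat_lit 145) (nat_lit 5) (nat_lit 146) (nat_lit 5) (nat_lit 617) (nat_lit 514) (nat_lit 429)) (XT.lf (nat_lit 0) (nat_lit 727622068) (nat_lit 456) (nat_lit 9655575054) (nat_lit 76) (nat_lit 2224100842) (nat_lit 135) (nat_lit 5) (nat_lit 141) (nat_lit 5) (nat_lit 136) (nat_lit 5) (nat_lit 618) (nat_lit 514) (nat_lit 428))) (XT.nd (nat_lit 78) (nat_lit 304) (nat_lit 0) (XT.lf (nat_lit 0) (nat_lit 4728781411) (nat_lit 456) (nat_lit 912444312) (nat_lit 76) (nat_lit 7109896862) (nat_lit 135) (nat_lit 5) (nat_lit 141) (nat_lit 5) (nat_lit 136) (nat_lit 5) (nat_lit 619) (nat_lit 514) (nat_lit 427)) (XT.nd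 (nat_lit 74178) (nat_lit 0) (nat_lit 48184) (XT.lf (nat_lit 0) (nat_lit 8065131969) (nat_lit 304) (nat_lit 768831170) (nat_lit 380) (nat_lit 4063381383) (nat_lit 131) (nat_lit 5) (nat_lit 135) (nat_lit 5) (nat_lit 136) (nat_lit 5) (nat_lit 620) (nat_lit 514) (nat_lit 426)) (XT.lf (nat_lit 0) (nat_lit 1092697650) (nat_lit 380) (nat_lit 1076090752) (nat_lit 380) (nat_lit 1076090752) (nat_lit 765) (nat_lit 4) (nat_lit 770) (nat_lit 5) (nat_lit 770) (nat_lit 4) (nat_lit 530) (nat_lit 515) (nat_lit 515))))) (XT.nd (nat_lit 156) (nat_lit 1292) (nat_lit 0) (XT.nd (nat_lit 78) (nat_lit 456) (nat_lit 0) (XT.lf (nat_lit 0) (nat_lit 1058785701) (nat_lit 456) (nat_lit 594042096) (nat_lit 76) (nat_lit 4847195035) (nat_lit 764) (nat_lit 5) (nat_lit 770) (nat_lit 5) (nat_lit 765) (nat_lit 4) (nat_lit 531) (nat_lit 515) (nat_lit 514)) (XT.lf (nat_lit 0) (nat_lit 3168749587) (nat_lit 456) (nat_lit 1079143439) (nat_lit 532) (nat_lit 2263468872) (nat_lit 758) (nat_lit 5) (nat_lit 764) (nat_lit 5) (nat_lit 765) (nat_lit 4)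 (nat_lit 532) (nat_lit 515) (nat_lit 513))) (XT.nd (nat_lit 78) (nat_lit 684) (nat_lit 0) (XT.lf (nat_lit 0) (nat_lit 441666137) (nat_lit 532) (nat_lit 453076621) (nat_lit 608) (nat_lit 5629471962) (nat_lit 750) (nat_lit 5) (nat_lit 757) (nat_lit 5) (nat_lit 758) (nat_lit 5) (nat_lit 533) (nat_lit 515) (nat_lit 512)) (XT.nd (nat_lit 78) (nat_lit 684) (nat_lit 0) (XT.lf (nat_lit 0) (nat_lit 4033819798) (nat_lit 608) (nat_lit 2257403925) (nat_lit 76) (nat_lit 246849513) (nat_lit 750) (nat_lit 5) (nat_lit 758) (nat_lit 5) (nat_lit 751) (nat_lit 4) (nat_lit 534) (nat_lit 515) (nat_lit 511)) (XT.lf (nat_lit 0) (nat_lit 613246604) (nat_lit 684) (nat_lit 4945202783) (nat_lit 76) (nat_lit 994903702) (nat_lit 741) (nat_lit 5) (nat_lit 750) (nat_lit 5) (nat_lit 742) (nat_lit 5) (nat_lit 535) (nat_lit 515) (nat_lit 510)))))) (XT.nd (nat_lit 390) (nat_lit 3116) (nat_lit 0) (XT.nd (nat_lit 156) (nat_lit 1672) (nat_lit 0) (XT.nd (nat_lit 78) (nat_lit 760) (nat_lit 0) (XT.lf (nat_lit 0) (nat_lit 3701169667) (nat_lit 684)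 (nat_lit 1054484712) (nat_lit 76) (nat_lit 1814128580) (nat_lit 741) (nat_lit 5) (nat_lit 750) (nat_lit 5) (nat_lit 742) (nat_lit 5) (nat_lit 536) (nat_lit 515) (nat_lit 509)) (XT.lf (nat_lit 0) (nat_lit 207095788) (nat_lit 760) (nat_lit 3686650801) (nat_lit 76) (nat_lit 2693842756) (nat_lit 731) (nat_lit 5) (nat_lit 741) (nat_lit 5) (nat_lit 732) (nat_lit 5) (nat_lit 537) (nat_lit 515) (nat_lit 508))) (XT.nd (nat_lit 78) (nat_lit 912) (nat_lit 0) (XT.lf (nat_lit 0) (nat_lit 278344653) (nat_lit 760) (nat_lit 2964916218) (nat_lit 836) (nat_lit 3363371854) (nat_lit 721) (nat_lit 5) (nat_lit 731) (nat_lit 5) (nat_lit 732) (nat_lit 5) (nat_lit 538) (nat_lit 515) (nat_lit 507)) (XT.nd (nat_lit 78) (nat_lit 912) (nat_lit 0) (XT.lf (nat_lit 0) (nat_lit 4322529883) (nat_lit 760) (nat_lit 1971824189) (nat_lit 836) (nat_lit 332625809) (nat_lit 721) (nat_lit 5) (nat_lit 731) (nat_lit 5) (nat_lit 732) (nat_lit 5) (nat_lit 539) (nat_lit 515) (nat_lit 506)) (XT.lf (nat_lit 0) (nat_lit 1754936080) (nat_lit 836) (nat_lit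 909395721) (nat_lit 912) (nat_lit 3984215124) (nat_lit 709) (nat_lit 5) (nat_lit 720) (nat_lit 5) (nat_lit 721) (nat_lit 5) (nat_lit 540) (nat_lit 515) (nat_lit 505))))) (XT.nd (nat_lit 156) (nat_lit 2128) (nat_lit 0) (XT.nd (nat_lit 78) (nat_lit 988) (nat_lit 0) (XT.lf (nat_lit 0) (nat_lit 5665025470) (nat_lit 912) (nat_lit 798130451) (nat_lit 76) (nat_lit 208387002) (nat_lit 709) (nat_lit 5) (nat_lit 721) (nat_lit 5) (nat_lit 710) (nat_lit 5) (nat_lit 541) (nat_lit 515) (nat_lit 504)) (XT.lf (nat_lit 0) (nat_lit 1964609894) (nat_lit 988) (nat_lit 3341517339) (nat_lit 76) (nat_lit 1389404074) (nat_lit 696) (nat_lit 5) (nat_lit 709) (nat_lit 5) (nat_lit 697) (nat_lit 5) (nat_lit 542) (nat_lit 515) (nat_lit 503))) (XT.nd (nat_lit 78) (nat_lit 1140) (nat_lit 0) (XT.lf (nat_lit 0) (nat_lit 833597998) (nat_lit 988) (nat_lit 4092339439) (nat_lit 1064) (nat_lit 1795050082) (nat_lit 683) (nat_lit 5) (nat_lit 696) (nat_lit 5) (nat_lit 697) (nat_lit 5) (nat_lit 543) (nat_lit 515) (nat_lit 502)) (XT.nd (nat_lit 78)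 (nat_lit 1064) (nat_lit 0) (XT.lf (nat_lit 0) (nat_lit 1140354418) (nat_lit 1064) (nat_lit 1668241193) (nat_lit 76) (nat_lit 3939076502) (nat_lit 682) (nat_lit 5) (nat_lit 696) (nat_lit 5) (nat_lit 683) (nat_lit 5) (nat_lit 544) (nat_lit 515) (nat_lit 501)) (XT.lf (nat_lit 0) (nat_lit 2607292669) (nat_lit 1064) (nat_lit 1455360018) (nat_lit 1140) (nat_lit 2712961842) (nat_lit 668) (nat_lit 5) (nat_lit 682) (nat_lit 5) (nat_lit 683) (nat_lit 5) (nat_lit 545) (nat_lit 515) (nat_lit 500))))))) (XT.nd (nat_lit 780) (nat_lit 10868) (nat_lit 0) (XT.nd (nat_lit 390) (nat_lit 4484) (nat_lit 0) (XT.nd (nat_lit 156) (nat_lit 2584) (nat_lit 0) (XT.nd (nat_lit 78) (nat_lit 0) (nat_lit 0) (XT.lf (nat_lit 0) (nat_lit 136386958) (nat_lit 1140) (nat_lit 47697693) (nat_lit 1216) (nat_lit 6621046870) (nat_lit 652) (nat_lit 5) (nat_lit 667) (nat_lit 5) (nat_lit 668) (nat_lit 5) (nat_lit 546) (nat_lit 515) (nat_lit 499)) (XT.lf (nat_lit 0) (nat_lit 3076750441) (nat_lit 1216) (nat_lit 2330003782) (nat_lit 76) (nat_lit 1428651403)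 (nat_lit 652) (nat_lit 5) (nat_lit 668) (nat_lit 5) (nat_lit 653) (nat_lit 5) (nat_lit 547) (nat_lit 515) (nat_lit 498))) (XT.nd (nat_lit 78) (nat_lit 1368) (nat_lit 0) (XT.lf (nat_lit 0) (nat_lit 2071528567) (nat_lit 1216) (nat_lit 3907547291) (nat_lit 1292) (nat_lit 888178645) (nat_lit 636) (nat_lit 5) (nat_lit 652) (nat_lit 5) (nat_lit 653) (nat_lit 5) (nat_lit 548) (nat_lit 515) (nat_lit 497)) (XT.nd (nat_lit 78) (nat_lit 1292) (nat_lit 0) (XT.lf (nat_lit 0) (nat_lit 1967213397) (nat_lit 1292) (nat_lit 371422609) (nat_lit 76) (nat_lit 4561759552) (nat_lit 635) (nat_lit 5) (nat_lit 652) (nat_lit 5) (nat_lit 636) (nat_lit 5) (nat_lit 549) (nat_lit 515) (nat_lit 496)) (XT.lf (nat_lit 0) (nat_lit 4139457217) (nat_lit 1292) (nat_lit 694974102) (nat_lit 1368) (nat_lit 2100323587) (nat_lit 618) (nat_lit 5) (nat_lit 635) (nat_lit 5) (nat_lit 636) (nat_lit 5) (nat_lit 550) (nat_lit 515) (nat_lit 495))))) (XT.nd (nat_lit 156) (nat_lit 3040) (nat_lit 0) (XT.nd (nat_lit 78) (nat_lit 0) (nat_lit 0) (XT.lf (nat_lit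 0) (nat_lit 739405418) (nat_lit 1444) (nat_lit 5234412904) (nat_lit 76) (nat_lit 996674271) (nat_lit 599) (nat_lit 5) (nat_lit 618) (nat_lit 5) (nat_lit 600) (nat_lit 5) (nat_lit 551) (nat_lit 515) (nat_lit 494)) (XT.lf (nat_lit 0) (nat_lit 3572399663) (nat_lit 1444) (nat_lit 680921978) (nat_lit 76) (nat_lit 2754058661) (nat_lit 599) (nat_lit 5) (nat_lit 618) (nat_lit 5) (nat_lit 600) (nat_lit 5) (nat_lit 552) (nat_lit 515) (nat_lit 493))) (XT.nd (nat_lit 78) (nat_lit 1596) (nat_lit 0) (XT.lf (nat_lit 0) (nat_lit 3964961932) (nat_lit 1444) (nat_lit 2465073338) (nat_lit 1520) (nat_lit 615615580) (nat_lit 580) (nat_lit 5) (nat_lit 599) (nat_lit 5) (nat_lit 600) (nat_lit 5) (nat_lit 553) (nat_lit 515) (nat_lit 492)) (XT.nd (nat_lit 78) (nat_lit 0) (nat_lit 0) (XT.lf (nat_lit 0) (nat_lit 1583348371) (nat_lit 1520) (nat_lit 604688335) (nat_lit 1596) (nat_lit 4897210309) (nat_lit 559) (nat_lit 5) (nat_lit 579) (nat_lit 5) (nat_lit 580) (nat_lit 5) (nat_lit 554) (nat_lit 515) (nat_lit 491)) (XT.lf (nat_lit 0)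 (nat_lit 5012225324) (nat_lit 1596) (nat_lit 807351545) (nat_lit 76) (nat_lit 1306527164) (nat_lit 559) (nat_lit 5) (nat_lit 580) (nat_lit 5) (nat_lit 560) (nat_lit 5) (nat_lit 555) (nat_lit 515) (nat_lit 490)))))) (XT.nd (nat_lit 390) (nat_lit 3876) (nat_lit 0) (XT.nd (nat_lit 156) (nat_lit 3648) (nat_lit 0) (XT.nd (nat_lit 78) (nat_lit 1672) (nat_lit 0) (XT.lf (nat_lit 0) (nat_lit 689872653) (nat_lit 1672) (nat_lit 3194503059) (nat_lit 76) (nat_lit 3283827327) (nat_lit 537) (nat_lit 5) (nat_lit 559) (nat_lit 5) (nat_lit 538) (nat_lit 5) (nat_lit 556) (nat_lit 515) (nat_lit 489)) (XT.lf (nat_lit 0) (nat_lit 1605979176) (nat_lit 1672) (nat_lit 1876316158) (nat_lit 1748) (nat_lit 3729355401) (nat_lit 515) (nat_lit 5) (nat_lit 537) (nat_lit 5) (nat_lit 538) (nat_lit 5) (nat_lit 557) (nat_lit 515) (nat_lit 488))) (XT.nd (nat_lit 78) (nat_lit 3648) (nat_lit 0) (XT.lf (nat_lit 0) (nat_lit 6299023998) (nat_lit 1748) (nat_lit 763125325) (nat_lit 76) (nat_lit 194453016) (nat_lit 515) (nat_lit 5) (nat_lit 538) (nat_lit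 5) (nat_lit 516) (nat_lit 5) (nat_lit 558) (nat_lit 515) (nat_lit 487)) (XT.nd (nat_lit 78) (nat_lit 1824) (nat_lit 0) (XT.lf (nat_lit 0) (nat_lit 1831328758) (nat_lit 1824) (nat_lit 3147357005) (nat_lit 76) (nat_lit 2323804078) (nat_lit 491) (nat_lit 5) (nat_lit 515) (nat_lit 5) (nat_lit 492) (nat_lit 5) (nat_lit 559) (nat_lit 515) (nat_lit 486)) (XT.lf (nat_lit 0) (nat_lit 1798672243) (nat_lit 1824) (nat_lit 2828552796) (nat_lit 1900) (nat_lit 2722666669) (nat_lit 467) (nat_lit 5) (nat_lit 491) (nat_lit 5) (nat_lit 492) (nat_lit 5) (nat_lit 560) (nat_lit 515) (nat_lit 485))))) (XT.nd (nat_lit 234) (nat_lit 1824) (nat_lit 0) (XT.nd (nat_lit 78) (nat_lit 1976) (nat_lit 0) (XT.lf (nat_lit 0) (nat_lit 48541066) (nat_lit 1900) (nat_lit 564010724) (nat_lit 76) (nat_lit 6786306987) (nat_lit 466) (nat_lit 5) (nat_lit 491) (nat_lit 5) (nat_lit 467) (nat_lit 5) (nat_lit 561) (nat_lit 515) (nat_lit 484)) (XT.nd (nat_lit 78) (nat_lit 912) (nat_lit 0) (XT.lf (nat_lit 0) (nat_lit 2827641292) (nat_lit 1140) (nat_lit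 2946599036) (nat_lit 76) (nat_lit 1674430071) (nat_lit 452) (nat_lit 5) (nat_lit 467) (nat_lit 5) (nat_lit 453) (nat_lit 5) (nat_lit 562) (nat_lit 515) (nat_lit 483)) (XT.lf (nat_lit 0) (nat_lit 2150355798) (nat_lit 912) (nat_lit 3483049780) (nat_lit 988) (nat_lit 1866654607) (nat_lit 440) (nat_lit 5) (nat_lit 452) (nat_lit 5) (nat_lit 453) (nat_lit 5) (nat_lit 563) (nat_lit 515) (nat_lit 482)))) (XT.nd (nat_lit 78) (nat_lit 1748) (nat_lit 0) (XT.lf (nat_lit 0) (nat_lit 899928311) (nat_lit 988) (nat_lit 220960345) (nat_lit 76) (nat_lit 6432080398) (nat_lit 439) (nat_lit 5) (nat_lit 452) (nat_lit 5) (nat_lit 440) (nat_lit 5) (nat_lit 564) (nat_lit 515) (nat_lit 481)) (XT.nd (nat_lit 78) (nat_lit 836) (nat_lit 0) (XT.lf (nat_lit 0) (nat_lit 3688643919) (nat_lit 988) (nat_lit 2602743424) (nat_lit 76) (nat_lit 1315469444) (nat_lit 427) (nat_lit 5) (nat_lit 440) (nat_lit 5) (nat_lit 428) (nat_lit 5) (nat_lit 565) (nat_lit 515) (nat_lit 480)) (XT.lf (nat_lit 0) (nat_lit 2650788416) (nat_lit 836) (nat_lit 3859672851)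 (nat_lit 912) (nat_lit 1151817758) (nat_lit 416) (nat_lit 5) (nat_lit 427) (nat_lit 5) (nat_lit 428) (nat_lit 5) (nat_lit 566) (nat_lit 515) (nat_lit 479))))))))
noncomputable def xc54 : XT := (XT.nd (nat_lit 1560) (nat_lit 7676) (nat_lit 0) (XT.nd (nat_lit 780) (nat_lit 4712) (nat_lit 0) (XT.nd (nat_lit 390) (nat_lit 3116) (nat_lit 0) (XT.nd (nat_lit 156) (nat_lit 1748) (nat_lit 0) (XT.nd (nat_lit 78) (nat_lit 0) (nat_lit 0) (XT.lf (nat_lit 0) (nat_lit 267010865) (nat_lit 836) (nat_lit 1351812265) (nat_lit 912) (nat_lit 6100356531) (nat_lit 404) (nat_lit 5) (nat_lit 415) (nat_lit 5) (nat_lit 416) (nat_lit 5) (nat_lit 567) (nat_lit 515) (nat_lit 478)) (XT.lf (nat_lit 0) (nat_lit 4423250549) (nat_lit 912) (nat_lit 2125555377) (nat_lit 76) (nat_lit 1228387291) (nat_lit 404) (nat_lit 5) (nat_lit 416) (nat_lit 5) (nat_lit 405) (nat_lit 5) (nat_lit 568) (nat_lit 515) (nat_lit 477))) (XT.nd (nat_lit 78) (nat_lit 912) (nat_lit 0) (XT.lf (nat_lit 0) (nat_lit 3290477450) (nat_lit 836) (nat_lit 3976642872) (nat_lit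 912) (nat_lit 569582698) (nat_lit 393) (nat_lit 5) (nat_lit 404) (nat_lit 5) (nat_lit 405) (nat_lit 5) (nat_lit 569) (nat_lit 515) (nat_lit 476)) (XT.nd (nat_lit 78) (nat_lit 0) (nat_lit 0) (XT.lf (nat_lit 0) (nat_lit 891784358) (nat_lit 836) (nat_lit 1322367916) (nat_lit 912) (nat_lit 5683489541) (nat_lit 381) (nat_lit 5) (nat_lit 392) (nat_lit 5) (nat_lit 393) (nat_lit 5) (nat_lit 570) (nat_lit 515) (nat_lit 475)) (XT.lf (nat_lit 0) (nat_lit 5039510508) (nat_lit 912) (nat_lit 1524129126) (nat_lit 76) (nat_lit 1396215821) (nat_lit 381) (nat_lit 5) (nat_lit 393) (nat_lit 5) (nat_lit 382) (nat_lit 5) (nat_lit 571) (nat_lit 515) (nat_lit 474))))) (XT.nd (nat_lit 156) (nat_lit 1520) (nat_lit 0) (XT.nd (nat_lit 78) (nat_lit 836) (nat_lit 0) (XT.lf (nat_lit 0) (nat_lit 4060601232) (nat_lit 760) (nat_lit 3850667028) (nat_lit 836) (nat_lit 112250080) (nat_lit 371) (nat_lit 5) (nat_lit 381) (nat_lit 5) (nat_lit 382) (nat_lit 5) (nat_lit 572) (nat_lit 515) (nat_lit 473)) (XT.lf (nat_lit 0) (nat_lit 1641636401) (nat_lit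 760) (nat_lit 1050260577) (nat_lit 836) (nat_lit 5396683188) (nat_lit 360) (nat_lit 5) (nat_lit 370) (nat_lit 5) (nat_lit 371) (nat_lit 5) (nat_lit 573) (nat_lit 515) (nat_lit 472))) (XT.nd (nat_lit 78) (nat_lit 1520) (nat_lit 0) (XT.lf (nat_lit 0) (nat_lit 5544658000) (nat_lit 836) (nat_lit 806962704) (nat_lit 76) (nat_lit 1803429658) (nat_lit 360) (nat_lit 5) (nat_lit 371) (nat_lit 5) (nat_lit 361) (nat_lit 5) (nat_lit 574) (nat_lit 515) (nat_lit 471)) (XT.nd (nat_lit 78) (nat_lit 760) (nat_lit 0) (XT.lf (nat_lit 0) (nat_lit 224075714) (nat_lit 760) (nat_lit 3271481814) (nat_lit 76) (nat_lit 4727355126) (nat_lit 350) (nat_lit 5) (nat_lit 360) (nat_lit 5) (nat_lit 351) (nat_lit 5) (nat_lit 575) (nat_lit 515) (nat_lit 470)) (XT.lf (nat_lit 0) (nat_lit 2508350613) (nat_lit 760) (nat_lit 550346099) (nat_lit 836) (nat_lit 5233524552) (nat_lit 340) (nat_lit 5) (nat_lit 350) (nat_lit 5) (nat_lit 351) (nat_lit 5) (nat_lit 576) (nat_lit 515) (nat_lit 469)))))) (XT.nd (nat_lit 390) (nat_lit 2584) (nat_lit 0) (XT.nd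 (nat_lit 156) (nat_lit 1368) (nat_lit 0) (XT.nd (nat_lit 78) (nat_lit 76) (nat_lit 0) (XT.lf (nat_lit 0) (nat_lit 18208816) (nat_lit 684) (nat_lit 5927065520) (nat_lit 760) (nat_lit 2417738879) (nat_lit 331) (nat_lit 5) (nat_lit 340) (nat_lit 5) (nat_lit 341) (nat_lit 5) (nat_lit 577) (nat_lit 515) (nat_lit 468)) (XT.lf (nat_lit 0) (nat_lit 448458753) (nat_lit 760) (nat_lit 2478396131) (nat_lit 76) (nat_lit 5508308374) (nat_lit 330) (nat_lit 5) (nat_lit 340) (nat_lit 5) (nat_lit 331) (nat_lit 5) (nat_lit 578) (nat_lit 515) (nat_lit 467))) (XT.nd (nat_lit 78) (nat_lit 684) (nat_lit 0) (XT.lf (nat_lit 0) (nat_lit 3321499421) (nat_lit 760) (nat_lit 5025676010) (nat_lit 76) (nat_lit 161625704) (nat_lit 321) (nat_lit 5) (nat_lit 331) (nat_lit 5) (nat_lit 322) (nat_lit 5) (nat_lit 579) (nat_lit 515) (nat_lit 466)) (XT.nd (nat_lit 78) (nat_lit 76) (nat_lit 0) (XT.lf (nat_lit 0) (nat_lit 955683389) (nat_lit 608) (nat_lit 5297257179) (nat_lit 684) (nat_lit 2330954674) (nat_lit 313) (nat_lit 5) (nat_lit 321) (nat_lit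 5) (nat_lit 322) (nat_lit 5) (nat_lit 580) (nat_lit 515) (nat_lit 465)) (XT.lf (nat_lit 0) (nat_lit 567645735) (nat_lit 684) (nat_lit 1590490394) (nat_lit 76) (nat_lit 6502426314) (nat_lit 312) (nat_lit 5) (nat_lit 321) (nat_lit 5) (nat_lit 313) (nat_lit 5) (nat_lit 581) (nat_lit 515) (nat_lit 464))))) (XT.nd (nat_lit 156) (nat_lit 1292) (nat_lit 0) (XT.nd (nat_lit 78) (nat_lit 608) (nat_lit 0) (XT.lf (nat_lit 0) (nat_lit 3489290157) (nat_lit 760) (nat_lit 4183755568) (nat_lit 76) (nat_lit 1065485575) (nat_lit 303) (nat_lit 5) (nat_lit 313) (nat_lit 5) (nat_lit 304) (nat_lit 5) (nat_lit 582) (nat_lit 515) (nat_lit 463)) (XT.lf (nat_lit 0) (nat_lit 1987508681) (nat_lit 608) (nat_lit 4479824425) (nat_lit 684) (nat_lit 2350769209) (nat_lit 295) (nat_lit 5) (nat_lit 303) (nat_lit 5) (nat_lit 304) (nat_lit 5) (nat_lit 583) (nat_lit 515) (nat_lit 462))) (XT.nd (nat_lit 78) (nat_lit 1216) (nat_lit 0) (XT.lf (nat_lit 0) (nat_lit 586207268) (nat_lit 684) (nat_lit 614963103) (nat_lit 76) (nat_lit 7698248173) (nat_lit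 294) (nat_lit 5) (nat_lit 303) (nat_lit 5) (nat_lit 295) (nat_lit 5) (nat_lit 584) (nat_lit 515) (nat_lit 461)) (XT.nd (nat_lit 78) (nat_lit 608) (nat_lit 0) (XT.lf (nat_lit 0) (nat_lit 3562898151) (nat_lit 684) (nat_lit 3261707839) (nat_lit 76) (nat_lit 2157197272) (nat_lit 286) (nat_lit 5) (nat_lit 295) (nat_lit 5) (nat_lit 287) (nat_lit 5) (nat_lit 585) (nat_lit 515) (nat_lit 460)) (XT.lf (nat_lit 0) (nat_lit 3106779827) (nat_lit 608) (nat_lit 3485990117) (nat_lit 684) (nat_lit 2473194725) (nat_lit 278) (nat_lit 5) (nat_lit 286) (nat_lit 5) (nat_lit 287) (nat_lit 5) (nat_lit 586) (nat_lit 515) (nat_lit 459))))))) (XT.nd (nat_lit 780) (nat_lit 3724) (nat_lit 0) (XT.nd (nat_lit 390) (nat_lit 2128) (nat_lit 0) (XT.nd (nat_lit 156) (nat_lit 1140) (nat_lit 0) (XT.nd (nat_lit 78) (nat_lit 0) (nat_lit 0) (XT.lf (nat_lit 0) (nat_lit 447144840) (nat_lit 608) (nat_lit 63795544) (nat_lit 684) (nat_lit 8641072164) (nat_lit 269) (nat_lit 5) (nat_lit 277) (nat_lit 5) (nat_lit 278) (nat_lit 5) (nat_lit 587) (nat_lit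 515) (nat_lit 458)) (XT.lf (nat_lit 0) (nat_lit 3546069092) (nat_lit 684) (nat_lit 2266448288) (nat_lit 76) (nat_lit 3426450332) (nat_lit 269) (nat_lit 5) (nat_lit 278) (nat_lit 5) (nat_lit 270) (nat_lit 5) (nat_lit 588) (nat_lit 515) (nat_lit 457))) (XT.nd (nat_lit 78) (nat_lit 608) (nat_lit 0) (XT.lf (nat_lit 0) (nat_lit 4306848018) (nat_lit 532) (nat_lit 2326077543) (nat_lit 608) (nat_lit 2694917701) (nat_lit 262) (nat_lit 5) (nat_lit 269) (nat_lit 5) (nat_lit 270) (nat_lit 5) (nat_lit 589) (nat_lit 515) (nat_lit 456)) (XT.nd (nat_lit 78) (nat_lit 0) (nat_lit 0) (XT.lf (nat_lit 0) (nat_lit 354802555) (nat_lit 608) (nat_lit 7834323533) (nat_lit 76) (nat_lit 1229393996) (nat_lit 254) (nat_lit 5) (nat_lit 262) (nat_lit 5) (nat_lit 255) (nat_lit 5) (nat_lit 590) (nat_lit 515) (nat_lit 455)) (XT.lf (nat_lit 0) (nat_lit 3441912496) (nat_lit 608) (nat_lit 1204703057) (nat_lit 76) (nat_lit 4863790700) (nat_lit 254) (nat_lit 5) (nat_lit 262) (nat_lit 5) (nat_lit 255) (nat_lit 5) (nat_lit 591) (nat_lit 515) (nat_lit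 454))))) (XT.nd (nat_lit 156) (nat_lit 988) (nat_lit 0) (XT.nd (nat_lit 78) (nat_lit 608) (nat_lit 0) (XT.lf (nat_lit 0) (nat_lit 5581253261) (nat_lit 532) (nat_lit 1009596956) (nat_lit 608) (nat_lit 3013279868) (nat_lit 247) (nat_lit 5) (nat_lit 254) (nat_lit 5) (nat_lit 255) (nat_lit 5) (nat_lit 592) (nat_lit 515) (nat_lit 453)) (XT.lf (nat_lit 0) (nat_lit 109665812) (nat_lit 608) (nat_lit 6911368810) (nat_lit 76) (nat_lit 2678522400) (nat_lit 239) (nat_lit 5) (nat_lit 247) (nat_lit 5) (nat_lit 240) (nat_lit 5) (nat_lit 593) (nat_lit 515) (nat_lit 452))) (XT.nd (nat_lit 78) (nat_lit 988) (nat_lit 0) (XT.lf (nat_lit 0) (nat_lit 3252917750) (nat_lit 608) (nat_lit 83076282) (nat_lit 76) (nat_lit 6460537764) (nat_lit 239) (nat_lit 5) (nat_lit 247) (nat_lit 5) (nat_lit 240) (nat_lit 5) (nat_lit 594) (nat_lit 515) (nat_lit 451)) (XT.nd (nat_lit 78) (nat_lit 532) (nat_lit 0) (XT.lf (nat_lit 0) (nat_lit 6471936760) (nat_lit 532) (nat_lit 2974543970) (nat_lit 76) (nat_lit 448708819) (nat_lit 233) (nat_lit 5) (nat_lit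 240) (nat_lit 5) (nat_lit 234) (nat_lit 5) (nat_lit 595) (nat_lit 515) (nat_lit 450)) (XT.lf (nat_lit 0) (nat_lit 4051587694) (nat_lit 532) (nat_lit 5717984926) (nat_lit 608) (nat_lit 225964603) (nat_lit 226) (nat_lit 5) (nat_lit 233) (nat_lit 5) (nat_lit 234) (nat_lit 5) (nat_lit 596) (nat_lit 515) (nat_lit 449)))))) (XT.nd (nat_lit 390) (nat_lit 2204) (nat_lit 0) (XT.nd (nat_lit 156) (nat_lit 988) (nat_lit 0) (XT.nd (nat_lit 78) (nat_lit 0) (nat_lit 0) (XT.lf (nat_lit 0) (nat_lit 1106392174) (nat_lit 456) (nat_lit 1881756904) (nat_lit 532) (nat_lit 7109496314) (nat_lit 219) (nat_lit 5) (nat_lit 225) (nat_lit 5) (nat_lit 226) (nat_lit 5) (nat_lit 597) (nat_lit 515) (nat_lit 448)) (XT.lf (nat_lit 0) (nat_lit 6282536546) (nat_lit 532) (nat_lit 1887248466) (nat_lit 76) (nat_lit 2031601904) (nat_lit 219) (nat_lit 5) (nat_lit 226) (nat_lit 5) (nat_lit 220) (nat_lit 5) (nat_lit 598) (nat_lit 515) (nat_lit 447))) (XT.nd (nat_lit 78) (nat_lit 532) (nat_lit 0) (XT.lf (nat_lit 0) (nat_lit 5368136809) (nat_lit 456)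 (nat_lit 4288338757) (nat_lit 532) (nat_lit 650455810) (nat_lit 213) (nat_lit 5) (nat_lit 219) (nat_lit 5) (nat_lit 220) (nat_lit 5) (nat_lit 599) (nat_lit 515) (nat_lit 446)) (XT.nd (nat_lit 78) (nat_lit 0) (nat_lit 0) (XT.lf (nat_lit 0) (nat_lit 2344350844) (nat_lit 456) (nat_lit 298205657) (nat_lit 532) (nat_lit 7771794278) (nat_lit 206) (nat_lit 5) (nat_lit 212) (nat_lit 5) (nat_lit 213) (nat_lit 5) (nat_lit 600) (nat_lit 515) (nat_lit 445)) (XT.lf (nat_lit 0) (nat_lit 6017293842) (nat_lit 532) (nat_lit 761179232) (nat_lit 76) (nat_lit 3744869318) (nat_lit 206) (nat_lit 5) (nat_lit 213) (nat_lit 5) (nat_lit 207) (nat_lit 5) (nat_lit 601) (nat_lit 515) (nat_lit 444))))) (XT.nd (nat_lit 234) (nat_lit 836) (nat_lit 0) (XT.nd (nat_lit 78) (nat_lit 912) (nat_lit 0) (XT.lf (nat_lit 0) (nat_lit 6732082928) (nat_lit 456) (nat_lit 2740495921) (nat_lit 532) (nat_lit 1161675208) (nat_lit 200) (nat_lit 5) (nat_lit 206) (nat_lit 5) (nat_lit 207) (nat_lit 5) (nat_lit 602) (nat_lit 515) (nat_lit 443)) (XT.nd (nat_lit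 78) (nat_lit 456) (nat_lit 0) (XT.lf (nat_lit 0) (nat_lit 2225363251) (nat_lit 456) (nat_lit 7133350695) (nat_lit 76) (nat_lit 1388273491) (nat_lit 194) (nat_lit 5) (nat_lit 200) (nat_lit 5) (nat_lit 195) (nat_lit 5) (nat_lit 603) (nat_lit 515) (nat_lit 442)) (XT.lf (nat_lit 0) (nat_lit 402065338) (nat_lit 456) (nat_lit 5277364165) (nat_lit 532) (nat_lit 5182096773) (nat_lit 188) (nat_lit 5) (nat_lit 194) (nat_lit 5) (nat_lit 195) (nat_lit 5) (nat_lit 604) (nat_lit 515) (nat_lit 441)))) (XT.nd (nat_lit 78) (nat_lit 836) (nat_lit 0) (XT.lf (nat_lit 0) (nat_lit 8136806367) (nat_lit 456) (nat_lit 1081669084) (nat_lit 532) (nat_lit 1759563654) (nat_lit 188) (nat_lit 5) (nat_lit 194) (nat_lit 5) (nat_lit 195) (nat_lit 5) (nat_lit 605) (nat_lit 515) (nat_lit 440)) (XT.nd (nat_lit 78) (nat_lit 380) (nat_lit 0) (XT.lf (nat_lit 0) (nat_lit 1730149300) (nat_lit 456) (nat_lit 6182304362) (nat_lit 76) (nat_lit 3183776089) (nat_lit 182) (nat_lit 5) (nat_lit 188) (nat_lit 5) (nat_lit 183) (nat_lit 5) (nat_lit 606) (nat_lit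 515) (nat_lit 439)) (XT.lf (nat_lit 0) (nat_lit 1600582336) (nat_lit 380) (nat_lit 3670939512) (nat_lit 456) (nat_lit 5944922341) (nat_lit 177) (nat_lit 5) (nat_lit 182) (nat_lit 5) (nat_lit 183) (nat_lit 5) (nat_lit 607) (nat_lit 515) (nat_lit 438))))))))
noncomputable def xc55 : XT := (XT.nd (nat_lit 75504) (nat_lit 0) (nat_lit 32528) (XT.nd (nat_lit 780) (nat_lit 760) (nat_lit 0) (XT.nd (nat_lit 390) (nat_lit 1444) (nat_lit 0) (XT.nd (nat_lit 156) (nat_lit 836) (nat_lit 0) (XT.nd (nat_lit 78) (nat_lit 456) (nat_lit 0) (XT.lf (nat_lit 0) (nat_lit 8898594400) (nat_lit 456) (nat_lit 1767799417) (nat_lit 76) (nat_lit 672372736) (nat_lit 177) (nat_lit 5) (nat_lit 183) (nat_lit 5) (nat_lit 178) (nat_lit 5) (nat_lit 608) (nat_lit 515) (nat_lit 437)) (XT.lf (nat_lit 0) (nat_lit 1154360522) (nat_lit 456) (nat_lit 5222614433) (nat_lit 76) (nat_lit 5085722739) (nat_lit 171) (nat_lit 5) (nat_lit 177) (nat_lit 5) (nat_lit 172) (nat_lit 5) (nat_lit 609) (nat_lit 515) (nat_lit 436))) (XT.nd (nat_lit 78) (nat_lit 456)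 (nat_lit 0) (XT.lf (nat_lit 0) (nat_lit 2816799203) (nat_lit 380) (nat_lit 1971131974) (nat_lit 456) (nat_lit 6800858289) (nat_lit 166) (nat_lit 5) (nat_lit 171) (nat_lit 5) (nat_lit 172) (nat_lit 5) (nat_lit 610) (nat_lit 515) (nat_lit 435)) (XT.nd (nat_lit 78) (nat_lit 456) (nat_lit 0) (XT.lf (nat_lit 0) (nat_lit 8515577157) (nat_lit 456) (nat_lit 692826175) (nat_lit 76) (nat_lit 2508572671) (nat_lit 166) (nat_lit 5) (nat_lit 172) (nat_lit 5) (nat_lit 167) (nat_lit 5) (nat_lit 611) (nat_lit 515) (nat_lit 434)) (XT.lf (nat_lit 0) (nat_lit 496759207) (nat_lit 456) (nat_lit 4262336325) (nat_lit 76) (nat_lit 7087913182) (nat_lit 160) (nat_lit 5) (nat_lit 166) (nat_lit 5) (nat_lit 161) (nat_lit 5) (nat_lit 612) (nat_lit 515) (nat_lit 433))))) (XT.nd (nat_lit 156) (nat_lit 760) (nat_lit 0) (XT.nd (nat_lit 78) (nat_lit 304) (nat_lit 0) (XT.lf (nat_lit 0) (nat_lit 4042885995) (nat_lit 380) (nat_lit 184522492) (nat_lit 456) (nat_lit 7751783422) (nat_lit 155) (nat_lit 5) (nat_lit 160) (nat_lit 5) (nat_lit 161)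 (nat_lit 5) (nat_lit 613) (nat_lit 515) (nat_lit 432)) (XT.lf (nat_lit 0) (nat_lit 387701420) (nat_lit 304) (nat_lit 7675971892) (nat_lit 380) (nat_lit 4049726333) (nat_lit 151) (nat_lit 5) (nat_lit 155) (nat_lit 5) (nat_lit 156) (nat_lit 5) (nat_lit 614) (nat_lit 515) (nat_lit 431))) (XT.nd (nat_lit 78) (nat_lit 760) (nat_lit 0) (XT.lf (nat_lit 0) (nat_lit 8938196291) (nat_lit 304) (nat_lit 3063809876) (nat_lit 380) (nat_lit 247779425) (nat_lit 151) (nat_lit 5) (nat_lit 155) (nat_lit 5) (nat_lit 156) (nat_lit 5) (nat_lit 615) (nat_lit 515) (nat_lit 430)) (XT.nd (nat_lit 78) (nat_lit 304) (nat_lit 0) (XT.lf (nat_lit 0) (nat_lit 3598992402) (nat_lit 456) (nat_lit 7128694271) (nat_lit 76) (nat_lit 1660414133) (nat_lit 145) (nat_lit 5) (nat_lit 151) (nat_lit 5) (nat_lit 146) (nat_lit 5) (nat_lit 616) (nat_lit 515) (nat_lit 429)) (XT.lf (nat_lit 0) (nat_lit 1469198446) (nat_lit 304) (nat_lit 6073796145) (nat_lit 380) (nat_lit 4985683579) (nat_lit 141) (nat_lit 5) (nat_lit 145) (nat_lit 5) (nat_lit 146) (nat_lit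 5) (nat_lit 617) (nat_lit 515) (nat_lit 428)))))) (XT.nd (nat_lit 74334) (nat_lit 0) (nat_lit 46968) (XT.nd (nat_lit 156) (nat_lit 304) (nat_lit 0) (XT.nd (nat_lit 78) (nat_lit 456) (nat_lit 0) (XT.lf (nat_lit 0) (nat_lit 10290016741) (nat_lit 304) (nat_lit 1295372241) (nat_lit 380) (nat_lit 1086288700) (nat_lit 141) (nat_lit 5) (nat_lit 145) (nat_lit 5) (nat_lit 146) (nat_lit 5) (nat_lit 618) (nat_lit 515) (nat_lit 427)) (XT.lf (nat_lit 0) (nat_lit 2890892436) (nat_lit 456) (nat_lit 6349472879) (nat_lit 76) (nat_lit 3576042948) (nat_lit 135) (nat_lit 5) (nat_lit 141) (nat_lit 5) (nat_lit 136) (nat_lit 5) (nat_lit 619) (nat_lit 515) (nat_lit 426))) (XT.nd (nat_lit 74022) (nat_lit 0) (nat_lit 48564) (XT.lf (nat_lit 0) (nat_lit 2533130912) (nat_lit 304) (nat_lit 4413259096) (nat_lit 380) (nat_lit 6017234270) (nat_lit 131) (nat_lit 5) (nat_lit 135) (nat_lit 5) (nat_lit 136) (nat_lit 5) (nat_lit 620) (nat_lit 515) (nat_lit 425)) (XT.nd (nat_lit 78) (nat_lit 0) (nat_lit 0) (XT.lf (nat_lit 0) (nat_lit 342285638)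 (nat_lit 380) (nat_lit 2551805295) (nat_lit 0) (nat_lit 342285638) (nat_lit 770) (nat_lit 5) (nat_lit 775) (nat_lit 4) (nat_lit 770) (nat_lit 4) (nat_lit 528) (nat_lit 516) (nat_lit 516)) (XT.lf (nat_lit 0) (nat_lit 3885529482) (nat_lit 380) (nat_lit 1497303029) (nat_lit 0) (nat_lit 1098084484) (nat_lit 770) (nat_lit 5) (nat_lit 775) (nat_lit 4) (nat_lit 770) (nat_lit 4) (nat_lit 529) (nat_lit 516) (nat_lit 515))))) (XT.nd (nat_lit 156) (nat_lit 1140) (nat_lit 0) (XT.nd (nat_lit 78) (nat_lit 0) (nat_lit 0) (XT.lf (nat_lit 0) (nat_lit 587615403) (nat_lit 456) (nat_lit 4333251097) (nat_lit 76) (nat_lit 1569599962) (nat_lit 764) (nat_lit 5) (nat_lit 770) (nat_lit 5) (nat_lit 765) (nat_lit 4) (nat_lit 530) (nat_lit 516) (nat_lit 514)) (XT.lf (nat_lit 0) (nat_lit 3731810779) (nat_lit 456) (nat_lit 661181549) (nat_lit 76) (nat_lit 2108234327) (nat_lit 764) (nat_lit 5) (nat_lit 770) (nat_lit 5) (nat_lit 765) (nat_lit 4) (nat_lit 531) (nat_lit 516) (nat_lit 513))) (XT.nd (nat_lit 78) (nat_lit 608) (nat_lit 0) (XT.lf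 (nat_lit 0) (nat_lit 364350364) (nat_lit 532) (nat_lit 3439135036) (nat_lit 76) (nat_lit 2709804286) (nat_lit 757) (nat_lit 5) (nat_lit 764) (nat_lit 5) (nat_lit 758) (nat_lit 5) (nat_lit 532) (nat_lit 516) (nat_lit 512)) (XT.nd (nat_lit 78) (nat_lit 76) (nat_lit 0) (XT.lf (nat_lit 0) (nat_lit 304501475) (nat_lit 532) (nat_lit 3150031439) (nat_lit 608) (nat_lit 3072086526) (nat_lit 750) (nat_lit 5) (nat_lit 757) (nat_lit 5) (nat_lit 758) (nat_lit 5) (nat_lit 533) (nat_lit 516) (nat_lit 511)) (XT.lf (nat_lit 0) (nat_lit 13678244) (nat_lit 608) (nat_lit 2420168868) (nat_lit 76) (nat_lit 4107402913) (nat_lit 749) (nat_lit 5) (nat_lit 757) (nat_lit 5) (nat_lit 750) (nat_lit 5) (nat_lit 534) (nat_lit 516) (nat_lit 510))))))) (XT.nd (nat_lit 780) (nat_lit 9348) (nat_lit 0) (XT.nd (nat_lit 390) (nat_lit 2888) (nat_lit 0) (XT.nd (nat_lit 156) (nat_lit 1596) (nat_lit 0) (XT.nd (nat_lit 78) (nat_lit 0) (nat_lit 0) (XT.lf (nat_lit 0) (nat_lit 1407442518) (nat_lit 608) (nat_lit 1648240641) (nat_lit 684) (nat_lit 3501378315)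 (nat_lit 741) (nat_lit 5) (nat_lit 749) (nat_lit 5) (nat_lit 750) (nat_lit 5) (nat_lit 535) (nat_lit 516) (nat_lit 509)) (XT.lf (nat_lit 0) (nat_lit 5296240566) (nat_lit 608) (nat_lit 806140533) (nat_lit 684) (nat_lit 471938428) (nat_lit 741) (nat_lit 5) (nat_lit 749) (nat_lit 5) (nat_lit 750) (nat_lit 5) (nat_lit 536) (nat_lit 516) (nat_lit 508))) (XT.nd (nat_lit 78) (nat_lit 836) (nat_lit 0) (XT.lf (nat_lit 0) (nat_lit 2530170817) (nat_lit 760) (nat_lit 3953057638) (nat_lit 76) (nat_lit 109433121) (nat_lit 731) (nat_lit 5) (nat_lit 741) (nat_lit 5) (nat_lit 732) (nat_lit 5) (nat_lit 537) (nat_lit 516) (nat_lit 507)) (XT.nd (nat_lit 78) (nat_lit 836) (nat_lit 0) (XT.lf (nat_lit 0) (nat_lit 5529771586) (nat_lit 760) (nat_lit 16181436) (nat_lit 76) (nat_lit 1066486688) (nat_lit 731) (nat_lit 5) (nat_lit 741) (nat_lit 5) (nat_lit 732) (nat_lit 5) (nat_lit 538) (nat_lit 516) (nat_lit 506)) (XT.lf (nat_lit 0) (nat_lit 1887957872) (nat_lit 836) (nat_lit 2642416824) (nat_lit 76) (nat_lit 2102853953) (nat_lit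 720) (nat_lit 5) (nat_lit 731) (nat_lit 5) (nat_lit 721) (nat_lit 5) (nat_lit 539) (nat_lit 516) (nat_lit 505))))) (XT.nd (nat_lit 156) (nat_lit 1976) (nat_lit 0) (XT.nd (nat_lit 78) (nat_lit 76) (nat_lit 0) (XT.lf (nat_lit 0) (nat_lit 1385683410) (nat_lit 836) (nat_lit 3458684454) (nat_lit 912) (nat_lit 1811111609) (nat_lit 709) (nat_lit 5) (nat_lit 720) (nat_lit 5) (nat_lit 721) (nat_lit 5) (nat_lit 540) (nat_lit 516) (nat_lit 504)) (XT.lf (nat_lit 0) (nat_lit 1116400596) (nat_lit 912) (nat_lit 1205081926) (nat_lit 76) (nat_lit 4357542315) (nat_lit 708) (nat_lit 5) (nat_lit 720) (nat_lit 5) (nat_lit 709) (nat_lit 5) (nat_lit 541) (nat_lit 516) (nat_lit 503))) (XT.nd (nat_lit 78) (nat_lit 1064) (nat_lit 0) (XT.lf (nat_lit 0) (nat_lit 2918547348) (nat_lit 912) (nat_lit 1112282832) (nat_lit 988) (nat_lit 2672925362) (nat_lit 696) (nat_lit 5) (nat_lit 708) (nat_lit 5) (nat_lit 709) (nat_lit 5) (nat_lit 542) (nat_lit 516) (nat_lit 502)) (XT.nd (nat_lit 78) (nat_lit 0) (nat_lit 0) (XT.lf (nat_lit 0) (nat_lit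 216652242) (nat_lit 1064) (nat_lit 6365127055) (nat_lit 76) (nat_lit 148258177) (nat_lit 682) (nat_lit 5) (nat_lit 696) (nat_lit 5) (nat_lit 683) (nat_lit 5) (nat_lit 543) (nat_lit 516) (nat_lit 501)) (XT.lf (nat_lit 0) (nat_lit 3096470110) (nat_lit 1064) (nat_lit 2182536746) (nat_lit 76) (nat_lit 1478125906) (nat_lit 682) (nat_lit 5) (nat_lit 696) (nat_lit 5) (nat_lit 683) (nat_lit 5) (nat_lit 544) (nat_lit 516) (nat_lit 500)))))) (XT.nd (nat_lit 390) (nat_lit 5776) (nat_lit 0) (XT.nd (nat_lit 156) (nat_lit 2432) (nat_lit 0) (XT.nd (nat_lit 78) (nat_lit 76) (nat_lit 0) (XT.lf (nat_lit 0) (nat_lit 2061422872) (nat_lit 1064) (nat_lit 3922385447) (nat_lit 1140) (nat_lit 801968905) (nat_lit 668) (nat_lit 5) (nat_lit 682) (nat_lit 5) (nat_lit 683) (nat_lit 5) (nat_lit 545) (nat_lit 516) (nat_lit 499)) (XT.lf (nat_lit 0) (nat_lit 2037963901) (nat_lit 1140) (nat_lit 458513047) (nat_lit 76) (nat_lit 4319212868) (nat_lit 667) (nat_lit 5) (nat_lit 682) (nat_lit 5) (nat_lit 668) (nat_lit 5) (nat_lit 546) (nat_lit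 516) (nat_lit 498))) (XT.nd (nat_lit 78) (nat_lit 1292) (nat_lit 0) (XT.lf (nat_lit 0) (nat_lit 3889486415) (nat_lit 1140) (nat_lit 998014515) (nat_lit 1216) (nat_lit 1959328247) (nat_lit 652) (nat_lit 5) (nat_lit 667) (nat_lit 5) (nat_lit 668) (nat_lit 5) (nat_lit 547) (nat_lit 516) (nat_lit 497)) (XT.nd (nat_lit 78) (nat_lit 0) (nat_lit 0) (XT.lf (nat_lit 0) (nat_lit 858127451) (nat_lit 1292) (nat_lit 5467724445) (nat_lit 76) (nat_lit 553531839) (nat_lit 635) (nat_lit 5) (nat_lit 652) (nat_lit 5) (nat_lit 636) (nat_lit 5) (nat_lit 548) (nat_lit 516) (nat_lit 496)) (XT.lf (nat_lit 0) (nat_lit 3672031035) (nat_lit 1292) (nat_lit 1074097324) (nat_lit 76) (nat_lit 2166880421) (nat_lit 635) (nat_lit 5) (nat_lit 652) (nat_lit 5) (nat_lit 636) (nat_lit 5) (nat_lit 549) (nat_lit 516) (nat_lit 495))))) (XT.nd (nat_lit 234) (nat_lit 3040) (nat_lit 0) (XT.nd (nat_lit 78) (nat_lit 1444) (nat_lit 0) (XT.lf (nat_lit 0) (nat_lit 3402698641) (nat_lit 1292) (nat_lit 3102512049) (nat_lit 1368) (nat_lit 442840680) (nat_lit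 618) (nat_lit 5) (nat_lit 635) (nat_lit 5) (nat_lit 636) (nat_lit 5) (nat_lit 550) (nat_lit 516) (nat_lit 494)) (XT.nd (nat_lit 78) (nat_lit 0) (nat_lit 0) (XT.lf (nat_lit 0) (nat_lit 946864285) (nat_lit 1368) (nat_lit 1387529237) (nat_lit 1444) (nat_lit 4649997820) (nat_lit 599) (nat_lit 5) (nat_lit 617) (nat_lit 5) (nat_lit 618) (nat_lit 5) (nat_lit 551) (nat_lit 516) (nat_lit 493)) (XT.lf (nat_lit 0) (nat_lit 5129784113) (nat_lit 1444) (nat_lit 1500115500) (nat_lit 76) (nat_lit 392133844) (nat_lit 599) (nat_lit 5) (nat_lit 618) (nat_lit 5) (nat_lit 600) (nat_lit 5) (nat_lit 552) (nat_lit 516) (nat_lit 492)))) (XT.nd (nat_lit 78) (nat_lit 1520) (nat_lit 0) (XT.lf (nat_lit 0) (nat_lit 881146289) (nat_lit 1520) (nat_lit 3956816336) (nat_lit 76) (nat_lit 2222899438) (nat_lit 579) (nat_lit 5) (nat_lit 599) (nat_lit 5) (nat_lit 580) (nat_lit 5) (nat_lit 553) (nat_lit 516) (nat_lit 491)) (XT.nd (nat_lit 78) (nat_lit 0) (nat_lit 0) (XT.lf (nat_lit 0) (nat_lit 666391500) (nat_lit 1520) (nat_lit 2976551229) (nat_lit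 1596) (nat_lit 3458113396) (nat_lit 559) (nat_lit 5) (nat_lit 579) (nat_lit 5) (nat_lit 580) (nat_lit 5) (nat_lit 554) (nat_lit 516) (nat_lit 490)) (XT.lf (nat_lit 0) (nat_lit 5385919889) (nat_lit 1520) (nat_lit 1045173096) (nat_lit 1596) (nat_lit 711543082) (nat_lit 559) (nat_lit 5) (nat_lit 579) (nat_lit 5) (nat_lit 580) (nat_lit 5) (nat_lit 555) (nat_lit 516) (nat_lit 489))))))))
noncomputable def xc56 : XT := (XT.nd (nat_lit 1560) (nat_lit 8892) (nat_lit 0) (XT.nd (nat_lit 780) (nat_lit 5852) (nat_lit 0) (XT.nd (nat_lit 390) (nat_lit 3040) (nat_lit 0) (XT.nd (nat_lit 156) (nat_lit 3648) (nat_lit 0) (XT.nd (nat_lit 78) (nat_lit 1672) (nat_lit 0) (XT.lf (nat_lit 0) (nat_lit 2033512540) (nat_lit 1672) (nat_lit 4200829260) (nat_lit 76) (nat_lit 951019326) (nat_lit 537) (nat_lit 5) (nat_lit 559) (nat_lit 5) (nat_lit 538) (nat_lit 5) (nat_lit 556) (nat_lit 516) (nat_lit 488)) (XT.lf (nat_lit 0) (nat_lit 561036118) (nat_lit 1672) (nat_lit 4231417861) (nat_lit 1748) (nat_lit 2437026501) (nat_lit 515) (nat_lit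 5) (nat_lit 537) (nat_lit 5) (nat_lit 538) (nat_lit 5) (nat_lit 557) (nat_lit 516) (nat_lit 487))) (XT.nd (nat_lit 78) (nat_lit 3572) (nat_lit 0) (XT.lf (nat_lit 0) (nat_lit 302562115) (nat_lit 1748) (nat_lit 1851886389) (nat_lit 76) (nat_lit 5120498027) (nat_lit 514) (nat_lit 5) (nat_lit 537) (nat_lit 5) (nat_lit 515) (nat_lit 5) (nat_lit 558) (nat_lit 516) (nat_lit 486)) (XT.nd (nat_lit 78) (nat_lit 1824) (nat_lit 0) (XT.lf (nat_lit 0) (nat_lit 3031567387) (nat_lit 1824) (nat_lit 4286726578) (nat_lit 76) (nat_lit 3364498) (nat_lit 491) (nat_lit 5) (nat_lit 515) (nat_lit 5) (nat_lit 492) (nat_lit 5) (nat_lit 559) (nat_lit 516) (nat_lit 485)) (XT.lf (nat_lit 0) (nat_lit 618858305) (nat_lit 1824) (nat_lit 5175313296) (nat_lit 1900) (nat_lit 1575556447) (nat_lit 467) (nat_lit 5) (nat_lit 491) (nat_lit 5) (nat_lit 492) (nat_lit 5) (nat_lit 560) (nat_lit 516) (nat_lit 484))))) (XT.nd (nat_lit 156) (nat_lit 1900) (nat_lit 0) (XT.nd (nat_lit 78) (nat_lit 1064) (nat_lit 0) (XT.lf (nat_lit 0) (nat_lit 1155147022)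 (nat_lit 1900) (nat_lit 1796255564) (nat_lit 76) (nat_lit 4467654573) (nat_lit 466) (nat_lit 5) (nat_lit 491) (nat_lit 5) (nat_lit 467) (nat_lit 5) (nat_lit 561) (nat_lit 516) (nat_lit 483)) (XT.lf (nat_lit 0) (nat_lit 3239705623) (nat_lit 1064) (nat_lit 650296069) (nat_lit 1140) (nat_lit 3579753770) (nat_lit 452) (nat_lit 5) (nat_lit 466) (nat_lit 5) (nat_lit 467) (nat_lit 5) (nat_lit 562) (nat_lit 516) (nat_lit 482))) (XT.nd (nat_lit 78) (nat_lit 988) (nat_lit 0) (XT.lf (nat_lit 0) (nat_lit 828808084) (nat_lit 912) (nat_lit 5829526185) (nat_lit 988) (nat_lit 863561347) (nat_lit 440) (nat_lit 5) (nat_lit 452) (nat_lit 5) (nat_lit 453) (nat_lit 5) (nat_lit 563) (nat_lit 516) (nat_lit 481)) (XT.nd (nat_lit 78) (nat_lit 912) (nat_lit 0) (XT.lf (nat_lit 0) (nat_lit 1865395738) (nat_lit 988) (nat_lit 1596005441) (nat_lit 76) (nat_lit 4113764121) (nat_lit 439) (nat_lit 5) (nat_lit 452) (nat_lit 5) (nat_lit 440) (nat_lit 5) (nat_lit 564) (nat_lit 516) (nat_lit 480)) (XT.lf (nat_lit 0) (nat_lit 3594638387) (nat_lit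 912) (nat_lit 1017619716) (nat_lit 988) (nat_lit 3017633629) (nat_lit 427) (nat_lit 5) (nat_lit 439) (nat_lit 5) (nat_lit 440) (nat_lit 5) (nat_lit 565) (nat_lit 516) (nat_lit 479)))))) (XT.nd (nat_lit 390) (nat_lit 3192) (nat_lit 0) (XT.nd (nat_lit 156) (nat_lit 1748) (nat_lit 0) (XT.nd (nat_lit 78) (nat_lit 76) (nat_lit 0) (XT.lf (nat_lit 0) (nat_lit 1180640544) (nat_lit 836) (nat_lit 6213598467) (nat_lit 912) (nat_lit 291873290) (nat_lit 416) (nat_lit 5) (nat_lit 427) (nat_lit 5) (nat_lit 428) (nat_lit 5) (nat_lit 566) (nat_lit 516) (nat_lit 478)) (XT.lf (nat_lit 0) (nat_lit 2442218449) (nat_lit 912) (nat_lit 1261169369) (nat_lit 76) (nat_lit 4040020408) (nat_lit 415) (nat_lit 5) (nat_lit 427) (nat_lit 5) (nat_lit 416) (nat_lit 5) (nat_lit 567) (nat_lit 516) (nat_lit 477))) (XT.nd (nat_lit 78) (nat_lit 912) (nat_lit 0) (XT.lf (nat_lit 0) (nat_lit 4089991815) (nat_lit 836) (nat_lit 1117037709) (nat_lit 912) (nat_lit 2595186096) (nat_lit 404) (nat_lit 5) (nat_lit 415) (nat_lit 5) (nat_lit 416) (nat_lit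 5) (nat_lit 568) (nat_lit 516) (nat_lit 476)) (XT.nd (nat_lit 78) (nat_lit 0) (nat_lit 0) (XT.lf (nat_lit 0) (nat_lit 145822260) (nat_lit 912) (nat_lit 6198662962) (nat_lit 76) (nat_lit 1518034497) (nat_lit 392) (nat_lit 5) (nat_lit 404) (nat_lit 5) (nat_lit 393) (nat_lit 5) (nat_lit 569) (nat_lit 516) (nat_lit 475)) (XT.lf (nat_lit 0) (nat_lit 2893639865) (nat_lit 912) (nat_lit 801091404) (nat_lit 76) (nat_lit 4229223650) (nat_lit 392) (nat_lit 5) (nat_lit 404) (nat_lit 5) (nat_lit 393) (nat_lit 5) (nat_lit 570) (nat_lit 516) (nat_lit 474))))) (XT.nd (nat_lit 156) (nat_lit 1520) (nat_lit 0) (XT.nd (nat_lit 78) (nat_lit 836) (nat_lit 0) (XT.lf (nat_lit 0) (nat_lit 4716694241) (nat_lit 836) (nat_lit 965473478) (nat_lit 912) (nat_lit 2304738844) (nat_lit 381) (nat_lit 5) (nat_lit 392) (nat_lit 5) (nat_lit 393) (nat_lit 5) (nat_lit 571) (nat_lit 516) (nat_lit 473)) (XT.lf (nat_lit 0) (nat_lit 456659747) (nat_lit 836) (nat_lit 5781852113) (nat_lit 76) (nat_lit 1812795457) (nat_lit 370) (nat_lit 5) (nat_lit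 381) (nat_lit 5) (nat_lit 371) (nat_lit 5) (nat_lit 572) (nat_lit 516) (nat_lit 472))) (XT.nd (nat_lit 78) (nat_lit 1520) (nat_lit 0) (XT.lf (nat_lit 0) (nat_lit 3226849846) (nat_lit 836) (nat_lit 224501758) (nat_lit 76) (nat_lit 4665653974) (nat_lit 370) (nat_lit 5) (nat_lit 381) (nat_lit 5) (nat_lit 371) (nat_lit 5) (nat_lit 573) (nat_lit 516) (nat_lit 471)) (XT.nd (nat_lit 78) (nat_lit 760) (nat_lit 0) (XT.lf (nat_lit 0) (nat_lit 5466288060) (nat_lit 760) (nat_lit 578422042) (nat_lit 836) (nat_lit 2139464977) (nat_lit 360) (nat_lit 5) (nat_lit 370) (nat_lit 5) (nat_lit 371) (nat_lit 5) (nat_lit 574) (nat_lit 516) (nat_lit 470)) (XT.lf (nat_lit 0) (nat_lit 650954372) (nat_lit 760) (nat_lit 5261708449) (nat_lit 76) (nat_lit 2340072084) (nat_lit 350) (nat_lit 5) (nat_lit 360) (nat_lit 5) (nat_lit 351) (nat_lit 5) (nat_lit 575) (nat_lit 516) (nat_lit 469))))))) (XT.nd (nat_lit 780) (nat_lit 4028) (nat_lit 0) (XT.nd (nat_lit 390) (nat_lit 2660) (nat_lit 0) (XT.nd (nat_lit 156) (nat_lit 1444) (nat_lit 0) (XT.nd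 (nat_lit 78) (nat_lit 0) (nat_lit 0) (XT.lf (nat_lit 0) (nat_lit 466529269) (nat_lit 760) (nat_lit 2984748259) (nat_lit 836) (nat_lit 4871453159) (nat_lit 340) (nat_lit 5) (nat_lit 350) (nat_lit 5) (nat_lit 351) (nat_lit 5) (nat_lit 576) (nat_lit 516) (nat_lit 468)) (XT.lf (nat_lit 0) (nat_lit 6301117612) (nat_lit 836) (nat_lit 2063599473) (nat_lit 76) (nat_lit 29541496) (nat_lit 340) (nat_lit 5) (nat_lit 351) (nat_lit 5) (nat_lit 341) (nat_lit 5) (nat_lit 577) (nat_lit 516) (nat_lit 467))) (XT.nd (nat_lit 78) (nat_lit 684) (nat_lit 0) (XT.lf (nat_lit 0) (nat_lit 734428933) (nat_lit 760) (nat_lit 4646319050) (nat_lit 76) (nat_lit 3086307044) (nat_lit 330) (nat_lit 5) (nat_lit 340) (nat_lit 5) (nat_lit 331) (nat_lit 5) (nat_lit 578) (nat_lit 516) (nat_lit 466)) (XT.nd (nat_lit 78) (nat_lit 0) (nat_lit 0) (XT.lf (nat_lit 0) (nat_lit 1262485753) (nat_lit 684) (nat_lit 2309197234) (nat_lit 760) (nat_lit 4969726771) (nat_lit 321) (nat_lit 5) (nat_lit 330) (nat_lit 5) (nat_lit 331) (nat_lit 5) (nat_lit 579) (nat_lit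 516) (nat_lit 465)) (XT.lf (nat_lit 0) (nat_lit 6461838085) (nat_lit 760) (nat_lit 1319979662) (nat_lit 76) (nat_lit 835512940) (nat_lit 321) (nat_lit 5) (nat_lit 331) (nat_lit 5) (nat_lit 322) (nat_lit 5) (nat_lit 580) (nat_lit 516) (nat_lit 464))))) (XT.nd (nat_lit 156) (nat_lit 1292) (nat_lit 0) (XT.nd (nat_lit 78) (nat_lit 684) (nat_lit 0) (XT.lf (nat_lit 0) (nat_lit 712077621) (nat_lit 684) (nat_lit 3943363086) (nat_lit 76) (nat_lit 4039110033) (nat_lit 312) (nat_lit 5) (nat_lit 321) (nat_lit 5) (nat_lit 313) (nat_lit 5) (nat_lit 581) (nat_lit 516) (nat_lit 463)) (XT.lf (nat_lit 0) (nat_lit 2152971920) (nat_lit 684) (nat_lit 1438504351) (nat_lit 760) (nat_lit 5181889278) (nat_lit 303) (nat_lit 5) (nat_lit 312) (nat_lit 5) (nat_lit 313) (nat_lit 5) (nat_lit 582) (nat_lit 516) (nat_lit 462))) (XT.nd (nat_lit 78) (nat_lit 1292) (nat_lit 0) (XT.lf (nat_lit 0) (nat_lit 6527873901) (nat_lit 760) (nat_lit 490538531) (nat_lit 76) (nat_lit 1835358055) (nat_lit 303) (nat_lit 5) (nat_lit 313) (nat_lit 5) (nat_lit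 304) (nat_lit 5) (nat_lit 583) (nat_lit 516) (nat_lit 461)) (XT.nd (nat_lit 78) (nat_lit 608) (nat_lit 0) (XT.lf (nat_lit 0) (nat_lit 588196926) (nat_lit 684) (nat_lit 3160179679) (nat_lit 76) (nat_lit 5187158992) (nat_lit 294) (nat_lit 5) (nat_lit 303) (nat_lit 5) (nat_lit 295) (nat_lit 5) (nat_lit 584) (nat_lit 516) (nat_lit 460)) (XT.lf (nat_lit 0) (nat_lit 3130915667) (nat_lit 608) (nat_lit 383945829) (nat_lit 684) (nat_lit 5504060304) (nat_lit 286) (nat_lit 5) (nat_lit 294) (nat_lit 5) (nat_lit 295) (nat_lit 5) (nat_lit 585) (nat_lit 516) (nat_lit 459)))))) (XT.nd (nat_lit 390) (nat_lit 2128) (nat_lit 0) (XT.nd (nat_lit 156) (nat_lit 1216) (nat_lit 0) (XT.nd (nat_lit 78) (nat_lit 76) (nat_lit 0) (XT.lf (nat_lit 0) (nat_lit 423308196) (nat_lit 608) (nat_lit 6082759137) (nat_lit 684) (nat_lit 2597790131) (nat_lit 278) (nat_lit 5) (nat_lit 286) (nat_lit 5) (nat_lit 287) (nat_lit 5) (nat_lit 586) (nat_lit 516) (nat_lit 458)) (XT.lf (nat_lit 0) (nat_lit 366411778) (nat_lit 684) (nat_lit 2303834907) (nat_lit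 76) (nat_lit 6520107085) (nat_lit 277) (nat_lit 5) (nat_lit 286) (nat_lit 5) (nat_lit 278) (nat_lit 5) (nat_lit 587) (nat_lit 516) (nat_lit 457))) (XT.nd (nat_lit 78) (nat_lit 608) (nat_lit 0) (XT.lf (nat_lit 0) (nat_lit 3350865336) (nat_lit 684) (nat_lit 5094395715) (nat_lit 76) (nat_lit 833062270) (nat_lit 269) (nat_lit 5) (nat_lit 278) (nat_lit 5) (nat_lit 270) (nat_lit 5) (nat_lit 588) (nat_lit 516) (nat_lit 456)) (XT.nd (nat_lit 78) (nat_lit 76) (nat_lit 0) (XT.lf (nat_lit 0) (nat_lit 1416751600) (nat_lit 532) (nat_lit 4984073277) (nat_lit 608) (nat_lit 2967112800) (nat_lit 262) (nat_lit 5) (nat_lit 269) (nat_lit 5) (nat_lit 270) (nat_lit 5) (nat_lit 589) (nat_lit 516) (nat_lit 455)) (XT.lf (nat_lit 0) (nat_lit 49697060) (nat_lit 608) (nat_lit 1381188449) (nat_lit 76) (nat_lit 8028494775) (nat_lit 261) (nat_lit 5) (nat_lit 269) (nat_lit 5) (nat_lit 262) (nat_lit 5) (nat_lit 590) (nat_lit 516) (nat_lit 454))))) (XT.nd (nat_lit 156) (nat_lit 1064) (nat_lit 0) (XT.nd (nat_lit 78) (nat_lit 532) (nat_lit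 0) (XT.lf (nat_lit 0) (nat_lit 3100472960) (nat_lit 608) (nat_lit 4244617849) (nat_lit 76) (nat_lit 2206903142) (nat_lit 254) (nat_lit 5) (nat_lit 262) (nat_lit 5) (nat_lit 255) (nat_lit 5) (nat_lit 591) (nat_lit 516) (nat_lit 453)) (XT.lf (nat_lit 0) (nat_lit 2476617652) (nat_lit 532) (nat_lit 3735089756) (nat_lit 608) (nat_lit 3434765242) (nat_lit 247) (nat_lit 5) (nat_lit 254) (nat_lit 5) (nat_lit 255) (nat_lit 5) (nat_lit 592) (nat_lit 516) (nat_lit 452))) (XT.nd (nat_lit 78) (nat_lit 1064) (nat_lit 0) (XT.lf (nat_lit 0) (nat_lit 9341647776) (nat_lit 532) (nat_lit 36941852) (nat_lit 608) (nat_lit 364384419) (nat_lit 247) (nat_lit 5) (nat_lit 254) (nat_lit 5) (nat_lit 255) (nat_lit 5) (nat_lit 593) (nat_lit 516) (nat_lit 451)) (XT.nd (nat_lit 78) (nat_lit 456) (nat_lit 0) (XT.lf (nat_lit 0) (nat_lit 2763420641) (nat_lit 608) (nat_lit 3342993845) (nat_lit 76) (nat_lit 3733986923) (nat_lit 239) (nat_lit 5) (nat_lit 247) (nat_lit 5) (nat_lit 240) (nat_lit 5) (nat_lit 594) (nat_lit 516) (nat_lit 450)) (XT.lf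 (nat_lit 0) (nat_lit 3596352869) (nat_lit 456) (nat_lit 2344543253) (nat_lit 532) (nat_lit 3998994650) (nat_lit 233) (nat_lit 5) (nat_lit 239) (nat_lit 5) (nat_lit 240) (nat_lit 5) (nat_lit 595) (nat_lit 516) (nat_lit 449))))))))
noncomputable def xc57 : XT := (XT.nd (nat_lit 1560) (nat_lit 1216) (nat_lit 0) (XT.nd (nat_lit 780) (nat_lit 2812) (nat_lit 0) (XT.nd (nat_lit 390) (nat_lit 1824) (nat_lit 0) (XT.nd (nat_lit 156) (nat_lit 988) (nat_lit 0) (XT.nd (nat_lit 78) (nat_lit 76) (nat_lit 0) (XT.lf (nat_lit 0) (nat_lit 629044168) (nat_lit 532) (nat_lit 8555191521) (nat_lit 608) (nat_lit 857089410) (nat_lit 226) (nat_lit 5) (nat_lit 233) (nat_lit 5) (nat_lit 234) (nat_lit 5) (nat_lit 596) (nat_lit 516) (nat_lit 448)) (XT.lf (nat_lit 0) (nat_lit 2341330859) (nat_lit 608) (nat_lit 2396303384) (nat_lit 76) (nat_lit 5406361089) (nat_lit 225) (nat_lit 5) (nat_lit 233) (nat_lit 5) (nat_lit 226) (nat_lit 5) (nat_lit 597) (nat_lit 516) (nat_lit 447))) (XT.nd (nat_lit 78) (nat_lit 532) (nat_lit 0) (XT.lf (nat_lit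 0) (nat_lit 4769436669) (nat_lit 456) (nat_lit 820538085) (nat_lit 532) (nat_lit 4658677658) (nat_lit 219) (nat_lit 5) (nat_lit 225) (nat_lit 5) (nat_lit 226) (nat_lit 5) (nat_lit 598) (nat_lit 516) (nat_lit 446)) (XT.nd (nat_lit 78) (nat_lit 76) (nat_lit 0) (XT.lf (nat_lit 0) (nat_lit 1709910833) (nat_lit 456) (nat_lit 7208591244) (nat_lit 532) (nat_lit 1436603700) (nat_lit 213) (nat_lit 5) (nat_lit 219) (nat_lit 5) (nat_lit 220) (nat_lit 5) (nat_lit 599) (nat_lit 516) (nat_lit 445)) (XT.lf (nat_lit 0) (nat_lit 1835225690) (nat_lit 532) (nat_lit 1411361385) (nat_lit 76) (nat_lit 7216670699) (nat_lit 212) (nat_lit 5) (nat_lit 219) (nat_lit 5) (nat_lit 213) (nat_lit 5) (nat_lit 600) (nat_lit 516) (nat_lit 444))))) (XT.nd (nat_lit 156) (nat_lit 912) (nat_lit 0) (XT.nd (nat_lit 78) (nat_lit 456) (nat_lit 0) (XT.lf (nat_lit 0) (nat_lit 5165319409) (nat_lit 532) (nat_lit 4589324472) (nat_lit 76) (nat_lit 818499012) (nat_lit 206) (nat_lit 5) (nat_lit 213) (nat_lit 5) (nat_lit 207) (nat_lit 5) (nat_lit 601) (nat_lit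 516) (nat_lit 443)) (XT.lf (nat_lit 0) (nat_lit 2829431758) (nat_lit 456) (nat_lit 5749996793) (nat_lit 532) (nat_lit 2105450143) (nat_lit 200) (nat_lit 5) (nat_lit 206) (nat_lit 5) (nat_lit 207) (nat_lit 5) (nat_lit 602) (nat_lit 516) (nat_lit 442))) (XT.nd (nat_lit 78) (nat_lit 836) (nat_lit 0) (XT.lf (nat_lit 0) (nat_lit 1245528525) (nat_lit 532) (nat_lit 395089931) (nat_lit 76) (nat_lit 9158085516) (nat_lit 199) (nat_lit 5) (nat_lit 206) (nat_lit 5) (nat_lit 200) (nat_lit 5) (nat_lit 603) (nat_lit 516) (nat_lit 441)) (XT.nd (nat_lit 78) (nat_lit 456) (nat_lit 0) (XT.lf (nat_lit 0) (nat_lit 4668043546) (nat_lit 456) (nat_lit 3681773081) (nat_lit 76) (nat_lit 2564057794) (nat_lit 194) (nat_lit 5) (nat_lit 200) (nat_lit 5) (nat_lit 195) (nat_lit 5) (nat_lit 604) (nat_lit 516) (nat_lit 440)) (XT.lf (nat_lit 0) (nat_lit 3980704927) (nat_lit 456) (nat_lit 4186645889) (nat_lit 532) (nat_lit 2863831779) (nat_lit 188) (nat_lit 5) (nat_lit 194) (nat_lit 5) (nat_lit 195) (nat_lit 5) (nat_lit 605) (nat_lit 516)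 (nat_lit 439)))))) (XT.nd (nat_lit 390) (nat_lit 1520) (nat_lit 0) (XT.nd (nat_lit 156) (nat_lit 836) (nat_lit 0) (XT.nd (nat_lit 78) (nat_lit 0) (nat_lit 0) (XT.lf (nat_lit 0) (nat_lit 576811666) (nat_lit 456) (nat_lit 10497318549) (nat_lit 76) (nat_lit 76658013) (nat_lit 182) (nat_lit 5) (nat_lit 188) (nat_lit 5) (nat_lit 183) (nat_lit 5) (nat_lit 606) (nat_lit 516) (nat_lit 438)) (XT.lf (nat_lit 0) (nat_lit 4092579603) (nat_lit 456) (nat_lit 2758606002) (nat_lit 76) (nat_lit 4420329692) (nat_lit 182) (nat_lit 5) (nat_lit 188) (nat_lit 5) (nat_lit 183) (nat_lit 5) (nat_lit 607) (nat_lit 516) (nat_lit 437))) (XT.nd (nat_lit 78) (nat_lit 456) (nat_lit 0) (XT.lf (nat_lit 0) (nat_lit 5156600638) (nat_lit 380) (nat_lit 2525415480) (nat_lit 456) (nat_lit 3712574792) (nat_lit 177) (nat_lit 5) (nat_lit 182) (nat_lit 5) (nat_lit 183) (nat_lit 5) (nat_lit 608) (nat_lit 516) (nat_lit 436)) (XT.nd (nat_lit 78) (nat_lit 76) (nat_lit 0) (XT.lf (nat_lit 0) (nat_lit 1711720222) (nat_lit 380) (nat_lit 9643585197) (nat_lit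 456) (nat_lit 164582383) (nat_lit 172) (nat_lit 5) (nat_lit 177) (nat_lit 5) (nat_lit 178) (nat_lit 5) (nat_lit 609) (nat_lit 516) (nat_lit 435)) (XT.lf (nat_lit 0) (nat_lit 3438084796) (nat_lit 456) (nat_lit 1827498202) (nat_lit 76) (nat_lit 6381079687) (nat_lit 171) (nat_lit 5) (nat_lit 177) (nat_lit 5) (nat_lit 172) (nat_lit 5) (nat_lit 610) (nat_lit 516) (nat_lit 434))))) (XT.nd (nat_lit 156) (nat_lit 760) (nat_lit 0) (XT.nd (nat_lit 78) (nat_lit 380) (nat_lit 0) (XT.lf (nat_lit 0) (nat_lit 6349680229) (nat_lit 380) (nat_lit 772892455) (nat_lit 456) (nat_lit 4653140188) (nat_lit 166) (nat_lit 5) (nat_lit 171) (nat_lit 5) (nat_lit 172) (nat_lit 5) (nat_lit 611) (nat_lit 516) (nat_lit 433)) (XT.lf (nat_lit 0) (nat_lit 2774173339) (nat_lit 380) (nat_lit 8132588513) (nat_lit 456) (nat_lit 1000062947) (nat_lit 161) (nat_lit 5) (nat_lit 166) (nat_lit 5) (nat_lit 167) (nat_lit 5) (nat_lit 612) (nat_lit 516) (nat_lit 432))) (XT.nd (nat_lit 78) (nat_lit 684) (nat_lit 0) (XT.lf (nat_lit 0) (nat_lit 2703099528)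 (nat_lit 456) (nat_lit 896512314) (nat_lit 76) (nat_lit 8440338530) (nat_lit 160) (nat_lit 5) (nat_lit 166) (nat_lit 5) (nat_lit 161) (nat_lit 5) (nat_lit 613) (nat_lit 516) (nat_lit 431)) (XT.nd (nat_lit 78) (nat_lit 304) (nat_lit 0) (XT.lf (nat_lit 0) (nat_lit 6494466057) (nat_lit 456) (nat_lit 4629996522) (nat_lit 76) (nat_lit 1050593945) (nat_lit 155) (nat_lit 5) (nat_lit 161) (nat_lit 5) (nat_lit 156) (nat_lit 5) (nat_lit 614) (nat_lit 516) (nat_lit 430)) (XT.lf (nat_lit 0) (nat_lit 3836480709) (nat_lit 304) (nat_lit 6551720628) (nat_lit 380) (nat_lit 1924133529) (nat_lit 151) (nat_lit 5) (nat_lit 155) (nat_lit 5) (nat_lit 156) (nat_lit 5) (nat_lit 615) (nat_lit 516) (nat_lit 429))))))) (XT.nd (nat_lit 74568) (nat_lit 0) (nat_lit 43548) (XT.nd (nat_lit 74178) (nat_lit 0) (nat_lit 47804) (XT.nd (nat_lit 156) (nat_lit 760) (nat_lit 0) (XT.nd (nat_lit 78) (nat_lit 0) (nat_lit 0) (XT.lf (nat_lit 0) (nat_lit 26154427) (nat_lit 380) (nat_lit 1859543604) (nat_lit 456) (nat_lit 10566348671) (nat_lit 145) (nat_lit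 5) (nat_lit 150) (nat_lit 5) (nat_lit 151) (nat_lit 5) (nat_lit 616) (nat_lit 516) (nat_lit 428)) (XT.lf (nat_lit 0) (nat_lit 5794212249) (nat_lit 456) (nat_lit 3857504236) (nat_lit 76) (nat_lit 2941617760) (nat_lit 145) (nat_lit 5) (nat_lit 151) (nat_lit 5) (nat_lit 146) (nat_lit 5) (nat_lit 617) (nat_lit 516) (nat_lit 427))) (XT.nd (nat_lit 78) (nat_lit 456) (nat_lit 0) (XT.lf (nat_lit 0) (nat_lit 4889887363) (nat_lit 304) (nat_lit 4907593564) (nat_lit 380) (nat_lit 2939635752) (nat_lit 141) (nat_lit 5) (nat_lit 145) (nat_lit 5) (nat_lit 146) (nat_lit 5) (nat_lit 618) (nat_lit 516) (nat_lit 426)) (XT.nd (nat_lit 78) (nat_lit 0) (nat_lit 0) (XT.lf (nat_lit 0) (nat_lit 942722898) (nat_lit 380) (nat_lit 46012719) (nat_lit 456) (nat_lit 11894815033) (nat_lit 135) (nat_lit 5) (nat_lit 140) (nat_lit 5) (nat_lit 141) (nat_lit 5) (nat_lit 619) (nat_lit 516) (nat_lit 425)) (XT.lf (nat_lit 0) (nat_lit 5013990877) (nat_lit 456) (nat_lit 3113127392) (nat_lit 76) (nat_lit 4904253628) (nat_lit 135) (nat_lit 5) (nat_lit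 141) (nat_lit 5) (nat_lit 136) (nat_lit 5) (nat_lit 620) (nat_lit 516) (nat_lit 424))))) (XT.nd (nat_lit 156) (nat_lit 760) (nat_lit 0) (XT.nd (nat_lit 78) (nat_lit 76) (nat_lit 0) (XT.lf (nat_lit 0) (nat_lit 366262670) (nat_lit 228) (nat_lit 1431700648) (nat_lit 228) (nat_lit 1431700648) (nat_lit 775) (nat_lit 4) (nat_lit 778) (nat_lit 5) (nat_lit 778) (nat_lit 4) (nat_lit 526) (nat_lit 517) (nat_lit 517)) (XT.lf (nat_lit 0) (nat_lit 342191560) (nat_lit 304) (nat_lit 2208830824) (nat_lit 76) (nat_lit 3914683457) (nat_lit 774) (nat_lit 5) (nat_lit 778) (nat_lit 5) (nat_lit 775) (nat_lit 4) (nat_lit 527) (nat_lit 517) (nat_lit 516))) (XT.nd (nat_lit 78) (nat_lit 456) (nat_lit 0) (XT.lf (nat_lit 0) (nat_lit 1331165663) (nat_lit 304) (nat_lit 2171021137) (nat_lit 380) (nat_lit 2971082398) (nat_lit 770) (nat_lit 5) (nat_lit 774) (nat_lit 5) (nat_lit 775) (nat_lit 4) (nat_lit 528) (nat_lit 517) (nat_lit 515)) (XT.nd (nat_lit 78) (nat_lit 380) (nat_lit 0) (XT.lf (nat_lit 0) (nat_lit 176803206) (nat_lit 380) (nat_lit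 1558053847) (nat_lit 76) (nat_lit 4747391538) (nat_lit 769) (nat_lit 5) (nat_lit 774) (nat_lit 5) (nat_lit 770) (nat_lit 5) (nat_lit 529) (nat_lit 517) (nat_lit 514)) (XT.lf (nat_lit 0) (nat_lit 2058344508) (nat_lit 380) (nat_lit 1225165478) (nat_lit 456) (nat_lit 3208800424) (nat_lit 764) (nat_lit 5) (nat_lit 769) (nat_lit 5) (nat_lit 770) (nat_lit 5) (nat_lit 530) (nat_lit 517) (nat_lit 513)))))) (XT.nd (nat_lit 390) (nat_lit 2508) (nat_lit 0) (XT.nd (nat_lit 156) (nat_lit 1216) (nat_lit 0) (XT.nd (nat_lit 78) (nat_lit 532) (nat_lit 0) (XT.lf (nat_lit 0) (nat_lit 5721845740) (nat_lit 380) (nat_lit 664429163) (nat_lit 456) (nat_lit 117628455) (nat_lit 764) (nat_lit 5) (nat_lit 769) (nat_lit 5) (nat_lit 770) (nat_lit 5) (nat_lit 531) (nat_lit 517) (nat_lit 512)) (XT.lf (nat_lit 0) (nat_lit 2914963406) (nat_lit 456) (nat_lit 23984297) (nat_lit 532) (nat_lit 3577526555) (nat_lit 757) (nat_lit 5) (nat_lit 763) (nat_lit 5) (nat_lit 764) (nat_lit 5) (nat_lit 532) (nat_lit 517) (nat_lit 511))) (XT.nd (nat_lit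 78) (nat_lit 684) (nat_lit 0) (XT.lf (nat_lit 0) (nat_lit 116137367) (nat_lit 532) (nat_lit 5874895831) (nat_lit 608) (nat_lit 539536661) (nat_lit 750) (nat_lit 5) (nat_lit 757) (nat_lit 5) (nat_lit 758) (nat_lit 5) (nat_lit 533) (nat_lit 517) (nat_lit 510)) (XT.nd (nat_lit 78) (nat_lit 608) (nat_lit 0) (XT.lf (nat_lit 0) (nat_lit 2476618997) (nat_lit 608) (nat_lit 2652931641) (nat_lit 76) (nat_lit 1416052585) (nat_lit 749) (nat_lit 5) (nat_lit 757) (nat_lit 5) (nat_lit 750) (nat_lit 5) (nat_lit 534) (nat_lit 517) (nat_lit 509)) (XT.lf (nat_lit 0) (nat_lit 1147739128) (nat_lit 608) (nat_lit 4333517965) (nat_lit 684) (nat_lit 1080908596) (nat_lit 741) (nat_lit 5) (nat_lit 749) (nat_lit 5) (nat_lit 750) (nat_lit 5) (nat_lit 535) (nat_lit 517) (nat_lit 508))))) (XT.nd (nat_lit 234) (nat_lit 1672) (nat_lit 0) (XT.nd (nat_lit 78) (nat_lit 760) (nat_lit 0) (XT.lf (nat_lit 0) (nat_lit 1887606894) (nat_lit 684) (nat_lit 1579391028) (nat_lit 76) (nat_lit 3112883717) (nat_lit 740) (nat_lit 5) (nat_lit 749) (nat_lit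 5) (nat_lit 741) (nat_lit 5) (nat_lit 536) (nat_lit 517) (nat_lit 507)) (XT.nd (nat_lit 78) (nat_lit 76) (nat_lit 0) (XT.lf (nat_lit 0) (nat_lit 2308220716) (nat_lit 684) (nat_lit 2537754037) (nat_lit 760) (nat_lit 1752942156) (nat_lit 731) (nat_lit 5) (nat_lit 740) (nat_lit 5) (nat_lit 741) (nat_lit 5) (nat_lit 537) (nat_lit 517) (nat_lit 506)) (XT.lf (nat_lit 0) (nat_lit 1170075656) (nat_lit 760) (nat_lit 379139521) (nat_lit 76) (nat_lit 5070138167) (nat_lit 730) (nat_lit 5) (nat_lit 740) (nat_lit 5) (nat_lit 731) (nat_lit 5) (nat_lit 538) (nat_lit 517) (nat_lit 505)))) (XT.nd (nat_lit 78) (nat_lit 912) (nat_lit 0) (XT.lf (nat_lit 0) (nat_lit 3599325929) (nat_lit 760) (nat_lit 484069269) (nat_lit 836) (nat_lit 2557471907) (nat_lit 720) (nat_lit 5) (nat_lit 730) (nat_lit 5) (nat_lit 731) (nat_lit 5) (nat_lit 539) (nat_lit 517) (nat_lit 504)) (XT.nd (nat_lit 78) (nat_lit 0) (nat_lit 0) (XT.lf (nat_lit 0) (nat_lit 332455401) (nat_lit 912) (nat_lit 5705773009) (nat_lit 76) (nat_lit 625629576) (nat_lit 708)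 (nat_lit 5) (nat_lit 720) (nat_lit 5) (nat_lit 709) (nat_lit 5) (nat_lit 540) (nat_lit 517) (nat_lit 503)) (XT.lf (nat_lit 0) (nat_lit 3203366089) (nat_lit 912) (nat_lit 1676908058) (nat_lit 76) (nat_lit 1807554074) (nat_lit 708) (nat_lit 5) (nat_lit 720) (nat_lit 5) (nat_lit 709) (nat_lit 5) (nat_lit 541) (nat_lit 517) (nat_lit 502))))))))
noncomputable def xc58 : XT := (XT.nd (nat_lit 1560) (nat_lit 11704) (nat_lit 0) (XT.nd (nat_lit 780) (nat_lit 10108) (nat_lit 0) (XT.nd (nat_lit 390) (nat_lit 5168) (nat_lit 0) (XT.nd (nat_lit 156) (nat_lit 2128) (nat_lit 0) (XT.nd (nat_lit 78) (nat_lit 76) (nat_lit 0) (XT.lf (nat_lit 0) (nat_lit 2416519135) (nat_lit 912) (nat_lit 3665812662) (nat_lit 988) (nat_lit 630939427) (nat_lit 696) (nat_lit 5) (nat_lit 708) (nat_lit 5) (nat_lit 709) (nat_lit 5) (nat_lit 542) (nat_lit 517) (nat_lit 501)) (XT.lf (nat_lit 0) (nat_lit 2196567809) (nat_lit 988) (nat_lit 187585280) (nat_lit 76) (nat_lit 4355843598) (nat_lit 695) (nat_lit 5) (nat_lit 708) (nat_lit 5) (nat_lit 696)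 (nat_lit 5) (nat_lit 543) (nat_lit 517) (nat_lit 500))) (XT.nd (nat_lit 78) (nat_lit 1140) (nat_lit 0) (XT.lf (nat_lit 0) (nat_lit 4004798834) (nat_lit 988) (nat_lit 1030137476) (nat_lit 1064) (nat_lit 1732987496) (nat_lit 682) (nat_lit 5) (nat_lit 695) (nat_lit 5) (nat_lit 696) (nat_lit 5) (nat_lit 544) (nat_lit 517) (nat_lit 499)) (XT.nd (nat_lit 78) (nat_lit 0) (nat_lit 0) (XT.lf (nat_lit 0) (nat_lit 1069243962) (nat_lit 1140) (nat_lit 5348792271) (nat_lit 76) (nat_lit 379222563) (nat_lit 667) (nat_lit 5) (nat_lit 682) (nat_lit 5) (nat_lit 668) (nat_lit 5) (nat_lit 545) (nat_lit 517) (nat_lit 498)) (XT.lf (nat_lit 0) (nat_lit 3868104726) (nat_lit 1140) (nat_lit 1112345469) (nat_lit 76) (nat_lit 1847230817) (nat_lit 667) (nat_lit 5) (nat_lit 682) (nat_lit 5) (nat_lit 668) (nat_lit 5) (nat_lit 546) (nat_lit 517) (nat_lit 497))))) (XT.nd (nat_lit 156) (nat_lit 2736) (nat_lit 0) (XT.nd (nat_lit 78) (nat_lit 1292) (nat_lit 0) (XT.lf (nat_lit 0) (nat_lit 3202936443) (nat_lit 1140) (nat_lit 3480292798) (nat_lit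 1216) (nat_lit 176282012) (nat_lit 652) (nat_lit 5) (nat_lit 667) (nat_lit 5) (nat_lit 668) (nat_lit 5) (nat_lit 547) (nat_lit 517) (nat_lit 496)) (XT.lf (nat_lit 0) (nat_lit 670845608) (nat_lit 1216) (nat_lit 1908748861) (nat_lit 1292) (nat_lit 4313006218) (nat_lit 635) (nat_lit 5) (nat_lit 651) (nat_lit 5) (nat_lit 652) (nat_lit 5) (nat_lit 548) (nat_lit 517) (nat_lit 495))) (XT.nd (nat_lit 78) (nat_lit 2736) (nat_lit 0) (XT.lf (nat_lit 0) (nat_lit 5085127003) (nat_lit 1216) (nat_lit 268466508) (nat_lit 1292) (nat_lit 1573432789) (nat_lit 635) (nat_lit 5) (nat_lit 651) (nat_lit 5) (nat_lit 652) (nat_lit 5) (nat_lit 549) (nat_lit 517) (nat_lit 494)) (XT.nd (nat_lit 78) (nat_lit 1368) (nat_lit 0) (XT.lf (nat_lit 0) (nat_lit 1172782200) (nat_lit 1368) (nat_lit 4368300686) (nat_lit 76) (nat_lit 1421546550) (nat_lit 617) (nat_lit 5) (nat_lit 635) (nat_lit 5) (nat_lit 618) (nat_lit 5) (nat_lit 550) (nat_lit 517) (nat_lit 493)) (XT.lf (nat_lit 0) (nat_lit 85579845) (nat_lit 1368) (nat_lit 3824573833) (nat_lit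 1444) (nat_lit 3089441656) (nat_lit 599) (nat_lit 5) (nat_lit 617) (nat_lit 5) (nat_lit 618) (nat_lit 5) (nat_lit 551) (nat_lit 517) (nat_lit 492)))))) (XT.nd (nat_lit 390) (nat_lit 5396) (nat_lit 0) (XT.nd (nat_lit 156) (nat_lit 3192) (nat_lit 0) (XT.nd (nat_lit 78) (nat_lit 1520) (nat_lit 0) (XT.lf (nat_lit 0) (nat_lit 4639258557) (nat_lit 1368) (nat_lit 2035645353) (nat_lit 1444) (nat_lit 362948635) (nat_lit 599) (nat_lit 5) (nat_lit 617) (nat_lit 5) (nat_lit 618) (nat_lit 5) (nat_lit 552) (nat_lit 517) (nat_lit 491)) (XT.lf (nat_lit 0) (nat_lit 2171627528) (nat_lit 1444) (nat_lit 172889536) (nat_lit 1520) (nat_lit 4732885159) (nat_lit 579) (nat_lit 5) (nat_lit 598) (nat_lit 5) (nat_lit 599) (nat_lit 5) (nat_lit 553) (nat_lit 517) (nat_lit 490))) (XT.nd (nat_lit 78) (nat_lit 3192) (nat_lit 0) (XT.lf (nat_lit 0) (nat_lit 5073581548) (nat_lit 1520) (nat_lit 314504203) (nat_lit 76) (nat_lit 1730167331) (nat_lit 579) (nat_lit 5) (nat_lit 599) (nat_lit 5) (nat_lit 580) (nat_lit 5) (nat_lit 554) (nat_lit 517)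 (nat_lit 489)) (XT.nd (nat_lit 78) (nat_lit 1596) (nat_lit 0) (XT.lf (nat_lit 0) (nat_lit 663525482) (nat_lit 1596) (nat_lit 2788095337) (nat_lit 76) (nat_lit 3708706489) (nat_lit 558) (nat_lit 5) (nat_lit 579) (nat_lit 5) (nat_lit 559) (nat_lit 5) (nat_lit 555) (nat_lit 517) (nat_lit 488)) (XT.lf (nat_lit 0) (nat_lit 1916786156) (nat_lit 1596) (nat_lit 1442678398) (nat_lit 1672) (nat_lit 3844293139) (nat_lit 537) (nat_lit 5) (nat_lit 558) (nat_lit 5) (nat_lit 559) (nat_lit 5) (nat_lit 556) (nat_lit 517) (nat_lit 487))))) (XT.nd (nat_lit 156) (nat_lit 3648) (nat_lit 0) (XT.nd (nat_lit 78) (nat_lit 1748) (nat_lit 0) (XT.lf (nat_lit 0) (nat_lit 6079223236) (nat_lit 1672) (nat_lit 547521189) (nat_lit 76) (nat_lit 621918268) (nat_lit 537) (nat_lit 5) (nat_lit 559) (nat_lit 5) (nat_lit 538) (nat_lit 5) (nat_lit 557) (nat_lit 517) (nat_lit 486)) (XT.lf (nat_lit 0) (nat_lit 1523908010) (nat_lit 1748) (nat_lit 3019790781) (nat_lit 76) (nat_lit 2750859599) (nat_lit 514) (nat_lit 5) (nat_lit 537) (nat_lit 5) (nat_lit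 515) (nat_lit 5) (nat_lit 558) (nat_lit 517) (nat_lit 485))) (XT.nd (nat_lit 78) (nat_lit 1900) (nat_lit 0) (XT.lf (nat_lit 0) (nat_lit 1827080747) (nat_lit 1748) (nat_lit 2392487151) (nat_lit 1824) (nat_lit 3122371208) (nat_lit 491) (nat_lit 5) (nat_lit 514) (nat_lit 5) (nat_lit 515) (nat_lit 5) (nat_lit 559) (nat_lit 517) (nat_lit 484)) (XT.nd (nat_lit 78) (nat_lit 1900) (nat_lit 0) (XT.lf (nat_lit 0) (nat_lit 6763406172) (nat_lit 1748) (nat_lit 175222606) (nat_lit 1824) (nat_lit 452252622) (nat_lit 491) (nat_lit 5) (nat_lit 514) (nat_lit 5) (nat_lit 515) (nat_lit 5) (nat_lit 560) (nat_lit 517) (nat_lit 483)) (XT.lf (nat_lit 0) (nat_lit 2233464891) (nat_lit 1900) (nat_lit 3102945750) (nat_lit 76) (nat_lit 2104260848) (nat_lit 466) (nat_lit 5) (nat_lit 491) (nat_lit 5) (nat_lit 467) (nat_lit 5) (nat_lit 561) (nat_lit 517) (nat_lit 482))))))) (XT.nd (nat_lit 780) (nat_lit 5244) (nat_lit 0) (XT.nd (nat_lit 390) (nat_lit 3420) (nat_lit 0) (XT.nd (nat_lit 156) (nat_lit 1900) (nat_lit 0) (XT.nd (nat_lit 78)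 (nat_lit 76) (nat_lit 0) (XT.lf (nat_lit 0) (nat_lit 1891158721) (nat_lit 1064) (nat_lit 3043934102) (nat_lit 1140) (nat_lit 2556943236) (nat_lit 452) (nat_lit 5) (nat_lit 466) (nat_lit 5) (nat_lit 467) (nat_lit 5) (nat_lit 562) (nat_lit 517) (nat_lit 481)) (XT.lf (nat_lit 0) (nat_lit 116262945) (nat_lit 1140) (nat_lit 567051572) (nat_lit 76) (nat_lit 6861660638) (nat_lit 451) (nat_lit 5) (nat_lit 466) (nat_lit 5) (nat_lit 452) (nat_lit 5) (nat_lit 563) (nat_lit 517) (nat_lit 480))) (XT.nd (nat_lit 78) (nat_lit 988) (nat_lit 0) (XT.lf (nat_lit 0) (nat_lit 2801712151) (nat_lit 988) (nat_lit 3048356723) (nat_lit 76) (nat_lit 1748709105) (nat_lit 439) (nat_lit 5) (nat_lit 452) (nat_lit 5) (nat_lit 440) (nat_lit 5) (nat_lit 564) (nat_lit 517) (nat_lit 479)) (XT.nd (nat_lit 78) (nat_lit 76) (nat_lit 0) (XT.lf (nat_lit 0) (nat_lit 2098492250) (nat_lit 912) (nat_lit 3416848411) (nat_lit 988) (nat_lit 2138830029) (nat_lit 427) (nat_lit 5) (nat_lit 439) (nat_lit 5) (nat_lit 440) (nat_lit 5) (nat_lit 565) (nat_lit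 517) (nat_lit 478)) (XT.lf (nat_lit 0) (nat_lit 538445455) (nat_lit 988) (nat_lit 373653570) (nat_lit 76) (nat_lit 6799033304) (nat_lit 426) (nat_lit 5) (nat_lit 439) (nat_lit 5) (nat_lit 427) (nat_lit 5) (nat_lit 566) (nat_lit 517) (nat_lit 477))))) (XT.nd (nat_lit 156) (nat_lit 1748) (nat_lit 0) (XT.nd (nat_lit 78) (nat_lit 836) (nat_lit 0) (XT.lf (nat_lit 0) (nat_lit 3237237048) (nat_lit 912) (nat_lit 2866076570) (nat_lit 76) (nat_lit 1665707687) (nat_lit 415) (nat_lit 5) (nat_lit 427) (nat_lit 5) (nat_lit 416) (nat_lit 5) (nat_lit 567) (nat_lit 517) (nat_lit 476)) (XT.lf (nat_lit 0) (nat_lit 2439296791) (nat_lit 836) (nat_lit 3529410691) (nat_lit 912) (nat_lit 1859789509) (nat_lit 404) (nat_lit 5) (nat_lit 415) (nat_lit 5) (nat_lit 416) (nat_lit 5) (nat_lit 568) (nat_lit 517) (nat_lit 475))) (XT.nd (nat_lit 78) (nat_lit 1672) (nat_lit 0) (XT.lf (nat_lit 0) (nat_lit 828233236) (nat_lit 912) (nat_lit 53942976) (nat_lit 76) (nat_lit 7007397623) (nat_lit 403) (nat_lit 5) (nat_lit 415) (nat_lit 5) (nat_lit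 404) (nat_lit 5) (nat_lit 569) (nat_lit 517) (nat_lit 474)) (XT.nd (nat_lit 78) (nat_lit 836) (nat_lit 0) (XT.lf (nat_lit 0) (nat_lit 3547753053) (nat_lit 912) (nat_lit 2565492489) (nat_lit 76) (nat_lit 1838330843) (nat_lit 392) (nat_lit 5) (nat_lit 404) (nat_lit 5) (nat_lit 393) (nat_lit 5) (nat_lit 570) (nat_lit 517) (nat_lit 473)) (XT.lf (nat_lit 0) (nat_lit 2904453443) (nat_lit 836) (nat_lit 3398283865) (nat_lit 912) (nat_lit 1712462961) (nat_lit 381) (nat_lit 5) (nat_lit 392) (nat_lit 5) (nat_lit 393) (nat_lit 5) (nat_lit 571) (nat_lit 517) (nat_lit 472)))))) (XT.nd (nat_lit 390) (nat_lit 2888) (nat_lit 0) (XT.nd (nat_lit 156) (nat_lit 1520) (nat_lit 0) (XT.nd (nat_lit 78) (nat_lit 0) (nat_lit 0) (XT.lf (nat_lit 0) (nat_lit 388205084) (nat_lit 760) (nat_lit 607093820) (nat_lit 836) (nat_lit 7085143904) (nat_lit 370) (nat_lit 5) (nat_lit 380) (nat_lit 5) (nat_lit 381) (nat_lit 5) (nat_lit 572) (nat_lit 517) (nat_lit 471)) (XT.lf (nat_lit 0) (nat_lit 3740149123) (nat_lit 836) (nat_lit 2155400612) (nat_lit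 76) (nat_lit 2251099419) (nat_lit 370) (nat_lit 5) (nat_lit 381) (nat_lit 5) (nat_lit 371) (nat_lit 5) (nat_lit 573) (nat_lit 517) (nat_lit 470))) (XT.nd (nat_lit 78) (nat_lit 760) (nat_lit 0) (XT.lf (nat_lit 0) (nat_lit 3485434566) (nat_lit 760) (nat_lit 3038735148) (nat_lit 836) (nat_lit 1690326998) (nat_lit 360) (nat_lit 5) (nat_lit 370) (nat_lit 5) (nat_lit 371) (nat_lit 5) (nat_lit 574) (nat_lit 517) (nat_lit 469)) (XT.nd (nat_lit 78) (nat_lit 0) (nat_lit 0) (XT.lf (nat_lit 0) (nat_lit 941455811) (nat_lit 684) (nat_lit 103081278) (nat_lit 760) (nat_lit 7239455637) (nat_lit 350) (nat_lit 5) (nat_lit 359) (nat_lit 5) (nat_lit 360) (nat_lit 5) (nat_lit 575) (nat_lit 517) (nat_lit 468)) (XT.lf (nat_lit 0) (nat_lit 3820533541) (nat_lit 760) (nat_lit 1644077810) (nat_lit 76) (nat_lit 2889864881) (nat_lit 350) (nat_lit 5) (nat_lit 360) (nat_lit 5) (nat_lit 351) (nat_lit 5) (nat_lit 576) (nat_lit 517) (nat_lit 467))))) (XT.nd (nat_lit 234) (nat_lit 1368) (nat_lit 0) (XT.nd (nat_lit 78) (nat_lit 760) (nat_lit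 0) (XT.lf (nat_lit 0) (nat_lit 4174232131) (nat_lit 760) (nat_lit 2464749981) (nat_lit 836) (nat_lit 1787651011) (nat_lit 340) (nat_lit 5) (nat_lit 350) (nat_lit 5) (nat_lit 351) (nat_lit 5) (nat_lit 577) (nat_lit 517) (nat_lit 466)) (XT.nd (nat_lit 78) (nat_lit 0) (nat_lit 0) (XT.lf (nat_lit 0) (nat_lit 985115789) (nat_lit 760) (nat_lit 6907419157) (nat_lit 76) (nat_lit 607872008) (nat_lit 330) (nat_lit 5) (nat_lit 340) (nat_lit 5) (nat_lit 331) (nat_lit 5) (nat_lit 578) (nat_lit 517) (nat_lit 465)) (XT.lf (nat_lit 0) (nat_lit 3794272576) (nat_lit 760) (nat_lit 1039351234) (nat_lit 76) (nat_lit 3741700919) (nat_lit 330) (nat_lit 5) (nat_lit 340) (nat_lit 5) (nat_lit 331) (nat_lit 5) (nat_lit 579) (nat_lit 517) (nat_lit 464)))) (XT.nd (nat_lit 78) (nat_lit 684) (nat_lit 0) (XT.lf (nat_lit 0) (nat_lit 4963288256) (nat_lit 684) (nat_lit 1689138660) (nat_lit 760) (nat_lit 1999459836) (nat_lit 321) (nat_lit 5) (nat_lit 330) (nat_lit 5) (nat_lit 331) (nat_lit 5) (nat_lit 580) (nat_lit 517) (nat_lit 463)) (XT.nd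 (nat_lit 78) (nat_lit 0) (nat_lit 0) (XT.lf (nat_lit 0) (nat_lit 819815293) (nat_lit 684) (nat_lit 6392757430) (nat_lit 76) (nat_lit 1517439831) (nat_lit 312) (nat_lit 5) (nat_lit 321) (nat_lit 5) (nat_lit 313) (nat_lit 5) (nat_lit 581) (nat_lit 517) (nat_lit 462)) (XT.lf (nat_lit 0) (nat_lit 3666024175) (nat_lit 684) (nat_lit 348666123) (nat_lit 76) (nat_lit 4794801877) (nat_lit 312) (nat_lit 5) (nat_lit 321) (nat_lit 5) (nat_lit 313) (nat_lit 5) (nat_lit 582) (nat_lit 517) (nat_lit 461))))))))
noncomputable def xc59 : XT := (XT.nd (nat_lit 1560) (nat_lit 5396) (nat_lit 0) (XT.nd (nat_lit 780) (nat_lit 3648) (nat_lit 0) (XT.nd (nat_lit 390) (nat_lit 1748) (nat_lit 0) (XT.nd (nat_lit 156) (nat_lit 1292) (nat_lit 0) (XT.nd (nat_lit 78) (nat_lit 684) (nat_lit 0) (XT.lf (nat_lit 0) (nat_lit 5845427397) (nat_lit 684) (nat_lit 723636426) (nat_lit 760) (nat_lit 2321501445) (nat_lit 303) (nat_lit 5) (nat_lit 312) (nat_lit 5) (nat_lit 313) (nat_lit 5) (nat_lit 583) (nat_lit 517) (nat_lit 460)) (XT.lf (nat_lit 0)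 (nat_lit 551988654) (nat_lit 684) (nat_lit 5805369816) (nat_lit 76) (nat_lit 2615783209) (nat_lit 294) (nat_lit 5) (nat_lit 303) (nat_lit 5) (nat_lit 295) (nat_lit 5) (nat_lit 584) (nat_lit 517) (nat_lit 459))) (XT.nd (nat_lit 78) (nat_lit 684) (nat_lit 0) (XT.lf (nat_lit 0) (nat_lit 426440462) (nat_lit 608) (nat_lit 3016095119) (nat_lit 684) (nat_lit 5614715594) (nat_lit 286) (nat_lit 5) (nat_lit 294) (nat_lit 5) (nat_lit 295) (nat_lit 5) (nat_lit 585) (nat_lit 517) (nat_lit 458)) (XT.nd (nat_lit 78) (nat_lit 684) (nat_lit 0) (XT.lf (nat_lit 0) (nat_lit 6395520766) (nat_lit 684) (nat_lit 2331950598) (nat_lit 76) (nat_lit 415480807) (nat_lit 286) (nat_lit 5) (nat_lit 295) (nat_lit 5) (nat_lit 287) (nat_lit 5) (nat_lit 586) (nat_lit 517) (nat_lit 457)) (XT.lf (nat_lit 0) (nat_lit 184991526) (nat_lit 684) (nat_lit 5152490797) (nat_lit 76) (nat_lit 3892661302) (nat_lit 277) (nat_lit 5) (nat_lit 286) (nat_lit 5) (nat_lit 278) (nat_lit 5) (nat_lit 587) (nat_lit 517) (nat_lit 456))))) (XT.nd (nat_lit 156) (nat_lit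 1140) (nat_lit 0) (XT.nd (nat_lit 78) (nat_lit 0) (nat_lit 0) (XT.lf (nat_lit 0) (nat_lit 1279084949) (nat_lit 608) (nat_lit 1848043621) (nat_lit 684) (nat_lit 6191831804) (nat_lit 269) (nat_lit 5) (nat_lit 277) (nat_lit 5) (nat_lit 278) (nat_lit 5) (nat_lit 588) (nat_lit 517) (nat_lit 455)) (XT.lf (nat_lit 0) (nat_lit 6138113930) (nat_lit 684) (nat_lit 1559079804) (nat_lit 76) (nat_lit 1712161330) (nat_lit 269) (nat_lit 5) (nat_lit 278) (nat_lit 5) (nat_lit 270) (nat_lit 5) (nat_lit 589) (nat_lit 517) (nat_lit 454))) (XT.nd (nat_lit 78) (nat_lit 608) (nat_lit 0) (XT.lf (nat_lit 0) (nat_lit 5058361485) (nat_lit 532) (nat_lit 4160833085) (nat_lit 608) (nat_lit 282167248) (nat_lit 262) (nat_lit 5) (nat_lit 269) (nat_lit 5) (nat_lit 270) (nat_lit 5) (nat_lit 590) (nat_lit 517) (nat_lit 453)) (XT.nd (nat_lit 78) (nat_lit 0) (nat_lit 0) (XT.lf (nat_lit 0) (nat_lit 2197847981) (nat_lit 532) (nat_lit 522305044) (nat_lit 608) (nat_lit 6874903029) (nat_lit 254) (nat_lit 5) (nat_lit 261) (nat_lit 5) (nat_lit 262)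 (nat_lit 5) (nat_lit 591) (nat_lit 517) (nat_lit 452)) (XT.lf (nat_lit 0) (nat_lit 5794714594) (nat_lit 608) (nat_lit 728595024) (nat_lit 76) (nat_lit 3166959377) (nat_lit 254) (nat_lit 5) (nat_lit 262) (nat_lit 5) (nat_lit 255) (nat_lit 5) (nat_lit 592) (nat_lit 517) (nat_lit 451)))))) (XT.nd (nat_lit 390) (nat_lit 1444) (nat_lit 0) (XT.nd (nat_lit 156) (nat_lit 1064) (nat_lit 0) (XT.nd (nat_lit 78) (nat_lit 608) (nat_lit 0) (XT.lf (nat_lit 0) (nat_lit 6103374955) (nat_lit 532) (nat_lit 2836412097) (nat_lit 608) (nat_lit 847420306) (nat_lit 247) (nat_lit 5) (nat_lit 254) (nat_lit 5) (nat_lit 255) (nat_lit 5) (nat_lit 593) (nat_lit 517) (nat_lit 450)) (XT.lf (nat_lit 0) (nat_lit 2229816954) (nat_lit 608) (nat_lit 6716080784) (nat_lit 76) (nat_lit 939938503) (nat_lit 239) (nat_lit 5) (nat_lit 247) (nat_lit 5) (nat_lit 240) (nat_lit 5) (nat_lit 594) (nat_lit 517) (nat_lit 449))) (XT.nd (nat_lit 78) (nat_lit 608) (nat_lit 0) (XT.lf (nat_lit 0) (nat_lit 154847585) (nat_lit 456) (nat_lit 5213444988) (nat_lit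 532) (nat_lit 4617813755) (nat_lit 233) (nat_lit 5) (nat_lit 239) (nat_lit 5) (nat_lit 240) (nat_lit 5) (nat_lit 595) (nat_lit 517) (nat_lit 448)) (XT.nd (nat_lit 78) (nat_lit 608) (nat_lit 0) (XT.lf (nat_lit 0) (nat_lit 7207511760) (nat_lit 456) (nat_lit 1373806960) (nat_lit 532) (nat_lit 1506828914) (nat_lit 233) (nat_lit 5) (nat_lit 239) (nat_lit 5) (nat_lit 240) (nat_lit 5) (nat_lit 596) (nat_lit 517) (nat_lit 447)) (XT.lf (nat_lit 0) (nat_lit 1655657949) (nat_lit 608) (nat_lit 6001685086) (nat_lit 76) (nat_lit 2534448985) (nat_lit 225) (nat_lit 5) (nat_lit 233) (nat_lit 5) (nat_lit 226) (nat_lit 5) (nat_lit 597) (nat_lit 517) (nat_lit 446))))) (XT.nd (nat_lit 156) (nat_lit 988) (nat_lit 0) (XT.nd (nat_lit 78) (nat_lit 0) (nat_lit 0) (XT.lf (nat_lit 0) (nat_lit 1092814154) (nat_lit 456) (nat_lit 3771481193) (nat_lit 532) (nat_lit 5432954553) (nat_lit 219) (nat_lit 5) (nat_lit 225) (nat_lit 5) (nat_lit 226) (nat_lit 5) (nat_lit 598) (nat_lit 517) (nat_lit 445)) (XT.lf (nat_lit 0) (nat_lit 8146548972)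 (nat_lit 532) (nat_lit 2041720462) (nat_lit 76) (nat_lit 216359961) (nat_lit 219) (nat_lit 5) (nat_lit 226) (nat_lit 5) (nat_lit 220) (nat_lit 5) (nat_lit 599) (nat_lit 517) (nat_lit 444))) (XT.nd (nat_lit 78) (nat_lit 456) (nat_lit 0) (XT.lf (nat_lit 0) (nat_lit 995048206) (nat_lit 532) (nat_lit 5257701167) (nat_lit 76) (nat_lit 4260728815) (nat_lit 212) (nat_lit 5) (nat_lit 219) (nat_lit 5) (nat_lit 213) (nat_lit 5) (nat_lit 600) (nat_lit 517) (nat_lit 443)) (XT.nd (nat_lit 78) (nat_lit 0) (nat_lit 0) (XT.lf (nat_lit 0) (nat_lit 2068802678) (nat_lit 456) (nat_lit 2209859407) (nat_lit 532) (nat_lit 6345631438) (nat_lit 206) (nat_lit 5) (nat_lit 212) (nat_lit 5) (nat_lit 213) (nat_lit 5) (nat_lit 601) (nat_lit 517) (nat_lit 442)) (XT.lf (nat_lit 0) (nat_lit 7644526076) (nat_lit 532) (nat_lit 1182359913) (nat_lit 76) (nat_lit 1910108844) (nat_lit 206) (nat_lit 5) (nat_lit 213) (nat_lit 5) (nat_lit 207) (nat_lit 5) (nat_lit 602) (nat_lit 517) (nat_lit 441))))))) (XT.nd (nat_lit 780) (nat_lit 2356) (nat_lit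 0) (XT.nd (nat_lit 390) (nat_lit 1216) (nat_lit 0) (XT.nd (nat_lit 156) (nat_lit 912) (nat_lit 0) (XT.nd (nat_lit 78) (nat_lit 380) (nat_lit 0) (XT.lf (nat_lit 0) (nat_lit 248152504) (nat_lit 532) (nat_lit 4491326803) (nat_lit 76) (nat_lit 6111935603) (nat_lit 199) (nat_lit 5) (nat_lit 206) (nat_lit 5) (nat_lit 200) (nat_lit 5) (nat_lit 603) (nat_lit 517) (nat_lit 440)) (XT.lf (nat_lit 0) (nat_lit 3075864166) (nat_lit 380) (nat_lit 535669035) (nat_lit 456) (nat_lit 7356235416) (nat_lit 194) (nat_lit 5) (nat_lit 199) (nat_lit 5) (nat_lit 200) (nat_lit 5) (nat_lit 604) (nat_lit 517) (nat_lit 439))) (XT.nd (nat_lit 78) (nat_lit 912) (nat_lit 0) (XT.lf (nat_lit 0) (nat_lit 7066453466) (nat_lit 456) (nat_lit 300732814) (nat_lit 76) (nat_lit 3718778813) (nat_lit 194) (nat_lit 5) (nat_lit 200) (nat_lit 5) (nat_lit 195) (nat_lit 5) (nat_lit 605) (nat_lit 517) (nat_lit 438)) (XT.nd (nat_lit 78) (nat_lit 456) (nat_lit 0) (XT.lf (nat_lit 0) (nat_lit 7492266625) (nat_lit 456) (nat_lit 3120565697) (nat_lit 532) (nat_lit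 593247083) (nat_lit 188) (nat_lit 5) (nat_lit 194) (nat_lit 5) (nat_lit 195) (nat_lit 5) (nat_lit 606) (nat_lit 517) (nat_lit 437)) (XT.lf (nat_lit 0) (nat_lit 2870531544) (nat_lit 456) (nat_lit 7229476246) (nat_lit 76) (nat_lit 1228071645) (nat_lit 182) (nat_lit 5) (nat_lit 188) (nat_lit 5) (nat_lit 183) (nat_lit 5) (nat_lit 607) (nat_lit 517) (nat_lit 436))))) (XT.nd (nat_lit 156) (nat_lit 836) (nat_lit 0) (XT.nd (nat_lit 78) (nat_lit 0) (nat_lit 0) (XT.lf (nat_lit 0) (nat_lit 603736732) (nat_lit 380) (nat_lit 5812049268) (nat_lit 456) (nat_lit 5036253207) (nat_lit 177) (nat_lit 5) (nat_lit 182) (nat_lit 5) (nat_lit 183) (nat_lit 5) (nat_lit 608) (nat_lit 517) (nat_lit 435)) (XT.lf (nat_lit 0) (nat_lit 8646897833) (nat_lit 380) (nat_lit 1404314003) (nat_lit 456) (nat_lit 1526882040) (nat_lit 177) (nat_lit 5) (nat_lit 182) (nat_lit 5) (nat_lit 183) (nat_lit 5) (nat_lit 609) (nat_lit 517) (nat_lit 434))) (XT.nd (nat_lit 78) (nat_lit 380) (nat_lit 0) (XT.lf (nat_lit 0) (nat_lit 2050638513) (nat_lit 456)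 (nat_lit 6572291455) (nat_lit 76) (nat_lit 3082976448) (nat_lit 171) (nat_lit 5) (nat_lit 177) (nat_lit 5) (nat_lit 172) (nat_lit 5) (nat_lit 610) (nat_lit 517) (nat_lit 433)) (XT.nd (nat_lit 78) (nat_lit 0) (nat_lit 0) (XT.lf (nat_lit 0) (nat_lit 1519557106) (nat_lit 380) (nat_lit 4170009130) (nat_lit 456) (nat_lit 6146302049) (nat_lit 166) (nat_lit 5) (nat_lit 171) (nat_lit 5) (nat_lit 172) (nat_lit 5) (nat_lit 611) (nat_lit 517) (nat_lit 432)) (XT.lf (nat_lit 0) (nat_lit 9419573664) (nat_lit 456) (nat_lit 2152501219) (nat_lit 76) (nat_lit 395989432) (nat_lit 166) (nat_lit 5) (nat_lit 172) (nat_lit 5) (nat_lit 167) (nat_lit 5) (nat_lit 612) (nat_lit 517) (nat_lit 431)))))) (XT.nd (nat_lit 390) (nat_lit 760) (nat_lit 0) (XT.nd (nat_lit 156) (nat_lit 760) (nat_lit 0) (XT.nd (nat_lit 78) (nat_lit 380) (nat_lit 0) (XT.lf (nat_lit 0) (nat_lit 1146652488) (nat_lit 456) (nat_lit 5925278871) (nat_lit 76) (nat_lit 5030026592) (nat_lit 160) (nat_lit 5) (nat_lit 166) (nat_lit 5) (nat_lit 161) (nat_lit 5) (nat_lit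 613) (nat_lit 517) (nat_lit 430)) (XT.lf (nat_lit 0) (nat_lit 2434548435) (nat_lit 380) (nat_lit 2449535834) (nat_lit 456) (nat_lit 7354058973) (nat_lit 155) (nat_lit 5) (nat_lit 160) (nat_lit 5) (nat_lit 161) (nat_lit 5) (nat_lit 614) (nat_lit 517) (nat_lit 429))) (XT.nd (nat_lit 78) (nat_lit 760) (nat_lit 0) (XT.lf (nat_lit 0) (nat_lit 8723289829) (nat_lit 456) (nat_lit 1393287046) (nat_lit 76) (nat_lit 2259935737) (nat_lit 155) (nat_lit 5) (nat_lit 161) (nat_lit 5) (nat_lit 156) (nat_lit 5) (nat_lit 615) (nat_lit 517) (nat_lit 428)) (XT.nd (nat_lit 78) (nat_lit 380) (nat_lit 0) (XT.lf (nat_lit 0) (nat_lit 156210697) (nat_lit 380) (nat_lit 5297342779) (nat_lit 76) (nat_lit 7063357425) (nat_lit 150) (nat_lit 5) (nat_lit 155) (nat_lit 5) (nat_lit 151) (nat_lit 5) (nat_lit 616) (nat_lit 517) (nat_lit 427)) (XT.lf (nat_lit 0) (nat_lit 3340020701) (nat_lit 380) (nat_lit 656949628) (nat_lit 456) (nat_lit 8662583614) (nat_lit 145) (nat_lit 5) (nat_lit 150) (nat_lit 5) (nat_lit 151) (nat_lit 5) (nat_lit 617)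 (nat_lit 517) (nat_lit 426))))) (XT.nd (nat_lit 73866) (nat_lit 0) (nat_lit 48564) (XT.nd (nat_lit 78) (nat_lit 760) (nat_lit 0) (XT.lf (nat_lit 0) (nat_lit 7950888496) (nat_lit 456) (nat_lit 653451013) (nat_lit 76) (nat_lit 4199984279) (nat_lit 145) (nat_lit 5) (nat_lit 151) (nat_lit 5) (nat_lit 146) (nat_lit 5) (nat_lit 618) (nat_lit 517) (nat_lit 425)) (XT.nd (nat_lit 78) (nat_lit 456) (nat_lit 0) (XT.lf (nat_lit 0) (nat_lit 8247301553) (nat_lit 304) (nat_lit 3768069056) (nat_lit 380) (nat_lit 935989502) (nat_lit 141) (nat_lit 5) (nat_lit 145) (nat_lit 5) (nat_lit 146) (nat_lit 5) (nat_lit 619) (nat_lit 517) (nat_lit 424)) (XT.lf (nat_lit 0) (nat_lit 3032990504) (nat_lit 456) (nat_lit 8881952387) (nat_lit 76) (nat_lit 1185731404) (nat_lit 135) (nat_lit 5) (nat_lit 141) (nat_lit 5) (nat_lit 136) (nat_lit 5) (nat_lit 620) (nat_lit 517) (nat_lit 423)))) (XT.nd (nat_lit 78) (nat_lit 304) (nat_lit 0) (XT.lf (nat_lit 0) (nat_lit 75828709) (nat_lit 228) (nat_lit 3073354523) (nat_lit 0) (nat_lit 75828709) (nat_lit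 778) (nat_lit 5) (nat_lit 781) (nat_lit 4) (nat_lit 778) (nat_lit 4) (nat_lit 524) (nat_lit 518) (nat_lit 518)) (XT.nd (nat_lit 78) (nat_lit 304) (nat_lit 0) (XT.lf (nat_lit 0) (nat_lit 3338970017) (nat_lit 228) (nat_lit 2734389525) (nat_lit 0) (nat_lit 380911085) (nat_lit 778) (nat_lit 5) (nat_lit 781) (nat_lit 4) (nat_lit 778) (nat_lit 4) (nat_lit 525) (nat_lit 518) (nat_lit 517)) (XT.lf (nat_lit 0) (nat_lit 52996319) (nat_lit 304) (nat_lit 5751064142) (nat_lit 76) (nat_lit 656068154) (nat_lit 774) (nat_lit 5) (nat_lit 778) (nat_lit 5) (nat_lit 775) (nat_lit 4) (nat_lit 526) (nat_lit 518) (nat_lit 516))))))))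
noncomputable def xc60 : XT := (XT.nd (nat_lit 1560) (nat_lit 18316) (nat_lit 0) (XT.nd (nat_lit 780) (nat_lit 5548) (nat_lit 0) (XT.nd (nat_lit 390) (nat_lit 1748) (nat_lit 0) (XT.nd (nat_lit 156) (nat_lit 532) (nat_lit 0) (XT.nd (nat_lit 78) (nat_lit 304) (nat_lit 0) (XT.lf (nat_lit 0) (nat_lit 3181407837) (nat_lit 304) (nat_lit 2274866776) (nat_lit 76) (nat_lit 1010657122) (nat_lit 774) (nat_lit 5) (nat_lit 778) (nat_lit 5) (nat_lit 775) (nat_lit 4) (nat_lit 527) (nat_lit 518) (nat_lit 515)) (XT.lf (nat_lit 0) (nat_lit 1241221348) (nat_lit 304) (nat_lit 5060747440) (nat_lit 380) (nat_lit 173319389) (nat_lit 770) (nat_lit 5) (nat_lit 774) (nat_lit 5) (nat_lit 775) (nat_lit 4) (nat_lit 528) (nat_lit 518) (nat_lit 514))) (XT.nd (nat_lit 78) (nat_lit 456) (nat_lit 0) (XT.lf (nat_lit 0) (nat_lit 2899380442) (nat_lit 380) (nat_lit 1691277045) (nat_lit 76) (nat_lit 1894020863) (nat_lit 769) (nat_lit 5) (nat_lit 774) (nat_lit 5) (nat_lit 770) (nat_lit 5) (nat_lit 529) (nat_lit 518) (nat_lit 513)) (XT.nd (nat_lit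 78) (nat_lit 76) (nat_lit 0) (XT.lf (nat_lit 0) (nat_lit 1900407813) (nat_lit 380) (nat_lit 4066916128) (nat_lit 456) (nat_lit 528195638) (nat_lit 764) (nat_lit 5) (nat_lit 769) (nat_lit 5) (nat_lit 770) (nat_lit 5) (nat_lit 530) (nat_lit 518) (nat_lit 512)) (XT.lf (nat_lit 0) (nat_lit 2491968503) (nat_lit 456) (nat_lit 982838124) (nat_lit 76) (nat_lit 3032724954) (nat_lit 763) (nat_lit 5) (nat_lit 769) (nat_lit 5) (nat_lit 764) (nat_lit 5) (nat_lit 531) (nat_lit 518) (nat_lit 511))))) (XT.nd (nat_lit 156) (nat_lit 1216) (nat_lit 0) (XT.nd (nat_lit 78) (nat_lit 76) (nat_lit 0) (XT.lf (nat_lit 0) (nat_lit 2687897942) (nat_lit 456) (nat_lit 2820969026) (nat_lit 532) (nat_lit 1011986843) (nat_lit 757) (nat_lit 5) (nat_lit 763) (nat_lit 5) (nat_lit 764) (nat_lit 5) (nat_lit 532) (nat_lit 518) (nat_lit 510)) (XT.lf (nat_lit 0) (nat_lit 1958005353) (nat_lit 532) (nat_lit 148524239) (nat_lit 76) (nat_lit 4428989018) (nat_lit 756) (nat_lit 5) (nat_lit 763) (nat_lit 5) (nat_lit 757) (nat_lit 5) (nat_lit 533) (nat_lit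 518) (nat_lit 509))) (XT.nd (nat_lit 78) (nat_lit 684) (nat_lit 0) (XT.lf (nat_lit 0) (nat_lit 3604858177) (nat_lit 532) (nat_lit 1320458765) (nat_lit 608) (nat_lit 1626004011) (nat_lit 749) (nat_lit 5) (nat_lit 756) (nat_lit 5) (nat_lit 757) (nat_lit 5) (nat_lit 534) (nat_lit 518) (nat_lit 508)) (XT.nd (nat_lit 78) (nat_lit 0) (nat_lit 0) (XT.lf (nat_lit 0) (nat_lit 823738725) (nat_lit 608) (nat_lit 477684255) (nat_lit 684) (nat_lit 5267142804) (nat_lit 740) (nat_lit 5) (nat_lit 748) (nat_lit 5) (nat_lit 749) (nat_lit 5) (nat_lit 535) (nat_lit 518) (nat_lit 507)) (XT.lf (nat_lit 0) (nat_lit 4217985172) (nat_lit 684) (nat_lit 1937093649) (nat_lit 76) (nat_lit 431821562) (nat_lit 740) (nat_lit 5) (nat_lit 749) (nat_lit 5) (nat_lit 741) (nat_lit 5) (nat_lit 536) (nat_lit 518) (nat_lit 506)))))) (XT.nd (nat_lit 390) (nat_lit 3116) (nat_lit 0) (XT.nd (nat_lit 156) (nat_lit 1672) (nat_lit 0) (XT.nd (nat_lit 78) (nat_lit 0) (nat_lit 0) (XT.lf (nat_lit 0) (nat_lit 526191398) (nat_lit 760) (nat_lit 4687598158)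 (nat_lit 76) (nat_lit 1392810258) (nat_lit 730) (nat_lit 5) (nat_lit 740) (nat_lit 5) (nat_lit 731) (nat_lit 5) (nat_lit 537) (nat_lit 518) (nat_lit 505)) (XT.lf (nat_lit 0) (nat_lit 3392517137) (nat_lit 760) (nat_lit 810650111) (nat_lit 76) (nat_lit 2424318681) (nat_lit 730) (nat_lit 5) (nat_lit 740) (nat_lit 5) (nat_lit 731) (nat_lit 5) (nat_lit 538) (nat_lit 518) (nat_lit 504))) (XT.nd (nat_lit 78) (nat_lit 912) (nat_lit 0) (XT.lf (nat_lit 0) (nat_lit 3139006238) (nat_lit 760) (nat_lit 3130800639) (nat_lit 836) (nat_lit 379916613) (nat_lit 720) (nat_lit 5) (nat_lit 730) (nat_lit 5) (nat_lit 731) (nat_lit 5) (nat_lit 539) (nat_lit 518) (nat_lit 503)) (XT.nd (nat_lit 78) (nat_lit 0) (nat_lit 0) (XT.lf (nat_lit 0) (nat_lit 449179083) (nat_lit 836) (nat_lit 1992066474) (nat_lit 912) (nat_lit 4231993254) (nat_lit 708) (nat_lit 5) (nat_lit 719) (nat_lit 5) (nat_lit 720) (nat_lit 5) (nat_lit 540) (nat_lit 518) (nat_lit 502)) (XT.lf (nat_lit 0) (nat_lit 4487036783) (nat_lit 836) (nat_lit 785078521) (nat_lit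 912) (nat_lit 1425897581) (nat_lit 708) (nat_lit 5) (nat_lit 719) (nat_lit 5) (nat_lit 720) (nat_lit 5) (nat_lit 541) (nat_lit 518) (nat_lit 501))))) (XT.nd (nat_lit 156) (nat_lit 2128) (nat_lit 0) (XT.nd (nat_lit 78) (nat_lit 0) (nat_lit 0) (XT.lf (nat_lit 0) (nat_lit 1368329164) (nat_lit 988) (nat_lit 4876210977) (nat_lit 76) (nat_lit 479544714) (nat_lit 695) (nat_lit 5) (nat_lit 708) (nat_lit 5) (nat_lit 696) (nat_lit 5) (nat_lit 542) (nat_lit 518) (nat_lit 500)) (XT.lf (nat_lit 0) (nat_lit 4156249484) (nat_lit 988) (nat_lit 794562071) (nat_lit 76) (nat_lit 1800545920) (nat_lit 695) (nat_lit 5) (nat_lit 708) (nat_lit 5) (nat_lit 696) (nat_lit 5) (nat_lit 543) (nat_lit 518) (nat_lit 499))) (XT.nd (nat_lit 78) (nat_lit 1064) (nat_lit 0) (XT.lf (nat_lit 0) (nat_lit 177433349) (nat_lit 1064) (nat_lit 3414663255) (nat_lit 76) (nat_lit 3187864283) (nat_lit 681) (nat_lit 5) (nat_lit 695) (nat_lit 5) (nat_lit 682) (nat_lit 5) (nat_lit 544) (nat_lit 518) (nat_lit 498)) (XT.nd (nat_lit 78) (nat_lit 0) (nat_lit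 0) (XT.lf (nat_lit 0) (nat_lit 755886207) (nat_lit 1064) (nat_lit 2163594814) (nat_lit 1140) (nat_lit 3890341609) (nat_lit 667) (nat_lit 5) (nat_lit 681) (nat_lit 5) (nat_lit 682) (nat_lit 5) (nat_lit 545) (nat_lit 518) (nat_lit 497)) (XT.lf (nat_lit 0) (nat_lit 5009540661) (nat_lit 1064) (nat_lit 669143176) (nat_lit 1140) (nat_lit 1162356797) (nat_lit 667) (nat_lit 5) (nat_lit 681) (nat_lit 5) (nat_lit 682) (nat_lit 5) (nat_lit 546) (nat_lit 518) (nat_lit 496))))))) (XT.nd (nat_lit 780) (nat_lit 8436) (nat_lit 0) (XT.nd (nat_lit 390) (nat_lit 6080) (nat_lit 0) (XT.nd (nat_lit 156) (nat_lit 2584) (nat_lit 0) (XT.nd (nat_lit 78) (nat_lit 0) (nat_lit 0) (XT.lf (nat_lit 0) (nat_lit 1560852840) (nat_lit 1216) (nat_lit 4428843878) (nat_lit 76) (nat_lit 883742713) (nat_lit 651) (nat_lit 5) (nat_lit 667) (nat_lit 5) (nat_lit 652) (nat_lit 5) (nat_lit 547) (nat_lit 518) (nat_lit 495)) (XT.lf (nat_lit 0) (nat_lit 4280925878) (nat_lit 1216) (nat_lit 134851344) (nat_lit 76) (nat_lit 2491401060) (nat_lit 651) (nat_lit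 5) (nat_lit 667) (nat_lit 5) (nat_lit 652) (nat_lit 5) (nat_lit 548) (nat_lit 518) (nat_lit 494))) (XT.nd (nat_lit 78) (nat_lit 1292) (nat_lit 0) (XT.lf (nat_lit 0) (nat_lit 82033088) (nat_lit 1292) (nat_lit 2688430710) (nat_lit 76) (nat_lit 4171723797) (nat_lit 634) (nat_lit 5) (nat_lit 651) (nat_lit 5) (nat_lit 635) (nat_lit 5) (nat_lit 549) (nat_lit 518) (nat_lit 493)) (XT.nd (nat_lit 78) (nat_lit 0) (nat_lit 0) (XT.lf (nat_lit 0) (nat_lit 1712174071) (nat_lit 1292) (nat_lit 1051954586) (nat_lit 1368) (nat_lit 4214329764) (nat_lit 617) (nat_lit 5) (nat_lit 634) (nat_lit 5) (nat_lit 635) (nat_lit 5) (nat_lit 550) (nat_lit 518) (nat_lit 492)) (XT.lf (nat_lit 0) (nat_lit 5466209843) (nat_lit 1368) (nat_lit 830387763) (nat_lit 76) (nat_lit 719534807) (nat_lit 617) (nat_lit 5) (nat_lit 635) (nat_lit 5) (nat_lit 618) (nat_lit 5) (nat_lit 551) (nat_lit 518) (nat_lit 491))))) (XT.nd (nat_lit 156) (nat_lit 3192) (nat_lit 0) (XT.nd (nat_lit 78) (nat_lit 1444) (nat_lit 0) (XT.lf (nat_lit 0) (nat_lit 1127945532)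 (nat_lit 1444) (nat_lit 3373752170) (nat_lit 76) (nat_lit 2553205219) (nat_lit 598) (nat_lit 5) (nat_lit 617) (nat_lit 5) (nat_lit 599) (nat_lit 5) (nat_lit 552) (nat_lit 518) (nat_lit 490)) (XT.lf (nat_lit 0) (nat_lit 1157373544) (nat_lit 1444) (nat_lit 2639540650) (nat_lit 1520) (nat_lit 3298168171) (nat_lit 579) (nat_lit 5) (nat_lit 598) (nat_lit 5) (nat_lit 599) (nat_lit 5) (nat_lit 553) (nat_lit 518) (nat_lit 489))) (XT.nd (nat_lit 78) (nat_lit 3192) (nat_lit 0) (XT.lf (nat_lit 0) (nat_lit 5777822245) (nat_lit 1444) (nat_lit 710003276) (nat_lit 1520) (nat_lit 648872879) (nat_lit 579) (nat_lit 5) (nat_lit 598) (nat_lit 5) (nat_lit 599) (nat_lit 5) (nat_lit 554) (nat_lit 518) (nat_lit 488)) (XT.nd (nat_lit 78) (nat_lit 1596) (nat_lit 0) (XT.lf (nat_lit 0) (nat_lit 2002937925) (nat_lit 1596) (nat_lit 3893377522) (nat_lit 76) (nat_lit 1283039564) (nat_lit 558) (nat_lit 5) (nat_lit 579) (nat_lit 5) (nat_lit 559) (nat_lit 5) (nat_lit 555) (nat_lit 518) (nat_lit 487)) (XT.lf (nat_lit 0) (nat_lit 772932312)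 (nat_lit 1596) (nat_lit 3892484811) (nat_lit 1672) (nat_lit 2558039463) (nat_lit 537) (nat_lit 5) (nat_lit 558) (nat_lit 5) (nat_lit 559) (nat_lit 5) (nat_lit 556) (nat_lit 518) (nat_lit 486)))))) (XT.nd (nat_lit 390) (nat_lit 3040) (nat_lit 0) (XT.nd (nat_lit 156) (nat_lit 3648) (nat_lit 0) (XT.nd (nat_lit 78) (nat_lit 1672) (nat_lit 0) (XT.lf (nat_lit 0) (nat_lit 85316770) (nat_lit 1672) (nat_lit 1731473847) (nat_lit 76) (nat_lit 5452157023) (nat_lit 536) (nat_lit 5) (nat_lit 558) (nat_lit 5) (nat_lit 537) (nat_lit 5) (nat_lit 557) (nat_lit 518) (nat_lit 485)) (XT.lf (nat_lit 0) (nat_lit 2718209343) (nat_lit 1748) (nat_lit 4259791502) (nat_lit 76) (nat_lit 337594863) (nat_lit 514) (nat_lit 5) (nat_lit 537) (nat_lit 5) (nat_lit 515) (nat_lit 5) (nat_lit 558) (nat_lit 518) (nat_lit 484))) (XT.nd (nat_lit 78) (nat_lit 1900) (nat_lit 0) (XT.lf (nat_lit 0) (nat_lit 546631964) (nat_lit 1748) (nat_lit 4833942442) (nat_lit 1824) (nat_lit 1983069757) (nat_lit 491) (nat_lit 5) (nat_lit 514) (nat_lit 5) (nat_lit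 515) (nat_lit 5) (nat_lit 559) (nat_lit 518) (nat_lit 483)) (XT.nd (nat_lit 78) (nat_lit 1824) (nat_lit 0) (XT.lf (nat_lit 0) (nat_lit 653229027) (nat_lit 1824) (nat_lit 1957920436) (nat_lit 76) (nat_lit 4801845727) (nat_lit 490) (nat_lit 5) (nat_lit 514) (nat_lit 5) (nat_lit 491) (nat_lit 5) (nat_lit 560) (nat_lit 518) (nat_lit 482)) (XT.lf (nat_lit 0) (nat_lit 2977071155) (nat_lit 1824) (nat_lit 308851655) (nat_lit 1900) (nat_lit 4177747322) (nat_lit 466) (nat_lit 5) (nat_lit 490) (nat_lit 5) (nat_lit 491) (nat_lit 5) (nat_lit 561) (nat_lit 518) (nat_lit 481))))) (XT.nd (nat_lit 156) (nat_lit 1900) (nat_lit 0) (XT.nd (nat_lit 78) (nat_lit 76) (nat_lit 0) (XT.lf (nat_lit 0) (nat_lit 467138122) (nat_lit 1064) (nat_lit 5485170413) (nat_lit 1140) (nat_lit 1563432713) (nat_lit 452) (nat_lit 5) (nat_lit 466) (nat_lit 5) (nat_lit 467) (nat_lit 5) (nat_lit 562) (nat_lit 518) (nat_lit 480)) (XT.lf (nat_lit 0) (nat_lit 1072911299) (nat_lit 1140) (nat_lit 2045086697) (nat_lit 76) (nat_lit 4451031613) (nat_lit 451)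 (nat_lit 5) (nat_lit 466) (nat_lit 5) (nat_lit 452) (nat_lit 5) (nat_lit 563) (nat_lit 518) (nat_lit 479))) (XT.nd (nat_lit 78) (nat_lit 988) (nat_lit 0) (XT.lf (nat_lit 0) (nat_lit 3040776739) (nat_lit 912) (nat_lit 672836494) (nat_lit 988) (nat_lit 3910115749) (nat_lit 439) (nat_lit 5) (nat_lit 451) (nat_lit 5) (nat_lit 452) (nat_lit 5) (nat_lit 564) (nat_lit 518) (nat_lit 478)) (XT.nd (nat_lit 78) (nat_lit 76) (nat_lit 0) (XT.lf (nat_lit 0) (nat_lit 523915721) (nat_lit 912) (nat_lit 5865675619) (nat_lit 988) (nat_lit 1290284931) (nat_lit 427) (nat_lit 5) (nat_lit 439) (nat_lit 5) (nat_lit 440) (nat_lit 5) (nat_lit 565) (nat_lit 518) (nat_lit 477)) (XT.lf (nat_lit 0) (nat_lit 1352950056) (nat_lit 988) (nat_lit 2003293735) (nat_lit 76) (nat_lit 4380943675) (nat_lit 426) (nat_lit 5) (nat_lit 439) (nat_lit 5) (nat_lit 427) (nat_lit 5) (nat_lit 566) (nat_lit 518) (nat_lit 476))))))))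
noncomputable def xc61 : XT := (XT.nd (nat_lit 1560) (nat_lit 7524) (nat_lit 0) (XT.nd (nat_lit 780) (nat_lit 4864) (nat_lit 0) (XT.nd (nat_lit 390) (nat_lit 2356) (nat_lit 0) (XT.nd (nat_lit 156) (nat_lit 1748) (nat_lit 0) (XT.nd (nat_lit 78) (nat_lit 836) (nat_lit 0) (XT.lf (nat_lit 0) (nat_lit 3239133447) (nat_lit 836) (nat_lit 768312031) (nat_lit 912) (nat_lit 3788518368) (nat_lit 415) (nat_lit 5) (nat_lit 426) (nat_lit 5) (nat_lit 427) (nat_lit 5) (nat_lit 567) (nat_lit 518) (nat_lit 475)) (XT.lf (nat_lit 0) (nat_lit 707148565) (nat_lit 836) (nat_lit 5993353062) (nat_lit 912) (nat_lit 1155707643) (nat_lit 404) (nat_lit 5) (nat_lit 415) (nat_lit 5) (nat_lit 416) (nat_lit 5) (nat_lit 568) (nat_lit 518) (nat_lit 474))) (XT.nd (nat_lit 78) (nat_lit 1672) (nat_lit 0) (XT.lf (nat_lit 0) (nat_lit 1501037137) (nat_lit 912) (nat_lit 1842178853) (nat_lit 76) (nat_lit 4574420968) (nat_lit 403) (nat_lit 5) (nat_lit 415) (nat_lit 5) (nat_lit 404) (nat_lit 5) (nat_lit 569) (nat_lit 518) (nat_lit 473)) (XT.nd (nat_lit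 78) (nat_lit 836) (nat_lit 0) (XT.lf (nat_lit 0) (nat_lit 3562772074) (nat_lit 836) (nat_lit 612160778) (nat_lit 912) (nat_lit 3805620505) (nat_lit 392) (nat_lit 5) (nat_lit 403) (nat_lit 5) (nat_lit 404) (nat_lit 5) (nat_lit 570) (nat_lit 518) (nat_lit 472)) (XT.lf (nat_lit 0) (nat_lit 1007662598) (nat_lit 836) (nat_lit 5884614408) (nat_lit 912) (nat_lit 1152654377) (nat_lit 381) (nat_lit 5) (nat_lit 392) (nat_lit 5) (nat_lit 393) (nat_lit 5) (nat_lit 571) (nat_lit 518) (nat_lit 471))))) (XT.nd (nat_lit 156) (nat_lit 1520) (nat_lit 0) (XT.nd (nat_lit 78) (nat_lit 760) (nat_lit 0) (XT.lf (nat_lit 0) (nat_lit 1524020180) (nat_lit 912) (nat_lit 1570770847) (nat_lit 76) (nat_lit 5015786397) (nat_lit 380) (nat_lit 5) (nat_lit 392) (nat_lit 5) (nat_lit 381) (nat_lit 5) (nat_lit 572) (nat_lit 518) (nat_lit 470)) (XT.lf (nat_lit 0) (nat_lit 4002932115) (nat_lit 760) (nat_lit 219832697) (nat_lit 836) (nat_lit 3954942334) (nat_lit 370) (nat_lit 5) (nat_lit 380) (nat_lit 5) (nat_lit 381) (nat_lit 5) (nat_lit 573)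 (nat_lit 518) (nat_lit 469))) (XT.nd (nat_lit 78) (nat_lit 760) (nat_lit 0) (XT.lf (nat_lit 0) (nat_lit 1416852333) (nat_lit 760) (nat_lit 5554507857) (nat_lit 836) (nat_lit 1274904256) (nat_lit 360) (nat_lit 5) (nat_lit 370) (nat_lit 5) (nat_lit 371) (nat_lit 5) (nat_lit 574) (nat_lit 518) (nat_lit 468)) (XT.nd (nat_lit 78) (nat_lit 684) (nat_lit 0) (XT.lf (nat_lit 0) (nat_lit 1427947561) (nat_lit 836) (nat_lit 1197562341) (nat_lit 76) (nat_lit 5690729083) (nat_lit 359) (nat_lit 5) (nat_lit 370) (nat_lit 5) (nat_lit 360) (nat_lit 5) (nat_lit 575) (nat_lit 518) (nat_lit 467)) (XT.lf (nat_lit 0) (nat_lit 4159411920) (nat_lit 760) (nat_lit 3838837537) (nat_lit 76) (nat_lit 389364843) (nat_lit 350) (nat_lit 5) (nat_lit 360) (nat_lit 5) (nat_lit 351) (nat_lit 5) (nat_lit 576) (nat_lit 518) (nat_lit 466)))))) (XT.nd (nat_lit 390) (nat_lit 2584) (nat_lit 0) (XT.nd (nat_lit 156) (nat_lit 1444) (nat_lit 0) (XT.nd (nat_lit 78) (nat_lit 76) (nat_lit 0) (XT.lf (nat_lit 0) (nat_lit 1926609899) (nat_lit 760) (nat_lit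 5016830148) (nat_lit 836) (nat_lit 1517020697) (nat_lit 340) (nat_lit 5) (nat_lit 350) (nat_lit 5) (nat_lit 351) (nat_lit 5) (nat_lit 577) (nat_lit 518) (nat_lit 465)) (XT.lf (nat_lit 0) (nat_lit 1218108079) (nat_lit 836) (nat_lit 730579706) (nat_lit 76) (nat_lit 6586194522) (nat_lit 339) (nat_lit 5) (nat_lit 350) (nat_lit 5) (nat_lit 340) (nat_lit 5) (nat_lit 578) (nat_lit 518) (nat_lit 464))) (XT.nd (nat_lit 78) (nat_lit 760) (nat_lit 0) (XT.lf (nat_lit 0) (nat_lit 3990264247) (nat_lit 760) (nat_lit 3418220289) (nat_lit 76) (nat_lit 1202056638) (nat_lit 330) (nat_lit 5) (nat_lit 340) (nat_lit 5) (nat_lit 331) (nat_lit 5) (nat_lit 579) (nat_lit 518) (nat_lit 463)) (XT.nd (nat_lit 78) (nat_lit 76) (nat_lit 0) (XT.lf (nat_lit 0) (nat_lit 2529256185) (nat_lit 684) (nat_lit 4284231433) (nat_lit 760) (nat_lit 1874315253) (nat_lit 321) (nat_lit 5) (nat_lit 330) (nat_lit 5) (nat_lit 331) (nat_lit 5) (nat_lit 580) (nat_lit 518) (nat_lit 462)) (XT.lf (nat_lit 0) (nat_lit 899065632) (nat_lit 760) (nat_lit 177451087)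 (nat_lit 76) (nat_lit 7690281778) (nat_lit 320) (nat_lit 5) (nat_lit 330) (nat_lit 5) (nat_lit 321) (nat_lit 5) (nat_lit 581) (nat_lit 518) (nat_lit 461))))) (XT.nd (nat_lit 156) (nat_lit 1292) (nat_lit 0) (XT.nd (nat_lit 78) (nat_lit 684) (nat_lit 0) (XT.lf (nat_lit 0) (nat_lit 3718275325) (nat_lit 684) (nat_lit 2919079025) (nat_lit 76) (nat_lit 2209464748) (nat_lit 312) (nat_lit 5) (nat_lit 321) (nat_lit 5) (nat_lit 313) (nat_lit 5) (nat_lit 582) (nat_lit 518) (nat_lit 460)) (XT.lf (nat_lit 0) (nat_lit 3217473546) (nat_lit 684) (nat_lit 3368313756) (nat_lit 760) (nat_lit 2342816419) (nat_lit 303) (nat_lit 5) (nat_lit 312) (nat_lit 5) (nat_lit 313) (nat_lit 5) (nat_lit 583) (nat_lit 518) (nat_lit 459))) (XT.nd (nat_lit 78) (nat_lit 608) (nat_lit 0) (XT.lf (nat_lit 0) (nat_lit 460567374) (nat_lit 608) (nat_lit 17111983) (nat_lit 684) (nat_lit 8534569961) (nat_lit 294) (nat_lit 5) (nat_lit 302) (nat_lit 5) (nat_lit 303) (nat_lit 5) (nat_lit 584) (nat_lit 518) (nat_lit 458)) (XT.nd (nat_lit 78) (nat_lit 608)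 (nat_lit 0) (XT.lf (nat_lit 0) (nat_lit 3347151940) (nat_lit 684) (nat_lit 2348701828) (nat_lit 76) (nat_lit 3400927452) (nat_lit 294) (nat_lit 5) (nat_lit 303) (nat_lit 5) (nat_lit 295) (nat_lit 5) (nat_lit 585) (nat_lit 518) (nat_lit 457)) (XT.lf (nat_lit 0) (nat_lit 3984239554) (nat_lit 608) (nat_lit 2279723810) (nat_lit 684) (nat_lit 2919243231) (nat_lit 286) (nat_lit 5) (nat_lit 294) (nat_lit 5) (nat_lit 295) (nat_lit 5) (nat_lit 586) (nat_lit 518) (nat_lit 456))))))) (XT.nd (nat_lit 780) (nat_lit 3496) (nat_lit 0) (XT.nd (nat_lit 390) (nat_lit 2128) (nat_lit 0) (XT.nd (nat_lit 156) (nat_lit 1216) (nat_lit 0) (XT.nd (nat_lit 78) (nat_lit 76) (nat_lit 0) (XT.lf (nat_lit 0) (nat_lit 1165407889) (nat_lit 608) (nat_lit 8069266101) (nat_lit 684) (nat_lit 36777014) (nat_lit 278) (nat_lit 5) (nat_lit 286) (nat_lit 5) (nat_lit 287) (nat_lit 5) (nat_lit 587) (nat_lit 518) (nat_lit 455)) (XT.lf (nat_lit 0) (nat_lit 2879950071) (nat_lit 684) (nat_lit 1714147353) (nat_lit 76) (nat_lit 4766693801) (nat_lit 277)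 (nat_lit 5) (nat_lit 286) (nat_lit 5) (nat_lit 278) (nat_lit 5) (nat_lit 588) (nat_lit 518) (nat_lit 454))) (XT.nd (nat_lit 78) (nat_lit 608) (nat_lit 0) (XT.lf (nat_lit 0) (nat_lit 4822761268) (nat_lit 608) (nat_lit 1028240613) (nat_lit 684) (nat_lit 3600983538) (nat_lit 269) (nat_lit 5) (nat_lit 277) (nat_lit 5) (nat_lit 278) (nat_lit 5) (nat_lit 589) (nat_lit 518) (nat_lit 453)) (XT.nd (nat_lit 78) (nat_lit 76) (nat_lit 0) (XT.lf (nat_lit 0) (nat_lit 1931031189) (nat_lit 532) (nat_lit 6956983945) (nat_lit 608) (nat_lit 656859204) (nat_lit 262) (nat_lit 5) (nat_lit 269) (nat_lit 5) (nat_lit 270) (nat_lit 5) (nat_lit 590) (nat_lit 518) (nat_lit 452)) (XT.lf (nat_lit 0) (nat_lit 2319093639) (nat_lit 608) (nat_lit 1022310283) (nat_lit 76) (nat_lit 6297839724) (nat_lit 261) (nat_lit 5) (nat_lit 269) (nat_lit 5) (nat_lit 262) (nat_lit 5) (nat_lit 591) (nat_lit 518) (nat_lit 451))))) (XT.nd (nat_lit 156) (nat_lit 1064) (nat_lit 0) (XT.nd (nat_lit 78) (nat_lit 532) (nat_lit 0) (XT.lf (nat_lit 0) (nat_lit 5351716891)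 (nat_lit 608) (nat_lit 4011384260) (nat_lit 76) (nat_lit 372194974) (nat_lit 254) (nat_lit 5) (nat_lit 262) (nat_lit 5) (nat_lit 255) (nat_lit 5) (nat_lit 592) (nat_lit 518) (nat_lit 450)) (XT.lf (nat_lit 0) (nat_lit 2754040061) (nat_lit 532) (nat_lit 5704469270) (nat_lit 608) (nat_lit 1374491511) (nat_lit 247) (nat_lit 5) (nat_lit 254) (nat_lit 5) (nat_lit 255) (nat_lit 5) (nat_lit 593) (nat_lit 518) (nat_lit 449))) (XT.nd (nat_lit 78) (nat_lit 988) (nat_lit 0) (XT.lf (nat_lit 0) (nat_lit 1666388817) (nat_lit 608) (nat_lit 279987232) (nat_lit 76) (nat_lit 7986188236) (nat_lit 246) (nat_lit 5) (nat_lit 254) (nat_lit 5) (nat_lit 247) (nat_lit 5) (nat_lit 594) (nat_lit 518) (nat_lit 448)) (XT.nd (nat_lit 78) (nat_lit 456) (nat_lit 0) (XT.lf (nat_lit 0) (nat_lit 4773038928) (nat_lit 608) (nat_lit 3357588229) (nat_lit 76) (nat_lit 1902844437) (nat_lit 239) (nat_lit 5) (nat_lit 247) (nat_lit 5) (nat_lit 240) (nat_lit 5) (nat_lit 595) (nat_lit 518) (nat_lit 447)) (XT.lf (nat_lit 0) (nat_lit 3627779668) (nat_lit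 456) (nat_lit 4320040204) (nat_lit 532) (nat_lit 2188458629) (nat_lit 233) (nat_lit 5) (nat_lit 239) (nat_lit 5) (nat_lit 240) (nat_lit 5) (nat_lit 596) (nat_lit 518) (nat_lit 446)))))) (XT.nd (nat_lit 390) (nat_lit 1900) (nat_lit 0) (XT.nd (nat_lit 156) (nat_lit 988) (nat_lit 0) (XT.nd (nat_lit 78) (nat_lit 0) (nat_lit 0) (XT.lf (nat_lit 0) (nat_lit 512781573) (nat_lit 532) (nat_lit 413581696) (nat_lit 608) (nat_lit 9314780892) (nat_lit 225) (nat_lit 5) (nat_lit 232) (nat_lit 5) (nat_lit 233) (nat_lit 5) (nat_lit 597) (nat_lit 518) (nat_lit 445)) (XT.lf (nat_lit 0) (nat_lit 4109401104) (nat_lit 608) (nat_lit 2668080404) (nat_lit 76) (nat_lit 3569633181) (nat_lit 225) (nat_lit 5) (nat_lit 233) (nat_lit 5) (nat_lit 226) (nat_lit 5) (nat_lit 598) (nat_lit 518) (nat_lit 444))) (XT.nd (nat_lit 78) (nat_lit 532) (nat_lit 0) (XT.lf (nat_lit 0) (nat_lit 4545587516) (nat_lit 456) (nat_lit 2811436190) (nat_lit 532) (nat_lit 3098163743) (nat_lit 219) (nat_lit 5) (nat_lit 225) (nat_lit 5) (nat_lit 226) (nat_lit 5)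 (nat_lit 599) (nat_lit 518) (nat_lit 443)) (XT.nd (nat_lit 78) (nat_lit 0) (nat_lit 0) (XT.lf (nat_lit 0) (nat_lit 106473488) (nat_lit 532) (nat_lit 9226923451) (nat_lit 76) (nat_lit 1231939195) (nat_lit 212) (nat_lit 5) (nat_lit 219) (nat_lit 5) (nat_lit 213) (nat_lit 5) (nat_lit 600) (nat_lit 518) (nat_lit 442)) (XT.lf (nat_lit 0) (nat_lit 3361321565) (nat_lit 532) (nat_lit 1949856589) (nat_lit 76) (nat_lit 5365549238) (nat_lit 212) (nat_lit 5) (nat_lit 219) (nat_lit 5) (nat_lit 213) (nat_lit 5) (nat_lit 601) (nat_lit 518) (nat_lit 441))))) (XT.nd (nat_lit 234) (nat_lit 912) (nat_lit 0) (XT.nd (nat_lit 78) (nat_lit 532) (nat_lit 0) (XT.lf (nat_lit 0) (nat_lit 5500723394) (nat_lit 456) (nat_lit 1185890689) (nat_lit 532) (nat_lit 4103626644) (nat_lit 206) (nat_lit 5) (nat_lit 212) (nat_lit 5) (nat_lit 213) (nat_lit 5) (nat_lit 602) (nat_lit 518) (nat_lit 440)) (XT.nd (nat_lit 78) (nat_lit 76) (nat_lit 0) (XT.lf (nat_lit 0) (nat_lit 2185547010) (nat_lit 456) (nat_lit 7909700783) (nat_lit 532) (nat_lit 810441009)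 (nat_lit 200) (nat_lit 5) (nat_lit 206) (nat_lit 5) (nat_lit 207) (nat_lit 5) (nat_lit 603) (nat_lit 518) (nat_lit 439)) (XT.lf (nat_lit 0) (nat_lit 2528726884) (nat_lit 532) (nat_lit 1210059824) (nat_lit 76) (nat_lit 7284058438) (nat_lit 199) (nat_lit 5) (nat_lit 206) (nat_lit 5) (nat_lit 200) (nat_lit 5) (nat_lit 604) (nat_lit 518) (nat_lit 438)))) (XT.nd (nat_lit 78) (nat_lit 532) (nat_lit 0) (XT.lf (nat_lit 0) (nat_lit 5940068398) (nat_lit 456) (nat_lit 4659258074) (nat_lit 76) (nat_lit 542587274) (nat_lit 194) (nat_lit 5) (nat_lit 200) (nat_lit 5) (nat_lit 195) (nat_lit 5) (nat_lit 605) (nat_lit 518) (nat_lit 437)) (XT.nd (nat_lit 78) (nat_lit 76) (nat_lit 0) (XT.lf (nat_lit 0) (nat_lit 3053830525) (nat_lit 456) (nat_lit 6389320688) (nat_lit 532) (nat_lit 1819743304) (nat_lit 188) (nat_lit 5) (nat_lit 194) (nat_lit 5) (nat_lit 195) (nat_lit 5) (nat_lit 606) (nat_lit 518) (nat_lit 436)) (XT.lf (nat_lit 0) (nat_lit 1610946976) (nat_lit 532) (nat_lit 456055266) (nat_lit 76) (nat_lit 9319035569) (nat_lit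 187) (nat_lit 5) (nat_lit 194) (nat_lit 5) (nat_lit 188) (nat_lit 5) (nat_lit 607) (nat_lit 518) (nat_lit 435))))))))
noncomputable def xc62 : XT := (XT.nd (nat_lit 75036) (nat_lit 0) (nat_lit 37544) (XT.nd (nat_lit 780) (nat_lit 760) (nat_lit 0) (XT.nd (nat_lit 390) (nat_lit 1216) (nat_lit 0) (XT.nd (nat_lit 156) (nat_lit 836) (nat_lit 0) (XT.nd (nat_lit 78) (nat_lit 380) (nat_lit 0) (XT.lf (nat_lit 0) (nat_lit 5121505847) (nat_lit 456) (nat_lit 4031323869) (nat_lit 76) (nat_lit 2357862289) (nat_lit 182) (nat_lit 5) (nat_lit 188) (nat_lit 5) (nat_lit 183) (nat_lit 5) (nat_lit 608) (nat_lit 518) (nat_lit 434)) (XT.lf (nat_lit 0) (nat_lit 3936561645) (nat_lit 380) (nat_lit 4779653208) (nat_lit 456) (nat_lit 2921346656) (nat_lit 177) (nat_lit 5) (nat_lit 182) (nat_lit 5) (nat_lit 183) (nat_lit 5) (nat_lit 609) (nat_lit 518) (nat_lit 433))) (XT.nd (nat_lit 78) (nat_lit 380) (nat_lit 0) (XT.lf (nat_lit 0) (nat_lit 308537687) (nat_lit 380) (nat_lit 300170924) (nat_lit 456) (nat_lit 11158162069) (nat_lit 171)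 (nat_lit 5) (nat_lit 176) (nat_lit 5) (nat_lit 177) (nat_lit 5) (nat_lit 610) (nat_lit 518) (nat_lit 432)) (XT.nd (nat_lit 78) (nat_lit 380) (nat_lit 0) (XT.lf (nat_lit 0) (nat_lit 4221900079) (nat_lit 456) (nat_lit 3406015707) (nat_lit 76) (nat_lit 4269431958) (nat_lit 171) (nat_lit 5) (nat_lit 177) (nat_lit 5) (nat_lit 172) (nat_lit 5) (nat_lit 611) (nat_lit 518) (nat_lit 431)) (XT.lf (nat_lit 0) (nat_lit 4825974288) (nat_lit 380) (nat_lit 3087132618) (nat_lit 456) (nat_lit 4117213342) (nat_lit 166) (nat_lit 5) (nat_lit 171) (nat_lit 5) (nat_lit 172) (nat_lit 5) (nat_lit 612) (nat_lit 518) (nat_lit 430))))) (XT.nd (nat_lit 156) (nat_lit 760) (nat_lit 0) (XT.nd (nat_lit 78) (nat_lit 76) (nat_lit 0) (XT.lf (nat_lit 0) (nat_lit 1064209188) (nat_lit 380) (nat_lit 10626470978) (nat_lit 456) (nat_lit 475022100) (nat_lit 161) (nat_lit 5) (nat_lit 166) (nat_lit 5) (nat_lit 167) (nat_lit 5) (nat_lit 613) (nat_lit 518) (nat_lit 429)) (XT.lf (nat_lit 0) (nat_lit 3239307154) (nat_lit 456) (nat_lit 2791763414) (nat_lit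 76) (nat_lit 6271465756) (nat_lit 160) (nat_lit 5) (nat_lit 166) (nat_lit 5) (nat_lit 161) (nat_lit 5) (nat_lit 614) (nat_lit 518) (nat_lit 428))) (XT.nd (nat_lit 78) (nat_lit 380) (nat_lit 0) (XT.lf (nat_lit 0) (nat_lit 5713865564) (nat_lit 380) (nat_lit 1318014598) (nat_lit 456) (nat_lit 5409958608) (nat_lit 155) (nat_lit 5) (nat_lit 160) (nat_lit 5) (nat_lit 161) (nat_lit 5) (nat_lit 615) (nat_lit 518) (nat_lit 427)) (XT.nd (nat_lit 78) (nat_lit 76) (nat_lit 0) (XT.lf (nat_lit 0) (nat_lit 1802515796) (nat_lit 304) (nat_lit 9124373226) (nat_lit 380) (nat_lit 1656507397) (nat_lit 151) (nat_lit 5) (nat_lit 155) (nat_lit 5) (nat_lit 156) (nat_lit 5) (nat_lit 616) (nat_lit 518) (nat_lit 426)) (XT.lf (nat_lit 0) (nat_lit 2171144632) (nat_lit 380) (nat_lit 2197516994) (nat_lit 76) (nat_lit 8358289998) (nat_lit 150) (nat_lit 5) (nat_lit 155) (nat_lit 5) (nat_lit 151) (nat_lit 5) (nat_lit 617) (nat_lit 518) (nat_lit 425)))))) (XT.nd (nat_lit 73866) (nat_lit 0) (nat_lit 47804) (XT.nd (nat_lit 156) (nat_lit 76)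 (nat_lit 0) (XT.nd (nat_lit 78) (nat_lit 304) (nat_lit 0) (XT.lf (nat_lit 0) (nat_lit 6073335548) (nat_lit 456) (nat_lit 6284707260) (nat_lit 76) (nat_lit 514713598) (nat_lit 145) (nat_lit 5) (nat_lit 151) (nat_lit 5) (nat_lit 146) (nat_lit 5) (nat_lit 618) (nat_lit 518) (nat_lit 424)) (XT.lf (nat_lit 0) (nat_lit 2520324661) (nat_lit 304) (nat_lit 7567490785) (nat_lit 380) (nat_lit 2932977714) (nat_lit 141) (nat_lit 5) (nat_lit 145) (nat_lit 5) (nat_lit 146) (nat_lit 5) (nat_lit 619) (nat_lit 518) (nat_lit 423))) (XT.nd (nat_lit 73554) (nat_lit 0) (nat_lit 48640) (XT.lf (nat_lit 0) (nat_lit 1014164935) (nat_lit 380) (nat_lit 1632844025) (nat_lit 76) (nat_lit 10524318632) (nat_lit 140) (nat_lit 5) (nat_lit 145) (nat_lit 5) (nat_lit 141) (nat_lit 5) (nat_lit 620) (nat_lit 518) (nat_lit 422)) (XT.nd (nat_lit 78) (nat_lit 76) (nat_lit 0) (XT.lf (nat_lit 0) (nat_lit 22959606) (nat_lit 76) (nat_lit 1599555191) (nat_lit 76) (nat_lit 1599555191) (nat_lit 781) (nat_lit 4) (nat_lit 782) (nat_lit 5) (nat_lit 782)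 (nat_lit 4) (nat_lit 522) (nat_lit 519) (nat_lit 519)) (XT.lf (nat_lit 0) (nat_lit 3554290) (nat_lit 152) (nat_lit 3070384846) (nat_lit 76) (nat_lit 3372740841) (nat_lit 780) (nat_lit 5) (nat_lit 782) (nat_lit 5) (nat_lit 781) (nat_lit 4) (nat_lit 523) (nat_lit 519) (nat_lit 518))))) (XT.nd (nat_lit 156) (nat_lit 684) (nat_lit 0) (XT.nd (nat_lit 78) (nat_lit 0) (nat_lit 0) (XT.lf (nat_lit 0) (nat_lit 261771120) (nat_lit 152) (nat_lit 2885038653) (nat_lit 228) (nat_lit 3303660226) (nat_lit 778) (nat_lit 5) (nat_lit 780) (nat_lit 5) (nat_lit 781) (nat_lit 4) (nat_lit 524) (nat_lit 519) (nat_lit 517)) (XT.lf (nat_lit 0) (nat_lit 3657999052) (nat_lit 152) (nat_lit 2634497288) (nat_lit 228) (nat_lit 163057592) (nat_lit 778) (nat_lit 5) (nat_lit 780) (nat_lit 5) (nat_lit 781) (nat_lit 4) (nat_lit 525) (nat_lit 519) (nat_lit 516))) (XT.nd (nat_lit 78) (nat_lit 380) (nat_lit 0) (XT.lf (nat_lit 0) (nat_lit 605212908) (nat_lit 228) (nat_lit 2319214575) (nat_lit 304) (nat_lit 3537447419) (nat_lit 774) (nat_lit 5)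 (nat_lit 777) (nat_lit 5) (nat_lit 778) (nat_lit 5) (nat_lit 526) (nat_lit 519) (nat_lit 515)) (XT.nd (nat_lit 78) (nat_lit 380) (nat_lit 0) (XT.lf (nat_lit 0) (nat_lit 4068758977) (nat_lit 228) (nat_lit 1942785687) (nat_lit 304) (nat_lit 457963643) (nat_lit 774) (nat_lit 5) (nat_lit 777) (nat_lit 5) (nat_lit 778) (nat_lit 5) (nat_lit 527) (nat_lit 519) (nat_lit 514)) (XT.lf (nat_lit 0) (nat_lit 1076701671) (nat_lit 304) (nat_lit 1500530668) (nat_lit 380) (nat_lit 3901135930) (nat_lit 769) (nat_lit 5) (nat_lit 773) (nat_lit 5) (nat_lit 774) (nat_lit 5) (nat_lit 528) (nat_lit 519) (nat_lit 513))))))) (XT.nd (nat_lit 780) (nat_lit 7296) (nat_lit 0) (XT.nd (nat_lit 390) (nat_lit 1976) (nat_lit 0) (XT.nd (nat_lit 156) (nat_lit 532) (nat_lit 0) (XT.nd (nat_lit 78) (nat_lit 456) (nat_lit 0) (XT.lf (nat_lit 0) (nat_lit 4609182100) (nat_lit 304) (nat_lit 997472920) (nat_lit 380) (nat_lit 881905143) (nat_lit 769) (nat_lit 5) (nat_lit 773) (nat_lit 5) (nat_lit 774) (nat_lit 5) (nat_lit 529) (nat_lit 519) (nat_lit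 512)) (XT.lf (nat_lit 0) (nat_lit 1676943296) (nat_lit 380) (nat_lit 427384705) (nat_lit 456) (nat_lit 4395641739) (nat_lit 763) (nat_lit 5) (nat_lit 768) (nat_lit 5) (nat_lit 769) (nat_lit 5) (nat_lit 530) (nat_lit 519) (nat_lit 511))) (XT.nd (nat_lit 78) (nat_lit 532) (nat_lit 0) (XT.lf (nat_lit 0) (nat_lit 5078129182) (nat_lit 456) (nat_lit 1233950565) (nat_lit 76) (nat_lit 200626023) (nat_lit 763) (nat_lit 5) (nat_lit 769) (nat_lit 5) (nat_lit 764) (nat_lit 5) (nat_lit 531) (nat_lit 519) (nat_lit 510)) (XT.nd (nat_lit 78) (nat_lit 0) (nat_lit 0) (XT.lf (nat_lit 0) (nat_lit 1510428887) (nat_lit 532) (nat_lit 4125670223) (nat_lit 76) (nat_lit 890488767) (nat_lit 756) (nat_lit 5) (nat_lit 763) (nat_lit 5) (nat_lit 757) (nat_lit 5) (nat_lit 532) (nat_lit 519) (nat_lit 509)) (XT.lf (nat_lit 0) (nat_lit 4431530999) (nat_lit 532) (nat_lit 470241909) (nat_lit 76) (nat_lit 1640064392) (nat_lit 756) (nat_lit 5) (nat_lit 763) (nat_lit 5) (nat_lit 757) (nat_lit 5) (nat_lit 533) (nat_lit 519) (nat_lit 508))))) (XT.nd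 (nat_lit 156) (nat_lit 760) (nat_lit 0) (XT.nd (nat_lit 78) (nat_lit 608) (nat_lit 0) (XT.lf (nat_lit 0) (nat_lit 792740062) (nat_lit 608) (nat_lit 3307022454) (nat_lit 76) (nat_lit 2458520040) (nat_lit 748) (nat_lit 5) (nat_lit 756) (nat_lit 5) (nat_lit 749) (nat_lit 5) (nat_lit 534) (nat_lit 519) (nat_lit 507)) (XT.lf (nat_lit 0) (nat_lit 425081832) (nat_lit 608) (nat_lit 3236563922) (nat_lit 684) (nat_lit 2914417878) (nat_lit 740) (nat_lit 5) (nat_lit 748) (nat_lit 5) (nat_lit 749) (nat_lit 5) (nat_lit 535) (nat_lit 519) (nat_lit 506))) (XT.nd (nat_lit 78) (nat_lit 760) (nat_lit 0) (XT.lf (nat_lit 0) (nat_lit 4231882716) (nat_lit 608) (nat_lit 2309411349) (nat_lit 684) (nat_lit 53845844) (nat_lit 740) (nat_lit 5) (nat_lit 748) (nat_lit 5) (nat_lit 749) (nat_lit 5) (nat_lit 536) (nat_lit 519) (nat_lit 505)) (XT.nd (nat_lit 78) (nat_lit 0) (nat_lit 0) (XT.lf (nat_lit 0) (nat_lit 1455917422) (nat_lit 684) (nat_lit 1311980612) (nat_lit 760) (nat_lit 3847503959) (nat_lit 730) (nat_lit 5) (nat_lit 739) (nat_lit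 5) (nat_lit 740) (nat_lit 5) (nat_lit 537) (nat_lit 519) (nat_lit 504)) (XT.lf (nat_lit 0) (nat_lit 5338639017) (nat_lit 684) (nat_lit 255685486) (nat_lit 760) (nat_lit 1042764794) (nat_lit 730) (nat_lit 5) (nat_lit 739) (nat_lit 5) (nat_lit 740) (nat_lit 5) (nat_lit 538) (nat_lit 519) (nat_lit 503)))))) (XT.nd (nat_lit 390) (nat_lit 4636) (nat_lit 0) (XT.nd (nat_lit 156) (nat_lit 1824) (nat_lit 0) (XT.nd (nat_lit 78) (nat_lit 0) (nat_lit 0) (XT.lf (nat_lit 0) (nat_lit 1750869654) (nat_lit 836) (nat_lit 4047813357) (nat_lit 76) (nat_lit 861164582) (nat_lit 719) (nat_lit 5) (nat_lit 730) (nat_lit 5) (nat_lit 720) (nat_lit 5) (nat_lit 539) (nat_lit 519) (nat_lit 502)) (XT.lf (nat_lit 0) (nat_lit 4532016399) (nat_lit 836) (nat_lit 118883124) (nat_lit 76) (nat_lit 2033117732) (nat_lit 719) (nat_lit 5) (nat_lit 730) (nat_lit 5) (nat_lit 720) (nat_lit 5) (nat_lit 540) (nat_lit 519) (nat_lit 501))) (XT.nd (nat_lit 78) (nat_lit 912) (nat_lit 0) (XT.lf (nat_lit 0) (nat_lit 612884058) (nat_lit 912) (nat_lit 2818539660)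 (nat_lit 76) (nat_lit 3277938220) (nat_lit 707) (nat_lit 5) (nat_lit 719) (nat_lit 5) (nat_lit 708) (nat_lit 5) (nat_lit 541) (nat_lit 519) (nat_lit 500)) (XT.nd (nat_lit 78) (nat_lit 0) (nat_lit 0) (XT.lf (nat_lit 0) (nat_lit 1203338045) (nat_lit 912) (nat_lit 2146490837) (nat_lit 988) (nat_lit 3386194336) (nat_lit 695) (nat_lit 5) (nat_lit 707) (nat_lit 5) (nat_lit 708) (nat_lit 5) (nat_lit 542) (nat_lit 519) (nat_lit 499)) (XT.lf (nat_lit 0) (nat_lit 5298834802) (nat_lit 912) (nat_lit 799470578) (nat_lit 988) (nat_lit 665782122) (nat_lit 695) (nat_lit 5) (nat_lit 707) (nat_lit 5) (nat_lit 708) (nat_lit 5) (nat_lit 543) (nat_lit 519) (nat_lit 498))))) (XT.nd (nat_lit 234) (nat_lit 2432) (nat_lit 0) (XT.nd (nat_lit 78) (nat_lit 1140) (nat_lit 0) (XT.lf (nat_lit 0) (nat_lit 2041376164) (nat_lit 1064) (nat_lit 4137610260) (nat_lit 76) (nat_lit 614258235) (nat_lit 681) (nat_lit 5) (nat_lit 695) (nat_lit 5) (nat_lit 682) (nat_lit 5) (nat_lit 544) (nat_lit 519) (nat_lit 497)) (XT.nd (nat_lit 78) (nat_lit 76)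 (nat_lit 0) (XT.lf (nat_lit 0) (nat_lit 265946) (nat_lit 1064) (nat_lit 4748401661) (nat_lit 1140) (nat_lit 2075136548) (nat_lit 667) (nat_lit 5) (nat_lit 681) (nat_lit 5) (nat_lit 682) (nat_lit 5) (nat_lit 545) (nat_lit 519) (nat_lit 496)) (XT.lf (nat_lit 0) (nat_lit 614676955) (nat_lit 1140) (nat_lit 2628349903) (nat_lit 76) (nat_lit 3612505234) (nat_lit 666) (nat_lit 5) (nat_lit 681) (nat_lit 5) (nat_lit 667) (nat_lit 5) (nat_lit 546) (nat_lit 519) (nat_lit 495)))) (XT.nd (nat_lit 78) (nat_lit 1292) (nat_lit 0) (XT.lf (nat_lit 0) (nat_lit 1612581161) (nat_lit 1140) (nat_lit 1669777807) (nat_lit 1216) (nat_lit 3606229126) (nat_lit 651) (nat_lit 5) (nat_lit 666) (nat_lit 5) (nat_lit 667) (nat_lit 5) (nat_lit 547) (nat_lit 519) (nat_lit 494)) (XT.nd (nat_lit 78) (nat_lit 1292) (nat_lit 0) (XT.lf (nat_lit 0) (nat_lit 5928690934) (nat_lit 1140) (nat_lit 34559543) (nat_lit 1216) (nat_lit 959862526) (nat_lit 651) (nat_lit 5) (nat_lit 666) (nat_lit 5) (nat_lit 667) (nat_lit 5) (nat_lit 548) (nat_lit 519) (nat_lit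 493)) (XT.lf (nat_lit 0) (nat_lit 1692309241) (nat_lit 1292) (nat_lit 3609282071) (nat_lit 76) (nat_lit 1657002126) (nat_lit 634) (nat_lit 5) (nat_lit 651) (nat_lit 5) (nat_lit 635) (nat_lit 5) (nat_lit 549) (nat_lit 519) (nat_lit 492))))))))
noncomputable def xc63 : XT := (XT.nd (nat_lit 1560) (nat_lit 10184) (nat_lit 0) (XT.nd (nat_lit 780) (nat_lit 8436) (nat_lit 0) (XT.nd (nat_lit 390) (nat_lit 4864) (nat_lit 0) (XT.nd (nat_lit 156) (nat_lit 2964) (nat_lit 0) (XT.nd (nat_lit 78) (nat_lit 0) (nat_lit 0) (XT.lf (nat_lit 0) (nat_lit 755985958) (nat_lit 1292) (nat_lit 3584424548) (nat_lit 1368) (nat_lit 2655135932) (nat_lit 617) (nat_lit 5) (nat_lit 634) (nat_lit 5) (nat_lit 635) (nat_lit 5) (nat_lit 550) (nat_lit 519) (nat_lit 491)) (XT.lf (nat_lit 0) (nat_lit 5211738797) (nat_lit 1292) (nat_lit 1798630808) (nat_lit 1368) (nat_lit 23495511) (nat_lit 617) (nat_lit 5) (nat_lit 634) (nat_lit 5) (nat_lit 635) (nat_lit 5) (nat_lit 551) (nat_lit 519) (nat_lit 490))) (XT.nd (nat_lit 78) (nat_lit 1520) (nat_lit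 0) (XT.lf (nat_lit 0) (nat_lit 2588955825) (nat_lit 1444) (nat_lit 4418160244) (nat_lit 76) (nat_lit 66231449) (nat_lit 598) (nat_lit 5) (nat_lit 617) (nat_lit 5) (nat_lit 599) (nat_lit 5) (nat_lit 552) (nat_lit 519) (nat_lit 489)) (XT.nd (nat_lit 78) (nat_lit 76) (nat_lit 0) (XT.lf (nat_lit 0) (nat_lit 75802853) (nat_lit 1444) (nat_lit 5148480052) (nat_lit 1520) (nat_lit 1889919000) (nat_lit 579) (nat_lit 5) (nat_lit 598) (nat_lit 5) (nat_lit 599) (nat_lit 5) (nat_lit 553) (nat_lit 519) (nat_lit 488)) (XT.lf (nat_lit 0) (nat_lit 722995513) (nat_lit 1520) (nat_lit 2487676376) (nat_lit 76) (nat_lit 3945577905) (nat_lit 578) (nat_lit 5) (nat_lit 598) (nat_lit 5) (nat_lit 579) (nat_lit 5) (nat_lit 554) (nat_lit 519) (nat_lit 487))))) (XT.nd (nat_lit 156) (nat_lit 3344) (nat_lit 0) (XT.nd (nat_lit 78) (nat_lit 0) (nat_lit 0) (XT.lf (nat_lit 0) (nat_lit 2123489962) (nat_lit 1520) (nat_lit 1200858325) (nat_lit 1596) (nat_lit 3875314811) (nat_lit 558) (nat_lit 5) (nat_lit 578) (nat_lit 5) (nat_lit 579) (nat_lit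 5) (nat_lit 555) (nat_lit 519) (nat_lit 486)) (XT.lf (nat_lit 0) (nat_lit 5948489567) (nat_lit 1596) (nat_lit 435311337) (nat_lit 76) (nat_lit 860732480) (nat_lit 558) (nat_lit 5) (nat_lit 579) (nat_lit 5) (nat_lit 559) (nat_lit 5) (nat_lit 556) (nat_lit 519) (nat_lit 485))) (XT.nd (nat_lit 78) (nat_lit 1672) (nat_lit 0) (XT.lf (nat_lit 0) (nat_lit 1302538313) (nat_lit 1672) (nat_lit 2998105644) (nat_lit 76) (nat_lit 2989782941) (nat_lit 536) (nat_lit 5) (nat_lit 558) (nat_lit 5) (nat_lit 537) (nat_lit 5) (nat_lit 557) (nat_lit 519) (nat_lit 484)) (XT.nd (nat_lit 78) (nat_lit 0) (nat_lit 0) (XT.lf (nat_lit 0) (nat_lit 1751463966) (nat_lit 1672) (nat_lit 2148419467) (nat_lit 1748) (nat_lit 3437904322) (nat_lit 514) (nat_lit 5) (nat_lit 536) (nat_lit 5) (nat_lit 537) (nat_lit 5) (nat_lit 558) (nat_lit 519) (nat_lit 483)) (XT.lf (nat_lit 0) (nat_lit 6520258960) (nat_lit 1748) (nat_lit 796311465) (nat_lit 76) (nat_lit 70107380) (nat_lit 514) (nat_lit 5) (nat_lit 537) (nat_lit 5) (nat_lit 515) (nat_lit 5) (nat_lit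 559) (nat_lit 519) (nat_lit 482)))))) (XT.nd (nat_lit 390) (nat_lit 2736) (nat_lit 0) (XT.nd (nat_lit 156) (nat_lit 2052) (nat_lit 0) (XT.nd (nat_lit 78) (nat_lit 1824) (nat_lit 0) (XT.lf (nat_lit 0) (nat_lit 1725638694) (nat_lit 1824) (nat_lit 3365163515) (nat_lit 76) (nat_lit 2345675280) (nat_lit 490) (nat_lit 5) (nat_lit 514) (nat_lit 5) (nat_lit 491) (nat_lit 5) (nat_lit 560) (nat_lit 519) (nat_lit 481)) (XT.lf (nat_lit 0) (nat_lit 1527916938) (nat_lit 1824) (nat_lit 2797161001) (nat_lit 1900) (nat_lit 3162741284) (nat_lit 466) (nat_lit 5) (nat_lit 490) (nat_lit 5) (nat_lit 491) (nat_lit 5) (nat_lit 561) (nat_lit 519) (nat_lit 480))) (XT.nd (nat_lit 78) (nat_lit 2052) (nat_lit 0) (XT.lf (nat_lit 0) (nat_lit 6518510530) (nat_lit 1824) (nat_lit 433055255) (nat_lit 1900) (nat_lit 589124178) (nat_lit 466) (nat_lit 5) (nat_lit 490) (nat_lit 5) (nat_lit 491) (nat_lit 5) (nat_lit 562) (nat_lit 519) (nat_lit 479)) (XT.nd (nat_lit 78) (nat_lit 912) (nat_lit 0) (XT.lf (nat_lit 0) (nat_lit 2001495716) (nat_lit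 1140) (nat_lit 3599932321) (nat_lit 76) (nat_lit 1993084290) (nat_lit 451) (nat_lit 5) (nat_lit 466) (nat_lit 5) (nat_lit 452) (nat_lit 5) (nat_lit 563) (nat_lit 519) (nat_lit 478)) (XT.lf (nat_lit 0) (nat_lit 1442030935) (nat_lit 912) (nat_lit 3166879926) (nat_lit 988) (nat_lit 3040968145) (nat_lit 439) (nat_lit 5) (nat_lit 451) (nat_lit 5) (nat_lit 452) (nat_lit 5) (nat_lit 564) (nat_lit 519) (nat_lit 477))))) (XT.nd (nat_lit 156) (nat_lit 1748) (nat_lit 0) (XT.nd (nat_lit 78) (nat_lit 988) (nat_lit 0) (XT.lf (nat_lit 0) (nat_lit 6587612916) (nat_lit 912) (nat_lit 659355860) (nat_lit 988) (nat_lit 459817463) (nat_lit 439) (nat_lit 5) (nat_lit 451) (nat_lit 5) (nat_lit 452) (nat_lit 5) (nat_lit 565) (nat_lit 519) (nat_lit 476)) (XT.lf (nat_lit 0) (nat_lit 2138370647) (nat_lit 988) (nat_lit 3712756556) (nat_lit 76) (nat_lit 1913546975) (nat_lit 426) (nat_lit 5) (nat_lit 439) (nat_lit 5) (nat_lit 427) (nat_lit 5) (nat_lit 566) (nat_lit 519) (nat_lit 475))) (XT.nd (nat_lit 78) (nat_lit 912) (nat_lit 0) (XT.lf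 (nat_lit 0) (nat_lit 1483725472) (nat_lit 836) (nat_lit 3275721338) (nat_lit 912) (nat_lit 3064673586) (nat_lit 415) (nat_lit 5) (nat_lit 426) (nat_lit 5) (nat_lit 427) (nat_lit 5) (nat_lit 567) (nat_lit 519) (nat_lit 474)) (XT.nd (nat_lit 78) (nat_lit 912) (nat_lit 0) (XT.lf (nat_lit 0) (nat_lit 6788465388) (nat_lit 836) (nat_lit 625482833) (nat_lit 912) (nat_lit 471190116) (nat_lit 415) (nat_lit 5) (nat_lit 426) (nat_lit 5) (nat_lit 427) (nat_lit 5) (nat_lit 568) (nat_lit 519) (nat_lit 473)) (XT.lf (nat_lit 0) (nat_lit 2143641735) (nat_lit 912) (nat_lit 3713320712) (nat_lit 76) (nat_lit 2090174765) (nat_lit 403) (nat_lit 5) (nat_lit 415) (nat_lit 5) (nat_lit 404) (nat_lit 5) (nat_lit 569) (nat_lit 519) (nat_lit 472))))))) (XT.nd (nat_lit 780) (nat_lit 4636) (nat_lit 0) (XT.nd (nat_lit 390) (nat_lit 3040) (nat_lit 0) (XT.nd (nat_lit 156) (nat_lit 1672) (nat_lit 0) (XT.nd (nat_lit 78) (nat_lit 0) (nat_lit 0) (XT.lf (nat_lit 0) (nat_lit 1643579999) (nat_lit 836) (nat_lit 3140308966) (nat_lit 912) (nat_lit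 3226838957) (nat_lit 392) (nat_lit 5) (nat_lit 403) (nat_lit 5) (nat_lit 404) (nat_lit 5) (nat_lit 570) (nat_lit 519) (nat_lit 471)) (XT.lf (nat_lit 0) (nat_lit 7112040898) (nat_lit 836) (nat_lit 347560294) (nat_lit 912) (nat_lit 616338709) (nat_lit 392) (nat_lit 5) (nat_lit 403) (nat_lit 5) (nat_lit 404) (nat_lit 5) (nat_lit 571) (nat_lit 519) (nat_lit 470))) (XT.nd (nat_lit 78) (nat_lit 760) (nat_lit 0) (XT.lf (nat_lit 0) (nat_lit 2023853283) (nat_lit 912) (nat_lit 3610723727) (nat_lit 76) (nat_lit 2507529527) (nat_lit 380) (nat_lit 5) (nat_lit 392) (nat_lit 5) (nat_lit 381) (nat_lit 5) (nat_lit 572) (nat_lit 519) (nat_lit 469)) (XT.nd (nat_lit 78) (nat_lit 0) (nat_lit 0) (XT.lf (nat_lit 0) (nat_lit 1912759688) (nat_lit 760) (nat_lit 2775866793) (nat_lit 836) (nat_lit 3521290444) (nat_lit 370) (nat_lit 5) (nat_lit 380) (nat_lit 5) (nat_lit 381) (nat_lit 5) (nat_lit 573) (nat_lit 519) (nat_lit 468)) (XT.lf (nat_lit 0) (nat_lit 7391263223) (nat_lit 836) (nat_lit 730561074) (nat_lit 76) (nat_lit 157570316)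 (nat_lit 370) (nat_lit 5) (nat_lit 381) (nat_lit 5) (nat_lit 371) (nat_lit 5) (nat_lit 574) (nat_lit 519) (nat_lit 467))))) (XT.nd (nat_lit 156) (nat_lit 1520) (nat_lit 0) (XT.nd (nat_lit 78) (nat_lit 684) (nat_lit 0) (XT.lf (nat_lit 0) (nat_lit 1784759314) (nat_lit 836) (nat_lit 3413550585) (nat_lit 76) (nat_lit 3151507967) (nat_lit 359) (nat_lit 5) (nat_lit 370) (nat_lit 5) (nat_lit 360) (nat_lit 5) (nat_lit 575) (nat_lit 519) (nat_lit 466)) (XT.lf (nat_lit 0) (nat_lit 2282944001) (nat_lit 684) (nat_lit 2196332588) (nat_lit 760) (nat_lit 3942656678) (nat_lit 350) (nat_lit 5) (nat_lit 359) (nat_lit 5) (nat_lit 360) (nat_lit 5) (nat_lit 576) (nat_lit 519) (nat_lit 465))) (XT.nd (nat_lit 78) (nat_lit 1520) (nat_lit 0) (XT.lf (nat_lit 0) (nat_lit 7217097224) (nat_lit 760) (nat_lit 407475630) (nat_lit 76) (nat_lit 871132128) (nat_lit 350) (nat_lit 5) (nat_lit 360) (nat_lit 5) (nat_lit 351) (nat_lit 5) (nat_lit 577) (nat_lit 519) (nat_lit 464)) (XT.nd (nat_lit 78) (nat_lit 684) (nat_lit 0) (XT.lf (nat_lit 0)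 (nat_lit 1431362062) (nat_lit 836) (nat_lit 3129941605) (nat_lit 76) (nat_lit 4009233640) (nat_lit 339) (nat_lit 5) (nat_lit 350) (nat_lit 5) (nat_lit 340) (nat_lit 5) (nat_lit 578) (nat_lit 519) (nat_lit 463)) (XT.lf (nat_lit 0) (nat_lit 2746257500) (nat_lit 684) (nat_lit 1414464103) (nat_lit 760) (nat_lit 4486331561) (nat_lit 330) (nat_lit 5) (nat_lit 339) (nat_lit 5) (nat_lit 340) (nat_lit 5) (nat_lit 579) (nat_lit 519) (nat_lit 462)))))) (XT.nd (nat_lit 390) (nat_lit 2508) (nat_lit 0) (XT.nd (nat_lit 156) (nat_lit 1368) (nat_lit 0) (XT.nd (nat_lit 78) (nat_lit 760) (nat_lit 0) (XT.lf (nat_lit 0) (nat_lit 6939587161) (nat_lit 760) (nat_lit 91757) (nat_lit 76) (nat_lit 1785524136) (nat_lit 330) (nat_lit 5) (nat_lit 340) (nat_lit 5) (nat_lit 331) (nat_lit 5) (nat_lit 580) (nat_lit 519) (nat_lit 461)) (XT.lf (nat_lit 0) (nat_lit 967945518) (nat_lit 760) (nat_lit 2767659914) (nat_lit 76) (nat_lit 5068955851) (nat_lit 320) (nat_lit 5) (nat_lit 330) (nat_lit 5) (nat_lit 321) (nat_lit 5) (nat_lit 581) (nat_lit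 519) (nat_lit 460))) (XT.nd (nat_lit 78) (nat_lit 760) (nat_lit 0) (XT.lf (nat_lit 0) (nat_lit 3295202379) (nat_lit 608) (nat_lit 441938671) (nat_lit 684) (nat_lit 5148442093) (nat_lit 312) (nat_lit 5) (nat_lit 320) (nat_lit 5) (nat_lit 321) (nat_lit 5) (nat_lit 582) (nat_lit 519) (nat_lit 459)) (XT.nd (nat_lit 78) (nat_lit 76) (nat_lit 0) (XT.lf (nat_lit 0) (nat_lit 490656052) (nat_lit 684) (nat_lit 6075320123) (nat_lit 760) (nat_lit 2402166086) (nat_lit 303) (nat_lit 5) (nat_lit 312) (nat_lit 5) (nat_lit 313) (nat_lit 5) (nat_lit 583) (nat_lit 519) (nat_lit 458)) (XT.lf (nat_lit 0) (nat_lit 398104196) (nat_lit 760) (nat_lit 2334157638) (nat_lit 76) (nat_lit 6319954727) (nat_lit 302) (nat_lit 5) (nat_lit 312) (nat_lit 5) (nat_lit 303) (nat_lit 5) (nat_lit 584) (nat_lit 519) (nat_lit 457))))) (XT.nd (nat_lit 234) (nat_lit 1292) (nat_lit 0) (XT.nd (nat_lit 78) (nat_lit 608) (nat_lit 0) (XT.lf (nat_lit 0) (nat_lit 3216652475) (nat_lit 684) (nat_lit 5219881294) (nat_lit 76) (nat_lit 701234083) (nat_lit 294)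 (nat_lit 5) (nat_lit 303) (nat_lit 5) (nat_lit 295) (nat_lit 5) (nat_lit 585) (nat_lit 519) (nat_lit 456)) (XT.nd (nat_lit 78) (nat_lit 0) (nat_lit 0) (XT.lf (nat_lit 0) (nat_lit 1052163612) (nat_lit 608) (nat_lit 5044775313) (nat_lit 684) (nat_lit 3127985685) (nat_lit 286) (nat_lit 5) (nat_lit 294) (nat_lit 5) (nat_lit 295) (nat_lit 5) (nat_lit 586) (nat_lit 519) (nat_lit 455)) (XT.lf (nat_lit 0) (nat_lit 7475372138) (nat_lit 608) (nat_lit 1559561643) (nat_lit 684) (nat_lit 278890422) (nat_lit 286) (nat_lit 5) (nat_lit 294) (nat_lit 5) (nat_lit 295) (nat_lit 5) (nat_lit 587) (nat_lit 519) (nat_lit 454)))) (XT.nd (nat_lit 78) (nat_lit 608) (nat_lit 0) (XT.lf (nat_lit 0) (nat_lit 2601468364) (nat_lit 684) (nat_lit 4795966244) (nat_lit 76) (nat_lit 2006552960) (nat_lit 277) (nat_lit 5) (nat_lit 286) (nat_lit 5) (nat_lit 278) (nat_lit 5) (nat_lit 588) (nat_lit 519) (nat_lit 453)) (XT.nd (nat_lit 78) (nat_lit 0) (nat_lit 0) (XT.lf (nat_lit 0) (nat_lit 1677446354) (nat_lit 608) (nat_lit 3857747671) (nat_lit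 684) (nat_lit 3960735078) (nat_lit 269) (nat_lit 5) (nat_lit 277) (nat_lit 5) (nat_lit 278) (nat_lit 5) (nat_lit 589) (nat_lit 519) (nat_lit 452)) (XT.lf (nat_lit 0) (nat_lit 8300699213) (nat_lit 608) (nat_lit 225310729) (nat_lit 684) (nat_lit 1063732830) (nat_lit 269) (nat_lit 5) (nat_lit 277) (nat_lit 5) (nat_lit 278) (nat_lit 5) (nat_lit 590) (nat_lit 519) (nat_lit 451))))))))
noncomputable def xc64 : XT := (XT.nd (nat_lit 1560) (nat_lit 2736) (nat_lit 0) (XT.nd (nat_lit 780) (nat_lit 3192) (nat_lit 0) (XT.nd (nat_lit 390) (nat_lit 1520) (nat_lit 0) (XT.nd (nat_lit 156) (nat_lit 1140) (nat_lit 0) (XT.nd (nat_lit 78) (nat_lit 532) (nat_lit 0) (XT.lf (nat_lit 0) (nat_lit 1890878524) (nat_lit 608) (nat_lit 4322866619) (nat_lit 76) (nat_lit 3470954094) (nat_lit 261) (nat_lit 5) (nat_lit 269) (nat_lit 5) (nat_lit 262) (nat_lit 5) (nat_lit 591) (nat_lit 519) (nat_lit 450)) (XT.lf (nat_lit 0) (nat_lit 2359664795) (nat_lit 532) (nat_lit 2523178079) (nat_lit 608) (nat_lit 4898722774) (nat_lit 254) (nat_lit 5)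 (nat_lit 261) (nat_lit 5) (nat_lit 262) (nat_lit 5) (nat_lit 592) (nat_lit 519) (nat_lit 449))) (XT.nd (nat_lit 78) (nat_lit 1140) (nat_lit 0) (XT.lf (nat_lit 0) (nat_lit 7939162397) (nat_lit 608) (nat_lit 698389145) (nat_lit 76) (nat_lit 1242729023) (nat_lit 254) (nat_lit 5) (nat_lit 262) (nat_lit 5) (nat_lit 255) (nat_lit 5) (nat_lit 593) (nat_lit 519) (nat_lit 448)) (XT.nd (nat_lit 78) (nat_lit 532) (nat_lit 0) (XT.lf (nat_lit 0) (nat_lit 1086426660) (nat_lit 608) (nat_lit 3807604301) (nat_lit 76) (nat_lit 5086302674) (nat_lit 246) (nat_lit 5) (nat_lit 254) (nat_lit 5) (nat_lit 247) (nat_lit 5) (nat_lit 594) (nat_lit 519) (nat_lit 447)) (XT.lf (nat_lit 0) (nat_lit 3092057186) (nat_lit 532) (nat_lit 1049324078) (nat_lit 608) (nat_lit 5940894287) (nat_lit 239) (nat_lit 5) (nat_lit 246) (nat_lit 5) (nat_lit 247) (nat_lit 5) (nat_lit 595) (nat_lit 519) (nat_lit 446))))) (XT.nd (nat_lit 156) (nat_lit 988) (nat_lit 0) (XT.nd (nat_lit 78) (nat_lit 532) (nat_lit 0) (XT.lf (nat_lit 0) (nat_lit 7270100662) (nat_lit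 608) (nat_lit 67556053) (nat_lit 76) (nat_lit 2848347657) (nat_lit 239) (nat_lit 5) (nat_lit 247) (nat_lit 5) (nat_lit 240) (nat_lit 5) (nat_lit 596) (nat_lit 519) (nat_lit 445)) (XT.lf (nat_lit 0) (nat_lit 189050096) (nat_lit 532) (nat_lit 3257189486) (nat_lit 76) (nat_lit 6845113743) (nat_lit 232) (nat_lit 5) (nat_lit 239) (nat_lit 5) (nat_lit 233) (nat_lit 5) (nat_lit 597) (nat_lit 519) (nat_lit 444))) (XT.nd (nat_lit 78) (nat_lit 456) (nat_lit 0) (XT.lf (nat_lit 0) (nat_lit 3315318247) (nat_lit 608) (nat_lit 6534270904) (nat_lit 76) (nat_lit 548870741) (nat_lit 225) (nat_lit 5) (nat_lit 233) (nat_lit 5) (nat_lit 226) (nat_lit 5) (nat_lit 598) (nat_lit 519) (nat_lit 443)) (XT.nd (nat_lit 78) (nat_lit 0) (nat_lit 0) (XT.lf (nat_lit 0) (nat_lit 606035650) (nat_lit 456) (nat_lit 5916122245) (nat_lit 532) (nat_lit 3985191048) (nat_lit 219) (nat_lit 5) (nat_lit 225) (nat_lit 5) (nat_lit 226) (nat_lit 5) (nat_lit 599) (nat_lit 519) (nat_lit 442)) (XT.lf (nat_lit 0) (nat_lit 7934189653) (nat_lit 456) (nat_lit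 1872399030) (nat_lit 532) (nat_lit 811559256) (nat_lit 219) (nat_lit 5) (nat_lit 225) (nat_lit 5) (nat_lit 226) (nat_lit 5) (nat_lit 600) (nat_lit 519) (nat_lit 441)))))) (XT.nd (nat_lit 390) (nat_lit 1292) (nat_lit 0) (XT.nd (nat_lit 156) (nat_lit 912) (nat_lit 0) (XT.nd (nat_lit 78) (nat_lit 456) (nat_lit 0) (XT.lf (nat_lit 0) (nat_lit 2408968050) (nat_lit 532) (nat_lit 6065384861) (nat_lit 76) (nat_lit 2256191555) (nat_lit 212) (nat_lit 5) (nat_lit 219) (nat_lit 5) (nat_lit 213) (nat_lit 5) (nat_lit 601) (nat_lit 519) (nat_lit 440)) (XT.lf (nat_lit 0) (nat_lit 1308778853) (nat_lit 456) (nat_lit 4383526497) (nat_lit 532) (nat_lit 5152592139) (nat_lit 206) (nat_lit 5) (nat_lit 212) (nat_lit 5) (nat_lit 213) (nat_lit 5) (nat_lit 602) (nat_lit 519) (nat_lit 439))) (XT.nd (nat_lit 78) (nat_lit 912) (nat_lit 0) (XT.lf (nat_lit 0) (nat_lit 8869623543) (nat_lit 456) (nat_lit 182920782) (nat_lit 532) (nat_lit 1908769706) (nat_lit 206) (nat_lit 5) (nat_lit 212) (nat_lit 5) (nat_lit 213) (nat_lit 5) (nat_lit 603)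 (nat_lit 519) (nat_lit 438)) (XT.nd (nat_lit 78) (nat_lit 380) (nat_lit 0) (XT.lf (nat_lit 0) (nat_lit 1415183330) (nat_lit 532) (nat_lit 5584183827) (nat_lit 76) (nat_lit 4079838781) (nat_lit 199) (nat_lit 5) (nat_lit 206) (nat_lit 5) (nat_lit 200) (nat_lit 5) (nat_lit 604) (nat_lit 519) (nat_lit 437)) (XT.lf (nat_lit 0) (nat_lit 2032586562) (nat_lit 380) (nat_lit 2747158327) (nat_lit 456) (nat_lit 6419465787) (nat_lit 194) (nat_lit 5) (nat_lit 199) (nat_lit 5) (nat_lit 200) (nat_lit 5) (nat_lit 605) (nat_lit 519) (nat_lit 436))))) (XT.nd (nat_lit 156) (nat_lit 760) (nat_lit 0) (XT.nd (nat_lit 78) (nat_lit 532) (nat_lit 0) (XT.lf (nat_lit 0) (nat_lit 8230968967) (nat_lit 456) (nat_lit 1497025138) (nat_lit 76) (nat_lit 1593235047) (nat_lit 194) (nat_lit 5) (nat_lit 200) (nat_lit 5) (nat_lit 195) (nat_lit 5) (nat_lit 606) (nat_lit 519) (nat_lit 435)) (XT.lf (nat_lit 0) (nat_lit 333031737) (nat_lit 532) (nat_lit 5098345972) (nat_lit 76) (nat_lit 6013641454) (nat_lit 187) (nat_lit 5) (nat_lit 194) (nat_lit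 5) (nat_lit 188) (nat_lit 5) (nat_lit 607) (nat_lit 519) (nat_lit 434))) (XT.nd (nat_lit 78) (nat_lit 380) (nat_lit 0) (XT.lf (nat_lit 0) (nat_lit 2770023593) (nat_lit 380) (nat_lit 1013505900) (nat_lit 456) (nat_lit 7787345583) (nat_lit 182) (nat_lit 5) (nat_lit 187) (nat_lit 5) (nat_lit 188) (nat_lit 5) (nat_lit 608) (nat_lit 519) (nat_lit 433)) (XT.nd (nat_lit 78) (nat_lit 380) (nat_lit 0) (XT.lf (nat_lit 0) (nat_lit 7332320885) (nat_lit 456) (nat_lit 899011187) (nat_lit 76) (nat_lit 3467331348) (nat_lit 182) (nat_lit 5) (nat_lit 188) (nat_lit 5) (nat_lit 183) (nat_lit 5) (nat_lit 609) (nat_lit 519) (nat_lit 432)) (XT.lf (nat_lit 0) (nat_lit 7207094280) (nat_lit 380) (nat_lit 3771212203) (nat_lit 456) (nat_lit 850177650) (nat_lit 177) (nat_lit 5) (nat_lit 182) (nat_lit 5) (nat_lit 183) (nat_lit 5) (nat_lit 610) (nat_lit 519) (nat_lit 431))))))) (XT.nd (nat_lit 74100) (nat_lit 0) (nat_lit 47652) (XT.nd (nat_lit 390) (nat_lit 1064) (nat_lit 0) (XT.nd (nat_lit 156) (nat_lit 1216) (nat_lit 0) (XT.nd (nat_lit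 78) (nat_lit 0) (nat_lit 0) (XT.lf (nat_lit 0) (nat_lit 2707374109) (nat_lit 456) (nat_lit 8452451398) (nat_lit 76) (nat_lit 800582346) (nat_lit 171) (nat_lit 5) (nat_lit 177) (nat_lit 5) (nat_lit 172) (nat_lit 5) (nat_lit 611) (nat_lit 519) (nat_lit 430)) (XT.lf (nat_lit 0) (nat_lit 6353866719) (nat_lit 456) (nat_lit 304468993) (nat_lit 76) (nat_lit 5435939380) (nat_lit 171) (nat_lit 5) (nat_lit 177) (nat_lit 5) (nat_lit 172) (nat_lit 5) (nat_lit 612) (nat_lit 519) (nat_lit 429))) (XT.nd (nat_lit 78) (nat_lit 836) (nat_lit 0) (XT.lf (nat_lit 0) (nat_lit 8071307730) (nat_lit 380) (nat_lit 2027886521) (nat_lit 456) (nat_lit 2131108217) (nat_lit 166) (nat_lit 5) (nat_lit 171) (nat_lit 5) (nat_lit 172) (nat_lit 5) (nat_lit 613) (nat_lit 519) (nat_lit 428)) (XT.nd (nat_lit 78) (nat_lit 380) (nat_lit 0) (XT.lf (nat_lit 0) (nat_lit 1550970896) (nat_lit 456) (nat_lit 8132121182) (nat_lit 76) (nat_lit 2685339320) (nat_lit 160) (nat_lit 5) (nat_lit 166) (nat_lit 5) (nat_lit 161) (nat_lit 5) (nat_lit 614) (nat_lit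 519) (nat_lit 427)) (XT.lf (nat_lit 0) (nat_lit 281838777) (nat_lit 380) (nat_lit 5013436206) (nat_lit 456) (nat_lit 7213424656) (nat_lit 155) (nat_lit 5) (nat_lit 160) (nat_lit 5) (nat_lit 161) (nat_lit 5) (nat_lit 615) (nat_lit 519) (nat_lit 426))))) (XT.nd (nat_lit 156) (nat_lit 684) (nat_lit 0) (XT.nd (nat_lit 78) (nat_lit 380) (nat_lit 0) (XT.lf (nat_lit 0) (nat_lit 8933319883) (nat_lit 380) (nat_lit 209703655) (nat_lit 456) (nat_lit 3508179364) (nat_lit 155) (nat_lit 5) (nat_lit 160) (nat_lit 5) (nat_lit 161) (nat_lit 5) (nat_lit 616) (nat_lit 519) (nat_lit 425)) (XT.lf (nat_lit 0) (nat_lit 304884825) (nat_lit 380) (nat_lit 7842613634) (nat_lit 76) (nat_lit 4648277944) (nat_lit 150) (nat_lit 5) (nat_lit 155) (nat_lit 5) (nat_lit 151) (nat_lit 5) (nat_lit 617) (nat_lit 519) (nat_lit 424))) (XT.nd (nat_lit 78) (nat_lit 304) (nat_lit 0) (XT.lf (nat_lit 0) (nat_lit 850982030) (nat_lit 380) (nat_lit 3302799331) (nat_lit 456) (nat_lit 8788866098) (nat_lit 145) (nat_lit 5) (nat_lit 150) (nat_lit 5) (nat_lit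 151) (nat_lit 5) (nat_lit 618) (nat_lit 519) (nat_lit 423)) (XT.nd (nat_lit 78) (nat_lit 304) (nat_lit 0) (XT.lf (nat_lit 0) (nat_lit 8117886143) (nat_lit 456) (nat_lit 3318450245) (nat_lit 76) (nat_lit 1655355704) (nat_lit 145) (nat_lit 5) (nat_lit 151) (nat_lit 5) (nat_lit 146) (nat_lit 5) (nat_lit 619) (nat_lit 519) (nat_lit 422)) (XT.lf (nat_lit 0) (nat_lit 5642340530) (nat_lit 304) (nat_lit 6552550506) (nat_lit 380) (nat_lit 1048154968) (nat_lit 141) (nat_lit 5) (nat_lit 145) (nat_lit 5) (nat_lit 146) (nat_lit 5) (nat_lit 620) (nat_lit 519) (nat_lit 421)))))) (XT.nd (nat_lit 390) (nat_lit 760) (nat_lit 0) (XT.nd (nat_lit 156) (nat_lit 304) (nat_lit 0) (XT.nd (nat_lit 78) (nat_lit 76) (nat_lit 0) (XT.lf (nat_lit 0) (nat_lit 0) (nat_lit 0) (nat_lit 0) (nat_lit 0) (nat_lit 1073741823) (nat_lit 1) (nat_lit 0) (nat_lit 1) (nat_lit 0) (nat_lit 783) (nat_lit 0) (nat_lit 520) (nat_lit 520) (nat_lit 520)) (XT.lf (nat_lit 0) (nat_lit 3181109272) (nat_lit 76) (nat_lit 3219769031) (nat_lit 0) (nat_lit 41993469)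 (nat_lit 782) (nat_lit 5) (nat_lit 783) (nat_lit 0) (nat_lit 782) (nat_lit 4) (nat_lit 521) (nat_lit 520) (nat_lit 519))) (XT.nd (nat_lit 78) (nat_lit 228) (nat_lit 0) (XT.lf (nat_lit 0) (nat_lit 24014729) (nat_lit 76) (nat_lit 6318818382) (nat_lit 76) (nat_lit 102138066) (nat_lit 781) (nat_lit 4) (nat_lit 782) (nat_lit 5) (nat_lit 782) (nat_lit 4) (nat_lit 522) (nat_lit 520) (nat_lit 518)) (XT.nd (nat_lit 78) (nat_lit 152) (nat_lit 0) (XT.lf (nat_lit 0) (nat_lit 3019133996) (nat_lit 152) (nat_lit 3135249753) (nat_lit 76) (nat_lit 293545542) (nat_lit 780) (nat_lit 5) (nat_lit 782) (nat_lit 5) (nat_lit 781) (nat_lit 4) (nat_lit 523) (nat_lit 520) (nat_lit 517)) (XT.lf (nat_lit 0) (nat_lit 174167445) (nat_lit 152) (nat_lit 5947677506) (nat_lit 228) (nat_lit 330689921) (nat_lit 778) (nat_lit 5) (nat_lit 780) (nat_lit 5) (nat_lit 781) (nat_lit 4) (nat_lit 524) (nat_lit 520) (nat_lit 516))))) (XT.nd (nat_lit 156) (nat_lit 456) (nat_lit 0) (XT.nd (nat_lit 78) (nat_lit 228) (nat_lit 0) (XT.lf (nat_lit 0) (nat_lit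 2733464052) (nat_lit 228) (nat_lit 2927445736) (nat_lit 76) (nat_lit 797140551) (nat_lit 777) (nat_lit 5) (nat_lit 780) (nat_lit 5) (nat_lit 778) (nat_lit 5) (nat_lit 525) (nat_lit 520) (nat_lit 515)) (XT.lf (nat_lit 0) (nat_lit 450689230) (nat_lit 228) (nat_lit 5328298344) (nat_lit 304) (nat_lit 686163420) (nat_lit 774) (nat_lit 5) (nat_lit 777) (nat_lit 5) (nat_lit 778) (nat_lit 5) (nat_lit 526) (nat_lit 520) (nat_lit 514))) (XT.nd (nat_lit 78) (nat_lit 380) (nat_lit 0) (XT.lf (nat_lit 0) (nat_lit 2323476744) (nat_lit 304) (nat_lit 2596009175) (nat_lit 76) (nat_lit 1553761022) (nat_lit 773) (nat_lit 5) (nat_lit 777) (nat_lit 5) (nat_lit 774) (nat_lit 5) (nat_lit 527) (nat_lit 520) (nat_lit 513)) (XT.nd (nat_lit 78) (nat_lit 76) (nat_lit 0) (XT.lf (nat_lit 0) (nat_lit 854057172) (nat_lit 304) (nat_lit 4459462955) (nat_lit 380) (nat_lit 1169314381) (nat_lit 769) (nat_lit 5) (nat_lit 773) (nat_lit 5) (nat_lit 774) (nat_lit 5) (nat_lit 528) (nat_lit 520) (nat_lit 512)) (XT.lf (nat_lit 0) (nat_lit 1788304558)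 (nat_lit 380) (nat_lit 2140349866) (nat_lit 76) (nat_lit 2564882742) (nat_lit 768) (nat_lit 5) (nat_lit 773) (nat_lit 5) (nat_lit 769) (nat_lit 5) (nat_lit 529) (nat_lit 520) (nat_lit 511))))))))
noncomputable def xc65 : XT := (XT.nd (nat_lit 1560) (nat_lit 17556) (nat_lit 0) (XT.nd (nat_lit 780) (nat_lit 6460) (nat_lit 0) (XT.nd (nat_lit 390) (nat_lit 2204) (nat_lit 0) (XT.nd (nat_lit 156) (nat_lit 1064) (nat_lit 0) (XT.nd (nat_lit 78) (nat_lit 76) (nat_lit 0) (XT.lf (nat_lit 0) (nat_lit 1384994878) (nat_lit 380) (nat_lit 3339463446) (nat_lit 456) (nat_lit 1781148067) (nat_lit 763) (nat_lit 5) (nat_lit 768) (nat_lit 5) (nat_lit 769) (nat_lit 5) (nat_lit 530) (nat_lit 520) (nat_lit 510)) (XT.lf (nat_lit 0) (nat_lit 1126833478) (nat_lit 456) (nat_lit 1559634502) (nat_lit 76) (nat_lit 3832477155) (nat_lit 762) (nat_lit 5) (nat_lit 768) (nat_lit 5) (nat_lit 763) (nat_lit 5) (nat_lit 531) (nat_lit 520) (nat_lit 509))) (XT.nd (nat_lit 78) (nat_lit 608) (nat_lit 0) (XT.lf (nat_lit 0) (nat_lit 2044473378) (nat_lit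 456) (nat_lit 1966099192) (nat_lit 532) (nat_lit 2522921102) (nat_lit 756) (nat_lit 5) (nat_lit 762) (nat_lit 5) (nat_lit 763) (nat_lit 5) (nat_lit 532) (nat_lit 520) (nat_lit 508)) (XT.nd (nat_lit 78) (nat_lit 532) (nat_lit 0) (XT.lf (nat_lit 0) (nat_lit 337700915) (nat_lit 532) (nat_lit 852785586) (nat_lit 76) (nat_lit 5359014576) (nat_lit 755) (nat_lit 5) (nat_lit 762) (nat_lit 5) (nat_lit 756) (nat_lit 5) (nat_lit 533) (nat_lit 520) (nat_lit 507)) (XT.lf (nat_lit 0) (nat_lit 2833712435) (nat_lit 532) (nat_lit 336673253) (nat_lit 608) (nat_lit 3396143774) (nat_lit 748) (nat_lit 5) (nat_lit 755) (nat_lit 5) (nat_lit 756) (nat_lit 5) (nat_lit 534) (nat_lit 520) (nat_lit 506))))) (XT.nd (nat_lit 156) (nat_lit 1520) (nat_lit 0) (XT.nd (nat_lit 78) (nat_lit 684) (nat_lit 0) (XT.lf (nat_lit 0) (nat_lit 6000416522) (nat_lit 608) (nat_lit 25976038) (nat_lit 76) (nat_lit 558698876) (nat_lit 748) (nat_lit 5) (nat_lit 756) (nat_lit 5) (nat_lit 749) (nat_lit 5) (nat_lit 535) (nat_lit 520) (nat_lit 505)) (XT.lf (nat_lit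 0) (nat_lit 2212246926) (nat_lit 684) (nat_lit 2860647451) (nat_lit 76) (nat_lit 1531657099) (nat_lit 739) (nat_lit 5) (nat_lit 748) (nat_lit 5) (nat_lit 740) (nat_lit 5) (nat_lit 536) (nat_lit 520) (nat_lit 504))) (XT.nd (nat_lit 78) (nat_lit 836) (nat_lit 0) (XT.lf (nat_lit 0) (nat_lit 929528330) (nat_lit 684) (nat_lit 4067368643) (nat_lit 760) (nat_lit 1628640551) (nat_lit 730) (nat_lit 5) (nat_lit 739) (nat_lit 5) (nat_lit 740) (nat_lit 5) (nat_lit 537) (nat_lit 520) (nat_lit 503)) (XT.nd (nat_lit 78) (nat_lit 760) (nat_lit 0) (XT.lf (nat_lit 0) (nat_lit 1127992021) (nat_lit 760) (nat_lit 1864650802) (nat_lit 76) (nat_lit 3655086003) (nat_lit 729) (nat_lit 5) (nat_lit 739) (nat_lit 5) (nat_lit 730) (nat_lit 5) (nat_lit 538) (nat_lit 520) (nat_lit 502)) (XT.lf (nat_lit 0) (nat_lit 2015332894) (nat_lit 760) (nat_lit 1850999244) (nat_lit 836) (nat_lit 2804854961) (nat_lit 719) (nat_lit 5) (nat_lit 729) (nat_lit 5) (nat_lit 730) (nat_lit 5) (nat_lit 539) (nat_lit 520) (nat_lit 501)))))) (XT.nd (nat_lit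 390) (nat_lit 3572) (nat_lit 0) (XT.nd (nat_lit 156) (nat_lit 1976) (nat_lit 0) (XT.nd (nat_lit 78) (nat_lit 912) (nat_lit 0) (XT.lf (nat_lit 0) (nat_lit 5954831637) (nat_lit 760) (nat_lit 653384889) (nat_lit 836) (nat_lit 87928443) (nat_lit 719) (nat_lit 5) (nat_lit 729) (nat_lit 5) (nat_lit 730) (nat_lit 5) (nat_lit 540) (nat_lit 520) (nat_lit 500)) (XT.lf (nat_lit 0) (nat_lit 2610301055) (nat_lit 912) (nat_lit 3493020246) (nat_lit 76) (nat_lit 618694865) (nat_lit 707) (nat_lit 5) (nat_lit 719) (nat_lit 5) (nat_lit 708) (nat_lit 5) (nat_lit 541) (nat_lit 520) (nat_lit 499))) (XT.nd (nat_lit 78) (nat_lit 1064) (nat_lit 0) (XT.lf (nat_lit 0) (nat_lit 497604586) (nat_lit 912) (nat_lit 4814450897) (nat_lit 988) (nat_lit 1437328559) (nat_lit 695) (nat_lit 5) (nat_lit 707) (nat_lit 5) (nat_lit 708) (nat_lit 5) (nat_lit 542) (nat_lit 520) (nat_lit 498)) (XT.nd (nat_lit 78) (nat_lit 988) (nat_lit 0) (XT.lf (nat_lit 0) (nat_lit 1235903390) (nat_lit 988) (nat_lit 2214935997) (nat_lit 76) (nat_lit 3327052057) (nat_lit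 694) (nat_lit 5) (nat_lit 707) (nat_lit 5) (nat_lit 695) (nat_lit 5) (nat_lit 543) (nat_lit 520) (nat_lit 497)) (XT.lf (nat_lit 0) (nat_lit 1873618110) (nat_lit 988) (nat_lit 2021809164) (nat_lit 1064) (nat_lit 2912315552) (nat_lit 681) (nat_lit 5) (nat_lit 694) (nat_lit 5) (nat_lit 695) (nat_lit 5) (nat_lit 544) (nat_lit 520) (nat_lit 496))))) (XT.nd (nat_lit 156) (nat_lit 2432) (nat_lit 0) (XT.nd (nat_lit 78) (nat_lit 1140) (nat_lit 0) (XT.lf (nat_lit 0) (nat_lit 6030177016) (nat_lit 988) (nat_lit 533612674) (nat_lit 1064) (nat_lit 275293790) (nat_lit 681) (nat_lit 5) (nat_lit 694) (nat_lit 5) (nat_lit 695) (nat_lit 5) (nat_lit 545) (nat_lit 520) (nat_lit 495)) (XT.lf (nat_lit 0) (nat_lit 2353064371) (nat_lit 1140) (nat_lit 3494402232) (nat_lit 76) (nat_lit 1023870577) (nat_lit 666) (nat_lit 5) (nat_lit 681) (nat_lit 5) (nat_lit 667) (nat_lit 5) (nat_lit 546) (nat_lit 520) (nat_lit 494))) (XT.nd (nat_lit 78) (nat_lit 1292) (nat_lit 0) (XT.lf (nat_lit 0) (nat_lit 712609606) (nat_lit 1140) (nat_lit 4273834235)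 (nat_lit 1216) (nat_lit 1918637819) (nat_lit 651) (nat_lit 5) (nat_lit 666) (nat_lit 5) (nat_lit 667) (nat_lit 5) (nat_lit 547) (nat_lit 520) (nat_lit 493)) (XT.nd (nat_lit 78) (nat_lit 1216) (nat_lit 0) (XT.lf (nat_lit 0) (nat_lit 689952464) (nat_lit 1216) (nat_lit 1937960048) (nat_lit 76) (nat_lit 4312166534) (nat_lit 650) (nat_lit 5) (nat_lit 666) (nat_lit 5) (nat_lit 651) (nat_lit 5) (nat_lit 548) (nat_lit 520) (nat_lit 492)) (XT.lf (nat_lit 0) (nat_lit 2375837804) (nat_lit 1216) (nat_lit 908725246) (nat_lit 1292) (nat_lit 3691773529) (nat_lit 634) (nat_lit 5) (nat_lit 650) (nat_lit 5) (nat_lit 651) (nat_lit 5) (nat_lit 549) (nat_lit 520) (nat_lit 491))))))) (XT.nd (nat_lit 780) (nat_lit 8360) (nat_lit 0) (XT.nd (nat_lit 390) (nat_lit 4940) (nat_lit 0) (XT.nd (nat_lit 156) (nat_lit 2888) (nat_lit 0) (XT.nd (nat_lit 78) (nat_lit 1368) (nat_lit 0) (XT.lf (nat_lit 0) (nat_lit 5894614637) (nat_lit 1292) (nat_lit 261594779) (nat_lit 76) (nat_lit 857843401) (nat_lit 634) (nat_lit 5) (nat_lit 651) (nat_lit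 5) (nat_lit 635) (nat_lit 5) (nat_lit 550) (nat_lit 520) (nat_lit 490)) (XT.lf (nat_lit 0) (nat_lit 1463605748) (nat_lit 1368) (nat_lit 2894094677) (nat_lit 76) (nat_lit 2695052134) (nat_lit 616) (nat_lit 5) (nat_lit 634) (nat_lit 5) (nat_lit 617) (nat_lit 5) (nat_lit 551) (nat_lit 520) (nat_lit 489))) (XT.nd (nat_lit 78) (nat_lit 1520) (nat_lit 0) (XT.lf (nat_lit 0) (nat_lit 1546847795) (nat_lit 1368) (nat_lit 2494765200) (nat_lit 1444) (nat_lit 3051303748) (nat_lit 598) (nat_lit 5) (nat_lit 616) (nat_lit 5) (nat_lit 617) (nat_lit 5) (nat_lit 552) (nat_lit 520) (nat_lit 488)) (XT.nd (nat_lit 78) (nat_lit 1520) (nat_lit 0) (XT.lf (nat_lit 0) (nat_lit 6071448647) (nat_lit 1368) (nat_lit 566381561) (nat_lit 1444) (nat_lit 496725193) (nat_lit 598) (nat_lit 5) (nat_lit 616) (nat_lit 5) (nat_lit 617) (nat_lit 5) (nat_lit 553) (nat_lit 520) (nat_lit 487)) (XT.lf (nat_lit 0) (nat_lit 2061296212) (nat_lit 1520) (nat_lit 3689254497) (nat_lit 76) (nat_lit 1426606084) (nat_lit 578) (nat_lit 5) (nat_lit 598) (nat_lit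 5) (nat_lit 579) (nat_lit 5) (nat_lit 554) (nat_lit 520) (nat_lit 486))))) (XT.nd (nat_lit 156) (nat_lit 3420) (nat_lit 0) (XT.nd (nat_lit 78) (nat_lit 0) (nat_lit 0) (XT.lf (nat_lit 0) (nat_lit 883367896) (nat_lit 1520) (nat_lit 3745833950) (nat_lit 1596) (nat_lit 2592039147) (nat_lit 558) (nat_lit 5) (nat_lit 578) (nat_lit 5) (nat_lit 579) (nat_lit 5) (nat_lit 555) (nat_lit 520) (nat_lit 485)) (XT.lf (nat_lit 0) (nat_lit 5552743005) (nat_lit 1520) (nat_lit 1669896210) (nat_lit 1596) (nat_lit 44088057) (nat_lit 558) (nat_lit 5) (nat_lit 578) (nat_lit 5) (nat_lit 579) (nat_lit 5) (nat_lit 556) (nat_lit 520) (nat_lit 484))) (XT.nd (nat_lit 78) (nat_lit 1748) (nat_lit 0) (XT.lf (nat_lit 0) (nat_lit 2493921259) (nat_lit 1672) (nat_lit 4336201857) (nat_lit 76) (nat_lit 483220004) (nat_lit 536) (nat_lit 5) (nat_lit 558) (nat_lit 5) (nat_lit 537) (nat_lit 5) (nat_lit 557) (nat_lit 520) (nat_lit 483)) (XT.nd (nat_lit 78) (nat_lit 76) (nat_lit 0) (XT.lf (nat_lit 0) (nat_lit 372897890) (nat_lit 1672) (nat_lit 4685061958)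 (nat_lit 1748) (nat_lit 2303412063) (nat_lit 514) (nat_lit 5) (nat_lit 536) (nat_lit 5) (nat_lit 537) (nat_lit 5) (nat_lit 558) (nat_lit 520) (nat_lit 482)) (XT.lf (nat_lit 0) (nat_lit 239909649) (nat_lit 1748) (nat_lit 2222303461) (nat_lit 76) (nat_lit 4948508734) (nat_lit 513) (nat_lit 5) (nat_lit 536) (nat_lit 5) (nat_lit 514) (nat_lit 5) (nat_lit 559) (nat_lit 520) (nat_lit 481)))))) (XT.nd (nat_lit 390) (nat_lit 3648) (nat_lit 0) (XT.nd (nat_lit 156) (nat_lit 1140) (nat_lit 0) (XT.nd (nat_lit 78) (nat_lit 1824) (nat_lit 0) (XT.lf (nat_lit 0) (nat_lit 2613524345) (nat_lit 1748) (nat_lit 158835224) (nat_lit 1824) (nat_lit 4689016040) (nat_lit 490) (nat_lit 5) (nat_lit 513) (nat_lit 5) (nat_lit 514) (nat_lit 5) (nat_lit 560) (nat_lit 520) (nat_lit 480)) (XT.lf (nat_lit 0) (nat_lit 3815488) (nat_lit 1824) (nat_lit 5333678479) (nat_lit 1900) (nat_lit 2175911140) (nat_lit 466) (nat_lit 5) (nat_lit 490) (nat_lit 5) (nat_lit 491) (nat_lit 5) (nat_lit 561) (nat_lit 520) (nat_lit 479))) (XT.nd (nat_lit 78) (nat_lit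 1064) (nat_lit 0) (XT.lf (nat_lit 0) (nat_lit 369271070) (nat_lit 1900) (nat_lit 2597067469) (nat_lit 76) (nat_lit 4600351645) (nat_lit 465) (nat_lit 5) (nat_lit 490) (nat_lit 5) (nat_lit 466) (nat_lit 5) (nat_lit 562) (nat_lit 520) (nat_lit 478)) (XT.nd (nat_lit 78) (nat_lit 0) (nat_lit 0) (XT.lf (nat_lit 0) (nat_lit 2385791642) (nat_lit 1064) (nat_lit 519964660) (nat_lit 1140) (nat_lit 4715609481) (nat_lit 451) (nat_lit 5) (nat_lit 465) (nat_lit 5) (nat_lit 466) (nat_lit 5) (nat_lit 563) (nat_lit 520) (nat_lit 477)) (XT.lf (nat_lit 0) (nat_lit 5477975351) (nat_lit 1140) (nat_lit 231630112) (nat_lit 76) (nat_lit 1967832460) (nat_lit 451) (nat_lit 5) (nat_lit 466) (nat_lit 5) (nat_lit 452) (nat_lit 5) (nat_lit 564) (nat_lit 520) (nat_lit 476))))) (XT.nd (nat_lit 234) (nat_lit 1748) (nat_lit 0) (XT.nd (nat_lit 78) (nat_lit 912) (nat_lit 0) (XT.lf (nat_lit 0) (nat_lit 352837777) (nat_lit 988) (nat_lit 2848602839) (nat_lit 76) (nat_lit 4533333345) (nat_lit 438) (nat_lit 5) (nat_lit 451) (nat_lit 5) (nat_lit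 439) (nat_lit 5) (nat_lit 565) (nat_lit 520) (nat_lit 475)) (XT.nd (nat_lit 78) (nat_lit 0) (nat_lit 0) (XT.lf (nat_lit 0) (nat_lit 2286836842) (nat_lit 912) (nat_lit 612152898) (nat_lit 988) (nat_lit 4894534016) (nat_lit 426) (nat_lit 5) (nat_lit 438) (nat_lit 5) (nat_lit 439) (nat_lit 5) (nat_lit 566) (nat_lit 520) (nat_lit 474)) (XT.lf (nat_lit 0) (nat_lit 5484867888) (nat_lit 988) (nat_lit 348162906) (nat_lit 76) (nat_lit 2020644561) (nat_lit 426) (nat_lit 5) (nat_lit 439) (nat_lit 5) (nat_lit 427) (nat_lit 5) (nat_lit 567) (nat_lit 520) (nat_lit 473)))) (XT.nd (nat_lit 78) (nat_lit 836) (nat_lit 0) (XT.lf (nat_lit 0) (nat_lit 197969308) (nat_lit 912) (nat_lit 2986844411) (nat_lit 76) (nat_lit 4730326971) (nat_lit 414) (nat_lit 5) (nat_lit 426) (nat_lit 5) (nat_lit 415) (nat_lit 5) (nat_lit 568) (nat_lit 520) (nat_lit 472)) (XT.nd (nat_lit 78) (nat_lit 0) (nat_lit 0) (XT.lf (nat_lit 0) (nat_lit 2306988823) (nat_lit 836) (nat_lit 452246494) (nat_lit 912) (nat_lit 5218792125) (nat_lit 403) (nat_lit 5)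 (nat_lit 414) (nat_lit 5) (nat_lit 415) (nat_lit 5) (nat_lit 569) (nat_lit 520) (nat_lit 471)) (XT.lf (nat_lit 0) (nat_lit 5365102682) (nat_lit 912) (nat_lit 355188516) (nat_lit 76) (nat_lit 2322015866) (nat_lit 403) (nat_lit 5) (nat_lit 415) (nat_lit 5) (nat_lit 404) (nat_lit 5) (nat_lit 570) (nat_lit 520) (nat_lit 470))))))))
noncomputable def xc66 : XT := (XT.nd (nat_lit 1560) (nat_lit 6992) (nat_lit 0) (XT.nd (nat_lit 780) (nat_lit 4636) (nat_lit 0) (XT.nd (nat_lit 390) (nat_lit 2204) (nat_lit 0) (XT.nd (nat_lit 156) (nat_lit 1596) (nat_lit 0) (XT.nd (nat_lit 78) (nat_lit 912) (nat_lit 0) (XT.lf (nat_lit 0) (nat_lit 5086268640) (nat_lit 836) (nat_lit 2931699754) (nat_lit 912) (nat_lit 90008867) (nat_lit 392) (nat_lit 5) (nat_lit 403) (nat_lit 5) (nat_lit 404) (nat_lit 5) (nat_lit 571) (nat_lit 520) (nat_lit 469)) (XT.lf (nat_lit 0) (nat_lit 2437179426) (nat_lit 836) (nat_lit 55655668) (nat_lit 912) (nat_lit 5682250599) (nat_lit 380) (nat_lit 5) (nat_lit 391) (nat_lit 5) (nat_lit 392) (nat_lit 5) (nat_lit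 572) (nat_lit 520) (nat_lit 468))) (XT.nd (nat_lit 78) (nat_lit 1596) (nat_lit 0) (XT.lf (nat_lit 0) (nat_lit 5124827401) (nat_lit 912) (nat_lit 261507058) (nat_lit 76) (nat_lit 2857218454) (nat_lit 380) (nat_lit 5) (nat_lit 392) (nat_lit 5) (nat_lit 381) (nat_lit 5) (nat_lit 573) (nat_lit 520) (nat_lit 467)) (XT.nd (nat_lit 78) (nat_lit 836) (nat_lit 0) (XT.lf (nat_lit 0) (nat_lit 5349936610) (nat_lit 760) (nat_lit 2455017762) (nat_lit 836) (nat_lit 508527615) (nat_lit 370) (nat_lit 5) (nat_lit 380) (nat_lit 5) (nat_lit 381) (nat_lit 5) (nat_lit 574) (nat_lit 520) (nat_lit 466)) (XT.lf (nat_lit 0) (nat_lit 2108999719) (nat_lit 836) (nat_lit 5719725298) (nat_lit 76) (nat_lit 556139770) (nat_lit 359) (nat_lit 5) (nat_lit 370) (nat_lit 5) (nat_lit 360) (nat_lit 5) (nat_lit 575) (nat_lit 520) (nat_lit 465))))) (XT.nd (nat_lit 156) (nat_lit 1520) (nat_lit 0) (XT.nd (nat_lit 78) (nat_lit 684) (nat_lit 0) (XT.lf (nat_lit 0) (nat_lit 4769422825) (nat_lit 836) (nat_lit 75433000) (nat_lit 76) (nat_lit 3612807369)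 (nat_lit 359) (nat_lit 5) (nat_lit 370) (nat_lit 5) (nat_lit 360) (nat_lit 5) (nat_lit 576) (nat_lit 520) (nat_lit 464)) (XT.lf (nat_lit 0) (nat_lit 5712581027) (nat_lit 684) (nat_lit 1769397541) (nat_lit 760) (nat_lit 1049962739) (nat_lit 350) (nat_lit 5) (nat_lit 359) (nat_lit 5) (nat_lit 360) (nat_lit 5) (nat_lit 577) (nat_lit 520) (nat_lit 463))) (XT.nd (nat_lit 78) (nat_lit 684) (nat_lit 0) (XT.lf (nat_lit 0) (nat_lit 1610592992) (nat_lit 836) (nat_lit 5622905504) (nat_lit 76) (nat_lit 1374174809) (nat_lit 339) (nat_lit 5) (nat_lit 350) (nat_lit 5) (nat_lit 340) (nat_lit 5) (nat_lit 578) (nat_lit 520) (nat_lit 462)) (XT.nd (nat_lit 78) (nat_lit 0) (nat_lit 0) (XT.lf (nat_lit 0) (nat_lit 197730420) (nat_lit 684) (nat_lit 4107092520) (nat_lit 760) (nat_lit 4380069850) (nat_lit 330) (nat_lit 5) (nat_lit 339) (nat_lit 5) (nat_lit 340) (nat_lit 5) (nat_lit 579) (nat_lit 520) (nat_lit 461)) (XT.lf (nat_lit 0) (nat_lit 6166572885) (nat_lit 684) (nat_lit 887007456) (nat_lit 760) (nat_lit 1710065519) (nat_lit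 330) (nat_lit 5) (nat_lit 339) (nat_lit 5) (nat_lit 340) (nat_lit 5) (nat_lit 580) (nat_lit 520) (nat_lit 460)))))) (XT.nd (nat_lit 390) (nat_lit 1900) (nat_lit 0) (XT.nd (nat_lit 156) (nat_lit 1368) (nat_lit 0) (XT.nd (nat_lit 78) (nat_lit 608) (nat_lit 0) (XT.lf (nat_lit 0) (nat_lit 1001257681) (nat_lit 760) (nat_lit 5454991374) (nat_lit 76) (nat_lit 2387571146) (nat_lit 320) (nat_lit 5) (nat_lit 330) (nat_lit 5) (nat_lit 321) (nat_lit 5) (nat_lit 581) (nat_lit 520) (nat_lit 459)) (XT.lf (nat_lit 0) (nat_lit 549870416) (nat_lit 608) (nat_lit 3184827142) (nat_lit 684) (nat_lit 5190860575) (nat_lit 312) (nat_lit 5) (nat_lit 320) (nat_lit 5) (nat_lit 321) (nat_lit 5) (nat_lit 582) (nat_lit 520) (nat_lit 458))) (XT.nd (nat_lit 78) (nat_lit 1368) (nat_lit 0) (XT.lf (nat_lit 0) (nat_lit 6524790144) (nat_lit 684) (nat_lit 2305456127) (nat_lit 76) (nat_lit 178646769) (nat_lit 312) (nat_lit 5) (nat_lit 321) (nat_lit 5) (nat_lit 313) (nat_lit 5) (nat_lit 583) (nat_lit 520) (nat_lit 457)) (XT.nd (nat_lit 78) (nat_lit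 608) (nat_lit 0) (XT.lf (nat_lit 0) (nat_lit 284313721) (nat_lit 760) (nat_lit 5223598332) (nat_lit 76) (nat_lit 3585725395) (nat_lit 302) (nat_lit 5) (nat_lit 312) (nat_lit 5) (nat_lit 303) (nat_lit 5) (nat_lit 584) (nat_lit 520) (nat_lit 456)) (XT.lf (nat_lit 0) (nat_lit 972630349) (nat_lit 608) (nat_lit 2089151081) (nat_lit 684) (nat_lit 6118229804) (nat_lit 294) (nat_lit 5) (nat_lit 302) (nat_lit 5) (nat_lit 303) (nat_lit 5) (nat_lit 585) (nat_lit 520) (nat_lit 455))))) (XT.nd (nat_lit 156) (nat_lit 1292) (nat_lit 0) (XT.nd (nat_lit 78) (nat_lit 608) (nat_lit 0) (XT.lf (nat_lit 0) (nat_lit 5904527292) (nat_lit 684) (nat_lit 1957572878) (nat_lit 76) (nat_lit 1405819502) (nat_lit 294) (nat_lit 5) (nat_lit 303) (nat_lit 5) (nat_lit 295) (nat_lit 5) (nat_lit 586) (nat_lit 520) (nat_lit 454)) (XT.lf (nat_lit 0) (nat_lit 4417763543) (nat_lit 608) (nat_lit 4394929013) (nat_lit 684) (nat_lit 544724151) (nat_lit 286) (nat_lit 5) (nat_lit 294) (nat_lit 5) (nat_lit 295) (nat_lit 5) (nat_lit 587) (nat_lit 520)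 (nat_lit 453))) (XT.nd (nat_lit 78) (nat_lit 608) (nat_lit 0) (XT.lf (nat_lit 0) (nat_lit 1458881528) (nat_lit 608) (nat_lit 829775498) (nat_lit 684) (nat_lit 7159967665) (nat_lit 277) (nat_lit 5) (nat_lit 285) (nat_lit 5) (nat_lit 286) (nat_lit 5) (nat_lit 588) (nat_lit 520) (nat_lit 452)) (XT.nd (nat_lit 78) (nat_lit 608) (nat_lit 0) (XT.lf (nat_lit 0) (nat_lit 5189530926) (nat_lit 684) (nat_lit 1554751604) (nat_lit 76) (nat_lit 2796941531) (nat_lit 277) (nat_lit 5) (nat_lit 286) (nat_lit 5) (nat_lit 278) (nat_lit 5) (nat_lit 589) (nat_lit 520) (nat_lit 451)) (XT.lf (nat_lit 0) (nat_lit 5026174417) (nat_lit 608) (nat_lit 3127554884) (nat_lit 684) (nat_lit 1481841565) (nat_lit 269) (nat_lit 5) (nat_lit 277) (nat_lit 5) (nat_lit 278) (nat_lit 5) (nat_lit 590) (nat_lit 520) (nat_lit 450))))))) (XT.nd (nat_lit 780) (nat_lit 3192) (nat_lit 0) (XT.nd (nat_lit 390) (nat_lit 2052) (nat_lit 0) (XT.nd (nat_lit 156) (nat_lit 1140) (nat_lit 0) (XT.nd (nat_lit 78) (nat_lit 0) (nat_lit 0) (XT.lf (nat_lit 0) (nat_lit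 1421069864) (nat_lit 608) (nat_lit 7733940532) (nat_lit 76) (nat_lit 576715653) (nat_lit 261) (nat_lit 5) (nat_lit 269) (nat_lit 5) (nat_lit 262) (nat_lit 5) (nat_lit 591) (nat_lit 520) (nat_lit 449)) (XT.lf (nat_lit 0) (nat_lit 4381683205) (nat_lit 608) (nat_lit 1103957425) (nat_lit 76) (nat_lit 4343579590) (nat_lit 261) (nat_lit 5) (nat_lit 269) (nat_lit 5) (nat_lit 262) (nat_lit 5) (nat_lit 592) (nat_lit 520) (nat_lit 448))) (XT.nd (nat_lit 78) (nat_lit 608) (nat_lit 0) (XT.lf (nat_lit 0) (nat_lit 5690478784) (nat_lit 532) (nat_lit 1716229715) (nat_lit 608) (nat_lit 2521853248) (nat_lit 254) (nat_lit 5) (nat_lit 261) (nat_lit 5) (nat_lit 262) (nat_lit 5) (nat_lit 593) (nat_lit 520) (nat_lit 447)) (XT.nd (nat_lit 78) (nat_lit 0) (nat_lit 0) (XT.lf (nat_lit 0) (nat_lit 462898132) (nat_lit 608) (nat_lit 7449826283) (nat_lit 76) (nat_lit 2116974708) (nat_lit 246) (nat_lit 5) (nat_lit 254) (nat_lit 5) (nat_lit 247) (nat_lit 5) (nat_lit 594) (nat_lit 520) (nat_lit 446)) (XT.lf (nat_lit 0) (nat_lit 3482262041)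 (nat_lit 608) (nat_lit 612098272) (nat_lit 76) (nat_lit 6037993224) (nat_lit 246) (nat_lit 5) (nat_lit 254) (nat_lit 5) (nat_lit 247) (nat_lit 5) (nat_lit 595) (nat_lit 520) (nat_lit 445))))) (XT.nd (nat_lit 156) (nat_lit 1064) (nat_lit 0) (XT.nd (nat_lit 78) (nat_lit 456) (nat_lit 0) (XT.lf (nat_lit 0) (nat_lit 6404032379) (nat_lit 532) (nat_lit 168834270) (nat_lit 608) (nat_lit 3663978676) (nat_lit 239) (nat_lit 5) (nat_lit 246) (nat_lit 5) (nat_lit 247) (nat_lit 5) (nat_lit 596) (nat_lit 520) (nat_lit 444)) (XT.lf (nat_lit 0) (nat_lit 3199880225) (nat_lit 456) (nat_lit 6544742058) (nat_lit 532) (nat_lit 598419213) (nat_lit 233) (nat_lit 5) (nat_lit 239) (nat_lit 5) (nat_lit 240) (nat_lit 5) (nat_lit 597) (nat_lit 520) (nat_lit 443))) (XT.nd (nat_lit 78) (nat_lit 988) (nat_lit 0) (XT.lf (nat_lit 0) (nat_lit 2491948581) (nat_lit 532) (nat_lit 86091235) (nat_lit 76) (nat_lit 7873061561) (nat_lit 232) (nat_lit 5) (nat_lit 239) (nat_lit 5) (nat_lit 233) (nat_lit 5) (nat_lit 598) (nat_lit 520) (nat_lit 442))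 (XT.nd (nat_lit 78) (nat_lit 456) (nat_lit 0) (XT.lf (nat_lit 0) (nat_lit 5662638321) (nat_lit 608) (nat_lit 3410515737) (nat_lit 76) (nat_lit 1487559987) (nat_lit 225) (nat_lit 5) (nat_lit 233) (nat_lit 5) (nat_lit 226) (nat_lit 5) (nat_lit 599) (nat_lit 520) (nat_lit 441)) (XT.lf (nat_lit 0) (nat_lit 3851186154) (nat_lit 456) (nat_lit 5058693822) (nat_lit 532) (nat_lit 1762377454) (nat_lit 219) (nat_lit 5) (nat_lit 225) (nat_lit 5) (nat_lit 226) (nat_lit 5) (nat_lit 600) (nat_lit 520) (nat_lit 440)))))) (XT.nd (nat_lit 390) (nat_lit 1672) (nat_lit 0) (XT.nd (nat_lit 156) (nat_lit 988) (nat_lit 0) (XT.nd (nat_lit 78) (nat_lit 0) (nat_lit 0) (XT.lf (nat_lit 0) (nat_lit 473276385) (nat_lit 456) (nat_lit 940626818) (nat_lit 532) (nat_lit 9372009141) (nat_lit 212) (nat_lit 5) (nat_lit 218) (nat_lit 5) (nat_lit 219) (nat_lit 5) (nat_lit 601) (nat_lit 520) (nat_lit 439)) (XT.lf (nat_lit 0) (nat_lit 4668186523) (nat_lit 532) (nat_lit 2970547749) (nat_lit 76) (nat_lit 3262112748) (nat_lit 212) (nat_lit 5) (nat_lit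 219) (nat_lit 5) (nat_lit 213) (nat_lit 5) (nat_lit 602) (nat_lit 520) (nat_lit 438))) (XT.nd (nat_lit 78) (nat_lit 532) (nat_lit 0) (XT.lf (nat_lit 0) (nat_lit 4529940392) (nat_lit 456) (nat_lit 3464640437) (nat_lit 532) (nat_lit 3023360186) (nat_lit 206) (nat_lit 5) (nat_lit 212) (nat_lit 5) (nat_lit 213) (nat_lit 5) (nat_lit 603) (nat_lit 520) (nat_lit 437)) (XT.nd (nat_lit 78) (nat_lit 0) (nat_lit 0) (XT.lf (nat_lit 0) (nat_lit 250495306) (nat_lit 532) (nat_lit 10088563696) (nat_lit 76) (nat_lit 798213506) (nat_lit 199) (nat_lit 5) (nat_lit 206) (nat_lit 5) (nat_lit 200) (nat_lit 5) (nat_lit 604) (nat_lit 520) (nat_lit 436)) (XT.lf (nat_lit 0) (nat_lit 3587846377) (nat_lit 532) (nat_lit 2519210792) (nat_lit 76) (nat_lit 5150764815) (nat_lit 199) (nat_lit 5) (nat_lit 206) (nat_lit 5) (nat_lit 200) (nat_lit 5) (nat_lit 605) (nat_lit 520) (nat_lit 435))))) (XT.nd (nat_lit 156) (nat_lit 836) (nat_lit 0) (XT.nd (nat_lit 78) (nat_lit 456) (nat_lit 0) (XT.lf (nat_lit 0) (nat_lit 5228995947) (nat_lit 380) (nat_lit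 1769146229) (nat_lit 456) (nat_lit 4382517366) (nat_lit 194) (nat_lit 5) (nat_lit 199) (nat_lit 5) (nat_lit 200) (nat_lit 5) (nat_lit 606) (nat_lit 520) (nat_lit 434)) (XT.lf (nat_lit 0) (nat_lit 1623330880) (nat_lit 456) (nat_lit 8870551148) (nat_lit 532) (nat_lit 1011728088) (nat_lit 188) (nat_lit 5) (nat_lit 194) (nat_lit 5) (nat_lit 195) (nat_lit 5) (nat_lit 607) (nat_lit 520) (nat_lit 433))) (XT.nd (nat_lit 78) (nat_lit 760) (nat_lit 0) (XT.lf (nat_lit 0) (nat_lit 2420455849) (nat_lit 532) (nat_lit 2064165236) (nat_lit 76) (nat_lit 7147608465) (nat_lit 187) (nat_lit 5) (nat_lit 194) (nat_lit 5) (nat_lit 188) (nat_lit 5) (nat_lit 608) (nat_lit 520) (nat_lit 432)) (XT.nd (nat_lit 78) (nat_lit 380) (nat_lit 0) (XT.lf (nat_lit 0) (nat_lit 5919532165) (nat_lit 456) (nat_lit 5820216201) (nat_lit 76) (nat_lit 21264310) (nat_lit 182) (nat_lit 5) (nat_lit 188) (nat_lit 5) (nat_lit 183) (nat_lit 5) (nat_lit 609) (nat_lit 520) (nat_lit 431)) (XT.lf (nat_lit 0) (nat_lit 2200039315) (nat_lit 380) (nat_lit 7319725867)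 (nat_lit 456) (nat_lit 2371983725) (nat_lit 177) (nat_lit 5) (nat_lit 182) (nat_lit 5) (nat_lit 183) (nat_lit 5) (nat_lit 610) (nat_lit 520) (nat_lit 430))))))))
noncomputable def xc67 : XT := (XT.nd (nat_lit 75036) (nat_lit 0) (nat_lit 34428) (XT.nd (nat_lit 74256) (nat_lit 0) (nat_lit 46892) (XT.nd (nat_lit 390) (nat_lit 1140) (nat_lit 0) (XT.nd (nat_lit 156) (nat_lit 836) (nat_lit 0) (XT.nd (nat_lit 78) (nat_lit 380) (nat_lit 0) (XT.lf (nat_lit 0) (nat_lit 1164247691) (nat_lit 456) (nat_lit 1613412960) (nat_lit 76) (nat_lit 9247035623) (nat_lit 176) (nat_lit 5) (nat_lit 182) (nat_lit 5) (nat_lit 177) (nat_lit 5) (nat_lit 611) (nat_lit 520) (nat_lit 429)) (XT.lf (nat_lit 0) (nat_lit 4768902609) (nat_lit 456) (nat_lit 5513983731) (nat_lit 76) (nat_lit 1876514368) (nat_lit 171) (nat_lit 5) (nat_lit 177) (nat_lit 5) (nat_lit 172) (nat_lit 5) (nat_lit 612) (nat_lit 520) (nat_lit 428))) (XT.nd (nat_lit 78) (nat_lit 456) (nat_lit 0) (XT.lf (nat_lit 0) (nat_lit 2772386975) (nat_lit 380) (nat_lit 5694577859)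 (nat_lit 456) (nat_lit 3829408990) (nat_lit 166) (nat_lit 5) (nat_lit 171) (nat_lit 5) (nat_lit 172) (nat_lit 5) (nat_lit 613) (nat_lit 520) (nat_lit 427)) (XT.nd (nat_lit 78) (nat_lit 456) (nat_lit 0) (XT.lf (nat_lit 0) (nat_lit 11259275557) (nat_lit 380) (nat_lit 990984861) (nat_lit 456) (nat_lit 185601400) (nat_lit 166) (nat_lit 5) (nat_lit 171) (nat_lit 5) (nat_lit 172) (nat_lit 5) (nat_lit 614) (nat_lit 520) (nat_lit 426)) (XT.lf (nat_lit 0) (nat_lit 3532335219) (nat_lit 456) (nat_lit 5230311552) (nat_lit 76) (nat_lit 3814083830) (nat_lit 160) (nat_lit 5) (nat_lit 166) (nat_lit 5) (nat_lit 161) (nat_lit 5) (nat_lit 615) (nat_lit 520) (nat_lit 425))))) (XT.nd (nat_lit 156) (nat_lit 760) (nat_lit 0) (XT.nd (nat_lit 78) (nat_lit 0) (nat_lit 0) (XT.lf (nat_lit 0) (nat_lit 3331766738) (nat_lit 380) (nat_lit 4001282151) (nat_lit 456) (nat_lit 5387126074) (nat_lit 155) (nat_lit 5) (nat_lit 160) (nat_lit 5) (nat_lit 161) (nat_lit 5) (nat_lit 616) (nat_lit 520) (nat_lit 424)) (XT.lf (nat_lit 0) (nat_lit 11225564844)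 (nat_lit 456) (nat_lit 775393809) (nat_lit 76) (nat_lit 865214592) (nat_lit 155) (nat_lit 5) (nat_lit 161) (nat_lit 5) (nat_lit 156) (nat_lit 5) (nat_lit 617) (nat_lit 520) (nat_lit 423))) (XT.nd (nat_lit 78) (nat_lit 380) (nat_lit 0) (XT.lf (nat_lit 0) (nat_lit 2206755754) (nat_lit 380) (nat_lit 4978594748) (nat_lit 76) (nat_lit 5828368199) (nat_lit 150) (nat_lit 5) (nat_lit 155) (nat_lit 5) (nat_lit 151) (nat_lit 5) (nat_lit 618) (nat_lit 520) (nat_lit 422)) (XT.nd (nat_lit 73554) (nat_lit 0) (nat_lit 48412) (XT.lf (nat_lit 0) (nat_lit 3868998676) (nat_lit 380) (nat_lit 2245943983) (nat_lit 456) (nat_lit 7048939403) (nat_lit 145) (nat_lit 5) (nat_lit 150) (nat_lit 5) (nat_lit 151) (nat_lit 5) (nat_lit 619) (nat_lit 520) (nat_lit 421)) (XT.lf (nat_lit 0) (nat_lit 1580090461) (nat_lit 0) (nat_lit 1580090461) (nat_lit 76) (nat_lit 61886423) (nat_lit 782) (nat_lit 5) (nat_lit 782) (nat_lit 3) (nat_lit 783) (nat_lit 0) (nat_lit 521) (nat_lit 521) (nat_lit 518)))))) (XT.nd (nat_lit 390) (nat_lit 760) (nat_lit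 0) (XT.nd (nat_lit 156) (nat_lit 532) (nat_lit 0) (XT.nd (nat_lit 78) (nat_lit 0) (nat_lit 0) (XT.lf (nat_lit 0) (nat_lit 2954555344) (nat_lit 228) (nat_lit 80432052) (nat_lit 228) (nat_lit 3411686855) (nat_lit 779) (nat_lit 3) (nat_lit 782) (nat_lit 3) (nat_lit 782) (nat_lit 5) (nat_lit 522) (nat_lit 521) (nat_lit 517)) (XT.lf (nat_lit 76) (nat_lit 3186958317) (nat_lit 0) (nat_lit 2845792744) (nat_lit 228) (nat_lit 417707445) (nat_lit 780) (nat_lit 5) (nat_lit 779) (nat_lit 3) (nat_lit 782) (nat_lit 5) (nat_lit 523) (nat_lit 521) (nat_lit 516))) (XT.nd (nat_lit 78) (nat_lit 304) (nat_lit 0) (XT.lf (nat_lit 76) (nat_lit 6937933) (nat_lit 0) (nat_lit 2596240345) (nat_lit 304) (nat_lit 3852383552) (nat_lit 777) (nat_lit 5) (nat_lit 776) (nat_lit 5) (nat_lit 780) (nat_lit 5) (nat_lit 524) (nat_lit 521) (nat_lit 515)) (XT.nd (nat_lit 78) (nat_lit 304) (nat_lit 0) (XT.lf (nat_lit 76) (nat_lit 3342515273) (nat_lit 0) (nat_lit 2279604355) (nat_lit 304) (nat_lit 839736637) (nat_lit 777) (nat_lit 5) (nat_lit 776)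 (nat_lit 5) (nat_lit 780) (nat_lit 5) (nat_lit 525) (nat_lit 521) (nat_lit 514)) (XT.lf (nat_lit 76) (nat_lit 223026804) (nat_lit 0) (nat_lit 1904663280) (nat_lit 380) (nat_lit 4341828759) (nat_lit 773) (nat_lit 5) (nat_lit 772) (nat_lit 5) (nat_lit 777) (nat_lit 5) (nat_lit 526) (nat_lit 521) (nat_lit 513))))) (XT.nd (nat_lit 156) (nat_lit 380) (nat_lit 0) (XT.nd (nat_lit 78) (nat_lit 380) (nat_lit 0) (XT.lf (nat_lit 76) (nat_lit 3627239579) (nat_lit 0) (nat_lit 1460506989) (nat_lit 380) (nat_lit 1390594958) (nat_lit 773) (nat_lit 5) (nat_lit 772) (nat_lit 5) (nat_lit 777) (nat_lit 5) (nat_lit 527) (nat_lit 521) (nat_lit 512)) (XT.lf (nat_lit 76) (nat_lit 567275925) (nat_lit 0) (nat_lit 959441152) (nat_lit 456) (nat_lit 4961855399) (nat_lit 768) (nat_lit 5) (nat_lit 767) (nat_lit 5) (nat_lit 773) (nat_lit 5) (nat_lit 528) (nat_lit 521) (nat_lit 511))) (XT.nd (nat_lit 78) (nat_lit 380) (nat_lit 0) (XT.lf (nat_lit 76) (nat_lit 4041768442) (nat_lit 0) (nat_lit 386896958) (nat_lit 456) (nat_lit 2071268497)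 (nat_lit 768) (nat_lit 5) (nat_lit 767) (nat_lit 5) (nat_lit 773) (nat_lit 5) (nat_lit 529) (nat_lit 521) (nat_lit 510)) (XT.nd (nat_lit 78) (nat_lit 0) (nat_lit 0) (XT.lf (nat_lit 0) (nat_lit 800734346) (nat_lit 456) (nat_lit 5473867176) (nat_lit 76) (nat_lit 238112552) (nat_lit 762) (nat_lit 5) (nat_lit 768) (nat_lit 5) (nat_lit 763) (nat_lit 5) (nat_lit 530) (nat_lit 521) (nat_lit 509)) (XT.lf (nat_lit 0) (nat_lit 3649787061) (nat_lit 456) (nat_lit 1945794472) (nat_lit 76) (nat_lit 930955053) (nat_lit 762) (nat_lit 5) (nat_lit 768) (nat_lit 5) (nat_lit 763) (nat_lit 5) (nat_lit 531) (nat_lit 521) (nat_lit 508))))))) (XT.nd (nat_lit 780) (nat_lit 8284) (nat_lit 0) (XT.nd (nat_lit 390) (nat_lit 2432) (nat_lit 0) (XT.nd (nat_lit 156) (nat_lit 1216) (nat_lit 0) (XT.nd (nat_lit 78) (nat_lit 76) (nat_lit 0) (XT.lf (nat_lit 0) (nat_lit 1631982025) (nat_lit 456) (nat_lit 4863994632) (nat_lit 532) (nat_lit 45863063) (nat_lit 756) (nat_lit 5) (nat_lit 762) (nat_lit 5) (nat_lit 763) (nat_lit 5) (nat_lit 532) (nat_lit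 521) (nat_lit 507)) (XT.lf (nat_lit 0) (nat_lit 2747718580) (nat_lit 532) (nat_lit 1310952197) (nat_lit 76) (nat_lit 2499549229) (nat_lit 755) (nat_lit 5) (nat_lit 762) (nat_lit 5) (nat_lit 756) (nat_lit 5) (nat_lit 533) (nat_lit 521) (nat_lit 506))) (XT.nd (nat_lit 78) (nat_lit 684) (nat_lit 0) (XT.lf (nat_lit 0) (nat_lit 2348350303) (nat_lit 532) (nat_lit 3195025961) (nat_lit 608) (nat_lit 1032616069) (nat_lit 748) (nat_lit 5) (nat_lit 755) (nat_lit 5) (nat_lit 756) (nat_lit 5) (nat_lit 534) (nat_lit 521) (nat_lit 505)) (XT.nd (nat_lit 78) (nat_lit 608) (nat_lit 0) (XT.lf (nat_lit 0) (nat_lit 1718252782) (nat_lit 608) (nat_lit 549792808) (nat_lit 76) (nat_lit 4327026397) (nat_lit 747) (nat_lit 5) (nat_lit 755) (nat_lit 5) (nat_lit 748) (nat_lit 5) (nat_lit 535) (nat_lit 521) (nat_lit 504)) (XT.lf (nat_lit 0) (nat_lit 3194805351) (nat_lit 608) (nat_lit 1269780806) (nat_lit 684) (nat_lit 2150731560) (nat_lit 739) (nat_lit 5) (nat_lit 747) (nat_lit 5) (nat_lit 748) (nat_lit 5) (nat_lit 536) (nat_lit 521)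 (nat_lit 503))))) (XT.nd (nat_lit 156) (nat_lit 1672) (nat_lit 0) (XT.nd (nat_lit 78) (nat_lit 0) (nat_lit 0) (XT.lf (nat_lit 0) (nat_lit 343771740) (nat_lit 684) (nat_lit 217902929) (nat_lit 760) (nat_lit 6075416965) (nat_lit 729) (nat_lit 5) (nat_lit 738) (nat_lit 5) (nat_lit 739) (nat_lit 5) (nat_lit 537) (nat_lit 521) (nat_lit 502)) (XT.lf (nat_lit 0) (nat_lit 3263491533) (nat_lit 760) (nat_lit 2492728678) (nat_lit 76) (nat_lit 903523377) (nat_lit 729) (nat_lit 5) (nat_lit 739) (nat_lit 5) (nat_lit 730) (nat_lit 5) (nat_lit 538) (nat_lit 521) (nat_lit 501))) (XT.nd (nat_lit 78) (nat_lit 912) (nat_lit 0) (XT.lf (nat_lit 0) (nat_lit 1357442620) (nat_lit 760) (nat_lit 4608704800) (nat_lit 836) (nat_lit 717771086) (nat_lit 719) (nat_lit 5) (nat_lit 729) (nat_lit 5) (nat_lit 730) (nat_lit 5) (nat_lit 539) (nat_lit 521) (nat_lit 500)) (XT.nd (nat_lit 78) (nat_lit 836) (nat_lit 0) (XT.lf (nat_lit 0) (nat_lit 1941794956) (nat_lit 836) (nat_lit 1446376233) (nat_lit 76) (nat_lit 3321071259) (nat_lit 718) (nat_lit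 5) (nat_lit 729) (nat_lit 5) (nat_lit 719) (nat_lit 5) (nat_lit 540) (nat_lit 521) (nat_lit 499)) (XT.lf (nat_lit 0) (nat_lit 2496816213) (nat_lit 836) (nat_lit 2102673352) (nat_lit 912) (nat_lit 2136403085) (nat_lit 707) (nat_lit 5) (nat_lit 718) (nat_lit 5) (nat_lit 719) (nat_lit 5) (nat_lit 541) (nat_lit 521) (nat_lit 498)))))) (XT.nd (nat_lit 390) (nat_lit 5168) (nat_lit 0) (XT.nd (nat_lit 156) (nat_lit 2128) (nat_lit 0) (XT.nd (nat_lit 78) (nat_lit 912) (nat_lit 0) (XT.lf (nat_lit 0) (nat_lit 488710653) (nat_lit 912) (nat_lit 271061001) (nat_lit 76) (nat_lit 6004266037) (nat_lit 706) (nat_lit 5) (nat_lit 718) (nat_lit 5) (nat_lit 707) (nat_lit 5) (nat_lit 542) (nat_lit 521) (nat_lit 497)) (XT.lf (nat_lit 0) (nat_lit 3106606487) (nat_lit 988) (nat_lit 3028102440) (nat_lit 76) (nat_lit 658381858) (nat_lit 694) (nat_lit 5) (nat_lit 707) (nat_lit 5) (nat_lit 695) (nat_lit 5) (nat_lit 543) (nat_lit 521) (nat_lit 496))) (XT.nd (nat_lit 78) (nat_lit 1140) (nat_lit 0) (XT.lf (nat_lit 0) (nat_lit 1027966734)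 (nat_lit 988) (nat_lit 4703499336) (nat_lit 1064) (nat_lit 1092171959) (nat_lit 681) (nat_lit 5) (nat_lit 694) (nat_lit 5) (nat_lit 695) (nat_lit 5) (nat_lit 544) (nat_lit 521) (nat_lit 495)) (XT.nd (nat_lit 78) (nat_lit 1064) (nat_lit 0) (XT.lf (nat_lit 0) (nat_lit 1495656270) (nat_lit 1064) (nat_lit 1702123521) (nat_lit 76) (nat_lit 3657579417) (nat_lit 680) (nat_lit 5) (nat_lit 694) (nat_lit 5) (nat_lit 681) (nat_lit 5) (nat_lit 545) (nat_lit 521) (nat_lit 494)) (XT.lf (nat_lit 0) (nat_lit 2455409158) (nat_lit 1064) (nat_lit 1623865745) (nat_lit 1140) (nat_lit 2809127266) (nat_lit 666) (nat_lit 5) (nat_lit 680) (nat_lit 5) (nat_lit 681) (nat_lit 5) (nat_lit 546) (nat_lit 521) (nat_lit 493))))) (XT.nd (nat_lit 234) (nat_lit 2736) (nat_lit 0) (XT.nd (nat_lit 78) (nat_lit 2432) (nat_lit 0) (XT.lf (nat_lit 0) (nat_lit 6669583123) (nat_lit 1140) (nat_lit 246466252) (nat_lit 76) (nat_lit 6961080) (nat_lit 666) (nat_lit 5) (nat_lit 681) (nat_lit 5) (nat_lit 667) (nat_lit 5) (nat_lit 547) (nat_lit 521) (nat_lit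 492)) (XT.nd (nat_lit 78) (nat_lit 1216) (nat_lit 0) (XT.lf (nat_lit 0) (nat_lit 2304012737) (nat_lit 1216) (nat_lit 2950983216) (nat_lit 76) (nat_lit 1703384158) (nat_lit 650) (nat_lit 5) (nat_lit 666) (nat_lit 5) (nat_lit 651) (nat_lit 5) (nat_lit 548) (nat_lit 521) (nat_lit 491)) (XT.lf (nat_lit 0) (nat_lit 1327586471) (nat_lit 1216) (nat_lit 3537095171) (nat_lit 1292) (nat_lit 2130637077) (nat_lit 634) (nat_lit 5) (nat_lit 650) (nat_lit 5) (nat_lit 651) (nat_lit 5) (nat_lit 549) (nat_lit 521) (nat_lit 490)))) (XT.nd (nat_lit 78) (nat_lit 2660) (nat_lit 0) (XT.lf (nat_lit 0) (nat_lit 403302754) (nat_lit 1292) (nat_lit 1347713741) (nat_lit 76) (nat_lit 5282615314) (nat_lit 633) (nat_lit 5) (nat_lit 650) (nat_lit 5) (nat_lit 634) (nat_lit 5) (nat_lit 550) (nat_lit 521) (nat_lit 489)) (XT.nd (nat_lit 78) (nat_lit 1368) (nat_lit 0) (XT.lf (nat_lit 0) (nat_lit 2926602201) (nat_lit 1368) (nat_lit 4032342665) (nat_lit 76) (nat_lit 114144694) (nat_lit 616) (nat_lit 5) (nat_lit 634) (nat_lit 5) (nat_lit 617)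 (nat_lit 5) (nat_lit 551) (nat_lit 521) (nat_lit 488)) (XT.lf (nat_lit 0) (nat_lit 371497503) (nat_lit 1368) (nat_lit 5099499175) (nat_lit 1444) (nat_lit 1642931393) (nat_lit 598) (nat_lit 5) (nat_lit 616) (nat_lit 5) (nat_lit 617) (nat_lit 5) (nat_lit 552) (nat_lit 521) (nat_lit 487))))))))
noncomputable def xc68 : XT := (XT.nd (nat_lit 1560) (nat_lit 9044) (nat_lit 0) (XT.nd (nat_lit 780) (nat_lit 6460) (nat_lit 0) (XT.nd (nat_lit 390) (nat_lit 5396) (nat_lit 0) (XT.nd (nat_lit 156) (nat_lit 3192) (nat_lit 0) (XT.nd (nat_lit 78) (nat_lit 1444) (nat_lit 0) (XT.lf (nat_lit 0) (nat_lit 873907068) (nat_lit 1444) (nat_lit 2287276729) (nat_lit 76) (nat_lit 3994782217) (nat_lit 597) (nat_lit 5) (nat_lit 616) (nat_lit 5) (nat_lit 598) (nat_lit 5) (nat_lit 553) (nat_lit 521) (nat_lit 486)) (XT.lf (nat_lit 0) (nat_lit 2232023768) (nat_lit 1444) (nat_lit 1150510233) (nat_lit 1520) (nat_lit 3816828455) (nat_lit 578) (nat_lit 5) (nat_lit 597) (nat_lit 5) (nat_lit 598) (nat_lit 5) (nat_lit 554) (nat_lit 521) (nat_lit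 485))) (XT.nd (nat_lit 78) (nat_lit 3192) (nat_lit 0) (XT.lf (nat_lit 0) (nat_lit 5912336855) (nat_lit 1520) (nat_lit 420674615) (nat_lit 76) (nat_lit 911199156) (nat_lit 578) (nat_lit 5) (nat_lit 598) (nat_lit 5) (nat_lit 579) (nat_lit 5) (nat_lit 555) (nat_lit 521) (nat_lit 484)) (XT.nd (nat_lit 78) (nat_lit 1596) (nat_lit 0) (XT.lf (nat_lit 0) (nat_lit 1172627690) (nat_lit 1596) (nat_lit 3076548811) (nat_lit 76) (nat_lit 3040914344) (nat_lit 557) (nat_lit 5) (nat_lit 578) (nat_lit 5) (nat_lit 558) (nat_lit 5) (nat_lit 556) (nat_lit 521) (nat_lit 483)) (XT.lf (nat_lit 0) (nat_lit 1577537240) (nat_lit 1596) (nat_lit 2096004224) (nat_lit 1672) (nat_lit 3663891654) (nat_lit 536) (nat_lit 5) (nat_lit 557) (nat_lit 5) (nat_lit 558) (nat_lit 5) (nat_lit 557) (nat_lit 521) (nat_lit 482))))) (XT.nd (nat_lit 156) (nat_lit 3648) (nat_lit 0) (XT.nd (nat_lit 78) (nat_lit 1748) (nat_lit 0) (XT.lf (nat_lit 0) (nat_lit 6197671908) (nat_lit 1672) (nat_lit 1064028810) (nat_lit 76) (nat_lit 124561124) (nat_lit 536) (nat_lit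 5) (nat_lit 558) (nat_lit 5) (nat_lit 537) (nat_lit 5) (nat_lit 558) (nat_lit 521) (nat_lit 481)) (XT.lf (nat_lit 0) (nat_lit 1309354679) (nat_lit 1748) (nat_lit 3727715366) (nat_lit 76) (nat_lit 2399013786) (nat_lit 513) (nat_lit 5) (nat_lit 536) (nat_lit 5) (nat_lit 514) (nat_lit 5) (nat_lit 559) (nat_lit 521) (nat_lit 480))) (XT.nd (nat_lit 78) (nat_lit 1900) (nat_lit 0) (XT.lf (nat_lit 0) (nat_lit 1066128774) (nat_lit 1748) (nat_lit 2742384541) (nat_lit 1824) (nat_lit 3678891775) (nat_lit 490) (nat_lit 5) (nat_lit 513) (nat_lit 5) (nat_lit 514) (nat_lit 5) (nat_lit 560) (nat_lit 521) (nat_lit 479)) (XT.nd (nat_lit 78) (nat_lit 1900) (nat_lit 0) (XT.lf (nat_lit 0) (nat_lit 5962855825) (nat_lit 1748) (nat_lit 373498287) (nat_lit 1824) (nat_lit 1203827982) (nat_lit 490) (nat_lit 5) (nat_lit 513) (nat_lit 5) (nat_lit 514) (nat_lit 5) (nat_lit 561) (nat_lit 521) (nat_lit 478)) (XT.lf (nat_lit 0) (nat_lit 1292970677) (nat_lit 1900) (nat_lit 4252148310) (nat_lit 76) (nat_lit 2048936217) (nat_lit 465) (nat_lit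 5) (nat_lit 490) (nat_lit 5) (nat_lit 466) (nat_lit 5) (nat_lit 562) (nat_lit 521) (nat_lit 477)))))) (XT.nd (nat_lit 390) (nat_lit 3496) (nat_lit 0) (XT.nd (nat_lit 156) (nat_lit 1900) (nat_lit 0) (XT.nd (nat_lit 78) (nat_lit 0) (nat_lit 0) (XT.lf (nat_lit 0) (nat_lit 686686506) (nat_lit 1064) (nat_lit 3109420394) (nat_lit 1140) (nat_lit 3853292423) (nat_lit 451) (nat_lit 5) (nat_lit 465) (nat_lit 5) (nat_lit 466) (nat_lit 5) (nat_lit 563) (nat_lit 521) (nat_lit 476)) (XT.lf (nat_lit 0) (nat_lit 5738310669) (nat_lit 1064) (nat_lit 595049092) (nat_lit 1140) (nat_lit 1372812536) (nat_lit 451) (nat_lit 5) (nat_lit 465) (nat_lit 5) (nat_lit 466) (nat_lit 5) (nat_lit 564) (nat_lit 521) (nat_lit 475))) (XT.nd (nat_lit 78) (nat_lit 912) (nat_lit 0) (XT.lf (nat_lit 0) (nat_lit 1131411487) (nat_lit 988) (nat_lit 4660487814) (nat_lit 76) (nat_lit 1972247836) (nat_lit 438) (nat_lit 5) (nat_lit 451) (nat_lit 5) (nat_lit 439) (nat_lit 5) (nat_lit 565) (nat_lit 521) (nat_lit 474)) (XT.nd (nat_lit 78) (nat_lit 0) (nat_lit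 0) (XT.lf (nat_lit 0) (nat_lit 428829879) (nat_lit 912) (nat_lit 3215226049) (nat_lit 988) (nat_lit 4179512574) (nat_lit 426) (nat_lit 5) (nat_lit 438) (nat_lit 5) (nat_lit 439) (nat_lit 5) (nat_lit 566) (nat_lit 521) (nat_lit 473)) (XT.lf (nat_lit 0) (nat_lit 5639454301) (nat_lit 912) (nat_lit 556022116) (nat_lit 988) (nat_lit 1688934234) (nat_lit 426) (nat_lit 5) (nat_lit 438) (nat_lit 5) (nat_lit 439) (nat_lit 5) (nat_lit 567) (nat_lit 521) (nat_lit 472))))) (XT.nd (nat_lit 156) (nat_lit 1748) (nat_lit 0) (XT.nd (nat_lit 78) (nat_lit 836) (nat_lit 0) (XT.lf (nat_lit 0) (nat_lit 831720633) (nat_lit 912) (nat_lit 4962720061) (nat_lit 76) (nat_lit 2152092454) (nat_lit 414) (nat_lit 5) (nat_lit 426) (nat_lit 5) (nat_lit 415) (nat_lit 5) (nat_lit 568) (nat_lit 521) (nat_lit 471)) (XT.lf (nat_lit 0) (nat_lit 282832208) (nat_lit 836) (nat_lit 3076391052) (nat_lit 912) (nat_lit 4650873222) (nat_lit 403) (nat_lit 5) (nat_lit 414) (nat_lit 5) (nat_lit 415) (nat_lit 5) (nat_lit 569) (nat_lit 521) (nat_lit 470)))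 (XT.nd (nat_lit 78) (nat_lit 1748) (nat_lit 0) (XT.lf (nat_lit 0) (nat_lit 5656953081) (nat_lit 836) (nat_lit 272504065) (nat_lit 912) (nat_lit 2145632916) (nat_lit 403) (nat_lit 5) (nat_lit 414) (nat_lit 5) (nat_lit 415) (nat_lit 5) (nat_lit 570) (nat_lit 521) (nat_lit 469)) (XT.nd (nat_lit 78) (nat_lit 836) (nat_lit 0) (XT.lf (nat_lit 0) (nat_lit 400098232) (nat_lit 912) (nat_lit 5168251571) (nat_lit 76) (nat_lit 2573067821) (nat_lit 391) (nat_lit 5) (nat_lit 403) (nat_lit 5) (nat_lit 392) (nat_lit 5) (nat_lit 571) (nat_lit 521) (nat_lit 468)) (XT.lf (nat_lit 0) (nat_lit 239546605) (nat_lit 836) (nat_lit 2708101513) (nat_lit 912) (nat_lit 5261549736) (nat_lit 380) (nat_lit 5) (nat_lit 391) (nat_lit 5) (nat_lit 392) (nat_lit 5) (nat_lit 572) (nat_lit 521) (nat_lit 467))))))) (XT.nd (nat_lit 780) (nat_lit 4484) (nat_lit 0) (XT.nd (nat_lit 390) (nat_lit 2280) (nat_lit 0) (XT.nd (nat_lit 156) (nat_lit 1520) (nat_lit 0) (XT.nd (nat_lit 78) (nat_lit 760) (nat_lit 0) (XT.lf (nat_lit 0) (nat_lit 5542810523) (nat_lit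 912) (nat_lit 2497951554) (nat_lit 76) (nat_lit 237640786) (nat_lit 380) (nat_lit 5) (nat_lit 392) (nat_lit 5) (nat_lit 381) (nat_lit 5) (nat_lit 573) (nat_lit 521) (nat_lit 466)) (XT.lf (nat_lit 0) (nat_lit 3061994207) (nat_lit 760) (nat_lit 5126864462) (nat_lit 836) (nat_lit 160156011) (nat_lit 370) (nat_lit 5) (nat_lit 380) (nat_lit 5) (nat_lit 381) (nat_lit 5) (nat_lit 574) (nat_lit 521) (nat_lit 465))) (XT.nd (nat_lit 78) (nat_lit 684) (nat_lit 0) (XT.lf (nat_lit 0) (nat_lit 290334728) (nat_lit 760) (nat_lit 2124253262) (nat_lit 836) (nat_lit 6006529662) (nat_lit 359) (nat_lit 5) (nat_lit 369) (nat_lit 5) (nat_lit 370) (nat_lit 5) (nat_lit 575) (nat_lit 521) (nat_lit 464)) (XT.nd (nat_lit 78) (nat_lit 684) (nat_lit 0) (XT.lf (nat_lit 0) (nat_lit 5042325130) (nat_lit 836) (nat_lit 2494523141) (nat_lit 76) (nat_lit 957722607) (nat_lit 359) (nat_lit 5) (nat_lit 370) (nat_lit 5) (nat_lit 360) (nat_lit 5) (nat_lit 576) (nat_lit 521) (nat_lit 463)) (XT.lf (nat_lit 0) (nat_lit 3239661458) (nat_lit 684) (nat_lit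 4480640144) (nat_lit 760) (nat_lit 849240052) (nat_lit 350) (nat_lit 5) (nat_lit 359) (nat_lit 5) (nat_lit 360) (nat_lit 5) (nat_lit 577) (nat_lit 521) (nat_lit 462))))) (XT.nd (nat_lit 156) (nat_lit 1444) (nat_lit 0) (XT.nd (nat_lit 78) (nat_lit 0) (nat_lit 0) (XT.lf (nat_lit 0) (nat_lit 426997831) (nat_lit 760) (nat_lit 1337557635) (nat_lit 836) (nat_lit 6881575713) (nat_lit 339) (nat_lit 5) (nat_lit 349) (nat_lit 5) (nat_lit 350) (nat_lit 5) (nat_lit 578) (nat_lit 521) (nat_lit 461)) (XT.lf (nat_lit 0) (nat_lit 4430598813) (nat_lit 836) (nat_lit 2414111077) (nat_lit 76) (nat_lit 1879205522) (nat_lit 339) (nat_lit 5) (nat_lit 350) (nat_lit 5) (nat_lit 340) (nat_lit 5) (nat_lit 579) (nat_lit 521) (nat_lit 460))) (XT.nd (nat_lit 78) (nat_lit 760) (nat_lit 0) (XT.lf (nat_lit 0) (nat_lit 3501087220) (nat_lit 684) (nat_lit 3644385421) (nat_lit 760) (nat_lit 1657874509) (nat_lit 330) (nat_lit 5) (nat_lit 339) (nat_lit 5) (nat_lit 340) (nat_lit 5) (nat_lit 580) (nat_lit 521) (nat_lit 459)) (XT.nd (nat_lit 78)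 (nat_lit 0) (nat_lit 0) (XT.lf (nat_lit 0) (nat_lit 641709602) (nat_lit 684) (nat_lit 359640608) (nat_lit 760) (nat_lit 7883193741) (nat_lit 320) (nat_lit 5) (nat_lit 329) (nat_lit 5) (nat_lit 330) (nat_lit 5) (nat_lit 581) (nat_lit 521) (nat_lit 458)) (XT.lf (nat_lit 0) (nat_lit 3711305390) (nat_lit 760) (nat_lit 2264412889) (nat_lit 76) (nat_lit 2991034236) (nat_lit 320) (nat_lit 5) (nat_lit 330) (nat_lit 5) (nat_lit 321) (nat_lit 5) (nat_lit 582) (nat_lit 521) (nat_lit 457)))))) (XT.nd (nat_lit 390) (nat_lit 1900) (nat_lit 0) (XT.nd (nat_lit 156) (nat_lit 1216) (nat_lit 0) (XT.nd (nat_lit 78) (nat_lit 760) (nat_lit 0) (XT.lf (nat_lit 0) (nat_lit 3838837727) (nat_lit 608) (nat_lit 2629113551) (nat_lit 684) (nat_lit 2582805999) (nat_lit 312) (nat_lit 5) (nat_lit 320) (nat_lit 5) (nat_lit 321) (nat_lit 5) (nat_lit 583) (nat_lit 521) (nat_lit 456)) (XT.lf (nat_lit 0) (nat_lit 133272999) (nat_lit 760) (nat_lit 8214928247) (nat_lit 76) (nat_lit 788386782) (nat_lit 302) (nat_lit 5) (nat_lit 312) (nat_lit 5)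 (nat_lit 303) (nat_lit 5) (nat_lit 584) (nat_lit 521) (nat_lit 455))) (XT.nd (nat_lit 78) (nat_lit 1216) (nat_lit 0) (XT.lf (nat_lit 0) (nat_lit 2887451161) (nat_lit 760) (nat_lit 2052859594) (nat_lit 76) (nat_lit 4283117717) (nat_lit 302) (nat_lit 5) (nat_lit 312) (nat_lit 5) (nat_lit 303) (nat_lit 5) (nat_lit 585) (nat_lit 521) (nat_lit 454)) (XT.nd (nat_lit 78) (nat_lit 608) (nat_lit 0) (XT.lf (nat_lit 0) (nat_lit 4245746222) (nat_lit 608) (nat_lit 1444916528) (nat_lit 684) (nat_lit 3621465696) (nat_lit 294) (nat_lit 5) (nat_lit 302) (nat_lit 5) (nat_lit 303) (nat_lit 5) (nat_lit 586) (nat_lit 521) (nat_lit 453)) (XT.lf (nat_lit 0) (nat_lit 1255717364) (nat_lit 608) (nat_lit 7296719866) (nat_lit 684) (nat_lit 850116899) (nat_lit 286) (nat_lit 5) (nat_lit 294) (nat_lit 5) (nat_lit 295) (nat_lit 5) (nat_lit 587) (nat_lit 521) (nat_lit 452))))) (XT.nd (nat_lit 156) (nat_lit 1216) (nat_lit 0) (XT.nd (nat_lit 78) (nat_lit 608) (nat_lit 0) (XT.lf (nat_lit 0) (nat_lit 1961396226) (nat_lit 684) (nat_lit 1786679777)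 (nat_lit 76) (nat_lit 5746244034) (nat_lit 285) (nat_lit 5) (nat_lit 294) (nat_lit 5) (nat_lit 286) (nat_lit 5) (nat_lit 588) (nat_lit 521) (nat_lit 451)) (XT.lf (nat_lit 0) (nat_lit 4714848696) (nat_lit 608) (nat_lit 101049401) (nat_lit 684) (nat_lit 4771949537) (nat_lit 277) (nat_lit 5) (nat_lit 285) (nat_lit 5) (nat_lit 286) (nat_lit 5) (nat_lit 589) (nat_lit 521) (nat_lit 450))) (XT.nd (nat_lit 78) (nat_lit 608) (nat_lit 0) (XT.lf (nat_lit 0) (nat_lit 1643253919) (nat_lit 608) (nat_lit 6098292654) (nat_lit 684) (nat_lit 1941419634) (nat_lit 269) (nat_lit 5) (nat_lit 277) (nat_lit 5) (nat_lit 278) (nat_lit 5) (nat_lit 590) (nat_lit 521) (nat_lit 449)) (XT.nd (nat_lit 78) (nat_lit 532) (nat_lit 0) (XT.lf (nat_lit 0) (nat_lit 934871409) (nat_lit 684) (nat_lit 1472963649) (nat_lit 76) (nat_lit 7371999707) (nat_lit 268) (nat_lit 5) (nat_lit 277) (nat_lit 5) (nat_lit 269) (nat_lit 5) (nat_lit 591) (nat_lit 521) (nat_lit 448)) (XT.lf (nat_lit 0) (nat_lit 3854380585) (nat_lit 608) (nat_lit 4648063925) (nat_lit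 76) (nat_lit 1375707235) (nat_lit 261) (nat_lit 5) (nat_lit 269) (nat_lit 5) (nat_lit 262) (nat_lit 5) (nat_lit 592) (nat_lit 521) (nat_lit 447))))))))
noncomputable def xc69 : XT := (XT.nd (nat_lit 1560) (nat_lit 1596) (nat_lit 0) (XT.nd (nat_lit 780) (nat_lit 3116) (nat_lit 0) (XT.nd (nat_lit 390) (nat_lit 2052) (nat_lit 0) (XT.nd (nat_lit 156) (nat_lit 1140) (nat_lit 0) (XT.nd (nat_lit 78) (nat_lit 0) (nat_lit 0) (XT.lf (nat_lit 0) (nat_lit 2078234966) (nat_lit 532) (nat_lit 4762309814) (nat_lit 608) (nat_lit 3137726425) (nat_lit 254) (nat_lit 5) (nat_lit 261) (nat_lit 5) (nat_lit 262) (nat_lit 5) (nat_lit 593) (nat_lit 521) (nat_lit 446)) (XT.lf (nat_lit 0) (nat_lit 8960402060) (nat_lit 532) (nat_lit 926436734) (nat_lit 608) (nat_lit 193547540) (nat_lit 254) (nat_lit 5) (nat_lit 261) (nat_lit 5) (nat_lit 262) (nat_lit 5) (nat_lit 594) (nat_lit 521) (nat_lit 445))) (XT.nd (nat_lit 78) (nat_lit 532) (nat_lit 0) (XT.lf (nat_lit 0) (nat_lit 2799711828) (nat_lit 608) (nat_lit 4391314852) (nat_lit 76) (nat_lit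 2992612729) (nat_lit 246) (nat_lit 5) (nat_lit 254) (nat_lit 5) (nat_lit 247) (nat_lit 5) (nat_lit 595) (nat_lit 521) (nat_lit 444)) (XT.nd (nat_lit 78) (nat_lit 0) (nat_lit 0) (XT.lf (nat_lit 0) (nat_lit 2553768539) (nat_lit 532) (nat_lit 3296636887) (nat_lit 608) (nat_lit 4438524648) (nat_lit 239) (nat_lit 5) (nat_lit 246) (nat_lit 5) (nat_lit 247) (nat_lit 5) (nat_lit 596) (nat_lit 521) (nat_lit 443)) (XT.lf (nat_lit 0) (nat_lit 8966288094) (nat_lit 608) (nat_lit 744801690) (nat_lit 76) (nat_lit 685154567) (nat_lit 239) (nat_lit 5) (nat_lit 247) (nat_lit 5) (nat_lit 240) (nat_lit 5) (nat_lit 597) (nat_lit 521) (nat_lit 442))))) (XT.nd (nat_lit 156) (nat_lit 988) (nat_lit 0) (XT.nd (nat_lit 78) (nat_lit 532) (nat_lit 0) (XT.lf (nat_lit 0) (nat_lit 1651654492) (nat_lit 532) (nat_lit 4109275141) (nat_lit 76) (nat_lit 4743876449) (nat_lit 232) (nat_lit 5) (nat_lit 239) (nat_lit 5) (nat_lit 233) (nat_lit 5) (nat_lit 598) (nat_lit 521) (nat_lit 441)) (XT.lf (nat_lit 0) (nat_lit 3062932671) (nat_lit 532) (nat_lit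 1708581420) (nat_lit 608) (nat_lit 5843921870) (nat_lit 225) (nat_lit 5) (nat_lit 232) (nat_lit 5) (nat_lit 233) (nat_lit 5) (nat_lit 599) (nat_lit 521) (nat_lit 440))) (XT.nd (nat_lit 78) (nat_lit 988) (nat_lit 0) (XT.lf (nat_lit 0) (nat_lit 7968330254) (nat_lit 608) (nat_lit 350659362) (nat_lit 76) (nat_lit 2408998837) (nat_lit 225) (nat_lit 5) (nat_lit 233) (nat_lit 5) (nat_lit 226) (nat_lit 5) (nat_lit 600) (nat_lit 521) (nat_lit 439)) (XT.nd (nat_lit 78) (nat_lit 456) (nat_lit 0) (XT.lf (nat_lit 0) (nat_lit 410033720) (nat_lit 532) (nat_lit 3809221164) (nat_lit 76) (nat_lit 6622911919) (nat_lit 218) (nat_lit 5) (nat_lit 225) (nat_lit 5) (nat_lit 219) (nat_lit 5) (nat_lit 601) (nat_lit 521) (nat_lit 438)) (XT.lf (nat_lit 0) (nat_lit 3598706550) (nat_lit 456) (nat_lit 4963028) (nat_lit 532) (nat_lit 7354645411) (nat_lit 212) (nat_lit 5) (nat_lit 218) (nat_lit 5) (nat_lit 219) (nat_lit 5) (nat_lit 602) (nat_lit 521) (nat_lit 437)))))) (XT.nd (nat_lit 390) (nat_lit 1748) (nat_lit 0) (XT.nd (nat_lit 156)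 (nat_lit 912) (nat_lit 0) (XT.nd (nat_lit 78) (nat_lit 0) (nat_lit 0) (XT.lf (nat_lit 0) (nat_lit 62113917) (nat_lit 456) (nat_lit 6825021390) (nat_lit 532) (nat_lit 4189132799) (nat_lit 206) (nat_lit 5) (nat_lit 212) (nat_lit 5) (nat_lit 213) (nat_lit 5) (nat_lit 603) (nat_lit 521) (nat_lit 436)) (XT.lf (nat_lit 0) (nat_lit 7691459963) (nat_lit 456) (nat_lit 2566462476) (nat_lit 532) (nat_lit 938225894) (nat_lit 206) (nat_lit 5) (nat_lit 212) (nat_lit 5) (nat_lit 213) (nat_lit 5) (nat_lit 604) (nat_lit 521) (nat_lit 435))) (XT.nd (nat_lit 78) (nat_lit 380) (nat_lit 0) (XT.lf (nat_lit 0) (nat_lit 2357818330) (nat_lit 532) (nat_lit 7175965645) (nat_lit 76) (nat_lit 1784108421) (nat_lit 199) (nat_lit 5) (nat_lit 206) (nat_lit 5) (nat_lit 200) (nat_lit 5) (nat_lit 605) (nat_lit 521) (nat_lit 434)) (XT.nd (nat_lit 78) (nat_lit 0) (nat_lit 0) (XT.lf (nat_lit 0) (nat_lit 490136479) (nat_lit 380) (nat_lit 5233740409) (nat_lit 456) (nat_lit 5717738321) (nat_lit 194) (nat_lit 5) (nat_lit 199) (nat_lit 5) (nat_lit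 200) (nat_lit 5) (nat_lit 606) (nat_lit 521) (nat_lit 433)) (XT.lf (nat_lit 0) (nat_lit 8366791605) (nat_lit 380) (nat_lit 811684802) (nat_lit 456) (nat_lit 2388912680) (nat_lit 194) (nat_lit 5) (nat_lit 199) (nat_lit 5) (nat_lit 200) (nat_lit 5) (nat_lit 607) (nat_lit 521) (nat_lit 432))))) (XT.nd (nat_lit 156) (nat_lit 836) (nat_lit 0) (XT.nd (nat_lit 78) (nat_lit 380) (nat_lit 0) (XT.lf (nat_lit 0) (nat_lit 1021535919) (nat_lit 532) (nat_lit 6998570072) (nat_lit 76) (nat_lit 3674877788) (nat_lit 187) (nat_lit 5) (nat_lit 194) (nat_lit 5) (nat_lit 188) (nat_lit 5) (nat_lit 608) (nat_lit 521) (nat_lit 431)) (XT.lf (nat_lit 0) (nat_lit 920997728) (nat_lit 380) (nat_lit 3553811862) (nat_lit 456) (nat_lit 7349873836) (nat_lit 182) (nat_lit 5) (nat_lit 187) (nat_lit 5) (nat_lit 188) (nat_lit 5) (nat_lit 609) (nat_lit 521) (nat_lit 430))) (XT.nd (nat_lit 78) (nat_lit 836) (nat_lit 0) (XT.lf (nat_lit 0) (nat_lit 8024701009) (nat_lit 456) (nat_lit 2908996196) (nat_lit 76) (nat_lit 1022729745) (nat_lit 182) (nat_lit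 5) (nat_lit 188) (nat_lit 5) (nat_lit 183) (nat_lit 5) (nat_lit 610) (nat_lit 521) (nat_lit 429)) (XT.nd (nat_lit 78) (nat_lit 456) (nat_lit 0) (XT.lf (nat_lit 0) (nat_lit 5251745850) (nat_lit 380) (nat_lit 6425764423) (nat_lit 456) (nat_lit 412657583) (nat_lit 177) (nat_lit 5) (nat_lit 182) (nat_lit 5) (nat_lit 183) (nat_lit 5) (nat_lit 611) (nat_lit 521) (nat_lit 428)) (XT.lf (nat_lit 0) (nat_lit 1346579932) (nat_lit 380) (nat_lit 1791310037) (nat_lit 456) (nat_lit 9088226730) (nat_lit 171) (nat_lit 5) (nat_lit 176) (nat_lit 5) (nat_lit 177) (nat_lit 5) (nat_lit 612) (nat_lit 521) (nat_lit 427))))))) (XT.nd (nat_lit 74334) (nat_lit 0) (nat_lit 45372) (XT.nd (nat_lit 390) (nat_lit 380) (nat_lit 0) (XT.nd (nat_lit 156) (nat_lit 836) (nat_lit 0) (XT.nd (nat_lit 78) (nat_lit 380) (nat_lit 0) (XT.lf (nat_lit 0) (nat_lit 6793712628) (nat_lit 456) (nat_lit 2637415371) (nat_lit 76) (nat_lit 2932807030) (nat_lit 171) (nat_lit 5) (nat_lit 177) (nat_lit 5) (nat_lit 172) (nat_lit 5) (nat_lit 613) (nat_lit 521) (nat_lit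 426)) (XT.lf (nat_lit 0) (nat_lit 5795032433) (nat_lit 380) (nat_lit 4752136681) (nat_lit 456) (nat_lit 1956851109) (nat_lit 166) (nat_lit 5) (nat_lit 171) (nat_lit 5) (nat_lit 172) (nat_lit 5) (nat_lit 614) (nat_lit 521) (nat_lit 425))) (XT.nd (nat_lit 78) (nat_lit 380) (nat_lit 0) (XT.lf (nat_lit 0) (nat_lit 1710761684) (nat_lit 456) (nat_lit 10888594880) (nat_lit 76) (nat_lit 47233927) (nat_lit 160) (nat_lit 5) (nat_lit 166) (nat_lit 5) (nat_lit 161) (nat_lit 5) (nat_lit 615) (nat_lit 521) (nat_lit 424)) (XT.nd (nat_lit 78) (nat_lit 380) (nat_lit 0) (XT.lf (nat_lit 0) (nat_lit 5477592559) (nat_lit 456) (nat_lit 2389462137) (nat_lit 76) (nat_lit 4923658205) (nat_lit 160) (nat_lit 5) (nat_lit 166) (nat_lit 5) (nat_lit 161) (nat_lit 5) (nat_lit 616) (nat_lit 521) (nat_lit 423)) (XT.lf (nat_lit 0) (nat_lit 6324479720) (nat_lit 380) (nat_lit 3012081747) (nat_lit 456) (nat_lit 3600821042) (nat_lit 155) (nat_lit 5) (nat_lit 160) (nat_lit 5) (nat_lit 161) (nat_lit 5) (nat_lit 617) (nat_lit 521) (nat_lit 422)))))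 (XT.nd (nat_lit 73710) (nat_lit 0) (nat_lit 47576) (XT.nd (nat_lit 78) (nat_lit 0) (nat_lit 0) (XT.lf (nat_lit 0) (nat_lit 201890090) (nat_lit 380) (nat_lit 10952475324) (nat_lit 76) (nat_lit 1932224694) (nat_lit 150) (nat_lit 5) (nat_lit 155) (nat_lit 5) (nat_lit 151) (nat_lit 5) (nat_lit 618) (nat_lit 521) (nat_lit 421)) (XT.lf (nat_lit 0) (nat_lit 4073048917) (nat_lit 380) (nat_lit 2174599594) (nat_lit 76) (nat_lit 6989845882) (nat_lit 150) (nat_lit 5) (nat_lit 155) (nat_lit 5) (nat_lit 151) (nat_lit 5) (nat_lit 619) (nat_lit 521) (nat_lit 420))) (XT.nd (nat_lit 78) (nat_lit 228) (nat_lit 0) (XT.lf (nat_lit 0) (nat_lit 2995646177) (nat_lit 228) (nat_lit 114677353) (nat_lit 228) (nat_lit 114677353) (nat_lit 779) (nat_lit 3) (nat_lit 782) (nat_lit 3) (nat_lit 782) (nat_lit 5) (nat_lit 522) (nat_lit 522) (nat_lit 516)) (XT.nd (nat_lit 78) (nat_lit 0) (nat_lit 0) (XT.lf (nat_lit 0) (nat_lit 2540829834) (nat_lit 228) (nat_lit 3455507768) (nat_lit 304) (nat_lit 457924585) (nat_lit 776) (nat_lit 5) (nat_lit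 779) (nat_lit 3) (nat_lit 780) (nat_lit 5) (nat_lit 523) (nat_lit 522) (nat_lit 515)) (XT.lf (nat_lit 0) (nat_lit 5517387725) (nat_lit 228) (nat_lit 208247500) (nat_lit 304) (nat_lit 734457435) (nat_lit 776) (nat_lit 5) (nat_lit 779) (nat_lit 3) (nat_lit 780) (nat_lit 5) (nat_lit 524) (nat_lit 522) (nat_lit 514)))))) (XT.nd (nat_lit 390) (nat_lit 1064) (nat_lit 0) (XT.nd (nat_lit 156) (nat_lit 836) (nat_lit 0) (XT.nd (nat_lit 78) (nat_lit 0) (nat_lit 0) (XT.lf (nat_lit 0) (nat_lit 2002983100) (nat_lit 304) (nat_lit 3376038276) (nat_lit 380) (nat_lit 1087897384) (nat_lit 772) (nat_lit 5) (nat_lit 776) (nat_lit 5) (nat_lit 777) (nat_lit 5) (nat_lit 525) (nat_lit 522) (nat_lit 513)) (XT.lf (nat_lit 0) (nat_lit 4920269963) (nat_lit 304) (nat_lit 62396421) (nat_lit 380) (nat_lit 1492592585) (nat_lit 772) (nat_lit 5) (nat_lit 776) (nat_lit 5) (nat_lit 777) (nat_lit 5) (nat_lit 526) (nat_lit 522) (nat_lit 512))) (XT.nd (nat_lit 78) (nat_lit 456) (nat_lit 0) (XT.lf (nat_lit 0) (nat_lit 1340199078) (nat_lit 380)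 (nat_lit 3172880214) (nat_lit 456) (nat_lit 1971579711) (nat_lit 767) (nat_lit 5) (nat_lit 772) (nat_lit 5) (nat_lit 773) (nat_lit 5) (nat_lit 527) (nat_lit 522) (nat_lit 511)) (XT.nd (nat_lit 78) (nat_lit 456) (nat_lit 0) (XT.lf (nat_lit 76) (nat_lit 211494166) (nat_lit 0) (nat_lit 3988880357) (nat_lit 456) (nat_lit 2295116738) (nat_lit 768) (nat_lit 5) (nat_lit 767) (nat_lit 5) (nat_lit 773) (nat_lit 5) (nat_lit 528) (nat_lit 522) (nat_lit 510)) (XT.lf (nat_lit 0) (nat_lit 551415977) (nat_lit 456) (nat_lit 2845392688) (nat_lit 532) (nat_lit 3110695337) (nat_lit 761) (nat_lit 5) (nat_lit 767) (nat_lit 5) (nat_lit 768) (nat_lit 5) (nat_lit 529) (nat_lit 522) (nat_lit 509))))) (XT.nd (nat_lit 234) (nat_lit 532) (nat_lit 0) (XT.nd (nat_lit 78) (nat_lit 532) (nat_lit 0) (XT.lf (nat_lit 76) (nat_lit 613920138) (nat_lit 0) (nat_lit 2742464004) (nat_lit 532) (nat_lit 3164432150) (nat_lit 762) (nat_lit 5) (nat_lit 761) (nat_lit 5) (nat_lit 768) (nat_lit 5) (nat_lit 530) (nat_lit 522) (nat_lit 508)) (XT.nd (nat_lit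 78) (nat_lit 532) (nat_lit 0) (XT.lf (nat_lit 76) (nat_lit 4140342557) (nat_lit 0) (nat_lit 2025568409) (nat_lit 532) (nat_lit 369521963) (nat_lit 762) (nat_lit 5) (nat_lit 761) (nat_lit 5) (nat_lit 768) (nat_lit 5) (nat_lit 531) (nat_lit 522) (nat_lit 507)) (XT.lf (nat_lit 76) (nat_lit 1145076041) (nat_lit 0) (nat_lit 1241387011) (nat_lit 608) (nat_lit 4164809269) (nat_lit 755) (nat_lit 5) (nat_lit 754) (nat_lit 5) (nat_lit 762) (nat_lit 5) (nat_lit 532) (nat_lit 522) (nat_lit 506)))) (XT.nd (nat_lit 78) (nat_lit 532) (nat_lit 0) (XT.lf (nat_lit 76) (nat_lit 4745517284) (nat_lit 0) (nat_lit 394551899) (nat_lit 608) (nat_lit 1428368349) (nat_lit 755) (nat_lit 5) (nat_lit 754) (nat_lit 5) (nat_lit 762) (nat_lit 5) (nat_lit 533) (nat_lit 522) (nat_lit 505)) (XT.nd (nat_lit 78) (nat_lit 0) (nat_lit 0) (XT.lf (nat_lit 0) (nat_lit 1292295599) (nat_lit 608) (nat_lit 4784018985) (nat_lit 76) (nat_lit 510513749) (nat_lit 747) (nat_lit 5) (nat_lit 755) (nat_lit 5) (nat_lit 748) (nat_lit 5) (nat_lit 534) (nat_lit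 522) (nat_lit 504)) (XT.lf (nat_lit 0) (nat_lit 3996709702) (nat_lit 608) (nat_lit 1133601902) (nat_lit 76) (nat_lit 1476123735) (nat_lit 747) (nat_lit 5) (nat_lit 755) (nat_lit 5) (nat_lit 748) (nat_lit 5) (nat_lit 535) (nat_lit 522) (nat_lit 503))))))))
noncomputable def xc70 : XT := (XT.nd (nat_lit 1560) (nat_lit 16644) (nat_lit 0) (XT.nd (nat_lit 780) (nat_lit 7752) (nat_lit 0) (XT.nd (nat_lit 390) (nat_lit 2888) (nat_lit 0) (XT.nd (nat_lit 156) (nat_lit 1520) (nat_lit 0) (XT.nd (nat_lit 78) (nat_lit 0) (nat_lit 0) (XT.lf (nat_lit 0) (nat_lit 78351775) (nat_lit 684) (nat_lit 4045278107) (nat_lit 76) (nat_lit 2503768839) (nat_lit 738) (nat_lit 5) (nat_lit 747) (nat_lit 5) (nat_lit 739) (nat_lit 5) (nat_lit 536) (nat_lit 522) (nat_lit 502)) (XT.lf (nat_lit 0) (nat_lit 2728340507) (nat_lit 684) (nat_lit 320082191) (nat_lit 76) (nat_lit 3601157886) (nat_lit 738) (nat_lit 5) (nat_lit 747) (nat_lit 5) (nat_lit 739) (nat_lit 5) (nat_lit 537) (nat_lit 522) (nat_lit 501))) (XT.nd (nat_lit 78) (nat_lit 836) (nat_lit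 0) (XT.lf (nat_lit 0) (nat_lit 3484490414) (nat_lit 684) (nat_lit 1906132702) (nat_lit 760) (nat_lit 1282403067) (nat_lit 729) (nat_lit 5) (nat_lit 738) (nat_lit 5) (nat_lit 739) (nat_lit 5) (nat_lit 538) (nat_lit 522) (nat_lit 500)) (XT.nd (nat_lit 78) (nat_lit 0) (nat_lit 0) (XT.lf (nat_lit 0) (nat_lit 630300001) (nat_lit 760) (nat_lit 703913295) (nat_lit 836) (nat_lit 5363680460) (nat_lit 718) (nat_lit 5) (nat_lit 728) (nat_lit 5) (nat_lit 729) (nat_lit 5) (nat_lit 539) (nat_lit 522) (nat_lit 499)) (XT.lf (nat_lit 0) (nat_lit 3949264792) (nat_lit 836) (nat_lit 2208624642) (nat_lit 76) (nat_lit 565939867) (nat_lit 718) (nat_lit 5) (nat_lit 729) (nat_lit 5) (nat_lit 719) (nat_lit 5) (nat_lit 540) (nat_lit 522) (nat_lit 498))))) (XT.nd (nat_lit 156) (nat_lit 1976) (nat_lit 0) (XT.nd (nat_lit 78) (nat_lit 76) (nat_lit 0) (XT.lf (nat_lit 0) (nat_lit 1703535784) (nat_lit 836) (nat_lit 4868341173) (nat_lit 912) (nat_lit 179306929) (nat_lit 707) (nat_lit 5) (nat_lit 718) (nat_lit 5) (nat_lit 719) (nat_lit 5)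 (nat_lit 541) (nat_lit 522) (nat_lit 497)) (XT.lf (nat_lit 0) (nat_lit 2390463186) (nat_lit 912) (nat_lit 1113228734) (nat_lit 76) (nat_lit 3275979020) (nat_lit 706) (nat_lit 5) (nat_lit 718) (nat_lit 5) (nat_lit 707) (nat_lit 5) (nat_lit 542) (nat_lit 522) (nat_lit 496))) (XT.nd (nat_lit 78) (nat_lit 1064) (nat_lit 0) (XT.lf (nat_lit 0) (nat_lit 2895294863) (nat_lit 912) (nat_lit 2073963310) (nat_lit 988) (nat_lit 1840250453) (nat_lit 694) (nat_lit 5) (nat_lit 706) (nat_lit 5) (nat_lit 707) (nat_lit 5) (nat_lit 543) (nat_lit 522) (nat_lit 495)) (XT.nd (nat_lit 78) (nat_lit 0) (nat_lit 0) (XT.lf (nat_lit 0) (nat_lit 113921356) (nat_lit 988) (nat_lit 585787813) (nat_lit 1064) (nat_lit 6141140524) (nat_lit 680) (nat_lit 5) (nat_lit 693) (nat_lit 5) (nat_lit 694) (nat_lit 5) (nat_lit 544) (nat_lit 522) (nat_lit 494)) (XT.lf (nat_lit 0) (nat_lit 3241044800) (nat_lit 1064) (nat_lit 2657884313) (nat_lit 76) (nat_lit 974145736) (nat_lit 680) (nat_lit 5) (nat_lit 694) (nat_lit 5) (nat_lit 681) (nat_lit 5) (nat_lit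 545) (nat_lit 522) (nat_lit 493)))))) (XT.nd (nat_lit 390) (nat_lit 4180) (nat_lit 0) (XT.nd (nat_lit 156) (nat_lit 2432) (nat_lit 0) (XT.nd (nat_lit 78) (nat_lit 76) (nat_lit 0) (XT.lf (nat_lit 0) (nat_lit 1465870419) (nat_lit 1064) (nat_lit 4324559210) (nat_lit 1140) (nat_lit 1116375239) (nat_lit 666) (nat_lit 5) (nat_lit 680) (nat_lit 5) (nat_lit 681) (nat_lit 5) (nat_lit 546) (nat_lit 522) (nat_lit 492)) (XT.lf (nat_lit 0) (nat_lit 1392819898) (nat_lit 1140) (nat_lit 1284738602) (nat_lit 76) (nat_lit 4264222597) (nat_lit 665) (nat_lit 5) (nat_lit 680) (nat_lit 5) (nat_lit 666) (nat_lit 5) (nat_lit 547) (nat_lit 522) (nat_lit 491))) (XT.nd (nat_lit 78) (nat_lit 1292) (nat_lit 0) (XT.lf (nat_lit 0) (nat_lit 2944149466) (nat_lit 1140) (nat_lit 957607985) (nat_lit 1216) (nat_lit 3076266212) (nat_lit 650) (nat_lit 5) (nat_lit 665) (nat_lit 5) (nat_lit 666) (nat_lit 5) (nat_lit 548) (nat_lit 522) (nat_lit 490)) (XT.nd (nat_lit 78) (nat_lit 76) (nat_lit 0) (XT.lf (nat_lit 0) (nat_lit 215265647) (nat_lit 1216)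 (nat_lit 6207117694) (nat_lit 1292) (nat_lit 593381990) (nat_lit 634) (nat_lit 5) (nat_lit 650) (nat_lit 5) (nat_lit 651) (nat_lit 5) (nat_lit 549) (nat_lit 522) (nat_lit 489)) (XT.lf (nat_lit 0) (nat_lit 1894002855) (nat_lit 1292) (nat_lit 2511735362) (nat_lit 76) (nat_lit 2648670571) (nat_lit 633) (nat_lit 5) (nat_lit 650) (nat_lit 5) (nat_lit 634) (nat_lit 5) (nat_lit 550) (nat_lit 522) (nat_lit 488))))) (XT.nd (nat_lit 156) (nat_lit 2888) (nat_lit 0) (XT.nd (nat_lit 78) (nat_lit 0) (nat_lit 0) (XT.lf (nat_lit 0) (nat_lit 1840888659) (nat_lit 1292) (nat_lit 2541991354) (nat_lit 1368) (nat_lit 2711677045) (nat_lit 616) (nat_lit 5) (nat_lit 633) (nat_lit 5) (nat_lit 634) (nat_lit 5) (nat_lit 551) (nat_lit 522) (nat_lit 487)) (XT.lf (nat_lit 0) (nat_lit 6272760074) (nat_lit 1292) (nat_lit 614113173) (nat_lit 1368) (nat_lit 249332381) (nat_lit 616) (nat_lit 5) (nat_lit 633) (nat_lit 5) (nat_lit 634) (nat_lit 5) (nat_lit 552) (nat_lit 522) (nat_lit 486))) (XT.nd (nat_lit 78) (nat_lit 1444) (nat_lit 0) (XT.lf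 (nat_lit 0) (nat_lit 2214245253) (nat_lit 1444) (nat_lit 3582569145) (nat_lit 76) (nat_lit 1381949833) (nat_lit 597) (nat_lit 5) (nat_lit 616) (nat_lit 5) (nat_lit 598) (nat_lit 5) (nat_lit 553) (nat_lit 522) (nat_lit 485)) (XT.nd (nat_lit 78) (nat_lit 0) (nat_lit 0) (XT.lf (nat_lit 0) (nat_lit 898198649) (nat_lit 1444) (nat_lit 3791230995) (nat_lit 1520) (nat_lit 2533401794) (nat_lit 578) (nat_lit 5) (nat_lit 597) (nat_lit 5) (nat_lit 598) (nat_lit 5) (nat_lit 554) (nat_lit 522) (nat_lit 484)) (XT.lf (nat_lit 0) (nat_lit 5474924589) (nat_lit 1444) (nat_lit 1713880941) (nat_lit 1520) (nat_lit 79484495) (nat_lit 578) (nat_lit 5) (nat_lit 597) (nat_lit 5) (nat_lit 598) (nat_lit 5) (nat_lit 555) (nat_lit 522) (nat_lit 483))))))) (XT.nd (nat_lit 780) (nat_lit 6004) (nat_lit 0) (XT.nd (nat_lit 390) (nat_lit 5700) (nat_lit 0) (XT.nd (nat_lit 156) (nat_lit 1748) (nat_lit 0) (XT.nd (nat_lit 78) (nat_lit 1596) (nat_lit 0) (XT.lf (nat_lit 0) (nat_lit 2364143307) (nat_lit 1596) (nat_lit 4510283175) (nat_lit 76) (nat_lit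 440471907) (nat_lit 557) (nat_lit 5) (nat_lit 578) (nat_lit 5) (nat_lit 558) (nat_lit 5) (nat_lit 556) (nat_lit 522) (nat_lit 482)) (XT.lf (nat_lit 0) (nat_lit 103294084) (nat_lit 1596) (nat_lit 4728436301) (nat_lit 1672) (nat_lit 2531178578) (nat_lit 536) (nat_lit 5) (nat_lit 557) (nat_lit 5) (nat_lit 558) (nat_lit 5) (nat_lit 557) (nat_lit 522) (nat_lit 481))) (XT.nd (nat_lit 78) (nat_lit 1748) (nat_lit 0) (XT.lf (nat_lit 0) (nat_lit 4827791222) (nat_lit 1596) (nat_lit 2503824409) (nat_lit 1672) (nat_lit 80608696) (nat_lit 536) (nat_lit 5) (nat_lit 557) (nat_lit 5) (nat_lit 558) (nat_lit 5) (nat_lit 558) (nat_lit 522) (nat_lit 480)) (XT.nd (nat_lit 78) (nat_lit 0) (nat_lit 0) (XT.lf (nat_lit 0) (nat_lit 2154523053) (nat_lit 1672) (nat_lit 200010132) (nat_lit 1748) (nat_lit 5108336350) (nat_lit 513) (nat_lit 5) (nat_lit 535) (nat_lit 5) (nat_lit 536) (nat_lit 5) (nat_lit 559) (nat_lit 522) (nat_lit 479)) (XT.lf (nat_lit 0) (nat_lit 4822682418) (nat_lit 1748) (nat_lit 548450228) (nat_lit 76) (nat_lit 2143679969)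 (nat_lit 513) (nat_lit 5) (nat_lit 536) (nat_lit 5) (nat_lit 514) (nat_lit 5) (nat_lit 560) (nat_lit 522) (nat_lit 478))))) (XT.nd (nat_lit 156) (nat_lit 2052) (nat_lit 0) (XT.nd (nat_lit 78) (nat_lit 1900) (nat_lit 0) (XT.lf (nat_lit 0) (nat_lit 4319864088) (nat_lit 1748) (nat_lit 3004571799) (nat_lit 1824) (nat_lit 243677081) (nat_lit 490) (nat_lit 5) (nat_lit 513) (nat_lit 5) (nat_lit 514) (nat_lit 5) (nat_lit 561) (nat_lit 522) (nat_lit 477)) (XT.lf (nat_lit 0) (nat_lit 1634925797) (nat_lit 1824) (nat_lit 558765425) (nat_lit 1900) (nat_lit 5429108474) (nat_lit 465) (nat_lit 5) (nat_lit 489) (nat_lit 5) (nat_lit 490) (nat_lit 5) (nat_lit 562) (nat_lit 522) (nat_lit 476))) (XT.nd (nat_lit 78) (nat_lit 2052) (nat_lit 0) (XT.lf (nat_lit 0) (nat_lit 4666861448) (nat_lit 1900) (nat_lit 1075731170) (nat_lit 76) (nat_lit 1936152027) (nat_lit 465) (nat_lit 5) (nat_lit 490) (nat_lit 5) (nat_lit 466) (nat_lit 5) (nat_lit 563) (nat_lit 522) (nat_lit 475)) (XT.nd (nat_lit 78) (nat_lit 988) (nat_lit 0) (XT.lf (nat_lit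 0) (nat_lit 3940423368) (nat_lit 1064) (nat_lit 3235025604) (nat_lit 1140) (nat_lit 560643434) (nat_lit 451) (nat_lit 5) (nat_lit 465) (nat_lit 5) (nat_lit 466) (nat_lit 5) (nat_lit 564) (nat_lit 522) (nat_lit 474)) (XT.lf (nat_lit 0) (nat_lit 1238130139) (nat_lit 912) (nat_lit 648318751) (nat_lit 988) (nat_lit 5908443914) (nat_lit 438) (nat_lit 5) (nat_lit 450) (nat_lit 5) (nat_lit 451) (nat_lit 5) (nat_lit 565) (nat_lit 522) (nat_lit 473)))))) (XT.nd (nat_lit 390) (nat_lit 3344) (nat_lit 0) (XT.nd (nat_lit 156) (nat_lit 1748) (nat_lit 0) (XT.nd (nat_lit 78) (nat_lit 912) (nat_lit 0) (XT.lf (nat_lit 0) (nat_lit 4371076136) (nat_lit 988) (nat_lit 1490187182) (nat_lit 76) (nat_lit 1993612591) (nat_lit 438) (nat_lit 5) (nat_lit 451) (nat_lit 5) (nat_lit 439) (nat_lit 5) (nat_lit 566) (nat_lit 522) (nat_lit 472)) (XT.lf (nat_lit 0) (nat_lit 3679446401) (nat_lit 912) (nat_lit 3212497394) (nat_lit 988) (nat_lit 1024386687) (nat_lit 426) (nat_lit 5) (nat_lit 438) (nat_lit 5) (nat_lit 439) (nat_lit 5) (nat_lit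 567) (nat_lit 522) (nat_lit 471))) (XT.nd (nat_lit 78) (nat_lit 836) (nat_lit 0) (XT.lf (nat_lit 0) (nat_lit 954158597) (nat_lit 836) (nat_lit 485485628) (nat_lit 912) (nat_lit 6539681940) (nat_lit 414) (nat_lit 5) (nat_lit 425) (nat_lit 5) (nat_lit 426) (nat_lit 5) (nat_lit 568) (nat_lit 522) (nat_lit 470)) (XT.nd (nat_lit 78) (nat_lit 836) (nat_lit 0) (XT.lf (nat_lit 0) (nat_lit 3941941548) (nat_lit 912) (nat_lit 1801480233) (nat_lit 76) (nat_lit 2299973113) (nat_lit 414) (nat_lit 5) (nat_lit 426) (nat_lit 5) (nat_lit 415) (nat_lit 5) (nat_lit 569) (nat_lit 522) (nat_lit 469)) (XT.lf (nat_lit 0) (nat_lit 3527532462) (nat_lit 836) (nat_lit 2952833228) (nat_lit 912) (nat_lit 1628660243) (nat_lit 403) (nat_lit 5) (nat_lit 414) (nat_lit 5) (nat_lit 415) (nat_lit 5) (nat_lit 570) (nat_lit 522) (nat_lit 468))))) (XT.nd (nat_lit 234) (nat_lit 1596) (nat_lit 0) (XT.nd (nat_lit 78) (nat_lit 836) (nat_lit 0) (XT.lf (nat_lit 0) (nat_lit 773630527) (nat_lit 836) (nat_lit 85641788) (nat_lit 912) (nat_lit 7317035631)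 (nat_lit 391) (nat_lit 5) (nat_lit 402) (nat_lit 5) (nat_lit 403) (nat_lit 5) (nat_lit 571) (nat_lit 522) (nat_lit 467)) (XT.nd (nat_lit 78) (nat_lit 836) (nat_lit 0) (XT.lf (nat_lit 0) (nat_lit 3385254879) (nat_lit 912) (nat_lit 2018722859) (nat_lit 76) (nat_lit 2840542974) (nat_lit 391) (nat_lit 5) (nat_lit 403) (nat_lit 5) (nat_lit 392) (nat_lit 5) (nat_lit 572) (nat_lit 522) (nat_lit 466)) (XT.lf (nat_lit 0) (nat_lit 3475830664) (nat_lit 836) (nat_lit 2470530514) (nat_lit 912) (nat_lit 2368046833) (nat_lit 380) (nat_lit 5) (nat_lit 391) (nat_lit 5) (nat_lit 392) (nat_lit 5) (nat_lit 573) (nat_lit 522) (nat_lit 465)))) (XT.nd (nat_lit 78) (nat_lit 760) (nat_lit 0) (XT.lf (nat_lit 0) (nat_lit 154015866) (nat_lit 836) (nat_lit 7701874143) (nat_lit 76) (nat_lit 530117083) (nat_lit 369) (nat_lit 5) (nat_lit 380) (nat_lit 5) (nat_lit 370) (nat_lit 5) (nat_lit 574) (nat_lit 522) (nat_lit 464)) (XT.nd (nat_lit 78) (nat_lit 760) (nat_lit 0) (XT.lf (nat_lit 0) (nat_lit 2706036581) (nat_lit 836) (nat_lit 2150547806)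 (nat_lit 76) (nat_lit 3601918438) (nat_lit 369) (nat_lit 5) (nat_lit 380) (nat_lit 5) (nat_lit 370) (nat_lit 5) (nat_lit 575) (nat_lit 522) (nat_lit 463)) (XT.lf (nat_lit 0) (nat_lit 3515970492) (nat_lit 760) (nat_lit 1778847101) (nat_lit 836) (nat_lit 3237918658) (nat_lit 359) (nat_lit 5) (nat_lit 369) (nat_lit 5) (nat_lit 370) (nat_lit 5) (nat_lit 576) (nat_lit 522) (nat_lit 462))))))))
noncomputable def xc71 : XT := (XT.nd (nat_lit 1560) (nat_lit 6916) (nat_lit 0) (XT.nd (nat_lit 780) (nat_lit 3648) (nat_lit 0) (XT.nd (nat_lit 390) (nat_lit 2660) (nat_lit 0) (XT.nd (nat_lit 156) (nat_lit 1520) (nat_lit 0) (XT.nd (nat_lit 78) (nat_lit 76) (nat_lit 0) (XT.lf (nat_lit 0) (nat_lit 674346628) (nat_lit 684) (nat_lit 7252082026) (nat_lit 760) (nat_lit 682206740) (nat_lit 350) (nat_lit 5) (nat_lit 359) (nat_lit 5) (nat_lit 360) (nat_lit 5) (nat_lit 577) (nat_lit 522) (nat_lit 461)) (XT.lf (nat_lit 0) (nat_lit 1908566476) (nat_lit 760) (nat_lit 2205175489) (nat_lit 76) (nat_lit 4571878911) (nat_lit 349) (nat_lit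 5) (nat_lit 359) (nat_lit 5) (nat_lit 350) (nat_lit 5) (nat_lit 578) (nat_lit 522) (nat_lit 460))) (XT.nd (nat_lit 78) (nat_lit 760) (nat_lit 0) (XT.lf (nat_lit 0) (nat_lit 3639994426) (nat_lit 760) (nat_lit 889903329) (nat_lit 836) (nat_lit 4234402592) (nat_lit 339) (nat_lit 5) (nat_lit 349) (nat_lit 5) (nat_lit 350) (nat_lit 5) (nat_lit 579) (nat_lit 522) (nat_lit 459)) (XT.nd (nat_lit 78) (nat_lit 76) (nat_lit 0) (XT.lf (nat_lit 0) (nat_lit 739590820) (nat_lit 684) (nat_lit 6463962407) (nat_lit 760) (nat_lit 1641004202) (nat_lit 330) (nat_lit 5) (nat_lit 339) (nat_lit 5) (nat_lit 340) (nat_lit 5) (nat_lit 580) (nat_lit 522) (nat_lit 458)) (XT.lf (nat_lit 0) (nat_lit 996415075) (nat_lit 760) (nat_lit 2190479784) (nat_lit 76) (nat_lit 5739289802) (nat_lit 329) (nat_lit 5) (nat_lit 339) (nat_lit 5) (nat_lit 330) (nat_lit 5) (nat_lit 581) (nat_lit 522) (nat_lit 457))))) (XT.nd (nat_lit 156) (nat_lit 1368) (nat_lit 0) (XT.nd (nat_lit 78) (nat_lit 608) (nat_lit 0) (XT.lf (nat_lit 0) (nat_lit 3656272503) (nat_lit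 760) (nat_lit 5170330572) (nat_lit 76) (nat_lit 182793025) (nat_lit 320) (nat_lit 5) (nat_lit 330) (nat_lit 5) (nat_lit 321) (nat_lit 5) (nat_lit 582) (nat_lit 522) (nat_lit 456)) (XT.lf (nat_lit 0) (nat_lit 873300123) (nat_lit 608) (nat_lit 5503467118) (nat_lit 684) (nat_lit 2717357547) (nat_lit 312) (nat_lit 5) (nat_lit 320) (nat_lit 5) (nat_lit 321) (nat_lit 5) (nat_lit 583) (nat_lit 522) (nat_lit 455))) (XT.nd (nat_lit 78) (nat_lit 1368) (nat_lit 0) (XT.lf (nat_lit 0) (nat_lit 7066296818) (nat_lit 608) (nat_lit 2086338139) (nat_lit 684) (nat_lit 27895617) (nat_lit 312) (nat_lit 5) (nat_lit 320) (nat_lit 5) (nat_lit 321) (nat_lit 5) (nat_lit 584) (nat_lit 522) (nat_lit 454)) (XT.nd (nat_lit 78) (nat_lit 608) (nat_lit 0) (XT.lf (nat_lit 0) (nat_lit 2682459210) (nat_lit 760) (nat_lit 5168235925) (nat_lit 76) (nat_lit 1417564140) (nat_lit 302) (nat_lit 5) (nat_lit 312) (nat_lit 5) (nat_lit 303) (nat_lit 5) (nat_lit 585) (nat_lit 522) (nat_lit 453)) (XT.lf (nat_lit 0) (nat_lit 1068122107) (nat_lit 608) (nat_lit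 4380602006) (nat_lit 684) (nat_lit 3908974903) (nat_lit 294) (nat_lit 5) (nat_lit 302) (nat_lit 5) (nat_lit 303) (nat_lit 5) (nat_lit 586) (nat_lit 522) (nat_lit 452)))))) (XT.nd (nat_lit 390) (nat_lit 1672) (nat_lit 0) (XT.nd (nat_lit 156) (nat_lit 1292) (nat_lit 0) (XT.nd (nat_lit 78) (nat_lit 684) (nat_lit 0) (XT.lf (nat_lit 0) (nat_lit 7457980702) (nat_lit 608) (nat_lit 814436183) (nat_lit 684) (nat_lit 1176470266) (nat_lit 294) (nat_lit 5) (nat_lit 302) (nat_lit 5) (nat_lit 303) (nat_lit 5) (nat_lit 587) (nat_lit 522) (nat_lit 451)) (XT.lf (nat_lit 0) (nat_lit 1604770660) (nat_lit 684) (nat_lit 5119673975) (nat_lit 76) (nat_lit 2816942635) (nat_lit 285) (nat_lit 5) (nat_lit 294) (nat_lit 5) (nat_lit 286) (nat_lit 5) (nat_lit 588) (nat_lit 522) (nat_lit 450))) (XT.nd (nat_lit 78) (nat_lit 684) (nat_lit 0) (XT.lf (nat_lit 0) (nat_lit 1316886866) (nat_lit 608) (nat_lit 3104559420) (nat_lit 684) (nat_lit 5214225876) (nat_lit 277) (nat_lit 5) (nat_lit 285) (nat_lit 5) (nat_lit 286) (nat_lit 5) (nat_lit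 589) (nat_lit 522) (nat_lit 449)) (XT.nd (nat_lit 78) (nat_lit 684) (nat_lit 0) (XT.lf (nat_lit 0) (nat_lit 7301307579) (nat_lit 684) (nat_lit 1825133848) (nat_lit 76) (nat_lit 605265806) (nat_lit 277) (nat_lit 5) (nat_lit 286) (nat_lit 5) (nat_lit 278) (nat_lit 5) (nat_lit 590) (nat_lit 522) (nat_lit 448)) (XT.lf (nat_lit 0) (nat_lit 424670826) (nat_lit 684) (nat_lit 5031956109) (nat_lit 76) (nat_lit 4372565750) (nat_lit 268) (nat_lit 5) (nat_lit 277) (nat_lit 5) (nat_lit 269) (nat_lit 5) (nat_lit 591) (nat_lit 522) (nat_lit 447))))) (XT.nd (nat_lit 156) (nat_lit 1140) (nat_lit 0) (XT.nd (nat_lit 78) (nat_lit 0) (nat_lit 0) (XT.lf (nat_lit 0) (nat_lit 1612542869) (nat_lit 532) (nat_lit 1683797179) (nat_lit 608) (nat_lit 6632127127) (nat_lit 261) (nat_lit 5) (nat_lit 268) (nat_lit 5) (nat_lit 269) (nat_lit 5) (nat_lit 592) (nat_lit 522) (nat_lit 446)) (XT.lf (nat_lit 0) (nat_lit 6242972738) (nat_lit 608) (nat_lit 1626304503) (nat_lit 76) (nat_lit 2160100722) (nat_lit 261) (nat_lit 5) (nat_lit 269) (nat_lit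 5) (nat_lit 262) (nat_lit 5) (nat_lit 593) (nat_lit 522) (nat_lit 445))) (XT.nd (nat_lit 78) (nat_lit 608) (nat_lit 0) (XT.lf (nat_lit 0) (nat_lit 5214028783) (nat_lit 532) (nat_lit 4049597603) (nat_lit 608) (nat_lit 868380196) (nat_lit 254) (nat_lit 5) (nat_lit 261) (nat_lit 5) (nat_lit 262) (nat_lit 5) (nat_lit 594) (nat_lit 522) (nat_lit 444)) (XT.nd (nat_lit 78) (nat_lit 0) (nat_lit 0) (XT.lf (nat_lit 0) (nat_lit 1948092116) (nat_lit 532) (nat_lit 126113973) (nat_lit 608) (nat_lit 8162332328) (nat_lit 246) (nat_lit 5) (nat_lit 253) (nat_lit 5) (nat_lit 254) (nat_lit 5) (nat_lit 595) (nat_lit 522) (nat_lit 443)) (XT.lf (nat_lit 0) (nat_lit 5092879972) (nat_lit 608) (nat_lit 1396184636) (nat_lit 76) (nat_lit 3853405512) (nat_lit 246) (nat_lit 5) (nat_lit 254) (nat_lit 5) (nat_lit 247) (nat_lit 5) (nat_lit 596) (nat_lit 522) (nat_lit 442))))))) (XT.nd (nat_lit 780) (nat_lit 3344) (nat_lit 0) (XT.nd (nat_lit 390) (nat_lit 1520) (nat_lit 0) (XT.nd (nat_lit 156) (nat_lit 988) (nat_lit 0) (XT.nd (nat_lit 78)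 (nat_lit 532) (nat_lit 0) (XT.lf (nat_lit 0) (nat_lit 5667517814) (nat_lit 532) (nat_lit 2513088383) (nat_lit 608) (nat_lit 2269741960) (nat_lit 239) (nat_lit 5) (nat_lit 246) (nat_lit 5) (nat_lit 247) (nat_lit 5) (nat_lit 597) (nat_lit 522) (nat_lit 441)) (XT.lf (nat_lit 0) (nat_lit 765382671) (nat_lit 532) (nat_lit 8253985078) (nat_lit 76) (nat_lit 1540801797) (nat_lit 232) (nat_lit 5) (nat_lit 239) (nat_lit 5) (nat_lit 233) (nat_lit 5) (nat_lit 598) (nat_lit 522) (nat_lit 440))) (XT.nd (nat_lit 78) (nat_lit 988) (nat_lit 0) (XT.lf (nat_lit 0) (nat_lit 3851197336) (nat_lit 532) (nat_lit 1141877489) (nat_lit 76) (nat_lit 5678406095) (nat_lit 232) (nat_lit 5) (nat_lit 239) (nat_lit 5) (nat_lit 233) (nat_lit 5) (nat_lit 599) (nat_lit 522) (nat_lit 439)) (XT.nd (nat_lit 78) (nat_lit 456) (nat_lit 0) (XT.lf (nat_lit 0) (nat_lit 6153711433) (nat_lit 532) (nat_lit 856931765) (nat_lit 608) (nat_lit 3774138203) (nat_lit 225) (nat_lit 5) (nat_lit 232) (nat_lit 5) (nat_lit 233) (nat_lit 5) (nat_lit 600) (nat_lit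 522) (nat_lit 438)) (XT.lf (nat_lit 0) (nat_lit 2684130351) (nat_lit 456) (nat_lit 7568297745) (nat_lit 532) (nat_lit 647537948) (nat_lit 219) (nat_lit 5) (nat_lit 225) (nat_lit 5) (nat_lit 226) (nat_lit 5) (nat_lit 601) (nat_lit 522) (nat_lit 437))))) (XT.nd (nat_lit 156) (nat_lit 988) (nat_lit 0) (XT.nd (nat_lit 78) (nat_lit 456) (nat_lit 0) (XT.lf (nat_lit 0) (nat_lit 2517506357) (nat_lit 532) (nat_lit 870603430) (nat_lit 76) (nat_lit 7628830760) (nat_lit 218) (nat_lit 5) (nat_lit 225) (nat_lit 5) (nat_lit 219) (nat_lit 5) (nat_lit 602) (nat_lit 522) (nat_lit 436)) (XT.lf (nat_lit 0) (nat_lit 5759221640) (nat_lit 532) (nat_lit 4476122655) (nat_lit 76) (nat_lit 900384917) (nat_lit 212) (nat_lit 5) (nat_lit 219) (nat_lit 5) (nat_lit 213) (nat_lit 5) (nat_lit 603) (nat_lit 522) (nat_lit 435))) (XT.nd (nat_lit 78) (nat_lit 532) (nat_lit 0) (XT.lf (nat_lit 0) (nat_lit 3074062826) (nat_lit 456) (nat_lit 6013021062) (nat_lit 532) (nat_lit 2169384578) (nat_lit 206) (nat_lit 5) (nat_lit 212) (nat_lit 5) (nat_lit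 213) (nat_lit 5) (nat_lit 604) (nat_lit 522) (nat_lit 434)) (XT.nd (nat_lit 78) (nat_lit 456) (nat_lit 0) (XT.lf (nat_lit 0) (nat_lit 1090798621) (nat_lit 532) (nat_lit 589770569) (nat_lit 76) (nat_lit 9698843874) (nat_lit 205) (nat_lit 5) (nat_lit 212) (nat_lit 5) (nat_lit 206) (nat_lit 5) (nat_lit 605) (nat_lit 522) (nat_lit 433)) (XT.lf (nat_lit 0) (nat_lit 4425652434) (nat_lit 532) (nat_lit 4326050390) (nat_lit 76) (nat_lit 2752057645) (nat_lit 199) (nat_lit 5) (nat_lit 206) (nat_lit 5) (nat_lit 200) (nat_lit 5) (nat_lit 606) (nat_lit 522) (nat_lit 432)))))) (XT.nd (nat_lit 390) (nat_lit 2052) (nat_lit 0) (XT.nd (nat_lit 156) (nat_lit 912) (nat_lit 0) (XT.nd (nat_lit 78) (nat_lit 0) (nat_lit 0) (XT.lf (nat_lit 0) (nat_lit 3473680128) (nat_lit 380) (nat_lit 4365038401) (nat_lit 456) (nat_lit 3791646976) (nat_lit 194) (nat_lit 5) (nat_lit 199) (nat_lit 5) (nat_lit 200) (nat_lit 5) (nat_lit 607) (nat_lit 522) (nat_lit 431)) (XT.lf (nat_lit 0) (nat_lit 11324007707) (nat_lit 456) (nat_lit 310701566) (nat_lit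 76) (nat_lit 124715099) (nat_lit 194) (nat_lit 5) (nat_lit 200) (nat_lit 5) (nat_lit 195) (nat_lit 5) (nat_lit 608) (nat_lit 522) (nat_lit 430))) (XT.nd (nat_lit 78) (nat_lit 380) (nat_lit 0) (XT.lf (nat_lit 0) (nat_lit 3002716535) (nat_lit 532) (nat_lit 4183279494) (nat_lit 76) (nat_lit 4703602012) (nat_lit 187) (nat_lit 5) (nat_lit 194) (nat_lit 5) (nat_lit 188) (nat_lit 5) (nat_lit 609) (nat_lit 522) (nat_lit 429)) (XT.nd (nat_lit 78) (nat_lit 0) (nat_lit 0) (XT.lf (nat_lit 0) (nat_lit 3875237149) (nat_lit 380) (nat_lit 2630433741) (nat_lit 456) (nat_lit 5516609867) (nat_lit 182) (nat_lit 5) (nat_lit 187) (nat_lit 5) (nat_lit 188) (nat_lit 5) (nat_lit 610) (nat_lit 522) (nat_lit 428)) (XT.lf (nat_lit 0) (nat_lit 10094824212) (nat_lit 456) (nat_lit 57118133) (nat_lit 76) (nat_lit 2005352879) (nat_lit 182) (nat_lit 5) (nat_lit 188) (nat_lit 5) (nat_lit 183) (nat_lit 5) (nat_lit 611) (nat_lit 522) (nat_lit 427))))) (XT.nd (nat_lit 234) (nat_lit 836) (nat_lit 0) (XT.nd (nat_lit 78) (nat_lit 760) (nat_lit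 0) (XT.lf (nat_lit 0) (nat_lit 1488153148) (nat_lit 456) (nat_lit 4056182601) (nat_lit 76) (nat_lit 6749554196) (nat_lit 176) (nat_lit 5) (nat_lit 182) (nat_lit 5) (nat_lit 177) (nat_lit 5) (nat_lit 612) (nat_lit 522) (nat_lit 426)) (XT.nd (nat_lit 78) (nat_lit 380) (nat_lit 0) (XT.lf (nat_lit 0) (nat_lit 4270600524) (nat_lit 380) (nat_lit 815076246) (nat_lit 456) (nat_lit 7347197904) (nat_lit 171) (nat_lit 5) (nat_lit 176) (nat_lit 5) (nat_lit 177) (nat_lit 5) (nat_lit 613) (nat_lit 522) (nat_lit 425)) (XT.lf (nat_lit 0) (nat_lit 183102831) (nat_lit 380) (nat_lit 8602182645) (nat_lit 456) (nat_lit 3788751755) (nat_lit 166) (nat_lit 5) (nat_lit 171) (nat_lit 5) (nat_lit 172) (nat_lit 5) (nat_lit 614) (nat_lit 522) (nat_lit 424)))) (XT.nd (nat_lit 78) (nat_lit 836) (nat_lit 0) (XT.lf (nat_lit 0) (nat_lit 8762910896) (nat_lit 380) (nat_lit 3831865367) (nat_lit 456) (nat_lit 122529788) (nat_lit 166) (nat_lit 5) (nat_lit 171) (nat_lit 5) (nat_lit 172) (nat_lit 5) (nat_lit 615) (nat_lit 522) (nat_lit 423)) (XT.nd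 (nat_lit 78) (nat_lit 380) (nat_lit 0) (XT.lf (nat_lit 0) (nat_lit 3582830482) (nat_lit 456) (nat_lit 8218665165) (nat_lit 76) (nat_lit 1061210663) (nat_lit 160) (nat_lit 5) (nat_lit 166) (nat_lit 5) (nat_lit 161) (nat_lit 5) (nat_lit 616) (nat_lit 522) (nat_lit 422)) (XT.lf (nat_lit 0) (nat_lit 399062407) (nat_lit 380) (nat_lit 6992490200) (nat_lit 456) (nat_lit 5618828624) (nat_lit 155) (nat_lit 5) (nat_lit 160) (nat_lit 5) (nat_lit 161) (nat_lit 5) (nat_lit 617) (nat_lit 522) (nat_lit 421))))))))
noncomputable def xc72 : XT := (XT.nd (nat_lit 75192) (nat_lit 0) (nat_lit 27588) (XT.nd (nat_lit 74412) (nat_lit 0) (nat_lit 43168) (XT.nd (nat_lit 74022) (nat_lit 0) (nat_lit 46360) (XT.nd (nat_lit 73788) (nat_lit 0) (nat_lit 47196) (XT.nd (nat_lit 78) (nat_lit 380) (nat_lit 0) (XT.lf (nat_lit 0) (nat_lit 9263423801) (nat_lit 380) (nat_lit 2044616686) (nat_lit 456) (nat_lit 1852338085) (nat_lit 155) (nat_lit 5) (nat_lit 160) (nat_lit 5) (nat_lit 161) (nat_lit 5) (nat_lit 618) (nat_lit 522) (nat_lit 420)) (XT.lf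 (nat_lit 0) (nat_lit 1992357350) (nat_lit 380) (nat_lit 8324890468) (nat_lit 76) (nat_lit 2995291070) (nat_lit 150) (nat_lit 5) (nat_lit 155) (nat_lit 5) (nat_lit 151) (nat_lit 5) (nat_lit 619) (nat_lit 522) (nat_lit 419))) (XT.nd (nat_lit 78) (nat_lit 380) (nat_lit 0) (XT.lf (nat_lit 0) (nat_lit 1373098768) (nat_lit 0) (nat_lit 1373098768) (nat_lit 228) (nat_lit 483455764) (nat_lit 776) (nat_lit 5) (nat_lit 776) (nat_lit 3) (nat_lit 779) (nat_lit 3) (nat_lit 523) (nat_lit 523) (nat_lit 514)) (XT.nd (nat_lit 78) (nat_lit 0) (nat_lit 0) (XT.lf (nat_lit 0) (nat_lit 1937279607) (nat_lit 380) (nat_lit 496626181) (nat_lit 380) (nat_lit 4031780428) (nat_lit 771) (nat_lit 3) (nat_lit 776) (nat_lit 3) (nat_lit 776) (nat_lit 5) (nat_lit 524) (nat_lit 523) (nat_lit 513)) (XT.lf (nat_lit 76) (nat_lit 2775369477) (nat_lit 0) (nat_lit 2053174142) (nat_lit 380) (nat_lit 1644691634) (nat_lit 772) (nat_lit 5) (nat_lit 771) (nat_lit 3) (nat_lit 776) (nat_lit 5) (nat_lit 525) (nat_lit 523) (nat_lit 512))))) (XT.nd (nat_lit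 156) (nat_lit 456) (nat_lit 0) (XT.nd (nat_lit 78) (nat_lit 0) (nat_lit 0) (XT.lf (nat_lit 0) (nat_lit 1207688175) (nat_lit 380) (nat_lit 409339891) (nat_lit 456) (nat_lit 4865186932) (nat_lit 766) (nat_lit 5) (nat_lit 771) (nat_lit 3) (nat_lit 772) (nat_lit 5) (nat_lit 526) (nat_lit 523) (nat_lit 511)) (XT.lf (nat_lit 76) (nat_lit 2933749868) (nat_lit 0) (nat_lit 1106531595) (nat_lit 456) (nat_lit 2451979572) (nat_lit 767) (nat_lit 5) (nat_lit 766) (nat_lit 5) (nat_lit 772) (nat_lit 5) (nat_lit 527) (nat_lit 523) (nat_lit 510))) (XT.nd (nat_lit 78) (nat_lit 0) (nat_lit 76) (XT.lf (nat_lit 0) (nat_lit 351012599) (nat_lit 456) (nat_lit 195509682) (nat_lit 532) (nat_lit 5957345957) (nat_lit 760) (nat_lit 5) (nat_lit 766) (nat_lit 5) (nat_lit 767) (nat_lit 5) (nat_lit 528) (nat_lit 523) (nat_lit 509)) (XT.nd (nat_lit 78) (nat_lit 0) (nat_lit 0) (XT.lf (nat_lit 0) (nat_lit 3127067485) (nat_lit 456) (nat_lit 3294997369) (nat_lit 532) (nat_lit 94329317) (nat_lit 761) (nat_lit 5) (nat_lit 767) (nat_lit 5) (nat_lit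 768) (nat_lit 5) (nat_lit 529) (nat_lit 523) (nat_lit 508)) (XT.lf (nat_lit 76) (nat_lit 138218313) (nat_lit 0) (nat_lit 5755891695) (nat_lit 532) (nat_lit 636358573) (nat_lit 762) (nat_lit 5) (nat_lit 761) (nat_lit 5) (nat_lit 768) (nat_lit 5) (nat_lit 530) (nat_lit 523) (nat_lit 507)))))) (XT.nd (nat_lit 390) (nat_lit 2128) (nat_lit 0) (XT.nd (nat_lit 156) (nat_lit 608) (nat_lit 0) (XT.nd (nat_lit 78) (nat_lit 0) (nat_lit 0) (XT.lf (nat_lit 0) (nat_lit 2095729222) (nat_lit 532) (nat_lit 2914648940) (nat_lit 608) (nat_lit 1535120483) (nat_lit 754) (nat_lit 5) (nat_lit 761) (nat_lit 5) (nat_lit 762) (nat_lit 5) (nat_lit 531) (nat_lit 523) (nat_lit 506)) (XT.lf (nat_lit 76) (nat_lit 596124870) (nat_lit 0) (nat_lit 4213342985) (nat_lit 608) (nat_lit 1752573599) (nat_lit 755) (nat_lit 5) (nat_lit 754) (nat_lit 5) (nat_lit 762) (nat_lit 5) (nat_lit 532) (nat_lit 523) (nat_lit 505))) (XT.nd (nat_lit 78) (nat_lit 0) (nat_lit 0) (XT.lf (nat_lit 0) (nat_lit 937439800) (nat_lit 608) (nat_lit 2409140861) (nat_lit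 684) (nat_lit 3233171992) (nat_lit 746) (nat_lit 5) (nat_lit 754) (nat_lit 5) (nat_lit 755) (nat_lit 5) (nat_lit 533) (nat_lit 523) (nat_lit 504)) (XT.nd (nat_lit 78) (nat_lit 0) (nat_lit 0) (XT.lf (nat_lit 76) (nat_lit 1182846757) (nat_lit 0) (nat_lit 2416250999) (nat_lit 684) (nat_lit 2999668877) (nat_lit 747) (nat_lit 5) (nat_lit 746) (nat_lit 5) (nat_lit 755) (nat_lit 5) (nat_lit 534) (nat_lit 523) (nat_lit 503)) (XT.lf (nat_lit 76) (nat_lit 4839762292) (nat_lit 0) (nat_lit 1425047542) (nat_lit 684) (nat_lit 354340987) (nat_lit 747) (nat_lit 5) (nat_lit 746) (nat_lit 5) (nat_lit 755) (nat_lit 5) (nat_lit 535) (nat_lit 523) (nat_lit 502))))) (XT.nd (nat_lit 156) (nat_lit 1444) (nat_lit 0) (XT.nd (nat_lit 78) (nat_lit 0) (nat_lit 76) (XT.lf (nat_lit 76) (nat_lit 1899917364) (nat_lit 0) (nat_lit 361076272) (nat_lit 760) (nat_lit 4379693978) (nat_lit 738) (nat_lit 5) (nat_lit 737) (nat_lit 5) (nat_lit 747) (nat_lit 5) (nat_lit 536) (nat_lit 523) (nat_lit 501)) (XT.lf (nat_lit 0) (nat_lit 4877286775) (nat_lit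 684) (nat_lit 1033441348) (nat_lit 76) (nat_lit 752818227) (nat_lit 738) (nat_lit 5) (nat_lit 747) (nat_lit 5) (nat_lit 739) (nat_lit 5) (nat_lit 537) (nat_lit 523) (nat_lit 500))) (XT.nd (nat_lit 78) (nat_lit 760) (nat_lit 0) (XT.lf (nat_lit 0) (nat_lit 805597334) (nat_lit 760) (nat_lit 3951433337) (nat_lit 76) (nat_lit 1930569381) (nat_lit 728) (nat_lit 5) (nat_lit 738) (nat_lit 5) (nat_lit 729) (nat_lit 5) (nat_lit 538) (nat_lit 523) (nat_lit 499)) (XT.nd (nat_lit 78) (nat_lit 760) (nat_lit 0) (XT.lf (nat_lit 0) (nat_lit 3370837563) (nat_lit 760) (nat_lit 169282622) (nat_lit 76) (nat_lit 3172874850) (nat_lit 728) (nat_lit 5) (nat_lit 738) (nat_lit 5) (nat_lit 729) (nat_lit 5) (nat_lit 539) (nat_lit 523) (nat_lit 498)) (XT.lf (nat_lit 0) (nat_lit 3697209950) (nat_lit 760) (nat_lit 2253845010) (nat_lit 836) (nat_lit 788575035) (nat_lit 718) (nat_lit 5) (nat_lit 728) (nat_lit 5) (nat_lit 729) (nat_lit 5) (nat_lit 540) (nat_lit 523) (nat_lit 497))))))) (XT.nd (nat_lit 780) (nat_lit 9120) (nat_lit 0) (XT.nd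 (nat_lit 390) (nat_lit 3572) (nat_lit 0) (XT.nd (nat_lit 156) (nat_lit 1976) (nat_lit 0) (XT.nd (nat_lit 78) (nat_lit 0) (nat_lit 0) (XT.lf (nat_lit 0) (nat_lit 835380530) (nat_lit 836) (nat_lit 903642859) (nat_lit 912) (nat_lit 5028608501) (nat_lit 706) (nat_lit 5) (nat_lit 717) (nat_lit 5) (nat_lit 718) (nat_lit 5) (nat_lit 541) (nat_lit 523) (nat_lit 496)) (XT.lf (nat_lit 0) (nat_lit 4271480741) (nat_lit 912) (nat_lit 2013608829) (nat_lit 76) (nat_lit 511707889) (nat_lit 706) (nat_lit 5) (nat_lit 718) (nat_lit 5) (nat_lit 707) (nat_lit 5) (nat_lit 542) (nat_lit 523) (nat_lit 495))) (XT.nd (nat_lit 78) (nat_lit 1064) (nat_lit 0) (XT.lf (nat_lit 0) (nat_lit 1962604218) (nat_lit 912) (nat_lit 4853092263) (nat_lit 988) (nat_lit 11632778) (nat_lit 694) (nat_lit 5) (nat_lit 706) (nat_lit 5) (nat_lit 707) (nat_lit 5) (nat_lit 543) (nat_lit 523) (nat_lit 494)) (XT.nd (nat_lit 78) (nat_lit 988) (nat_lit 0) (XT.lf (nat_lit 0) (nat_lit 2475322228) (nat_lit 988) (nat_lit 870280954) (nat_lit 76) (nat_lit 3513412558)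 (nat_lit 693) (nat_lit 5) (nat_lit 706) (nat_lit 5) (nat_lit 694) (nat_lit 5) (nat_lit 544) (nat_lit 523) (nat_lit 493)) (XT.lf (nat_lit 0) (nat_lit 3205769056) (nat_lit 988) (nat_lit 1770895566) (nat_lit 1064) (nat_lit 1915378520) (nat_lit 680) (nat_lit 5) (nat_lit 693) (nat_lit 5) (nat_lit 694) (nat_lit 5) (nat_lit 545) (nat_lit 523) (nat_lit 492))))) (XT.nd (nat_lit 156) (nat_lit 2432) (nat_lit 0) (XT.nd (nat_lit 78) (nat_lit 0) (nat_lit 0) (XT.lf (nat_lit 0) (nat_lit 410225527) (nat_lit 1064) (nat_lit 137178635) (nat_lit 1140) (nat_lit 6379193327) (nat_lit 665) (nat_lit 5) (nat_lit 679) (nat_lit 5) (nat_lit 680) (nat_lit 5) (nat_lit 546) (nat_lit 523) (nat_lit 491)) (XT.lf (nat_lit 0) (nat_lit 3014026309) (nat_lit 1140) (nat_lit 2387153279) (nat_lit 76) (nat_lit 1560810040) (nat_lit 665) (nat_lit 5) (nat_lit 680) (nat_lit 5) (nat_lit 666) (nat_lit 5) (nat_lit 547) (nat_lit 523) (nat_lit 490))) (XT.nd (nat_lit 78) (nat_lit 1292) (nat_lit 0) (XT.lf (nat_lit 0) (nat_lit 1806600363) (nat_lit 1140) (nat_lit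 3682467113) (nat_lit 1216) (nat_lit 1509844845) (nat_lit 650) (nat_lit 5) (nat_lit 665) (nat_lit 5) (nat_lit 666) (nat_lit 5) (nat_lit 548) (nat_lit 523) (nat_lit 489)) (XT.nd (nat_lit 78) (nat_lit 1216) (nat_lit 0) (XT.lf (nat_lit 0) (nat_lit 927228511) (nat_lit 1216) (nat_lit 967391544) (nat_lit 76) (nat_lit 5142570681) (nat_lit 649) (nat_lit 5) (nat_lit 665) (nat_lit 5) (nat_lit 650) (nat_lit 5) (nat_lit 549) (nat_lit 523) (nat_lit 488)) (XT.lf (nat_lit 0) (nat_lit 3335304389) (nat_lit 1216) (nat_lit 27118946) (nat_lit 1292) (nat_lit 3714224034) (nat_lit 633) (nat_lit 5) (nat_lit 649) (nat_lit 5) (nat_lit 650) (nat_lit 5) (nat_lit 550) (nat_lit 523) (nat_lit 487)))))) (XT.nd (nat_lit 390) (nat_lit 4864) (nat_lit 0) (XT.nd (nat_lit 156) (nat_lit 2888) (nat_lit 0) (XT.nd (nat_lit 78) (nat_lit 76) (nat_lit 0) (XT.lf (nat_lit 0) (nat_lit 574399646) (nat_lit 1292) (nat_lit 5243133173) (nat_lit 1368) (nat_lit 1299940204) (nat_lit 616) (nat_lit 5) (nat_lit 633) (nat_lit 5) (nat_lit 634) (nat_lit 5) (nat_lit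 551) (nat_lit 523) (nat_lit 486)) (XT.lf (nat_lit 0) (nat_lit 1121988595) (nat_lit 1368) (nat_lit 2181046808) (nat_lit 76) (nat_lit 3856440616) (nat_lit 615) (nat_lit 5) (nat_lit 633) (nat_lit 5) (nat_lit 616) (nat_lit 5) (nat_lit 552) (nat_lit 523) (nat_lit 485))) (XT.nd (nat_lit 78) (nat_lit 1520) (nat_lit 0) (XT.lf (nat_lit 0) (nat_lit 2248203546) (nat_lit 1368) (nat_lit 1291511425) (nat_lit 1444) (nat_lit 3663140813) (nat_lit 597) (nat_lit 5) (nat_lit 615) (nat_lit 5) (nat_lit 616) (nat_lit 5) (nat_lit 553) (nat_lit 523) (nat_lit 484)) (XT.nd (nat_lit 78) (nat_lit 1520) (nat_lit 0) (XT.lf (nat_lit 0) (nat_lit 5976385779) (nat_lit 1444) (nat_lit 497905942) (nat_lit 76) (nat_lit 773403419) (nat_lit 597) (nat_lit 5) (nat_lit 616) (nat_lit 5) (nat_lit 598) (nat_lit 5) (nat_lit 554) (nat_lit 523) (nat_lit 483)) (XT.lf (nat_lit 0) (nat_lit 1139686810) (nat_lit 1520) (nat_lit 3249486104) (nat_lit 76) (nat_lit 2904377271) (nat_lit 577) (nat_lit 5) (nat_lit 597) (nat_lit 5) (nat_lit 578) (nat_lit 5) (nat_lit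 555) (nat_lit 523) (nat_lit 482))))) (XT.nd (nat_lit 156) (nat_lit 3344) (nat_lit 0) (XT.nd (nat_lit 78) (nat_lit 0) (nat_lit 0) (XT.lf (nat_lit 0) (nat_lit 1310899903) (nat_lit 1520) (nat_lit 2235116230) (nat_lit 1596) (nat_lit 3794858985) (nat_lit 557) (nat_lit 5) (nat_lit 577) (nat_lit 5) (nat_lit 578) (nat_lit 5) (nat_lit 556) (nat_lit 523) (nat_lit 481)) (XT.lf (nat_lit 0) (nat_lit 5965593812) (nat_lit 1520) (nat_lit 9600072) (nat_lit 1596) (nat_lit 1414461731) (nat_lit 557) (nat_lit 5) (nat_lit 577) (nat_lit 5) (nat_lit 578) (nat_lit 5) (nat_lit 557) (nat_lit 523) (nat_lit 480))) (XT.nd (nat_lit 78) (nat_lit 1672) (nat_lit 0) (XT.lf (nat_lit 0) (nat_lit 989906039) (nat_lit 1672) (nat_lit 4185181786) (nat_lit 76) (nat_lit 2264402544) (nat_lit 535) (nat_lit 5) (nat_lit 557) (nat_lit 5) (nat_lit 536) (nat_lit 5) (nat_lit 558) (nat_lit 523) (nat_lit 479)) (XT.nd (nat_lit 78) (nat_lit 0) (nat_lit 0) (XT.lf (nat_lit 0) (nat_lit 511177642) (nat_lit 1672) (nat_lit 2879476566) (nat_lit 1748) (nat_lit 4100139266)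 (nat_lit 513) (nat_lit 5) (nat_lit 535) (nat_lit 5) (nat_lit 536) (nat_lit 5) (nat_lit 559) (nat_lit 523) (nat_lit 478)) (XT.lf (nat_lit 0) (nat_lit 5317016608) (nat_lit 1672) (nat_lit 505328940) (nat_lit 1748) (nat_lit 1721121768) (nat_lit 513) (nat_lit 5) (nat_lit 535) (nat_lit 5) (nat_lit 536) (nat_lit 5) (nat_lit 560) (nat_lit 523) (nat_lit 477))))))))
noncomputable def xc73 : XT := (XT.nd (nat_lit 1560) (nat_lit 8664) (nat_lit 0) (XT.nd (nat_lit 780) (nat_lit 4864) (nat_lit 0) (XT.nd (nat_lit 390) (nat_lit 3572) (nat_lit 0) (XT.nd (nat_lit 156) (nat_lit 2964) (nat_lit 0) (XT.nd (nat_lit 78) (nat_lit 0) (nat_lit 0) (XT.lf (nat_lit 0) (nat_lit 681212914) (nat_lit 1824) (nat_lit 4999799170) (nat_lit 76) (nat_lit 1916394264) (nat_lit 489) (nat_lit 5) (nat_lit 513) (nat_lit 5) (nat_lit 490) (nat_lit 5) (nat_lit 561) (nat_lit 523) (nat_lit 476)) (XT.lf (nat_lit 0) (nat_lit 3083019508) (nat_lit 1824) (nat_lit 160243362) (nat_lit 76) (nat_lit 4409447391) (nat_lit 489) (nat_lit 5) (nat_lit 513) (nat_lit 5)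 (nat_lit 490) (nat_lit 5) (nat_lit 562) (nat_lit 523) (nat_lit 475))) (XT.nd (nat_lit 78) (nat_lit 1140) (nat_lit 0) (XT.lf (nat_lit 0) (nat_lit 4798248444) (nat_lit 1824) (nat_lit 722692050) (nat_lit 1900) (nat_lit 2188421182) (nat_lit 465) (nat_lit 5) (nat_lit 489) (nat_lit 5) (nat_lit 490) (nat_lit 5) (nat_lit 563) (nat_lit 523) (nat_lit 474)) (XT.nd (nat_lit 78) (nat_lit 0) (nat_lit 0) (XT.lf (nat_lit 0) (nat_lit 221218166) (nat_lit 1140) (nat_lit 5704278246) (nat_lit 76) (nat_lit 1841943388) (nat_lit 450) (nat_lit 5) (nat_lit 465) (nat_lit 5) (nat_lit 451) (nat_lit 5) (nat_lit 564) (nat_lit 523) (nat_lit 473)) (XT.lf (nat_lit 0) (nat_lit 2632030106) (nat_lit 1140) (nat_lit 710987953) (nat_lit 76) (nat_lit 4483729283) (nat_lit 450) (nat_lit 5) (nat_lit 465) (nat_lit 5) (nat_lit 451) (nat_lit 5) (nat_lit 565) (nat_lit 523) (nat_lit 472))))) (XT.nd (nat_lit 156) (nat_lit 1748) (nat_lit 0) (XT.nd (nat_lit 78) (nat_lit 912) (nat_lit 0) (XT.lf (nat_lit 0) (nat_lit 4399005380) (nat_lit 912) (nat_lit 679246379)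 (nat_lit 988) (nat_lit 2809248168) (nat_lit 438) (nat_lit 5) (nat_lit 450) (nat_lit 5) (nat_lit 451) (nat_lit 5) (nat_lit 566) (nat_lit 523) (nat_lit 471)) (XT.lf (nat_lit 0) (nat_lit 1638279708) (nat_lit 912) (nat_lit 5922969724) (nat_lit 988) (nat_lit 388463808) (nat_lit 426) (nat_lit 5) (nat_lit 438) (nat_lit 5) (nat_lit 439) (nat_lit 5) (nat_lit 567) (nat_lit 523) (nat_lit 470))) (XT.nd (nat_lit 78) (nat_lit 1672) (nat_lit 0) (XT.lf (nat_lit 0) (nat_lit 2040955202) (nat_lit 988) (nat_lit 1157666059) (nat_lit 76) (nat_lit 4814531807) (nat_lit 425) (nat_lit 5) (nat_lit 438) (nat_lit 5) (nat_lit 426) (nat_lit 5) (nat_lit 568) (nat_lit 523) (nat_lit 469)) (XT.nd (nat_lit 78) (nat_lit 836) (nat_lit 0) (XT.lf (nat_lit 0) (nat_lit 4109642589) (nat_lit 836) (nat_lit 391046260) (nat_lit 912) (nat_lit 3577385485) (nat_lit 414) (nat_lit 5) (nat_lit 425) (nat_lit 5) (nat_lit 426) (nat_lit 5) (nat_lit 569) (nat_lit 523) (nat_lit 468)) (XT.lf (nat_lit 0) (nat_lit 1313603572) (nat_lit 836) (nat_lit 5689164361) (nat_lit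 912) (nat_lit 1141665579) (nat_lit 403) (nat_lit 5) (nat_lit 414) (nat_lit 5) (nat_lit 415) (nat_lit 5) (nat_lit 570) (nat_lit 523) (nat_lit 467)))))) (XT.nd (nat_lit 390) (nat_lit 2280) (nat_lit 0) (XT.nd (nat_lit 156) (nat_lit 1672) (nat_lit 0) (XT.nd (nat_lit 78) (nat_lit 836) (nat_lit 0) (XT.lf (nat_lit 0) (nat_lit 1315545886) (nat_lit 912) (nat_lit 1509617456) (nat_lit 76) (nat_lit 5386976817) (nat_lit 402) (nat_lit 5) (nat_lit 414) (nat_lit 5) (nat_lit 403) (nat_lit 5) (nat_lit 571) (nat_lit 523) (nat_lit 466)) (XT.lf (nat_lit 0) (nat_lit 3794669699) (nat_lit 912) (nat_lit 4361052290) (nat_lit 76) (nat_lit 125569279) (nat_lit 391) (nat_lit 5) (nat_lit 403) (nat_lit 5) (nat_lit 392) (nat_lit 5) (nat_lit 572) (nat_lit 523) (nat_lit 465))) (XT.nd (nat_lit 78) (nat_lit 836) (nat_lit 0) (XT.lf (nat_lit 0) (nat_lit 1081668879) (nat_lit 836) (nat_lit 5239862147) (nat_lit 912) (nat_lit 2030333583) (nat_lit 380) (nat_lit 5) (nat_lit 391) (nat_lit 5) (nat_lit 392) (nat_lit 5) (nat_lit 573) (nat_lit 523) (nat_lit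 464)) (XT.nd (nat_lit 78) (nat_lit 760) (nat_lit 0) (XT.lf (nat_lit 0) (nat_lit 460758399) (nat_lit 912) (nat_lit 1775686114) (nat_lit 76) (nat_lit 6187507257) (nat_lit 379) (nat_lit 5) (nat_lit 391) (nat_lit 5) (nat_lit 380) (nat_lit 5) (nat_lit 574) (nat_lit 523) (nat_lit 463)) (XT.lf (nat_lit 0) (nat_lit 2968128761) (nat_lit 836) (nat_lit 4678311194) (nat_lit 76) (nat_lit 850901632) (nat_lit 369) (nat_lit 5) (nat_lit 380) (nat_lit 5) (nat_lit 370) (nat_lit 5) (nat_lit 575) (nat_lit 523) (nat_lit 462))))) (XT.nd (nat_lit 156) (nat_lit 1520) (nat_lit 0) (XT.nd (nat_lit 78) (nat_lit 0) (nat_lit 0) (XT.lf (nat_lit 0) (nat_lit 933985161) (nat_lit 760) (nat_lit 4588150493) (nat_lit 836) (nat_lit 3050135898) (nat_lit 359) (nat_lit 5) (nat_lit 369) (nat_lit 5) (nat_lit 370) (nat_lit 5) (nat_lit 576) (nat_lit 523) (nat_lit 461)) (XT.lf (nat_lit 0) (nat_lit 6681089085) (nat_lit 760) (nat_lit 1441595106) (nat_lit 836) (nat_lit 526108791) (nat_lit 359) (nat_lit 5) (nat_lit 369) (nat_lit 5) (nat_lit 370) (nat_lit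 5) (nat_lit 577) (nat_lit 523) (nat_lit 460))) (XT.nd (nat_lit 78) (nat_lit 760) (nat_lit 0) (XT.lf (nat_lit 0) (nat_lit 2022521055) (nat_lit 760) (nat_lit 4926027003) (nat_lit 76) (nat_lit 1778013055) (nat_lit 349) (nat_lit 5) (nat_lit 359) (nat_lit 5) (nat_lit 350) (nat_lit 5) (nat_lit 578) (nat_lit 523) (nat_lit 459)) (XT.nd (nat_lit 78) (nat_lit 0) (nat_lit 0) (XT.lf (nat_lit 0) (nat_lit 862453421) (nat_lit 760) (nat_lit 3746007261) (nat_lit 836) (nat_lit 4197488712) (nat_lit 339) (nat_lit 5) (nat_lit 349) (nat_lit 5) (nat_lit 350) (nat_lit 5) (nat_lit 579) (nat_lit 523) (nat_lit 458)) (XT.lf (nat_lit 0) (nat_lit 6792817996) (nat_lit 760) (nat_lit 451717679) (nat_lit 836) (nat_lit 1642423367) (nat_lit 339) (nat_lit 5) (nat_lit 349) (nat_lit 5) (nat_lit 350) (nat_lit 5) (nat_lit 580) (nat_lit 523) (nat_lit 457))))))) (XT.nd (nat_lit 780) (nat_lit 3952) (nat_lit 0) (XT.nd (nat_lit 390) (nat_lit 1900) (nat_lit 0) (XT.nd (nat_lit 156) (nat_lit 1368) (nat_lit 0) (XT.nd (nat_lit 78) (nat_lit 684) (nat_lit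 0) (XT.lf (nat_lit 0) (nat_lit 961136931) (nat_lit 760) (nat_lit 5112231654) (nat_lit 76) (nat_lit 2895896346) (nat_lit 329) (nat_lit 5) (nat_lit 339) (nat_lit 5) (nat_lit 330) (nat_lit 5) (nat_lit 581) (nat_lit 523) (nat_lit 456)) (XT.lf (nat_lit 0) (nat_lit 859300807) (nat_lit 684) (nat_lit 2724394966) (nat_lit 760) (nat_lit 5469527471) (nat_lit 320) (nat_lit 5) (nat_lit 329) (nat_lit 5) (nat_lit 330) (nat_lit 5) (nat_lit 582) (nat_lit 523) (nat_lit 455))) (XT.nd (nat_lit 78) (nat_lit 1368) (nat_lit 0) (XT.lf (nat_lit 0) (nat_lit 6264266288) (nat_lit 760) (nat_lit 2164376613) (nat_lit 76) (nat_lit 710108401) (nat_lit 320) (nat_lit 5) (nat_lit 330) (nat_lit 5) (nat_lit 321) (nat_lit 5) (nat_lit 583) (nat_lit 523) (nat_lit 454)) (XT.nd (nat_lit 78) (nat_lit 760) (nat_lit 0) (XT.lf (nat_lit 0) (nat_lit 3979670377) (nat_lit 608) (nat_lit 5029852458) (nat_lit 684) (nat_lit 216247343) (nat_lit 312) (nat_lit 5) (nat_lit 320) (nat_lit 5) (nat_lit 321) (nat_lit 5) (nat_lit 584) (nat_lit 523) (nat_lit 453)) (XT.lf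 (nat_lit 0) (nat_lit 917016310) (nat_lit 684) (nat_lit 1533349438) (nat_lit 760) (nat_lit 6864082663) (nat_lit 302) (nat_lit 5) (nat_lit 311) (nat_lit 5) (nat_lit 312) (nat_lit 5) (nat_lit 585) (nat_lit 523) (nat_lit 452))))) (XT.nd (nat_lit 156) (nat_lit 1292) (nat_lit 0) (XT.nd (nat_lit 78) (nat_lit 608) (nat_lit 0) (XT.lf (nat_lit 0) (nat_lit 5183744641) (nat_lit 760) (nat_lit 2185296446) (nat_lit 76) (nat_lit 2035505601) (nat_lit 302) (nat_lit 5) (nat_lit 312) (nat_lit 5) (nat_lit 303) (nat_lit 5) (nat_lit 586) (nat_lit 523) (nat_lit 451)) (XT.lf (nat_lit 0) (nat_lit 4155484114) (nat_lit 608) (nat_lit 3821764363) (nat_lit 684) (nat_lit 1519090926) (nat_lit 294) (nat_lit 5) (nat_lit 302) (nat_lit 5) (nat_lit 303) (nat_lit 5) (nat_lit 587) (nat_lit 523) (nat_lit 450))) (XT.nd (nat_lit 78) (nat_lit 608) (nat_lit 0) (XT.lf (nat_lit 0) (nat_lit 1028286951) (nat_lit 608) (nat_lit 182063573) (nat_lit 684) (nat_lit 8379660119) (nat_lit 285) (nat_lit 5) (nat_lit 293) (nat_lit 5) (nat_lit 294) (nat_lit 5) (nat_lit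 588) (nat_lit 523) (nat_lit 449)) (XT.nd (nat_lit 78) (nat_lit 608) (nat_lit 0) (XT.lf (nat_lit 0) (nat_lit 4001838654) (nat_lit 684) (nat_lit 2161254678) (nat_lit 76) (nat_lit 3521706707) (nat_lit 285) (nat_lit 5) (nat_lit 294) (nat_lit 5) (nat_lit 286) (nat_lit 5) (nat_lit 589) (nat_lit 523) (nat_lit 448)) (XT.lf (nat_lit 0) (nat_lit 4383900454) (nat_lit 608) (nat_lit 2464317412) (nat_lit 684) (nat_lit 2933287627) (nat_lit 277) (nat_lit 5) (nat_lit 285) (nat_lit 5) (nat_lit 286) (nat_lit 5) (nat_lit 590) (nat_lit 523) (nat_lit 447)))))) (XT.nd (nat_lit 390) (nat_lit 2128) (nat_lit 0) (XT.nd (nat_lit 156) (nat_lit 1140) (nat_lit 0) (XT.nd (nat_lit 78) (nat_lit 76) (nat_lit 0) (XT.lf (nat_lit 0) (nat_lit 1176336386) (nat_lit 608) (nat_lit 8575598300) (nat_lit 684) (nat_lit 128203635) (nat_lit 269) (nat_lit 5) (nat_lit 277) (nat_lit 5) (nat_lit 278) (nat_lit 5) (nat_lit 591) (nat_lit 523) (nat_lit 446)) (XT.lf (nat_lit 0) (nat_lit 2719734354) (nat_lit 684) (nat_lit 2099441307) (nat_lit 76) (nat_lit 5160762748)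 (nat_lit 268) (nat_lit 5) (nat_lit 277) (nat_lit 5) (nat_lit 269) (nat_lit 5) (nat_lit 592) (nat_lit 523) (nat_lit 445))) (XT.nd (nat_lit 78) (nat_lit 608) (nat_lit 0) (XT.lf (nat_lit 0) (nat_lit 4657992690) (nat_lit 532) (nat_lit 965573249) (nat_lit 608) (nat_lit 4458139964) (nat_lit 261) (nat_lit 5) (nat_lit 268) (nat_lit 5) (nat_lit 269) (nat_lit 5) (nat_lit 593) (nat_lit 523) (nat_lit 444)) (XT.nd (nat_lit 78) (nat_lit 76) (nat_lit 0) (XT.lf (nat_lit 0) (nat_lit 1352682379) (nat_lit 532) (nat_lit 7245678327) (nat_lit 608) (nat_lit 1586891664) (nat_lit 254) (nat_lit 5) (nat_lit 261) (nat_lit 5) (nat_lit 262) (nat_lit 5) (nat_lit 594) (nat_lit 523) (nat_lit 443)) (XT.lf (nat_lit 0) (nat_lit 1338013153) (nat_lit 608) (nat_lit 2007013232) (nat_lit 76) (nat_lit 6945393863) (nat_lit 253) (nat_lit 5) (nat_lit 261) (nat_lit 5) (nat_lit 254) (nat_lit 5) (nat_lit 595) (nat_lit 523) (nat_lit 442))))) (XT.nd (nat_lit 234) (nat_lit 1064) (nat_lit 0) (XT.nd (nat_lit 78) (nat_lit 532) (nat_lit 0) (XT.lf (nat_lit 0)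 (nat_lit 4308162771) (nat_lit 608) (nat_lit 5430873650) (nat_lit 76) (nat_lit 658286647) (nat_lit 246) (nat_lit 5) (nat_lit 254) (nat_lit 5) (nat_lit 247) (nat_lit 5) (nat_lit 596) (nat_lit 523) (nat_lit 441)) (XT.nd (nat_lit 78) (nat_lit 0) (nat_lit 0) (XT.lf (nat_lit 0) (nat_lit 1559587495) (nat_lit 532) (nat_lit 5795577671) (nat_lit 608) (nat_lit 3150851036) (nat_lit 239) (nat_lit 5) (nat_lit 246) (nat_lit 5) (nat_lit 247) (nat_lit 5) (nat_lit 597) (nat_lit 523) (nat_lit 440)) (XT.lf (nat_lit 0) (nat_lit 8724614714) (nat_lit 532) (nat_lit 1746855301) (nat_lit 608) (nat_lit 145247160) (nat_lit 239) (nat_lit 5) (nat_lit 246) (nat_lit 5) (nat_lit 247) (nat_lit 5) (nat_lit 598) (nat_lit 523) (nat_lit 439)))) (XT.nd (nat_lit 78) (nat_lit 532) (nat_lit 0) (XT.lf (nat_lit 0) (nat_lit 2904719495) (nat_lit 532) (nat_lit 5429277373) (nat_lit 76) (nat_lit 2394806183) (nat_lit 232) (nat_lit 5) (nat_lit 239) (nat_lit 5) (nat_lit 233) (nat_lit 5) (nat_lit 599) (nat_lit 523) (nat_lit 438)) (XT.nd (nat_lit 78) (nat_lit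 0) (nat_lit 0) (XT.lf (nat_lit 0) (nat_lit 1789924264) (nat_lit 532) (nat_lit 4232299934) (nat_lit 608) (nat_lit 4820718729) (nat_lit 225) (nat_lit 5) (nat_lit 232) (nat_lit 5) (nat_lit 233) (nat_lit 5) (nat_lit 600) (nat_lit 523) (nat_lit 437)) (XT.lf (nat_lit 0) (nat_lit 9188665812) (nat_lit 532) (nat_lit 22646636) (nat_lit 608) (nat_lit 1747869617) (nat_lit 225) (nat_lit 5) (nat_lit 232) (nat_lit 5) (nat_lit 233) (nat_lit 5) (nat_lit 601) (nat_lit 523) (nat_lit 436))))))))
noncomputable def xc74 : XT := (XT.nd (nat_lit 75270) (nat_lit 0) (nat_lit 39824) (XT.nd (nat_lit 780) (nat_lit 2052) (nat_lit 0) (XT.nd (nat_lit 390) (nat_lit 1292) (nat_lit 0) (XT.nd (nat_lit 156) (nat_lit 988) (nat_lit 0) (XT.nd (nat_lit 78) (nat_lit 456) (nat_lit 0) (XT.lf (nat_lit 0) (nat_lit 1406283487) (nat_lit 532) (nat_lit 5420175687) (nat_lit 76) (nat_lit 4250347260) (nat_lit 218) (nat_lit 5) (nat_lit 225) (nat_lit 5) (nat_lit 219) (nat_lit 5) (nat_lit 602) (nat_lit 523) (nat_lit 435)) (XT.lf (nat_lit 0) (nat_lit 2036426313)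 (nat_lit 456) (nat_lit 2562406674) (nat_lit 532) (nat_lit 6597745955) (nat_lit 212) (nat_lit 5) (nat_lit 218) (nat_lit 5) (nat_lit 219) (nat_lit 5) (nat_lit 603) (nat_lit 523) (nat_lit 434))) (XT.nd (nat_lit 78) (nat_lit 988) (nat_lit 0) (XT.lf (nat_lit 0) (nat_lit 7877012318) (nat_lit 532) (nat_lit 1652683666) (nat_lit 76) (nat_lit 1788616388) (nat_lit 212) (nat_lit 5) (nat_lit 219) (nat_lit 5) (nat_lit 213) (nat_lit 5) (nat_lit 604) (nat_lit 523) (nat_lit 433)) (XT.nd (nat_lit 78) (nat_lit 532) (nat_lit 0) (XT.lf (nat_lit 0) (nat_lit 6029341305) (nat_lit 456) (nat_lit 5221612168) (nat_lit 532) (nat_lit 190924059) (nat_lit 206) (nat_lit 5) (nat_lit 212) (nat_lit 5) (nat_lit 213) (nat_lit 5) (nat_lit 605) (nat_lit 523) (nat_lit 432)) (XT.lf (nat_lit 0) (nat_lit 2291616774) (nat_lit 456) (nat_lit 792083679) (nat_lit 532) (nat_lit 8483804430) (nat_lit 199) (nat_lit 5) (nat_lit 205) (nat_lit 5) (nat_lit 206) (nat_lit 5) (nat_lit 606) (nat_lit 523) (nat_lit 431))))) (XT.nd (nat_lit 156) (nat_lit 912) (nat_lit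 0) (XT.nd (nat_lit 78) (nat_lit 380) (nat_lit 0) (XT.lf (nat_lit 0) (nat_lit 6456377841) (nat_lit 532) (nat_lit 1535375542) (nat_lit 76) (nat_lit 3703164788) (nat_lit 199) (nat_lit 5) (nat_lit 206) (nat_lit 5) (nat_lit 200) (nat_lit 5) (nat_lit 607) (nat_lit 523) (nat_lit 430)) (XT.lf (nat_lit 0) (nat_lit 6401420666) (nat_lit 380) (nat_lit 3516759761) (nat_lit 456) (nat_lit 1906266813) (nat_lit 194) (nat_lit 5) (nat_lit 199) (nat_lit 5) (nat_lit 200) (nat_lit 5) (nat_lit 608) (nat_lit 523) (nat_lit 429))) (XT.nd (nat_lit 78) (nat_lit 380) (nat_lit 0) (XT.lf (nat_lit 0) (nat_lit 1481904822) (nat_lit 532) (nat_lit 9415568771) (nat_lit 76) (nat_lit 1058723802) (nat_lit 187) (nat_lit 5) (nat_lit 194) (nat_lit 5) (nat_lit 188) (nat_lit 5) (nat_lit 609) (nat_lit 523) (nat_lit 428)) (XT.nd (nat_lit 78) (nat_lit 380) (nat_lit 0) (XT.lf (nat_lit 0) (nat_lit 4947382455) (nat_lit 532) (nat_lit 1426439528) (nat_lit 76) (nat_lit 5715808105) (nat_lit 187) (nat_lit 5) (nat_lit 194) (nat_lit 5) (nat_lit 188) (nat_lit 5)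 (nat_lit 610) (nat_lit 523) (nat_lit 427)) (XT.lf (nat_lit 0) (nat_lit 6774559911) (nat_lit 380) (nat_lit 1727203933) (nat_lit 456) (nat_lit 3723576584) (nat_lit 182) (nat_lit 5) (nat_lit 187) (nat_lit 5) (nat_lit 188) (nat_lit 5) (nat_lit 611) (nat_lit 523) (nat_lit 426)))))) (XT.nd (nat_lit 390) (nat_lit 760) (nat_lit 0) (XT.nd (nat_lit 156) (nat_lit 836) (nat_lit 0) (XT.nd (nat_lit 78) (nat_lit 76) (nat_lit 0) (XT.lf (nat_lit 0) (nat_lit 2775193554) (nat_lit 380) (nat_lit 9375021493) (nat_lit 456) (nat_lit 213091142) (nat_lit 177) (nat_lit 5) (nat_lit 182) (nat_lit 5) (nat_lit 183) (nat_lit 5) (nat_lit 612) (nat_lit 523) (nat_lit 425)) (XT.lf (nat_lit 0) (nat_lit 3347542857) (nat_lit 456) (nat_lit 1334273753) (nat_lit 76) (nat_lit 7821296075) (nat_lit 176) (nat_lit 5) (nat_lit 182) (nat_lit 5) (nat_lit 177) (nat_lit 5) (nat_lit 613) (nat_lit 523) (nat_lit 424))) (XT.nd (nat_lit 78) (nat_lit 456) (nat_lit 0) (XT.lf (nat_lit 0) (nat_lit 7000139286) (nat_lit 456) (nat_lit 5505548165) (nat_lit 76) (nat_lit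 139528437) (nat_lit 171) (nat_lit 5) (nat_lit 177) (nat_lit 5) (nat_lit 172) (nat_lit 5) (nat_lit 614) (nat_lit 523) (nat_lit 423)) (XT.nd (nat_lit 78) (nat_lit 76) (nat_lit 0) (XT.lf (nat_lit 0) (nat_lit 2982821569) (nat_lit 380) (nat_lit 7778820369) (nat_lit 456) (nat_lit 2027802924) (nat_lit 166) (nat_lit 5) (nat_lit 171) (nat_lit 5) (nat_lit 172) (nat_lit 5) (nat_lit 615) (nat_lit 523) (nat_lit 422)) (XT.lf (nat_lit 0) (nat_lit 1653751796) (nat_lit 456) (nat_lit 1267765167) (nat_lit 76) (nat_lit 10014551812) (nat_lit 165) (nat_lit 5) (nat_lit 171) (nat_lit 5) (nat_lit 166) (nat_lit 5) (nat_lit 616) (nat_lit 523) (nat_lit 421))))) (XT.nd (nat_lit 156) (nat_lit 0) (nat_lit 0) (XT.nd (nat_lit 78) (nat_lit 380) (nat_lit 0) (XT.lf (nat_lit 0) (nat_lit 5420974562) (nat_lit 456) (nat_lit 5607469828) (nat_lit 76) (nat_lit 2056129664) (nat_lit 160) (nat_lit 5) (nat_lit 166) (nat_lit 5) (nat_lit 161) (nat_lit 5) (nat_lit 617) (nat_lit 523) (nat_lit 420)) (XT.lf (nat_lit 0) (nat_lit 3164351975) (nat_lit 380) (nat_lit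 6124784419) (nat_lit 456) (nat_lit 3946401884) (nat_lit 155) (nat_lit 5) (nat_lit 160) (nat_lit 5) (nat_lit 161) (nat_lit 5) (nat_lit 618) (nat_lit 523) (nat_lit 419))) (XT.nd (nat_lit 73788) (nat_lit 0) (nat_lit 46436) (XT.lf (nat_lit 0) (nat_lit 12151935728) (nat_lit 380) (nat_lit 1097709427) (nat_lit 456) (nat_lit 139577677) (nat_lit 155) (nat_lit 5) (nat_lit 160) (nat_lit 5) (nat_lit 161) (nat_lit 5) (nat_lit 619) (nat_lit 523) (nat_lit 418)) (XT.nd (nat_lit 78) (nat_lit 380) (nat_lit 0) (XT.lf (nat_lit 0) (nat_lit 2395559207) (nat_lit 380) (nat_lit 420394857) (nat_lit 380) (nat_lit 420394857) (nat_lit 771) (nat_lit 3) (nat_lit 776) (nat_lit 3) (nat_lit 776) (nat_lit 5) (nat_lit 524) (nat_lit 524) (nat_lit 512)) (XT.lf (nat_lit 0) (nat_lit 1146784282) (nat_lit 380) (nat_lit 4081037728) (nat_lit 456) (nat_lit 1253064453) (nat_lit 766) (nat_lit 5) (nat_lit 771) (nat_lit 3) (nat_lit 772) (nat_lit 5) (nat_lit 525) (nat_lit 524) (nat_lit 511))))))) (XT.nd (nat_lit 780) (nat_lit 4408) (nat_lit 0) (XT.nd (nat_lit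 390) (nat_lit 1216) (nat_lit 0) (XT.nd (nat_lit 156) (nat_lit 532) (nat_lit 0) (XT.nd (nat_lit 78) (nat_lit 456) (nat_lit 0) (XT.lf (nat_lit 0) (nat_lit 3941019342) (nat_lit 380) (nat_lit 822393887) (nat_lit 456) (nat_lit 1726974804) (nat_lit 766) (nat_lit 5) (nat_lit 771) (nat_lit 3) (nat_lit 772) (nat_lit 5) (nat_lit 526) (nat_lit 524) (nat_lit 510)) (XT.lf (nat_lit 0) (nat_lit 230637210) (nat_lit 456) (nat_lit 4006599894) (nat_lit 532) (nat_lit 2263944419) (nat_lit 760) (nat_lit 5) (nat_lit 766) (nat_lit 5) (nat_lit 767) (nat_lit 5) (nat_lit 527) (nat_lit 524) (nat_lit 509))) (XT.nd (nat_lit 78) (nat_lit 532) (nat_lit 0) (XT.lf (nat_lit 0) (nat_lit 2965958380) (nat_lit 456) (nat_lit 678697126) (nat_lit 532) (nat_lit 2868528760) (nat_lit 760) (nat_lit 5) (nat_lit 766) (nat_lit 5) (nat_lit 767) (nat_lit 5) (nat_lit 528) (nat_lit 524) (nat_lit 508)) (XT.nd (nat_lit 78) (nat_lit 532) (nat_lit 0) (XT.lf (nat_lit 76) (nat_lit 2713368389) (nat_lit 0) (nat_lit 2989905202) (nat_lit 532) (nat_lit 823215010) (nat_lit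 761) (nat_lit 5) (nat_lit 760) (nat_lit 5) (nat_lit 767) (nat_lit 5) (nat_lit 529) (nat_lit 524) (nat_lit 507)) (XT.lf (nat_lit 0) (nat_lit 1864556222) (nat_lit 532) (nat_lit 408882417) (nat_lit 608) (nat_lit 4267675012) (nat_lit 753) (nat_lit 5) (nat_lit 760) (nat_lit 5) (nat_lit 761) (nat_lit 5) (nat_lit 530) (nat_lit 524) (nat_lit 506))))) (XT.nd (nat_lit 156) (nat_lit 608) (nat_lit 0) (XT.nd (nat_lit 78) (nat_lit 608) (nat_lit 0) (XT.lf (nat_lit 76) (nat_lit 3060217303) (nat_lit 0) (nat_lit 1486427245) (nat_lit 608) (nat_lit 2010253004) (nat_lit 754) (nat_lit 5) (nat_lit 753) (nat_lit 5) (nat_lit 761) (nat_lit 5) (nat_lit 531) (nat_lit 524) (nat_lit 505)) (XT.lf (nat_lit 0) (nat_lit 635184075) (nat_lit 608) (nat_lit 11887299) (nat_lit 684) (nat_lit 5927138040) (nat_lit 745) (nat_lit 5) (nat_lit 753) (nat_lit 5) (nat_lit 754) (nat_lit 5) (nat_lit 532) (nat_lit 524) (nat_lit 504))) (XT.nd (nat_lit 78) (nat_lit 684) (nat_lit 0) (XT.lf (nat_lit 0) (nat_lit 3265065627) (nat_lit 608) (nat_lit 3056375697)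 (nat_lit 684) (nat_lit 270997848) (nat_lit 746) (nat_lit 5) (nat_lit 754) (nat_lit 5) (nat_lit 755) (nat_lit 5) (nat_lit 533) (nat_lit 524) (nat_lit 503)) (XT.nd (nat_lit 78) (nat_lit 684) (nat_lit 0) (XT.lf (nat_lit 76) (nat_lit 507422206) (nat_lit 0) (nat_lit 5382693926) (nat_lit 684) (nat_lit 722072312) (nat_lit 747) (nat_lit 5) (nat_lit 746) (nat_lit 5) (nat_lit 755) (nat_lit 5) (nat_lit 534) (nat_lit 524) (nat_lit 502)) (XT.lf (nat_lit 0) (nat_lit 1866103635) (nat_lit 684) (nat_lit 2500353489) (nat_lit 760) (nat_lit 2266507348) (nat_lit 737) (nat_lit 5) (nat_lit 746) (nat_lit 5) (nat_lit 747) (nat_lit 5) (nat_lit 535) (nat_lit 524) (nat_lit 501)))))) (XT.nd (nat_lit 390) (nat_lit 2888) (nat_lit 0) (XT.nd (nat_lit 156) (nat_lit 760) (nat_lit 0) (XT.nd (nat_lit 78) (nat_lit 760) (nat_lit 0) (XT.lf (nat_lit 76) (nat_lit 1147537577) (nat_lit 0) (nat_lit 3293066430) (nat_lit 760) (nat_lit 2214577946) (nat_lit 738) (nat_lit 5) (nat_lit 737) (nat_lit 5) (nat_lit 747) (nat_lit 5) (nat_lit 536) (nat_lit 524)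 (nat_lit 500)) (XT.lf (nat_lit 0) (nat_lit 337882780) (nat_lit 760) (nat_lit 1817324779) (nat_lit 836) (nat_lit 4523506876) (nat_lit 727) (nat_lit 5) (nat_lit 737) (nat_lit 5) (nat_lit 738) (nat_lit 5) (nat_lit 537) (nat_lit 524) (nat_lit 499))) (XT.nd (nat_lit 78) (nat_lit 760) (nat_lit 0) (XT.lf (nat_lit 76) (nat_lit 1918610960) (nat_lit 0) (nat_lit 944182694) (nat_lit 836) (nat_lit 3840615700) (nat_lit 728) (nat_lit 5) (nat_lit 727) (nat_lit 5) (nat_lit 738) (nat_lit 5) (nat_lit 538) (nat_lit 524) (nat_lit 498)) (XT.nd (nat_lit 78) (nat_lit 836) (nat_lit 0) (XT.lf (nat_lit 0) (nat_lit 5392036111) (nat_lit 760) (nat_lit 1016215800) (nat_lit 76) (nat_lit 321275117) (nat_lit 728) (nat_lit 5) (nat_lit 738) (nat_lit 5) (nat_lit 729) (nat_lit 5) (nat_lit 539) (nat_lit 524) (nat_lit 497)) (XT.lf (nat_lit 0) (nat_lit 1164927094) (nat_lit 836) (nat_lit 3945075591) (nat_lit 76) (nat_lit 1646708321) (nat_lit 717) (nat_lit 5) (nat_lit 728) (nat_lit 5) (nat_lit 718) (nat_lit 5) (nat_lit 540) (nat_lit 524) (nat_lit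 496))))) (XT.nd (nat_lit 234) (nat_lit 1064) (nat_lit 0) (XT.nd (nat_lit 78) (nat_lit 1824) (nat_lit 0) (XT.lf (nat_lit 0) (nat_lit 3647733553) (nat_lit 836) (nat_lit 102924531) (nat_lit 76) (nat_lit 3034643988) (nat_lit 717) (nat_lit 5) (nat_lit 728) (nat_lit 5) (nat_lit 718) (nat_lit 5) (nat_lit 541) (nat_lit 524) (nat_lit 495)) (XT.nd (nat_lit 78) (nat_lit 988) (nat_lit 0) (XT.lf (nat_lit 0) (nat_lit 3827504958) (nat_lit 836) (nat_lit 2320059378) (nat_lit 912) (nat_lit 667558364) (nat_lit 706) (nat_lit 5) (nat_lit 717) (nat_lit 5) (nat_lit 718) (nat_lit 5) (nat_lit 542) (nat_lit 524) (nat_lit 494)) (XT.lf (nat_lit 0) (nat_lit 953620969) (nat_lit 912) (nat_lit 823845219) (nat_lit 988) (nat_lit 5068839956) (nat_lit 693) (nat_lit 5) (nat_lit 705) (nat_lit 5) (nat_lit 706) (nat_lit 5) (nat_lit 543) (nat_lit 524) (nat_lit 493)))) (XT.nd (nat_lit 78) (nat_lit 1064) (nat_lit 0) (XT.lf (nat_lit 0) (nat_lit 4231191920) (nat_lit 988) (nat_lit 1912893487) (nat_lit 76) (nat_lit 734569623) (nat_lit 693) (nat_lit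 5) (nat_lit 706) (nat_lit 5) (nat_lit 694) (nat_lit 5) (nat_lit 544) (nat_lit 524) (nat_lit 492)) (XT.nd (nat_lit 78) (nat_lit 76) (nat_lit 0) (XT.lf (nat_lit 0) (nat_lit 2129506022) (nat_lit 988) (nat_lit 4568856401) (nat_lit 1064) (nat_lit 214005781) (nat_lit 680) (nat_lit 5) (nat_lit 693) (nat_lit 5) (nat_lit 694) (nat_lit 5) (nat_lit 545) (nat_lit 524) (nat_lit 491)) (XT.lf (nat_lit 0) (nat_lit 2196842988) (nat_lit 1064) (nat_lit 722556271) (nat_lit 76) (nat_lit 4027897008) (nat_lit 679) (nat_lit 5) (nat_lit 693) (nat_lit 5) (nat_lit 680) (nat_lit 5) (nat_lit 546) (nat_lit 524) (nat_lit 490))))))))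
noncomputable def xc75 : XT := (XT.nd (nat_lit 1560) (nat_lit 10944) (nat_lit 0) (XT.nd (nat_lit 780) (nat_lit 10564) (nat_lit 0) (XT.nd (nat_lit 390) (nat_lit 4180) (nat_lit 0) (XT.nd (nat_lit 156) (nat_lit 1292) (nat_lit 0) (XT.nd (nat_lit 78) (nat_lit 1216) (nat_lit 0) (XT.lf (nat_lit 0) (nat_lit 3423288980) (nat_lit 1064) (nat_lit 1198598425) (nat_lit 1140) (nat_lit 2361634755) (nat_lit 665) (nat_lit 5) (nat_lit 679) (nat_lit 5) (nat_lit 680) (nat_lit 5) (nat_lit 547) (nat_lit 524) (nat_lit 489)) (XT.lf (nat_lit 0) (nat_lit 33633434) (nat_lit 1216) (nat_lit 6415765585) (nat_lit 76) (nat_lit 571874960) (nat_lit 649) (nat_lit 5) (nat_lit 665) (nat_lit 5) (nat_lit 650) (nat_lit 5) (nat_lit 548) (nat_lit 524) (nat_lit 488))) (XT.nd (nat_lit 78) (nat_lit 1292) (nat_lit 0) (XT.lf (nat_lit 0) (nat_lit 2425124170) (nat_lit 1216) (nat_lit 2220681270) (nat_lit 76) (nat_lit 2414068584) (nat_lit 649) (nat_lit 5) (nat_lit 665) (nat_lit 5) (nat_lit 650) (nat_lit 5) (nat_lit 549) (nat_lit 524) (nat_lit 487)) (XT.nd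 (nat_lit 78) (nat_lit 76) (nat_lit 0) (XT.lf (nat_lit 0) (nat_lit 2045457714) (nat_lit 1216) (nat_lit 2781211510) (nat_lit 1292) (nat_lit 2273336460) (nat_lit 633) (nat_lit 5) (nat_lit 649) (nat_lit 5) (nat_lit 650) (nat_lit 5) (nat_lit 550) (nat_lit 524) (nat_lit 486)) (XT.lf (nat_lit 0) (nat_lit 97883362) (nat_lit 1292) (nat_lit 754687303) (nat_lit 76) (nat_lit 6289068634) (nat_lit 632) (nat_lit 5) (nat_lit 649) (nat_lit 5) (nat_lit 633) (nat_lit 5) (nat_lit 551) (nat_lit 524) (nat_lit 485))))) (XT.nd (nat_lit 156) (nat_lit 1520) (nat_lit 0) (XT.nd (nat_lit 78) (nat_lit 1368) (nat_lit 0) (XT.lf (nat_lit 0) (nat_lit 2467552651) (nat_lit 1368) (nat_lit 3567544760) (nat_lit 76) (nat_lit 1149082207) (nat_lit 615) (nat_lit 5) (nat_lit 633) (nat_lit 5) (nat_lit 616) (nat_lit 5) (nat_lit 552) (nat_lit 524) (nat_lit 484)) (XT.lf (nat_lit 0) (nat_lit 823168662) (nat_lit 1368) (nat_lit 4028664783) (nat_lit 1444) (nat_lit 2376396728) (nat_lit 597) (nat_lit 5) (nat_lit 615) (nat_lit 5) (nat_lit 616) (nat_lit 5) (nat_lit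 553) (nat_lit 524) (nat_lit 483))) (XT.nd (nat_lit 78) (nat_lit 1520) (nat_lit 0) (XT.lf (nat_lit 0) (nat_lit 5310227490) (nat_lit 1368) (nat_lit 1949341634) (nat_lit 1444) (nat_lit 14080947) (nat_lit 597) (nat_lit 5) (nat_lit 615) (nat_lit 5) (nat_lit 616) (nat_lit 5) (nat_lit 554) (nat_lit 524) (nat_lit 482)) (XT.nd (nat_lit 78) (nat_lit 0) (nat_lit 0) (XT.lf (nat_lit 0) (nat_lit 2334423817) (nat_lit 1520) (nat_lit 4776474207) (nat_lit 76) (nat_lit 209365660) (nat_lit 577) (nat_lit 5) (nat_lit 597) (nat_lit 5) (nat_lit 578) (nat_lit 5) (nat_lit 555) (nat_lit 524) (nat_lit 481)) (XT.lf (nat_lit 0) (nat_lit 4709064650) (nat_lit 1520) (nat_lit 253286048) (nat_lit 76) (nat_lit 2405873422) (nat_lit 577) (nat_lit 5) (nat_lit 597) (nat_lit 5) (nat_lit 578) (nat_lit 5) (nat_lit 556) (nat_lit 524) (nat_lit 480)))))) (XT.nd (nat_lit 390) (nat_lit 3876) (nat_lit 0) (XT.nd (nat_lit 156) (nat_lit 3496) (nat_lit 0) (XT.nd (nat_lit 78) (nat_lit 1672) (nat_lit 0) (XT.lf (nat_lit 0) (nat_lit 4378168273) (nat_lit 1520)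 (nat_lit 2735555937) (nat_lit 1596) (nat_lit 303772472) (nat_lit 557) (nat_lit 5) (nat_lit 577) (nat_lit 5) (nat_lit 578) (nat_lit 5) (nat_lit 557) (nat_lit 524) (nat_lit 479)) (XT.lf (nat_lit 0) (nat_lit 1605415934) (nat_lit 1596) (nat_lit 432356953) (nat_lit 1672) (nat_lit 5430381068) (nat_lit 535) (nat_lit 5) (nat_lit 556) (nat_lit 5) (nat_lit 557) (nat_lit 5) (nat_lit 558) (nat_lit 524) (nat_lit 478))) (XT.nd (nat_lit 78) (nat_lit 3496) (nat_lit 0) (XT.lf (nat_lit 0) (nat_lit 4410172625) (nat_lit 1672) (nat_lit 1190393860) (nat_lit 76) (nat_lit 1919459145) (nat_lit 535) (nat_lit 5) (nat_lit 557) (nat_lit 5) (nat_lit 536) (nat_lit 5) (nat_lit 559) (nat_lit 524) (nat_lit 477)) (XT.nd (nat_lit 78) (nat_lit 1824) (nat_lit 0) (XT.lf (nat_lit 0) (nat_lit 3579639522) (nat_lit 1672) (nat_lit 3232476495) (nat_lit 1748) (nat_lit 761179983) (nat_lit 513) (nat_lit 5) (nat_lit 535) (nat_lit 5) (nat_lit 536) (nat_lit 5) (nat_lit 560) (nat_lit 524) (nat_lit 476)) (XT.lf (nat_lit 0) (nat_lit 793313586) (nat_lit 1748)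 (nat_lit 789214789) (nat_lit 1824) (nat_lit 6045504248) (nat_lit 489) (nat_lit 5) (nat_lit 512) (nat_lit 5) (nat_lit 513) (nat_lit 5) (nat_lit 561) (nat_lit 524) (nat_lit 475))))) (XT.nd (nat_lit 156) (nat_lit 2052) (nat_lit 0) (XT.nd (nat_lit 78) (nat_lit 1824) (nat_lit 0) (XT.lf (nat_lit 0) (nat_lit 3957886531) (nat_lit 1824) (nat_lit 2010229722) (nat_lit 76) (nat_lit 1715750731) (nat_lit 489) (nat_lit 5) (nat_lit 513) (nat_lit 5) (nat_lit 490) (nat_lit 5) (nat_lit 562) (nat_lit 524) (nat_lit 474)) (XT.lf (nat_lit 0) (nat_lit 2903618973) (nat_lit 1824) (nat_lit 3458981144) (nat_lit 1900) (nat_lit 1378583880) (nat_lit 465) (nat_lit 5) (nat_lit 489) (nat_lit 5) (nat_lit 490) (nat_lit 5) (nat_lit 563) (nat_lit 524) (nat_lit 473))) (XT.nd (nat_lit 78) (nat_lit 912) (nat_lit 0) (XT.lf (nat_lit 0) (nat_lit 97933962) (nat_lit 1064) (nat_lit 876780538) (nat_lit 1140) (nat_lit 6825358255) (nat_lit 450) (nat_lit 5) (nat_lit 464) (nat_lit 5) (nat_lit 465) (nat_lit 5) (nat_lit 564) (nat_lit 524) (nat_lit 472)) (XT.nd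 (nat_lit 78) (nat_lit 912) (nat_lit 0) (XT.lf (nat_lit 0) (nat_lit 3359354697) (nat_lit 1140) (nat_lit 2723381855) (nat_lit 76) (nat_lit 1777168546) (nat_lit 450) (nat_lit 5) (nat_lit 465) (nat_lit 5) (nat_lit 451) (nat_lit 5) (nat_lit 565) (nat_lit 524) (nat_lit 471)) (XT.lf (nat_lit 0) (nat_lit 2339774891) (nat_lit 912) (nat_lit 3432354017) (nat_lit 988) (nat_lit 2149199063) (nat_lit 438) (nat_lit 5) (nat_lit 450) (nat_lit 5) (nat_lit 451) (nat_lit 5) (nat_lit 566) (nat_lit 524) (nat_lit 470))))))) (XT.nd (nat_lit 780) (nat_lit 5700) (nat_lit 0) (XT.nd (nat_lit 390) (nat_lit 2508) (nat_lit 0) (XT.nd (nat_lit 156) (nat_lit 1748) (nat_lit 0) (XT.nd (nat_lit 78) (nat_lit 912) (nat_lit 0) (XT.lf (nat_lit 0) (nat_lit 224020192) (nat_lit 988) (nat_lit 484571616) (nat_lit 76) (nat_lit 7275795563) (nat_lit 437) (nat_lit 5) (nat_lit 450) (nat_lit 5) (nat_lit 438) (nat_lit 5) (nat_lit 567) (nat_lit 524) (nat_lit 469)) (XT.lf (nat_lit 0) (nat_lit 2620851728) (nat_lit 988) (nat_lit 3339823236) (nat_lit 76) (nat_lit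 2087652909) (nat_lit 425) (nat_lit 5) (nat_lit 438) (nat_lit 5) (nat_lit 426) (nat_lit 5) (nat_lit 568) (nat_lit 524) (nat_lit 468))) (XT.nd (nat_lit 78) (nat_lit 912) (nat_lit 0) (XT.lf (nat_lit 0) (nat_lit 1878390915) (nat_lit 836) (nat_lit 3168410665) (nat_lit 912) (nat_lit 3067124475) (nat_lit 414) (nat_lit 5) (nat_lit 425) (nat_lit 5) (nat_lit 426) (nat_lit 5) (nat_lit 569) (nat_lit 524) (nat_lit 467)) (XT.nd (nat_lit 78) (nat_lit 912) (nat_lit 0) (XT.lf (nat_lit 0) (nat_lit 7206445994) (nat_lit 836) (nat_lit 298762341) (nat_lit 912) (nat_lit 675951559) (nat_lit 414) (nat_lit 5) (nat_lit 425) (nat_lit 5) (nat_lit 426) (nat_lit 5) (nat_lit 570) (nat_lit 524) (nat_lit 466)) (XT.lf (nat_lit 0) (nat_lit 1747824663) (nat_lit 912) (nat_lit 3868983824) (nat_lit 76) (nat_lit 2632545293) (nat_lit 402) (nat_lit 5) (nat_lit 414) (nat_lit 5) (nat_lit 403) (nat_lit 5) (nat_lit 571) (nat_lit 524) (nat_lit 465))))) (XT.nd (nat_lit 156) (nat_lit 1672) (nat_lit 0) (XT.nd (nat_lit 78) (nat_lit 0) (nat_lit 0) (XT.lf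 (nat_lit 0) (nat_lit 1510294066) (nat_lit 836) (nat_lit 2681614589) (nat_lit 912) (nat_lit 4127298173) (nat_lit 391) (nat_lit 5) (nat_lit 402) (nat_lit 5) (nat_lit 403) (nat_lit 5) (nat_lit 572) (nat_lit 524) (nat_lit 464)) (XT.lf (nat_lit 0) (nat_lit 6676002444) (nat_lit 912) (nat_lit 1382998909) (nat_lit 76) (nat_lit 331635290) (nat_lit 391) (nat_lit 5) (nat_lit 403) (nat_lit 5) (nat_lit 392) (nat_lit 5) (nat_lit 573) (nat_lit 524) (nat_lit 463))) (XT.nd (nat_lit 78) (nat_lit 760) (nat_lit 0) (XT.lf (nat_lit 0) (nat_lit 744933892) (nat_lit 912) (nat_lit 4319820051) (nat_lit 76) (nat_lit 3398477613) (nat_lit 379) (nat_lit 5) (nat_lit 391) (nat_lit 5) (nat_lit 380) (nat_lit 5) (nat_lit 574) (nat_lit 524) (nat_lit 462)) (XT.nd (nat_lit 78) (nat_lit 0) (nat_lit 0) (XT.lf (nat_lit 0) (nat_lit 1226785436) (nat_lit 760) (nat_lit 1985185974) (nat_lit 836) (nat_lit 5325457676) (nat_lit 369) (nat_lit 5) (nat_lit 379) (nat_lit 5) (nat_lit 380) (nat_lit 5) (nat_lit 575) (nat_lit 524) (nat_lit 461)) (XT.lf (nat_lit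 0) (nat_lit 5729368092) (nat_lit 836) (nat_lit 1717667083) (nat_lit 76) (nat_lit 1166057117) (nat_lit 369) (nat_lit 5) (nat_lit 380) (nat_lit 5) (nat_lit 370) (nat_lit 5) (nat_lit 576) (nat_lit 524) (nat_lit 460)))))) (XT.nd (nat_lit 390) (nat_lit 2660) (nat_lit 0) (XT.nd (nat_lit 156) (nat_lit 1520) (nat_lit 0) (XT.nd (nat_lit 78) (nat_lit 760) (nat_lit 0) (XT.lf (nat_lit 0) (nat_lit 3986781710) (nat_lit 760) (nat_lit 4314394937) (nat_lit 836) (nat_lit 389012890) (nat_lit 359) (nat_lit 5) (nat_lit 369) (nat_lit 5) (nat_lit 370) (nat_lit 5) (nat_lit 577) (nat_lit 524) (nat_lit 459)) (XT.lf (nat_lit 0) (nat_lit 1019573018) (nat_lit 684) (nat_lit 1091203335) (nat_lit 760) (nat_lit 6658105342) (nat_lit 349) (nat_lit 5) (nat_lit 358) (nat_lit 5) (nat_lit 359) (nat_lit 5) (nat_lit 578) (nat_lit 524) (nat_lit 458))) (XT.nd (nat_lit 78) (nat_lit 1520) (nat_lit 0) (XT.lf (nat_lit 0) (nat_lit 4667013885) (nat_lit 760) (nat_lit 1984918926) (nat_lit 76) (nat_lit 2196932164) (nat_lit 349) (nat_lit 5) (nat_lit 359)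 (nat_lit 5) (nat_lit 350) (nat_lit 5) (nat_lit 579) (nat_lit 524) (nat_lit 457)) (XT.nd (nat_lit 78) (nat_lit 760) (nat_lit 0) (XT.lf (nat_lit 0) (nat_lit 3899333549) (nat_lit 760) (nat_lit 3373884547) (nat_lit 836) (nat_lit 1657254882) (nat_lit 339) (nat_lit 5) (nat_lit 349) (nat_lit 5) (nat_lit 350) (nat_lit 5) (nat_lit 580) (nat_lit 524) (nat_lit 456)) (XT.lf (nat_lit 0) (nat_lit 880706201) (nat_lit 684) (nat_lit 10698803) (nat_lit 760) (nat_lit 8122478589) (nat_lit 329) (nat_lit 5) (nat_lit 338) (nat_lit 5) (nat_lit 339) (nat_lit 5) (nat_lit 581) (nat_lit 524) (nat_lit 455))))) (XT.nd (nat_lit 234) (nat_lit 1368) (nat_lit 0) (XT.nd (nat_lit 78) (nat_lit 1292) (nat_lit 0) (XT.lf (nat_lit 0) (nat_lit 3491902069) (nat_lit 760) (nat_lit 2192593637) (nat_lit 76) (nat_lit 3413788321) (nat_lit 329) (nat_lit 5) (nat_lit 339) (nat_lit 5) (nat_lit 330) (nat_lit 5) (nat_lit 582) (nat_lit 524) (nat_lit 454)) (XT.nd (nat_lit 78) (nat_lit 608) (nat_lit 0) (XT.lf (nat_lit 0) (nat_lit 3878488667) (nat_lit 684) (nat_lit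 2258668478) (nat_lit 760) (nat_lit 3047362114) (nat_lit 320) (nat_lit 5) (nat_lit 329) (nat_lit 5) (nat_lit 330) (nat_lit 5) (nat_lit 583) (nat_lit 524) (nat_lit 453)) (XT.lf (nat_lit 0) (nat_lit 791334661) (nat_lit 608) (nat_lit 8039791129) (nat_lit 684) (nat_lit 441438955) (nat_lit 312) (nat_lit 5) (nat_lit 320) (nat_lit 5) (nat_lit 321) (nat_lit 5) (nat_lit 584) (nat_lit 524) (nat_lit 452)))) (XT.nd (nat_lit 78) (nat_lit 1292) (nat_lit 0) (XT.lf (nat_lit 0) (nat_lit 2206332542) (nat_lit 684) (nat_lit 2348292470) (nat_lit 76) (nat_lit 4807083924) (nat_lit 311) (nat_lit 5) (nat_lit 320) (nat_lit 5) (nat_lit 312) (nat_lit 5) (nat_lit 585) (nat_lit 524) (nat_lit 451)) (XT.nd (nat_lit 78) (nat_lit 608) (nat_lit 0) (XT.lf (nat_lit 0) (nat_lit 3916908485) (nat_lit 684) (nat_lit 978305131) (nat_lit 760) (nat_lit 4557484357) (nat_lit 302) (nat_lit 5) (nat_lit 311) (nat_lit 5) (nat_lit 312) (nat_lit 5) (nat_lit 586) (nat_lit 524) (nat_lit 450)) (XT.lf (nat_lit 0) (nat_lit 747257281) (nat_lit 608) (nat_lit 6897605490)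 (nat_lit 684) (nat_lit 1900505795) (nat_lit 294) (nat_lit 5) (nat_lit 302) (nat_lit 5) (nat_lit 303) (nat_lit 5) (nat_lit 587) (nat_lit 524) (nat_lit 449))))))))
noncomputable def xc76 : XT := (XT.nd (nat_lit 1560) (nat_lit 3344) (nat_lit 0) (XT.nd (nat_lit 780) (nat_lit 3572) (nat_lit 0) (XT.nd (nat_lit 390) (nat_lit 1672) (nat_lit 0) (XT.nd (nat_lit 156) (nat_lit 1292) (nat_lit 0) (XT.nd (nat_lit 78) (nat_lit 608) (nat_lit 0) (XT.lf (nat_lit 0) (nat_lit 811962265) (nat_lit 684) (nat_lit 2459441437) (nat_lit 76) (nat_lit 6368125901) (nat_lit 293) (nat_lit 5) (nat_lit 302) (nat_lit 5) (nat_lit 294) (nat_lit 5) (nat_lit 588) (nat_lit 524) (nat_lit 448)) (XT.lf (nat_lit 0) (nat_lit 3551952386) (nat_lit 684) (nat_lit 5730955608) (nat_lit 76) (nat_lit 452441707) (nat_lit 285) (nat_lit 5) (nat_lit 294) (nat_lit 5) (nat_lit 286) (nat_lit 5) (nat_lit 589) (nat_lit 524) (nat_lit 447))) (XT.nd (nat_lit 78) (nat_lit 684) (nat_lit 0) (XT.lf (nat_lit 0) (nat_lit 747278607) (nat_lit 608) (nat_lit 5612586462) (nat_lit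 684) (nat_lit 3472960141) (nat_lit 277) (nat_lit 5) (nat_lit 285) (nat_lit 5) (nat_lit 286) (nat_lit 5) (nat_lit 590) (nat_lit 524) (nat_lit 446)) (XT.nd (nat_lit 78) (nat_lit 684) (nat_lit 0) (XT.lf (nat_lit 0) (nat_lit 7394181165) (nat_lit 608) (nat_lit 1838543018) (nat_lit 684) (nat_lit 699351720) (nat_lit 277) (nat_lit 5) (nat_lit 285) (nat_lit 5) (nat_lit 286) (nat_lit 5) (nat_lit 591) (nat_lit 524) (nat_lit 445)) (XT.lf (nat_lit 0) (nat_lit 2112682737) (nat_lit 684) (nat_lit 5903348626) (nat_lit 76) (nat_lit 2016787363) (nat_lit 268) (nat_lit 5) (nat_lit 277) (nat_lit 5) (nat_lit 269) (nat_lit 5) (nat_lit 592) (nat_lit 524) (nat_lit 444))))) (XT.nd (nat_lit 156) (nat_lit 1140) (nat_lit 0) (XT.nd (nat_lit 78) (nat_lit 0) (nat_lit 0) (XT.lf (nat_lit 0) (nat_lit 784228017) (nat_lit 532) (nat_lit 4192772559) (nat_lit 608) (nat_lit 5158376589) (nat_lit 261) (nat_lit 5) (nat_lit 268) (nat_lit 5) (nat_lit 269) (nat_lit 5) (nat_lit 593) (nat_lit 524) (nat_lit 443)) (XT.lf (nat_lit 0) (nat_lit 7647345319)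 (nat_lit 532) (nat_lit 262182029) (nat_lit 608) (nat_lit 2330242301) (nat_lit 261) (nat_lit 5) (nat_lit 268) (nat_lit 5) (nat_lit 269) (nat_lit 5) (nat_lit 594) (nat_lit 524) (nat_lit 442))) (XT.nd (nat_lit 78) (nat_lit 532) (nat_lit 0) (XT.lf (nat_lit 0) (nat_lit 571367953) (nat_lit 608) (nat_lit 6054032507) (nat_lit 76) (nat_lit 3720295099) (nat_lit 253) (nat_lit 5) (nat_lit 261) (nat_lit 5) (nat_lit 254) (nat_lit 5) (nat_lit 595) (nat_lit 524) (nat_lit 441)) (XT.nd (nat_lit 78) (nat_lit 0) (nat_lit 0) (XT.lf (nat_lit 0) (nat_lit 850947685) (nat_lit 532) (nat_lit 2645594603) (nat_lit 608) (nat_lit 6956956218) (nat_lit 246) (nat_lit 5) (nat_lit 253) (nat_lit 5) (nat_lit 254) (nat_lit 5) (nat_lit 596) (nat_lit 524) (nat_lit 440)) (XT.lf (nat_lit 0) (nat_lit 6502464966) (nat_lit 608) (nat_lit 2634352344) (nat_lit 76) (nat_lit 1426196529) (nat_lit 246) (nat_lit 5) (nat_lit 254) (nat_lit 5) (nat_lit 247) (nat_lit 5) (nat_lit 597) (nat_lit 524) (nat_lit 439)))))) (XT.nd (nat_lit 390) (nat_lit 1444) (nat_lit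 0) (XT.nd (nat_lit 156) (nat_lit 1064) (nat_lit 0) (XT.nd (nat_lit 78) (nat_lit 532) (nat_lit 0) (XT.lf (nat_lit 0) (nat_lit 4476805268) (nat_lit 532) (nat_lit 5111004077) (nat_lit 608) (nat_lit 1086525272) (nat_lit 239) (nat_lit 5) (nat_lit 246) (nat_lit 5) (nat_lit 247) (nat_lit 5) (nat_lit 598) (nat_lit 524) (nat_lit 438)) (XT.lf (nat_lit 0) (nat_lit 940226881) (nat_lit 456) (nat_lit 977945398) (nat_lit 532) (nat_lit 8869523297) (nat_lit 232) (nat_lit 5) (nat_lit 238) (nat_lit 5) (nat_lit 239) (nat_lit 5) (nat_lit 599) (nat_lit 524) (nat_lit 437))) (XT.nd (nat_lit 78) (nat_lit 1064) (nat_lit 0) (XT.lf (nat_lit 0) (nat_lit 5004364414) (nat_lit 532) (nat_lit 2664172602) (nat_lit 76) (nat_lit 3233925249) (nat_lit 232) (nat_lit 5) (nat_lit 239) (nat_lit 5) (nat_lit 233) (nat_lit 5) (nat_lit 600) (nat_lit 524) (nat_lit 436)) (XT.nd (nat_lit 78) (nat_lit 532) (nat_lit 0) (XT.lf (nat_lit 0) (nat_lit 4680507210) (nat_lit 532) (nat_lit 3482216752) (nat_lit 608) (nat_lit 2856592564) (nat_lit 225) (nat_lit 5) (nat_lit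 232) (nat_lit 5) (nat_lit 233) (nat_lit 5) (nat_lit 601) (nat_lit 524) (nat_lit 435)) (XT.lf (nat_lit 0) (nat_lit 246200004) (nat_lit 532) (nat_lit 10098992050) (nat_lit 76) (nat_lit 793211374) (nat_lit 218) (nat_lit 5) (nat_lit 225) (nat_lit 5) (nat_lit 219) (nat_lit 5) (nat_lit 602) (nat_lit 524) (nat_lit 434))))) (XT.nd (nat_lit 156) (nat_lit 988) (nat_lit 0) (XT.nd (nat_lit 78) (nat_lit 456) (nat_lit 0) (XT.lf (nat_lit 0) (nat_lit 3412600013) (nat_lit 532) (nat_lit 2687663793) (nat_lit 76) (nat_lit 5158435640) (nat_lit 218) (nat_lit 5) (nat_lit 225) (nat_lit 5) (nat_lit 219) (nat_lit 5) (nat_lit 603) (nat_lit 524) (nat_lit 433)) (XT.lf (nat_lit 0) (nat_lit 4899380014) (nat_lit 456) (nat_lit 1749156191) (nat_lit 532) (nat_lit 4732742041) (nat_lit 212) (nat_lit 5) (nat_lit 218) (nat_lit 5) (nat_lit 219) (nat_lit 5) (nat_lit 604) (nat_lit 524) (nat_lit 432))) (XT.nd (nat_lit 78) (nat_lit 532) (nat_lit 0) (XT.lf (nat_lit 0) (nat_lit 1128916198) (nat_lit 456) (nat_lit 8837808643) (nat_lit 532) (nat_lit 1539234113)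 (nat_lit 206) (nat_lit 5) (nat_lit 212) (nat_lit 5) (nat_lit 213) (nat_lit 5) (nat_lit 605) (nat_lit 524) (nat_lit 431)) (XT.nd (nat_lit 78) (nat_lit 456) (nat_lit 0) (XT.lf (nat_lit 0) (nat_lit 1725661703) (nat_lit 532) (nat_lit 2712534525) (nat_lit 76) (nat_lit 7194113879) (nat_lit 205) (nat_lit 5) (nat_lit 212) (nat_lit 5) (nat_lit 206) (nat_lit 5) (nat_lit 606) (nat_lit 524) (nat_lit 430)) (XT.lf (nat_lit 0) (nat_lit 5044258638) (nat_lit 532) (nat_lit 6635380034) (nat_lit 76) (nat_lit 81166802) (nat_lit 199) (nat_lit 5) (nat_lit 206) (nat_lit 5) (nat_lit 200) (nat_lit 5) (nat_lit 607) (nat_lit 524) (nat_lit 429))))))) (XT.nd (nat_lit 780) (nat_lit 380) (nat_lit 0) (XT.nd (nat_lit 390) (nat_lit 1672) (nat_lit 0) (XT.nd (nat_lit 156) (nat_lit 912) (nat_lit 0) (XT.nd (nat_lit 78) (nat_lit 0) (nat_lit 0) (XT.lf (nat_lit 0) (nat_lit 1215327013) (nat_lit 380) (nat_lit 7244862979) (nat_lit 456) (nat_lit 3431062435) (nat_lit 194) (nat_lit 5) (nat_lit 199) (nat_lit 5) (nat_lit 200) (nat_lit 5) (nat_lit 608)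 (nat_lit 524) (nat_lit 428)) (XT.lf (nat_lit 0) (nat_lit 9276726026) (nat_lit 380) (nat_lit 2687845237) (nat_lit 456) (nat_lit 59335342) (nat_lit 194) (nat_lit 5) (nat_lit 199) (nat_lit 5) (nat_lit 200) (nat_lit 5) (nat_lit 609) (nat_lit 524) (nat_lit 427))) (XT.nd (nat_lit 78) (nat_lit 380) (nat_lit 0) (XT.lf (nat_lit 0) (nat_lit 3359201340) (nat_lit 532) (nat_lit 6819070778) (nat_lit 76) (nat_lit 1980029702) (nat_lit 187) (nat_lit 5) (nat_lit 194) (nat_lit 5) (nat_lit 188) (nat_lit 5) (nat_lit 610) (nat_lit 524) (nat_lit 426)) (XT.nd (nat_lit 78) (nat_lit 0) (nat_lit 0) (XT.lf (nat_lit 0) (nat_lit 1292184171) (nat_lit 380) (nat_lit 5573965475) (nat_lit 456) (nat_lit 5428811601) (nat_lit 182) (nat_lit 5) (nat_lit 187) (nat_lit 5) (nat_lit 188) (nat_lit 5) (nat_lit 611) (nat_lit 524) (nat_lit 425)) (XT.lf (nat_lit 0) (nat_lit 9622294495) (nat_lit 380) (nat_lit 843025901) (nat_lit 456) (nat_lit 1968592637) (nat_lit 182) (nat_lit 5) (nat_lit 187) (nat_lit 5) (nat_lit 188) (nat_lit 5) (nat_lit 612) (nat_lit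 524) (nat_lit 424))))) (XT.nd (nat_lit 156) (nat_lit 836) (nat_lit 0) (XT.nd (nat_lit 78) (nat_lit 380) (nat_lit 0) (XT.lf (nat_lit 0) (nat_lit 1579249272) (nat_lit 456) (nat_lit 7030392609) (nat_lit 76) (nat_lit 3965022322) (nat_lit 176) (nat_lit 5) (nat_lit 182) (nat_lit 5) (nat_lit 177) (nat_lit 5) (nat_lit 613) (nat_lit 524) (nat_lit 423)) (XT.lf (nat_lit 0) (nat_lit 1350946003) (nat_lit 380) (nat_lit 3830898962) (nat_lit 456) (nat_lit 7535922849) (nat_lit 171) (nat_lit 5) (nat_lit 176) (nat_lit 5) (nat_lit 177) (nat_lit 5) (nat_lit 614) (nat_lit 524) (nat_lit 422))) (XT.nd (nat_lit 78) (nat_lit 836) (nat_lit 0) (XT.lf (nat_lit 0) (nat_lit 8887688049) (nat_lit 456) (nat_lit 2910378840) (nat_lit 76) (nat_lit 1065043476) (nat_lit 171) (nat_lit 5) (nat_lit 177) (nat_lit 5) (nat_lit 172) (nat_lit 5) (nat_lit 615) (nat_lit 524) (nat_lit 421)) (XT.nd (nat_lit 78) (nat_lit 456) (nat_lit 0) (XT.lf (nat_lit 0) (nat_lit 5729960393) (nat_lit 380) (nat_lit 6977643673) (nat_lit 456) (nat_lit 302957343) (nat_lit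 166) (nat_lit 5) (nat_lit 171) (nat_lit 5) (nat_lit 172) (nat_lit 5) (nat_lit 616) (nat_lit 524) (nat_lit 420)) (XT.lf (nat_lit 0) (nat_lit 1382553720) (nat_lit 380) (nat_lit 2021335920) (nat_lit 456) (nat_lit 9756503732) (nat_lit 160) (nat_lit 5) (nat_lit 165) (nat_lit 5) (nat_lit 166) (nat_lit 5) (nat_lit 617) (nat_lit 524) (nat_lit 419)))))) (XT.nd (nat_lit 74178) (nat_lit 0) (nat_lit 44840) (XT.nd (nat_lit 73944) (nat_lit 0) (nat_lit 45904) (XT.nd (nat_lit 78) (nat_lit 380) (nat_lit 0) (XT.lf (nat_lit 0) (nat_lit 7227286662) (nat_lit 456) (nat_lit 3051829297) (nat_lit 76) (nat_lit 3033137290) (nat_lit 160) (nat_lit 5) (nat_lit 166) (nat_lit 5) (nat_lit 161) (nat_lit 5) (nat_lit 618) (nat_lit 524) (nat_lit 418)) (XT.lf (nat_lit 0) (nat_lit 5877877692) (nat_lit 380) (nat_lit 5278849135) (nat_lit 456) (nat_lit 2309832697) (nat_lit 155) (nat_lit 5) (nat_lit 160) (nat_lit 5) (nat_lit 161) (nat_lit 5) (nat_lit 619) (nat_lit 524) (nat_lit 417))) (XT.nd (nat_lit 78) (nat_lit 532) (nat_lit 0) (XT.lf (nat_lit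 0) (nat_lit 977725960) (nat_lit 0) (nat_lit 977725960) (nat_lit 380) (nat_lit 1289400295) (nat_lit 766) (nat_lit 5) (nat_lit 766) (nat_lit 3) (nat_lit 771) (nat_lit 3) (nat_lit 525) (nat_lit 525) (nat_lit 510)) (XT.nd (nat_lit 78) (nat_lit 0) (nat_lit 0) (XT.lf (nat_lit 0) (nat_lit 163877592) (nat_lit 532) (nat_lit 1292279271) (nat_lit 532) (nat_lit 5043813239) (nat_lit 759) (nat_lit 3) (nat_lit 766) (nat_lit 3) (nat_lit 766) (nat_lit 5) (nat_lit 526) (nat_lit 525) (nat_lit 509)) (XT.lf (nat_lit 76) (nat_lit 1986932401) (nat_lit 0) (nat_lit 881157715) (nat_lit 532) (nat_lit 3643193271) (nat_lit 760) (nat_lit 5) (nat_lit 759) (nat_lit 3) (nat_lit 766) (nat_lit 5) (nat_lit 527) (nat_lit 525) (nat_lit 508))))) (XT.nd (nat_lit 156) (nat_lit 608) (nat_lit 0) (XT.nd (nat_lit 78) (nat_lit 456) (nat_lit 0) (XT.lf (nat_lit 76) (nat_lit 5312904305) (nat_lit 0) (nat_lit 251602975) (nat_lit 532) (nat_lit 959560539) (nat_lit 760) (nat_lit 5) (nat_lit 759) (nat_lit 3) (nat_lit 766) (nat_lit 5) (nat_lit 528) (nat_lit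 525) (nat_lit 507)) (XT.lf (nat_lit 0) (nat_lit 1701663947) (nat_lit 532) (nat_lit 4392556467) (nat_lit 608) (nat_lit 443718996) (nat_lit 753) (nat_lit 5) (nat_lit 760) (nat_lit 5) (nat_lit 761) (nat_lit 5) (nat_lit 529) (nat_lit 525) (nat_lit 506))) (XT.nd (nat_lit 78) (nat_lit 608) (nat_lit 0) (XT.lf (nat_lit 0) (nat_lit 4344829286) (nat_lit 532) (nat_lit 1012429062) (nat_lit 608) (nat_lit 1195878801) (nat_lit 753) (nat_lit 5) (nat_lit 760) (nat_lit 5) (nat_lit 761) (nat_lit 5) (nat_lit 530) (nat_lit 525) (nat_lit 505)) (XT.nd (nat_lit 78) (nat_lit 0) (nat_lit 0) (XT.lf (nat_lit 0) (nat_lit 414501863) (nat_lit 608) (nat_lit 4142388366) (nat_lit 684) (nat_lit 2012724377) (nat_lit 745) (nat_lit 5) (nat_lit 753) (nat_lit 5) (nat_lit 754) (nat_lit 5) (nat_lit 531) (nat_lit 525) (nat_lit 504)) (XT.lf (nat_lit 0) (nat_lit 3000739806) (nat_lit 608) (nat_lit 689363411) (nat_lit 684) (nat_lit 2897222104) (nat_lit 745) (nat_lit 5) (nat_lit 753) (nat_lit 5) (nat_lit 754) (nat_lit 5) (nat_lit 532) (nat_lit 525) (nat_lit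 503))))))))
noncomputable def xc77 : XT := (XT.nd (nat_lit 1560) (nat_lit 17024) (nat_lit 0) (XT.nd (nat_lit 780) (nat_lit 6840) (nat_lit 0) (XT.nd (nat_lit 390) (nat_lit 1672) (nat_lit 0) (XT.nd (nat_lit 156) (nat_lit 684) (nat_lit 0) (XT.nd (nat_lit 78) (nat_lit 684) (nat_lit 0) (XT.lf (nat_lit 76) (nat_lit 2832809634) (nat_lit 0) (nat_lit 2759260547) (nat_lit 684) (nat_lit 1014259061) (nat_lit 746) (nat_lit 5) (nat_lit 745) (nat_lit 5) (nat_lit 754) (nat_lit 5) (nat_lit 533) (nat_lit 525) (nat_lit 502)) (XT.lf (nat_lit 0) (nat_lit 1528642698) (nat_lit 684) (nat_lit 239014306) (nat_lit 760) (nat_lit 4859048582) (nat_lit 736) (nat_lit 5) (nat_lit 745) (nat_lit 5) (nat_lit 746) (nat_lit 5) (nat_lit 534) (nat_lit 525) (nat_lit 501))) (XT.nd (nat_lit 78) (nat_lit 684) (nat_lit 0) (XT.lf (nat_lit 76) (nat_lit 3366674027) (nat_lit 0) (nat_lit 700863242) (nat_lit 760) (nat_lit 2580649766) (nat_lit 737) (nat_lit 5) (nat_lit 736) (nat_lit 5) (nat_lit 746) (nat_lit 5) (nat_lit 535) (nat_lit 525) (nat_lit 500))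 (XT.nd (nat_lit 78) (nat_lit 760) (nat_lit 0) (XT.lf (nat_lit 76) (nat_lit 341487808) (nat_lit 0) (nat_lit 6260077662) (nat_lit 760) (nat_lit 69651393) (nat_lit 738) (nat_lit 5) (nat_lit 737) (nat_lit 5) (nat_lit 747) (nat_lit 5) (nat_lit 536) (nat_lit 525) (nat_lit 499)) (XT.lf (nat_lit 0) (nat_lit 2424267106) (nat_lit 760) (nat_lit 2672487772) (nat_lit 836) (nat_lit 1598326954) (nat_lit 727) (nat_lit 5) (nat_lit 737) (nat_lit 5) (nat_lit 738) (nat_lit 5) (nat_lit 537) (nat_lit 525) (nat_lit 498))))) (XT.nd (nat_lit 156) (nat_lit 836) (nat_lit 0) (XT.nd (nat_lit 78) (nat_lit 836) (nat_lit 0) (XT.lf (nat_lit 76) (nat_lit 1033057272) (nat_lit 0) (nat_lit 3880556272) (nat_lit 836) (nat_lit 1806877229) (nat_lit 728) (nat_lit 5) (nat_lit 727) (nat_lit 5) (nat_lit 738) (nat_lit 5) (nat_lit 538) (nat_lit 525) (nat_lit 497)) (XT.lf (nat_lit 0) (nat_lit 655440129) (nat_lit 836) (nat_lit 1940292038) (nat_lit 912) (nat_lit 4151422019) (nat_lit 716) (nat_lit 5) (nat_lit 727) (nat_lit 5) (nat_lit 728) (nat_lit 5) (nat_lit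 539) (nat_lit 525) (nat_lit 496))) (XT.nd (nat_lit 78) (nat_lit 836) (nat_lit 0) (XT.lf (nat_lit 76) (nat_lit 1856450801) (nat_lit 0) (nat_lit 1239917528) (nat_lit 912) (nat_lit 3678677703) (nat_lit 717) (nat_lit 5) (nat_lit 716) (nat_lit 5) (nat_lit 728) (nat_lit 5) (nat_lit 540) (nat_lit 525) (nat_lit 495)) (XT.nd (nat_lit 78) (nat_lit 912) (nat_lit 0) (XT.lf (nat_lit 0) (nat_lit 5542667735) (nat_lit 836) (nat_lit 1087583412) (nat_lit 76) (nat_lit 174118618) (nat_lit 717) (nat_lit 5) (nat_lit 728) (nat_lit 5) (nat_lit 718) (nat_lit 5) (nat_lit 541) (nat_lit 525) (nat_lit 494)) (XT.lf (nat_lit 0) (nat_lit 1157729518) (nat_lit 912) (nat_lit 4031802403) (nat_lit 76) (nat_lit 1645198625) (nat_lit 705) (nat_lit 5) (nat_lit 717) (nat_lit 5) (nat_lit 706) (nat_lit 5) (nat_lit 542) (nat_lit 525) (nat_lit 493)))))) (XT.nd (nat_lit 390) (nat_lit 3800) (nat_lit 0) (XT.nd (nat_lit 156) (nat_lit 2128) (nat_lit 0) (XT.nd (nat_lit 78) (nat_lit 912) (nat_lit 0) (XT.lf (nat_lit 0) (nat_lit 3560150023) (nat_lit 912) (nat_lit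 126464335) (nat_lit 76) (nat_lit 3179892308) (nat_lit 705) (nat_lit 5) (nat_lit 717) (nat_lit 5) (nat_lit 706) (nat_lit 5) (nat_lit 543) (nat_lit 525) (nat_lit 492)) (XT.lf (nat_lit 0) (nat_lit 3869990834) (nat_lit 912) (nat_lit 2110982231) (nat_lit 988) (nat_lit 918542875) (nat_lit 693) (nat_lit 5) (nat_lit 705) (nat_lit 5) (nat_lit 706) (nat_lit 5) (nat_lit 544) (nat_lit 525) (nat_lit 491))) (XT.nd (nat_lit 78) (nat_lit 1064) (nat_lit 0) (XT.lf (nat_lit 0) (nat_lit 979691437) (nat_lit 988) (nat_lit 470351016) (nat_lit 1064) (nat_lit 5483892260) (nat_lit 679) (nat_lit 5) (nat_lit 692) (nat_lit 5) (nat_lit 693) (nat_lit 5) (nat_lit 545) (nat_lit 525) (nat_lit 490)) (XT.nd (nat_lit 78) (nat_lit 1064) (nat_lit 0) (XT.lf (nat_lit 0) (nat_lit 3828602584) (nat_lit 1064) (nat_lit 1911652492) (nat_lit 76) (nat_lit 1229171749) (nat_lit 679) (nat_lit 5) (nat_lit 693) (nat_lit 5) (nat_lit 680) (nat_lit 5) (nat_lit 546) (nat_lit 525) (nat_lit 489)) (XT.lf (nat_lit 0) (nat_lit 2199138302) (nat_lit 1064) (nat_lit 4020650813)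 (nat_lit 1140) (nat_lit 786542918) (nat_lit 665) (nat_lit 5) (nat_lit 679) (nat_lit 5) (nat_lit 680) (nat_lit 5) (nat_lit 547) (nat_lit 525) (nat_lit 488))))) (XT.nd (nat_lit 156) (nat_lit 2584) (nat_lit 0) (XT.nd (nat_lit 78) (nat_lit 1140) (nat_lit 0) (XT.lf (nat_lit 0) (nat_lit 1554653527) (nat_lit 1140) (nat_lit 675050852) (nat_lit 76) (nat_lit 4814845296) (nat_lit 664) (nat_lit 5) (nat_lit 679) (nat_lit 5) (nat_lit 665) (nat_lit 5) (nat_lit 548) (nat_lit 525) (nat_lit 487)) (XT.lf (nat_lit 0) (nat_lit 3542932903) (nat_lit 1140) (nat_lit 361334900) (nat_lit 1216) (nat_lit 3179721479) (nat_lit 649) (nat_lit 5) (nat_lit 664) (nat_lit 5) (nat_lit 665) (nat_lit 5) (nat_lit 549) (nat_lit 525) (nat_lit 486))) (XT.nd (nat_lit 78) (nat_lit 1368) (nat_lit 0) (XT.lf (nat_lit 0) (nat_lit 690401553) (nat_lit 1216) (nat_lit 5579487718) (nat_lit 1292) (nat_lit 854952135) (nat_lit 633) (nat_lit 5) (nat_lit 649) (nat_lit 5) (nat_lit 650) (nat_lit 5) (nat_lit 550) (nat_lit 525) (nat_lit 485)) (XT.nd (nat_lit 78) (nat_lit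 1292) (nat_lit 0) (XT.lf (nat_lit 0) (nat_lit 1473083729) (nat_lit 1292) (nat_lit 2163245460) (nat_lit 76) (nat_lit 3530455196) (nat_lit 632) (nat_lit 5) (nat_lit 649) (nat_lit 5) (nat_lit 633) (nat_lit 5) (nat_lit 551) (nat_lit 525) (nat_lit 484)) (XT.lf (nat_lit 0) (nat_lit 2177739475) (nat_lit 1292) (nat_lit 1623961862) (nat_lit 1368) (nat_lit 3408446278) (nat_lit 615) (nat_lit 5) (nat_lit 632) (nat_lit 5) (nat_lit 633) (nat_lit 5) (nat_lit 552) (nat_lit 525) (nat_lit 483))))))) (XT.nd (nat_lit 780) (nat_lit 7448) (nat_lit 0) (XT.nd (nat_lit 390) (nat_lit 5092) (nat_lit 0) (XT.nd (nat_lit 156) (nat_lit 3040) (nat_lit 0) (XT.nd (nat_lit 78) (nat_lit 1444) (nat_lit 0) (XT.lf (nat_lit 0) (nat_lit 6146374805) (nat_lit 1368) (nat_lit 661405065) (nat_lit 76) (nat_lit 447212288) (nat_lit 615) (nat_lit 5) (nat_lit 633) (nat_lit 5) (nat_lit 616) (nat_lit 5) (nat_lit 553) (nat_lit 525) (nat_lit 482)) (XT.lf (nat_lit 0) (nat_lit 1209339809) (nat_lit 1444) (nat_lit 3511390786) (nat_lit 76) (nat_lit 2580078756) (nat_lit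 596) (nat_lit 5) (nat_lit 615) (nat_lit 5) (nat_lit 597) (nat_lit 5) (nat_lit 554) (nat_lit 525) (nat_lit 481))) (XT.nd (nat_lit 78) (nat_lit 1596) (nat_lit 0) (XT.lf (nat_lit 0) (nat_lit 957046434) (nat_lit 1444) (nat_lit 2565850269) (nat_lit 1520) (nat_lit 3825221430) (nat_lit 577) (nat_lit 5) (nat_lit 596) (nat_lit 5) (nat_lit 597) (nat_lit 5) (nat_lit 555) (nat_lit 525) (nat_lit 480)) (XT.nd (nat_lit 78) (nat_lit 1596) (nat_lit 0) (XT.lf (nat_lit 0) (nat_lit 5523801935) (nat_lit 1444) (nat_lit 336538628) (nat_lit 1520) (nat_lit 1536483646) (nat_lit 577) (nat_lit 5) (nat_lit 596) (nat_lit 5) (nat_lit 597) (nat_lit 5) (nat_lit 556) (nat_lit 525) (nat_lit 479)) (XT.lf (nat_lit 0) (nat_lit 772697752) (nat_lit 1596) (nat_lit 4732249783) (nat_lit 76) (nat_lit 1941753843) (nat_lit 556) (nat_lit 5) (nat_lit 577) (nat_lit 5) (nat_lit 557) (nat_lit 5) (nat_lit 557) (nat_lit 525) (nat_lit 478))))) (XT.nd (nat_lit 156) (nat_lit 3496) (nat_lit 0) (XT.nd (nat_lit 78) (nat_lit 1596) (nat_lit 0) (XT.lf (nat_lit 0)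 (nat_lit 3077724113) (nat_lit 1596) (nat_lit 129930338) (nat_lit 76) (nat_lit 4290317056) (nat_lit 556) (nat_lit 5) (nat_lit 577) (nat_lit 5) (nat_lit 557) (nat_lit 5) (nat_lit 558) (nat_lit 525) (nat_lit 477)) (XT.lf (nat_lit 0) (nat_lit 4586169700) (nat_lit 1596) (nat_lit 828668230) (nat_lit 1672) (nat_lit 2135712542) (nat_lit 535) (nat_lit 5) (nat_lit 556) (nat_lit 5) (nat_lit 557) (nat_lit 5) (nat_lit 559) (nat_lit 525) (nat_lit 476))) (XT.nd (nat_lit 78) (nat_lit 1748) (nat_lit 0) (XT.lf (nat_lit 0) (nat_lit 171408453) (nat_lit 1748) (nat_lit 5837785091) (nat_lit 76) (nat_lit 1595376335) (nat_lit 512) (nat_lit 5) (nat_lit 535) (nat_lit 5) (nat_lit 513) (nat_lit 5) (nat_lit 560) (nat_lit 525) (nat_lit 475)) (XT.nd (nat_lit 78) (nat_lit 1748) (nat_lit 0) (XT.lf (nat_lit 0) (nat_lit 2478776720) (nat_lit 1748) (nat_lit 1085654660) (nat_lit 76) (nat_lit 4095304902) (nat_lit 512) (nat_lit 5) (nat_lit 535) (nat_lit 5) (nat_lit 513) (nat_lit 5) (nat_lit 561) (nat_lit 525) (nat_lit 474)) (XT.lf (nat_lit 0)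 (nat_lit 3772389972) (nat_lit 1748) (nat_lit 1042398323) (nat_lit 1824) (nat_lit 2901570730) (nat_lit 489) (nat_lit 5) (nat_lit 512) (nat_lit 5) (nat_lit 513) (nat_lit 5) (nat_lit 562) (nat_lit 525) (nat_lit 473)))))) (XT.nd (nat_lit 390) (nat_lit 3496) (nat_lit 0) (XT.nd (nat_lit 156) (nat_lit 2052) (nat_lit 0) (XT.nd (nat_lit 78) (nat_lit 76) (nat_lit 0) (XT.lf (nat_lit 0) (nat_lit 931374671) (nat_lit 1824) (nat_lit 6248057868) (nat_lit 1900) (nat_lit 595046309) (nat_lit 465) (nat_lit 5) (nat_lit 489) (nat_lit 5) (nat_lit 490) (nat_lit 5) (nat_lit 563) (nat_lit 525) (nat_lit 472)) (XT.lf (nat_lit 0) (nat_lit 1726985136) (nat_lit 1900) (nat_lit 1933527629) (nat_lit 76) (nat_lit 4173174277) (nat_lit 464) (nat_lit 5) (nat_lit 489) (nat_lit 5) (nat_lit 465) (nat_lit 5) (nat_lit 564) (nat_lit 525) (nat_lit 471))) (XT.nd (nat_lit 78) (nat_lit 988) (nat_lit 0) (XT.lf (nat_lit 0) (nat_lit 3071869676) (nat_lit 1064) (nat_lit 995261347) (nat_lit 1140) (nat_lit 3827279588) (nat_lit 450) (nat_lit 5) (nat_lit 464)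 (nat_lit 5) (nat_lit 465) (nat_lit 5) (nat_lit 565) (nat_lit 525) (nat_lit 470)) (XT.nd (nat_lit 78) (nat_lit 76) (nat_lit 0) (XT.lf (nat_lit 0) (nat_lit 199567911) (nat_lit 912) (nat_lit 6240295911) (nat_lit 988) (nat_lit 1516771806) (nat_lit 438) (nat_lit 5) (nat_lit 450) (nat_lit 5) (nat_lit 451) (nat_lit 5) (nat_lit 566) (nat_lit 525) (nat_lit 469)) (XT.lf (nat_lit 0) (nat_lit 828599843) (nat_lit 988) (nat_lit 2683766203) (nat_lit 76) (nat_lit 4507639187) (nat_lit 437) (nat_lit 5) (nat_lit 450) (nat_lit 5) (nat_lit 438) (nat_lit 5) (nat_lit 567) (nat_lit 525) (nat_lit 468))))) (XT.nd (nat_lit 234) (nat_lit 1748) (nat_lit 0) (XT.nd (nat_lit 78) (nat_lit 836) (nat_lit 0) (XT.lf (nat_lit 0) (nat_lit 2474648124) (nat_lit 912) (nat_lit 703284247) (nat_lit 988) (nat_lit 4906964583) (nat_lit 425) (nat_lit 5) (nat_lit 437) (nat_lit 5) (nat_lit 438) (nat_lit 5) (nat_lit 568) (nat_lit 525) (nat_lit 467)) (XT.nd (nat_lit 78) (nat_lit 836) (nat_lit 0) (XT.lf (nat_lit 0) (nat_lit 5568201620) (nat_lit 988) (nat_lit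 431546308) (nat_lit 76) (nat_lit 2151462034) (nat_lit 425) (nat_lit 5) (nat_lit 438) (nat_lit 5) (nat_lit 426) (nat_lit 5) (nat_lit 569) (nat_lit 525) (nat_lit 466)) (XT.lf (nat_lit 0) (nat_lit 4871459275) (nat_lit 836) (nat_lit 3133636873) (nat_lit 912) (nat_lit 213779086) (nat_lit 414) (nat_lit 5) (nat_lit 425) (nat_lit 5) (nat_lit 426) (nat_lit 5) (nat_lit 570) (nat_lit 525) (nat_lit 465)))) (XT.nd (nat_lit 78) (nat_lit 836) (nat_lit 0) (XT.lf (nat_lit 0) (nat_lit 1971324356) (nat_lit 836) (nat_lit 181106751) (nat_lit 912) (nat_lit 6135609234) (nat_lit 402) (nat_lit 5) (nat_lit 413) (nat_lit 5) (nat_lit 414) (nat_lit 5) (nat_lit 571) (nat_lit 525) (nat_lit 464)) (XT.nd (nat_lit 78) (nat_lit 836) (nat_lit 0) (XT.lf (nat_lit 0) (nat_lit 4567336078) (nat_lit 912) (nat_lit 975484977) (nat_lit 76) (nat_lit 2815657038) (nat_lit 402) (nat_lit 5) (nat_lit 414) (nat_lit 5) (nat_lit 403) (nat_lit 5) (nat_lit 572) (nat_lit 525) (nat_lit 463)) (XT.lf (nat_lit 0) (nat_lit 4491833217) (nat_lit 836) (nat_lit 2533031431)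 (nat_lit 912) (nat_lit 1405575664) (nat_lit 391) (nat_lit 5) (nat_lit 402) (nat_lit 5) (nat_lit 403) (nat_lit 5) (nat_lit 573) (nat_lit 525) (nat_lit 462))))))))
noncomputable def xc78 : XT := (XT.nd (nat_lit 1560) (nat_lit 6992) (nat_lit 0) (XT.nd (nat_lit 780) (nat_lit 3952) (nat_lit 0) (XT.nd (nat_lit 390) (nat_lit 2888) (nat_lit 0) (XT.nd (nat_lit 156) (nat_lit 1596) (nat_lit 0) (XT.nd (nat_lit 78) (nat_lit 0) (nat_lit 0) (XT.lf (nat_lit 0) (nat_lit 998701233) (nat_lit 912) (nat_lit 6954728376) (nat_lit 76) (nat_lit 550591297) (nat_lit 379) (nat_lit 5) (nat_lit 391) (nat_lit 5) (nat_lit 380) (nat_lit 5) (nat_lit 574) (nat_lit 525) (nat_lit 461)) (XT.lf (nat_lit 0) (nat_lit 3440256824) (nat_lit 912) (nat_lit 1443573548) (nat_lit 76) (nat_lit 3694898740) (nat_lit 379) (nat_lit 5) (nat_lit 391) (nat_lit 5) (nat_lit 380) (nat_lit 5) (nat_lit 575) (nat_lit 525) (nat_lit 460))) (XT.nd (nat_lit 78) (nat_lit 836) (nat_lit 0) (XT.lf (nat_lit 0) (nat_lit 4194472977) (nat_lit 760) (nat_lit 1728713671) (nat_lit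 836) (nat_lit 2731896024) (nat_lit 369) (nat_lit 5) (nat_lit 379) (nat_lit 5) (nat_lit 380) (nat_lit 5) (nat_lit 576) (nat_lit 525) (nat_lit 459)) (XT.nd (nat_lit 78) (nat_lit 76) (nat_lit 0) (XT.lf (nat_lit 0) (nat_lit 1199320503) (nat_lit 760) (nat_lit 7249381324) (nat_lit 836) (nat_lit 284404953) (nat_lit 359) (nat_lit 5) (nat_lit 369) (nat_lit 5) (nat_lit 370) (nat_lit 5) (nat_lit 577) (nat_lit 525) (nat_lit 458)) (XT.lf (nat_lit 0) (nat_lit 2190518282) (nat_lit 836) (nat_lit 1844139989) (nat_lit 76) (nat_lit 4777597922) (nat_lit 358) (nat_lit 5) (nat_lit 369) (nat_lit 5) (nat_lit 359) (nat_lit 5) (nat_lit 578) (nat_lit 525) (nat_lit 457))))) (XT.nd (nat_lit 156) (nat_lit 1444) (nat_lit 0) (XT.nd (nat_lit 78) (nat_lit 760) (nat_lit 0) (XT.lf (nat_lit 0) (nat_lit 3971311337) (nat_lit 684) (nat_lit 732190652) (nat_lit 760) (nat_lit 4189603498) (nat_lit 349) (nat_lit 5) (nat_lit 358) (nat_lit 5) (nat_lit 359) (nat_lit 5) (nat_lit 579) (nat_lit 525) (nat_lit 456)) (XT.lf (nat_lit 0) (nat_lit 908899204)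 (nat_lit 760) (nat_lit 6360280403) (nat_lit 836) (nat_lit 1706345336) (nat_lit 339) (nat_lit 5) (nat_lit 349) (nat_lit 5) (nat_lit 350) (nat_lit 5) (nat_lit 580) (nat_lit 525) (nat_lit 455))) (XT.nd (nat_lit 78) (nat_lit 1368) (nat_lit 0) (XT.lf (nat_lit 0) (nat_lit 820973077) (nat_lit 836) (nat_lit 2185196359) (nat_lit 76) (nat_lit 6053213087) (nat_lit 338) (nat_lit 5) (nat_lit 349) (nat_lit 5) (nat_lit 339) (nat_lit 5) (nat_lit 581) (nat_lit 525) (nat_lit 454)) (XT.nd (nat_lit 78) (nat_lit 684) (nat_lit 0) (XT.lf (nat_lit 0) (nat_lit 3371458721) (nat_lit 760) (nat_lit 5333140039) (nat_lit 76) (nat_lit 440185292) (nat_lit 329) (nat_lit 5) (nat_lit 339) (nat_lit 5) (nat_lit 330) (nat_lit 5) (nat_lit 582) (nat_lit 525) (nat_lit 453)) (XT.lf (nat_lit 0) (nat_lit 676972368) (nat_lit 684) (nat_lit 5303179242) (nat_lit 760) (nat_lit 3251599769) (nat_lit 320) (nat_lit 5) (nat_lit 329) (nat_lit 5) (nat_lit 330) (nat_lit 5) (nat_lit 583) (nat_lit 525) (nat_lit 452)))))) (XT.nd (nat_lit 390) (nat_lit 1900) (nat_lit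 0) (XT.nd (nat_lit 156) (nat_lit 1368) (nat_lit 0) (XT.nd (nat_lit 78) (nat_lit 684) (nat_lit 0) (XT.lf (nat_lit 0) (nat_lit 6841488893) (nat_lit 684) (nat_lit 1803828020) (nat_lit 760) (nat_lit 675056851) (nat_lit 320) (nat_lit 5) (nat_lit 329) (nat_lit 5) (nat_lit 330) (nat_lit 5) (nat_lit 584) (nat_lit 525) (nat_lit 451)) (XT.lf (nat_lit 0) (nat_lit 1932119948) (nat_lit 684) (nat_lit 5705482989) (nat_lit 76) (nat_lit 1772819329) (nat_lit 311) (nat_lit 5) (nat_lit 320) (nat_lit 5) (nat_lit 312) (nat_lit 5) (nat_lit 585) (nat_lit 525) (nat_lit 450))) (XT.nd (nat_lit 78) (nat_lit 684) (nat_lit 0) (XT.lf (nat_lit 0) (nat_lit 496000004) (nat_lit 684) (nat_lit 4087564196) (nat_lit 760) (nat_lit 4918596623) (nat_lit 302) (nat_lit 5) (nat_lit 311) (nat_lit 5) (nat_lit 312) (nat_lit 5) (nat_lit 586) (nat_lit 525) (nat_lit 449)) (XT.nd (nat_lit 78) (nat_lit 684) (nat_lit 0) (XT.lf (nat_lit 0) (nat_lit 6861021211) (nat_lit 684) (nat_lit 434903821) (nat_lit 760) (nat_lit 2299652922) (nat_lit 302) (nat_lit 5) (nat_lit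 311) (nat_lit 5) (nat_lit 312) (nat_lit 5) (nat_lit 587) (nat_lit 525) (nat_lit 448)) (XT.lf (nat_lit 0) (nat_lit 382117286) (nat_lit 684) (nat_lit 6041712131) (nat_lit 76) (nat_lit 3266680800) (nat_lit 293) (nat_lit 5) (nat_lit 302) (nat_lit 5) (nat_lit 294) (nat_lit 5) (nat_lit 588) (nat_lit 525) (nat_lit 447))))) (XT.nd (nat_lit 156) (nat_lit 1292) (nat_lit 0) (XT.nd (nat_lit 78) (nat_lit 0) (nat_lit 0) (XT.lf (nat_lit 0) (nat_lit 358597558) (nat_lit 608) (nat_lit 2722137316) (nat_lit 684) (nat_lit 6706423616) (nat_lit 285) (nat_lit 5) (nat_lit 293) (nat_lit 5) (nat_lit 294) (nat_lit 5) (nat_lit 589) (nat_lit 525) (nat_lit 446)) (XT.lf (nat_lit 0) (nat_lit 5851557918) (nat_lit 684) (nat_lit 2961302478) (nat_lit 76) (nat_lit 1072516108) (nat_lit 285) (nat_lit 5) (nat_lit 294) (nat_lit 5) (nat_lit 286) (nat_lit 5) (nat_lit 590) (nat_lit 525) (nat_lit 445))) (XT.nd (nat_lit 78) (nat_lit 684) (nat_lit 0) (XT.lf (nat_lit 0) (nat_lit 3627520945) (nat_lit 608) (nat_lit 5063013934) (nat_lit 684) (nat_lit 1294770658)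 (nat_lit 277) (nat_lit 5) (nat_lit 285) (nat_lit 5) (nat_lit 286) (nat_lit 5) (nat_lit 591) (nat_lit 525) (nat_lit 444)) (XT.nd (nat_lit 78) (nat_lit 0) (nat_lit 0) (XT.lf (nat_lit 0) (nat_lit 257473008) (nat_lit 608) (nat_lit 1214892319) (nat_lit 684) (nat_lit 8614815170) (nat_lit 268) (nat_lit 5) (nat_lit 276) (nat_lit 5) (nat_lit 277) (nat_lit 5) (nat_lit 592) (nat_lit 525) (nat_lit 443)) (XT.lf (nat_lit 0) (nat_lit 4309622477) (nat_lit 684) (nat_lit 3163206912) (nat_lit 76) (nat_lit 2717451418) (nat_lit 268) (nat_lit 5) (nat_lit 277) (nat_lit 5) (nat_lit 269) (nat_lit 5) (nat_lit 593) (nat_lit 525) (nat_lit 442))))))) (XT.nd (nat_lit 780) (nat_lit 3192) (nat_lit 0) (XT.nd (nat_lit 390) (nat_lit 1596) (nat_lit 0) (XT.nd (nat_lit 156) (nat_lit 1140) (nat_lit 0) (XT.nd (nat_lit 78) (nat_lit 532) (nat_lit 0) (XT.lf (nat_lit 0) (nat_lit 3639317259) (nat_lit 532) (nat_lit 3568095966) (nat_lit 608) (nat_lit 3087955432) (nat_lit 261) (nat_lit 5) (nat_lit 268) (nat_lit 5) (nat_lit 269) (nat_lit 5) (nat_lit 594)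 (nat_lit 525) (nat_lit 441)) (XT.lf (nat_lit 0) (nat_lit 180934985) (nat_lit 532) (nat_lit 9979822235) (nat_lit 608) (nat_lit 241850370) (nat_lit 254) (nat_lit 5) (nat_lit 261) (nat_lit 5) (nat_lit 262) (nat_lit 5) (nat_lit 595) (nat_lit 525) (nat_lit 440))) (XT.nd (nat_lit 78) (nat_lit 1064) (nat_lit 0) (XT.lf (nat_lit 0) (nat_lit 2667348210) (nat_lit 608) (nat_lit 3344778990) (nat_lit 76) (nat_lit 4498698301) (nat_lit 253) (nat_lit 5) (nat_lit 261) (nat_lit 5) (nat_lit 254) (nat_lit 5) (nat_lit 596) (nat_lit 525) (nat_lit 439)) (XT.nd (nat_lit 78) (nat_lit 532) (nat_lit 0) (XT.lf (nat_lit 0) (nat_lit 3679680186) (nat_lit 532) (nat_lit 1948727768) (nat_lit 608) (nat_lit 4992830735) (nat_lit 246) (nat_lit 5) (nat_lit 253) (nat_lit 5) (nat_lit 254) (nat_lit 5) (nat_lit 597) (nat_lit 525) (nat_lit 438)) (XT.lf (nat_lit 0) (nat_lit 106688547) (nat_lit 532) (nat_lit 8552795746) (nat_lit 608) (nat_lit 2074161120) (nat_lit 239) (nat_lit 5) (nat_lit 246) (nat_lit 5) (nat_lit 247) (nat_lit 5) (nat_lit 598) (nat_lit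 525) (nat_lit 437))))) (XT.nd (nat_lit 156) (nat_lit 1064) (nat_lit 0) (XT.nd (nat_lit 78) (nat_lit 456) (nat_lit 0) (XT.lf (nat_lit 0) (nat_lit 924197593) (nat_lit 608) (nat_lit 3513423380) (nat_lit 76) (nat_lit 6409900044) (nat_lit 238) (nat_lit 5) (nat_lit 246) (nat_lit 5) (nat_lit 239) (nat_lit 5) (nat_lit 599) (nat_lit 525) (nat_lit 436)) (XT.lf (nat_lit 0) (nat_lit 3741465727) (nat_lit 456) (nat_lit 211486778) (nat_lit 532) (nat_lit 7010484495) (nat_lit 232) (nat_lit 5) (nat_lit 238) (nat_lit 5) (nat_lit 239) (nat_lit 5) (nat_lit 600) (nat_lit 525) (nat_lit 435))) (XT.nd (nat_lit 78) (nat_lit 532) (nat_lit 0) (XT.lf (nat_lit 0) (nat_lit 45238680) (nat_lit 532) (nat_lit 7021781375) (nat_lit 608) (nat_lit 4014157585) (nat_lit 225) (nat_lit 5) (nat_lit 232) (nat_lit 5) (nat_lit 233) (nat_lit 5) (nat_lit 601) (nat_lit 525) (nat_lit 434)) (XT.nd (nat_lit 78) (nat_lit 532) (nat_lit 0) (XT.lf (nat_lit 0) (nat_lit 7518047056) (nat_lit 532) (nat_lit 2749545458) (nat_lit 608) (nat_lit 933197177) (nat_lit 225)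 (nat_lit 5) (nat_lit 232) (nat_lit 5) (nat_lit 233) (nat_lit 5) (nat_lit 602) (nat_lit 525) (nat_lit 433)) (XT.lf (nat_lit 0) (nat_lit 2190526804) (nat_lit 532) (nat_lit 7515760707) (nat_lit 76) (nat_lit 1616018185) (nat_lit 218) (nat_lit 5) (nat_lit 225) (nat_lit 5) (nat_lit 219) (nat_lit 5) (nat_lit 603) (nat_lit 525) (nat_lit 432)))))) (XT.nd (nat_lit 390) (nat_lit 1748) (nat_lit 0) (XT.nd (nat_lit 156) (nat_lit 988) (nat_lit 0) (XT.nd (nat_lit 78) (nat_lit 456) (nat_lit 0) (XT.lf (nat_lit 0) (nat_lit 5382227307) (nat_lit 532) (nat_lit 10817870) (nat_lit 76) (nat_lit 6052724532) (nat_lit 218) (nat_lit 5) (nat_lit 225) (nat_lit 5) (nat_lit 219) (nat_lit 5) (nat_lit 604) (nat_lit 525) (nat_lit 431)) (XT.lf (nat_lit 0) (nat_lit 7710002346) (nat_lit 456) (nat_lit 953210233) (nat_lit 532) (nat_lit 2907982394) (nat_lit 212) (nat_lit 5) (nat_lit 218) (nat_lit 5) (nat_lit 219) (nat_lit 5) (nat_lit 605) (nat_lit 525) (nat_lit 430))) (XT.nd (nat_lit 78) (nat_lit 456) (nat_lit 0) (XT.lf (nat_lit 0) (nat_lit 330817538)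 (nat_lit 532) (nat_lit 7822440960) (nat_lit 76) (nat_lit 3545346778) (nat_lit 205) (nat_lit 5) (nat_lit 212) (nat_lit 5) (nat_lit 206) (nat_lit 5) (nat_lit 606) (nat_lit 525) (nat_lit 429)) (XT.nd (nat_lit 78) (nat_lit 456) (nat_lit 0) (XT.lf (nat_lit 0) (nat_lit 3603552638) (nat_lit 532) (nat_lit 68795953) (nat_lit 76) (nat_lit 8155669748) (nat_lit 205) (nat_lit 5) (nat_lit 212) (nat_lit 5) (nat_lit 206) (nat_lit 5) (nat_lit 607) (nat_lit 525) (nat_lit 428)) (XT.lf (nat_lit 0) (nat_lit 6975333895) (nat_lit 532) (nat_lit 4056841719) (nat_lit 76) (nat_lit 927173133) (nat_lit 199) (nat_lit 5) (nat_lit 206) (nat_lit 5) (nat_lit 200) (nat_lit 5) (nat_lit 608) (nat_lit 525) (nat_lit 427))))) (XT.nd (nat_lit 234) (nat_lit 836) (nat_lit 0) (XT.nd (nat_lit 78) (nat_lit 532) (nat_lit 0) (XT.lf (nat_lit 0) (nat_lit 3933042325) (nat_lit 380) (nat_lit 6508142867) (nat_lit 456) (nat_lit 1651588775) (nat_lit 194) (nat_lit 5) (nat_lit 199) (nat_lit 5) (nat_lit 200) (nat_lit 5) (nat_lit 609) (nat_lit 525) (nat_lit 426))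 (XT.nd (nat_lit 78) (nat_lit 456) (nat_lit 0) (XT.lf (nat_lit 0) (nat_lit 1728366621) (nat_lit 456) (nat_lit 137306514) (nat_lit 76) (nat_lit 10362892511) (nat_lit 193) (nat_lit 5) (nat_lit 199) (nat_lit 5) (nat_lit 194) (nat_lit 5) (nat_lit 610) (nat_lit 525) (nat_lit 425)) (XT.lf (nat_lit 0) (nat_lit 5202296960) (nat_lit 532) (nat_lit 4278780368) (nat_lit 76) (nat_lit 2884808520) (nat_lit 187) (nat_lit 5) (nat_lit 194) (nat_lit 5) (nat_lit 188) (nat_lit 5) (nat_lit 611) (nat_lit 525) (nat_lit 424)))) (XT.nd (nat_lit 78) (nat_lit 456) (nat_lit 0) (XT.lf (nat_lit 0) (nat_lit 3977089997) (nat_lit 380) (nat_lit 4784736833) (nat_lit 456) (nat_lit 3743804030) (nat_lit 182) (nat_lit 5) (nat_lit 187) (nat_lit 5) (nat_lit 188) (nat_lit 5) (nat_lit 612) (nat_lit 525) (nat_lit 423)) (XT.nd (nat_lit 78) (nat_lit 456) (nat_lit 0) (XT.lf (nat_lit 0) (nat_lit 12398653838) (nat_lit 456) (nat_lit 226538779) (nat_lit 76) (nat_lit 22856835) (nat_lit 182) (nat_lit 5) (nat_lit 188) (nat_lit 5) (nat_lit 183) (nat_lit 5) (nat_lit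 613) (nat_lit 525) (nat_lit 422)) (XT.lf (nat_lit 0) (nat_lit 3334932310) (nat_lit 456) (nat_lit 4529640332) (nat_lit 76) (nat_lit 4927043964) (nat_lit 176) (nat_lit 5) (nat_lit 182) (nat_lit 5) (nat_lit 177) (nat_lit 5) (nat_lit 614) (nat_lit 525) (nat_lit 421))))))))
noncomputable def xc79 : XT := (XT.nd (nat_lit 75504) (nat_lit 0) (nat_lit 25004) (XT.nd (nat_lit 74724) (nat_lit 0) (nat_lit 41344) (XT.nd (nat_lit 74334) (nat_lit 0) (nat_lit 44384) (XT.nd (nat_lit 156) (nat_lit 836) (nat_lit 0) (XT.nd (nat_lit 78) (nat_lit 0) (nat_lit 0) (XT.lf (nat_lit 0) (nat_lit 4001947684) (nat_lit 380) (nat_lit 2990863025) (nat_lit 456) (nat_lit 5945108119) (nat_lit 171) (nat_lit 5) (nat_lit 176) (nat_lit 5) (nat_lit 177) (nat_lit 5) (nat_lit 615) (nat_lit 525) (nat_lit 420)) (XT.lf (nat_lit 0) (nat_lit 10745128448) (nat_lit 456) (nat_lit 368355458) (nat_lit 76) (nat_lit 1973238301) (nat_lit 171) (nat_lit 5) (nat_lit 177) (nat_lit 5) (nat_lit 172) (nat_lit 5) (nat_lit 616) (nat_lit 525) (nat_lit 419))) (XT.nd (nat_lit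 78) (nat_lit 380) (nat_lit 0) (XT.lf (nat_lit 0) (nat_lit 1369630779) (nat_lit 456) (nat_lit 4818773609) (nat_lit 76) (nat_lit 7048862053) (nat_lit 165) (nat_lit 5) (nat_lit 171) (nat_lit 5) (nat_lit 166) (nat_lit 5) (nat_lit 617) (nat_lit 525) (nat_lit 418)) (XT.nd (nat_lit 74022) (nat_lit 0) (nat_lit 45524) (XT.lf (nat_lit 0) (nat_lit 3998496875) (nat_lit 380) (nat_lit 1132034745) (nat_lit 456) (nat_lit 8259844970) (nat_lit 160) (nat_lit 5) (nat_lit 165) (nat_lit 5) (nat_lit 166) (nat_lit 5) (nat_lit 618) (nat_lit 525) (nat_lit 417)) (XT.lf (nat_lit 0) (nat_lit 1418614239) (nat_lit 532) (nat_lit 918346557) (nat_lit 532) (nat_lit 918346557) (nat_lit 759) (nat_lit 3) (nat_lit 766) (nat_lit 3) (nat_lit 766) (nat_lit 5) (nat_lit 526) (nat_lit 526) (nat_lit 508))))) (XT.nd (nat_lit 156) (nat_lit 608) (nat_lit 0) (XT.nd (nat_lit 78) (nat_lit 532) (nat_lit 0) (XT.lf (nat_lit 76) (nat_lit 1417292898) (nat_lit 0) (nat_lit 4085639957) (nat_lit 532) (nat_lit 1019768908) (nat_lit 760) (nat_lit 5) (nat_lit 759) (nat_lit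 3) (nat_lit 766) (nat_lit 5) (nat_lit 527) (nat_lit 526) (nat_lit 507)) (XT.lf (nat_lit 0) (nat_lit 1607570048) (nat_lit 532) (nat_lit 1821123812) (nat_lit 608) (nat_lit 3107269184) (nat_lit 752) (nat_lit 5) (nat_lit 759) (nat_lit 3) (nat_lit 760) (nat_lit 5) (nat_lit 528) (nat_lit 526) (nat_lit 506))) (XT.nd (nat_lit 78) (nat_lit 608) (nat_lit 0) (XT.lf (nat_lit 76) (nat_lit 1506000849) (nat_lit 0) (nat_lit 2709323065) (nat_lit 608) (nat_lit 2335207234) (nat_lit 753) (nat_lit 5) (nat_lit 752) (nat_lit 5) (nat_lit 760) (nat_lit 5) (nat_lit 529) (nat_lit 526) (nat_lit 505)) (XT.nd (nat_lit 78) (nat_lit 0) (nat_lit 0) (XT.lf (nat_lit 0) (nat_lit 250468327) (nat_lit 608) (nat_lit 1679398459) (nat_lit 684) (nat_lit 4636596403) (nat_lit 744) (nat_lit 5) (nat_lit 752) (nat_lit 5) (nat_lit 753) (nat_lit 5) (nat_lit 530) (nat_lit 526) (nat_lit 504)) (XT.lf (nat_lit 76) (nat_lit 1724389254) (nat_lit 0) (nat_lit 1077138645) (nat_lit 684) (nat_lit 3781984951) (nat_lit 745) (nat_lit 5) (nat_lit 744) (nat_lit 5) (nat_lit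 753) (nat_lit 5) (nat_lit 531) (nat_lit 526) (nat_lit 503)))))) (XT.nd (nat_lit 390) (nat_lit 1672) (nat_lit 0) (XT.nd (nat_lit 156) (nat_lit 760) (nat_lit 0) (XT.nd (nat_lit 78) (nat_lit 608) (nat_lit 0) (XT.lf (nat_lit 76) (nat_lit 5183455428) (nat_lit 0) (nat_lit 166205534) (nat_lit 684) (nat_lit 1252327842) (nat_lit 745) (nat_lit 5) (nat_lit 744) (nat_lit 5) (nat_lit 753) (nat_lit 5) (nat_lit 532) (nat_lit 526) (nat_lit 502)) (XT.lf (nat_lit 0) (nat_lit 1264888047) (nat_lit 684) (nat_lit 4553253935) (nat_lit 760) (nat_lit 803438329) (nat_lit 736) (nat_lit 5) (nat_lit 745) (nat_lit 5) (nat_lit 746) (nat_lit 5) (nat_lit 533) (nat_lit 526) (nat_lit 501))) (XT.nd (nat_lit 78) (nat_lit 760) (nat_lit 0) (XT.lf (nat_lit 0) (nat_lit 3763222434) (nat_lit 684) (nat_lit 1043623311) (nat_lit 760) (nat_lit 1835607467) (nat_lit 736) (nat_lit 5) (nat_lit 745) (nat_lit 5) (nat_lit 746) (nat_lit 5) (nat_lit 534) (nat_lit 526) (nat_lit 500)) (XT.nd (nat_lit 78) (nat_lit 760) (nat_lit 0) (XT.lf (nat_lit 76) (nat_lit 2533203079)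 (nat_lit 0) (nat_lit 3732850338) (nat_lit 760) (nat_lit 398605419) (nat_lit 737) (nat_lit 5) (nat_lit 736) (nat_lit 5) (nat_lit 746) (nat_lit 5) (nat_lit 535) (nat_lit 526) (nat_lit 499)) (XT.lf (nat_lit 0) (nat_lit 2049379239) (nat_lit 760) (nat_lit 542145132) (nat_lit 836) (nat_lit 4096598966) (nat_lit 726) (nat_lit 5) (nat_lit 736) (nat_lit 5) (nat_lit 737) (nat_lit 5) (nat_lit 536) (nat_lit 526) (nat_lit 498))))) (XT.nd (nat_lit 156) (nat_lit 836) (nat_lit 0) (XT.nd (nat_lit 78) (nat_lit 836) (nat_lit 0) (XT.lf (nat_lit 76) (nat_lit 3121165344) (nat_lit 0) (nat_lit 1379947344) (nat_lit 836) (nat_lit 2211694741) (nat_lit 727) (nat_lit 5) (nat_lit 726) (nat_lit 5) (nat_lit 737) (nat_lit 5) (nat_lit 537) (nat_lit 526) (nat_lit 497)) (XT.lf (nat_lit 76) (nat_lit 89979991) (nat_lit 0) (nat_lit 115106895) (nat_lit 912) (nat_lit 6533976312) (nat_lit 716) (nat_lit 5) (nat_lit 715) (nat_lit 5) (nat_lit 727) (nat_lit 5) (nat_lit 538) (nat_lit 526) (nat_lit 496))) (XT.nd (nat_lit 78) (nat_lit 912) (nat_lit 0)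 (XT.lf (nat_lit 0) (nat_lit 2613990392) (nat_lit 836) (nat_lit 2931600624) (nat_lit 912) (nat_lit 1220497869) (nat_lit 716) (nat_lit 5) (nat_lit 727) (nat_lit 5) (nat_lit 728) (nat_lit 5) (nat_lit 539) (nat_lit 526) (nat_lit 495)) (XT.nd (nat_lit 78) (nat_lit 912) (nat_lit 0) (XT.lf (nat_lit 76) (nat_lit 833416322) (nat_lit 0) (nat_lit 4186459089) (nat_lit 912) (nat_lit 1774808710) (nat_lit 717) (nat_lit 5) (nat_lit 716) (nat_lit 5) (nat_lit 728) (nat_lit 5) (nat_lit 540) (nat_lit 526) (nat_lit 494)) (XT.lf (nat_lit 0) (nat_lit 604441926) (nat_lit 912) (nat_lit 2151836936) (nat_lit 988) (nat_lit 4068234092) (nat_lit 704) (nat_lit 5) (nat_lit 716) (nat_lit 5) (nat_lit 717) (nat_lit 5) (nat_lit 541) (nat_lit 526) (nat_lit 493))))))) (XT.nd (nat_lit 780) (nat_lit 10868) (nat_lit 0) (XT.nd (nat_lit 390) (nat_lit 3572) (nat_lit 0) (XT.nd (nat_lit 156) (nat_lit 1900) (nat_lit 0) (XT.nd (nat_lit 78) (nat_lit 0) (nat_lit 76) (XT.lf (nat_lit 76) (nat_lit 1707659753) (nat_lit 0) (nat_lit 1255214975) (nat_lit 988)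 (nat_lit 3892726579) (nat_lit 705) (nat_lit 5) (nat_lit 704) (nat_lit 5) (nat_lit 717) (nat_lit 5) (nat_lit 542) (nat_lit 526) (nat_lit 492)) (XT.lf (nat_lit 0) (nat_lit 5330030485) (nat_lit 912) (nat_lit 1253139582) (nat_lit 76) (nat_lit 304914987) (nat_lit 705) (nat_lit 5) (nat_lit 717) (nat_lit 5) (nat_lit 706) (nat_lit 5) (nat_lit 543) (nat_lit 526) (nat_lit 491))) (XT.nd (nat_lit 78) (nat_lit 988) (nat_lit 0) (XT.lf (nat_lit 0) (nat_lit 784532312) (nat_lit 988) (nat_lit 4217160526) (nat_lit 76) (nat_lit 1919982875) (nat_lit 692) (nat_lit 5) (nat_lit 705) (nat_lit 5) (nat_lit 693) (nat_lit 5) (nat_lit 544) (nat_lit 526) (nat_lit 490)) (XT.nd (nat_lit 78) (nat_lit 988) (nat_lit 0) (XT.lf (nat_lit 0) (nat_lit 3108354079) (nat_lit 988) (nat_lit 245307931) (nat_lit 76) (nat_lit 3602969734) (nat_lit 692) (nat_lit 5) (nat_lit 705) (nat_lit 5) (nat_lit 693) (nat_lit 5) (nat_lit 545) (nat_lit 526) (nat_lit 489)) (XT.lf (nat_lit 0) (nat_lit 3819334058) (nat_lit 988) (nat_lit 1631920852) (nat_lit 1064) (nat_lit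 1541584290) (nat_lit 679) (nat_lit 5) (nat_lit 692) (nat_lit 5) (nat_lit 693) (nat_lit 5) (nat_lit 546) (nat_lit 526) (nat_lit 488))))) (XT.nd (nat_lit 156) (nat_lit 2432) (nat_lit 0) (XT.nd (nat_lit 78) (nat_lit 0) (nat_lit 0) (XT.lf (nat_lit 0) (nat_lit 757390695) (nat_lit 1140) (nat_lit 6123238280) (nat_lit 76) (nat_lit 149904926) (nat_lit 664) (nat_lit 5) (nat_lit 679) (nat_lit 5) (nat_lit 665) (nat_lit 5) (nat_lit 547) (nat_lit 526) (nat_lit 487)) (XT.lf (nat_lit 0) (nat_lit 3063079804) (nat_lit 1140) (nat_lit 2015043392) (nat_lit 76) (nat_lit 1991032079) (nat_lit 664) (nat_lit 5) (nat_lit 679) (nat_lit 5) (nat_lit 665) (nat_lit 5) (nat_lit 548) (nat_lit 526) (nat_lit 486))) (XT.nd (nat_lit 78) (nat_lit 1292) (nat_lit 0) (XT.lf (nat_lit 0) (nat_lit 2166415291) (nat_lit 1140) (nat_lit 3212643793) (nat_lit 1216) (nat_lit 1730210489) (nat_lit 649) (nat_lit 5) (nat_lit 664) (nat_lit 5) (nat_lit 665) (nat_lit 5) (nat_lit 549) (nat_lit 526) (nat_lit 485)) (XT.nd (nat_lit 78) (nat_lit 1216) (nat_lit 0) (XT.lf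 (nat_lit 0) (nat_lit 547548759) (nat_lit 1216) (nat_lit 732754950) (nat_lit 76) (nat_lit 5870526945) (nat_lit 648) (nat_lit 5) (nat_lit 664) (nat_lit 5) (nat_lit 649) (nat_lit 5) (nat_lit 550) (nat_lit 526) (nat_lit 484)) (XT.lf (nat_lit 0) (nat_lit 2827106909) (nat_lit 1292) (nat_lit 3638507635) (nat_lit 76) (nat_lit 727795245) (nat_lit 632) (nat_lit 5) (nat_lit 649) (nat_lit 5) (nat_lit 633) (nat_lit 5) (nat_lit 551) (nat_lit 526) (nat_lit 483)))))) (XT.nd (nat_lit 390) (nat_lit 6688) (nat_lit 0) (XT.nd (nat_lit 156) (nat_lit 2812) (nat_lit 0) (XT.nd (nat_lit 78) (nat_lit 76) (nat_lit 0) (XT.lf (nat_lit 0) (nat_lit 663921670) (nat_lit 1292) (nat_lit 4458347078) (nat_lit 1368) (nat_lit 2115175227) (nat_lit 615) (nat_lit 5) (nat_lit 632) (nat_lit 5) (nat_lit 633) (nat_lit 5) (nat_lit 552) (nat_lit 526) (nat_lit 482)) (XT.lf (nat_lit 0) (nat_lit 155829868) (nat_lit 1368) (nat_lit 2219648333) (nat_lit 76) (nat_lit 4907316149) (nat_lit 614) (nat_lit 5) (nat_lit 632) (nat_lit 5) (nat_lit 615) (nat_lit 5) (nat_lit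 553) (nat_lit 526) (nat_lit 481))) (XT.nd (nat_lit 78) (nat_lit 1444) (nat_lit 0) (XT.lf (nat_lit 0) (nat_lit 2198718594) (nat_lit 1368) (nat_lit 213095123) (nat_lit 1444) (nat_lit 4917604276) (nat_lit 596) (nat_lit 5) (nat_lit 614) (nat_lit 5) (nat_lit 615) (nat_lit 5) (nat_lit 554) (nat_lit 526) (nat_lit 480)) (XT.nd (nat_lit 78) (nat_lit 1444) (nat_lit 0) (XT.lf (nat_lit 0) (nat_lit 4695151236) (nat_lit 1444) (nat_lit 692312346) (nat_lit 76) (nat_lit 1989869281) (nat_lit 596) (nat_lit 5) (nat_lit 615) (nat_lit 5) (nat_lit 597) (nat_lit 5) (nat_lit 555) (nat_lit 526) (nat_lit 479)) (XT.lf (nat_lit 0) (nat_lit 3846485025) (nat_lit 1444) (nat_lit 3159255126) (nat_lit 1520) (nat_lit 420837553) (nat_lit 577) (nat_lit 5) (nat_lit 596) (nat_lit 5) (nat_lit 597) (nat_lit 5) (nat_lit 556) (nat_lit 526) (nat_lit 478))))) (XT.nd (nat_lit 234) (nat_lit 3496) (nat_lit 0) (XT.nd (nat_lit 78) (nat_lit 1596) (nat_lit 0) (XT.lf (nat_lit 0) (nat_lit 971453274) (nat_lit 1520) (nat_lit 856073273) (nat_lit 1596) (nat_lit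 5649708765) (nat_lit 556) (nat_lit 5) (nat_lit 576) (nat_lit 5) (nat_lit 577) (nat_lit 5) (nat_lit 557) (nat_lit 526) (nat_lit 477)) (XT.nd (nat_lit 78) (nat_lit 1596) (nat_lit 0) (XT.lf (nat_lit 0) (nat_lit 4105316730) (nat_lit 1596) (nat_lit 1916921347) (nat_lit 76) (nat_lit 1506813659) (nat_lit 556) (nat_lit 5) (nat_lit 577) (nat_lit 5) (nat_lit 557) (nat_lit 5) (nat_lit 558) (nat_lit 526) (nat_lit 476)) (XT.lf (nat_lit 0) (nat_lit 2756538685) (nat_lit 1596) (nat_lit 3652759760) (nat_lit 1672) (nat_lit 1172996439) (nat_lit 535) (nat_lit 5) (nat_lit 556) (nat_lit 5) (nat_lit 557) (nat_lit 5) (nat_lit 559) (nat_lit 526) (nat_lit 475)))) (XT.nd (nat_lit 78) (nat_lit 3420) (nat_lit 0) (XT.lf (nat_lit 0) (nat_lit 1078365087) (nat_lit 1672) (nat_lit 132250776) (nat_lit 76) (nat_lit 6426437560) (nat_lit 534) (nat_lit 5) (nat_lit 556) (nat_lit 5) (nat_lit 535) (nat_lit 5) (nat_lit 560) (nat_lit 526) (nat_lit 474)) (XT.nd (nat_lit 78) (nat_lit 1748) (nat_lit 0) (XT.lf (nat_lit 0) (nat_lit 3356206848) (nat_lit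 1748) (nat_lit 3030193713) (nat_lit 76) (nat_lit 1306411246) (nat_lit 512) (nat_lit 5) (nat_lit 535) (nat_lit 5) (nat_lit 513) (nat_lit 5) (nat_lit 561) (nat_lit 526) (nat_lit 473)) (XT.lf (nat_lit 0) (nat_lit 1783023866) (nat_lit 1748) (nat_lit 3875895380) (nat_lit 1824) (nat_lit 2091182712) (nat_lit 489) (nat_lit 5) (nat_lit 512) (nat_lit 5) (nat_lit 513) (nat_lit 5) (nat_lit 562) (nat_lit 526) (nat_lit 472))))))))
noncomputable def xc80 : XT := (XT.nd (nat_lit 1560) (nat_lit 7904) (nat_lit 0) (XT.nd (nat_lit 780) (nat_lit 5548) (nat_lit 0) (XT.nd (nat_lit 390) (nat_lit 2660) (nat_lit 0) (XT.nd (nat_lit 156) (nat_lit 2052) (nat_lit 0) (XT.nd (nat_lit 78) (nat_lit 1824) (nat_lit 0) (XT.lf (nat_lit 0) (nat_lit 176123020) (nat_lit 1824) (nat_lit 1114122128) (nat_lit 76) (nat_lit 6518677926) (nat_lit 488) (nat_lit 5) (nat_lit 512) (nat_lit 5) (nat_lit 489) (nat_lit 5) (nat_lit 563) (nat_lit 526) (nat_lit 471)) (XT.lf (nat_lit 0) (nat_lit 2454639174) (nat_lit 1900) (nat_lit 4043026536) (nat_lit 76) (nat_lit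 1371103853) (nat_lit 464) (nat_lit 5) (nat_lit 489) (nat_lit 5) (nat_lit 465) (nat_lit 5) (nat_lit 564) (nat_lit 526) (nat_lit 470))) (XT.nd (nat_lit 78) (nat_lit 988) (nat_lit 0) (XT.lf (nat_lit 0) (nat_lit 915295317) (nat_lit 1064) (nat_lit 3845923389) (nat_lit 1140) (nat_lit 3168947068) (nat_lit 450) (nat_lit 5) (nat_lit 464) (nat_lit 5) (nat_lit 465) (nat_lit 5) (nat_lit 565) (nat_lit 526) (nat_lit 469)) (XT.nd (nat_lit 78) (nat_lit 988) (nat_lit 0) (XT.lf (nat_lit 0) (nat_lit 5989878614) (nat_lit 1064) (nat_lit 1112191948) (nat_lit 1140) (nat_lit 890959137) (nat_lit 450) (nat_lit 5) (nat_lit 464) (nat_lit 5) (nat_lit 465) (nat_lit 5) (nat_lit 566) (nat_lit 526) (nat_lit 468)) (XT.lf (nat_lit 0) (nat_lit 1406548065) (nat_lit 988) (nat_lit 4965708507) (nat_lit 76) (nat_lit 1684855842) (nat_lit 437) (nat_lit 5) (nat_lit 450) (nat_lit 5) (nat_lit 438) (nat_lit 5) (nat_lit 567) (nat_lit 526) (nat_lit 467))))) (XT.nd (nat_lit 156) (nat_lit 1748) (nat_lit 0) (XT.nd (nat_lit 78) (nat_lit 0) (nat_lit 0) (XT.lf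 (nat_lit 0) (nat_lit 143316246) (nat_lit 912) (nat_lit 3578633861) (nat_lit 988) (nat_lit 4400733852) (nat_lit 425) (nat_lit 5) (nat_lit 437) (nat_lit 5) (nat_lit 438) (nat_lit 5) (nat_lit 568) (nat_lit 526) (nat_lit 466)) (XT.lf (nat_lit 0) (nat_lit 5384079254) (nat_lit 912) (nat_lit 695438972) (nat_lit 988) (nat_lit 2110133953) (nat_lit 425) (nat_lit 5) (nat_lit 437) (nat_lit 5) (nat_lit 438) (nat_lit 5) (nat_lit 569) (nat_lit 526) (nat_lit 465))) (XT.nd (nat_lit 78) (nat_lit 836) (nat_lit 0) (XT.lf (nat_lit 0) (nat_lit 217030583) (nat_lit 912) (nat_lit 5807992083) (nat_lit 76) (nat_lit 2233035620) (nat_lit 413) (nat_lit 5) (nat_lit 425) (nat_lit 5) (nat_lit 414) (nat_lit 5) (nat_lit 570) (nat_lit 526) (nat_lit 464)) (XT.nd (nat_lit 78) (nat_lit 836) (nat_lit 0) (XT.lf (nat_lit 0) (nat_lit 2549569885) (nat_lit 912) (nat_lit 535299738) (nat_lit 76) (nat_lit 5242944473) (nat_lit 413) (nat_lit 5) (nat_lit 425) (nat_lit 5) (nat_lit 414) (nat_lit 5) (nat_lit 571) (nat_lit 526) (nat_lit 463)) (XT.lf (nat_lit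 0) (nat_lit 4869467728) (nat_lit 836) (nat_lit 55126342) (nat_lit 912) (nat_lit 3474456495) (nat_lit 402) (nat_lit 5) (nat_lit 413) (nat_lit 5) (nat_lit 414) (nat_lit 5) (nat_lit 572) (nat_lit 526) (nat_lit 462)))))) (XT.nd (nat_lit 390) (nat_lit 3040) (nat_lit 0) (XT.nd (nat_lit 156) (nat_lit 1596) (nat_lit 0) (XT.nd (nat_lit 78) (nat_lit 76) (nat_lit 0) (XT.lf (nat_lit 0) (nat_lit 1885246357) (nat_lit 836) (nat_lit 5462103974) (nat_lit 912) (nat_lit 1124358977) (nat_lit 391) (nat_lit 5) (nat_lit 402) (nat_lit 5) (nat_lit 403) (nat_lit 5) (nat_lit 573) (nat_lit 526) (nat_lit 461)) (XT.lf (nat_lit 0) (nat_lit 1245140865) (nat_lit 912) (nat_lit 1135832466) (nat_lit 76) (nat_lit 6164902867) (nat_lit 390) (nat_lit 5) (nat_lit 402) (nat_lit 5) (nat_lit 391) (nat_lit 5) (nat_lit 574) (nat_lit 526) (nat_lit 460))) (XT.nd (nat_lit 78) (nat_lit 760) (nat_lit 0) (XT.lf (nat_lit 0) (nat_lit 3646542173) (nat_lit 912) (nat_lit 4189271077) (nat_lit 76) (nat_lit 785575256) (nat_lit 379) (nat_lit 5) (nat_lit 391) (nat_lit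 5) (nat_lit 380) (nat_lit 5) (nat_lit 575) (nat_lit 526) (nat_lit 459)) (XT.nd (nat_lit 78) (nat_lit 0) (nat_lit 0) (XT.lf (nat_lit 0) (nat_lit 1393429934) (nat_lit 760) (nat_lit 4701019211) (nat_lit 836) (nat_lit 2603994374) (nat_lit 369) (nat_lit 5) (nat_lit 379) (nat_lit 5) (nat_lit 380) (nat_lit 5) (nat_lit 576) (nat_lit 526) (nat_lit 458)) (XT.lf (nat_lit 0) (nat_lit 7107228096) (nat_lit 760) (nat_lit 1478612797) (nat_lit 836) (nat_lit 191310179) (nat_lit 369) (nat_lit 5) (nat_lit 379) (nat_lit 5) (nat_lit 380) (nat_lit 5) (nat_lit 577) (nat_lit 526) (nat_lit 457))))) (XT.nd (nat_lit 156) (nat_lit 1520) (nat_lit 0) (XT.nd (nat_lit 78) (nat_lit 684) (nat_lit 0) (XT.lf (nat_lit 0) (nat_lit 2245189430) (nat_lit 836) (nat_lit 4789676809) (nat_lit 76) (nat_lit 1822167149) (nat_lit 358) (nat_lit 5) (nat_lit 369) (nat_lit 5) (nat_lit 359) (nat_lit 5) (nat_lit 578) (nat_lit 526) (nat_lit 456)) (XT.lf (nat_lit 0) (nat_lit 967848877) (nat_lit 684) (nat_lit 3754604726) (nat_lit 760) (nat_lit 4216144391) (nat_lit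 349) (nat_lit 5) (nat_lit 358) (nat_lit 5) (nat_lit 359) (nat_lit 5) (nat_lit 579) (nat_lit 526) (nat_lit 455))) (XT.nd (nat_lit 78) (nat_lit 1520) (nat_lit 0) (XT.lf (nat_lit 0) (nat_lit 6868256651) (nat_lit 684) (nat_lit 380786070) (nat_lit 760) (nat_lit 1772757400) (nat_lit 349) (nat_lit 5) (nat_lit 358) (nat_lit 5) (nat_lit 359) (nat_lit 5) (nat_lit 580) (nat_lit 526) (nat_lit 454)) (XT.nd (nat_lit 78) (nat_lit 684) (nat_lit 0) (XT.lf (nat_lit 0) (nat_lit 722749615) (nat_lit 836) (nat_lit 5338627894) (nat_lit 76) (nat_lit 3044943332) (nat_lit 338) (nat_lit 5) (nat_lit 349) (nat_lit 5) (nat_lit 339) (nat_lit 5) (nat_lit 581) (nat_lit 526) (nat_lit 453)) (XT.lf (nat_lit 0) (nat_lit 600574452) (nat_lit 684) (nat_lit 2633261778) (nat_lit 760) (nat_lit 5958674971) (nat_lit 329) (nat_lit 5) (nat_lit 338) (nat_lit 5) (nat_lit 339) (nat_lit 5) (nat_lit 582) (nat_lit 526) (nat_lit 452))))))) (XT.nd (nat_lit 780) (nat_lit 3876) (nat_lit 0) (XT.nd (nat_lit 390) (nat_lit 1976) (nat_lit 0) (XT.nd (nat_lit 156) (nat_lit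 1368) (nat_lit 0) (XT.nd (nat_lit 78) (nat_lit 684) (nat_lit 0) (XT.lf (nat_lit 0) (nat_lit 5805570392) (nat_lit 760) (nat_lit 2592215326) (nat_lit 76) (nat_lit 882432818) (nat_lit 329) (nat_lit 5) (nat_lit 339) (nat_lit 5) (nat_lit 330) (nat_lit 5) (nat_lit 583) (nat_lit 526) (nat_lit 451)) (XT.lf (nat_lit 0) (nat_lit 3519365200) (nat_lit 684) (nat_lit 4919033191) (nat_lit 760) (nat_lit 931090093) (nat_lit 320) (nat_lit 5) (nat_lit 329) (nat_lit 5) (nat_lit 330) (nat_lit 5) (nat_lit 584) (nat_lit 526) (nat_lit 450))) (XT.nd (nat_lit 78) (nat_lit 684) (nat_lit 0) (XT.lf (nat_lit 0) (nat_lit 283910750) (nat_lit 608) (nat_lit 1346498162) (nat_lit 684) (nat_lit 7830142820) (nat_lit 311) (nat_lit 5) (nat_lit 319) (nat_lit 5) (nat_lit 320) (nat_lit 5) (nat_lit 585) (nat_lit 526) (nat_lit 449)) (XT.nd (nat_lit 78) (nat_lit 684) (nat_lit 0) (XT.lf (nat_lit 0) (nat_lit 4254962982) (nat_lit 684) (nat_lit 2991403241) (nat_lit 76) (nat_lit 2306462642) (nat_lit 311) (nat_lit 5) (nat_lit 320) (nat_lit 5) (nat_lit 312)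 (nat_lit 5) (nat_lit 586) (nat_lit 526) (nat_lit 448)) (XT.lf (nat_lit 0) (nat_lit 3315502903) (nat_lit 684) (nat_lit 3617386644) (nat_lit 760) (nat_lit 2714045887) (nat_lit 302) (nat_lit 5) (nat_lit 311) (nat_lit 5) (nat_lit 312) (nat_lit 5) (nat_lit 587) (nat_lit 526) (nat_lit 447))))) (XT.nd (nat_lit 156) (nat_lit 1292) (nat_lit 0) (XT.nd (nat_lit 78) (nat_lit 76) (nat_lit 0) (XT.lf (nat_lit 0) (nat_lit 9112591) (nat_lit 608) (nat_lit 9646809508) (nat_lit 684) (nat_lit 87172584) (nat_lit 294) (nat_lit 5) (nat_lit 302) (nat_lit 5) (nat_lit 303) (nat_lit 5) (nat_lit 588) (nat_lit 526) (nat_lit 446)) (XT.lf (nat_lit 0) (nat_lit 2595843073) (nat_lit 684) (nat_lit 3356149557) (nat_lit 76) (nat_lit 3888097261) (nat_lit 293) (nat_lit 5) (nat_lit 302) (nat_lit 5) (nat_lit 294) (nat_lit 5) (nat_lit 589) (nat_lit 526) (nat_lit 445))) (XT.nd (nat_lit 78) (nat_lit 684) (nat_lit 0) (XT.lf (nat_lit 0) (nat_lit 3153703189) (nat_lit 608) (nat_lit 2169574400) (nat_lit 684) (nat_lit 4615898784) (nat_lit 285) (nat_lit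 5) (nat_lit 293) (nat_lit 5) (nat_lit 294) (nat_lit 5) (nat_lit 590) (nat_lit 526) (nat_lit 444)) (XT.nd (nat_lit 78) (nat_lit 684) (nat_lit 0) (XT.lf (nat_lit 0) (nat_lit 8110617607) (nat_lit 684) (nat_lit 248256093) (nat_lit 76) (nat_lit 1681265129) (nat_lit 285) (nat_lit 5) (nat_lit 294) (nat_lit 5) (nat_lit 286) (nat_lit 5) (nat_lit 591) (nat_lit 526) (nat_lit 443)) (XT.lf (nat_lit 0) (nat_lit 828690810) (nat_lit 684) (nat_lit 3693897636) (nat_lit 76) (nat_lit 5619853402) (nat_lit 276) (nat_lit 5) (nat_lit 285) (nat_lit 5) (nat_lit 277) (nat_lit 5) (nat_lit 592) (nat_lit 526) (nat_lit 442)))))) (XT.nd (nat_lit 390) (nat_lit 2128) (nat_lit 0) (XT.nd (nat_lit 156) (nat_lit 1140) (nat_lit 0) (XT.nd (nat_lit 78) (nat_lit 0) (nat_lit 0) (XT.lf (nat_lit 0) (nat_lit 3026784766) (nat_lit 608) (nat_lit 583206123) (nat_lit 684) (nat_lit 6636671054) (nat_lit 268) (nat_lit 5) (nat_lit 276) (nat_lit 5) (nat_lit 277) (nat_lit 5) (nat_lit 593) (nat_lit 526) (nat_lit 441)) (XT.lf (nat_lit 0) (nat_lit 6466831926) (nat_lit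 684) (nat_lit 479250091) (nat_lit 76) (nat_lit 3406487402) (nat_lit 268) (nat_lit 5) (nat_lit 277) (nat_lit 5) (nat_lit 269) (nat_lit 5) (nat_lit 594) (nat_lit 526) (nat_lit 440))) (XT.nd (nat_lit 78) (nat_lit 608) (nat_lit 0) (XT.lf (nat_lit 0) (nat_lit 6441250741) (nat_lit 532) (nat_lit 2958439004) (nat_lit 608) (nat_lit 1060528949) (nat_lit 261) (nat_lit 5) (nat_lit 268) (nat_lit 5) (nat_lit 269) (nat_lit 5) (nat_lit 595) (nat_lit 526) (nat_lit 439)) (XT.nd (nat_lit 78) (nat_lit 0) (nat_lit 0) (XT.lf (nat_lit 0) (nat_lit 1800227282) (nat_lit 608) (nat_lit 7649666981) (nat_lit 76) (nat_lit 1119832836) (nat_lit 253) (nat_lit 5) (nat_lit 261) (nat_lit 5) (nat_lit 254) (nat_lit 5) (nat_lit 596) (nat_lit 526) (nat_lit 438)) (XT.lf (nat_lit 0) (nat_lit 4724302342) (nat_lit 608) (nat_lit 691245728) (nat_lit 76) (nat_lit 5265332494) (nat_lit 253) (nat_lit 5) (nat_lit 261) (nat_lit 5) (nat_lit 254) (nat_lit 5) (nat_lit 597) (nat_lit 526) (nat_lit 437))))) (XT.nd (nat_lit 156) (nat_lit 1064) (nat_lit 0) (XT.nd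 (nat_lit 78) (nat_lit 532) (nat_lit 0) (XT.lf (nat_lit 0) (nat_lit 6455805074) (nat_lit 532) (nat_lit 1267038418) (nat_lit 608) (nat_lit 3071095071) (nat_lit 246) (nat_lit 5) (nat_lit 253) (nat_lit 5) (nat_lit 254) (nat_lit 5) (nat_lit 598) (nat_lit 526) (nat_lit 436)) (XT.lf (nat_lit 0) (nat_lit 2828389098) (nat_lit 532) (nat_lit 7969536628) (nat_lit 608) (nat_lit 111001723) (nat_lit 239) (nat_lit 5) (nat_lit 246) (nat_lit 5) (nat_lit 247) (nat_lit 5) (nat_lit 599) (nat_lit 526) (nat_lit 435))) (XT.nd (nat_lit 78) (nat_lit 988) (nat_lit 0) (XT.lf (nat_lit 0) (nat_lit 2882241711) (nat_lit 608) (nat_lit 891591670) (nat_lit 76) (nat_lit 7251764350) (nat_lit 238) (nat_lit 5) (nat_lit 246) (nat_lit 5) (nat_lit 239) (nat_lit 5) (nat_lit 600) (nat_lit 526) (nat_lit 434)) (XT.nd (nat_lit 78) (nat_lit 532) (nat_lit 0) (XT.lf (nat_lit 0) (nat_lit 5954409641) (nat_lit 532) (nat_lit 4657067554) (nat_lit 76) (nat_lit 532699697) (nat_lit 232) (nat_lit 5) (nat_lit 239) (nat_lit 5) (nat_lit 233) (nat_lit 5) (nat_lit 601)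 (nat_lit 526) (nat_lit 433)) (XT.lf (nat_lit 0) (nat_lit 2736270611) (nat_lit 532) (nat_lit 6375633053) (nat_lit 608) (nat_lit 2152747365) (nat_lit 225) (nat_lit 5) (nat_lit 232) (nat_lit 5) (nat_lit 233) (nat_lit 5) (nat_lit 602) (nat_lit 526) (nat_lit 432))))))))
noncomputable def xc81 : XT := (XT.nd (nat_lit 75582) (nat_lit 0) (nat_lit 35492) (XT.nd (nat_lit 780) (nat_lit 1672) (nat_lit 0) (XT.nd (nat_lit 390) (nat_lit 1368) (nat_lit 0) (XT.nd (nat_lit 156) (nat_lit 988) (nat_lit 0) (XT.nd (nat_lit 78) (nat_lit 456) (nat_lit 0) (XT.lf (nat_lit 0) (nat_lit 939277330) (nat_lit 608) (nat_lit 1087795256) (nat_lit 76) (nat_lit 9360207188) (nat_lit 224) (nat_lit 5) (nat_lit 232) (nat_lit 5) (nat_lit 225) (nat_lit 5) (nat_lit 603) (nat_lit 526) (nat_lit 431)) (XT.lf (nat_lit 0) (nat_lit 4098430766) (nat_lit 532) (nat_lit 4989017882) (nat_lit 76) (nat_lit 2423946568) (nat_lit 218) (nat_lit 5) (nat_lit 225) (nat_lit 5) (nat_lit 219) (nat_lit 5) (nat_lit 604) (nat_lit 526) (nat_lit 430))) (XT.nd (nat_lit 78) (nat_lit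 532) (nat_lit 0) (XT.lf (nat_lit 0) (nat_lit 2648264948) (nat_lit 456) (nat_lit 4686343772) (nat_lit 532) (nat_lit 4303108385) (nat_lit 212) (nat_lit 5) (nat_lit 218) (nat_lit 5) (nat_lit 219) (nat_lit 5) (nat_lit 605) (nat_lit 526) (nat_lit 429)) (XT.nd (nat_lit 78) (nat_lit 532) (nat_lit 0) (XT.lf (nat_lit 0) (nat_lit 10471502211) (nat_lit 456) (nat_lit 173611346) (nat_lit 532) (nat_lit 1121260757) (nat_lit 212) (nat_lit 5) (nat_lit 218) (nat_lit 5) (nat_lit 219) (nat_lit 5) (nat_lit 606) (nat_lit 526) (nat_lit 428)) (XT.lf (nat_lit 0) (nat_lit 2144666930) (nat_lit 532) (nat_lit 5333802267) (nat_lit 76) (nat_lit 4417894490) (nat_lit 205) (nat_lit 5) (nat_lit 212) (nat_lit 5) (nat_lit 206) (nat_lit 5) (nat_lit 607) (nat_lit 526) (nat_lit 427))))) (XT.nd (nat_lit 156) (nat_lit 912) (nat_lit 0) (XT.nd (nat_lit 78) (nat_lit 0) (nat_lit 0) (XT.lf (nat_lit 0) (nat_lit 2556581201) (nat_lit 456) (nat_lit 2907438610) (nat_lit 532) (nat_lit 6564723293) (nat_lit 199) (nat_lit 5) (nat_lit 205) (nat_lit 5) (nat_lit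 206) (nat_lit 5) (nat_lit 608) (nat_lit 526) (nat_lit 426)) (XT.lf (nat_lit 0) (nat_lit 8873962145) (nat_lit 532) (nat_lit 1532013621) (nat_lit 76) (nat_lit 1757311171) (nat_lit 199) (nat_lit 5) (nat_lit 206) (nat_lit 5) (nat_lit 200) (nat_lit 5) (nat_lit 609) (nat_lit 526) (nat_lit 425))) (XT.nd (nat_lit 78) (nat_lit 456) (nat_lit 0) (XT.lf (nat_lit 0) (nat_lit 90507779) (nat_lit 456) (nat_lit 5699807496) (nat_lit 76) (nat_lit 6509408463) (nat_lit 193) (nat_lit 5) (nat_lit 199) (nat_lit 5) (nat_lit 194) (nat_lit 5) (nat_lit 610) (nat_lit 526) (nat_lit 424)) (XT.nd (nat_lit 78) (nat_lit 0) (nat_lit 0) (XT.lf (nat_lit 0) (nat_lit 2453081833) (nat_lit 456) (nat_lit 1044440163) (nat_lit 532) (nat_lit 8940860675) (nat_lit 187) (nat_lit 5) (nat_lit 193) (nat_lit 5) (nat_lit 194) (nat_lit 5) (nat_lit 611) (nat_lit 526) (nat_lit 423)) (XT.lf (nat_lit 0) (nat_lit 7013293680) (nat_lit 532) (nat_lit 1791622578) (nat_lit 76) (nat_lit 3774086990) (nat_lit 187) (nat_lit 5) (nat_lit 194) (nat_lit 5) (nat_lit 188) (nat_lit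 5) (nat_lit 612) (nat_lit 526) (nat_lit 422)))))) (XT.nd (nat_lit 390) (nat_lit 76) (nat_lit 0) (XT.nd (nat_lit 156) (nat_lit 760) (nat_lit 0) (XT.nd (nat_lit 78) (nat_lit 456) (nat_lit 0) (XT.lf (nat_lit 0) (nat_lit 6612439317) (nat_lit 380) (nat_lit 4014699206) (nat_lit 456) (nat_lit 2094743353) (nat_lit 182) (nat_lit 5) (nat_lit 187) (nat_lit 5) (nat_lit 188) (nat_lit 5) (nat_lit 613) (nat_lit 526) (nat_lit 421)) (XT.lf (nat_lit 0) (nat_lit 1437714704) (nat_lit 456) (nat_lit 10543950746) (nat_lit 76) (nat_lit 885545020) (nat_lit 176) (nat_lit 5) (nat_lit 182) (nat_lit 5) (nat_lit 177) (nat_lit 5) (nat_lit 614) (nat_lit 526) (nat_lit 420))) (XT.nd (nat_lit 78) (nat_lit 760) (nat_lit 0) (XT.lf (nat_lit 0) (nat_lit 5058780180) (nat_lit 456) (nat_lit 2081440242) (nat_lit 76) (nat_lit 5874028899) (nat_lit 176) (nat_lit 5) (nat_lit 182) (nat_lit 5) (nat_lit 177) (nat_lit 5) (nat_lit 615) (nat_lit 526) (nat_lit 419)) (XT.nd (nat_lit 78) (nat_lit 380) (nat_lit 0) (XT.lf (nat_lit 0) (nat_lit 6604076949) (nat_lit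 380) (nat_lit 2169621159) (nat_lit 456) (nat_lit 4390102950) (nat_lit 171) (nat_lit 5) (nat_lit 176) (nat_lit 5) (nat_lit 177) (nat_lit 5) (nat_lit 616) (nat_lit 526) (nat_lit 418)) (XT.lf (nat_lit 0) (nat_lit 2151758958) (nat_lit 380) (nat_lit 10436705062) (nat_lit 456) (nat_lit 727369537) (nat_lit 166) (nat_lit 5) (nat_lit 171) (nat_lit 5) (nat_lit 172) (nat_lit 5) (nat_lit 617) (nat_lit 526) (nat_lit 417))))) (XT.nd (nat_lit 74178) (nat_lit 0) (nat_lit 44004) (XT.nd (nat_lit 74100) (nat_lit 0) (nat_lit 44612) (XT.lf (nat_lit 0) (nat_lit 3006591314) (nat_lit 456) (nat_lit 2410888135) (nat_lit 76) (nat_lit 8052288642) (nat_lit 165) (nat_lit 5) (nat_lit 171) (nat_lit 5) (nat_lit 166) (nat_lit 5) (nat_lit 618) (nat_lit 526) (nat_lit 416)) (XT.lf (nat_lit 0) (nat_lit 392466661) (nat_lit 0) (nat_lit 392466661) (nat_lit 532) (nat_lit 2482782277) (nat_lit 752) (nat_lit 5) (nat_lit 752) (nat_lit 3) (nat_lit 759) (nat_lit 3) (nat_lit 527) (nat_lit 527) (nat_lit 506))) (XT.nd (nat_lit 78) (nat_lit 608) (nat_lit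 0) (XT.lf (nat_lit 0) (nat_lit 4063315068) (nat_lit 0) (nat_lit 82157209) (nat_lit 532) (nat_lit 2403858359) (nat_lit 752) (nat_lit 5) (nat_lit 752) (nat_lit 3) (nat_lit 759) (nat_lit 3) (nat_lit 528) (nat_lit 527) (nat_lit 505)) (XT.nd (nat_lit 78) (nat_lit 0) (nat_lit 0) (XT.lf (nat_lit 0) (nat_lit 148436421) (nat_lit 608) (nat_lit 5750456008) (nat_lit 684) (nat_lit 665753154) (nat_lit 744) (nat_lit 5) (nat_lit 752) (nat_lit 5) (nat_lit 753) (nat_lit 5) (nat_lit 529) (nat_lit 527) (nat_lit 504)) (XT.lf (nat_lit 0) (nat_lit 2670670378) (nat_lit 608) (nat_lit 2418207412) (nat_lit 684) (nat_lit 1492056103) (nat_lit 744) (nat_lit 5) (nat_lit 752) (nat_lit 5) (nat_lit 753) (nat_lit 5) (nat_lit 530) (nat_lit 527) (nat_lit 503))))))) (XT.nd (nat_lit 780) (nat_lit 5396) (nat_lit 0) (XT.nd (nat_lit 390) (nat_lit 1672) (nat_lit 0) (XT.nd (nat_lit 156) (nat_lit 760) (nat_lit 0) (XT.nd (nat_lit 78) (nat_lit 684) (nat_lit 0) (XT.lf (nat_lit 76) (nat_lit 958156977) (nat_lit 0) (nat_lit 4226426571) (nat_lit 684) (nat_lit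 1414146075) (nat_lit 745) (nat_lit 5) (nat_lit 744) (nat_lit 5) (nat_lit 753) (nat_lit 5) (nat_lit 531) (nat_lit 527) (nat_lit 502)) (XT.lf (nat_lit 0) (nat_lit 1069015485) (nat_lit 684) (nat_lit 2224911305) (nat_lit 760) (nat_lit 3323774264) (nat_lit 735) (nat_lit 5) (nat_lit 744) (nat_lit 5) (nat_lit 745) (nat_lit 5) (nat_lit 532) (nat_lit 527) (nat_lit 501))) (XT.nd (nat_lit 78) (nat_lit 760) (nat_lit 0) (XT.lf (nat_lit 76) (nat_lit 1230814722) (nat_lit 0) (nat_lit 2296993074) (nat_lit 760) (nat_lit 3110165086) (nat_lit 736) (nat_lit 5) (nat_lit 735) (nat_lit 5) (nat_lit 745) (nat_lit 5) (nat_lit 533) (nat_lit 527) (nat_lit 500)) (XT.nd (nat_lit 78) (nat_lit 760) (nat_lit 0) (XT.lf (nat_lit 76) (nat_lit 4751019269) (nat_lit 0) (nat_lit 1237592441) (nat_lit 760) (nat_lit 670987585) (nat_lit 736) (nat_lit 5) (nat_lit 735) (nat_lit 5) (nat_lit 745) (nat_lit 5) (nat_lit 534) (nat_lit 527) (nat_lit 499)) (XT.lf (nat_lit 76) (nat_lit 1634678686) (nat_lit 0) (nat_lit 107792402) (nat_lit 836) (nat_lit 4939970293)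 (nat_lit 726) (nat_lit 5) (nat_lit 725) (nat_lit 5) (nat_lit 736) (nat_lit 5) (nat_lit 535) (nat_lit 527) (nat_lit 498))))) (XT.nd (nat_lit 156) (nat_lit 1748) (nat_lit 0) (XT.nd (nat_lit 78) (nat_lit 0) (nat_lit 0) (XT.lf (nat_lit 0) (nat_lit 4154754223) (nat_lit 760) (nat_lit 1478202218) (nat_lit 836) (nat_lit 1073509889) (nat_lit 726) (nat_lit 5) (nat_lit 736) (nat_lit 5) (nat_lit 737) (nat_lit 5) (nat_lit 536) (nat_lit 527) (nat_lit 497)) (XT.lf (nat_lit 76) (nat_lit 2154924067) (nat_lit 0) (nat_lit 4416100046) (nat_lit 836) (nat_lit 160838263) (nat_lit 727) (nat_lit 5) (nat_lit 726) (nat_lit 5) (nat_lit 737) (nat_lit 5) (nat_lit 537) (nat_lit 527) (nat_lit 496))) (XT.nd (nat_lit 78) (nat_lit 912) (nat_lit 0) (XT.lf (nat_lit 0) (nat_lit 2199538263) (nat_lit 836) (nat_lit 927595365) (nat_lit 912) (nat_lit 3631310937) (nat_lit 715) (nat_lit 5) (nat_lit 726) (nat_lit 5) (nat_lit 727) (nat_lit 5) (nat_lit 538) (nat_lit 527) (nat_lit 495)) (XT.nd (nat_lit 78) (nat_lit 912) (nat_lit 0) (XT.lf (nat_lit 76)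 (nat_lit 2795109322) (nat_lit 0) (nat_lit 1770729141) (nat_lit 912) (nat_lit 2220486383) (nat_lit 716) (nat_lit 5) (nat_lit 715) (nat_lit 5) (nat_lit 727) (nat_lit 5) (nat_lit 539) (nat_lit 527) (nat_lit 494)) (XT.lf (nat_lit 0) (nat_lit 112045402) (nat_lit 912) (nat_lit 246652783) (nat_lit 988) (nat_lit 6457057994) (nat_lit 703) (nat_lit 5) (nat_lit 715) (nat_lit 5) (nat_lit 716) (nat_lit 5) (nat_lit 540) (nat_lit 527) (nat_lit 493)))))) (XT.nd (nat_lit 390) (nat_lit 4484) (nat_lit 0) (XT.nd (nat_lit 156) (nat_lit 988) (nat_lit 0) (XT.nd (nat_lit 78) (nat_lit 0) (nat_lit 0) (XT.lf (nat_lit 0) (nat_lit 2436458897) (nat_lit 912) (nat_lit 3283672694) (nat_lit 988) (nat_lit 1125856541) (nat_lit 704) (nat_lit 5) (nat_lit 716) (nat_lit 5) (nat_lit 717) (nat_lit 5) (nat_lit 541) (nat_lit 527) (nat_lit 492)) (XT.lf (nat_lit 76) (nat_lit 542701562) (nat_lit 0) (nat_lit 4217569749) (nat_lit 988) (nat_lit 2117499914) (nat_lit 705) (nat_lit 5) (nat_lit 704) (nat_lit 5) (nat_lit 717) (nat_lit 5) (nat_lit 542) (nat_lit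 527) (nat_lit 491))) (XT.nd (nat_lit 78) (nat_lit 0) (nat_lit 0) (XT.lf (nat_lit 0) (nat_lit 185484575) (nat_lit 988) (nat_lit 2457743482) (nat_lit 1064) (nat_lit 4267577745) (nat_lit 691) (nat_lit 5) (nat_lit 704) (nat_lit 5) (nat_lit 705) (nat_lit 5) (nat_lit 543) (nat_lit 527) (nat_lit 490)) (XT.nd (nat_lit 78) (nat_lit 0) (nat_lit 76) (XT.lf (nat_lit 76) (nat_lit 1466524244) (nat_lit 0) (nat_lit 996085293) (nat_lit 1064) (nat_lit 4482487361) (nat_lit 692) (nat_lit 5) (nat_lit 691) (nat_lit 5) (nat_lit 705) (nat_lit 5) (nat_lit 544) (nat_lit 527) (nat_lit 489)) (XT.lf (nat_lit 0) (nat_lit 4754124939) (nat_lit 988) (nat_lit 1518440392) (nat_lit 76) (nat_lit 708135882) (nat_lit 692) (nat_lit 5) (nat_lit 705) (nat_lit 5) (nat_lit 693) (nat_lit 5) (nat_lit 545) (nat_lit 527) (nat_lit 488))))) (XT.nd (nat_lit 234) (nat_lit 2432) (nat_lit 0) (XT.nd (nat_lit 78) (nat_lit 1064) (nat_lit 0) (XT.lf (nat_lit 0) (nat_lit 45014604) (nat_lit 1064) (nat_lit 4506669031) (nat_lit 76) (nat_lit 2465897737) (nat_lit 678)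 (nat_lit 5) (nat_lit 692) (nat_lit 5) (nat_lit 679) (nat_lit 5) (nat_lit 546) (nat_lit 527) (nat_lit 487)) (XT.nd (nat_lit 78) (nat_lit 1064) (nat_lit 0) (XT.lf (nat_lit 0) (nat_lit 2291769876) (nat_lit 1064) (nat_lit 464833340) (nat_lit 76) (nat_lit 4299114741) (nat_lit 678) (nat_lit 5) (nat_lit 692) (nat_lit 5) (nat_lit 679) (nat_lit 5) (nat_lit 547) (nat_lit 527) (nat_lit 486)) (XT.lf (nat_lit 0) (nat_lit 3670229721) (nat_lit 1064) (nat_lit 887316517) (nat_lit 1140) (nat_lit 2537593340) (nat_lit 664) (nat_lit 5) (nat_lit 678) (nat_lit 5) (nat_lit 679) (nat_lit 5) (nat_lit 548) (nat_lit 527) (nat_lit 485)))) (XT.nd (nat_lit 78) (nat_lit 1292) (nat_lit 0) (XT.lf (nat_lit 0) (nat_lit 725299780) (nat_lit 1140) (nat_lit 6108894553) (nat_lit 1216) (nat_lit 301848120) (nat_lit 649) (nat_lit 5) (nat_lit 664) (nat_lit 5) (nat_lit 665) (nat_lit 5) (nat_lit 549) (nat_lit 527) (nat_lit 484)) (XT.nd (nat_lit 78) (nat_lit 1216) (nat_lit 0) (XT.lf (nat_lit 0) (nat_lit 1933162532) (nat_lit 1216) (nat_lit 2228228708)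 (nat_lit 76) (nat_lit 3016509001) (nat_lit 648) (nat_lit 5) (nat_lit 664) (nat_lit 5) (nat_lit 649) (nat_lit 5) (nat_lit 550) (nat_lit 527) (nat_lit 483)) (XT.lf (nat_lit 0) (nat_lit 2026247206) (nat_lit 1216) (nat_lit 2148184120) (nat_lit 1292) (nat_lit 3046815677) (nat_lit 632) (nat_lit 5) (nat_lit 648) (nat_lit 5) (nat_lit 649) (nat_lit 5) (nat_lit 551) (nat_lit 527) (nat_lit 482))))))))
noncomputable def xc82 : XT := (XT.nd (nat_lit 1560) (nat_lit 9728) (nat_lit 0) (XT.nd (nat_lit 780) (nat_lit 7524) (nat_lit 0) (XT.nd (nat_lit 390) (nat_lit 4864) (nat_lit 0) (XT.nd (nat_lit 156) (nat_lit 2888) (nat_lit 0) (XT.nd (nat_lit 78) (nat_lit 1368) (nat_lit 0) (XT.lf (nat_lit 0) (nat_lit 6359991512) (nat_lit 1216) (nat_lit 68625375) (nat_lit 1292) (nat_lit 837485633) (nat_lit 632) (nat_lit 5) (nat_lit 648) (nat_lit 5) (nat_lit 649) (nat_lit 5) (nat_lit 552) (nat_lit 527) (nat_lit 481)) (XT.lf (nat_lit 0) (nat_lit 1387335262) (nat_lit 1368) (nat_lit 3856832540) (nat_lit 76) (nat_lit 2067709457) (nat_lit 614)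 (nat_lit 5) (nat_lit 632) (nat_lit 5) (nat_lit 615) (nat_lit 5) (nat_lit 553) (nat_lit 527) (nat_lit 480))) (XT.nd (nat_lit 78) (nat_lit 1520) (nat_lit 0) (XT.lf (nat_lit 0) (nat_lit 521377472) (nat_lit 1368) (nat_lit 3088521056) (nat_lit 1444) (nat_lit 3749272485) (nat_lit 596) (nat_lit 5) (nat_lit 614) (nat_lit 5) (nat_lit 615) (nat_lit 5) (nat_lit 554) (nat_lit 527) (nat_lit 479)) (XT.nd (nat_lit 78) (nat_lit 1520) (nat_lit 0) (XT.lf (nat_lit 0) (nat_lit 5002993642) (nat_lit 1368) (nat_lit 854945634) (nat_lit 1444) (nat_lit 1549854208) (nat_lit 596) (nat_lit 5) (nat_lit 614) (nat_lit 5) (nat_lit 615) (nat_lit 5) (nat_lit 555) (nat_lit 527) (nat_lit 478)) (XT.lf (nat_lit 0) (nat_lit 663257297) (nat_lit 1520) (nat_lit 5363702124) (nat_lit 76) (nat_lit 1430766143) (nat_lit 576) (nat_lit 5) (nat_lit 596) (nat_lit 5) (nat_lit 577) (nat_lit 5) (nat_lit 556) (nat_lit 527) (nat_lit 477))))) (XT.nd (nat_lit 156) (nat_lit 3344) (nat_lit 0) (XT.nd (nat_lit 78) (nat_lit 1520) (nat_lit 0) (XT.lf (nat_lit 0) (nat_lit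 2878216878) (nat_lit 1520) (nat_lit 845946920) (nat_lit 76) (nat_lit 3784724002) (nat_lit 576) (nat_lit 5) (nat_lit 596) (nat_lit 5) (nat_lit 577) (nat_lit 5) (nat_lit 557) (nat_lit 527) (nat_lit 476)) (XT.lf (nat_lit 0) (nat_lit 3775402419) (nat_lit 1520) (nat_lit 1343853057) (nat_lit 1596) (nat_lit 2442185318) (nat_lit 556) (nat_lit 5) (nat_lit 576) (nat_lit 5) (nat_lit 577) (nat_lit 5) (nat_lit 558) (nat_lit 527) (nat_lit 475))) (XT.nd (nat_lit 78) (nat_lit 1748) (nat_lit 0) (XT.lf (nat_lit 0) (nat_lit 852901803) (nat_lit 1596) (nat_lit 6528414328) (nat_lit 1672) (nat_lit 234207742) (nat_lit 535) (nat_lit 5) (nat_lit 556) (nat_lit 5) (nat_lit 557) (nat_lit 5) (nat_lit 559) (nat_lit 527) (nat_lit 474)) (XT.nd (nat_lit 78) (nat_lit 1672) (nat_lit 0) (XT.lf (nat_lit 0) (nat_lit 1984158334) (nat_lit 1672) (nat_lit 2093646449) (nat_lit 76) (nat_lit 3592770839) (nat_lit 534) (nat_lit 5) (nat_lit 556) (nat_lit 5) (nat_lit 535) (nat_lit 5) (nat_lit 560) (nat_lit 527) (nat_lit 473)) (XT.lf (nat_lit 0) (nat_lit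 2665609932) (nat_lit 1672) (nat_lit 1554495014) (nat_lit 1748) (nat_lit 3507068385) (nat_lit 512) (nat_lit 5) (nat_lit 534) (nat_lit 5) (nat_lit 535) (nat_lit 5) (nat_lit 561) (nat_lit 527) (nat_lit 472)))))) (XT.nd (nat_lit 390) (nat_lit 2812) (nat_lit 0) (XT.nd (nat_lit 156) (nat_lit 2888) (nat_lit 0) (XT.nd (nat_lit 78) (nat_lit 1824) (nat_lit 0) (XT.lf (nat_lit 0) (nat_lit 6481164729) (nat_lit 1748) (nat_lit 280006469) (nat_lit 76) (nat_lit 1024126731) (nat_lit 512) (nat_lit 5) (nat_lit 535) (nat_lit 5) (nat_lit 513) (nat_lit 5) (nat_lit 562) (nat_lit 527) (nat_lit 471)) (XT.lf (nat_lit 0) (nat_lit 931154131) (nat_lit 1824) (nat_lit 3239717226) (nat_lit 76) (nat_lit 3673580749) (nat_lit 488) (nat_lit 5) (nat_lit 512) (nat_lit 5) (nat_lit 489) (nat_lit 5) (nat_lit 563) (nat_lit 527) (nat_lit 470))) (XT.nd (nat_lit 78) (nat_lit 1064) (nat_lit 0) (XT.lf (nat_lit 0) (nat_lit 1662709550) (nat_lit 1824) (nat_lit 1504384024) (nat_lit 1900) (nat_lit 4738057869) (nat_lit 464) (nat_lit 5) (nat_lit 488) (nat_lit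 5) (nat_lit 489) (nat_lit 5) (nat_lit 564) (nat_lit 527) (nat_lit 469)) (XT.nd (nat_lit 78) (nat_lit 1064) (nat_lit 0) (XT.lf (nat_lit 0) (nat_lit 5438782118) (nat_lit 1900) (nat_lit 1304779972) (nat_lit 76) (nat_lit 1223684674) (nat_lit 464) (nat_lit 5) (nat_lit 489) (nat_lit 5) (nat_lit 465) (nat_lit 5) (nat_lit 565) (nat_lit 527) (nat_lit 468)) (XT.lf (nat_lit 0) (nat_lit 3734161561) (nat_lit 1064) (nat_lit 4017964773) (nat_lit 1140) (nat_lit 278535771) (nat_lit 450) (nat_lit 5) (nat_lit 464) (nat_lit 5) (nat_lit 465) (nat_lit 5) (nat_lit 566) (nat_lit 527) (nat_lit 467))))) (XT.nd (nat_lit 156) (nat_lit 1824) (nat_lit 0) (XT.nd (nat_lit 78) (nat_lit 0) (nat_lit 0) (XT.lf (nat_lit 0) (nat_lit 756419963) (nat_lit 912) (nat_lit 1209524578) (nat_lit 988) (nat_lit 6129621865) (nat_lit 437) (nat_lit 5) (nat_lit 449) (nat_lit 5) (nat_lit 450) (nat_lit 5) (nat_lit 567) (nat_lit 527) (nat_lit 466)) (XT.lf (nat_lit 0) (nat_lit 4254137618) (nat_lit 988) (nat_lit 2242593113) (nat_lit 76) (nat_lit 1664952589) (nat_lit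 437) (nat_lit 5) (nat_lit 450) (nat_lit 5) (nat_lit 438) (nat_lit 5) (nat_lit 568) (nat_lit 527) (nat_lit 465))) (XT.nd (nat_lit 78) (nat_lit 912) (nat_lit 0) (XT.lf (nat_lit 0) (nat_lit 2950043519) (nat_lit 912) (nat_lit 3628725205) (nat_lit 988) (nat_lit 1650542724) (nat_lit 425) (nat_lit 5) (nat_lit 437) (nat_lit 5) (nat_lit 438) (nat_lit 5) (nat_lit 569) (nat_lit 527) (nat_lit 464)) (XT.nd (nat_lit 78) (nat_lit 836) (nat_lit 0) (XT.lf (nat_lit 0) (nat_lit 621952655) (nat_lit 988) (nat_lit 62161335) (nat_lit 76) (nat_lit 7614517838) (nat_lit 424) (nat_lit 5) (nat_lit 437) (nat_lit 5) (nat_lit 425) (nat_lit 5) (nat_lit 570) (nat_lit 527) (nat_lit 463)) (XT.lf (nat_lit 0) (nat_lit 2931924849) (nat_lit 912) (nat_lit 3102927625) (nat_lit 76) (nat_lit 2333987607) (nat_lit 413) (nat_lit 5) (nat_lit 425) (nat_lit 5) (nat_lit 414) (nat_lit 5) (nat_lit 571) (nat_lit 527) (nat_lit 462))))))) (XT.nd (nat_lit 780) (nat_lit 4028) (nat_lit 0) (XT.nd (nat_lit 390) (nat_lit 3116) (nat_lit 0) (XT.nd (nat_lit 156) (nat_lit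 1748) (nat_lit 0) (XT.nd (nat_lit 78) (nat_lit 0) (nat_lit 0) (XT.lf (nat_lit 0) (nat_lit 2249401750) (nat_lit 836) (nat_lit 3023169684) (nat_lit 912) (nat_lit 3168193745) (nat_lit 402) (nat_lit 5) (nat_lit 413) (nat_lit 5) (nat_lit 414) (nat_lit 5) (nat_lit 572) (nat_lit 527) (nat_lit 461)) (XT.lf (nat_lit 0) (nat_lit 7646669172) (nat_lit 912) (nat_lit 800284233) (nat_lit 76) (nat_lit 67444745) (nat_lit 402) (nat_lit 5) (nat_lit 414) (nat_lit 5) (nat_lit 403) (nat_lit 5) (nat_lit 573) (nat_lit 527) (nat_lit 460))) (XT.nd (nat_lit 78) (nat_lit 836) (nat_lit 0) (XT.lf (nat_lit 0) (nat_lit 1476062561) (nat_lit 912) (nat_lit 3894826200) (nat_lit 76) (nat_lit 3218090822) (nat_lit 390) (nat_lit 5) (nat_lit 402) (nat_lit 5) (nat_lit 391) (nat_lit 5) (nat_lit 574) (nat_lit 527) (nat_lit 459)) (XT.nd (nat_lit 78) (nat_lit 0) (nat_lit 0) (XT.lf (nat_lit 0) (nat_lit 1623448512) (nat_lit 836) (nat_lit 2213868641) (nat_lit 912) (nat_lit 4827978668) (nat_lit 379) (nat_lit 5) (nat_lit 390) (nat_lit 5) (nat_lit 391) (nat_lit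 5) (nat_lit 575) (nat_lit 527) (nat_lit 458)) (XT.lf (nat_lit 0) (nat_lit 6245296657) (nat_lit 912) (nat_lit 1481291921) (nat_lit 76) (nat_lit 1016561782) (nat_lit 379) (nat_lit 5) (nat_lit 391) (nat_lit 5) (nat_lit 380) (nat_lit 5) (nat_lit 576) (nat_lit 527) (nat_lit 457))))) (XT.nd (nat_lit 156) (nat_lit 1520) (nat_lit 0) (XT.nd (nat_lit 78) (nat_lit 836) (nat_lit 0) (XT.lf (nat_lit 0) (nat_lit 4194696238) (nat_lit 760) (nat_lit 4515946314) (nat_lit 836) (nat_lit 111737237) (nat_lit 369) (nat_lit 5) (nat_lit 379) (nat_lit 5) (nat_lit 380) (nat_lit 5) (nat_lit 577) (nat_lit 527) (nat_lit 456)) (XT.lf (nat_lit 0) (nat_lit 1063770374) (nat_lit 760) (nat_lit 1212292123) (nat_lit 836) (nat_lit 6627143320) (nat_lit 358) (nat_lit 5) (nat_lit 368) (nat_lit 5) (nat_lit 369) (nat_lit 5) (nat_lit 578) (nat_lit 527) (nat_lit 455))) (XT.nd (nat_lit 78) (nat_lit 1520) (nat_lit 0) (XT.lf (nat_lit 0) (nat_lit 4723270708) (nat_lit 836) (nat_lit 2104903528) (nat_lit 76) (nat_lit 2157198209) (nat_lit 358) (nat_lit 5) (nat_lit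 369) (nat_lit 5) (nat_lit 359) (nat_lit 5) (nat_lit 579) (nat_lit 527) (nat_lit 454)) (XT.nd (nat_lit 78) (nat_lit 836) (nat_lit 0) (XT.lf (nat_lit 0) (nat_lit 3749479470) (nat_lit 684) (nat_lit 3470825846) (nat_lit 760) (nat_lit 1848861231) (nat_lit 349) (nat_lit 5) (nat_lit 358) (nat_lit 5) (nat_lit 359) (nat_lit 5) (nat_lit 580) (nat_lit 527) (nat_lit 453)) (XT.lf (nat_lit 0) (nat_lit 562264256) (nat_lit 760) (nat_lit 28901362) (nat_lit 836) (nat_lit 8563661947) (nat_lit 338) (nat_lit 5) (nat_lit 348) (nat_lit 5) (nat_lit 349) (nat_lit 5) (nat_lit 581) (nat_lit 527) (nat_lit 452)))))) (XT.nd (nat_lit 390) (nat_lit 1976) (nat_lit 0) (XT.nd (nat_lit 156) (nat_lit 1368) (nat_lit 0) (XT.nd (nat_lit 78) (nat_lit 684) (nat_lit 0) (XT.lf (nat_lit 0) (nat_lit 3082836337) (nat_lit 836) (nat_lit 2679127808) (nat_lit 76) (nat_lit 3479442931) (nat_lit 338) (nat_lit 5) (nat_lit 349) (nat_lit 5) (nat_lit 339) (nat_lit 5) (nat_lit 582) (nat_lit 527) (nat_lit 451)) (XT.lf (nat_lit 0) (nat_lit 3360659423) (nat_lit 684)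 (nat_lit 2255334799) (nat_lit 760) (nat_lit 3713892531) (nat_lit 329) (nat_lit 5) (nat_lit 338) (nat_lit 5) (nat_lit 339) (nat_lit 5) (nat_lit 583) (nat_lit 527) (nat_lit 450))) (XT.nd (nat_lit 78) (nat_lit 684) (nat_lit 0) (XT.lf (nat_lit 0) (nat_lit 94187878) (nat_lit 684) (nat_lit 8102886783) (nat_lit 760) (nat_lit 1223117793) (nat_lit 320) (nat_lit 5) (nat_lit 329) (nat_lit 5) (nat_lit 330) (nat_lit 5) (nat_lit 584) (nat_lit 527) (nat_lit 449)) (XT.nd (nat_lit 78) (nat_lit 608) (nat_lit 0) (XT.lf (nat_lit 0) (nat_lit 1325580025) (nat_lit 760) (nat_lit 3211764292) (nat_lit 76) (nat_lit 4974282700) (nat_lit 319) (nat_lit 5) (nat_lit 329) (nat_lit 5) (nat_lit 320) (nat_lit 5) (nat_lit 585) (nat_lit 527) (nat_lit 448)) (XT.lf (nat_lit 0) (nat_lit 3020697453) (nat_lit 608) (nat_lit 878518746) (nat_lit 684) (nat_lit 5705707063) (nat_lit 311) (nat_lit 5) (nat_lit 319) (nat_lit 5) (nat_lit 320) (nat_lit 5) (nat_lit 586) (nat_lit 527) (nat_lit 447))))) (XT.nd (nat_lit 156) (nat_lit 1292) (nat_lit 0) (XT.nd (nat_lit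 78) (nat_lit 684) (nat_lit 0) (XT.lf (nat_lit 0) (nat_lit 6535564582) (nat_lit 684) (nat_lit 332863939) (nat_lit 76) (nat_lit 2831433615) (nat_lit 311) (nat_lit 5) (nat_lit 320) (nat_lit 5) (nat_lit 312) (nat_lit 5) (nat_lit 587) (nat_lit 527) (nat_lit 446)) (XT.lf (nat_lit 0) (nat_lit 6082296332) (nat_lit 684) (nat_lit 3159237611) (nat_lit 760) (nat_lit 554829431) (nat_lit 302) (nat_lit 5) (nat_lit 311) (nat_lit 5) (nat_lit 312) (nat_lit 5) (nat_lit 588) (nat_lit 527) (nat_lit 445))) (XT.nd (nat_lit 78) (nat_lit 608) (nat_lit 0) (XT.lf (nat_lit 0) (nat_lit 2075077017) (nat_lit 684) (nat_lit 7176715004) (nat_lit 76) (nat_lit 642812837) (nat_lit 293) (nat_lit 5) (nat_lit 302) (nat_lit 5) (nat_lit 294) (nat_lit 5) (nat_lit 589) (nat_lit 527) (nat_lit 444)) (XT.nd (nat_lit 78) (nat_lit 608) (nat_lit 0) (XT.lf (nat_lit 0) (nat_lit 4768178468) (nat_lit 684) (nat_lit 725851540) (nat_lit 76) (nat_lit 4500348678) (nat_lit 293) (nat_lit 5) (nat_lit 302) (nat_lit 5) (nat_lit 294) (nat_lit 5) (nat_lit 590) (nat_lit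 527) (nat_lit 443)) (XT.lf (nat_lit 0) (nat_lit 5896452071) (nat_lit 608) (nat_lit 1629530996) (nat_lit 684) (nat_lit 2569949453) (nat_lit 285) (nat_lit 5) (nat_lit 293) (nat_lit 5) (nat_lit 294) (nat_lit 5) (nat_lit 591) (nat_lit 527) (nat_lit 442))))))))
noncomputable def xc83 : XT := (XT.nd (nat_lit 1560) (nat_lit 2128) (nat_lit 0) (XT.nd (nat_lit 780) (nat_lit 2964) (nat_lit 0) (XT.nd (nat_lit 390) (nat_lit 2128) (nat_lit 0) (XT.nd (nat_lit 156) (nat_lit 1216) (nat_lit 0) (XT.nd (nat_lit 78) (nat_lit 0) (nat_lit 0) (XT.lf (nat_lit 0) (nat_lit 146255008) (nat_lit 684) (nat_lit 7756862186) (nat_lit 76) (nat_lit 2296210288) (nat_lit 276) (nat_lit 5) (nat_lit 285) (nat_lit 5) (nat_lit 277) (nat_lit 5) (nat_lit 592) (nat_lit 527) (nat_lit 441)) (XT.lf (nat_lit 0) (nat_lit 2894511176) (nat_lit 684) (nat_lit 1093354203) (nat_lit 76) (nat_lit 6316343709) (nat_lit 276) (nat_lit 5) (nat_lit 285) (nat_lit 5) (nat_lit 277) (nat_lit 5) (nat_lit 593) (nat_lit 527) (nat_lit 440))) (XT.nd (nat_lit 78) (nat_lit 608)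 (nat_lit 0) (XT.lf (nat_lit 0) (nat_lit 5708737238) (nat_lit 684) (nat_lit 4667058547) (nat_lit 76) (nat_lit 35173697) (nat_lit 268) (nat_lit 5) (nat_lit 277) (nat_lit 5) (nat_lit 269) (nat_lit 5) (nat_lit 594) (nat_lit 527) (nat_lit 439)) (XT.nd (nat_lit 78) (nat_lit 76) (nat_lit 0) (XT.lf (nat_lit 0) (nat_lit 2180302994) (nat_lit 532) (nat_lit 6420618428) (nat_lit 608) (nat_lit 1918511416) (nat_lit 261) (nat_lit 5) (nat_lit 268) (nat_lit 5) (nat_lit 269) (nat_lit 5) (nat_lit 595) (nat_lit 527) (nat_lit 438)) (XT.lf (nat_lit 0) (nat_lit 914171580) (nat_lit 608) (nat_lit 1442727543) (nat_lit 76) (nat_lit 8272940631) (nat_lit 260) (nat_lit 5) (nat_lit 268) (nat_lit 5) (nat_lit 261) (nat_lit 5) (nat_lit 596) (nat_lit 527) (nat_lit 437))))) (XT.nd (nat_lit 156) (nat_lit 1064) (nat_lit 0) (XT.nd (nat_lit 78) (nat_lit 532) (nat_lit 0) (XT.lf (nat_lit 0) (nat_lit 3800552581) (nat_lit 608) (nat_lit 5135573220) (nat_lit 76) (nat_lit 1805621872) (nat_lit 253) (nat_lit 5) (nat_lit 261) (nat_lit 5) (nat_lit 254) (nat_lit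 5) (nat_lit 597) (nat_lit 527) (nat_lit 436)) (XT.lf (nat_lit 0) (nat_lit 1935099813) (nat_lit 532) (nat_lit 4822057186) (nat_lit 608) (nat_lit 4098487967) (nat_lit 246) (nat_lit 5) (nat_lit 253) (nat_lit 5) (nat_lit 254) (nat_lit 5) (nat_lit 598) (nat_lit 527) (nat_lit 435))) (XT.nd (nat_lit 78) (nat_lit 1064) (nat_lit 0) (XT.lf (nat_lit 0) (nat_lit 9182509875) (nat_lit 532) (nat_lit 599699538) (nat_lit 608) (nat_lit 1189425586) (nat_lit 246) (nat_lit 5) (nat_lit 253) (nat_lit 5) (nat_lit 254) (nat_lit 5) (nat_lit 599) (nat_lit 527) (nat_lit 434)) (XT.nd (nat_lit 78) (nat_lit 456) (nat_lit 0) (XT.lf (nat_lit 0) (nat_lit 1789792740) (nat_lit 608) (nat_lit 5602100108) (nat_lit 76) (nat_lit 3697116375) (nat_lit 238) (nat_lit 5) (nat_lit 246) (nat_lit 5) (nat_lit 239) (nat_lit 5) (nat_lit 600) (nat_lit 527) (nat_lit 433)) (XT.lf (nat_lit 0) (nat_lit 1700440729) (nat_lit 456) (nat_lit 3114730887) (nat_lit 532) (nat_lit 6393353068) (nat_lit 232) (nat_lit 5) (nat_lit 238) (nat_lit 5) (nat_lit 239) (nat_lit 5)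 (nat_lit 601) (nat_lit 527) (nat_lit 432)))))) (XT.nd (nat_lit 390) (nat_lit 1444) (nat_lit 0) (XT.nd (nat_lit 156) (nat_lit 988) (nat_lit 0) (XT.nd (nat_lit 78) (nat_lit 532) (nat_lit 0) (XT.lf (nat_lit 0) (nat_lit 7922593048) (nat_lit 532) (nat_lit 2147419046) (nat_lit 76) (nat_lit 1259988688) (nat_lit 232) (nat_lit 5) (nat_lit 239) (nat_lit 5) (nat_lit 233) (nat_lit 5) (nat_lit 602) (nat_lit 527) (nat_lit 431)) (XT.lf (nat_lit 0) (nat_lit 5376662266) (nat_lit 532) (nat_lit 5747105777) (nat_lit 608) (nat_lit 329507261) (nat_lit 225) (nat_lit 5) (nat_lit 232) (nat_lit 5) (nat_lit 233) (nat_lit 5) (nat_lit 603) (nat_lit 527) (nat_lit 430))) (XT.nd (nat_lit 78) (nat_lit 456) (nat_lit 0) (XT.lf (nat_lit 0) (nat_lit 1468748764) (nat_lit 456) (nat_lit 1304554376) (nat_lit 532) (nat_lit 8805344164) (nat_lit 218) (nat_lit 5) (nat_lit 224) (nat_lit 5) (nat_lit 225) (nat_lit 5) (nat_lit 604) (nat_lit 527) (nat_lit 429)) (XT.nd (nat_lit 78) (nat_lit 456) (nat_lit 0) (XT.lf (nat_lit 0) (nat_lit 5972107788) (nat_lit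 532) (nat_lit 2515693627) (nat_lit 76) (nat_lit 3217915713) (nat_lit 218) (nat_lit 5) (nat_lit 225) (nat_lit 5) (nat_lit 219) (nat_lit 5) (nat_lit 605) (nat_lit 527) (nat_lit 428)) (XT.lf (nat_lit 0) (nat_lit 5257406540) (nat_lit 456) (nat_lit 3997067616) (nat_lit 532) (nat_lit 2580463411) (nat_lit 212) (nat_lit 5) (nat_lit 218) (nat_lit 5) (nat_lit 219) (nat_lit 5) (nat_lit 606) (nat_lit 527) (nat_lit 427))))) (XT.nd (nat_lit 156) (nat_lit 912) (nat_lit 0) (XT.nd (nat_lit 78) (nat_lit 0) (nat_lit 0) (XT.lf (nat_lit 0) (nat_lit 633214211) (nat_lit 532) (nat_lit 10738341556) (nat_lit 76) (nat_lit 594988853) (nat_lit 205) (nat_lit 5) (nat_lit 212) (nat_lit 5) (nat_lit 206) (nat_lit 5) (nat_lit 607) (nat_lit 527) (nat_lit 426)) (XT.lf (nat_lit 0) (nat_lit 3924616248) (nat_lit 532) (nat_lit 2898102771) (nat_lit 76) (nat_lit 5276764468) (nat_lit 205) (nat_lit 5) (nat_lit 212) (nat_lit 5) (nat_lit 206) (nat_lit 5) (nat_lit 608) (nat_lit 527) (nat_lit 425))) (XT.nd (nat_lit 78) (nat_lit 456) (nat_lit 0) (XT.lf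 (nat_lit 0) (nat_lit 5133362211) (nat_lit 456) (nat_lit 2159332245) (nat_lit 532) (nat_lit 4942170572) (nat_lit 199) (nat_lit 5) (nat_lit 205) (nat_lit 5) (nat_lit 206) (nat_lit 5) (nat_lit 609) (nat_lit 527) (nat_lit 424)) (XT.nd (nat_lit 78) (nat_lit 76) (nat_lit 0) (XT.lf (nat_lit 0) (nat_lit 954638500) (nat_lit 380) (nat_lit 9793813771) (nat_lit 456) (nat_lit 1624096409) (nat_lit 194) (nat_lit 5) (nat_lit 199) (nat_lit 5) (nat_lit 200) (nat_lit 5) (nat_lit 610) (nat_lit 527) (nat_lit 423)) (XT.lf (nat_lit 0) (nat_lit 1777279707) (nat_lit 456) (nat_lit 3303056715) (nat_lit 76) (nat_lit 7431621253) (nat_lit 193) (nat_lit 5) (nat_lit 199) (nat_lit 5) (nat_lit 194) (nat_lit 5) (nat_lit 611) (nat_lit 527) (nat_lit 422))))))) (XT.nd (nat_lit 74880) (nat_lit 0) (nat_lit 40888) (XT.nd (nat_lit 390) (nat_lit 456) (nat_lit 0) (XT.nd (nat_lit 156) (nat_lit 836) (nat_lit 0) (XT.nd (nat_lit 78) (nat_lit 380) (nat_lit 0) (XT.lf (nat_lit 0) (nat_lit 4996372328) (nat_lit 456) (nat_lit 239217604) (nat_lit 532) (nat_lit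 7418137944) (nat_lit 187) (nat_lit 5) (nat_lit 193) (nat_lit 5) (nat_lit 194) (nat_lit 5) (nat_lit 612) (nat_lit 527) (nat_lit 421)) (XT.lf (nat_lit 0) (nat_lit 653952700) (nat_lit 380) (nat_lit 8144520550) (nat_lit 456) (nat_lit 3999152868) (nat_lit 182) (nat_lit 5) (nat_lit 187) (nat_lit 5) (nat_lit 188) (nat_lit 5) (nat_lit 613) (nat_lit 527) (nat_lit 420))) (XT.nd (nat_lit 78) (nat_lit 836) (nat_lit 0) (XT.lf (nat_lit 0) (nat_lit 9201250501) (nat_lit 380) (nat_lit 3262878270) (nat_lit 456) (nat_lit 479644027) (nat_lit 182) (nat_lit 5) (nat_lit 187) (nat_lit 5) (nat_lit 188) (nat_lit 5) (nat_lit 614) (nat_lit 527) (nat_lit 419)) (XT.nd (nat_lit 78) (nat_lit 380) (nat_lit 0) (XT.lf (nat_lit 0) (nat_lit 3091125100) (nat_lit 456) (nat_lit 8265817117) (nat_lit 76) (nat_lit 1735063818) (nat_lit 176) (nat_lit 5) (nat_lit 182) (nat_lit 5) (nat_lit 177) (nat_lit 5) (nat_lit 615) (nat_lit 527) (nat_lit 418)) (XT.lf (nat_lit 0) (nat_lit 321354043) (nat_lit 380) (nat_lit 6433488284) (nat_lit 456) (nat_lit 6487739816)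 (nat_lit 171) (nat_lit 5) (nat_lit 176) (nat_lit 5) (nat_lit 177) (nat_lit 5) (nat_lit 616) (nat_lit 527) (nat_lit 417))))) (XT.nd (nat_lit 74256) (nat_lit 0) (nat_lit 43928) (XT.nd (nat_lit 78) (nat_lit 456) (nat_lit 0) (XT.lf (nat_lit 0) (nat_lit 9160312959) (nat_lit 380) (nat_lit 1366167056) (nat_lit 456) (nat_lit 2868997540) (nat_lit 171) (nat_lit 5) (nat_lit 176) (nat_lit 5) (nat_lit 177) (nat_lit 5) (nat_lit 617) (nat_lit 527) (nat_lit 416)) (XT.lf (nat_lit 0) (nat_lit 845821209) (nat_lit 456) (nat_lit 8927381285) (nat_lit 76) (nat_lit 3777432626) (nat_lit 165) (nat_lit 5) (nat_lit 171) (nat_lit 5) (nat_lit 166) (nat_lit 5) (nat_lit 618) (nat_lit 527) (nat_lit 415))) (XT.nd (nat_lit 78) (nat_lit 0) (nat_lit 0) (XT.lf (nat_lit 0) (nat_lit 61156486) (nat_lit 684) (nat_lit 1610392291) (nat_lit 684) (nat_lit 1610392291) (nat_lit 743) (nat_lit 3) (nat_lit 752) (nat_lit 3) (nat_lit 752) (nat_lit 5) (nat_lit 528) (nat_lit 528) (nat_lit 504)) (XT.nd (nat_lit 78) (nat_lit 0) (nat_lit 0) (XT.lf (nat_lit 76)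 (nat_lit 41352247) (nat_lit 0) (nat_lit 2559493249) (nat_lit 684) (nat_lit 3978887349) (nat_lit 744) (nat_lit 5) (nat_lit 743) (nat_lit 3) (nat_lit 752) (nat_lit 5) (nat_lit 529) (nat_lit 528) (nat_lit 503)) (XT.lf (nat_lit 76) (nat_lit 3378810241) (nat_lit 0) (nat_lit 1706559891) (nat_lit 684) (nat_lit 1511408351) (nat_lit 744) (nat_lit 5) (nat_lit 743) (nat_lit 3) (nat_lit 752) (nat_lit 5) (nat_lit 530) (nat_lit 528) (nat_lit 502)))))) (XT.nd (nat_lit 390) (nat_lit 1672) (nat_lit 0) (XT.nd (nat_lit 156) (nat_lit 684) (nat_lit 0) (XT.nd (nat_lit 78) (nat_lit 0) (nat_lit 76) (XT.lf (nat_lit 76) (nat_lit 130249851) (nat_lit 0) (nat_lit 798486937) (nat_lit 760) (nat_lit 5686573730) (nat_lit 735) (nat_lit 5) (nat_lit 734) (nat_lit 5) (nat_lit 744) (nat_lit 5) (nat_lit 531) (nat_lit 528) (nat_lit 501)) (XT.lf (nat_lit 0) (nat_lit 3356926654) (nat_lit 684) (nat_lit 3090736045) (nat_lit 760) (nat_lit 187167077) (nat_lit 735) (nat_lit 5) (nat_lit 744) (nat_lit 5) (nat_lit 745) (nat_lit 5) (nat_lit 532) (nat_lit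 528) (nat_lit 500))) (XT.nd (nat_lit 78) (nat_lit 760) (nat_lit 0) (XT.lf (nat_lit 76) (nat_lit 336258251) (nat_lit 0) (nat_lit 5443024613) (nat_lit 760) (nat_lit 876550365) (nat_lit 736) (nat_lit 5) (nat_lit 735) (nat_lit 5) (nat_lit 745) (nat_lit 5) (nat_lit 533) (nat_lit 528) (nat_lit 499)) (XT.nd (nat_lit 78) (nat_lit 0) (nat_lit 0) (XT.lf (nat_lit 0) (nat_lit 1511793464) (nat_lit 760) (nat_lit 2848436066) (nat_lit 836) (nat_lit 2317636781) (nat_lit 725) (nat_lit 5) (nat_lit 735) (nat_lit 5) (nat_lit 736) (nat_lit 5) (nat_lit 534) (nat_lit 528) (nat_lit 498)) (XT.lf (nat_lit 76) (nat_lit 660738226) (nat_lit 0) (nat_lit 3219645678) (nat_lit 836) (nat_lit 2820961458) (nat_lit 726) (nat_lit 5) (nat_lit 725) (nat_lit 5) (nat_lit 736) (nat_lit 5) (nat_lit 535) (nat_lit 528) (nat_lit 497))))) (XT.nd (nat_lit 234) (nat_lit 836) (nat_lit 0) (XT.nd (nat_lit 78) (nat_lit 836) (nat_lit 0) (XT.lf (nat_lit 76) (nat_lit 4244684494) (nat_lit 0) (nat_lit 2011649211) (nat_lit 836) (nat_lit 469765956) (nat_lit 726) (nat_lit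 5) (nat_lit 725) (nat_lit 5) (nat_lit 736) (nat_lit 5) (nat_lit 536) (nat_lit 528) (nat_lit 496)) (XT.nd (nat_lit 78) (nat_lit 0) (nat_lit 76) (XT.lf (nat_lit 76) (nat_lit 1116952439) (nat_lit 0) (nat_lit 735104264) (nat_lit 912) (nat_lit 4900069228) (nat_lit 715) (nat_lit 5) (nat_lit 714) (nat_lit 5) (nat_lit 726) (nat_lit 5) (nat_lit 537) (nat_lit 528) (nat_lit 495)) (XT.lf (nat_lit 0) (nat_lit 4177194612) (nat_lit 836) (nat_lit 1999536846) (nat_lit 912) (nat_lit 602620889) (nat_lit 715) (nat_lit 5) (nat_lit 726) (nat_lit 5) (nat_lit 727) (nat_lit 5) (nat_lit 538) (nat_lit 528) (nat_lit 494)))) (XT.nd (nat_lit 78) (nat_lit 912) (nat_lit 0) (XT.lf (nat_lit 76) (nat_lit 1691602193) (nat_lit 0) (nat_lit 4816927515) (nat_lit 912) (nat_lit 299404697) (nat_lit 716) (nat_lit 5) (nat_lit 715) (nat_lit 5) (nat_lit 727) (nat_lit 5) (nat_lit 539) (nat_lit 528) (nat_lit 493)) (XT.nd (nat_lit 78) (nat_lit 0) (nat_lit 0) (XT.lf (nat_lit 0) (nat_lit 1980382585) (nat_lit 912) (nat_lit 1401591403) (nat_lit 988) (nat_lit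 3455695656) (nat_lit 703) (nat_lit 5) (nat_lit 715) (nat_lit 5) (nat_lit 716) (nat_lit 5) (nat_lit 540) (nat_lit 528) (nat_lit 492)) (XT.lf (nat_lit 76) (nat_lit 2382348525) (nat_lit 0) (nat_lit 1880321431) (nat_lit 988) (nat_lit 2606076497) (nat_lit 704) (nat_lit 5) (nat_lit 703) (nat_lit 5) (nat_lit 716) (nat_lit 5) (nat_lit 541) (nat_lit 528) (nat_lit 491))))))))
noncomputable def xc84 : XT := (XT.nd (nat_lit 1560) (nat_lit 12464) (nat_lit 0) (XT.nd (nat_lit 780) (nat_lit 9120) (nat_lit 0) (XT.nd (nat_lit 390) (nat_lit 3420) (nat_lit 0) (XT.nd (nat_lit 156) (nat_lit 1064) (nat_lit 0) (XT.nd (nat_lit 78) (nat_lit 912) (nat_lit 0) (XT.lf (nat_lit 76) (nat_lit 6226834418) (nat_lit 0) (nat_lit 319464073) (nat_lit 988) (nat_lit 355037023) (nat_lit 704) (nat_lit 5) (nat_lit 703) (nat_lit 5) (nat_lit 716) (nat_lit 5) (nat_lit 542) (nat_lit 528) (nat_lit 490)) (XT.lf (nat_lit 0) (nat_lit 1891997299) (nat_lit 988) (nat_lit 3734632922) (nat_lit 1064) (nat_lit 1308169910) (nat_lit 691) (nat_lit 5) (nat_lit 704)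 (nat_lit 5) (nat_lit 705) (nat_lit 5) (nat_lit 543) (nat_lit 528) (nat_lit 489))) (XT.nd (nat_lit 78) (nat_lit 1064) (nat_lit 0) (XT.lf (nat_lit 76) (nat_lit 155051804) (nat_lit 0) (nat_lit 3979776997) (nat_lit 1064) (nat_lit 2834950452) (nat_lit 692) (nat_lit 5) (nat_lit 691) (nat_lit 5) (nat_lit 705) (nat_lit 5) (nat_lit 544) (nat_lit 528) (nat_lit 488)) (XT.nd (nat_lit 78) (nat_lit 1064) (nat_lit 0) (XT.lf (nat_lit 76) (nat_lit 4138271902) (nat_lit 0) (nat_lit 2258028342) (nat_lit 1064) (nat_lit 609686316) (nat_lit 692) (nat_lit 5) (nat_lit 691) (nat_lit 5) (nat_lit 705) (nat_lit 5) (nat_lit 545) (nat_lit 528) (nat_lit 487)) (XT.lf (nat_lit 76) (nat_lit 1127370726) (nat_lit 0) (nat_lit 467650073) (nat_lit 1140) (nat_lit 5448551553) (nat_lit 678) (nat_lit 5) (nat_lit 677) (nat_lit 5) (nat_lit 692) (nat_lit 5) (nat_lit 546) (nat_lit 528) (nat_lit 486))))) (XT.nd (nat_lit 156) (nat_lit 2432) (nat_lit 0) (XT.nd (nat_lit 78) (nat_lit 1064) (nat_lit 0) (XT.lf (nat_lit 0) (nat_lit 3814114243) (nat_lit 1064)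 (nat_lit 1889025218) (nat_lit 76) (nat_lit 1379124705) (nat_lit 678) (nat_lit 5) (nat_lit 692) (nat_lit 5) (nat_lit 679) (nat_lit 5) (nat_lit 547) (nat_lit 528) (nat_lit 485)) (XT.lf (nat_lit 0) (nat_lit 2209531924) (nat_lit 1064) (nat_lit 3836732181) (nat_lit 1140) (nat_lit 1076096165) (nat_lit 664) (nat_lit 5) (nat_lit 678) (nat_lit 5) (nat_lit 679) (nat_lit 5) (nat_lit 548) (nat_lit 528) (nat_lit 484))) (XT.nd (nat_lit 78) (nat_lit 2356) (nat_lit 0) (XT.lf (nat_lit 0) (nat_lit 1108988042) (nat_lit 1140) (nat_lit 790412557) (nat_lit 76) (nat_lit 5264422879) (nat_lit 663) (nat_lit 5) (nat_lit 678) (nat_lit 5) (nat_lit 664) (nat_lit 5) (nat_lit 549) (nat_lit 528) (nat_lit 483)) (XT.nd (nat_lit 78) (nat_lit 1216) (nat_lit 0) (XT.lf (nat_lit 0) (nat_lit 3298928737) (nat_lit 1216) (nat_lit 3789875873) (nat_lit 76) (nat_lit 117661524) (nat_lit 648) (nat_lit 5) (nat_lit 664) (nat_lit 5) (nat_lit 649) (nat_lit 5) (nat_lit 550) (nat_lit 528) (nat_lit 482)) (XT.lf (nat_lit 0) (nat_lit 426012238) (nat_lit 1216)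 (nat_lit 5080712686) (nat_lit 1292) (nat_lit 1743759229) (nat_lit 632) (nat_lit 5) (nat_lit 648) (nat_lit 5) (nat_lit 649) (nat_lit 5) (nat_lit 551) (nat_lit 528) (nat_lit 481)))))) (XT.nd (nat_lit 390) (nat_lit 4864) (nat_lit 0) (XT.nd (nat_lit 156) (nat_lit 2888) (nat_lit 0) (XT.nd (nat_lit 78) (nat_lit 1292) (nat_lit 0) (XT.lf (nat_lit 0) (nat_lit 436568665) (nat_lit 1292) (nat_lit 2556396573) (nat_lit 76) (nat_lit 4302773632) (nat_lit 631) (nat_lit 5) (nat_lit 648) (nat_lit 5) (nat_lit 632) (nat_lit 5) (nat_lit 552) (nat_lit 528) (nat_lit 480)) (XT.lf (nat_lit 0) (nat_lit 1773519763) (nat_lit 1292) (nat_lit 829827845) (nat_lit 1368) (nat_lit 4739000114) (nat_lit 614) (nat_lit 5) (nat_lit 631) (nat_lit 5) (nat_lit 632) (nat_lit 5) (nat_lit 553) (nat_lit 528) (nat_lit 479))) (XT.nd (nat_lit 78) (nat_lit 2888) (nat_lit 0) (XT.lf (nat_lit 0) (nat_lit 4795049550) (nat_lit 1368) (nat_lit 1209870354) (nat_lit 76) (nat_lit 1385340466) (nat_lit 614) (nat_lit 5) (nat_lit 632) (nat_lit 5) (nat_lit 615) (nat_lit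 5) (nat_lit 554) (nat_lit 528) (nat_lit 478)) (XT.nd (nat_lit 78) (nat_lit 1520) (nat_lit 0) (XT.lf (nat_lit 0) (nat_lit 3237982155) (nat_lit 1368) (nat_lit 3775378348) (nat_lit 1444) (nat_lit 426118569) (nat_lit 596) (nat_lit 5) (nat_lit 614) (nat_lit 5) (nat_lit 615) (nat_lit 5) (nat_lit 555) (nat_lit 528) (nat_lit 477)) (XT.lf (nat_lit 0) (nat_lit 257797706) (nat_lit 1444) (nat_lit 1471573783) (nat_lit 1520) (nat_lit 5760752982) (nat_lit 576) (nat_lit 5) (nat_lit 595) (nat_lit 5) (nat_lit 596) (nat_lit 5) (nat_lit 556) (nat_lit 528) (nat_lit 476))))) (XT.nd (nat_lit 156) (nat_lit 3344) (nat_lit 0) (XT.nd (nat_lit 78) (nat_lit 1520) (nat_lit 0) (XT.lf (nat_lit 0) (nat_lit 3913621890) (nat_lit 1520) (nat_lit 2722975569) (nat_lit 76) (nat_lit 905304972) (nat_lit 576) (nat_lit 5) (nat_lit 596) (nat_lit 5) (nat_lit 577) (nat_lit 5) (nat_lit 557) (nat_lit 528) (nat_lit 475)) (XT.lf (nat_lit 0) (nat_lit 1855588754) (nat_lit 1520) (nat_lit 4265867082) (nat_lit 1596) (nat_lit 1473665192) (nat_lit 556) (nat_lit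 5) (nat_lit 576) (nat_lit 5) (nat_lit 577) (nat_lit 5) (nat_lit 558) (nat_lit 528) (nat_lit 474))) (XT.nd (nat_lit 78) (nat_lit 3268) (nat_lit 0) (XT.lf (nat_lit 0) (nat_lit 691361026) (nat_lit 1596) (nat_lit 1127111778) (nat_lit 76) (nat_lit 5831303816) (nat_lit 555) (nat_lit 5) (nat_lit 576) (nat_lit 5) (nat_lit 556) (nat_lit 5) (nat_lit 559) (nat_lit 528) (nat_lit 473)) (XT.nd (nat_lit 78) (nat_lit 1672) (nat_lit 0) (XT.lf (nat_lit 0) (nat_lit 2867106862) (nat_lit 1672) (nat_lit 4130777696) (nat_lit 76) (nat_lit 707705791) (nat_lit 534) (nat_lit 5) (nat_lit 556) (nat_lit 5) (nat_lit 535) (nat_lit 5) (nat_lit 560) (nat_lit 528) (nat_lit 472)) (XT.lf (nat_lit 0) (nat_lit 583452084) (nat_lit 1672) (nat_lit 4486202722) (nat_lit 1748) (nat_lit 2693202621) (nat_lit 512) (nat_lit 5) (nat_lit 534) (nat_lit 5) (nat_lit 535) (nat_lit 5) (nat_lit 561) (nat_lit 528) (nat_lit 471))))))) (XT.nd (nat_lit 780) (nat_lit 4940) (nat_lit 0) (XT.nd (nat_lit 390) (nat_lit 2736) (nat_lit 0) (XT.nd (nat_lit 156) (nat_lit 2964)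 (nat_lit 0) (XT.nd (nat_lit 78) (nat_lit 1824) (nat_lit 0) (XT.lf (nat_lit 0) (nat_lit 5412403886) (nat_lit 1672) (nat_lit 1891968624) (nat_lit 1748) (nat_lit 517137722) (nat_lit 512) (nat_lit 5) (nat_lit 534) (nat_lit 5) (nat_lit 535) (nat_lit 5) (nat_lit 562) (nat_lit 528) (nat_lit 470)) (XT.lf (nat_lit 0) (nat_lit 1661991403) (nat_lit 1824) (nat_lit 5444487153) (nat_lit 76) (nat_lit 775001709) (nat_lit 488) (nat_lit 5) (nat_lit 512) (nat_lit 5) (nat_lit 489) (nat_lit 5) (nat_lit 563) (nat_lit 528) (nat_lit 469))) (XT.nd (nat_lit 78) (nat_lit 2964) (nat_lit 0) (XT.lf (nat_lit 0) (nat_lit 3868064157) (nat_lit 1824) (nat_lit 581661191) (nat_lit 76) (nat_lit 3493052876) (nat_lit 488) (nat_lit 5) (nat_lit 512) (nat_lit 5) (nat_lit 489) (nat_lit 5) (nat_lit 564) (nat_lit 528) (nat_lit 468)) (XT.nd (nat_lit 78) (nat_lit 1140) (nat_lit 0) (XT.lf (nat_lit 0) (nat_lit 4400900632) (nat_lit 1824) (nat_lit 1708162690) (nat_lit 1900) (nat_lit 1896425273) (nat_lit 464) (nat_lit 5) (nat_lit 488) (nat_lit 5) (nat_lit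 489) (nat_lit 5) (nat_lit 565) (nat_lit 528) (nat_lit 467)) (XT.lf (nat_lit 0) (nat_lit 303869699) (nat_lit 1140) (nat_lit 6674713143) (nat_lit 76) (nat_lit 1091176357) (nat_lit 449) (nat_lit 5) (nat_lit 464) (nat_lit 5) (nat_lit 450) (nat_lit 5) (nat_lit 566) (nat_lit 528) (nat_lit 466))))) (XT.nd (nat_lit 156) (nat_lit 1824) (nat_lit 0) (XT.nd (nat_lit 78) (nat_lit 912) (nat_lit 0) (XT.lf (nat_lit 0) (nat_lit 2521475396) (nat_lit 1140) (nat_lit 1651357422) (nat_lit 76) (nat_lit 3962260136) (nat_lit 449) (nat_lit 5) (nat_lit 464) (nat_lit 5) (nat_lit 450) (nat_lit 5) (nat_lit 567) (nat_lit 528) (nat_lit 465)) (XT.lf (nat_lit 0) (nat_lit 3482821437) (nat_lit 912) (nat_lit 1286962805) (nat_lit 988) (nat_lit 3432224479) (nat_lit 437) (nat_lit 5) (nat_lit 449) (nat_lit 5) (nat_lit 450) (nat_lit 5) (nat_lit 568) (nat_lit 528) (nat_lit 464))) (XT.nd (nat_lit 78) (nat_lit 912) (nat_lit 0) (XT.lf (nat_lit 0) (nat_lit 431039367) (nat_lit 912) (nat_lit 6620955175) (nat_lit 988) (nat_lit 1218491866) (nat_lit 425)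 (nat_lit 5) (nat_lit 437) (nat_lit 5) (nat_lit 438) (nat_lit 5) (nat_lit 569) (nat_lit 528) (nat_lit 463)) (XT.nd (nat_lit 78) (nat_lit 836) (nat_lit 0) (XT.lf (nat_lit 0) (nat_lit 1030743201) (nat_lit 988) (nat_lit 2642992491) (nat_lit 76) (nat_lit 4666367970) (nat_lit 424) (nat_lit 5) (nat_lit 437) (nat_lit 5) (nat_lit 425) (nat_lit 5) (nat_lit 570) (nat_lit 528) (nat_lit 462)) (XT.lf (nat_lit 0) (nat_lit 2648716229) (nat_lit 836) (nat_lit 642300811) (nat_lit 912) (nat_lit 5120289921) (nat_lit 413) (nat_lit 5) (nat_lit 424) (nat_lit 5) (nat_lit 425) (nat_lit 5) (nat_lit 571) (nat_lit 528) (nat_lit 461)))))) (XT.nd (nat_lit 390) (nat_lit 2356) (nat_lit 0) (XT.nd (nat_lit 156) (nat_lit 1748) (nat_lit 0) (XT.nd (nat_lit 78) (nat_lit 836) (nat_lit 0) (XT.lf (nat_lit 0) (nat_lit 5595862899) (nat_lit 912) (nat_lit 453313457) (nat_lit 76) (nat_lit 2434772775) (nat_lit 413) (nat_lit 5) (nat_lit 425) (nat_lit 5) (nat_lit 414) (nat_lit 5) (nat_lit 572) (nat_lit 528) (nat_lit 460)) (XT.lf (nat_lit 0) (nat_lit 4988222554)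 (nat_lit 836) (nat_lit 2961505706) (nat_lit 912) (nat_lit 608259525) (nat_lit 402) (nat_lit 5) (nat_lit 413) (nat_lit 5) (nat_lit 414) (nat_lit 5) (nat_lit 573) (nat_lit 528) (nat_lit 459))) (XT.nd (nat_lit 78) (nat_lit 836) (nat_lit 0) (XT.lf (nat_lit 0) (nat_lit 1677851544) (nat_lit 912) (nat_lit 6745443578) (nat_lit 76) (nat_lit 210326948) (nat_lit 390) (nat_lit 5) (nat_lit 402) (nat_lit 5) (nat_lit 391) (nat_lit 5) (nat_lit 574) (nat_lit 528) (nat_lit 458)) (XT.nd (nat_lit 78) (nat_lit 836) (nat_lit 0) (XT.lf (nat_lit 0) (nat_lit 4012184760) (nat_lit 912) (nat_lit 1266148401) (nat_lit 76) (nat_lit 3432144552) (nat_lit 390) (nat_lit 5) (nat_lit 402) (nat_lit 5) (nat_lit 391) (nat_lit 5) (nat_lit 575) (nat_lit 528) (nat_lit 457)) (XT.lf (nat_lit 0) (nat_lit 4344685395) (nat_lit 836) (nat_lit 2044287275) (nat_lit 912) (nat_lit 2399984371) (nat_lit 379) (nat_lit 5) (nat_lit 390) (nat_lit 5) (nat_lit 391) (nat_lit 5) (nat_lit 576) (nat_lit 528) (nat_lit 456))))) (XT.nd (nat_lit 156) (nat_lit 1520) (nat_lit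 0) (XT.nd (nat_lit 78) (nat_lit 76) (nat_lit 0) (XT.lf (nat_lit 0) (nat_lit 1188020296) (nat_lit 760) (nat_lit 7617638539) (nat_lit 836) (nat_lit 63501767) (nat_lit 369) (nat_lit 5) (nat_lit 379) (nat_lit 5) (nat_lit 380) (nat_lit 5) (nat_lit 577) (nat_lit 528) (nat_lit 455)) (XT.lf (nat_lit 0) (nat_lit 2300986437) (nat_lit 836) (nat_lit 2021582224) (nat_lit 76) (nat_lit 4627866188) (nat_lit 368) (nat_lit 5) (nat_lit 379) (nat_lit 5) (nat_lit 369) (nat_lit 5) (nat_lit 578) (nat_lit 528) (nat_lit 454))) (XT.nd (nat_lit 78) (nat_lit 760) (nat_lit 0) (XT.lf (nat_lit 0) (nat_lit 3765211357) (nat_lit 760) (nat_lit 939914642) (nat_lit 836) (nat_lit 4328337735) (nat_lit 358) (nat_lit 5) (nat_lit 368) (nat_lit 5) (nat_lit 369) (nat_lit 5) (nat_lit 579) (nat_lit 528) (nat_lit 453)) (XT.nd (nat_lit 78) (nat_lit 76) (nat_lit 0) (XT.lf (nat_lit 0) (nat_lit 532577267) (nat_lit 684) (nat_lit 6627310942) (nat_lit 760) (nat_lit 1958215942) (nat_lit 349) (nat_lit 5) (nat_lit 358) (nat_lit 5) (nat_lit 359) (nat_lit 5) (nat_lit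 580) (nat_lit 528) (nat_lit 452)) (XT.lf (nat_lit 0) (nat_lit 464397146) (nat_lit 760) (nat_lit 2727793289) (nat_lit 76) (nat_lit 6011966727) (nat_lit 348) (nat_lit 5) (nat_lit 358) (nat_lit 5) (nat_lit 349) (nat_lit 5) (nat_lit 581) (nat_lit 528) (nat_lit 451))))))))
noncomputable def xc85 : XT := (XT.nd (nat_lit 1560) (nat_lit 5092) (nat_lit 0) (XT.nd (nat_lit 780) (nat_lit 3572) (nat_lit 0) (XT.nd (nat_lit 390) (nat_lit 2584) (nat_lit 0) (XT.nd (nat_lit 156) (nat_lit 1444) (nat_lit 0) (XT.nd (nat_lit 78) (nat_lit 0) (nat_lit 0) (XT.lf (nat_lit 0) (nat_lit 2902436482) (nat_lit 836) (nat_lit 6052191171) (nat_lit 76) (nat_lit 337182464) (nat_lit 338) (nat_lit 5) (nat_lit 349) (nat_lit 5) (nat_lit 339) (nat_lit 5) (nat_lit 582) (nat_lit 528) (nat_lit 450)) (XT.lf (nat_lit 0) (nat_lit 5399041056) (nat_lit 836) (nat_lit 73855458) (nat_lit 76) (nat_lit 3908125149) (nat_lit 338) (nat_lit 5) (nat_lit 349) (nat_lit 5) (nat_lit 339) (nat_lit 5) (nat_lit 583) (nat_lit 528) (nat_lit 449))) (XT.nd (nat_lit 78) (nat_lit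 760) (nat_lit 0) (XT.lf (nat_lit 0) (nat_lit 6069235052) (nat_lit 684) (nat_lit 1886569700) (nat_lit 760) (nat_lit 1516009732) (nat_lit 329) (nat_lit 5) (nat_lit 338) (nat_lit 5) (nat_lit 339) (nat_lit 5) (nat_lit 584) (nat_lit 528) (nat_lit 448)) (XT.nd (nat_lit 78) (nat_lit 0) (nat_lit 0) (XT.lf (nat_lit 0) (nat_lit 987249027) (nat_lit 760) (nat_lit 6809135042) (nat_lit 76) (nat_lit 1767889374) (nat_lit 319) (nat_lit 5) (nat_lit 329) (nat_lit 5) (nat_lit 320) (nat_lit 5) (nat_lit 585) (nat_lit 528) (nat_lit 447)) (XT.lf (nat_lit 0) (nat_lit 3527059213) (nat_lit 760) (nat_lit 633558883) (nat_lit 76) (nat_lit 5497628850) (nat_lit 319) (nat_lit 5) (nat_lit 329) (nat_lit 5) (nat_lit 320) (nat_lit 5) (nat_lit 586) (nat_lit 528) (nat_lit 446))))) (XT.nd (nat_lit 156) (nat_lit 1292) (nat_lit 0) (XT.nd (nat_lit 78) (nat_lit 684) (nat_lit 0) (XT.lf (nat_lit 0) (nat_lit 5706167618) (nat_lit 608) (nat_lit 420397675) (nat_lit 684) (nat_lit 3627358100) (nat_lit 311) (nat_lit 5) (nat_lit 319) (nat_lit 5) (nat_lit 320)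 (nat_lit 5) (nat_lit 587) (nat_lit 528) (nat_lit 445)) (XT.lf (nat_lit 0) (nat_lit 2303499439) (nat_lit 684) (nat_lit 6487980589) (nat_lit 760) (nat_lit 1059766407) (nat_lit 302) (nat_lit 5) (nat_lit 311) (nat_lit 5) (nat_lit 312) (nat_lit 5) (nat_lit 588) (nat_lit 528) (nat_lit 444))) (XT.nd (nat_lit 78) (nat_lit 1216) (nat_lit 0) (XT.lf (nat_lit 0) (nat_lit 1541137645) (nat_lit 760) (nat_lit 1161045942) (nat_lit 76) (nat_lit 7248083078) (nat_lit 301) (nat_lit 5) (nat_lit 311) (nat_lit 5) (nat_lit 302) (nat_lit 5) (nat_lit 589) (nat_lit 528) (nat_lit 443)) (XT.nd (nat_lit 78) (nat_lit 608) (nat_lit 0) (XT.lf (nat_lit 0) (nat_lit 4195420257) (nat_lit 684) (nat_lit 4675718903) (nat_lit 76) (nat_lit 1179678379) (nat_lit 293) (nat_lit 5) (nat_lit 302) (nat_lit 5) (nat_lit 294) (nat_lit 5) (nat_lit 590) (nat_lit 528) (nat_lit 442)) (XT.lf (nat_lit 0) (nat_lit 1876924494) (nat_lit 608) (nat_lit 5036883878) (nat_lit 684) (nat_lit 3239351989) (nat_lit 285) (nat_lit 5) (nat_lit 293) (nat_lit 5) (nat_lit 294) (nat_lit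 5) (nat_lit 591) (nat_lit 528) (nat_lit 441)))))) (XT.nd (nat_lit 390) (nat_lit 1672) (nat_lit 0) (XT.nd (nat_lit 156) (nat_lit 1216) (nat_lit 0) (XT.nd (nat_lit 78) (nat_lit 684) (nat_lit 0) (XT.lf (nat_lit 0) (nat_lit 8590000891) (nat_lit 608) (nat_lit 1101342212) (nat_lit 684) (nat_lit 566112662) (nat_lit 285) (nat_lit 5) (nat_lit 293) (nat_lit 5) (nat_lit 294) (nat_lit 5) (nat_lit 592) (nat_lit 528) (nat_lit 440)) (XT.lf (nat_lit 0) (nat_lit 2158245353) (nat_lit 684) (nat_lit 5290017680) (nat_lit 76) (nat_lit 2914774925) (nat_lit 276) (nat_lit 5) (nat_lit 285) (nat_lit 5) (nat_lit 277) (nat_lit 5) (nat_lit 593) (nat_lit 528) (nat_lit 439))) (XT.nd (nat_lit 78) (nat_lit 608) (nat_lit 0) (XT.lf (nat_lit 0) (nat_lit 1474689878) (nat_lit 608) (nat_lit 3456957994) (nat_lit 684) (nat_lit 5538967557) (nat_lit 268) (nat_lit 5) (nat_lit 276) (nat_lit 5) (nat_lit 277) (nat_lit 5) (nat_lit 594) (nat_lit 528) (nat_lit 438)) (XT.nd (nat_lit 78) (nat_lit 608) (nat_lit 0) (XT.lf (nat_lit 0) (nat_lit 7774477556) (nat_lit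 684) (nat_lit 2171632050) (nat_lit 76) (nat_lit 633956864) (nat_lit 268) (nat_lit 5) (nat_lit 277) (nat_lit 5) (nat_lit 269) (nat_lit 5) (nat_lit 595) (nat_lit 528) (nat_lit 437)) (XT.lf (nat_lit 0) (nat_lit 11649778) (nat_lit 608) (nat_lit 5895563539) (nat_lit 76) (nat_lit 4783917400) (nat_lit 260) (nat_lit 5) (nat_lit 268) (nat_lit 5) (nat_lit 261) (nat_lit 5) (nat_lit 596) (nat_lit 528) (nat_lit 436))))) (XT.nd (nat_lit 156) (nat_lit 1140) (nat_lit 0) (XT.nd (nat_lit 78) (nat_lit 0) (nat_lit 0) (XT.lf (nat_lit 0) (nat_lit 1089415123) (nat_lit 532) (nat_lit 1754884240) (nat_lit 608) (nat_lit 7959814463) (nat_lit 253) (nat_lit 5) (nat_lit 260) (nat_lit 5) (nat_lit 261) (nat_lit 5) (nat_lit 597) (nat_lit 528) (nat_lit 435)) (XT.lf (nat_lit 0) (nat_lit 5764607416) (nat_lit 608) (nat_lit 2674763827) (nat_lit 76) (nat_lit 2479366354) (nat_lit 253) (nat_lit 5) (nat_lit 261) (nat_lit 5) (nat_lit 254) (nat_lit 5) (nat_lit 598) (nat_lit 528) (nat_lit 434))) (XT.nd (nat_lit 78) (nat_lit 608) (nat_lit 0) (XT.lf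 (nat_lit 0) (nat_lit 4520457398) (nat_lit 532) (nat_lit 4239400636) (nat_lit 608) (nat_lit 2275466171) (nat_lit 246) (nat_lit 5) (nat_lit 253) (nat_lit 5) (nat_lit 254) (nat_lit 5) (nat_lit 599) (nat_lit 528) (nat_lit 433)) (XT.nd (nat_lit 78) (nat_lit 0) (nat_lit 0) (XT.lf (nat_lit 0) (nat_lit 650885103) (nat_lit 608) (nat_lit 10440976842) (nat_lit 76) (nat_lit 62320241) (nat_lit 238) (nat_lit 5) (nat_lit 246) (nat_lit 5) (nat_lit 239) (nat_lit 5) (nat_lit 600) (nat_lit 528) (nat_lit 432)) (XT.lf (nat_lit 0) (nat_lit 3653279460) (nat_lit 608) (nat_lit 3177315986) (nat_lit 76) (nat_lit 4443562401) (nat_lit 238) (nat_lit 5) (nat_lit 246) (nat_lit 5) (nat_lit 239) (nat_lit 5) (nat_lit 601) (nat_lit 528) (nat_lit 431))))))) (XT.nd (nat_lit 780) (nat_lit 1672) (nat_lit 0) (XT.nd (nat_lit 390) (nat_lit 1900) (nat_lit 0) (XT.nd (nat_lit 156) (nat_lit 532) (nat_lit 0) (XT.nd (nat_lit 78) (nat_lit 532) (nat_lit 0) (XT.lf (nat_lit 0) (nat_lit 4254586023) (nat_lit 456) (nat_lit 2465105212) (nat_lit 532) (nat_lit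 4676763400) (nat_lit 232) (nat_lit 5) (nat_lit 238) (nat_lit 5) (nat_lit 239) (nat_lit 5) (nat_lit 602) (nat_lit 528) (nat_lit 430)) (XT.lf (nat_lit 0) (nat_lit 315490645) (nat_lit 532) (nat_lit 9544895230) (nat_lit 608) (nat_lit 1660553377) (nat_lit 225) (nat_lit 5) (nat_lit 232) (nat_lit 5) (nat_lit 233) (nat_lit 5) (nat_lit 603) (nat_lit 528) (nat_lit 429))) (XT.nd (nat_lit 78) (nat_lit 456) (nat_lit 0) (XT.lf (nat_lit 0) (nat_lit 1438608779) (nat_lit 608) (nat_lit 3687103307) (nat_lit 76) (nat_lit 6521194580) (nat_lit 224) (nat_lit 5) (nat_lit 232) (nat_lit 5) (nat_lit 225) (nat_lit 5) (nat_lit 604) (nat_lit 528) (nat_lit 428)) (XT.nd (nat_lit 78) (nat_lit 0) (nat_lit 0) (XT.lf (nat_lit 0) (nat_lit 3990477908) (nat_lit 456) (nat_lit 590059790) (nat_lit 532) (nat_lit 7194576766) (nat_lit 218) (nat_lit 5) (nat_lit 224) (nat_lit 5) (nat_lit 225) (nat_lit 5) (nat_lit 605) (nat_lit 528) (nat_lit 427)) (XT.lf (nat_lit 0) (nat_lit 7813684129) (nat_lit 532) (nat_lit 92819675) (nat_lit 76) (nat_lit 3998815948)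 (nat_lit 218) (nat_lit 5) (nat_lit 225) (nat_lit 5) (nat_lit 219) (nat_lit 5) (nat_lit 606) (nat_lit 528) (nat_lit 426))))) (XT.nd (nat_lit 156) (nat_lit 912) (nat_lit 0) (XT.nd (nat_lit 78) (nat_lit 532) (nat_lit 0) (XT.lf (nat_lit 0) (nat_lit 7819471522) (nat_lit 456) (nat_lit 3324410898) (nat_lit 532) (nat_lit 893599841) (nat_lit 212) (nat_lit 5) (nat_lit 218) (nat_lit 5) (nat_lit 219) (nat_lit 5) (nat_lit 607) (nat_lit 528) (nat_lit 425)) (XT.lf (nat_lit 0) (nat_lit 2348874553) (nat_lit 532) (nat_lit 8460583347) (nat_lit 76) (nat_lit 1362292638) (nat_lit 205) (nat_lit 5) (nat_lit 212) (nat_lit 5) (nat_lit 206) (nat_lit 5) (nat_lit 608) (nat_lit 528) (nat_lit 424))) (XT.nd (nat_lit 78) (nat_lit 912) (nat_lit 0) (XT.lf (nat_lit 0) (nat_lit 5672712551) (nat_lit 532) (nat_lit 512412827) (nat_lit 76) (nat_lit 6122891922) (nat_lit 205) (nat_lit 5) (nat_lit 212) (nat_lit 5) (nat_lit 206) (nat_lit 5) (nat_lit 609) (nat_lit 528) (nat_lit 423)) (XT.nd (nat_lit 78) (nat_lit 456) (nat_lit 0) (XT.lf (nat_lit 0)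 (nat_lit 7663604797) (nat_lit 456) (nat_lit 1427571623) (nat_lit 532) (nat_lit 3355270820) (nat_lit 199) (nat_lit 5) (nat_lit 205) (nat_lit 5) (nat_lit 206) (nat_lit 5) (nat_lit 610) (nat_lit 528) (nat_lit 422)) (XT.lf (nat_lit 0) (nat_lit 17071292) (nat_lit 456) (nat_lit 9173996181) (nat_lit 76) (nat_lit 3396048728) (nat_lit 193) (nat_lit 5) (nat_lit 199) (nat_lit 5) (nat_lit 194) (nat_lit 5) (nat_lit 611) (nat_lit 528) (nat_lit 421)))))) (XT.nd (nat_lit 390) (nat_lit 380) (nat_lit 0) (XT.nd (nat_lit 156) (nat_lit 836) (nat_lit 0) (XT.nd (nat_lit 78) (nat_lit 456) (nat_lit 0) (XT.lf (nat_lit 0) (nat_lit 3432357956) (nat_lit 456) (nat_lit 955866283) (nat_lit 76) (nat_lit 8341523017) (nat_lit 193) (nat_lit 5) (nat_lit 199) (nat_lit 5) (nat_lit 194) (nat_lit 5) (nat_lit 612) (nat_lit 528) (nat_lit 420)) (XT.lf (nat_lit 0) (nat_lit 6947215353) (nat_lit 532) (nat_lit 5384574296) (nat_lit 76) (nat_lit 542816746) (nat_lit 187) (nat_lit 5) (nat_lit 194) (nat_lit 5) (nat_lit 188) (nat_lit 5) (nat_lit 613) (nat_lit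 528) (nat_lit 419))) (XT.nd (nat_lit 78) (nat_lit 456) (nat_lit 0) (XT.lf (nat_lit 0) (nat_lit 3075426263) (nat_lit 380) (nat_lit 7491612019) (nat_lit 456) (nat_lit 2454631815) (nat_lit 182) (nat_lit 5) (nat_lit 187) (nat_lit 5) (nat_lit 188) (nat_lit 5) (nat_lit 614) (nat_lit 528) (nat_lit 418)) (XT.nd (nat_lit 78) (nat_lit 380) (nat_lit 0) (XT.lf (nat_lit 0) (nat_lit 1088942704) (nat_lit 456) (nat_lit 1432082867) (nat_lit 76) (nat_lit 10650196514) (nat_lit 181) (nat_lit 5) (nat_lit 187) (nat_lit 5) (nat_lit 182) (nat_lit 5) (nat_lit 615) (nat_lit 528) (nat_lit 417)) (XT.lf (nat_lit 0) (nat_lit 4714516328) (nat_lit 456) (nat_lit 6038772210) (nat_lit 76) (nat_lit 2569272878) (nat_lit 176) (nat_lit 5) (nat_lit 182) (nat_lit 5) (nat_lit 177) (nat_lit 5) (nat_lit 616) (nat_lit 528) (nat_lit 416))))) (XT.nd (nat_lit 74412) (nat_lit 0) (nat_lit 42788) (XT.nd (nat_lit 78) (nat_lit 0) (nat_lit 0) (XT.lf (nat_lit 0) (nat_lit 2704403154) (nat_lit 380) (nat_lit 5731916356) (nat_lit 456) (nat_lit 5040134348) (nat_lit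 171) (nat_lit 5) (nat_lit 176) (nat_lit 5) (nat_lit 177) (nat_lit 5) (nat_lit 617) (nat_lit 528) (nat_lit 415)) (XT.nd (nat_lit 74256) (nat_lit 0) (nat_lit 43472) (XT.lf (nat_lit 0) (nat_lit 11673540817) (nat_lit 380) (nat_lit 579527952) (nat_lit 456) (nat_lit 1379945859) (nat_lit 171) (nat_lit 5) (nat_lit 176) (nat_lit 5) (nat_lit 177) (nat_lit 5) (nat_lit 618) (nat_lit 528) (nat_lit 414)) (XT.lf (nat_lit 0) (nat_lit 2523337931) (nat_lit 684) (nat_lit 387391218) (nat_lit 684) (nat_lit 387391218) (nat_lit 743) (nat_lit 3) (nat_lit 752) (nat_lit 3) (nat_lit 752) (nat_lit 5) (nat_lit 529) (nat_lit 529) (nat_lit 502)))) (XT.nd (nat_lit 78) (nat_lit 0) (nat_lit 0) (XT.lf (nat_lit 0) (nat_lit 868891614) (nat_lit 684) (nat_lit 4083659375) (nat_lit 760) (nat_lit 1661358888) (nat_lit 734) (nat_lit 5) (nat_lit 743) (nat_lit 3) (nat_lit 744) (nat_lit 5) (nat_lit 530) (nat_lit 529) (nat_lit 501)) (XT.nd (nat_lit 78) (nat_lit 0) (nat_lit 0) (XT.lf (nat_lit 0) (nat_lit 3257140372) (nat_lit 684) (nat_lit 763358880) (nat_lit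 760) (nat_lit 2612390840) (nat_lit 734) (nat_lit 5) (nat_lit 743) (nat_lit 3) (nat_lit 744) (nat_lit 5) (nat_lit 531) (nat_lit 529) (nat_lit 500)) (XT.lf (nat_lit 76) (nat_lit 2625307937) (nat_lit 0) (nat_lit 3023047081) (nat_lit 760) (nat_lit 1004796739) (nat_lit 735) (nat_lit 5) (nat_lit 734) (nat_lit 5) (nat_lit 744) (nat_lit 5) (nat_lit 532) (nat_lit 529) (nat_lit 499))))))))
noncomputable def xc86 : XT := (XT.nd (nat_lit 1560) (nat_lit 17404) (nat_lit 0) (XT.nd (nat_lit 780) (nat_lit 4484) (nat_lit 0) (XT.nd (nat_lit 390) (nat_lit 1824) (nat_lit 0) (XT.nd (nat_lit 156) (nat_lit 760) (nat_lit 0) (XT.nd (nat_lit 78) (nat_lit 0) (nat_lit 0) (XT.lf (nat_lit 0) (nat_lit 1338942749) (nat_lit 760) (nat_lit 623909432) (nat_lit 836) (nat_lit 4711910414) (nat_lit 724) (nat_lit 5) (nat_lit 734) (nat_lit 5) (nat_lit 735) (nat_lit 5) (nat_lit 533) (nat_lit 529) (nat_lit 498)) (XT.lf (nat_lit 76) (nat_lit 2846351280) (nat_lit 0) (nat_lit 828195747) (nat_lit 836) (nat_lit 3022962429) (nat_lit 725) (nat_lit 5) (nat_lit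 724) (nat_lit 5) (nat_lit 735) (nat_lit 5) (nat_lit 534) (nat_lit 529) (nat_lit 497))) (XT.nd (nat_lit 78) (nat_lit 836) (nat_lit 0) (XT.lf (nat_lit 0) (nat_lit 6004308909) (nat_lit 760) (nat_lit 361894466) (nat_lit 836) (nat_lit 355564387) (nat_lit 725) (nat_lit 5) (nat_lit 735) (nat_lit 5) (nat_lit 736) (nat_lit 5) (nat_lit 535) (nat_lit 529) (nat_lit 496)) (XT.nd (nat_lit 78) (nat_lit 0) (nat_lit 0) (XT.lf (nat_lit 0) (nat_lit 1581023773) (nat_lit 836) (nat_lit 3556818025) (nat_lit 912) (nat_lit 1609096417) (nat_lit 714) (nat_lit 5) (nat_lit 725) (nat_lit 5) (nat_lit 726) (nat_lit 5) (nat_lit 536) (nat_lit 529) (nat_lit 495)) (XT.lf (nat_lit 76) (nat_lit 7379432) (nat_lit 0) (nat_lit 3853778838) (nat_lit 912) (nat_lit 2912458280) (nat_lit 715) (nat_lit 5) (nat_lit 714) (nat_lit 5) (nat_lit 726) (nat_lit 5) (nat_lit 537) (nat_lit 529) (nat_lit 494))))) (XT.nd (nat_lit 156) (nat_lit 912) (nat_lit 0) (XT.nd (nat_lit 78) (nat_lit 912) (nat_lit 0) (XT.lf (nat_lit 76) (nat_lit 3657827530) (nat_lit 0) (nat_lit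 2496629518) (nat_lit 912) (nat_lit 647025179) (nat_lit 715) (nat_lit 5) (nat_lit 714) (nat_lit 5) (nat_lit 726) (nat_lit 5) (nat_lit 538) (nat_lit 529) (nat_lit 493)) (XT.lf (nat_lit 76) (nat_lit 513980003) (nat_lit 0) (nat_lit 1075680834) (nat_lit 988) (nat_lit 5241077866) (nat_lit 703) (nat_lit 5) (nat_lit 702) (nat_lit 5) (nat_lit 715) (nat_lit 5) (nat_lit 539) (nat_lit 529) (nat_lit 492))) (XT.nd (nat_lit 78) (nat_lit 988) (nat_lit 0) (XT.lf (nat_lit 0) (nat_lit 3831528349) (nat_lit 912) (nat_lit 2613986609) (nat_lit 988) (nat_lit 415602299) (nat_lit 703) (nat_lit 5) (nat_lit 715) (nat_lit 5) (nat_lit 716) (nat_lit 5) (nat_lit 540) (nat_lit 529) (nat_lit 491)) (XT.nd (nat_lit 78) (nat_lit 988) (nat_lit 0) (XT.lf (nat_lit 76) (nat_lit 1136944307) (nat_lit 0) (nat_lit 4942306020) (nat_lit 988) (nat_lit 813637336) (nat_lit 704) (nat_lit 5) (nat_lit 703) (nat_lit 5) (nat_lit 716) (nat_lit 5) (nat_lit 541) (nat_lit 529) (nat_lit 490)) (XT.lf (nat_lit 0) (nat_lit 1392307747) (nat_lit 988) (nat_lit 1970295648)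 (nat_lit 1064) (nat_lit 3563213727) (nat_lit 690) (nat_lit 5) (nat_lit 703) (nat_lit 5) (nat_lit 704) (nat_lit 5) (nat_lit 542) (nat_lit 529) (nat_lit 489)))))) (XT.nd (nat_lit 390) (nat_lit 3496) (nat_lit 0) (XT.nd (nat_lit 156) (nat_lit 988) (nat_lit 0) (XT.nd (nat_lit 78) (nat_lit 0) (nat_lit 0) (XT.lf (nat_lit 76) (nat_lit 1876789706) (nat_lit 0) (nat_lit 1714912327) (nat_lit 1064) (nat_lit 3368395435) (nat_lit 691) (nat_lit 5) (nat_lit 690) (nat_lit 5) (nat_lit 704) (nat_lit 5) (nat_lit 543) (nat_lit 529) (nat_lit 488)) (XT.lf (nat_lit 76) (nat_lit 5794243632) (nat_lit 0) (nat_lit 2894598) (nat_lit 1064) (nat_lit 1198688378) (nat_lit 691) (nat_lit 5) (nat_lit 690) (nat_lit 5) (nat_lit 704) (nat_lit 5) (nat_lit 544) (nat_lit 529) (nat_lit 487))) (XT.nd (nat_lit 78) (nat_lit 0) (nat_lit 0) (XT.lf (nat_lit 0) (nat_lit 980081451) (nat_lit 1064) (nat_lit 4290382207) (nat_lit 1140) (nat_lit 1762099598) (nat_lit 677) (nat_lit 5) (nat_lit 691) (nat_lit 5) (nat_lit 692) (nat_lit 5) (nat_lit 545) (nat_lit 529)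 (nat_lit 486)) (XT.nd (nat_lit 78) (nat_lit 0) (nat_lit 0) (XT.lf (nat_lit 0) (nat_lit 3144909761) (nat_lit 1064) (nat_lit 330967289) (nat_lit 1140) (nat_lit 3594832473) (nat_lit 677) (nat_lit 5) (nat_lit 691) (nat_lit 5) (nat_lit 692) (nat_lit 5) (nat_lit 546) (nat_lit 529) (nat_lit 485)) (XT.lf (nat_lit 76) (nat_lit 3722942250) (nat_lit 0) (nat_lit 1605619779) (nat_lit 1140) (nat_lit 1781550085) (nat_lit 678) (nat_lit 5) (nat_lit 677) (nat_lit 5) (nat_lit 692) (nat_lit 5) (nat_lit 547) (nat_lit 529) (nat_lit 484))))) (XT.nd (nat_lit 156) (nat_lit 2432) (nat_lit 0) (XT.nd (nat_lit 78) (nat_lit 0) (nat_lit 0) (XT.lf (nat_lit 0) (nat_lit 360833033) (nat_lit 1140) (nat_lit 6468657364) (nat_lit 76) (nat_lit 321552130) (nat_lit 663) (nat_lit 5) (nat_lit 678) (nat_lit 5) (nat_lit 664) (nat_lit 5) (nat_lit 548) (nat_lit 529) (nat_lit 483)) (XT.lf (nat_lit 0) (nat_lit 2508332896) (nat_lit 1140) (nat_lit 2370438602) (nat_lit 76) (nat_lit 2314065766) (nat_lit 663) (nat_lit 5) (nat_lit 678) (nat_lit 5) (nat_lit 664)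 (nat_lit 5) (nat_lit 549) (nat_lit 529) (nat_lit 482))) (XT.nd (nat_lit 78) (nat_lit 1292) (nat_lit 0) (XT.lf (nat_lit 0) (nat_lit 1799258999) (nat_lit 1140) (nat_lit 2864723655) (nat_lit 1216) (nat_lit 2572184887) (nat_lit 648) (nat_lit 5) (nat_lit 663) (nat_lit 5) (nat_lit 664) (nat_lit 5) (nat_lit 550) (nat_lit 529) (nat_lit 481)) (XT.nd (nat_lit 78) (nat_lit 1292) (nat_lit 0) (XT.lf (nat_lit 0) (nat_lit 6050623564) (nat_lit 1140) (nat_lit 782238231) (nat_lit 1216) (nat_lit 448103876) (nat_lit 648) (nat_lit 5) (nat_lit 663) (nat_lit 5) (nat_lit 664) (nat_lit 5) (nat_lit 551) (nat_lit 529) (nat_lit 480)) (XT.lf (nat_lit 0) (nat_lit 1679557333) (nat_lit 1292) (nat_lit 4280466581) (nat_lit 76) (nat_lit 1366743409) (nat_lit 631) (nat_lit 5) (nat_lit 648) (nat_lit 5) (nat_lit 632) (nat_lit 5) (nat_lit 552) (nat_lit 529) (nat_lit 479))))))) (XT.nd (nat_lit 780) (nat_lit 8284) (nat_lit 0) (XT.nd (nat_lit 390) (nat_lit 4940) (nat_lit 0) (XT.nd (nat_lit 156) (nat_lit 2888) (nat_lit 0) (XT.nd (nat_lit 78) (nat_lit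 0) (nat_lit 0) (XT.lf (nat_lit 0) (nat_lit 9210706) (nat_lit 1292) (nat_lit 3803663485) (nat_lit 1368) (nat_lit 3561172892) (nat_lit 614) (nat_lit 5) (nat_lit 631) (nat_lit 5) (nat_lit 632) (nat_lit 5) (nat_lit 553) (nat_lit 529) (nat_lit 478)) (XT.lf (nat_lit 0) (nat_lit 4408390002) (nat_lit 1292) (nat_lit 1565386244) (nat_lit 1368) (nat_lit 1448801117) (nat_lit 614) (nat_lit 5) (nat_lit 631) (nat_lit 5) (nat_lit 632) (nat_lit 5) (nat_lit 554) (nat_lit 529) (nat_lit 477))) (XT.nd (nat_lit 78) (nat_lit 1444) (nat_lit 0) (XT.lf (nat_lit 0) (nat_lit 667245558) (nat_lit 1444) (nat_lit 6074406685) (nat_lit 76) (nat_lit 730923837) (nat_lit 595) (nat_lit 5) (nat_lit 614) (nat_lit 5) (nat_lit 596) (nat_lit 5) (nat_lit 555) (nat_lit 529) (nat_lit 476)) (XT.nd (nat_lit 78) (nat_lit 1444) (nat_lit 0) (XT.lf (nat_lit 0) (nat_lit 2794408316) (nat_lit 1444) (nat_lit 1638539635) (nat_lit 76) (nat_lit 3090674509) (nat_lit 595) (nat_lit 5) (nat_lit 614) (nat_lit 5) (nat_lit 596) (nat_lit 5) (nat_lit 556) (nat_lit 529)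 (nat_lit 475)) (XT.lf (nat_lit 0) (nat_lit 2889723080) (nat_lit 1444) (nat_lit 2051436512) (nat_lit 1520) (nat_lit 2634992319) (nat_lit 576) (nat_lit 5) (nat_lit 595) (nat_lit 5) (nat_lit 596) (nat_lit 5) (nat_lit 557) (nat_lit 529) (nat_lit 474))))) (XT.nd (nat_lit 156) (nat_lit 3344) (nat_lit 0) (XT.nd (nat_lit 78) (nat_lit 1596) (nat_lit 0) (XT.lf (nat_lit 0) (nat_lit 7103293257) (nat_lit 1520) (nat_lit 136142694) (nat_lit 76) (nat_lit 390850043) (nat_lit 576) (nat_lit 5) (nat_lit 596) (nat_lit 5) (nat_lit 577) (nat_lit 5) (nat_lit 558) (nat_lit 529) (nat_lit 473)) (XT.lf (nat_lit 0) (nat_lit 1604535982) (nat_lit 1596) (nat_lit 3179393005) (nat_lit 76) (nat_lit 2901312728) (nat_lit 555) (nat_lit 5) (nat_lit 576) (nat_lit 5) (nat_lit 556) (nat_lit 5) (nat_lit 559) (nat_lit 529) (nat_lit 472))) (XT.nd (nat_lit 78) (nat_lit 1748) (nat_lit 0) (XT.lf (nat_lit 0) (nat_lit 1482704215) (nat_lit 1596) (nat_lit 2259523032) (nat_lit 1672) (nat_lit 3999590685) (nat_lit 534) (nat_lit 5) (nat_lit 555) (nat_lit 5)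 (nat_lit 556) (nat_lit 5) (nat_lit 560) (nat_lit 529) (nat_lit 471)) (XT.nd (nat_lit 78) (nat_lit 1748) (nat_lit 0) (XT.lf (nat_lit 0) (nat_lit 5906826594) (nat_lit 1672) (nat_lit 1555236992) (nat_lit 76) (nat_lit 337781762) (nat_lit 534) (nat_lit 5) (nat_lit 556) (nat_lit 5) (nat_lit 535) (nat_lit 5) (nat_lit 561) (nat_lit 529) (nat_lit 470)) (XT.lf (nat_lit 0) (nat_lit 249685751) (nat_lit 1748) (nat_lit 4624941687) (nat_lit 76) (nat_lit 2984428239) (nat_lit 511) (nat_lit 5) (nat_lit 534) (nat_lit 5) (nat_lit 512) (nat_lit 5) (nat_lit 562) (nat_lit 529) (nat_lit 469)))))) (XT.nd (nat_lit 390) (nat_lit 3572) (nat_lit 0) (XT.nd (nat_lit 156) (nat_lit 2964) (nat_lit 0) (XT.nd (nat_lit 78) (nat_lit 0) (nat_lit 0) (XT.lf (nat_lit 0) (nat_lit 176108705) (nat_lit 1748) (nat_lit 2207142970) (nat_lit 1824) (nat_lit 5536483788) (nat_lit 488) (nat_lit 5) (nat_lit 511) (nat_lit 5) (nat_lit 512) (nat_lit 5) (nat_lit 563) (nat_lit 529) (nat_lit 468)) (XT.lf (nat_lit 0) (nat_lit 4556296862) (nat_lit 1824) (nat_lit 2883915739)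 (nat_lit 76) (nat_lit 541482636) (nat_lit 488) (nat_lit 5) (nat_lit 512) (nat_lit 5) (nat_lit 489) (nat_lit 5) (nat_lit 564) (nat_lit 529) (nat_lit 467))) (XT.nd (nat_lit 78) (nat_lit 1140) (nat_lit 0) (XT.lf (nat_lit 0) (nat_lit 2050719926) (nat_lit 1824) (nat_lit 4712986452) (nat_lit 1900) (nat_lit 1281372262) (nat_lit 464) (nat_lit 5) (nat_lit 488) (nat_lit 5) (nat_lit 489) (nat_lit 5) (nat_lit 565) (nat_lit 529) (nat_lit 466)) (XT.nd (nat_lit 78) (nat_lit 1064) (nat_lit 0) (XT.lf (nat_lit 0) (nat_lit 876369732) (nat_lit 1900) (nat_lit 1027021660) (nat_lit 76) (nat_lit 6206568904) (nat_lit 463) (nat_lit 5) (nat_lit 488) (nat_lit 5) (nat_lit 464) (nat_lit 5) (nat_lit 566) (nat_lit 529) (nat_lit 465)) (XT.lf (nat_lit 0) (nat_lit 3056864520) (nat_lit 1140) (nat_lit 4132493165) (nat_lit 76) (nat_lit 986679751) (nat_lit 449) (nat_lit 5) (nat_lit 464) (nat_lit 5) (nat_lit 450) (nat_lit 5) (nat_lit 567) (nat_lit 529) (nat_lit 464))))) (XT.nd (nat_lit 234) (nat_lit 1672) (nat_lit 0) (XT.nd (nat_lit 78) (nat_lit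 988) (nat_lit 0) (XT.lf (nat_lit 0) (nat_lit 951341702) (nat_lit 912) (nat_lit 4319796243) (nat_lit 988) (nat_lit 2972497111) (nat_lit 437) (nat_lit 5) (nat_lit 449) (nat_lit 5) (nat_lit 450) (nat_lit 5) (nat_lit 568) (nat_lit 529) (nat_lit 463)) (XT.nd (nat_lit 78) (nat_lit 988) (nat_lit 0) (XT.lf (nat_lit 0) (nat_lit 6158468902) (nat_lit 912) (nat_lit 1363882122) (nat_lit 988) (nat_lit 790382786) (nat_lit 437) (nat_lit 5) (nat_lit 449) (nat_lit 5) (nat_lit 450) (nat_lit 5) (nat_lit 569) (nat_lit 529) (nat_lit 462)) (XT.lf (nat_lit 0) (nat_lit 1412866761) (nat_lit 988) (nat_lit 5310784097) (nat_lit 76) (nat_lit 1659453108) (nat_lit 424) (nat_lit 5) (nat_lit 437) (nat_lit 5) (nat_lit 425) (nat_lit 5) (nat_lit 570) (nat_lit 529) (nat_lit 461)))) (XT.nd (nat_lit 78) (nat_lit 1672) (nat_lit 0) (XT.lf (nat_lit 0) (nat_lit 3639032682) (nat_lit 988) (nat_lit 70967633) (nat_lit 76) (nat_lit 4744990166) (nat_lit 424) (nat_lit 5) (nat_lit 437) (nat_lit 5) (nat_lit 425) (nat_lit 5) (nat_lit 571) (nat_lit 529) (nat_lit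 460)) (XT.nd (nat_lit 78) (nat_lit 836) (nat_lit 0) (XT.lf (nat_lit 0) (nat_lit 5309306283) (nat_lit 836) (nat_lit 601397368) (nat_lit 912) (nat_lit 2617593533) (nat_lit 413) (nat_lit 5) (nat_lit 424) (nat_lit 5) (nat_lit 425) (nat_lit 5) (nat_lit 572) (nat_lit 529) (nat_lit 459)) (XT.lf (nat_lit 0) (nat_lit 2172488009) (nat_lit 836) (nat_lit 6053529976) (nat_lit 912) (nat_lit 377089891) (nat_lit 402) (nat_lit 5) (nat_lit 413) (nat_lit 5) (nat_lit 414) (nat_lit 5) (nat_lit 573) (nat_lit 529) (nat_lit 458))))))))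
noncomputable def xc87 : XT := (XT.nd (nat_lit 1560) (nat_lit 6764) (nat_lit 0) (XT.nd (nat_lit 780) (nat_lit 4712) (nat_lit 0) (XT.nd (nat_lit 390) (nat_lit 2280) (nat_lit 0) (XT.nd (nat_lit 156) (nat_lit 1672) (nat_lit 0) (XT.nd (nat_lit 78) (nat_lit 836) (nat_lit 0) (XT.lf (nat_lit 0) (nat_lit 1876075460) (nat_lit 912) (nat_lit 1014685888) (nat_lit 76) (nat_lit 5788550050) (nat_lit 401) (nat_lit 5) (nat_lit 413) (nat_lit 5) (nat_lit 402) (nat_lit 5) (nat_lit 574) (nat_lit 529) (nat_lit 457)) (XT.lf (nat_lit 0) (nat_lit 4168860484) (nat_lit 912) (nat_lit 4226848212) (nat_lit 76) (nat_lit 361290265) (nat_lit 390) (nat_lit 5) (nat_lit 402) (nat_lit 5) (nat_lit 391) (nat_lit 5) (nat_lit 575) (nat_lit 529) (nat_lit 456))) (XT.nd (nat_lit 78) (nat_lit 836) (nat_lit 0) (XT.lf (nat_lit 0) (nat_lit 1327412628) (nat_lit 836) (nat_lit 5182900848) (nat_lit 912) (nat_lit 2325872451) (nat_lit 379) (nat_lit 5) (nat_lit 390) (nat_lit 5) (nat_lit 391) (nat_lit 5) (nat_lit 576) (nat_lit 529) (nat_lit 455)) (XT.nd (nat_lit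 78) (nat_lit 836) (nat_lit 0) (XT.lf (nat_lit 0) (nat_lit 7015938880) (nat_lit 836) (nat_lit 1879618678) (nat_lit 912) (nat_lit 21461692) (nat_lit 379) (nat_lit 5) (nat_lit 390) (nat_lit 5) (nat_lit 391) (nat_lit 5) (nat_lit 577) (nat_lit 529) (nat_lit 454)) (XT.lf (nat_lit 0) (nat_lit 2302218529) (nat_lit 836) (nat_lit 5189327850) (nat_lit 76) (nat_lit 1507547675) (nat_lit 368) (nat_lit 5) (nat_lit 379) (nat_lit 5) (nat_lit 369) (nat_lit 5) (nat_lit 578) (nat_lit 529) (nat_lit 453))))) (XT.nd (nat_lit 156) (nat_lit 1520) (nat_lit 0) (XT.nd (nat_lit 78) (nat_lit 0) (nat_lit 0) (XT.lf (nat_lit 0) (nat_lit 538196360) (nat_lit 760) (nat_lit 4132050053) (nat_lit 836) (nat_lit 4412599626) (nat_lit 358) (nat_lit 5) (nat_lit 368) (nat_lit 5) (nat_lit 369) (nat_lit 5) (nat_lit 579) (nat_lit 529) (nat_lit 452)) (XT.lf (nat_lit 0) (nat_lit 6416607064) (nat_lit 760) (nat_lit 673607856) (nat_lit 836) (nat_lit 2077968261) (nat_lit 358) (nat_lit 5) (nat_lit 368) (nat_lit 5) (nat_lit 369) (nat_lit 5) (nat_lit 580) (nat_lit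 529) (nat_lit 451))) (XT.nd (nat_lit 78) (nat_lit 760) (nat_lit 0) (XT.lf (nat_lit 0) (nat_lit 308720144) (nat_lit 760) (nat_lit 6110893206) (nat_lit 76) (nat_lit 2835389115) (nat_lit 348) (nat_lit 5) (nat_lit 358) (nat_lit 5) (nat_lit 349) (nat_lit 5) (nat_lit 581) (nat_lit 529) (nat_lit 450)) (XT.nd (nat_lit 78) (nat_lit 760) (nat_lit 0) (XT.lf (nat_lit 0) (nat_lit 2708885485) (nat_lit 760) (nat_lit 200608078) (nat_lit 76) (nat_lit 6433920139) (nat_lit 348) (nat_lit 5) (nat_lit 358) (nat_lit 5) (nat_lit 349) (nat_lit 5) (nat_lit 582) (nat_lit 529) (nat_lit 449)) (XT.lf (nat_lit 0) (nat_lit 5170826380) (nat_lit 836) (nat_lit 3566514498) (nat_lit 76) (nat_lit 695978427) (nat_lit 338) (nat_lit 5) (nat_lit 349) (nat_lit 5) (nat_lit 339) (nat_lit 5) (nat_lit 583) (nat_lit 529) (nat_lit 448)))))) (XT.nd (nat_lit 390) (nat_lit 2660) (nat_lit 0) (XT.nd (nat_lit 156) (nat_lit 1292) (nat_lit 0) (XT.nd (nat_lit 78) (nat_lit 76) (nat_lit 0) (XT.lf (nat_lit 0) (nat_lit 2513237322) (nat_lit 684) (nat_lit 5177103303)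 (nat_lit 760) (nat_lit 1834517261) (nat_lit 329) (nat_lit 5) (nat_lit 338) (nat_lit 5) (nat_lit 339) (nat_lit 5) (nat_lit 584) (nat_lit 529) (nat_lit 447)) (XT.lf (nat_lit 0) (nat_lit 629237716) (nat_lit 760) (nat_lit 893040213) (nat_lit 76) (nat_lit 8095954637) (nat_lit 328) (nat_lit 5) (nat_lit 338) (nat_lit 5) (nat_lit 329) (nat_lit 5) (nat_lit 585) (nat_lit 529) (nat_lit 446))) (XT.nd (nat_lit 78) (nat_lit 608) (nat_lit 0) (XT.lf (nat_lit 0) (nat_lit 3139315172) (nat_lit 760) (nat_lit 4354689611) (nat_lit 76) (nat_lit 2218796667) (nat_lit 319) (nat_lit 5) (nat_lit 329) (nat_lit 5) (nat_lit 320) (nat_lit 5) (nat_lit 586) (nat_lit 529) (nat_lit 445)) (XT.nd (nat_lit 78) (nat_lit 0) (nat_lit 0) (XT.lf (nat_lit 0) (nat_lit 1918766406) (nat_lit 608) (nat_lit 3781802840) (nat_lit 684) (nat_lit 4108674401) (nat_lit 311) (nat_lit 5) (nat_lit 319) (nat_lit 5) (nat_lit 320) (nat_lit 5) (nat_lit 587) (nat_lit 529) (nat_lit 444)) (XT.lf (nat_lit 0) (nat_lit 8315183399) (nat_lit 684) (nat_lit 1564348518) (nat_lit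 76) (nat_lit 28041481) (nat_lit 311) (nat_lit 5) (nat_lit 320) (nat_lit 5) (nat_lit 312) (nat_lit 5) (nat_lit 588) (nat_lit 529) (nat_lit 443))))) (XT.nd (nat_lit 156) (nat_lit 1292) (nat_lit 0) (XT.nd (nat_lit 78) (nat_lit 608) (nat_lit 0) (XT.lf (nat_lit 0) (nat_lit 991687276) (nat_lit 760) (nat_lit 5119499230) (nat_lit 76) (nat_lit 3895953202) (nat_lit 301) (nat_lit 5) (nat_lit 311) (nat_lit 5) (nat_lit 302) (nat_lit 5) (nat_lit 589) (nat_lit 529) (nat_lit 442)) (XT.lf (nat_lit 0) (nat_lit 1355256974) (nat_lit 608) (nat_lit 2243612458) (nat_lit 684) (nat_lit 6509763815) (nat_lit 293) (nat_lit 5) (nat_lit 301) (nat_lit 5) (nat_lit 302) (nat_lit 5) (nat_lit 590) (nat_lit 529) (nat_lit 441))) (XT.nd (nat_lit 78) (nat_lit 1292) (nat_lit 0) (XT.lf (nat_lit 0) (nat_lit 6277446404) (nat_lit 684) (nat_lit 2227393220) (nat_lit 76) (nat_lit 1706933313) (nat_lit 293) (nat_lit 5) (nat_lit 302) (nat_lit 5) (nat_lit 294) (nat_lit 5) (nat_lit 591) (nat_lit 529) (nat_lit 440)) (XT.nd (nat_lit 78) (nat_lit 684) (nat_lit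 0) (XT.lf (nat_lit 0) (nat_lit 4439580414) (nat_lit 608) (nat_lit 4587837826) (nat_lit 684) (nat_lit 1289201989) (nat_lit 285) (nat_lit 5) (nat_lit 293) (nat_lit 5) (nat_lit 294) (nat_lit 5) (nat_lit 592) (nat_lit 529) (nat_lit 439)) (XT.lf (nat_lit 0) (nat_lit 815243518) (nat_lit 608) (nat_lit 569708200) (nat_lit 684) (nat_lit 9038538962) (nat_lit 276) (nat_lit 5) (nat_lit 284) (nat_lit 5) (nat_lit 285) (nat_lit 5) (nat_lit 593) (nat_lit 529) (nat_lit 438))))))) (XT.nd (nat_lit 780) (nat_lit 3420) (nat_lit 0) (XT.nd (nat_lit 390) (nat_lit 1596) (nat_lit 0) (XT.nd (nat_lit 156) (nat_lit 1140) (nat_lit 0) (XT.nd (nat_lit 78) (nat_lit 608) (nat_lit 0) (XT.lf (nat_lit 0) (nat_lit 4132461052) (nat_lit 684) (nat_lit 2875651030) (nat_lit 76) (nat_lit 3523474528) (nat_lit 276) (nat_lit 5) (nat_lit 285) (nat_lit 5) (nat_lit 277) (nat_lit 5) (nat_lit 594) (nat_lit 529) (nat_lit 437)) (XT.lf (nat_lit 0) (nat_lit 4007770632) (nat_lit 608) (nat_lit 2931952196) (nat_lit 684) (nat_lit 3702026766) (nat_lit 268) (nat_lit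 5) (nat_lit 276) (nat_lit 5) (nat_lit 277) (nat_lit 5) (nat_lit 595) (nat_lit 529) (nat_lit 436))) (XT.nd (nat_lit 78) (nat_lit 608) (nat_lit 0) (XT.lf (nat_lit 0) (nat_lit 276808364) (nat_lit 532) (nat_lit 9530739870) (nat_lit 608) (nat_lit 946480391) (nat_lit 261) (nat_lit 5) (nat_lit 268) (nat_lit 5) (nat_lit 269) (nat_lit 5) (nat_lit 596) (nat_lit 529) (nat_lit 435)) (XT.nd (nat_lit 78) (nat_lit 532) (nat_lit 0) (XT.lf (nat_lit 0) (nat_lit 1879305466) (nat_lit 608) (nat_lit 3516700945) (nat_lit 76) (nat_lit 5471514314) (nat_lit 260) (nat_lit 5) (nat_lit 268) (nat_lit 5) (nat_lit 261) (nat_lit 5) (nat_lit 597) (nat_lit 529) (nat_lit 434)) (XT.lf (nat_lit 0) (nat_lit 3591551146) (nat_lit 532) (nat_lit 1156544828) (nat_lit 608) (nat_lit 6235079413) (nat_lit 253) (nat_lit 5) (nat_lit 260) (nat_lit 5) (nat_lit 261) (nat_lit 5) (nat_lit 598) (nat_lit 529) (nat_lit 433))))) (XT.nd (nat_lit 156) (nat_lit 1064) (nat_lit 0) (XT.nd (nat_lit 78) (nat_lit 532) (nat_lit 0) (XT.lf (nat_lit 0) (nat_lit 7694628307)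 (nat_lit 608) (nat_lit 264282886) (nat_lit 76) (nat_lit 3141825696) (nat_lit 253) (nat_lit 5) (nat_lit 261) (nat_lit 5) (nat_lit 254) (nat_lit 5) (nat_lit 599) (nat_lit 529) (nat_lit 432)) (XT.lf (nat_lit 0) (nat_lit 7058632394) (nat_lit 532) (nat_lit 3671461146) (nat_lit 608) (nat_lit 489957083) (nat_lit 246) (nat_lit 5) (nat_lit 253) (nat_lit 5) (nat_lit 254) (nat_lit 5) (nat_lit 600) (nat_lit 529) (nat_lit 431))) (XT.nd (nat_lit 78) (nat_lit 456) (nat_lit 0) (XT.lf (nat_lit 0) (nat_lit 2455756594) (nat_lit 608) (nat_lit 8162711943) (nat_lit 76) (nat_lit 722883998) (nat_lit 238) (nat_lit 5) (nat_lit 246) (nat_lit 5) (nat_lit 239) (nat_lit 5) (nat_lit 601) (nat_lit 529) (nat_lit 430)) (XT.nd (nat_lit 78) (nat_lit 456) (nat_lit 0) (XT.lf (nat_lit 0) (nat_lit 5483064450) (nat_lit 608) (nat_lit 802544231) (nat_lit 76) (nat_lit 5178823209) (nat_lit 238) (nat_lit 5) (nat_lit 246) (nat_lit 5) (nat_lit 239) (nat_lit 5) (nat_lit 602) (nat_lit 529) (nat_lit 429)) (XT.lf (nat_lit 0) (nat_lit 6761954251) (nat_lit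 456) (nat_lit 1830131756) (nat_lit 532) (nat_lit 2997464441) (nat_lit 232) (nat_lit 5) (nat_lit 238) (nat_lit 5) (nat_lit 239) (nat_lit 5) (nat_lit 603) (nat_lit 529) (nat_lit 428)))))) (XT.nd (nat_lit 390) (nat_lit 1824) (nat_lit 0) (XT.nd (nat_lit 156) (nat_lit 988) (nat_lit 0) (XT.nd (nat_lit 78) (nat_lit 0) (nat_lit 0) (XT.lf (nat_lit 0) (nat_lit 64036059) (nat_lit 608) (nat_lit 8958894042) (nat_lit 76) (nat_lit 2693865732) (nat_lit 224) (nat_lit 5) (nat_lit 232) (nat_lit 5) (nat_lit 225) (nat_lit 5) (nat_lit 604) (nat_lit 529) (nat_lit 427)) (XT.lf (nat_lit 0) (nat_lit 3168936326) (nat_lit 608) (nat_lit 1349407632) (nat_lit 76) (nat_lit 7327400698) (nat_lit 224) (nat_lit 5) (nat_lit 232) (nat_lit 5) (nat_lit 225) (nat_lit 5) (nat_lit 605) (nat_lit 529) (nat_lit 426))) (XT.nd (nat_lit 78) (nat_lit 532) (nat_lit 0) (XT.lf (nat_lit 0) (nat_lit 6356607620) (nat_lit 532) (nat_lit 5511727662) (nat_lit 76) (nat_lit 108524607) (nat_lit 218) (nat_lit 5) (nat_lit 225) (nat_lit 5) (nat_lit 219) (nat_lit 5) (nat_lit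 606) (nat_lit 529) (nat_lit 425)) (XT.nd (nat_lit 78) (nat_lit 76) (nat_lit 0) (XT.lf (nat_lit 0) (nat_lit 2312807747) (nat_lit 456) (nat_lit 7327427962) (nat_lit 532) (nat_lit 2469718527) (nat_lit 212) (nat_lit 5) (nat_lit 218) (nat_lit 5) (nat_lit 219) (nat_lit 5) (nat_lit 607) (nat_lit 529) (nat_lit 424)) (XT.lf (nat_lit 0) (nat_lit 749533081) (nat_lit 532) (nat_lit 1912962503) (nat_lit 76) (nat_lit 9582809886) (nat_lit 211) (nat_lit 5) (nat_lit 218) (nat_lit 5) (nat_lit 212) (nat_lit 5) (nat_lit 608) (nat_lit 529) (nat_lit 423))))) (XT.nd (nat_lit 234) (nat_lit 912) (nat_lit 0) (XT.nd (nat_lit 78) (nat_lit 456) (nat_lit 0) (XT.lf (nat_lit 0) (nat_lit 4032718689) (nat_lit 532) (nat_lit 6234057759) (nat_lit 76) (nat_lit 2115609240) (nat_lit 205) (nat_lit 5) (nat_lit 212) (nat_lit 5) (nat_lit 206) (nat_lit 5) (nat_lit 609) (nat_lit 529) (nat_lit 422)) (XT.nd (nat_lit 78) (nat_lit 0) (nat_lit 0) (XT.lf (nat_lit 0) (nat_lit 1850368851) (nat_lit 456) (nat_lit 5552582994) (nat_lit 532) (nat_lit 5118828799)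 (nat_lit 199) (nat_lit 5) (nat_lit 205) (nat_lit 5) (nat_lit 206) (nat_lit 5) (nat_lit 610) (nat_lit 529) (nat_lit 421)) (XT.lf (nat_lit 0) (nat_lit 10150186526) (nat_lit 456) (nat_lit 711267935) (nat_lit 532) (nat_lit 1802092535) (nat_lit 199) (nat_lit 5) (nat_lit 205) (nat_lit 5) (nat_lit 206) (nat_lit 5) (nat_lit 611) (nat_lit 529) (nat_lit 420)))) (XT.nd (nat_lit 78) (nat_lit 456) (nat_lit 0) (XT.lf (nat_lit 0) (nat_lit 1605189830) (nat_lit 456) (nat_lit 6991543196) (nat_lit 76) (nat_lit 4210312192) (nat_lit 193) (nat_lit 5) (nat_lit 199) (nat_lit 5) (nat_lit 194) (nat_lit 5) (nat_lit 612) (nat_lit 529) (nat_lit 419)) (XT.nd (nat_lit 78) (nat_lit 0) (nat_lit 0) (XT.lf (nat_lit 0) (nat_lit 1362426932) (nat_lit 456) (nat_lit 3704068189) (nat_lit 532) (nat_lit 7886480647) (nat_lit 187) (nat_lit 5) (nat_lit 193) (nat_lit 5) (nat_lit 194) (nat_lit 5) (nat_lit 613) (nat_lit 529) (nat_lit 418)) (XT.lf (nat_lit 0) (nat_lit 8632197574) (nat_lit 532) (nat_lit 3162061879) (nat_lit 76) (nat_lit 1306862790) (nat_lit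 187) (nat_lit 5) (nat_lit 194) (nat_lit 5) (nat_lit 188) (nat_lit 5) (nat_lit 614) (nat_lit 529) (nat_lit 417))))))))
noncomputable def xc88 : XT := (XT.nd (nat_lit 75894) (nat_lit 0) (nat_lit 21812) (XT.nd (nat_lit 75114) (nat_lit 0) (nat_lit 38000) (XT.nd (nat_lit 74724) (nat_lit 0) (nat_lit 40812) (XT.nd (nat_lit 156) (nat_lit 0) (nat_lit 0) (XT.nd (nat_lit 78) (nat_lit 456) (nat_lit 0) (XT.lf (nat_lit 0) (nat_lit 5451808402) (nat_lit 380) (nat_lit 6857323785) (nat_lit 456) (nat_lit 942301816) (nat_lit 182) (nat_lit 5) (nat_lit 187) (nat_lit 5) (nat_lit 188) (nat_lit 5) (nat_lit 615) (nat_lit 529) (nat_lit 416)) (XT.lf (nat_lit 0) (nat_lit 839904025) (nat_lit 380) (nat_lit 1787000451) (nat_lit 456) (nat_lit 10777366075) (nat_lit 176) (nat_lit 5) (nat_lit 181) (nat_lit 5) (nat_lit 182) (nat_lit 5) (nat_lit 616) (nat_lit 529) (nat_lit 415))) (XT.nd (nat_lit 74412) (nat_lit 0) (nat_lit 42408) (XT.lf (nat_lit 0) (nat_lit 6309737763) (nat_lit 456) (nat_lit 3860084708) (nat_lit 76) (nat_lit 3389120257) (nat_lit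 176) (nat_lit 5) (nat_lit 182) (nat_lit 5) (nat_lit 177) (nat_lit 5) (nat_lit 617) (nat_lit 529) (nat_lit 414)) (XT.nd (nat_lit 78) (nat_lit 0) (nat_lit 0) (XT.lf (nat_lit 0) (nat_lit 805990895) (nat_lit 0) (nat_lit 805990895) (nat_lit 684) (nat_lit 1704139208) (nat_lit 734) (nat_lit 5) (nat_lit 734) (nat_lit 3) (nat_lit 743) (nat_lit 3) (nat_lit 530) (nat_lit 530) (nat_lit 500)) (XT.lf (nat_lit 0) (nat_lit 4942286567) (nat_lit 0) (nat_lit 632953266) (nat_lit 684) (nat_lit 1076724731) (nat_lit 734) (nat_lit 5) (nat_lit 734) (nat_lit 3) (nat_lit 743) (nat_lit 3) (nat_lit 531) (nat_lit 530) (nat_lit 499))))) (XT.nd (nat_lit 156) (nat_lit 836) (nat_lit 0) (XT.nd (nat_lit 78) (nat_lit 0) (nat_lit 0) (XT.lf (nat_lit 0) (nat_lit 1236556002) (nat_lit 760) (nat_lit 5026564994) (nat_lit 836) (nat_lit 409753925) (nat_lit 724) (nat_lit 5) (nat_lit 734) (nat_lit 5) (nat_lit 735) (nat_lit 5) (nat_lit 532) (nat_lit 530) (nat_lit 498)) (XT.lf (nat_lit 0) (nat_lit 3537390298) (nat_lit 760) (nat_lit 1645208120) (nat_lit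 836) (nat_lit 1512354143) (nat_lit 724) (nat_lit 5) (nat_lit 734) (nat_lit 5) (nat_lit 735) (nat_lit 5) (nat_lit 533) (nat_lit 530) (nat_lit 497))) (XT.nd (nat_lit 78) (nat_lit 836) (nat_lit 0) (XT.lf (nat_lit 76) (nat_lit 1795531979) (nat_lit 0) (nat_lit 4041495763) (nat_lit 836) (nat_lit 881393699) (nat_lit 725) (nat_lit 5) (nat_lit 724) (nat_lit 5) (nat_lit 735) (nat_lit 5) (nat_lit 534) (nat_lit 530) (nat_lit 496)) (XT.nd (nat_lit 78) (nat_lit 0) (nat_lit 0) (XT.lf (nat_lit 0) (nat_lit 1374210918) (nat_lit 836) (nat_lit 1456538871) (nat_lit 912) (nat_lit 3912372038) (nat_lit 713) (nat_lit 5) (nat_lit 724) (nat_lit 5) (nat_lit 725) (nat_lit 5) (nat_lit 535) (nat_lit 530) (nat_lit 495)) (XT.lf (nat_lit 76) (nat_lit 2068704093) (nat_lit 0) (nat_lit 1550696583) (nat_lit 912) (nat_lit 3149678632) (nat_lit 714) (nat_lit 5) (nat_lit 713) (nat_lit 5) (nat_lit 725) (nat_lit 5) (nat_lit 536) (nat_lit 530) (nat_lit 494)))))) (XT.nd (nat_lit 390) (nat_lit 988) (nat_lit 0) (XT.nd (nat_lit 156) (nat_lit 988) (nat_lit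 0) (XT.nd (nat_lit 78) (nat_lit 836) (nat_lit 0) (XT.lf (nat_lit 76) (nat_lit 5652675409) (nat_lit 0) (nat_lit 210341721) (nat_lit 912) (nat_lit 933473352) (nat_lit 714) (nat_lit 5) (nat_lit 713) (nat_lit 5) (nat_lit 725) (nat_lit 5) (nat_lit 537) (nat_lit 530) (nat_lit 493)) (XT.lf (nat_lit 0) (nat_lit 1278038906) (nat_lit 912) (nat_lit 4356810929) (nat_lit 988) (nat_lit 1190064784) (nat_lit 702) (nat_lit 5) (nat_lit 714) (nat_lit 5) (nat_lit 715) (nat_lit 5) (nat_lit 538) (nat_lit 530) (nat_lit 492))) (XT.nd (nat_lit 78) (nat_lit 988) (nat_lit 0) (XT.lf (nat_lit 0) (nat_lit 3475930071) (nat_lit 912) (nat_lit 726298612) (nat_lit 988) (nat_lit 2652466907) (nat_lit 702) (nat_lit 5) (nat_lit 714) (nat_lit 5) (nat_lit 715) (nat_lit 5) (nat_lit 539) (nat_lit 530) (nat_lit 491)) (XT.nd (nat_lit 78) (nat_lit 988) (nat_lit 0) (XT.lf (nat_lit 76) (nat_lit 2983914740) (nat_lit 0) (nat_lit 2699822934) (nat_lit 988) (nat_lit 1202019957) (nat_lit 703) (nat_lit 5) (nat_lit 702) (nat_lit 5) (nat_lit 715) (nat_lit 5)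 (nat_lit 540) (nat_lit 530) (nat_lit 490)) (XT.lf (nat_lit 0) (nat_lit 956885053) (nat_lit 988) (nat_lit 178350195) (nat_lit 1064) (nat_lit 5783038299) (nat_lit 689) (nat_lit 5) (nat_lit 702) (nat_lit 5) (nat_lit 703) (nat_lit 5) (nat_lit 541) (nat_lit 530) (nat_lit 489))))) (XT.nd (nat_lit 156) (nat_lit 1064) (nat_lit 0) (XT.nd (nat_lit 78) (nat_lit 0) (nat_lit 0) (XT.lf (nat_lit 0) (nat_lit 3117879268) (nat_lit 988) (nat_lit 3327858745) (nat_lit 1064) (nat_lit 506047095) (nat_lit 690) (nat_lit 5) (nat_lit 703) (nat_lit 5) (nat_lit 704) (nat_lit 5) (nat_lit 542) (nat_lit 530) (nat_lit 488)) (XT.lf (nat_lit 76) (nat_lit 484709561) (nat_lit 0) (nat_lit 4798302114) (nat_lit 1064) (nat_lit 1703741129) (nat_lit 691) (nat_lit 5) (nat_lit 690) (nat_lit 5) (nat_lit 704) (nat_lit 5) (nat_lit 543) (nat_lit 530) (nat_lit 487))) (XT.nd (nat_lit 78) (nat_lit 0) (nat_lit 0) (XT.lf (nat_lit 0) (nat_lit 434854327) (nat_lit 1064) (nat_lit 2639830787) (nat_lit 1140) (nat_lit 3948238364) (nat_lit 676) (nat_lit 5) (nat_lit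 690) (nat_lit 5) (nat_lit 691) (nat_lit 5) (nat_lit 544) (nat_lit 530) (nat_lit 486)) (XT.nd (nat_lit 78) (nat_lit 0) (nat_lit 76) (XT.lf (nat_lit 76) (nat_lit 1272379690) (nat_lit 0) (nat_lit 1279800824) (nat_lit 1140) (nat_lit 4508240402) (nat_lit 677) (nat_lit 5) (nat_lit 676) (nat_lit 5) (nat_lit 691) (nat_lit 5) (nat_lit 545) (nat_lit 530) (nat_lit 485)) (XT.lf (nat_lit 0) (nat_lit 4684618114) (nat_lit 1064) (nat_lit 1836911415) (nat_lit 1140) (nat_lit 577687422) (nat_lit 677) (nat_lit 5) (nat_lit 691) (nat_lit 5) (nat_lit 692) (nat_lit 5) (nat_lit 546) (nat_lit 530) (nat_lit 484))))))) (XT.nd (nat_lit 780) (nat_lit 10032) (nat_lit 0) (XT.nd (nat_lit 390) (nat_lit 3952) (nat_lit 0) (XT.nd (nat_lit 156) (nat_lit 1140) (nat_lit 0) (XT.nd (nat_lit 78) (nat_lit 1140) (nat_lit 0) (XT.lf (nat_lit 76) (nat_lit 2180499672) (nat_lit 0) (nat_lit 4654146940) (nat_lit 1140) (nat_lit 304647320) (nat_lit 678) (nat_lit 5) (nat_lit 677) (nat_lit 5) (nat_lit 692) (nat_lit 5) (nat_lit 547) (nat_lit 530) (nat_lit 483))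 (XT.lf (nat_lit 0) (nat_lit 1788398917) (nat_lit 1140) (nat_lit 922123301) (nat_lit 1216) (nat_lit 4470111528) (nat_lit 662) (nat_lit 5) (nat_lit 677) (nat_lit 5) (nat_lit 678) (nat_lit 5) (nat_lit 548) (nat_lit 530) (nat_lit 482))) (XT.nd (nat_lit 78) (nat_lit 1140) (nat_lit 0) (XT.lf (nat_lit 76) (nat_lit 3202639951) (nat_lit 0) (nat_lit 691029231) (nat_lit 1216) (nat_lit 3329605696) (nat_lit 663) (nat_lit 5) (nat_lit 662) (nat_lit 5) (nat_lit 678) (nat_lit 5) (nat_lit 549) (nat_lit 530) (nat_lit 481)) (XT.nd (nat_lit 78) (nat_lit 76) (nat_lit 0) (XT.lf (nat_lit 0) (nat_lit 114916841) (nat_lit 1140) (nat_lit 5896419876) (nat_lit 1216) (nat_lit 1256029853) (nat_lit 648) (nat_lit 5) (nat_lit 663) (nat_lit 5) (nat_lit 664) (nat_lit 5) (nat_lit 550) (nat_lit 530) (nat_lit 480)) (XT.lf (nat_lit 0) (nat_lit 834293534) (nat_lit 1216) (nat_lit 2968251456) (nat_lit 76) (nat_lit 3509956151) (nat_lit 647) (nat_lit 5) (nat_lit 663) (nat_lit 5) (nat_lit 648) (nat_lit 5) (nat_lit 551) (nat_lit 530) (nat_lit 479)))))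 (XT.nd (nat_lit 156) (nat_lit 2736) (nat_lit 0) (XT.nd (nat_lit 78) (nat_lit 0) (nat_lit 0) (XT.lf (nat_lit 0) (nat_lit 1274896892) (nat_lit 1216) (nat_lit 1638694190) (nat_lit 1292) (nat_lit 4445504923) (nat_lit 631) (nat_lit 5) (nat_lit 647) (nat_lit 5) (nat_lit 648) (nat_lit 5) (nat_lit 552) (nat_lit 530) (nat_lit 478)) (XT.lf (nat_lit 0) (nat_lit 5014633138) (nat_lit 1292) (nat_lit 1800767666) (nat_lit 76) (nat_lit 591622092) (nat_lit 631) (nat_lit 5) (nat_lit 648) (nat_lit 5) (nat_lit 632) (nat_lit 5) (nat_lit 553) (nat_lit 530) (nat_lit 477))) (XT.nd (nat_lit 78) (nat_lit 1444) (nat_lit 0) (XT.lf (nat_lit 0) (nat_lit 2557826138) (nat_lit 1292) (nat_lit 4584601306) (nat_lit 1368) (nat_lit 313789488) (nat_lit 614) (nat_lit 5) (nat_lit 631) (nat_lit 5) (nat_lit 632) (nat_lit 5) (nat_lit 554) (nat_lit 530) (nat_lit 476)) (XT.nd (nat_lit 78) (nat_lit 1368) (nat_lit 0) (XT.lf (nat_lit 0) (nat_lit 1752469601) (nat_lit 1368) (nat_lit 523508053) (nat_lit 76) (nat_lit 5230790186) (nat_lit 613) (nat_lit 5) (nat_lit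 631) (nat_lit 5) (nat_lit 614) (nat_lit 5) (nat_lit 555) (nat_lit 530) (nat_lit 475)) (XT.lf (nat_lit 0) (nat_lit 3840736413) (nat_lit 1444) (nat_lit 3603575953) (nat_lit 76) (nat_lit 114281282) (nat_lit 595) (nat_lit 5) (nat_lit 614) (nat_lit 5) (nat_lit 596) (nat_lit 5) (nat_lit 556) (nat_lit 530) (nat_lit 474)))))) (XT.nd (nat_lit 390) (nat_lit 5396) (nat_lit 0) (XT.nd (nat_lit 156) (nat_lit 3116) (nat_lit 0) (XT.nd (nat_lit 78) (nat_lit 76) (nat_lit 0) (XT.lf (nat_lit 0) (nat_lit 881742872) (nat_lit 1444) (nat_lit 5072460767) (nat_lit 1520) (nat_lit 1657586622) (nat_lit 576) (nat_lit 5) (nat_lit 595) (nat_lit 5) (nat_lit 596) (nat_lit 5) (nat_lit 557) (nat_lit 530) (nat_lit 473)) (XT.lf (nat_lit 0) (nat_lit 421826664) (nat_lit 1520) (nat_lit 2196865237) (nat_lit 76) (nat_lit 5047628960) (nat_lit 575) (nat_lit 5) (nat_lit 595) (nat_lit 5) (nat_lit 576) (nat_lit 5) (nat_lit 558) (nat_lit 530) (nat_lit 472))) (XT.nd (nat_lit 78) (nat_lit 1596) (nat_lit 0) (XT.lf (nat_lit 0) (nat_lit 2414462018) (nat_lit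 1520) (nat_lit 82080809) (nat_lit 1596) (nat_lit 5225664736) (nat_lit 555) (nat_lit 5) (nat_lit 575) (nat_lit 5) (nat_lit 576) (nat_lit 5) (nat_lit 559) (nat_lit 530) (nat_lit 471)) (XT.nd (nat_lit 78) (nat_lit 1596) (nat_lit 0) (XT.lf (nat_lit 0) (nat_lit 4604677977) (nat_lit 1596) (nat_lit 681302143) (nat_lit 76) (nat_lit 2493396147) (nat_lit 555) (nat_lit 5) (nat_lit 576) (nat_lit 5) (nat_lit 556) (nat_lit 5) (nat_lit 560) (nat_lit 530) (nat_lit 470)) (XT.lf (nat_lit 0) (nat_lit 4057183871) (nat_lit 1596) (nat_lit 2686264807) (nat_lit 1672) (nat_lit 1094472920) (nat_lit 534) (nat_lit 5) (nat_lit 555) (nat_lit 5) (nat_lit 556) (nat_lit 5) (nat_lit 561) (nat_lit 530) (nat_lit 469))))) (XT.nd (nat_lit 156) (nat_lit 3648) (nat_lit 0) (XT.nd (nat_lit 78) (nat_lit 0) (nat_lit 0) (XT.lf (nat_lit 0) (nat_lit 974767587) (nat_lit 1672) (nat_lit 11919662) (nat_lit 1748) (nat_lit 6911363699) (nat_lit 511) (nat_lit 5) (nat_lit 533) (nat_lit 5) (nat_lit 534) (nat_lit 5) (nat_lit 562) (nat_lit 530) (nat_lit 468)) (XT.lf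 (nat_lit 0) (nat_lit 3100435091) (nat_lit 1748) (nat_lit 2141300590) (nat_lit 76) (nat_lit 2717392677) (nat_lit 511) (nat_lit 5) (nat_lit 534) (nat_lit 5) (nat_lit 512) (nat_lit 5) (nat_lit 563) (nat_lit 530) (nat_lit 467))) (XT.nd (nat_lit 78) (nat_lit 1900) (nat_lit 0) (XT.lf (nat_lit 0) (nat_lit 2738822521) (nat_lit 1748) (nat_lit 2498666653) (nat_lit 1824) (nat_lit 2784320020) (nat_lit 488) (nat_lit 5) (nat_lit 511) (nat_lit 5) (nat_lit 512) (nat_lit 5) (nat_lit 564) (nat_lit 530) (nat_lit 466)) (XT.nd (nat_lit 78) (nat_lit 1900) (nat_lit 0) (XT.lf (nat_lit 0) (nat_lit 7397389764) (nat_lit 1824) (nat_lit 375791327) (nat_lit 76) (nat_lit 312962898) (nat_lit 488) (nat_lit 5) (nat_lit 512) (nat_lit 5) (nat_lit 489) (nat_lit 5) (nat_lit 565) (nat_lit 530) (nat_lit 465)) (XT.lf (nat_lit 0) (nat_lit 1440881156) (nat_lit 1900) (nat_lit 3520368848) (nat_lit 76) (nat_lit 3190106543) (nat_lit 463) (nat_lit 5) (nat_lit 488) (nat_lit 5) (nat_lit 464) (nat_lit 5) (nat_lit 566) (nat_lit 530) (nat_lit 464))))))))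
noncomputable def xc89 : XT := (XT.nd (nat_lit 1560) (nat_lit 7676) (nat_lit 0) (XT.nd (nat_lit 780) (nat_lit 5396) (nat_lit 0) (XT.nd (nat_lit 390) (nat_lit 2584) (nat_lit 0) (XT.nd (nat_lit 156) (nat_lit 1900) (nat_lit 0) (XT.nd (nat_lit 78) (nat_lit 0) (nat_lit 0) (XT.lf (nat_lit 0) (nat_lit 1506898336) (nat_lit 1064) (nat_lit 2073977993) (nat_lit 1140) (nat_lit 4637368493) (nat_lit 449) (nat_lit 5) (nat_lit 463) (nat_lit 5) (nat_lit 464) (nat_lit 5) (nat_lit 567) (nat_lit 530) (nat_lit 463)) (XT.lf (nat_lit 0) (nat_lit 5758253085) (nat_lit 1140) (nat_lit 1643330033) (nat_lit 76) (nat_lit 884998379) (nat_lit 449) (nat_lit 5) (nat_lit 464) (nat_lit 5) (nat_lit 450) (nat_lit 5) (nat_lit 568) (nat_lit 530) (nat_lit 462))) (XT.nd (nat_lit 78) (nat_lit 988) (nat_lit 0) (XT.lf (nat_lit 0) (nat_lit 3525261709) (nat_lit 912) (nat_lit 4456368698) (nat_lit 988) (nat_lit 374607659) (nat_lit 437) (nat_lit 5) (nat_lit 449) (nat_lit 5) (nat_lit 450) (nat_lit 5) (nat_lit 569) (nat_lit 530) (nat_lit 461)) (XT.nd (nat_lit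 78) (nat_lit 0) (nat_lit 0) (XT.lf (nat_lit 0) (nat_lit 351622824) (nat_lit 912) (nat_lit 1426109612) (nat_lit 988) (nat_lit 6649731983) (nat_lit 424) (nat_lit 5) (nat_lit 436) (nat_lit 5) (nat_lit 437) (nat_lit 5) (nat_lit 570) (nat_lit 530) (nat_lit 460)) (XT.lf (nat_lit 0) (nat_lit 3978059996) (nat_lit 988) (nat_lit 2843583399) (nat_lit 76) (nat_lit 1678225343) (nat_lit 424) (nat_lit 5) (nat_lit 437) (nat_lit 5) (nat_lit 425) (nat_lit 5) (nat_lit 571) (nat_lit 530) (nat_lit 459))))) (XT.nd (nat_lit 156) (nat_lit 1748) (nat_lit 0) (XT.nd (nat_lit 78) (nat_lit 0) (nat_lit 0) (XT.lf (nat_lit 0) (nat_lit 2483137038) (nat_lit 836) (nat_lit 3731990529) (nat_lit 912) (nat_lit 2358740959) (nat_lit 413) (nat_lit 5) (nat_lit 424) (nat_lit 5) (nat_lit 425) (nat_lit 5) (nat_lit 572) (nat_lit 530) (nat_lit 458)) (XT.lf (nat_lit 0) (nat_lit 7921851242) (nat_lit 836) (nat_lit 561763013) (nat_lit 912) (nat_lit 166002511) (nat_lit 413) (nat_lit 5) (nat_lit 424) (nat_lit 5) (nat_lit 425) (nat_lit 5) (nat_lit 573) (nat_lit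 530) (nat_lit 457))) (XT.nd (nat_lit 78) (nat_lit 836) (nat_lit 0) (XT.lf (nat_lit 0) (nat_lit 2059984584) (nat_lit 912) (nat_lit 3985709060) (nat_lit 76) (nat_lit 2680588387) (nat_lit 401) (nat_lit 5) (nat_lit 413) (nat_lit 5) (nat_lit 402) (nat_lit 5) (nat_lit 574) (nat_lit 530) (nat_lit 456)) (XT.nd (nat_lit 78) (nat_lit 0) (nat_lit 0) (XT.lf (nat_lit 0) (nat_lit 1505377336) (nat_lit 836) (nat_lit 2809730561) (nat_lit 912) (nat_lit 4489615871) (nat_lit 390) (nat_lit 5) (nat_lit 401) (nat_lit 5) (nat_lit 402) (nat_lit 5) (nat_lit 575) (nat_lit 530) (nat_lit 455)) (XT.lf (nat_lit 0) (nat_lit 6614263751) (nat_lit 912) (nat_lit 1760919742) (nat_lit 76) (nat_lit 509574104) (nat_lit 390) (nat_lit 5) (nat_lit 402) (nat_lit 5) (nat_lit 391) (nat_lit 5) (nat_lit 576) (nat_lit 530) (nat_lit 454)))))) (XT.nd (nat_lit 390) (nat_lit 2888) (nat_lit 0) (XT.nd (nat_lit 156) (nat_lit 836) (nat_lit 0) (XT.nd (nat_lit 78) (nat_lit 760) (nat_lit 0) (XT.lf (nat_lit 0) (nat_lit 6467644) (nat_lit 912) (nat_lit 5078523954)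 (nat_lit 76) (nat_lit 3881135892) (nat_lit 378) (nat_lit 5) (nat_lit 390) (nat_lit 5) (nat_lit 379) (nat_lit 5) (nat_lit 577) (nat_lit 530) (nat_lit 453)) (XT.lf (nat_lit 0) (nat_lit 583418936) (nat_lit 760) (nat_lit 1700474226) (nat_lit 836) (nat_lit 6765226675) (nat_lit 368) (nat_lit 5) (nat_lit 378) (nat_lit 5) (nat_lit 379) (nat_lit 5) (nat_lit 578) (nat_lit 530) (nat_lit 452))) (XT.nd (nat_lit 78) (nat_lit 836) (nat_lit 0) (XT.lf (nat_lit 0) (nat_lit 4622523607) (nat_lit 836) (nat_lit 2750808831) (nat_lit 76) (nat_lit 1760128185) (nat_lit 368) (nat_lit 5) (nat_lit 379) (nat_lit 5) (nat_lit 369) (nat_lit 5) (nat_lit 579) (nat_lit 530) (nat_lit 451)) (XT.nd (nat_lit 78) (nat_lit 76) (nat_lit 0) (XT.lf (nat_lit 0) (nat_lit 3074540169) (nat_lit 760) (nat_lit 3935176271) (nat_lit 836) (nat_lit 2209737670) (nat_lit 358) (nat_lit 5) (nat_lit 368) (nat_lit 5) (nat_lit 369) (nat_lit 5) (nat_lit 580) (nat_lit 530) (nat_lit 450)) (XT.lf (nat_lit 0) (nat_lit 125001317) (nat_lit 836) (nat_lit 287205771) (nat_lit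 76) (nat_lit 8895157770) (nat_lit 357) (nat_lit 5) (nat_lit 368) (nat_lit 5) (nat_lit 358) (nat_lit 5) (nat_lit 581) (nat_lit 530) (nat_lit 449))))) (XT.nd (nat_lit 156) (nat_lit 1444) (nat_lit 0) (XT.nd (nat_lit 78) (nat_lit 760) (nat_lit 0) (XT.lf (nat_lit 0) (nat_lit 2506267485) (nat_lit 760) (nat_lit 3701992368) (nat_lit 76) (nat_lit 3187895012) (nat_lit 348) (nat_lit 5) (nat_lit 358) (nat_lit 5) (nat_lit 349) (nat_lit 5) (nat_lit 582) (nat_lit 530) (nat_lit 448)) (XT.lf (nat_lit 0) (nat_lit 2307127071) (nat_lit 760) (nat_lit 2619320364) (nat_lit 836) (nat_lit 4560449022) (nat_lit 338) (nat_lit 5) (nat_lit 348) (nat_lit 5) (nat_lit 349) (nat_lit 5) (nat_lit 583) (nat_lit 530) (nat_lit 447))) (XT.nd (nat_lit 78) (nat_lit 1444) (nat_lit 0) (XT.lf (nat_lit 0) (nat_lit 7398753834) (nat_lit 836) (nat_lit 1132346426) (nat_lit 76) (nat_lit 1048279689) (nat_lit 338) (nat_lit 5) (nat_lit 349) (nat_lit 5) (nat_lit 339) (nat_lit 5) (nat_lit 584) (nat_lit 530) (nat_lit 446)) (XT.nd (nat_lit 78) (nat_lit 684) (nat_lit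 0) (XT.lf (nat_lit 0) (nat_lit 266360331) (nat_lit 760) (nat_lit 4622496984) (nat_lit 76) (nat_lit 4784369139) (nat_lit 328) (nat_lit 5) (nat_lit 338) (nat_lit 5) (nat_lit 329) (nat_lit 5) (nat_lit 585) (nat_lit 530) (nat_lit 445)) (XT.lf (nat_lit 0) (nat_lit 1577639887) (nat_lit 684) (nat_lit 1146020485) (nat_lit 760) (nat_lit 7045191226) (nat_lit 319) (nat_lit 5) (nat_lit 328) (nat_lit 5) (nat_lit 329) (nat_lit 5) (nat_lit 586) (nat_lit 530) (nat_lit 444))))))) (XT.nd (nat_lit 780) (nat_lit 3800) (nat_lit 0) (XT.nd (nat_lit 390) (nat_lit 1900) (nat_lit 0) (XT.nd (nat_lit 156) (nat_lit 1368) (nat_lit 0) (XT.nd (nat_lit 78) (nat_lit 608) (nat_lit 0) (XT.lf (nat_lit 0) (nat_lit 5251622010) (nat_lit 760) (nat_lit 1951752519) (nat_lit 76) (nat_lit 2662585813) (nat_lit 319) (nat_lit 5) (nat_lit 329) (nat_lit 5) (nat_lit 320) (nat_lit 5) (nat_lit 587) (nat_lit 530) (nat_lit 443)) (XT.lf (nat_lit 0) (nat_lit 4430790836) (nat_lit 608) (nat_lit 3409184223) (nat_lit 684) (nat_lit 2124840939) (nat_lit 311) (nat_lit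 5) (nat_lit 319) (nat_lit 5) (nat_lit 320) (nat_lit 5) (nat_lit 588) (nat_lit 530) (nat_lit 442))) (XT.nd (nat_lit 78) (nat_lit 608) (nat_lit 0) (XT.lf (nat_lit 0) (nat_lit 404607055) (nat_lit 760) (nat_lit 9190410916) (nat_lit 76) (nat_lit 470666383) (nat_lit 301) (nat_lit 5) (nat_lit 311) (nat_lit 5) (nat_lit 302) (nat_lit 5) (nat_lit 589) (nat_lit 530) (nat_lit 441)) (XT.nd (nat_lit 78) (nat_lit 608) (nat_lit 0) (XT.lf (nat_lit 0) (nat_lit 2990060048) (nat_lit 760) (nat_lit 2749585883) (nat_lit 76) (nat_lit 4427967191) (nat_lit 301) (nat_lit 5) (nat_lit 311) (nat_lit 5) (nat_lit 302) (nat_lit 5) (nat_lit 590) (nat_lit 530) (nat_lit 440)) (XT.lf (nat_lit 0) (nat_lit 3838400291) (nat_lit 608) (nat_lit 1788136903) (nat_lit 684) (nat_lit 4645058246) (nat_lit 293) (nat_lit 5) (nat_lit 301) (nat_lit 5) (nat_lit 302) (nat_lit 5) (nat_lit 591) (nat_lit 530) (nat_lit 439))))) (XT.nd (nat_lit 156) (nat_lit 1216) (nat_lit 0) (XT.nd (nat_lit 78) (nat_lit 76) (nat_lit 0) (XT.lf (nat_lit 0) (nat_lit 173471337) (nat_lit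 608) (nat_lit 8151178680) (nat_lit 684) (nat_lit 2052830514) (nat_lit 285) (nat_lit 5) (nat_lit 293) (nat_lit 5) (nat_lit 294) (nat_lit 5) (nat_lit 592) (nat_lit 530) (nat_lit 438)) (XT.lf (nat_lit 0) (nat_lit 613554729) (nat_lit 684) (nat_lit 3533487620) (nat_lit 76) (nat_lit 6337764060) (nat_lit 284) (nat_lit 5) (nat_lit 293) (nat_lit 5) (nat_lit 285) (nat_lit 5) (nat_lit 593) (nat_lit 530) (nat_lit 437))) (XT.nd (nat_lit 78) (nat_lit 608) (nat_lit 0) (XT.lf (nat_lit 0) (nat_lit 3267968387) (nat_lit 608) (nat_lit 34319339) (nat_lit 684) (nat_lit 7291790725) (nat_lit 276) (nat_lit 5) (nat_lit 284) (nat_lit 5) (nat_lit 285) (nat_lit 5) (nat_lit 594) (nat_lit 530) (nat_lit 436)) (XT.nd (nat_lit 78) (nat_lit 608) (nat_lit 0) (XT.lf (nat_lit 0) (nat_lit 6071176010) (nat_lit 684) (nat_lit 510858204) (nat_lit 76) (nat_lit 4122975261) (nat_lit 276) (nat_lit 5) (nat_lit 285) (nat_lit 5) (nat_lit 277) (nat_lit 5) (nat_lit 595) (nat_lit 530) (nat_lit 435)) (XT.lf (nat_lit 0) (nat_lit 6494295669) (nat_lit 608) (nat_lit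 2419517654) (nat_lit 684) (nat_lit 1903979506) (nat_lit 268) (nat_lit 5) (nat_lit 276) (nat_lit 5) (nat_lit 277) (nat_lit 5) (nat_lit 596) (nat_lit 530) (nat_lit 434)))))) (XT.nd (nat_lit 390) (nat_lit 2052) (nat_lit 0) (XT.nd (nat_lit 156) (nat_lit 1140) (nat_lit 0) (XT.nd (nat_lit 78) (nat_lit 0) (nat_lit 0) (XT.lf (nat_lit 0) (nat_lit 878058087) (nat_lit 608) (nat_lit 8232679070) (nat_lit 76) (nat_lit 1821798767) (nat_lit 260) (nat_lit 5) (nat_lit 268) (nat_lit 5) (nat_lit 261) (nat_lit 5) (nat_lit 597) (nat_lit 530) (nat_lit 433)) (XT.lf (nat_lit 0) (nat_lit 3711799969) (nat_lit 608) (nat_lit 1187213872) (nat_lit 76) (nat_lit 6149878246) (nat_lit 260) (nat_lit 5) (nat_lit 268) (nat_lit 5) (nat_lit 261) (nat_lit 5) (nat_lit 598) (nat_lit 530) (nat_lit 432))) (XT.nd (nat_lit 78) (nat_lit 608) (nat_lit 0) (XT.lf (nat_lit 0) (nat_lit 6047414965) (nat_lit 532) (nat_lit 570835762) (nat_lit 608) (nat_lit 4549005012) (nat_lit 253) (nat_lit 5) (nat_lit 260) (nat_lit 5) (nat_lit 261) (nat_lit 5) (nat_lit 599)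 (nat_lit 530) (nat_lit 431)) (XT.nd (nat_lit 78) (nat_lit 76) (nat_lit 0) (XT.lf (nat_lit 0) (nat_lit 2126619471) (nat_lit 532) (nat_lit 7479969440) (nat_lit 608) (nat_lit 1680923611) (nat_lit 246) (nat_lit 5) (nat_lit 253) (nat_lit 5) (nat_lit 254) (nat_lit 5) (nat_lit 600) (nat_lit 530) (nat_lit 430)) (XT.lf (nat_lit 0) (nat_lit 1243634265) (nat_lit 608) (nat_lit 1865529365) (nat_lit 76) (nat_lit 8300541453) (nat_lit 245) (nat_lit 5) (nat_lit 253) (nat_lit 5) (nat_lit 246) (nat_lit 5) (nat_lit 601) (nat_lit 530) (nat_lit 429))))) (XT.nd (nat_lit 234) (nat_lit 1064) (nat_lit 0) (XT.nd (nat_lit 78) (nat_lit 456) (nat_lit 0) (XT.lf (nat_lit 0) (nat_lit 4227145648) (nat_lit 608) (nat_lit 5935458266) (nat_lit 76) (nat_lit 1371056933) (nat_lit 238) (nat_lit 5) (nat_lit 246) (nat_lit 5) (nat_lit 239) (nat_lit 5) (nat_lit 602) (nat_lit 530) (nat_lit 428)) (XT.nd (nat_lit 78) (nat_lit 0) (nat_lit 0) (XT.lf (nat_lit 0) (nat_lit 1545307076) (nat_lit 456) (nat_lit 5745955666) (nat_lit 532) (nat_lit 4368415222) (nat_lit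 232) (nat_lit 5) (nat_lit 238) (nat_lit 5) (nat_lit 239) (nat_lit 5) (nat_lit 603) (nat_lit 530) (nat_lit 427)) (XT.lf (nat_lit 0) (nat_lit 9225409896) (nat_lit 456) (nat_lit 1209030085) (nat_lit 532) (nat_lit 1353420816) (nat_lit 232) (nat_lit 5) (nat_lit 238) (nat_lit 5) (nat_lit 239) (nat_lit 5) (nat_lit 604) (nat_lit 530) (nat_lit 426)))) (XT.nd (nat_lit 78) (nat_lit 456) (nat_lit 0) (XT.lf (nat_lit 0) (nat_lit 1733508321) (nat_lit 608) (nat_lit 6773917275) (nat_lit 76) (nat_lit 3410274642) (nat_lit 224) (nat_lit 5) (nat_lit 232) (nat_lit 5) (nat_lit 225) (nat_lit 5) (nat_lit 605) (nat_lit 530) (nat_lit 425)) (XT.nd (nat_lit 78) (nat_lit 0) (nat_lit 0) (XT.lf (nat_lit 0) (nat_lit 953913638) (nat_lit 456) (nat_lit 3920076757) (nat_lit 532) (nat_lit 7175769294) (nat_lit 218) (nat_lit 5) (nat_lit 224) (nat_lit 5) (nat_lit 225) (nat_lit 5) (nat_lit 606) (nat_lit 530) (nat_lit 424)) (XT.lf (nat_lit 0) (nat_lit 8106545278) (nat_lit 532) (nat_lit 3291422091) (nat_lit 76) (nat_lit 785908555) (nat_lit 218) (nat_lit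 5) (nat_lit 225) (nat_lit 5) (nat_lit 219) (nat_lit 5) (nat_lit 607) (nat_lit 530) (nat_lit 423))))))))
noncomputable def xc90 : XT := (XT.nd (nat_lit 75972) (nat_lit 0) (nat_lit 27208) (XT.nd (nat_lit 75192) (nat_lit 0) (nat_lit 38988) (XT.nd (nat_lit 390) (nat_lit 1748) (nat_lit 0) (XT.nd (nat_lit 156) (nat_lit 456) (nat_lit 0) (XT.nd (nat_lit 78) (nat_lit 532) (nat_lit 0) (XT.lf (nat_lit 0) (nat_lit 4674271525) (nat_lit 456) (nat_lit 6764786551) (nat_lit 532) (nat_lit 880911113) (nat_lit 212) (nat_lit 5) (nat_lit 218) (nat_lit 5) (nat_lit 219) (nat_lit 5) (nat_lit 608) (nat_lit 530) (nat_lit 422)) (XT.lf (nat_lit 0) (nat_lit 344229606) (nat_lit 456) (nat_lit 2007545253) (nat_lit 532) (nat_lit 10106630397) (nat_lit 205) (nat_lit 5) (nat_lit 211) (nat_lit 5) (nat_lit 212) (nat_lit 5) (nat_lit 609) (nat_lit 530) (nat_lit 421))) (XT.nd (nat_lit 78) (nat_lit 456) (nat_lit 0) (XT.lf (nat_lit 0) (nat_lit 5686678182) (nat_lit 532) (nat_lit 4056031057) (nat_lit 76) (nat_lit 2855797962) (nat_lit 205) (nat_lit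 5) (nat_lit 212) (nat_lit 5) (nat_lit 206) (nat_lit 5) (nat_lit 610) (nat_lit 530) (nat_lit 420)) (XT.nd (nat_lit 78) (nat_lit 0) (nat_lit 0) (XT.lf (nat_lit 0) (nat_lit 4174934691) (nat_lit 456) (nat_lit 4933384536) (nat_lit 532) (nat_lit 3632691942) (nat_lit 199) (nat_lit 5) (nat_lit 205) (nat_lit 5) (nat_lit 206) (nat_lit 5) (nat_lit 611) (nat_lit 530) (nat_lit 419)) (XT.lf (nat_lit 0) (nat_lit 12595894632) (nat_lit 456) (nat_lit 9561805) (nat_lit 532) (nat_lit 280768274) (nat_lit 199) (nat_lit 5) (nat_lit 205) (nat_lit 5) (nat_lit 206) (nat_lit 5) (nat_lit 612) (nat_lit 530) (nat_lit 418))))) (XT.nd (nat_lit 156) (nat_lit 836) (nat_lit 0) (XT.nd (nat_lit 78) (nat_lit 456) (nat_lit 0) (XT.lf (nat_lit 0) (nat_lit 3163415418) (nat_lit 456) (nat_lit 4857313209) (nat_lit 76) (nat_lit 5011879536) (nat_lit 193) (nat_lit 5) (nat_lit 199) (nat_lit 5) (nat_lit 194) (nat_lit 5) (nat_lit 613) (nat_lit 530) (nat_lit 417)) (XT.lf (nat_lit 0) (nat_lit 3648775394) (nat_lit 456) (nat_lit 3029915039) (nat_lit 532) (nat_lit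 6503073109) (nat_lit 187) (nat_lit 5) (nat_lit 193) (nat_lit 5) (nat_lit 194) (nat_lit 5) (nat_lit 614) (nat_lit 530) (nat_lit 416))) (XT.nd (nat_lit 78) (nat_lit 836) (nat_lit 0) (XT.lf (nat_lit 0) (nat_lit 10290844902) (nat_lit 532) (nat_lit 985583871) (nat_lit 76) (nat_lit 2056942481) (nat_lit 187) (nat_lit 5) (nat_lit 194) (nat_lit 5) (nat_lit 188) (nat_lit 5) (nat_lit 615) (nat_lit 530) (nat_lit 415)) (XT.nd (nat_lit 78) (nat_lit 380) (nat_lit 0) (XT.lf (nat_lit 0) (nat_lit 532565326) (nat_lit 456) (nat_lit 5704659019) (nat_lit 76) (nat_lit 7249689701) (nat_lit 181) (nat_lit 5) (nat_lit 187) (nat_lit 5) (nat_lit 182) (nat_lit 5) (nat_lit 616) (nat_lit 530) (nat_lit 414)) (XT.lf (nat_lit 0) (nat_lit 3086652903) (nat_lit 380) (nat_lit 1059334209) (nat_lit 456) (nat_lit 9496987670) (nat_lit 176) (nat_lit 5) (nat_lit 181) (nat_lit 5) (nat_lit 182) (nat_lit 5) (nat_lit 617) (nat_lit 530) (nat_lit 413)))))) (XT.nd (nat_lit 390) (nat_lit 1748) (nat_lit 0) (XT.nd (nat_lit 156) (nat_lit 836) (nat_lit 0) (XT.nd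 (nat_lit 78) (nat_lit 0) (nat_lit 0) (XT.lf (nat_lit 0) (nat_lit 604027981) (nat_lit 836) (nat_lit 1366019332) (nat_lit 836) (nat_lit 1366019332) (nat_lit 723) (nat_lit 3) (nat_lit 734) (nat_lit 3) (nat_lit 734) (nat_lit 5) (nat_lit 531) (nat_lit 531) (nat_lit 498)) (XT.lf (nat_lit 76) (nat_lit 590667908) (nat_lit 0) (nat_lit 2877258561) (nat_lit 836) (nat_lit 3225765873) (nat_lit 724) (nat_lit 5) (nat_lit 723) (nat_lit 3) (nat_lit 734) (nat_lit 5) (nat_lit 532) (nat_lit 531) (nat_lit 497))) (XT.nd (nat_lit 78) (nat_lit 836) (nat_lit 0) (XT.lf (nat_lit 76) (nat_lit 3986441973) (nat_lit 0) (nat_lit 1745828580) (nat_lit 836) (nat_lit 984231915) (nat_lit 724) (nat_lit 5) (nat_lit 723) (nat_lit 3) (nat_lit 734) (nat_lit 5) (nat_lit 533) (nat_lit 531) (nat_lit 496)) (XT.nd (nat_lit 78) (nat_lit 0) (nat_lit 76) (XT.lf (nat_lit 76) (nat_lit 680226208) (nat_lit 0) (nat_lit 550957339) (nat_lit 912) (nat_lit 5509498797) (nat_lit 713) (nat_lit 5) (nat_lit 712) (nat_lit 5) (nat_lit 724) (nat_lit 5) (nat_lit 534) (nat_lit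 531) (nat_lit 495)) (XT.lf (nat_lit 0) (nat_lit 3443350596) (nat_lit 836) (nat_lit 2611958393) (nat_lit 912) (nat_lit 710599376) (nat_lit 713) (nat_lit 5) (nat_lit 724) (nat_lit 5) (nat_lit 725) (nat_lit 5) (nat_lit 535) (nat_lit 531) (nat_lit 494))))) (XT.nd (nat_lit 156) (nat_lit 912) (nat_lit 0) (XT.nd (nat_lit 78) (nat_lit 912) (nat_lit 0) (XT.lf (nat_lit 76) (nat_lit 882325557) (nat_lit 0) (nat_lit 4770766203) (nat_lit 912) (nat_lit 1139485534) (nat_lit 714) (nat_lit 5) (nat_lit 713) (nat_lit 5) (nat_lit 725) (nat_lit 5) (nat_lit 536) (nat_lit 531) (nat_lit 493)) (XT.lf (nat_lit 0) (nat_lit 1035114046) (nat_lit 912) (nat_lit 2376348143) (nat_lit 988) (nat_lit 3408938531) (nat_lit 701) (nat_lit 5) (nat_lit 713) (nat_lit 5) (nat_lit 714) (nat_lit 5) (nat_lit 537) (nat_lit 531) (nat_lit 492))) (XT.nd (nat_lit 78) (nat_lit 912) (nat_lit 0) (XT.lf (nat_lit 76) (nat_lit 1205472890) (nat_lit 0) (nat_lit 1985886266) (nat_lit 988) (nat_lit 3658207310) (nat_lit 702) (nat_lit 5) (nat_lit 701) (nat_lit 5) (nat_lit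 714) (nat_lit 5) (nat_lit 538) (nat_lit 531) (nat_lit 491)) (XT.nd (nat_lit 78) (nat_lit 912) (nat_lit 0) (XT.lf (nat_lit 76) (nat_lit 4860322114) (nat_lit 0) (nat_lit 492791003) (nat_lit 988) (nat_lit 1526959352) (nat_lit 702) (nat_lit 5) (nat_lit 701) (nat_lit 5) (nat_lit 714) (nat_lit 5) (nat_lit 539) (nat_lit 531) (nat_lit 490)) (XT.lf (nat_lit 0) (nat_lit 603297271) (nat_lit 988) (nat_lit 5255103262) (nat_lit 1064) (nat_lit 1053411138) (nat_lit 689) (nat_lit 5) (nat_lit 702) (nat_lit 5) (nat_lit 703) (nat_lit 5) (nat_lit 540) (nat_lit 531) (nat_lit 489))))))) (XT.nd (nat_lit 780) (nat_lit 8512) (nat_lit 0) (XT.nd (nat_lit 390) (nat_lit 2280) (nat_lit 0) (XT.nd (nat_lit 156) (nat_lit 988) (nat_lit 0) (XT.nd (nat_lit 78) (nat_lit 0) (nat_lit 0) (XT.lf (nat_lit 0) (nat_lit 2720749885) (nat_lit 988) (nat_lit 1555208310) (nat_lit 1064) (nat_lit 2668729217) (nat_lit 689) (nat_lit 5) (nat_lit 702) (nat_lit 5) (nat_lit 703) (nat_lit 5) (nat_lit 541) (nat_lit 531) (nat_lit 488)) (XT.lf (nat_lit 76) (nat_lit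 2216476843) (nat_lit 0) (nat_lit 2627593846) (nat_lit 1064) (nat_lit 2134883865) (nat_lit 690) (nat_lit 5) (nat_lit 689) (nat_lit 5) (nat_lit 703) (nat_lit 5) (nat_lit 542) (nat_lit 531) (nat_lit 487))) (XT.nd (nat_lit 78) (nat_lit 988) (nat_lit 0) (XT.lf (nat_lit 76) (nat_lit 6053605540) (nat_lit 0) (nat_lit 916612686) (nat_lit 1064) (nat_lit 44485795) (nat_lit 690) (nat_lit 5) (nat_lit 689) (nat_lit 5) (nat_lit 703) (nat_lit 5) (nat_lit 543) (nat_lit 531) (nat_lit 486)) (XT.nd (nat_lit 78) (nat_lit 0) (nat_lit 0) (XT.lf (nat_lit 0) (nat_lit 2035521912) (nat_lit 1064) (nat_lit 4147432549) (nat_lit 1140) (nat_lit 868443293) (nat_lit 676) (nat_lit 5) (nat_lit 690) (nat_lit 5) (nat_lit 691) (nat_lit 5) (nat_lit 544) (nat_lit 531) (nat_lit 485)) (XT.lf (nat_lit 0) (nat_lit 4120557389) (nat_lit 1064) (nat_lit 267756318) (nat_lit 1140) (nat_lit 2701229252) (nat_lit 676) (nat_lit 5) (nat_lit 690) (nat_lit 5) (nat_lit 691) (nat_lit 5) (nat_lit 545) (nat_lit 531) (nat_lit 484))))) (XT.nd (nat_lit 156) (nat_lit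 1140) (nat_lit 0) (XT.nd (nat_lit 78) (nat_lit 1140) (nat_lit 0) (XT.lf (nat_lit 76) (nat_lit 3706745269) (nat_lit 0) (nat_lit 2517026969) (nat_lit 1140) (nat_lit 905153126) (nat_lit 677) (nat_lit 5) (nat_lit 676) (nat_lit 5) (nat_lit 691) (nat_lit 5) (nat_lit 546) (nat_lit 531) (nat_lit 483)) (XT.lf (nat_lit 76) (nat_lit 563082096) (nat_lit 0) (nat_lit 579429457) (nat_lit 1216) (nat_lit 6027265899) (nat_lit 662) (nat_lit 5) (nat_lit 661) (nat_lit 5) (nat_lit 677) (nat_lit 5) (nat_lit 547) (nat_lit 531) (nat_lit 482))) (XT.nd (nat_lit 78) (nat_lit 1216) (nat_lit 0) (XT.lf (nat_lit 0) (nat_lit 3204852154) (nat_lit 1140) (nat_lit 2584392207) (nat_lit 1216) (nat_lit 1422369351) (nat_lit 662) (nat_lit 5) (nat_lit 677) (nat_lit 5) (nat_lit 678) (nat_lit 5) (nat_lit 548) (nat_lit 531) (nat_lit 481)) (XT.nd (nat_lit 78) (nat_lit 1216) (nat_lit 0) (XT.lf (nat_lit 76) (nat_lit 1502234750) (nat_lit 0) (nat_lit 3774349382) (nat_lit 1216) (nat_lit 1978343249) (nat_lit 663) (nat_lit 5) (nat_lit 662) (nat_lit 5) (nat_lit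 678) (nat_lit 5) (nat_lit 549) (nat_lit 531) (nat_lit 480)) (XT.lf (nat_lit 0) (nat_lit 61850781) (nat_lit 1216) (nat_lit 1626216364) (nat_lit 1292) (nat_lit 5611583918) (nat_lit 646) (nat_lit 5) (nat_lit 662) (nat_lit 5) (nat_lit 663) (nat_lit 5) (nat_lit 550) (nat_lit 531) (nat_lit 479)))))) (XT.nd (nat_lit 390) (nat_lit 6004) (nat_lit 0) (XT.nd (nat_lit 156) (nat_lit 2584) (nat_lit 0) (XT.nd (nat_lit 78) (nat_lit 0) (nat_lit 0) (XT.lf (nat_lit 0) (nat_lit 2092037126) (nat_lit 1216) (nat_lit 4777022880) (nat_lit 76) (nat_lit 476437475) (nat_lit 647) (nat_lit 5) (nat_lit 663) (nat_lit 5) (nat_lit 648) (nat_lit 5) (nat_lit 551) (nat_lit 531) (nat_lit 478)) (XT.lf (nat_lit 0) (nat_lit 4141552992) (nat_lit 1216) (nat_lit 566677500) (nat_lit 76) (nat_lit 2684459121) (nat_lit 647) (nat_lit 5) (nat_lit 663) (nat_lit 5) (nat_lit 648) (nat_lit 5) (nat_lit 552) (nat_lit 531) (nat_lit 477))) (XT.nd (nat_lit 78) (nat_lit 1368) (nat_lit 0) (XT.lf (nat_lit 0) (nat_lit 3745143427) (nat_lit 1216) (nat_lit 2468644941)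 (nat_lit 1292) (nat_lit 1227405870) (nat_lit 631) (nat_lit 5) (nat_lit 647) (nat_lit 5) (nat_lit 648) (nat_lit 5) (nat_lit 553) (nat_lit 531) (nat_lit 476)) (XT.nd (nat_lit 78) (nat_lit 0) (nat_lit 0) (XT.lf (nat_lit 0) (nat_lit 630900983) (nat_lit 1292) (nat_lit 160609703) (nat_lit 1368) (nat_lit 6699739002) (nat_lit 613) (nat_lit 5) (nat_lit 630) (nat_lit 5) (nat_lit 631) (nat_lit 5) (nat_lit 554) (nat_lit 531) (nat_lit 475)) (XT.lf (nat_lit 0) (nat_lit 2832039718) (nat_lit 1368) (nat_lit 2502742939) (nat_lit 76) (nat_lit 2207410994) (nat_lit 613) (nat_lit 5) (nat_lit 631) (nat_lit 5) (nat_lit 614) (nat_lit 5) (nat_lit 555) (nat_lit 531) (nat_lit 474))))) (XT.nd (nat_lit 234) (nat_lit 3116) (nat_lit 0) (XT.nd (nat_lit 78) (nat_lit 1520) (nat_lit 0) (XT.lf (nat_lit 0) (nat_lit 1934071396) (nat_lit 1368) (nat_lit 2952188481) (nat_lit 1444) (nat_lit 2708441996) (nat_lit 595) (nat_lit 5) (nat_lit 613) (nat_lit 5) (nat_lit 614) (nat_lit 5) (nat_lit 556) (nat_lit 531) (nat_lit 473)) (XT.nd (nat_lit 78) (nat_lit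 1520) (nat_lit 0) (XT.lf (nat_lit 0) (nat_lit 6461513902) (nat_lit 1368) (nat_lit 496695742) (nat_lit 1444) (nat_lit 690520642) (nat_lit 595) (nat_lit 5) (nat_lit 613) (nat_lit 5) (nat_lit 614) (nat_lit 5) (nat_lit 557) (nat_lit 531) (nat_lit 472)) (XT.lf (nat_lit 0) (nat_lit 1345425458) (nat_lit 1520) (nat_lit 4338139675) (nat_lit 76) (nat_lit 2020187250) (nat_lit 575) (nat_lit 5) (nat_lit 595) (nat_lit 5) (nat_lit 576) (nat_lit 5) (nat_lit 558) (nat_lit 531) (nat_lit 471)))) (XT.nd (nat_lit 78) (nat_lit 1596) (nat_lit 0) (XT.lf (nat_lit 0) (nat_lit 228400090) (nat_lit 1520) (nat_lit 3158237674) (nat_lit 1596) (nat_lit 4373672766) (nat_lit 555) (nat_lit 5) (nat_lit 575) (nat_lit 5) (nat_lit 576) (nat_lit 5) (nat_lit 559) (nat_lit 531) (nat_lit 470)) (XT.nd (nat_lit 78) (nat_lit 1596) (nat_lit 0) (XT.lf (nat_lit 0) (nat_lit 4912733336) (nat_lit 1520) (nat_lit 546599847) (nat_lit 1596) (nat_lit 2358856188) (nat_lit 555) (nat_lit 5) (nat_lit 575) (nat_lit 5) (nat_lit 576) (nat_lit 5) (nat_lit 560) (nat_lit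 531) (nat_lit 469)) (XT.lf (nat_lit 0) (nat_lit 1790763615) (nat_lit 1596) (nat_lit 5770432974) (nat_lit 1672) (nat_lit 316277573) (nat_lit 534) (nat_lit 5) (nat_lit 555) (nat_lit 5) (nat_lit 556) (nat_lit 5) (nat_lit 561) (nat_lit 531) (nat_lit 468))))))))
noncomputable def xc91 : XT := (XT.nd (nat_lit 1560) (nat_lit 9120) (nat_lit 0) (XT.nd (nat_lit 780) (nat_lit 5016) (nat_lit 0) (XT.nd (nat_lit 390) (nat_lit 2964) (nat_lit 0) (XT.nd (nat_lit 156) (nat_lit 3648) (nat_lit 0) (XT.nd (nat_lit 78) (nat_lit 1672) (nat_lit 0) (XT.lf (nat_lit 0) (nat_lit 1729843051) (nat_lit 1672) (nat_lit 1365274106) (nat_lit 76) (nat_lit 4842883234) (nat_lit 533) (nat_lit 5) (nat_lit 555) (nat_lit 5) (nat_lit 534) (nat_lit 5) (nat_lit 562) (nat_lit 531) (nat_lit 467)) (XT.lf (nat_lit 0) (nat_lit 3461752162) (nat_lit 1672) (nat_lit 336732682) (nat_lit 1748) (nat_lit 4201496317) (nat_lit 511) (nat_lit 5) (nat_lit 533) (nat_lit 5) (nat_lit 534) (nat_lit 5) (nat_lit 563) (nat_lit 531) (nat_lit 466))) (XT.nd (nat_lit 78) (nat_lit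 1900) (nat_lit 0) (XT.lf (nat_lit 0) (nat_lit 295858918) (nat_lit 1748) (nat_lit 5603757253) (nat_lit 1824) (nat_lit 2163765494) (nat_lit 488) (nat_lit 5) (nat_lit 511) (nat_lit 5) (nat_lit 512) (nat_lit 5) (nat_lit 564) (nat_lit 531) (nat_lit 465)) (XT.nd (nat_lit 78) (nat_lit 1900) (nat_lit 0) (XT.lf (nat_lit 0) (nat_lit 5253414083) (nat_lit 1748) (nat_lit 2786414710) (nat_lit 1824) (nat_lit 88282618) (nat_lit 488) (nat_lit 5) (nat_lit 511) (nat_lit 5) (nat_lit 512) (nat_lit 5) (nat_lit 565) (nat_lit 531) (nat_lit 464)) (XT.lf (nat_lit 0) (nat_lit 1981341449) (nat_lit 1900) (nat_lit 6097043235) (nat_lit 76) (nat_lit 115905176) (nat_lit 463) (nat_lit 5) (nat_lit 488) (nat_lit 5) (nat_lit 464) (nat_lit 5) (nat_lit 566) (nat_lit 531) (nat_lit 463))))) (XT.nd (nat_lit 156) (nat_lit 1900) (nat_lit 0) (XT.nd (nat_lit 78) (nat_lit 1064) (nat_lit 0) (XT.lf (nat_lit 0) (nat_lit 4094400171) (nat_lit 1900) (nat_lit 1105778981) (nat_lit 76) (nat_lit 3061538834) (nat_lit 463) (nat_lit 5) (nat_lit 488) (nat_lit 5)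 (nat_lit 464) (nat_lit 5) (nat_lit 567) (nat_lit 531) (nat_lit 462)) (XT.lf (nat_lit 0) (nat_lit 4005684880) (nat_lit 1064) (nat_lit 2236073738) (nat_lit 1140) (nat_lit 2088897508) (nat_lit 449) (nat_lit 5) (nat_lit 463) (nat_lit 5) (nat_lit 464) (nat_lit 5) (nat_lit 568) (nat_lit 531) (nat_lit 461))) (XT.nd (nat_lit 78) (nat_lit 912) (nat_lit 0) (XT.lf (nat_lit 0) (nat_lit 14893628) (nat_lit 988) (nat_lit 7595062047) (nat_lit 76) (nat_lit 791331249) (nat_lit 436) (nat_lit 5) (nat_lit 449) (nat_lit 5) (nat_lit 437) (nat_lit 5) (nat_lit 569) (nat_lit 531) (nat_lit 460)) (XT.nd (nat_lit 78) (nat_lit 912) (nat_lit 0) (XT.lf (nat_lit 0) (nat_lit 2143565003) (nat_lit 988) (nat_lit 2435774734) (nat_lit 76) (nat_lit 3893501047) (nat_lit 436) (nat_lit 5) (nat_lit 449) (nat_lit 5) (nat_lit 437) (nat_lit 5) (nat_lit 570) (nat_lit 531) (nat_lit 459)) (XT.lf (nat_lit 0) (nat_lit 2831618347) (nat_lit 912) (nat_lit 1468953784) (nat_lit 988) (nat_lit 4245540396) (nat_lit 424) (nat_lit 5) (nat_lit 436) (nat_lit 5) (nat_lit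 437) (nat_lit 5) (nat_lit 571) (nat_lit 531) (nat_lit 458)))))) (XT.nd (nat_lit 390) (nat_lit 2432) (nat_lit 0) (XT.nd (nat_lit 156) (nat_lit 1672) (nat_lit 0) (XT.nd (nat_lit 78) (nat_lit 912) (nat_lit 0) (XT.lf (nat_lit 0) (nat_lit 6496044782) (nat_lit 988) (nat_lit 426967581) (nat_lit 76) (nat_lit 1697932846) (nat_lit 424) (nat_lit 5) (nat_lit 437) (nat_lit 5) (nat_lit 425) (nat_lit 5) (nat_lit 572) (nat_lit 531) (nat_lit 457)) (XT.lf (nat_lit 0) (nat_lit 48288466) (nat_lit 912) (nat_lit 3707368516) (nat_lit 76) (nat_lit 4941401813) (nat_lit 412) (nat_lit 5) (nat_lit 424) (nat_lit 5) (nat_lit 413) (nat_lit 5) (nat_lit 573) (nat_lit 531) (nat_lit 456))) (XT.nd (nat_lit 78) (nat_lit 836) (nat_lit 0) (XT.lf (nat_lit 0) (nat_lit 1722106212) (nat_lit 836) (nat_lit 497120258) (nat_lit 912) (nat_lit 6555534412) (nat_lit 401) (nat_lit 5) (nat_lit 412) (nat_lit 5) (nat_lit 413) (nat_lit 5) (nat_lit 574) (nat_lit 531) (nat_lit 455)) (XT.nd (nat_lit 78) (nat_lit 836) (nat_lit 0) (XT.lf (nat_lit 0) (nat_lit 4446024491)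 (nat_lit 912) (nat_lit 1594233390) (nat_lit 76) (nat_lit 2813512163) (nat_lit 401) (nat_lit 5) (nat_lit 413) (nat_lit 5) (nat_lit 402) (nat_lit 5) (nat_lit 575) (nat_lit 531) (nat_lit 454)) (XT.lf (nat_lit 0) (nat_lit 3990416906) (nat_lit 836) (nat_lit 2725795152) (nat_lit 912) (nat_lit 2218172083) (nat_lit 390) (nat_lit 5) (nat_lit 401) (nat_lit 5) (nat_lit 402) (nat_lit 5) (nat_lit 576) (nat_lit 531) (nat_lit 453))))) (XT.nd (nat_lit 156) (nat_lit 1520) (nat_lit 0) (XT.nd (nat_lit 78) (nat_lit 0) (nat_lit 0) (XT.lf (nat_lit 0) (nat_lit 4283859) (nat_lit 912) (nat_lit 8352855172) (nat_lit 76) (nat_lit 659685463) (nat_lit 378) (nat_lit 5) (nat_lit 390) (nat_lit 5) (nat_lit 379) (nat_lit 5) (nat_lit 577) (nat_lit 531) (nat_lit 452)) (XT.lf (nat_lit 0) (nat_lit 2263174491) (nat_lit 912) (nat_lit 2714675668) (nat_lit 76) (nat_lit 4122338232) (nat_lit 378) (nat_lit 5) (nat_lit 390) (nat_lit 5) (nat_lit 379) (nat_lit 5) (nat_lit 578) (nat_lit 531) (nat_lit 451))) (XT.nd (nat_lit 78) (nat_lit 760) (nat_lit 0)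 (XT.lf (nat_lit 0) (nat_lit 3044286219) (nat_lit 760) (nat_lit 1513517506) (nat_lit 836) (nat_lit 4627606306) (nat_lit 368) (nat_lit 5) (nat_lit 378) (nat_lit 5) (nat_lit 379) (nat_lit 5) (nat_lit 579) (nat_lit 531) (nat_lit 450)) (XT.nd (nat_lit 78) (nat_lit 760) (nat_lit 0) (XT.lf (nat_lit 0) (nat_lit 6900922470) (nat_lit 836) (nat_lit 362240255) (nat_lit 76) (nat_lit 2009123095) (nat_lit 368) (nat_lit 5) (nat_lit 379) (nat_lit 5) (nat_lit 369) (nat_lit 5) (nat_lit 580) (nat_lit 531) (nat_lit 449)) (XT.lf (nat_lit 0) (nat_lit 5563539510) (nat_lit 760) (nat_lit 3745218914) (nat_lit 836) (nat_lit 51785221) (nat_lit 358) (nat_lit 5) (nat_lit 368) (nat_lit 5) (nat_lit 369) (nat_lit 5) (nat_lit 581) (nat_lit 531) (nat_lit 448))))))) (XT.nd (nat_lit 780) (nat_lit 4788) (nat_lit 0) (XT.nd (nat_lit 390) (nat_lit 2052) (nat_lit 0) (XT.nd (nat_lit 156) (nat_lit 1520) (nat_lit 0) (XT.nd (nat_lit 78) (nat_lit 0) (nat_lit 0) (XT.lf (nat_lit 0) (nat_lit 2143505996) (nat_lit 684) (nat_lit 128565003) (nat_lit 760) (nat_lit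 7178431928) (nat_lit 348) (nat_lit 5) (nat_lit 357) (nat_lit 5) (nat_lit 358) (nat_lit 5) (nat_lit 582) (nat_lit 531) (nat_lit 447)) (XT.lf (nat_lit 0) (nat_lit 4662672090) (nat_lit 760) (nat_lit 1343199936) (nat_lit 76) (nat_lit 3535964826) (nat_lit 348) (nat_lit 5) (nat_lit 358) (nat_lit 5) (nat_lit 349) (nat_lit 5) (nat_lit 583) (nat_lit 531) (nat_lit 446))) (XT.nd (nat_lit 78) (nat_lit 760) (nat_lit 0) (XT.lf (nat_lit 0) (nat_lit 4770096415) (nat_lit 760) (nat_lit 2335551274) (nat_lit 836) (nat_lit 2529260012) (nat_lit 338) (nat_lit 5) (nat_lit 348) (nat_lit 5) (nat_lit 349) (nat_lit 5) (nat_lit 584) (nat_lit 531) (nat_lit 445)) (XT.nd (nat_lit 78) (nat_lit 76) (nat_lit 0) (XT.lf (nat_lit 0) (nat_lit 1269867999) (nat_lit 684) (nat_lit 8327119315) (nat_lit 760) (nat_lit 132864028) (nat_lit 329) (nat_lit 5) (nat_lit 338) (nat_lit 5) (nat_lit 339) (nat_lit 5) (nat_lit 585) (nat_lit 531) (nat_lit 444)) (XT.lf (nat_lit 0) (nat_lit 2302662850) (nat_lit 760) (nat_lit 2295486262) (nat_lit 76) (nat_lit 5227815638)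 (nat_lit 328) (nat_lit 5) (nat_lit 338) (nat_lit 5) (nat_lit 329) (nat_lit 5) (nat_lit 586) (nat_lit 531) (nat_lit 443))))) (XT.nd (nat_lit 156) (nat_lit 760) (nat_lit 0) (XT.nd (nat_lit 78) (nat_lit 608) (nat_lit 0) (XT.lf (nat_lit 0) (nat_lit 4012735842) (nat_lit 684) (nat_lit 772155401) (nat_lit 760) (nat_lit 5139097600) (nat_lit 319) (nat_lit 5) (nat_lit 328) (nat_lit 5) (nat_lit 329) (nat_lit 5) (nat_lit 587) (nat_lit 531) (nat_lit 442)) (XT.lf (nat_lit 0) (nat_lit 407902089) (nat_lit 608) (nat_lit 6921335886) (nat_lit 684) (nat_lit 2694487321) (nat_lit 311) (nat_lit 5) (nat_lit 319) (nat_lit 5) (nat_lit 320) (nat_lit 5) (nat_lit 588) (nat_lit 531) (nat_lit 441))) (XT.nd (nat_lit 78) (nat_lit 760) (nat_lit 0) (XT.lf (nat_lit 0) (nat_lit 6897000946) (nat_lit 608) (nat_lit 3046519509) (nat_lit 684) (nat_lit 181556375) (nat_lit 311) (nat_lit 5) (nat_lit 319) (nat_lit 5) (nat_lit 320) (nat_lit 5) (nat_lit 589) (nat_lit 531) (nat_lit 440)) (XT.nd (nat_lit 78) (nat_lit 0) (nat_lit 0) (XT.lf (nat_lit 0) (nat_lit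 2352443341) (nat_lit 760) (nat_lit 6950392340) (nat_lit 76) (nat_lit 925270813) (nat_lit 301) (nat_lit 5) (nat_lit 311) (nat_lit 5) (nat_lit 302) (nat_lit 5) (nat_lit 590) (nat_lit 531) (nat_lit 439)) (XT.lf (nat_lit 0) (nat_lit 4951571194) (nat_lit 760) (nat_lit 428276821) (nat_lit 76) (nat_lit 4952988400) (nat_lit 301) (nat_lit 5) (nat_lit 311) (nat_lit 5) (nat_lit 302) (nat_lit 5) (nat_lit 591) (nat_lit 531) (nat_lit 438)))))) (XT.nd (nat_lit 390) (nat_lit 2280) (nat_lit 0) (XT.nd (nat_lit 156) (nat_lit 1292) (nat_lit 0) (XT.nd (nat_lit 78) (nat_lit 608) (nat_lit 0) (XT.lf (nat_lit 0) (nat_lit 6275835519) (nat_lit 608) (nat_lit 1342980951) (nat_lit 684) (nat_lit 2820522996) (nat_lit 293) (nat_lit 5) (nat_lit 301) (nat_lit 5) (nat_lit 302) (nat_lit 5) (nat_lit 592) (nat_lit 531) (nat_lit 437)) (XT.lf (nat_lit 0) (nat_lit 2556415315) (nat_lit 608) (nat_lit 7796128766) (nat_lit 684) (nat_lit 195166949) (nat_lit 285) (nat_lit 5) (nat_lit 293) (nat_lit 5) (nat_lit 294) (nat_lit 5) (nat_lit 593) (nat_lit 531)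 (nat_lit 436))) (XT.nd (nat_lit 78) (nat_lit 1216) (nat_lit 0) (XT.lf (nat_lit 0) (nat_lit 2462902411) (nat_lit 684) (nat_lit 1246837851) (nat_lit 76) (nat_lit 6947933191) (nat_lit 284) (nat_lit 5) (nat_lit 293) (nat_lit 5) (nat_lit 285) (nat_lit 5) (nat_lit 594) (nat_lit 531) (nat_lit 435)) (XT.nd (nat_lit 78) (nat_lit 608) (nat_lit 0) (XT.lf (nat_lit 0) (nat_lit 5187778491) (nat_lit 684) (nat_lit 5097595331) (nat_lit 76) (nat_lit 484111461) (nat_lit 276) (nat_lit 5) (nat_lit 285) (nat_lit 5) (nat_lit 277) (nat_lit 5) (nat_lit 595) (nat_lit 531) (nat_lit 434)) (XT.lf (nat_lit 0) (nat_lit 1831185719) (nat_lit 608) (nat_lit 6157295525) (nat_lit 684) (nat_lit 2894626634) (nat_lit 268) (nat_lit 5) (nat_lit 276) (nat_lit 5) (nat_lit 277) (nat_lit 5) (nat_lit 596) (nat_lit 531) (nat_lit 433))))) (XT.nd (nat_lit 234) (nat_lit 1140) (nat_lit 0) (XT.nd (nat_lit 78) (nat_lit 1140) (nat_lit 0) (XT.lf (nat_lit 0) (nat_lit 8937108941) (nat_lit 608) (nat_lit 1919009904) (nat_lit 684) (nat_lit 142666751) (nat_lit 268)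 (nat_lit 5) (nat_lit 276) (nat_lit 5) (nat_lit 277) (nat_lit 5) (nat_lit 597) (nat_lit 531) (nat_lit 432)) (XT.nd (nat_lit 78) (nat_lit 532) (nat_lit 0) (XT.lf (nat_lit 0) (nat_lit 2655333360) (nat_lit 608) (nat_lit 6044566874) (nat_lit 76) (nat_lit 2416012827) (nat_lit 260) (nat_lit 5) (nat_lit 268) (nat_lit 5) (nat_lit 261) (nat_lit 5) (nat_lit 598) (nat_lit 531) (nat_lit 431)) (XT.lf (nat_lit 0) (nat_lit 1110235908) (nat_lit 532) (nat_lit 4408218361) (nat_lit 608) (nat_lit 5716689549) (nat_lit 253) (nat_lit 5) (nat_lit 260) (nat_lit 5) (nat_lit 261) (nat_lit 5) (nat_lit 599) (nat_lit 531) (nat_lit 430)))) (XT.nd (nat_lit 78) (nat_lit 1140) (nat_lit 0) (XT.lf (nat_lit 0) (nat_lit 8456894798) (nat_lit 608) (nat_lit 2896597399) (nat_lit 76) (nat_lit 2906856) (nat_lit 253) (nat_lit 5) (nat_lit 261) (nat_lit 5) (nat_lit 254) (nat_lit 5) (nat_lit 600) (nat_lit 531) (nat_lit 429)) (XT.nd (nat_lit 78) (nat_lit 532) (nat_lit 0) (XT.lf (nat_lit 0) (nat_lit 10724932) (nat_lit 608) (nat_lit 7003692223) (nat_lit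 76) (nat_lit 4464939387) (nat_lit 245) (nat_lit 5) (nat_lit 253) (nat_lit 5) (nat_lit 246) (nat_lit 5) (nat_lit 601) (nat_lit 531) (nat_lit 428)) (XT.lf (nat_lit 0) (nat_lit 385834796) (nat_lit 532) (nat_lit 2554569885) (nat_lit 608) (nat_lit 8663984725) (nat_lit 238) (nat_lit 5) (nat_lit 245) (nat_lit 5) (nat_lit 246) (nat_lit 5) (nat_lit 602) (nat_lit 531) (nat_lit 427))))))))
noncomputable def xc92 : XT := (XT.nd (nat_lit 76050) (nat_lit 0) (nat_lit 32832) (XT.nd (nat_lit 780) (nat_lit 1368) (nat_lit 0) (XT.nd (nat_lit 390) (nat_lit 1444) (nat_lit 0) (XT.nd (nat_lit 156) (nat_lit 1064) (nat_lit 0) (XT.nd (nat_lit 78) (nat_lit 456) (nat_lit 0) (XT.lf (nat_lit 0) (nat_lit 5967084488) (nat_lit 608) (nat_lit 3756485851) (nat_lit 76) (nat_lit 2007585391) (nat_lit 238) (nat_lit 5) (nat_lit 246) (nat_lit 5) (nat_lit 239) (nat_lit 5) (nat_lit 603) (nat_lit 531) (nat_lit 426)) (XT.lf (nat_lit 0) (nat_lit 3858778471) (nat_lit 456) (nat_lit 5216066636) (nat_lit 532) (nat_lit 2785202238) (nat_lit 232) (nat_lit 5)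 (nat_lit 238) (nat_lit 5) (nat_lit 239) (nat_lit 5) (nat_lit 604) (nat_lit 531) (nat_lit 425))) (XT.nd (nat_lit 78) (nat_lit 988) (nat_lit 0) (XT.lf (nat_lit 0) (nat_lit 253960557) (nat_lit 532) (nat_lit 345381074) (nat_lit 76) (nat_lit 11392062400) (nat_lit 231) (nat_lit 5) (nat_lit 238) (nat_lit 5) (nat_lit 232) (nat_lit 5) (nat_lit 605) (nat_lit 531) (nat_lit 424)) (XT.nd (nat_lit 78) (nat_lit 456) (nat_lit 0) (XT.lf (nat_lit 0) (nat_lit 3371592118) (nat_lit 608) (nat_lit 4637043978) (nat_lit 76) (nat_lit 4115284821) (nat_lit 224) (nat_lit 5) (nat_lit 232) (nat_lit 5) (nat_lit 225) (nat_lit 5) (nat_lit 606) (nat_lit 531) (nat_lit 423)) (XT.lf (nat_lit 0) (nat_lit 3230393870) (nat_lit 456) (nat_lit 3327707031) (nat_lit 532) (nat_lit 5700857590) (nat_lit 218) (nat_lit 5) (nat_lit 224) (nat_lit 5) (nat_lit 225) (nat_lit 5) (nat_lit 607) (nat_lit 531) (nat_lit 422))))) (XT.nd (nat_lit 156) (nat_lit 912) (nat_lit 0) (XT.nd (nat_lit 78) (nat_lit 532) (nat_lit 0) (XT.lf (nat_lit 0) (nat_lit 9828466174) (nat_lit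 532) (nat_lit 1117208121) (nat_lit 76) (nat_lit 1450620820) (nat_lit 218) (nat_lit 5) (nat_lit 225) (nat_lit 5) (nat_lit 219) (nat_lit 5) (nat_lit 608) (nat_lit 531) (nat_lit 421)) (XT.lf (nat_lit 0) (nat_lit 667192439) (nat_lit 532) (nat_lit 5546761371) (nat_lit 76) (nat_lit 6321392594) (nat_lit 211) (nat_lit 5) (nat_lit 218) (nat_lit 5) (nat_lit 212) (nat_lit 5) (nat_lit 609) (nat_lit 531) (nat_lit 420))) (XT.nd (nat_lit 78) (nat_lit 456) (nat_lit 0) (XT.lf (nat_lit 0) (nat_lit 2582354173) (nat_lit 456) (nat_lit 1354410914) (nat_lit 532) (nat_lit 8739990259) (nat_lit 205) (nat_lit 5) (nat_lit 211) (nat_lit 5) (nat_lit 212) (nat_lit 5) (nat_lit 610) (nat_lit 531) (nat_lit 419)) (XT.nd (nat_lit 78) (nat_lit 456) (nat_lit 0) (XT.lf (nat_lit 0) (nat_lit 7312623509) (nat_lit 532) (nat_lit 1923860773) (nat_lit 76) (nat_lit 3583691062) (nat_lit 205) (nat_lit 5) (nat_lit 212) (nat_lit 5) (nat_lit 206) (nat_lit 5) (nat_lit 611) (nat_lit 531) (nat_lit 418)) (XT.lf (nat_lit 0) (nat_lit 6457163166) (nat_lit 456)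 (nat_lit 4330158610) (nat_lit 532) (nat_lit 2178516260) (nat_lit 199) (nat_lit 5) (nat_lit 205) (nat_lit 5) (nat_lit 206) (nat_lit 5) (nat_lit 612) (nat_lit 531) (nat_lit 417)))))) (XT.nd (nat_lit 74880) (nat_lit 0) (nat_lit 39444) (XT.nd (nat_lit 156) (nat_lit 912) (nat_lit 0) (XT.nd (nat_lit 78) (nat_lit 0) (nat_lit 0) (XT.lf (nat_lit 0) (nat_lit 1211545674) (nat_lit 456) (nat_lit 11212653315) (nat_lit 76) (nat_lit 689849505) (nat_lit 193) (nat_lit 5) (nat_lit 199) (nat_lit 5) (nat_lit 194) (nat_lit 5) (nat_lit 613) (nat_lit 531) (nat_lit 416)) (XT.lf (nat_lit 0) (nat_lit 4693544348) (nat_lit 456) (nat_lit 2768703178) (nat_lit 76) (nat_lit 5801622222) (nat_lit 193) (nat_lit 5) (nat_lit 199) (nat_lit 5) (nat_lit 194) (nat_lit 5) (nat_lit 614) (nat_lit 531) (nat_lit 415))) (XT.nd (nat_lit 78) (nat_lit 456) (nat_lit 0) (XT.lf (nat_lit 0) (nat_lit 5893127222) (nat_lit 456) (nat_lit 2371333684) (nat_lit 532) (nat_lit 5151841653) (nat_lit 187) (nat_lit 5) (nat_lit 193) (nat_lit 5) (nat_lit 194) (nat_lit 5)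 (nat_lit 615) (nat_lit 531) (nat_lit 414)) (XT.nd (nat_lit 78) (nat_lit 76) (nat_lit 0) (XT.lf (nat_lit 0) (nat_lit 1162701711) (nat_lit 380) (nat_lit 10769809175) (nat_lit 456) (nat_lit 1638759518) (nat_lit 182) (nat_lit 5) (nat_lit 187) (nat_lit 5) (nat_lit 188) (nat_lit 5) (nat_lit 616) (nat_lit 531) (nat_lit 413)) (XT.lf (nat_lit 0) (nat_lit 1966810973) (nat_lit 456) (nat_lit 3661198678) (nat_lit 76) (nat_lit 8100121487) (nat_lit 181) (nat_lit 5) (nat_lit 187) (nat_lit 5) (nat_lit 182) (nat_lit 5) (nat_lit 617) (nat_lit 531) (nat_lit 412))))) (XT.nd (nat_lit 156) (nat_lit 912) (nat_lit 0) (XT.nd (nat_lit 78) (nat_lit 836) (nat_lit 0) (XT.lf (nat_lit 0) (nat_lit 2845494237) (nat_lit 836) (nat_lit 256250442) (nat_lit 836) (nat_lit 256250442) (nat_lit 723) (nat_lit 3) (nat_lit 734) (nat_lit 3) (nat_lit 734) (nat_lit 5) (nat_lit 532) (nat_lit 532) (nat_lit 496)) (XT.lf (nat_lit 0) (nat_lit 1168327683) (nat_lit 836) (nat_lit 3885431943) (nat_lit 912) (nat_lit 1685530341) (nat_lit 712) (nat_lit 5) (nat_lit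 723) (nat_lit 3) (nat_lit 724) (nat_lit 5) (nat_lit 533) (nat_lit 532) (nat_lit 495))) (XT.nd (nat_lit 78) (nat_lit 912) (nat_lit 0) (XT.lf (nat_lit 0) (nat_lit 3338128662) (nat_lit 836) (nat_lit 505309993) (nat_lit 912) (nat_lit 2920560031) (nat_lit 712) (nat_lit 5) (nat_lit 723) (nat_lit 3) (nat_lit 724) (nat_lit 5) (nat_lit 534) (nat_lit 532) (nat_lit 494)) (XT.nd (nat_lit 78) (nat_lit 912) (nat_lit 0) (XT.lf (nat_lit 76) (nat_lit 2951711500) (nat_lit 0) (nat_lit 2562754075) (nat_lit 912) (nat_lit 1275478211) (nat_lit 713) (nat_lit 5) (nat_lit 712) (nat_lit 5) (nat_lit 724) (nat_lit 5) (nat_lit 535) (nat_lit 532) (nat_lit 493)) (XT.lf (nat_lit 0) (nat_lit 853810479) (nat_lit 912) (nat_lit 367562933) (nat_lit 988) (nat_lit 5595961436) (nat_lit 700) (nat_lit 5) (nat_lit 712) (nat_lit 5) (nat_lit 713) (nat_lit 5) (nat_lit 536) (nat_lit 532) (nat_lit 492))))))) (XT.nd (nat_lit 780) (nat_lit 3648) (nat_lit 0) (XT.nd (nat_lit 390) (nat_lit 2052) (nat_lit 0) (XT.nd (nat_lit 156) (nat_lit 988) (nat_lit 0) (XT.nd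 (nat_lit 78) (nat_lit 0) (nat_lit 0) (XT.lf (nat_lit 0) (nat_lit 2976155927) (nat_lit 912) (nat_lit 3670738180) (nat_lit 988) (nat_lit 198864727) (nat_lit 701) (nat_lit 5) (nat_lit 713) (nat_lit 5) (nat_lit 714) (nat_lit 5) (nat_lit 537) (nat_lit 532) (nat_lit 491)) (XT.lf (nat_lit 0) (nat_lit 5098157232) (nat_lit 912) (nat_lit 119784586) (nat_lit 988) (nat_lit 1657669926) (nat_lit 701) (nat_lit 5) (nat_lit 713) (nat_lit 5) (nat_lit 714) (nat_lit 5) (nat_lit 538) (nat_lit 532) (nat_lit 490))) (XT.nd (nat_lit 78) (nat_lit 0) (nat_lit 0) (XT.lf (nat_lit 0) (nat_lit 322189516) (nat_lit 988) (nat_lit 3390260967) (nat_lit 1064) (nat_lit 3194162800) (nat_lit 688) (nat_lit 5) (nat_lit 701) (nat_lit 5) (nat_lit 702) (nat_lit 5) (nat_lit 539) (nat_lit 532) (nat_lit 489)) (XT.nd (nat_lit 78) (nat_lit 0) (nat_lit 0) (XT.lf (nat_lit 76) (nat_lit 249799926) (nat_lit 0) (nat_lit 2140851612) (nat_lit 1064) (nat_lit 4548340188) (nat_lit 689) (nat_lit 5) (nat_lit 688) (nat_lit 5) (nat_lit 702) (nat_lit 5) (nat_lit 540)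 (nat_lit 532) (nat_lit 488)) (XT.lf (nat_lit 76) (nat_lit 3978500778) (nat_lit 0) (nat_lit 493725126) (nat_lit 1064) (nat_lit 2500361240) (nat_lit 689) (nat_lit 5) (nat_lit 688) (nat_lit 5) (nat_lit 702) (nat_lit 5) (nat_lit 541) (nat_lit 532) (nat_lit 487))))) (XT.nd (nat_lit 156) (nat_lit 1064) (nat_lit 0) (XT.nd (nat_lit 78) (nat_lit 1064) (nat_lit 0) (XT.lf (nat_lit 76) (nat_lit 746343155) (nat_lit 0) (nat_lit 5811762676) (nat_lit 1064) (nat_lit 449499348) (nat_lit 690) (nat_lit 5) (nat_lit 689) (nat_lit 5) (nat_lit 703) (nat_lit 5) (nat_lit 542) (nat_lit 532) (nat_lit 486)) (XT.lf (nat_lit 0) (nat_lit 1594911086) (nat_lit 1064) (nat_lit 2485944027) (nat_lit 1140) (nat_lit 2962777787) (nat_lit 675) (nat_lit 5) (nat_lit 689) (nat_lit 5) (nat_lit 690) (nat_lit 5) (nat_lit 543) (nat_lit 532) (nat_lit 485))) (XT.nd (nat_lit 78) (nat_lit 1064) (nat_lit 0) (XT.lf (nat_lit 76) (nat_lit 1349084241) (nat_lit 0) (nat_lit 2285417304) (nat_lit 1140) (nat_lit 3446617940) (nat_lit 676) (nat_lit 5) (nat_lit 675) (nat_lit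 5) (nat_lit 690) (nat_lit 5) (nat_lit 544) (nat_lit 532) (nat_lit 484)) (XT.nd (nat_lit 78) (nat_lit 1064) (nat_lit 0) (XT.lf (nat_lit 76) (nat_lit 5264198690) (nat_lit 0) (nat_lit 419666231) (nat_lit 1140) (nat_lit 1436115128) (nat_lit 676) (nat_lit 5) (nat_lit 675) (nat_lit 5) (nat_lit 690) (nat_lit 5) (nat_lit 545) (nat_lit 532) (nat_lit 483)) (XT.lf (nat_lit 0) (nat_lit 582891057) (nat_lit 1140) (nat_lit 5078982815) (nat_lit 1216) (nat_lit 1498140783) (nat_lit 661) (nat_lit 5) (nat_lit 676) (nat_lit 5) (nat_lit 677) (nat_lit 5) (nat_lit 546) (nat_lit 532) (nat_lit 482)))))) (XT.nd (nat_lit 390) (nat_lit 2508) (nat_lit 0) (XT.nd (nat_lit 156) (nat_lit 1140) (nat_lit 0) (XT.nd (nat_lit 78) (nat_lit 0) (nat_lit 0) (XT.lf (nat_lit 0) (nat_lit 2592134314) (nat_lit 1140) (nat_lit 1122419661) (nat_lit 1216) (nat_lit 3486728038) (nat_lit 661) (nat_lit 5) (nat_lit 676) (nat_lit 5) (nat_lit 677) (nat_lit 5) (nat_lit 547) (nat_lit 532) (nat_lit 481)) (XT.lf (nat_lit 76) (nat_lit 2921012529) (nat_lit 0) (nat_lit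 1694175417) (nat_lit 1216) (nat_lit 2628717837) (nat_lit 662) (nat_lit 5) (nat_lit 661) (nat_lit 5) (nat_lit 677) (nat_lit 5) (nat_lit 548) (nat_lit 532) (nat_lit 480))) (XT.nd (nat_lit 78) (nat_lit 1216) (nat_lit 0) (XT.lf (nat_lit 0) (nat_lit 6644109720) (nat_lit 1140) (nat_lit 260493346) (nat_lit 1216) (nat_lit 383474323) (nat_lit 662) (nat_lit 5) (nat_lit 677) (nat_lit 5) (nat_lit 678) (nat_lit 5) (nat_lit 549) (nat_lit 532) (nat_lit 479)) (XT.nd (nat_lit 78) (nat_lit 0) (nat_lit 0) (XT.lf (nat_lit 0) (nat_lit 1355130480) (nat_lit 1216) (nat_lit 3449957721) (nat_lit 1292) (nat_lit 2528013170) (nat_lit 646) (nat_lit 5) (nat_lit 662) (nat_lit 5) (nat_lit 663) (nat_lit 5) (nat_lit 550) (nat_lit 532) (nat_lit 478)) (XT.lf (nat_lit 76) (nat_lit 708082359) (nat_lit 0) (nat_lit 2640558995) (nat_lit 1292) (nat_lit 4031041580) (nat_lit 647) (nat_lit 5) (nat_lit 646) (nat_lit 5) (nat_lit 663) (nat_lit 5) (nat_lit 551) (nat_lit 532) (nat_lit 477))))) (XT.nd (nat_lit 156) (nat_lit 1368) (nat_lit 0) (XT.nd (nat_lit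 78) (nat_lit 1140) (nat_lit 0) (XT.lf (nat_lit 76) (nat_lit 4965131497) (nat_lit 0) (nat_lit 397378954) (nat_lit 1292) (nat_lit 2065079151) (nat_lit 647) (nat_lit 5) (nat_lit 646) (nat_lit 5) (nat_lit 663) (nat_lit 5) (nat_lit 552) (nat_lit 532) (nat_lit 476)) (XT.lf (nat_lit 0) (nat_lit 1811119838) (nat_lit 1216) (nat_lit 5587819808) (nat_lit 1292) (nat_lit 77872277) (nat_lit 631) (nat_lit 5) (nat_lit 647) (nat_lit 5) (nat_lit 648) (nat_lit 5) (nat_lit 553) (nat_lit 532) (nat_lit 475))) (XT.nd (nat_lit 78) (nat_lit 1292) (nat_lit 0) (XT.lf (nat_lit 0) (nat_lit 1901371737) (nat_lit 1292) (nat_lit 1370108415) (nat_lit 76) (nat_lit 4255731383) (nat_lit 630) (nat_lit 5) (nat_lit 647) (nat_lit 5) (nat_lit 631) (nat_lit 5) (nat_lit 554) (nat_lit 532) (nat_lit 474)) (XT.nd (nat_lit 78) (nat_lit 0) (nat_lit 0) (XT.lf (nat_lit 0) (nat_lit 3019518802) (nat_lit 1292) (nat_lit 878646826) (nat_lit 1368) (nat_lit 3680866054) (nat_lit 613) (nat_lit 5) (nat_lit 630) (nat_lit 5) (nat_lit 631) (nat_lit 5) (nat_lit 555)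 (nat_lit 532) (nat_lit 473)) (XT.lf (nat_lit 0) (nat_lit 5914350718) (nat_lit 1368) (nat_lit 158009645) (nat_lit 76) (nat_lit 1559941693) (nat_lit 613) (nat_lit 5) (nat_lit 631) (nat_lit 5) (nat_lit 614) (nat_lit 5) (nat_lit 556) (nat_lit 532) (nat_lit 472))))))))
noncomputable def xc93 : XT := (XT.nd (nat_lit 1560) (nat_lit 9272) (nat_lit 0) (XT.nd (nat_lit 780) (nat_lit 7372) (nat_lit 0) (XT.nd (nat_lit 390) (nat_lit 5092) (nat_lit 0) (XT.nd (nat_lit 156) (nat_lit 1596) (nat_lit 0) (XT.nd (nat_lit 78) (nat_lit 1444) (nat_lit 0) (XT.lf (nat_lit 0) (nat_lit 275372706) (nat_lit 1444) (nat_lit 3336768279) (nat_lit 76) (nat_lit 4074565190) (nat_lit 594) (nat_lit 5) (nat_lit 613) (nat_lit 5) (nat_lit 595) (nat_lit 5) (nat_lit 557) (nat_lit 532) (nat_lit 471)) (XT.lf (nat_lit 0) (nat_lit 1180802736) (nat_lit 1444) (nat_lit 1074663724) (nat_lit 1520) (nat_lit 5487109434) (nat_lit 575) (nat_lit 5) (nat_lit 594) (nat_lit 5) (nat_lit 595) (nat_lit 5) (nat_lit 558) (nat_lit 532) (nat_lit 470))) (XT.nd (nat_lit 78)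 (nat_lit 1596) (nat_lit 0) (XT.lf (nat_lit 0) (nat_lit 4269286557) (nat_lit 1520) (nat_lit 2007052347) (nat_lit 76) (nat_lit 1523344322) (nat_lit 575) (nat_lit 5) (nat_lit 595) (nat_lit 5) (nat_lit 576) (nat_lit 5) (nat_lit 559) (nat_lit 532) (nat_lit 469)) (XT.nd (nat_lit 78) (nat_lit 76) (nat_lit 0) (XT.lf (nat_lit 0) (nat_lit 2634911305) (nat_lit 1520) (nat_lit 3675203821) (nat_lit 1596) (nat_lit 1548085592) (nat_lit 555) (nat_lit 5) (nat_lit 575) (nat_lit 5) (nat_lit 576) (nat_lit 5) (nat_lit 560) (nat_lit 532) (nat_lit 468)) (XT.lf (nat_lit 0) (nat_lit 444007850) (nat_lit 1596) (nat_lit 555447794) (nat_lit 76) (nat_lit 6918846913) (nat_lit 554) (nat_lit 5) (nat_lit 575) (nat_lit 5) (nat_lit 555) (nat_lit 5) (nat_lit 561) (nat_lit 532) (nat_lit 467))))) (XT.nd (nat_lit 156) (nat_lit 1824) (nat_lit 0) (XT.nd (nat_lit 78) (nat_lit 1672) (nat_lit 0) (XT.lf (nat_lit 0) (nat_lit 2457671145) (nat_lit 1672) (nat_lit 3771222547) (nat_lit 76) (nat_lit 1750461450) (nat_lit 533) (nat_lit 5) (nat_lit 555) (nat_lit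 5) (nat_lit 534) (nat_lit 5) (nat_lit 562) (nat_lit 532) (nat_lit 466)) (XT.lf (nat_lit 0) (nat_lit 1008020842) (nat_lit 1672) (nat_lit 3484574861) (nat_lit 1748) (nat_lit 3549415767) (nat_lit 511) (nat_lit 5) (nat_lit 533) (nat_lit 5) (nat_lit 534) (nat_lit 5) (nat_lit 563) (nat_lit 532) (nat_lit 465))) (XT.nd (nat_lit 78) (nat_lit 1824) (nat_lit 0) (XT.lf (nat_lit 0) (nat_lit 5902660815) (nat_lit 1672) (nat_lit 655438333) (nat_lit 1748) (nat_lit 1548026575) (nat_lit 511) (nat_lit 5) (nat_lit 533) (nat_lit 5) (nat_lit 534) (nat_lit 5) (nat_lit 564) (nat_lit 532) (nat_lit 464)) (XT.nd (nat_lit 78) (nat_lit 0) (nat_lit 0) (XT.lf (nat_lit 0) (nat_lit 484291647) (nat_lit 1824) (nat_lit 5461403373) (nat_lit 76) (nat_lit 2225818039) (nat_lit 487) (nat_lit 5) (nat_lit 511) (nat_lit 5) (nat_lit 488) (nat_lit 5) (nat_lit 565) (nat_lit 532) (nat_lit 463)) (XT.lf (nat_lit 0) (nat_lit 2521315782) (nat_lit 1824) (nat_lit 532449507) (nat_lit 76) (nat_lit 5184544719) (nat_lit 487) (nat_lit 5) (nat_lit 511) (nat_lit 5)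 (nat_lit 488) (nat_lit 5) (nat_lit 566) (nat_lit 532) (nat_lit 462)))))) (XT.nd (nat_lit 390) (nat_lit 3496) (nat_lit 0) (XT.nd (nat_lit 156) (nat_lit 988) (nat_lit 0) (XT.nd (nat_lit 78) (nat_lit 1064) (nat_lit 0) (XT.lf (nat_lit 0) (nat_lit 4523358084) (nat_lit 1824) (nat_lit 71309843) (nat_lit 1900) (nat_lit 3711865440) (nat_lit 463) (nat_lit 5) (nat_lit 487) (nat_lit 5) (nat_lit 488) (nat_lit 5) (nat_lit 567) (nat_lit 532) (nat_lit 461)) (XT.lf (nat_lit 0) (nat_lit 1277360016) (nat_lit 1064) (nat_lit 5430002664) (nat_lit 1140) (nat_lit 1668803180) (nat_lit 449) (nat_lit 5) (nat_lit 463) (nat_lit 5) (nat_lit 464) (nat_lit 5) (nat_lit 568) (nat_lit 532) (nat_lit 460))) (XT.nd (nat_lit 78) (nat_lit 912) (nat_lit 0) (XT.lf (nat_lit 0) (nat_lit 402630421) (nat_lit 1140) (nat_lit 1991395441) (nat_lit 76) (nat_lit 6053254239) (nat_lit 448) (nat_lit 5) (nat_lit 463) (nat_lit 5) (nat_lit 449) (nat_lit 5) (nat_lit 569) (nat_lit 532) (nat_lit 459)) (XT.nd (nat_lit 78) (nat_lit 0) (nat_lit 0) (XT.lf (nat_lit 0)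 (nat_lit 2486420431) (nat_lit 988) (nat_lit 5306433576) (nat_lit 76) (nat_lit 726878597) (nat_lit 436) (nat_lit 5) (nat_lit 449) (nat_lit 5) (nat_lit 437) (nat_lit 5) (nat_lit 570) (nat_lit 532) (nat_lit 458)) (XT.lf (nat_lit 0) (nat_lit 4609209764) (nat_lit 988) (nat_lit 91814041) (nat_lit 76) (nat_lit 3892665895) (nat_lit 436) (nat_lit 5) (nat_lit 449) (nat_lit 5) (nat_lit 437) (nat_lit 5) (nat_lit 571) (nat_lit 532) (nat_lit 457))))) (XT.nd (nat_lit 156) (nat_lit 1672) (nat_lit 0) (XT.nd (nat_lit 78) (nat_lit 912) (nat_lit 0) (XT.lf (nat_lit 0) (nat_lit 5265185611) (nat_lit 912) (nat_lit 1512098699) (nat_lit 988) (nat_lit 1891787010) (nat_lit 424) (nat_lit 5) (nat_lit 436) (nat_lit 5) (nat_lit 437) (nat_lit 5) (nat_lit 572) (nat_lit 532) (nat_lit 456)) (XT.lf (nat_lit 0) (nat_lit 233290513) (nat_lit 912) (nat_lit 6779882884) (nat_lit 76) (nat_lit 1732883258) (nat_lit 412) (nat_lit 5) (nat_lit 424) (nat_lit 5) (nat_lit 413) (nat_lit 5) (nat_lit 573) (nat_lit 532) (nat_lit 455))) (XT.nd (nat_lit 78) (nat_lit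 1672) (nat_lit 0) (XT.lf (nat_lit 0) (nat_lit 2377830001) (nat_lit 912) (nat_lit 1388631610) (nat_lit 76) (nat_lit 5057826021) (nat_lit 412) (nat_lit 5) (nat_lit 424) (nat_lit 5) (nat_lit 413) (nat_lit 5) (nat_lit 574) (nat_lit 532) (nat_lit 454)) (XT.nd (nat_lit 78) (nat_lit 836) (nat_lit 0) (XT.lf (nat_lit 0) (nat_lit 4133689953) (nat_lit 836) (nat_lit 428272444) (nat_lit 912) (nat_lit 4342188612) (nat_lit 401) (nat_lit 5) (nat_lit 412) (nat_lit 5) (nat_lit 413) (nat_lit 5) (nat_lit 575) (nat_lit 532) (nat_lit 453)) (XT.lf (nat_lit 0) (nat_lit 759067789) (nat_lit 836) (nat_lit 6034592775) (nat_lit 912) (nat_lit 2191875215) (nat_lit 390) (nat_lit 5) (nat_lit 401) (nat_lit 5) (nat_lit 402) (nat_lit 5) (nat_lit 576) (nat_lit 532) (nat_lit 452))))))) (XT.nd (nat_lit 780) (nat_lit 4560) (nat_lit 0) (XT.nd (nat_lit 390) (nat_lit 2280) (nat_lit 0) (XT.nd (nat_lit 156) (nat_lit 1520) (nat_lit 0) (XT.nd (nat_lit 78) (nat_lit 836) (nat_lit 0) (XT.lf (nat_lit 0) (nat_lit 6918954) (nat_lit 912) (nat_lit 2638657070)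 (nat_lit 76) (nat_lit 6422863880) (nat_lit 389) (nat_lit 5) (nat_lit 401) (nat_lit 5) (nat_lit 390) (nat_lit 5) (nat_lit 577) (nat_lit 532) (nat_lit 451)) (XT.lf (nat_lit 0) (nat_lit 2216700412) (nat_lit 912) (nat_lit 6102835055) (nat_lit 76) (nat_lit 833251351) (nat_lit 378) (nat_lit 5) (nat_lit 390) (nat_lit 5) (nat_lit 379) (nat_lit 5) (nat_lit 578) (nat_lit 532) (nat_lit 450))) (XT.nd (nat_lit 78) (nat_lit 1520) (nat_lit 0) (XT.lf (nat_lit 0) (nat_lit 4477389820) (nat_lit 912) (nat_lit 399285631) (nat_lit 76) (nat_lit 4362012623) (nat_lit 378) (nat_lit 5) (nat_lit 390) (nat_lit 5) (nat_lit 379) (nat_lit 5) (nat_lit 579) (nat_lit 532) (nat_lit 449)) (XT.nd (nat_lit 78) (nat_lit 760) (nat_lit 0) (XT.lf (nat_lit 0) (nat_lit 5459265470) (nat_lit 760) (nat_lit 1331402039) (nat_lit 836) (nat_lit 2535493974) (nat_lit 368) (nat_lit 5) (nat_lit 378) (nat_lit 5) (nat_lit 379) (nat_lit 5) (nat_lit 580) (nat_lit 532) (nat_lit 448)) (XT.lf (nat_lit 0) (nat_lit 2005515008) (nat_lit 760) (nat_lit 7147512397) (nat_lit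 836) (nat_lit 262302211) (nat_lit 358) (nat_lit 5) (nat_lit 368) (nat_lit 5) (nat_lit 369) (nat_lit 5) (nat_lit 581) (nat_lit 532) (nat_lit 447))))) (XT.nd (nat_lit 156) (nat_lit 1520) (nat_lit 0) (XT.nd (nat_lit 78) (nat_lit 684) (nat_lit 0) (XT.lf (nat_lit 0) (nat_lit 2036746921) (nat_lit 836) (nat_lit 1511480273) (nat_lit 76) (nat_lit 5957641156) (nat_lit 357) (nat_lit 5) (nat_lit 368) (nat_lit 5) (nat_lit 358) (nat_lit 5) (nat_lit 582) (nat_lit 532) (nat_lit 446)) (XT.lf (nat_lit 0) (nat_lit 4381640658) (nat_lit 760) (nat_lit 5067155762) (nat_lit 76) (nat_lit 149320742) (nat_lit 348) (nat_lit 5) (nat_lit 358) (nat_lit 5) (nat_lit 349) (nat_lit 5) (nat_lit 583) (nat_lit 532) (nat_lit 445))) (XT.nd (nat_lit 78) (nat_lit 760) (nat_lit 0) (XT.lf (nat_lit 0) (nat_lit 981166678) (nat_lit 760) (nat_lit 5805619104) (nat_lit 836) (nat_lit 2905159565) (nat_lit 338) (nat_lit 5) (nat_lit 348) (nat_lit 5) (nat_lit 349) (nat_lit 5) (nat_lit 584) (nat_lit 532) (nat_lit 444)) (XT.nd (nat_lit 78) (nat_lit 760) (nat_lit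 0) (XT.lf (nat_lit 0) (nat_lit 7188476816) (nat_lit 760) (nat_lit 2059160129) (nat_lit 836) (nat_lit 539862523) (nat_lit 338) (nat_lit 5) (nat_lit 348) (nat_lit 5) (nat_lit 349) (nat_lit 5) (nat_lit 585) (nat_lit 532) (nat_lit 443)) (XT.lf (nat_lit 0) (nat_lit 1857408343) (nat_lit 760) (nat_lit 6256282860) (nat_lit 76) (nat_lit 1770847084) (nat_lit 328) (nat_lit 5) (nat_lit 338) (nat_lit 5) (nat_lit 329) (nat_lit 5) (nat_lit 586) (nat_lit 532) (nat_lit 442)))))) (XT.nd (nat_lit 390) (nat_lit 2508) (nat_lit 0) (XT.nd (nat_lit 156) (nat_lit 1368) (nat_lit 0) (XT.nd (nat_lit 78) (nat_lit 684) (nat_lit 0) (XT.lf (nat_lit 0) (nat_lit 4300826172) (nat_lit 760) (nat_lit 15885933) (nat_lit 76) (nat_lit 5666627157) (nat_lit 328) (nat_lit 5) (nat_lit 338) (nat_lit 5) (nat_lit 329) (nat_lit 5) (nat_lit 587) (nat_lit 532) (nat_lit 441)) (XT.lf (nat_lit 0) (nat_lit 6403201205) (nat_lit 684) (nat_lit 406220680) (nat_lit 760) (nat_lit 3274369508) (nat_lit 319) (nat_lit 5) (nat_lit 328) (nat_lit 5) (nat_lit 329) (nat_lit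 5) (nat_lit 588) (nat_lit 532) (nat_lit 440))) (XT.nd (nat_lit 78) (nat_lit 760) (nat_lit 0) (XT.lf (nat_lit 0) (nat_lit 2747034927) (nat_lit 608) (nat_lit 6637362213) (nat_lit 684) (nat_lit 801532574) (nat_lit 311) (nat_lit 5) (nat_lit 319) (nat_lit 5) (nat_lit 320) (nat_lit 5) (nat_lit 589) (nat_lit 532) (nat_lit 439)) (XT.nd (nat_lit 78) (nat_lit 684) (nat_lit 0) (XT.lf (nat_lit 0) (nat_lit 1700879771) (nat_lit 684) (nat_lit 981038299) (nat_lit 76) (nat_lit 7607916803) (nat_lit 310) (nat_lit 5) (nat_lit 319) (nat_lit 5) (nat_lit 311) (nat_lit 5) (nat_lit 590) (nat_lit 532) (nat_lit 438)) (XT.lf (nat_lit 0) (nat_lit 4263913723) (nat_lit 760) (nat_lit 4759693540) (nat_lit 76) (nat_lit 1371680019) (nat_lit 301) (nat_lit 5) (nat_lit 311) (nat_lit 5) (nat_lit 302) (nat_lit 5) (nat_lit 591) (nat_lit 532) (nat_lit 437))))) (XT.nd (nat_lit 234) (nat_lit 1216) (nat_lit 0) (XT.nd (nat_lit 78) (nat_lit 684) (nat_lit 0) (XT.lf (nat_lit 0) (nat_lit 1871731865) (nat_lit 608) (nat_lit 5018887508) (nat_lit 684) (nat_lit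 3611982346) (nat_lit 293) (nat_lit 5) (nat_lit 301) (nat_lit 5) (nat_lit 302) (nat_lit 5) (nat_lit 592) (nat_lit 532) (nat_lit 436)) (XT.nd (nat_lit 78) (nat_lit 684) (nat_lit 0) (XT.lf (nat_lit 0) (nat_lit 8670351866) (nat_lit 608) (nat_lit 907596540) (nat_lit 684) (nat_lit 1033953434) (nat_lit 293) (nat_lit 5) (nat_lit 301) (nat_lit 5) (nat_lit 302) (nat_lit 5) (nat_lit 593) (nat_lit 532) (nat_lit 435)) (XT.lf (nat_lit 0) (nat_lit 1604596031) (nat_lit 684) (nat_lit 5838731564) (nat_lit 76) (nat_lit 3279256561) (nat_lit 284) (nat_lit 5) (nat_lit 293) (nat_lit 5) (nat_lit 285) (nat_lit 5) (nat_lit 594) (nat_lit 532) (nat_lit 434)))) (XT.nd (nat_lit 78) (nat_lit 608) (nat_lit 0) (XT.lf (nat_lit 0) (nat_lit 1007217157) (nat_lit 608) (nat_lit 3277223488) (nat_lit 684) (nat_lit 6550856521) (nat_lit 276) (nat_lit 5) (nat_lit 284) (nat_lit 5) (nat_lit 285) (nat_lit 5) (nat_lit 595) (nat_lit 532) (nat_lit 433)) (XT.nd (nat_lit 78) (nat_lit 608) (nat_lit 0) (XT.lf (nat_lit 0) (nat_lit 7040546259) (nat_lit 684)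 (nat_lit 2916954337) (nat_lit 76) (nat_lit 992311646) (nat_lit 276) (nat_lit 5) (nat_lit 285) (nat_lit 5) (nat_lit 277) (nat_lit 5) (nat_lit 596) (nat_lit 532) (nat_lit 432)) (XT.lf (nat_lit 0) (nat_lit 4135385276) (nat_lit 608) (nat_lit 5742306041) (nat_lit 684) (nat_lit 1188409025) (nat_lit 268) (nat_lit 5) (nat_lit 276) (nat_lit 5) (nat_lit 277) (nat_lit 5) (nat_lit 597) (nat_lit 532) (nat_lit 431))))))))
noncomputable def xc94 : XT := (XT.nd (nat_lit 76128) (nat_lit 0) (nat_lit 33972) (XT.nd (nat_lit 780) (nat_lit 3192) (nat_lit 0) (XT.nd (nat_lit 390) (nat_lit 1596) (nat_lit 0) (XT.nd (nat_lit 156) (nat_lit 1140) (nat_lit 0) (XT.nd (nat_lit 78) (nat_lit 0) (nat_lit 0) (XT.lf (nat_lit 0) (nat_lit 145821374) (nat_lit 532) (nat_lit 1418350614) (nat_lit 608) (nat_lit 9620374802) (nat_lit 260) (nat_lit 5) (nat_lit 267) (nat_lit 5) (nat_lit 268) (nat_lit 5) (nat_lit 598) (nat_lit 532) (nat_lit 430)) (XT.lf (nat_lit 0) (nat_lit 4399822295) (nat_lit 608) (nat_lit 3904053197) (nat_lit 76) (nat_lit 3000451965)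 (nat_lit 260) (nat_lit 5) (nat_lit 268) (nat_lit 5) (nat_lit 261) (nat_lit 5) (nat_lit 599) (nat_lit 532) (nat_lit 429))) (XT.nd (nat_lit 78) (nat_lit 608) (nat_lit 0) (XT.lf (nat_lit 0) (nat_lit 3378967976) (nat_lit 532) (nat_lit 3922659233) (nat_lit 608) (nat_lit 4124688683) (nat_lit 253) (nat_lit 5) (nat_lit 260) (nat_lit 5) (nat_lit 261) (nat_lit 5) (nat_lit 600) (nat_lit 532) (nat_lit 428)) (XT.nd (nat_lit 78) (nat_lit 608) (nat_lit 0) (XT.lf (nat_lit 0) (nat_lit 10269688428) (nat_lit 608) (nat_lit 722830171) (nat_lit 76) (nat_lit 558062060) (nat_lit 253) (nat_lit 5) (nat_lit 261) (nat_lit 5) (nat_lit 254) (nat_lit 5) (nat_lit 601) (nat_lit 532) (nat_lit 427)) (XT.lf (nat_lit 0) (nat_lit 1647598877) (nat_lit 608) (nat_lit 4904928365) (nat_lit 76) (nat_lit 5123612826) (nat_lit 245) (nat_lit 5) (nat_lit 253) (nat_lit 5) (nat_lit 246) (nat_lit 5) (nat_lit 602) (nat_lit 532) (nat_lit 426))))) (XT.nd (nat_lit 156) (nat_lit 1064) (nat_lit 0) (XT.nd (nat_lit 78) (nat_lit 0) (nat_lit 0) (XT.lf (nat_lit 0)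 (nat_lit 2617659999) (nat_lit 532) (nat_lit 2000561248) (nat_lit 608) (nat_lit 7185806743) (nat_lit 238) (nat_lit 5) (nat_lit 245) (nat_lit 5) (nat_lit 246) (nat_lit 5) (nat_lit 603) (nat_lit 532) (nat_lit 425)) (XT.lf (nat_lit 0) (nat_lit 7677541063) (nat_lit 608) (nat_lit 1623155764) (nat_lit 76) (nat_lit 2633192038) (nat_lit 238) (nat_lit 5) (nat_lit 246) (nat_lit 5) (nat_lit 239) (nat_lit 5) (nat_lit 604) (nat_lit 532) (nat_lit 424))) (XT.nd (nat_lit 78) (nat_lit 608) (nat_lit 0) (XT.lf (nat_lit 0) (nat_lit 6129884504) (nat_lit 456) (nat_lit 4700618512) (nat_lit 532) (nat_lit 1235195703) (nat_lit 232) (nat_lit 5) (nat_lit 238) (nat_lit 5) (nat_lit 239) (nat_lit 5) (nat_lit 605) (nat_lit 532) (nat_lit 423)) (XT.nd (nat_lit 78) (nat_lit 0) (nat_lit 0) (XT.lf (nat_lit 0) (nat_lit 1824711727) (nat_lit 608) (nat_lit 10356468668) (nat_lit 76) (nat_lit 18674500) (nat_lit 224) (nat_lit 5) (nat_lit 232) (nat_lit 5) (nat_lit 225) (nat_lit 5) (nat_lit 606) (nat_lit 532) (nat_lit 422)) (XT.lf (nat_lit 0) (nat_lit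 4980175085) (nat_lit 608) (nat_lit 2545671400) (nat_lit 76) (nat_lit 4809667301) (nat_lit 224) (nat_lit 5) (nat_lit 232) (nat_lit 5) (nat_lit 225) (nat_lit 5) (nat_lit 607) (nat_lit 532) (nat_lit 421)))))) (XT.nd (nat_lit 390) (nat_lit 1292) (nat_lit 0) (XT.nd (nat_lit 156) (nat_lit 988) (nat_lit 0) (XT.nd (nat_lit 78) (nat_lit 456) (nat_lit 0) (XT.lf (nat_lit 0) (nat_lit 5464746038) (nat_lit 456) (nat_lit 2749536775) (nat_lit 532) (nat_lit 4259293149) (nat_lit 218) (nat_lit 5) (nat_lit 224) (nat_lit 5) (nat_lit 225) (nat_lit 5) (nat_lit 608) (nat_lit 532) (nat_lit 420)) (XT.lf (nat_lit 0) (nat_lit 1026975518) (nat_lit 456) (nat_lit 10503949229) (nat_lit 532) (nat_lit 1083118387) (nat_lit 212) (nat_lit 5) (nat_lit 218) (nat_lit 5) (nat_lit 219) (nat_lit 5) (nat_lit 609) (nat_lit 532) (nat_lit 419))) (XT.nd (nat_lit 78) (nat_lit 912) (nat_lit 0) (XT.lf (nat_lit 0) (nat_lit 2174132407) (nat_lit 532) (nat_lit 3498895753) (nat_lit 76) (nat_lit 7083095484) (nat_lit 211) (nat_lit 5) (nat_lit 218) (nat_lit 5)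 (nat_lit 212) (nat_lit 5) (nat_lit 610) (nat_lit 532) (nat_lit 418)) (XT.nd (nat_lit 78) (nat_lit 456) (nat_lit 0) (XT.lf (nat_lit 0) (nat_lit 4778599465) (nat_lit 456) (nat_lit 715134999) (nat_lit 532) (nat_lit 7406934676) (nat_lit 205) (nat_lit 5) (nat_lit 211) (nat_lit 5) (nat_lit 212) (nat_lit 5) (nat_lit 611) (nat_lit 532) (nat_lit 417)) (XT.lf (nat_lit 0) (nat_lit 167201003) (nat_lit 456) (nat_lit 8746251293) (nat_lit 532) (nat_lit 4133979507) (nat_lit 199) (nat_lit 5) (nat_lit 205) (nat_lit 5) (nat_lit 206) (nat_lit 5) (nat_lit 612) (nat_lit 532) (nat_lit 416))))) (XT.nd (nat_lit 156) (nat_lit 836) (nat_lit 0) (XT.nd (nat_lit 78) (nat_lit 456) (nat_lit 0) (XT.lf (nat_lit 0) (nat_lit 8699656852) (nat_lit 456) (nat_lit 3742123551) (nat_lit 532) (nat_lit 754545716) (nat_lit 199) (nat_lit 5) (nat_lit 205) (nat_lit 5) (nat_lit 206) (nat_lit 5) (nat_lit 613) (nat_lit 532) (nat_lit 415)) (XT.lf (nat_lit 0) (nat_lit 2673875236) (nat_lit 456) (nat_lit 9294008052) (nat_lit 76) (nat_lit 1379631882) (nat_lit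 193) (nat_lit 5) (nat_lit 199) (nat_lit 5) (nat_lit 194) (nat_lit 5) (nat_lit 614) (nat_lit 532) (nat_lit 414))) (XT.nd (nat_lit 78) (nat_lit 836) (nat_lit 0) (XT.lf (nat_lit 0) (nat_lit 6197315872) (nat_lit 456) (nat_lit 723196526) (nat_lit 76) (nat_lit 6580385438) (nat_lit 193) (nat_lit 5) (nat_lit 199) (nat_lit 5) (nat_lit 194) (nat_lit 5) (nat_lit 615) (nat_lit 532) (nat_lit 413)) (XT.nd (nat_lit 78) (nat_lit 380) (nat_lit 0) (XT.lf (nat_lit 0) (nat_lit 8098048898) (nat_lit 456) (nat_lit 1727507325) (nat_lit 532) (nat_lit 3831105978) (nat_lit 187) (nat_lit 5) (nat_lit 193) (nat_lit 5) (nat_lit 194) (nat_lit 5) (nat_lit 616) (nat_lit 532) (nat_lit 412)) (XT.lf (nat_lit 0) (nat_lit 3282608098) (nat_lit 380) (nat_lit 10275003286) (nat_lit 456) (nat_lit 257306120) (nat_lit 182) (nat_lit 5) (nat_lit 187) (nat_lit 5) (nat_lit 188) (nat_lit 5) (nat_lit 617) (nat_lit 532) (nat_lit 411))))))) (XT.nd (nat_lit 780) (nat_lit 3420) (nat_lit 0) (XT.nd (nat_lit 390) (nat_lit 1976) (nat_lit 0) (XT.nd (nat_lit 156)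 (nat_lit 912) (nat_lit 0) (XT.nd (nat_lit 78) (nat_lit 0) (nat_lit 0) (XT.lf (nat_lit 0) (nat_lit 826088477) (nat_lit 0) (nat_lit 826088477) (nat_lit 836) (nat_lit 1729491204) (nat_lit 712) (nat_lit 5) (nat_lit 712) (nat_lit 3) (nat_lit 723) (nat_lit 3) (nat_lit 533) (nat_lit 533) (nat_lit 494)) (XT.lf (nat_lit 0) (nat_lit 5051382694) (nat_lit 0) (nat_lit 386821741) (nat_lit 836) (nat_lit 1350562088) (nat_lit 712) (nat_lit 5) (nat_lit 712) (nat_lit 3) (nat_lit 723) (nat_lit 3) (nat_lit 534) (nat_lit 533) (nat_lit 493))) (XT.nd (nat_lit 78) (nat_lit 0) (nat_lit 0) (XT.lf (nat_lit 0) (nat_lit 751200759) (nat_lit 912) (nat_lit 5129071087) (nat_lit 988) (nat_lit 935101079) (nat_lit 700) (nat_lit 5) (nat_lit 712) (nat_lit 5) (nat_lit 713) (nat_lit 5) (nat_lit 535) (nat_lit 533) (nat_lit 492)) (XT.nd (nat_lit 78) (nat_lit 0) (nat_lit 0) (XT.lf (nat_lit 0) (nat_lit 2836831793) (nat_lit 912) (nat_lit 1681225686) (nat_lit 988) (nat_lit 2325081808) (nat_lit 700) (nat_lit 5) (nat_lit 712) (nat_lit 5) (nat_lit 713)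 (nat_lit 5) (nat_lit 536) (nat_lit 533) (nat_lit 491)) (XT.lf (nat_lit 76) (nat_lit 1830787475) (nat_lit 0) (nat_lit 3091943626) (nat_lit 988) (nat_lit 1949563383) (nat_lit 701) (nat_lit 5) (nat_lit 700) (nat_lit 5) (nat_lit 713) (nat_lit 5) (nat_lit 537) (nat_lit 533) (nat_lit 490))))) (XT.nd (nat_lit 156) (nat_lit 988) (nat_lit 0) (XT.nd (nat_lit 78) (nat_lit 0) (nat_lit 0) (XT.lf (nat_lit 0) (nat_lit 104903997) (nat_lit 988) (nat_lit 1496331682) (nat_lit 1064) (nat_lit 5301611619) (nat_lit 687) (nat_lit 5) (nat_lit 700) (nat_lit 5) (nat_lit 701) (nat_lit 5) (nat_lit 538) (nat_lit 533) (nat_lit 489)) (XT.lf (nat_lit 76) (nat_lit 2105710542) (nat_lit 0) (nat_lit 30554298) (nat_lit 1064) (nat_lit 4798254776) (nat_lit 688) (nat_lit 5) (nat_lit 687) (nat_lit 5) (nat_lit 701) (nat_lit 5) (nat_lit 539) (nat_lit 533) (nat_lit 488))) (XT.nd (nat_lit 78) (nat_lit 1064) (nat_lit 0) (XT.lf (nat_lit 0) (nat_lit 4177752266) (nat_lit 988) (nat_lit 1206539907) (nat_lit 1064) (nat_lit 1583147492) (nat_lit 688) (nat_lit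 5) (nat_lit 701) (nat_lit 5) (nat_lit 702) (nat_lit 5) (nat_lit 540) (nat_lit 533) (nat_lit 487)) (XT.nd (nat_lit 78) (nat_lit 1064) (nat_lit 0) (XT.lf (nat_lit 76) (nat_lit 2491509532) (nat_lit 0) (nat_lit 3735123304) (nat_lit 1064) (nat_lit 775058197) (nat_lit 689) (nat_lit 5) (nat_lit 688) (nat_lit 5) (nat_lit 702) (nat_lit 5) (nat_lit 541) (nat_lit 533) (nat_lit 486)) (XT.lf (nat_lit 0) (nat_lit 1221872699) (nat_lit 1064) (nat_lit 794561501) (nat_lit 1140) (nat_lit 5020855163) (nat_lit 674) (nat_lit 5) (nat_lit 688) (nat_lit 5) (nat_lit 689) (nat_lit 5) (nat_lit 542) (nat_lit 533) (nat_lit 485)))))) (XT.nd (nat_lit 390) (nat_lit 2356) (nat_lit 0) (XT.nd (nat_lit 156) (nat_lit 1064) (nat_lit 0) (XT.nd (nat_lit 78) (nat_lit 0) (nat_lit 76) (XT.lf (nat_lit 76) (nat_lit 3000563954) (nat_lit 0) (nat_lit 218903949) (nat_lit 1140) (nat_lit 3854611164) (nat_lit 675) (nat_lit 5) (nat_lit 674) (nat_lit 5) (nat_lit 689) (nat_lit 5) (nat_lit 543) (nat_lit 533) (nat_lit 484)) (XT.lf (nat_lit 0) (nat_lit 5225361072)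 (nat_lit 1064) (nat_lit 269568199) (nat_lit 1140) (nat_lit 1617312243) (nat_lit 675) (nat_lit 5) (nat_lit 689) (nat_lit 5) (nat_lit 690) (nat_lit 5) (nat_lit 544) (nat_lit 533) (nat_lit 483))) (XT.nd (nat_lit 78) (nat_lit 0) (nat_lit 0) (XT.lf (nat_lit 0) (nat_lit 96909372) (nat_lit 1140) (nat_lit 3524987894) (nat_lit 1216) (nat_lit 3529692432) (nat_lit 660) (nat_lit 5) (nat_lit 675) (nat_lit 5) (nat_lit 676) (nat_lit 5) (nat_lit 545) (nat_lit 533) (nat_lit 482)) (XT.nd (nat_lit 78) (nat_lit 0) (nat_lit 76) (XT.lf (nat_lit 76) (nat_lit 375323170) (nat_lit 0) (nat_lit 1677911966) (nat_lit 1216) (nat_lit 5139081399) (nat_lit 661) (nat_lit 5) (nat_lit 660) (nat_lit 5) (nat_lit 676) (nat_lit 5) (nat_lit 546) (nat_lit 533) (nat_lit 481)) (XT.lf (nat_lit 0) (nat_lit 4029138910) (nat_lit 1140) (nat_lit 2864670663) (nat_lit 1216) (nat_lit 340442879) (nat_lit 661) (nat_lit 5) (nat_lit 676) (nat_lit 5) (nat_lit 677) (nat_lit 5) (nat_lit 547) (nat_lit 533) (nat_lit 480))))) (XT.nd (nat_lit 234) (nat_lit 1216) (nat_lit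 0) (XT.nd (nat_lit 78) (nat_lit 1216) (nat_lit 0) (XT.lf (nat_lit 76) (nat_lit 1140572928) (nat_lit 0) (nat_lit 4878054557) (nat_lit 1216) (nat_lit 1258921772) (nat_lit 662) (nat_lit 5) (nat_lit 661) (nat_lit 5) (nat_lit 677) (nat_lit 5) (nat_lit 548) (nat_lit 533) (nat_lit 479)) (XT.nd (nat_lit 78) (nat_lit 0) (nat_lit 0) (XT.lf (nat_lit 0) (nat_lit 691954786) (nat_lit 1216) (nat_lit 2091781184) (nat_lit 1292) (nat_lit 4538379394) (nat_lit 645) (nat_lit 5) (nat_lit 661) (nat_lit 5) (nat_lit 662) (nat_lit 5) (nat_lit 549) (nat_lit 533) (nat_lit 478)) (XT.lf (nat_lit 76) (nat_lit 2022740441) (nat_lit 0) (nat_lit 612198593) (nat_lit 1292) (nat_lit 4733071689) (nat_lit 646) (nat_lit 5) (nat_lit 645) (nat_lit 5) (nat_lit 662) (nat_lit 5) (nat_lit 550) (nat_lit 533) (nat_lit 477)))) (XT.nd (nat_lit 78) (nat_lit 1292) (nat_lit 0) (XT.lf (nat_lit 0) (nat_lit 4598856832) (nat_lit 1216) (nat_lit 1207646657) (nat_lit 1292) (nat_lit 1608682259) (nat_lit 646) (nat_lit 5) (nat_lit 662) (nat_lit 5) (nat_lit 663) (nat_lit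 5) (nat_lit 551) (nat_lit 533) (nat_lit 476)) (XT.nd (nat_lit 78) (nat_lit 1292) (nat_lit 0) (XT.lf (nat_lit 76) (nat_lit 3018348236) (nat_lit 0) (nat_lit 3565726464) (nat_lit 1292) (nat_lit 879592312) (nat_lit 647) (nat_lit 5) (nat_lit 646) (nat_lit 5) (nat_lit 663) (nat_lit 5) (nat_lit 552) (nat_lit 533) (nat_lit 475)) (XT.lf (nat_lit 0) (nat_lit 1048382983) (nat_lit 1292) (nat_lit 205159612) (nat_lit 1368) (nat_lit 6260098521) (nat_lit 629) (nat_lit 5) (nat_lit 646) (nat_lit 5) (nat_lit 647) (nat_lit 5) (nat_lit 553) (nat_lit 533) (nat_lit 474))))))))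
noncomputable def xc95 : XT := (XT.nd (nat_lit 1560) (nat_lit 10564) (nat_lit 0) (XT.nd (nat_lit 780) (nat_lit 8360) (nat_lit 0) (XT.nd (nat_lit 390) (nat_lit 4636) (nat_lit 0) (XT.nd (nat_lit 156) (nat_lit 1444) (nat_lit 0) (XT.nd (nat_lit 78) (nat_lit 1292) (nat_lit 0) (XT.lf (nat_lit 0) (nat_lit 2997010172) (nat_lit 1292) (nat_lit 3433652083) (nat_lit 76) (nat_lit 1133961752) (nat_lit 630) (nat_lit 5) (nat_lit 647) (nat_lit 5) (nat_lit 631) (nat_lit 5) (nat_lit 554) (nat_lit 533) (nat_lit 473)) (XT.lf (nat_lit 0) (nat_lit 913328803) (nat_lit 1292) (nat_lit 4047096542) (nat_lit 1368) (nat_lit 2656687835) (nat_lit 613) (nat_lit 5) (nat_lit 630) (nat_lit 5) (nat_lit 631) (nat_lit 5) (nat_lit 555) (nat_lit 533) (nat_lit 472))) (XT.nd (nat_lit 78) (nat_lit 1444) (nat_lit 0) (XT.lf (nat_lit 0) (nat_lit 5363646009) (nat_lit 1292) (nat_lit 1583287168) (nat_lit 1368) (nat_lit 724045344) (nat_lit 613) (nat_lit 5) (nat_lit 630) (nat_lit 5) (nat_lit 631) (nat_lit 5) (nat_lit 556) (nat_lit 533) (nat_lit 471)) (XT.nd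 (nat_lit 78) (nat_lit 0) (nat_lit 0) (XT.lf (nat_lit 0) (nat_lit 1212497683) (nat_lit 1444) (nat_lit 5565192797) (nat_lit 76) (nat_lit 948439381) (nat_lit 594) (nat_lit 5) (nat_lit 613) (nat_lit 5) (nat_lit 595) (nat_lit 5) (nat_lit 557) (nat_lit 533) (nat_lit 470)) (XT.lf (nat_lit 0) (nat_lit 3166069899) (nat_lit 1444) (nat_lit 1078303620) (nat_lit 76) (nat_lit 3538157832) (nat_lit 594) (nat_lit 5) (nat_lit 613) (nat_lit 5) (nat_lit 595) (nat_lit 5) (nat_lit 558) (nat_lit 533) (nat_lit 469))))) (XT.nd (nat_lit 156) (nat_lit 1672) (nat_lit 0) (XT.nd (nat_lit 78) (nat_lit 1520) (nat_lit 0) (XT.lf (nat_lit 0) (nat_lit 3514321447) (nat_lit 1444) (nat_lit 1629869155) (nat_lit 1520) (nat_lit 2696163384) (nat_lit 575) (nat_lit 5) (nat_lit 594) (nat_lit 5) (nat_lit 595) (nat_lit 5) (nat_lit 559) (nat_lit 533) (nat_lit 468)) (XT.lf (nat_lit 0) (nat_lit 280446770) (nat_lit 1520) (nat_lit 6860506755) (nat_lit 1596) (nat_lit 758800555) (nat_lit 555) (nat_lit 5) (nat_lit 575) (nat_lit 5) (nat_lit 576) (nat_lit 5) (nat_lit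 560) (nat_lit 533) (nat_lit 467))) (XT.nd (nat_lit 78) (nat_lit 1596) (nat_lit 0) (XT.lf (nat_lit 0) (nat_lit 1204883364) (nat_lit 1596) (nat_lit 2971918864) (nat_lit 76) (nat_lit 3783313596) (nat_lit 554) (nat_lit 5) (nat_lit 575) (nat_lit 5) (nat_lit 555) (nat_lit 5) (nat_lit 561) (nat_lit 533) (nat_lit 466)) (XT.nd (nat_lit 78) (nat_lit 0) (nat_lit 0) (XT.lf (nat_lit 0) (nat_lit 1756066649) (nat_lit 1596) (nat_lit 1417263279) (nat_lit 1672) (nat_lit 4848744029) (nat_lit 533) (nat_lit 5) (nat_lit 554) (nat_lit 5) (nat_lit 555) (nat_lit 5) (nat_lit 562) (nat_lit 533) (nat_lit 465)) (XT.lf (nat_lit 0) (nat_lit 5175070696) (nat_lit 1672) (nat_lit 1506078315) (nat_lit 76) (nat_lit 1404246141) (nat_lit 533) (nat_lit 5) (nat_lit 555) (nat_lit 5) (nat_lit 534) (nat_lit 5) (nat_lit 563) (nat_lit 533) (nat_lit 464)))))) (XT.nd (nat_lit 390) (nat_lit 3040) (nat_lit 0) (XT.nd (nat_lit 156) (nat_lit 1824) (nat_lit 0) (XT.nd (nat_lit 78) (nat_lit 1824) (nat_lit 0) (XT.lf (nat_lit 0) (nat_lit 3353351464) (nat_lit 1672)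 (nat_lit 3860120278) (nat_lit 1748) (nat_lit 936580877) (nat_lit 511) (nat_lit 5) (nat_lit 533) (nat_lit 5) (nat_lit 534) (nat_lit 5) (nat_lit 564) (nat_lit 533) (nat_lit 463)) (XT.lf (nat_lit 0) (nat_lit 77999548) (nat_lit 1748) (nat_lit 960919038) (nat_lit 1824) (nat_lit 7177419084) (nat_lit 487) (nat_lit 5) (nat_lit 510) (nat_lit 5) (nat_lit 511) (nat_lit 5) (nat_lit 565) (nat_lit 533) (nat_lit 462))) (XT.nd (nat_lit 78) (nat_lit 1824) (nat_lit 0) (XT.lf (nat_lit 0) (nat_lit 3052980475) (nat_lit 1824) (nat_lit 3218516623) (nat_lit 76) (nat_lit 2012097867) (nat_lit 487) (nat_lit 5) (nat_lit 511) (nat_lit 5) (nat_lit 488) (nat_lit 5) (nat_lit 566) (nat_lit 533) (nat_lit 461)) (XT.nd (nat_lit 78) (nat_lit 0) (nat_lit 0) (XT.lf (nat_lit 0) (nat_lit 1786324387) (nat_lit 1824) (nat_lit 3305842178) (nat_lit 1900) (nat_lit 3260336157) (nat_lit 463) (nat_lit 5) (nat_lit 487) (nat_lit 5) (nat_lit 488) (nat_lit 5) (nat_lit 567) (nat_lit 533) (nat_lit 460)) (XT.lf (nat_lit 0) (nat_lit 6904649146) (nat_lit 1824)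 (nat_lit 256419476) (nat_lit 1900) (nat_lit 1261943503) (nat_lit 463) (nat_lit 5) (nat_lit 487) (nat_lit 5) (nat_lit 488) (nat_lit 5) (nat_lit 568) (nat_lit 533) (nat_lit 459))))) (XT.nd (nat_lit 156) (nat_lit 988) (nat_lit 0) (XT.nd (nat_lit 78) (nat_lit 912) (nat_lit 0) (XT.lf (nat_lit 0) (nat_lit 776382092) (nat_lit 1140) (nat_lit 4870670017) (nat_lit 76) (nat_lit 2847577882) (nat_lit 448) (nat_lit 5) (nat_lit 463) (nat_lit 5) (nat_lit 449) (nat_lit 5) (nat_lit 569) (nat_lit 533) (nat_lit 458)) (XT.lf (nat_lit 0) (nat_lit 285322893) (nat_lit 912) (nat_lit 2535288082) (nat_lit 988) (nat_lit 5747263738) (nat_lit 436) (nat_lit 5) (nat_lit 448) (nat_lit 5) (nat_lit 449) (nat_lit 5) (nat_lit 570) (nat_lit 533) (nat_lit 457))) (XT.nd (nat_lit 78) (nat_lit 988) (nat_lit 0) (XT.lf (nat_lit 0) (nat_lit 4911416938) (nat_lit 988) (nat_lit 3066801280) (nat_lit 76) (nat_lit 664254234) (nat_lit 436) (nat_lit 5) (nat_lit 449) (nat_lit 5) (nat_lit 437) (nat_lit 5) (nat_lit 571) (nat_lit 533) (nat_lit 456)) (XT.nd (nat_lit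 78) (nat_lit 76) (nat_lit 0) (XT.lf (nat_lit 0) (nat_lit 2235433444) (nat_lit 912) (nat_lit 4809168645) (nat_lit 988) (nat_lit 1673950729) (nat_lit 424) (nat_lit 5) (nat_lit 436) (nat_lit 5) (nat_lit 437) (nat_lit 5) (nat_lit 572) (nat_lit 533) (nat_lit 455)) (XT.lf (nat_lit 0) (nat_lit 408910929) (nat_lit 988) (nat_lit 1143917031) (nat_lit 76) (nat_lit 7243470004) (nat_lit 423) (nat_lit 5) (nat_lit 436) (nat_lit 5) (nat_lit 424) (nat_lit 5) (nat_lit 573) (nat_lit 533) (nat_lit 454))))))) (XT.nd (nat_lit 780) (nat_lit 4864) (nat_lit 0) (XT.nd (nat_lit 390) (nat_lit 3116) (nat_lit 0) (XT.nd (nat_lit 156) (nat_lit 912) (nat_lit 0) (XT.nd (nat_lit 78) (nat_lit 836) (nat_lit 0) (XT.lf (nat_lit 0) (nat_lit 2520873741) (nat_lit 912) (nat_lit 4569515565) (nat_lit 76) (nat_lit 1784792072) (nat_lit 412) (nat_lit 5) (nat_lit 424) (nat_lit 5) (nat_lit 413) (nat_lit 5) (nat_lit 574) (nat_lit 533) (nat_lit 453)) (XT.lf (nat_lit 0) (nat_lit 895303486) (nat_lit 836) (nat_lit 3774050350) (nat_lit 912) (nat_lit 4286404849)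 (nat_lit 401) (nat_lit 5) (nat_lit 412) (nat_lit 5) (nat_lit 413) (nat_lit 5) (nat_lit 575) (nat_lit 533) (nat_lit 452))) (XT.nd (nat_lit 78) (nat_lit 912) (nat_lit 0) (XT.lf (nat_lit 0) (nat_lit 6501198062) (nat_lit 836) (nat_lit 361107195) (nat_lit 912) (nat_lit 2175613999) (nat_lit 401) (nat_lit 5) (nat_lit 412) (nat_lit 5) (nat_lit 413) (nat_lit 5) (nat_lit 576) (nat_lit 533) (nat_lit 451)) (XT.nd (nat_lit 78) (nat_lit 76) (nat_lit 0) (XT.lf (nat_lit 0) (nat_lit 3087586420) (nat_lit 836) (nat_lit 6023236983) (nat_lit 912) (nat_lit 10667200) (nat_lit 390) (nat_lit 5) (nat_lit 401) (nat_lit 5) (nat_lit 402) (nat_lit 5) (nat_lit 577) (nat_lit 533) (nat_lit 450)) (XT.lf (nat_lit 0) (nat_lit 2159864831) (nat_lit 912) (nat_lit 394717766) (nat_lit 76) (nat_lit 6652044910) (nat_lit 389) (nat_lit 5) (nat_lit 401) (nat_lit 5) (nat_lit 390) (nat_lit 5) (nat_lit 578) (nat_lit 533) (nat_lit 449))))) (XT.nd (nat_lit 156) (nat_lit 1520) (nat_lit 0) (XT.nd (nat_lit 78) (nat_lit 760) (nat_lit 0) (XT.lf (nat_lit 0) (nat_lit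 4387457793) (nat_lit 912) (nat_lit 3901672589) (nat_lit 76) (nat_lit 1004061109) (nat_lit 378) (nat_lit 5) (nat_lit 390) (nat_lit 5) (nat_lit 379) (nat_lit 5) (nat_lit 579) (nat_lit 533) (nat_lit 448)) (XT.lf (nat_lit 0) (nat_lit 1895251063) (nat_lit 760) (nat_lit 4768720576) (nat_lit 836) (nat_lit 2717429325) (nat_lit 368) (nat_lit 5) (nat_lit 378) (nat_lit 5) (nat_lit 379) (nat_lit 5) (nat_lit 580) (nat_lit 533) (nat_lit 447))) (XT.nd (nat_lit 78) (nat_lit 1520) (nat_lit 0) (XT.lf (nat_lit 0) (nat_lit 7831131985) (nat_lit 760) (nat_lit 1153891463) (nat_lit 836) (nat_lit 486372579) (nat_lit 368) (nat_lit 5) (nat_lit 378) (nat_lit 5) (nat_lit 379) (nat_lit 5) (nat_lit 581) (nat_lit 533) (nat_lit 446)) (XT.nd (nat_lit 78) (nat_lit 684) (nat_lit 0) (XT.lf (nat_lit 0) (nat_lit 1783877444) (nat_lit 836) (nat_lit 5241449293) (nat_lit 76) (nat_lit 2537272618) (nat_lit 357) (nat_lit 5) (nat_lit 368) (nat_lit 5) (nat_lit 358) (nat_lit 5) (nat_lit 582) (nat_lit 533) (nat_lit 445)) (XT.lf (nat_lit 0) (nat_lit 737397006)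 (nat_lit 684) (nat_lit 3352634050) (nat_lit 760) (nat_lit 5565592639) (nat_lit 348) (nat_lit 5) (nat_lit 357) (nat_lit 5) (nat_lit 358) (nat_lit 5) (nat_lit 583) (nat_lit 533) (nat_lit 444)))))) (XT.nd (nat_lit 390) (nat_lit 2660) (nat_lit 0) (XT.nd (nat_lit 156) (nat_lit 1444) (nat_lit 0) (XT.nd (nat_lit 78) (nat_lit 760) (nat_lit 0) (XT.lf (nat_lit 0) (nat_lit 6454067457) (nat_lit 760) (nat_lit 2875986685) (nat_lit 76) (nat_lit 420220623) (nat_lit 348) (nat_lit 5) (nat_lit 358) (nat_lit 5) (nat_lit 349) (nat_lit 5) (nat_lit 584) (nat_lit 533) (nat_lit 443)) (XT.lf (nat_lit 0) (nat_lit 3278219886) (nat_lit 760) (nat_lit 5604964652) (nat_lit 836) (nat_lit 963279727) (nat_lit 338) (nat_lit 5) (nat_lit 348) (nat_lit 5) (nat_lit 349) (nat_lit 5) (nat_lit 585) (nat_lit 533) (nat_lit 442))) (XT.nd (nat_lit 78) (nat_lit 1368) (nat_lit 0) (XT.lf (nat_lit 0) (nat_lit 1391614082) (nat_lit 836) (nat_lit 388835066) (nat_lit 76) (nat_lit 8164068194) (nat_lit 337) (nat_lit 5) (nat_lit 348) (nat_lit 5) (nat_lit 338)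 (nat_lit 5) (nat_lit 586) (nat_lit 533) (nat_lit 441)) (XT.nd (nat_lit 78) (nat_lit 684) (nat_lit 0) (XT.lf (nat_lit 0) (nat_lit 3808389908) (nat_lit 760) (nat_lit 4101496698) (nat_lit 76) (nat_lit 2133965209) (nat_lit 328) (nat_lit 5) (nat_lit 338) (nat_lit 5) (nat_lit 329) (nat_lit 5) (nat_lit 587) (nat_lit 533) (nat_lit 440)) (XT.lf (nat_lit 0) (nat_lit 2248493408) (nat_lit 684) (nat_lit 4029255250) (nat_lit 760) (nat_lit 3867340671) (nat_lit 319) (nat_lit 5) (nat_lit 328) (nat_lit 5) (nat_lit 329) (nat_lit 5) (nat_lit 588) (nat_lit 533) (nat_lit 439))))) (XT.nd (nat_lit 234) (nat_lit 1292) (nat_lit 0) (XT.nd (nat_lit 78) (nat_lit 1368) (nat_lit 0) (XT.lf (nat_lit 0) (nat_lit 8751767581) (nat_lit 684) (nat_lit 47776630) (nat_lit 760) (nat_lit 1448747667) (nat_lit 319) (nat_lit 5) (nat_lit 328) (nat_lit 5) (nat_lit 329) (nat_lit 5) (nat_lit 589) (nat_lit 533) (nat_lit 438)) (XT.nd (nat_lit 78) (nat_lit 684) (nat_lit 0) (XT.lf (nat_lit 0) (nat_lit 1039863681) (nat_lit 684) (nat_lit 5317269675) (nat_lit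 76) (nat_lit 3995594117) (nat_lit 310) (nat_lit 5) (nat_lit 319) (nat_lit 5) (nat_lit 311) (nat_lit 5) (nat_lit 590) (nat_lit 533) (nat_lit 437)) (XT.lf (nat_lit 0) (nat_lit 1236235607) (nat_lit 684) (nat_lit 2317182749) (nat_lit 760) (nat_lit 6905751705) (nat_lit 301) (nat_lit 5) (nat_lit 310) (nat_lit 5) (nat_lit 311) (nat_lit 5) (nat_lit 591) (nat_lit 533) (nat_lit 436)))) (XT.nd (nat_lit 78) (nat_lit 1292) (nat_lit 0) (XT.lf (nat_lit 0) (nat_lit 6141215752) (nat_lit 760) (nat_lit 2615646112) (nat_lit 76) (nat_lit 1810401383) (nat_lit 301) (nat_lit 5) (nat_lit 311) (nat_lit 5) (nat_lit 302) (nat_lit 5) (nat_lit 592) (nat_lit 533) (nat_lit 435)) (XT.nd (nat_lit 78) (nat_lit 684) (nat_lit 0) (XT.lf (nat_lit 0) (nat_lit 4133675950) (nat_lit 608) (nat_lit 4666084836) (nat_lit 684) (nat_lit 1877378834) (nat_lit 293) (nat_lit 5) (nat_lit 301) (nat_lit 5) (nat_lit 302) (nat_lit 5) (nat_lit 593) (nat_lit 533) (nat_lit 434)) (XT.lf (nat_lit 0) (nat_lit 233740136) (nat_lit 608) (nat_lit 475159088) (nat_lit 684)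 (nat_lit 10080299446) (nat_lit 284) (nat_lit 5) (nat_lit 292) (nat_lit 5) (nat_lit 293) (nat_lit 5) (nat_lit 594) (nat_lit 533) (nat_lit 433))))))))
noncomputable def xc96 : XT := (XT.nd (nat_lit 1560) (nat_lit 836) (nat_lit 0) (XT.nd (nat_lit 780) (nat_lit 3040) (nat_lit 0) (XT.nd (nat_lit 390) (nat_lit 1672) (nat_lit 0) (XT.nd (nat_lit 156) (nat_lit 1216) (nat_lit 0) (XT.nd (nat_lit 78) (nat_lit 608) (nat_lit 0) (XT.lf (nat_lit 0) (nat_lit 3367806249) (nat_lit 684) (nat_lit 3734151360) (nat_lit 76) (nat_lit 3800373361) (nat_lit 284) (nat_lit 5) (nat_lit 293) (nat_lit 5) (nat_lit 285) (nat_lit 5) (nat_lit 595) (nat_lit 533) (nat_lit 432)) (XT.lf (nat_lit 0) (nat_lit 3234102158) (nat_lit 608) (nat_lit 2847529725) (nat_lit 684) (nat_lit 4936060292) (nat_lit 276) (nat_lit 5) (nat_lit 284) (nat_lit 5) (nat_lit 285) (nat_lit 5) (nat_lit 596) (nat_lit 533) (nat_lit 431))) (XT.nd (nat_lit 78) (nat_lit 1216) (nat_lit 0) (XT.lf (nat_lit 0) (nat_lit 8862453107) (nat_lit 684) (nat_lit 781336388) (nat_lit 76) (nat_lit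 1491317774) (nat_lit 276) (nat_lit 5) (nat_lit 285) (nat_lit 5) (nat_lit 277) (nat_lit 5) (nat_lit 597) (nat_lit 533) (nat_lit 430)) (XT.nd (nat_lit 78) (nat_lit 532) (nat_lit 0) (XT.lf (nat_lit 0) (nat_lit 477090112) (nat_lit 684) (nat_lit 4859621581) (nat_lit 76) (nat_lit 5917324451) (nat_lit 267) (nat_lit 5) (nat_lit 276) (nat_lit 5) (nat_lit 268) (nat_lit 5) (nat_lit 598) (nat_lit 533) (nat_lit 429)) (XT.lf (nat_lit 0) (nat_lit 2336089555) (nat_lit 532) (nat_lit 914125843) (nat_lit 608) (nat_lit 8124852403) (nat_lit 260) (nat_lit 5) (nat_lit 267) (nat_lit 5) (nat_lit 268) (nat_lit 5) (nat_lit 599) (nat_lit 533) (nat_lit 428))))) (XT.nd (nat_lit 156) (nat_lit 1140) (nat_lit 0) (XT.nd (nat_lit 78) (nat_lit 532) (nat_lit 0) (XT.lf (nat_lit 0) (nat_lit 6113522574) (nat_lit 608) (nat_lit 1808542360) (nat_lit 76) (nat_lit 3575761736) (nat_lit 260) (nat_lit 5) (nat_lit 268) (nat_lit 5) (nat_lit 261) (nat_lit 5) (nat_lit 600) (nat_lit 533) (nat_lit 427)) (XT.lf (nat_lit 0) (nat_lit 5605839290) (nat_lit 532)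 (nat_lit 3449667306) (nat_lit 608) (nat_lit 2567106853) (nat_lit 253) (nat_lit 5) (nat_lit 260) (nat_lit 5) (nat_lit 261) (nat_lit 5) (nat_lit 601) (nat_lit 533) (nat_lit 426))) (XT.nd (nat_lit 78) (nat_lit 532) (nat_lit 0) (XT.lf (nat_lit 0) (nat_lit 310310429) (nat_lit 608) (nat_lit 10325320436) (nat_lit 76) (nat_lit 1114068319) (nat_lit 245) (nat_lit 5) (nat_lit 253) (nat_lit 5) (nat_lit 246) (nat_lit 5) (nat_lit 602) (nat_lit 533) (nat_lit 425)) (XT.nd (nat_lit 78) (nat_lit 532) (nat_lit 0) (XT.lf (nat_lit 0) (nat_lit 3253656820) (nat_lit 608) (nat_lit 2851126027) (nat_lit 76) (nat_lit 5773350222) (nat_lit 245) (nat_lit 5) (nat_lit 253) (nat_lit 5) (nat_lit 246) (nat_lit 5) (nat_lit 603) (nat_lit 533) (nat_lit 424)) (XT.lf (nat_lit 0) (nat_lit 4807756861) (nat_lit 532) (nat_lit 1458969211) (nat_lit 608) (nat_lit 5742193316) (nat_lit 238) (nat_lit 5) (nat_lit 245) (nat_lit 5) (nat_lit 246) (nat_lit 5) (nat_lit 604) (nat_lit 533) (nat_lit 423)))))) (XT.nd (nat_lit 390) (nat_lit 1520) (nat_lit 0) (XT.nd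 (nat_lit 156) (nat_lit 988) (nat_lit 0) (XT.nd (nat_lit 78) (nat_lit 76) (nat_lit 0) (XT.lf (nat_lit 0) (nat_lit 473291036) (nat_lit 456) (nat_lit 8890203723) (nat_lit 532) (nat_lit 2778358773) (nat_lit 232) (nat_lit 5) (nat_lit 238) (nat_lit 5) (nat_lit 239) (nat_lit 5) (nat_lit 605) (nat_lit 533) (nat_lit 422)) (XT.lf (nat_lit 0) (nat_lit 279741645) (nat_lit 532) (nat_lit 3917308969) (nat_lit 76) (nat_lit 8079600805) (nat_lit 231) (nat_lit 5) (nat_lit 238) (nat_lit 5) (nat_lit 232) (nat_lit 5) (nat_lit 606) (nat_lit 533) (nat_lit 421))) (XT.nd (nat_lit 78) (nat_lit 456) (nat_lit 0) (XT.lf (nat_lit 0) (nat_lit 3372138437) (nat_lit 608) (nat_lit 8422310337) (nat_lit 76) (nat_lit 619123268) (nat_lit 224) (nat_lit 5) (nat_lit 232) (nat_lit 5) (nat_lit 225) (nat_lit 5) (nat_lit 607) (nat_lit 533) (nat_lit 420)) (XT.nd (nat_lit 78) (nat_lit 456) (nat_lit 0) (XT.lf (nat_lit 0) (nat_lit 6561084935) (nat_lit 608) (nat_lit 497283158) (nat_lit 76) (nat_lit 5494169743) (nat_lit 224) (nat_lit 5) (nat_lit 232) (nat_lit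 5) (nat_lit 225) (nat_lit 5) (nat_lit 608) (nat_lit 533) (nat_lit 419)) (XT.lf (nat_lit 0) (nat_lit 7659531434) (nat_lit 456) (nat_lit 2184838549) (nat_lit 532) (nat_lit 2849302548) (nat_lit 218) (nat_lit 5) (nat_lit 224) (nat_lit 5) (nat_lit 225) (nat_lit 5) (nat_lit 609) (nat_lit 533) (nat_lit 418))))) (XT.nd (nat_lit 156) (nat_lit 988) (nat_lit 0) (XT.nd (nat_lit 78) (nat_lit 0) (nat_lit 0) (XT.lf (nat_lit 0) (nat_lit 374018563) (nat_lit 532) (nat_lit 9695164583) (nat_lit 76) (nat_lit 2767941479) (nat_lit 211) (nat_lit 5) (nat_lit 218) (nat_lit 5) (nat_lit 212) (nat_lit 5) (nat_lit 610) (nat_lit 533) (nat_lit 417)) (XT.lf (nat_lit 0) (nat_lit 3653213016) (nat_lit 532) (nat_lit 1493901691) (nat_lit 76) (nat_lit 7835363928) (nat_lit 211) (nat_lit 5) (nat_lit 218) (nat_lit 5) (nat_lit 212) (nat_lit 5) (nat_lit 611) (nat_lit 533) (nat_lit 416))) (XT.nd (nat_lit 78) (nat_lit 532) (nat_lit 0) (XT.lf (nat_lit 0) (nat_lit 6935492300) (nat_lit 456) (nat_lit 88949297) (nat_lit 532) (nat_lit 6105769843) (nat_lit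 205) (nat_lit 5) (nat_lit 211) (nat_lit 5) (nat_lit 212) (nat_lit 5) (nat_lit 612) (nat_lit 533) (nat_lit 415)) (XT.nd (nat_lit 78) (nat_lit 76) (nat_lit 0) (XT.lf (nat_lit 0) (nat_lit 2242457203) (nat_lit 456) (nat_lit 8259766288) (nat_lit 532) (nat_lit 2777893539) (nat_lit 199) (nat_lit 5) (nat_lit 205) (nat_lit 5) (nat_lit 206) (nat_lit 5) (nat_lit 613) (nat_lit 533) (nat_lit 414)) (XT.lf (nat_lit 0) (nat_lit 632512084) (nat_lit 532) (nat_lit 2531768242) (nat_lit 76) (nat_lit 10268179866) (nat_lit 198) (nat_lit 5) (nat_lit 205) (nat_lit 5) (nat_lit 199) (nat_lit 5) (nat_lit 614) (nat_lit 533) (nat_lit 413))))))) (XT.nd (nat_lit 75426) (nat_lit 0) (nat_lit 34732) (XT.nd (nat_lit 75036) (nat_lit 0) (nat_lit 38000) (XT.nd (nat_lit 156) (nat_lit 0) (nat_lit 0) (XT.nd (nat_lit 78) (nat_lit 456) (nat_lit 0) (XT.lf (nat_lit 0) (nat_lit 4109608267) (nat_lit 456) (nat_lit 7420201238) (nat_lit 76) (nat_lit 2056960571) (nat_lit 193) (nat_lit 5) (nat_lit 199) (nat_lit 5) (nat_lit 194) (nat_lit 5) (nat_lit 615) (nat_lit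 533) (nat_lit 412)) (XT.lf (nat_lit 0) (nat_lit 1298672826) (nat_lit 456) (nat_lit 6386173685) (nat_lit 532) (nat_lit 6058748294) (nat_lit 187) (nat_lit 5) (nat_lit 193) (nat_lit 5) (nat_lit 194) (nat_lit 5) (nat_lit 616) (nat_lit 533) (nat_lit 411))) (XT.nd (nat_lit 74724) (nat_lit 0) (nat_lit 38912) (XT.lf (nat_lit 0) (nat_lit 10266025958) (nat_lit 456) (nat_lit 1097646636) (nat_lit 532) (nat_lit 2539242411) (nat_lit 187) (nat_lit 5) (nat_lit 193) (nat_lit 5) (nat_lit 194) (nat_lit 5) (nat_lit 617) (nat_lit 533) (nat_lit 410)) (XT.nd (nat_lit 78) (nat_lit 0) (nat_lit 0) (XT.lf (nat_lit 0) (nat_lit 360228031) (nat_lit 988) (nat_lit 1523548473) (nat_lit 988) (nat_lit 1523548473) (nat_lit 699) (nat_lit 3) (nat_lit 712) (nat_lit 3) (nat_lit 712) (nat_lit 5) (nat_lit 534) (nat_lit 534) (nat_lit 492)) (XT.lf (nat_lit 76) (nat_lit 342658042) (nat_lit 0) (nat_lit 2420007218) (nat_lit 988) (nat_lit 4079254872) (nat_lit 700) (nat_lit 5) (nat_lit 699) (nat_lit 3) (nat_lit 712) (nat_lit 5) (nat_lit 535) (nat_lit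 534) (nat_lit 491))))) (XT.nd (nat_lit 156) (nat_lit 912) (nat_lit 0) (XT.nd (nat_lit 78) (nat_lit 0) (nat_lit 76) (XT.lf (nat_lit 76) (nat_lit 3813955124) (nat_lit 0) (nat_lit 998711674) (nat_lit 988) (nat_lit 2057734572) (nat_lit 700) (nat_lit 5) (nat_lit 699) (nat_lit 3) (nat_lit 712) (nat_lit 5) (nat_lit 536) (nat_lit 534) (nat_lit 490)) (XT.lf (nat_lit 76) (nat_lit 429697676) (nat_lit 0) (nat_lit 6427403503) (nat_lit 988) (nat_lit 43286931) (nat_lit 701) (nat_lit 5) (nat_lit 700) (nat_lit 5) (nat_lit 713) (nat_lit 5) (nat_lit 537) (nat_lit 534) (nat_lit 489))) (XT.nd (nat_lit 78) (nat_lit 0) (nat_lit 0) (XT.lf (nat_lit 0) (nat_lit 1960542012) (nat_lit 988) (nat_lit 2952120812) (nat_lit 1064) (nat_lit 2018545466) (nat_lit 687) (nat_lit 5) (nat_lit 700) (nat_lit 5) (nat_lit 701) (nat_lit 5) (nat_lit 538) (nat_lit 534) (nat_lit 488)) (XT.nd (nat_lit 78) (nat_lit 0) (nat_lit 0) (XT.lf (nat_lit 76) (nat_lit 616439458) (nat_lit 0) (nat_lit 3340659474) (nat_lit 1064) (nat_lit 3006479869) (nat_lit 688) (nat_lit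 5) (nat_lit 687) (nat_lit 5) (nat_lit 701) (nat_lit 5) (nat_lit 539) (nat_lit 534) (nat_lit 487)) (XT.lf (nat_lit 76) (nat_lit 4268394307) (nat_lit 0) (nat_lit 1695044878) (nat_lit 1064) (nat_lit 1033764681) (nat_lit 688) (nat_lit 5) (nat_lit 687) (nat_lit 5) (nat_lit 701) (nat_lit 5) (nat_lit 540) (nat_lit 534) (nat_lit 486)))))) (XT.nd (nat_lit 390) (nat_lit 1216) (nat_lit 0) (XT.nd (nat_lit 156) (nat_lit 1064) (nat_lit 0) (XT.nd (nat_lit 78) (nat_lit 0) (nat_lit 0) (XT.lf (nat_lit 0) (nat_lit 922480335) (nat_lit 1064) (nat_lit 6092599780) (nat_lit 1140) (nat_lit 17160141) (nat_lit 674) (nat_lit 5) (nat_lit 688) (nat_lit 5) (nat_lit 689) (nat_lit 5) (nat_lit 541) (nat_lit 534) (nat_lit 485)) (XT.lf (nat_lit 0) (nat_lit 2885291931) (nat_lit 1064) (nat_lit 2396381796) (nat_lit 1140) (nat_lit 1786545255) (nat_lit 674) (nat_lit 5) (nat_lit 688) (nat_lit 5) (nat_lit 689) (nat_lit 5) (nat_lit 542) (nat_lit 534) (nat_lit 484))) (XT.nd (nat_lit 78) (nat_lit 1064) (nat_lit 0) (XT.lf (nat_lit 76) (nat_lit 1363181025)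 (nat_lit 0) (nat_lit 3485590553) (nat_lit 1140) (nat_lit 2256921336) (nat_lit 675) (nat_lit 5) (nat_lit 674) (nat_lit 5) (nat_lit 689) (nat_lit 5) (nat_lit 543) (nat_lit 534) (nat_lit 483)) (XT.nd (nat_lit 78) (nat_lit 1064) (nat_lit 0) (XT.lf (nat_lit 76) (nat_lit 5202148024) (nat_lit 0) (nat_lit 1618761542) (nat_lit 1140) (nat_lit 323622773) (nat_lit 675) (nat_lit 5) (nat_lit 674) (nat_lit 5) (nat_lit 689) (nat_lit 5) (nat_lit 544) (nat_lit 534) (nat_lit 482)) (XT.lf (nat_lit 0) (nat_lit 1595226851) (nat_lit 1140) (nat_lit 5266841248) (nat_lit 1216) (nat_lit 322499991) (nat_lit 660) (nat_lit 5) (nat_lit 675) (nat_lit 5) (nat_lit 676) (nat_lit 5) (nat_lit 545) (nat_lit 534) (nat_lit 481))))) (XT.nd (nat_lit 156) (nat_lit 1216) (nat_lit 0) (XT.nd (nat_lit 78) (nat_lit 0) (nat_lit 0) (XT.lf (nat_lit 0) (nat_lit 3526714339) (nat_lit 1140) (nat_lit 1385892524) (nat_lit 1216) (nat_lit 2313186598) (nat_lit 660) (nat_lit 5) (nat_lit 675) (nat_lit 5) (nat_lit 676) (nat_lit 5) (nat_lit 546) (nat_lit 534) (nat_lit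 480)) (XT.lf (nat_lit 76) (nat_lit 2577887951) (nat_lit 0) (nat_lit 2891317367) (nat_lit 1216) (nat_lit 1799194050) (nat_lit 661) (nat_lit 5) (nat_lit 660) (nat_lit 5) (nat_lit 676) (nat_lit 5) (nat_lit 547) (nat_lit 534) (nat_lit 479))) (XT.nd (nat_lit 78) (nat_lit 0) (nat_lit 76) (XT.lf (nat_lit 0) (nat_lit 102260616) (nat_lit 1216) (nat_lit 701899534) (nat_lit 1292) (nat_lit 6508374786) (nat_lit 644) (nat_lit 5) (nat_lit 660) (nat_lit 5) (nat_lit 661) (nat_lit 5) (nat_lit 548) (nat_lit 534) (nat_lit 478)) (XT.nd (nat_lit 78) (nat_lit 0) (nat_lit 0) (XT.lf (nat_lit 0) (nat_lit 2005369772) (nat_lit 1216) (nat_lit 3996318618) (nat_lit 1292) (nat_lit 1355875941) (nat_lit 645) (nat_lit 5) (nat_lit 661) (nat_lit 5) (nat_lit 662) (nat_lit 5) (nat_lit 549) (nat_lit 534) (nat_lit 477)) (XT.lf (nat_lit 76) (nat_lit 78252634) (nat_lit 0) (nat_lit 3836508899) (nat_lit 1292) (nat_lit 3489371609) (nat_lit 646) (nat_lit 5) (nat_lit 645) (nat_lit 5) (nat_lit 662) (nat_lit 5) (nat_lit 550) (nat_lit 534) (nat_lit 476))))))))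
noncomputable def xc97 : XT := (XT.nd (nat_lit 1560) (nat_lit 10488) (nat_lit 0) (XT.nd (nat_lit 780) (nat_lit 9576) (nat_lit 0) (XT.nd (nat_lit 390) (nat_lit 4180) (nat_lit 0) (XT.nd (nat_lit 156) (nat_lit 0) (nat_lit 0) (XT.nd (nat_lit 78) (nat_lit 1216) (nat_lit 0) (XT.lf (nat_lit 76) (nat_lit 4259493375) (nat_lit 0) (nat_lit 1587952876) (nat_lit 1292) (nat_lit 1604488149) (nat_lit 646) (nat_lit 5) (nat_lit 645) (nat_lit 5) (nat_lit 662) (nat_lit 5) (nat_lit 551) (nat_lit 534) (nat_lit 475)) (XT.lf (nat_lit 0) (nat_lit 284000440) (nat_lit 1292) (nat_lit 6500244614) (nat_lit 1368) (nat_lit 717006787) (nat_lit 629) (nat_lit 5) (nat_lit 646) (nat_lit 5) (nat_lit 647) (nat_lit 5) (nat_lit 552) (nat_lit 534) (nat_lit 474))) (XT.nd (nat_lit 78) (nat_lit 0) (nat_lit 0) (XT.lf (nat_lit 0) (nat_lit 2180404293) (nat_lit 1292) (nat_lit 2280486670) (nat_lit 1368) (nat_lit 3090622952) (nat_lit 629) (nat_lit 5) (nat_lit 646) (nat_lit 5) (nat_lit 647) (nat_lit 5) (nat_lit 553) (nat_lit 534) (nat_lit 473)) (XT.nd (nat_lit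 78) (nat_lit 0) (nat_lit 76) (XT.lf (nat_lit 76) (nat_lit 2021080665) (nat_lit 0) (nat_lit 2067099743) (nat_lit 1368) (nat_lit 3515134871) (nat_lit 630) (nat_lit 5) (nat_lit 629) (nat_lit 5) (nat_lit 647) (nat_lit 5) (nat_lit 554) (nat_lit 534) (nat_lit 472)) (XT.lf (nat_lit 0) (nat_lit 6012927078) (nat_lit 1292) (nat_lit 1248539913) (nat_lit 76) (nat_lit 395112252) (nat_lit 630) (nat_lit 5) (nat_lit 647) (nat_lit 5) (nat_lit 631) (nat_lit 5) (nat_lit 555) (nat_lit 534) (nat_lit 471))))) (XT.nd (nat_lit 156) (nat_lit 2888) (nat_lit 0) (XT.nd (nat_lit 78) (nat_lit 0) (nat_lit 0) (XT.lf (nat_lit 0) (nat_lit 257770452) (nat_lit 1368) (nat_lit 4542133741) (nat_lit 76) (nat_lit 2911052829) (nat_lit 612) (nat_lit 5) (nat_lit 630) (nat_lit 5) (nat_lit 613) (nat_lit 5) (nat_lit 556) (nat_lit 534) (nat_lit 470)) (XT.lf (nat_lit 0) (nat_lit 2145720678) (nat_lit 1368) (nat_lit 115221058) (nat_lit 76) (nat_lit 5505855882) (nat_lit 612) (nat_lit 5) (nat_lit 630) (nat_lit 5) (nat_lit 613) (nat_lit 5) (nat_lit 557) (nat_lit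 534) (nat_lit 469))) (XT.nd (nat_lit 78) (nat_lit 1520) (nat_lit 0) (XT.lf (nat_lit 0) (nat_lit 4065365028) (nat_lit 1444) (nat_lit 3396888786) (nat_lit 76) (nat_lit 361625166) (nat_lit 594) (nat_lit 5) (nat_lit 613) (nat_lit 5) (nat_lit 595) (nat_lit 5) (nat_lit 558) (nat_lit 534) (nat_lit 468)) (XT.nd (nat_lit 78) (nat_lit 76) (nat_lit 0) (XT.lf (nat_lit 0) (nat_lit 1150124064) (nat_lit 1444) (nat_lit 4859888907) (nat_lit 1520) (nat_lit 1872359388) (nat_lit 575) (nat_lit 5) (nat_lit 594) (nat_lit 5) (nat_lit 595) (nat_lit 5) (nat_lit 559) (nat_lit 534) (nat_lit 467)) (XT.lf (nat_lit 0) (nat_lit 37466417) (nat_lit 1520) (nat_lit 2137736163) (nat_lit 76) (nat_lit 5767096360) (nat_lit 574) (nat_lit 5) (nat_lit 594) (nat_lit 5) (nat_lit 575) (nat_lit 5) (nat_lit 560) (nat_lit 534) (nat_lit 466)))))) (XT.nd (nat_lit 390) (nat_lit 4712) (nat_lit 0) (XT.nd (nat_lit 156) (nat_lit 3344) (nat_lit 0) (XT.nd (nat_lit 78) (nat_lit 0) (nat_lit 0) (XT.lf (nat_lit 0) (nat_lit 1945214647) (nat_lit 1596) (nat_lit 5467076017)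 (nat_lit 76) (nat_lit 591192379) (nat_lit 554) (nat_lit 5) (nat_lit 575) (nat_lit 5) (nat_lit 555) (nat_lit 5) (nat_lit 561) (nat_lit 534) (nat_lit 465)) (XT.lf (nat_lit 0) (nat_lit 3884902964) (nat_lit 1596) (nat_lit 776855016) (nat_lit 76) (nat_lit 3404259552) (nat_lit 554) (nat_lit 5) (nat_lit 575) (nat_lit 5) (nat_lit 555) (nat_lit 5) (nat_lit 562) (nat_lit 534) (nat_lit 464))) (XT.nd (nat_lit 78) (nat_lit 1748) (nat_lit 0) (XT.lf (nat_lit 0) (nat_lit 4030857956) (nat_lit 1596) (nat_lit 1824325027) (nat_lit 1672) (nat_lit 2274786127) (nat_lit 533) (nat_lit 5) (nat_lit 554) (nat_lit 5) (nat_lit 555) (nat_lit 5) (nat_lit 563) (nat_lit 534) (nat_lit 463)) (XT.nd (nat_lit 78) (nat_lit 76) (nat_lit 0) (XT.lf (nat_lit 0) (nat_lit 722963462) (nat_lit 1672) (nat_lit 7124937486) (nat_lit 1748) (nat_lit 347640435) (nat_lit 511) (nat_lit 5) (nat_lit 533) (nat_lit 5) (nat_lit 534) (nat_lit 5) (nat_lit 564) (nat_lit 534) (nat_lit 462)) (XT.lf (nat_lit 0) (nat_lit 1602991667) (nat_lit 1748) (nat_lit 2617551337) (nat_lit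 76) (nat_lit 4041550920) (nat_lit 510) (nat_lit 5) (nat_lit 533) (nat_lit 5) (nat_lit 511) (nat_lit 5) (nat_lit 565) (nat_lit 534) (nat_lit 461))))) (XT.nd (nat_lit 156) (nat_lit 2964) (nat_lit 0) (XT.nd (nat_lit 78) (nat_lit 0) (nat_lit 0) (XT.lf (nat_lit 0) (nat_lit 2333514008) (nat_lit 1748) (nat_lit 1236675027) (nat_lit 1824) (nat_lit 4760100550) (nat_lit 487) (nat_lit 5) (nat_lit 510) (nat_lit 5) (nat_lit 511) (nat_lit 5) (nat_lit 566) (nat_lit 534) (nat_lit 460)) (XT.lf (nat_lit 0) (nat_lit 5573673873) (nat_lit 1824) (nat_lit 1022107622) (nat_lit 76) (nat_lit 1804130930) (nat_lit 487) (nat_lit 5) (nat_lit 511) (nat_lit 5) (nat_lit 488) (nat_lit 5) (nat_lit 567) (nat_lit 534) (nat_lit 459))) (XT.nd (nat_lit 78) (nat_lit 1140) (nat_lit 0) (XT.lf (nat_lit 0) (nat_lit 4067956660) (nat_lit 1824) (nat_lit 3552040823) (nat_lit 1900) (nat_lit 850876952) (nat_lit 463) (nat_lit 5) (nat_lit 487) (nat_lit 5) (nat_lit 488) (nat_lit 5) (nat_lit 568) (nat_lit 534) (nat_lit 458)) (XT.nd (nat_lit 78) (nat_lit 0) (nat_lit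 0) (XT.lf (nat_lit 0) (nat_lit 702682966) (nat_lit 1064) (nat_lit 425902336) (nat_lit 1140) (nat_lit 7414924059) (nat_lit 448) (nat_lit 5) (nat_lit 462) (nat_lit 5) (nat_lit 463) (nat_lit 5) (nat_lit 569) (nat_lit 534) (nat_lit 457)) (XT.lf (nat_lit 0) (nat_lit 3152768009) (nat_lit 1140) (nat_lit 2700628336) (nat_lit 76) (nat_lit 2763759637) (nat_lit 448) (nat_lit 5) (nat_lit 463) (nat_lit 5) (nat_lit 449) (nat_lit 5) (nat_lit 570) (nat_lit 534) (nat_lit 456))))))) (XT.nd (nat_lit 780) (nat_lit 5168) (nat_lit 0) (XT.nd (nat_lit 390) (nat_lit 2584) (nat_lit 0) (XT.nd (nat_lit 156) (nat_lit 1824) (nat_lit 0) (XT.nd (nat_lit 78) (nat_lit 0) (nat_lit 0) (XT.lf (nat_lit 0) (nat_lit 2543566965) (nat_lit 912) (nat_lit 2662648134) (nat_lit 988) (nat_lit 3486286757) (nat_lit 436) (nat_lit 5) (nat_lit 448) (nat_lit 5) (nat_lit 449) (nat_lit 5) (nat_lit 571) (nat_lit 534) (nat_lit 455)) (XT.lf (nat_lit 0) (nat_lit 7292678820) (nat_lit 988) (nat_lit 873465094) (nat_lit 76) (nat_lit 603373676) (nat_lit 436) (nat_lit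 5) (nat_lit 449) (nat_lit 5) (nat_lit 437) (nat_lit 5) (nat_lit 572) (nat_lit 534) (nat_lit 454))) (XT.nd (nat_lit 78) (nat_lit 836) (nat_lit 0) (XT.lf (nat_lit 0) (nat_lit 582832456) (nat_lit 988) (nat_lit 4331580307) (nat_lit 76) (nat_lit 3933237385) (nat_lit 423) (nat_lit 5) (nat_lit 436) (nat_lit 5) (nat_lit 424) (nat_lit 5) (nat_lit 573) (nat_lit 534) (nat_lit 453)) (XT.nd (nat_lit 78) (nat_lit 0) (nat_lit 0) (XT.lf (nat_lit 0) (nat_lit 1072879247) (nat_lit 836) (nat_lit 1574576677) (nat_lit 912) (nat_lit 6280025309) (nat_lit 412) (nat_lit 5) (nat_lit 423) (nat_lit 5) (nat_lit 424) (nat_lit 5) (nat_lit 574) (nat_lit 534) (nat_lit 452)) (XT.lf (nat_lit 0) (nat_lit 4765560168) (nat_lit 912) (nat_lit 2406037579) (nat_lit 76) (nat_lit 1837069178) (nat_lit 412) (nat_lit 5) (nat_lit 424) (nat_lit 5) (nat_lit 413) (nat_lit 5) (nat_lit 575) (nat_lit 534) (nat_lit 451))))) (XT.nd (nat_lit 156) (nat_lit 1748) (nat_lit 0) (XT.nd (nat_lit 78) (nat_lit 0) (nat_lit 0) (XT.lf (nat_lit 0) (nat_lit 3153243194) (nat_lit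 836) (nat_lit 3775285574) (nat_lit 912) (nat_lit 2162899236) (nat_lit 401) (nat_lit 5) (nat_lit 412) (nat_lit 5) (nat_lit 413) (nat_lit 5) (nat_lit 576) (nat_lit 534) (nat_lit 450)) (XT.lf (nat_lit 0) (nat_lit 8827333433) (nat_lit 836) (nat_lit 295539356) (nat_lit 912) (nat_lit 53210877) (nat_lit 401) (nat_lit 5) (nat_lit 412) (nat_lit 5) (nat_lit 413) (nat_lit 5) (nat_lit 577) (nat_lit 534) (nat_lit 449))) (XT.nd (nat_lit 78) (nat_lit 836) (nat_lit 0) (XT.lf (nat_lit 0) (nat_lit 2099857741) (nat_lit 912) (nat_lit 3902832755) (nat_lit 76) (nat_lit 3258896826) (nat_lit 389) (nat_lit 5) (nat_lit 401) (nat_lit 5) (nat_lit 390) (nat_lit 5) (nat_lit 578) (nat_lit 534) (nat_lit 448)) (XT.nd (nat_lit 78) (nat_lit 0) (nat_lit 0) (XT.lf (nat_lit 0) (nat_lit 1828902567) (nat_lit 836) (nat_lit 2455245366) (nat_lit 912) (nat_lit 5064870215) (nat_lit 378) (nat_lit 5) (nat_lit 389) (nat_lit 5) (nat_lit 390) (nat_lit 5) (nat_lit 579) (nat_lit 534) (nat_lit 447)) (XT.lf (nat_lit 0) (nat_lit 6519058710) (nat_lit 912) (nat_lit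 1746700307) (nat_lit 76) (nat_lit 1172301435) (nat_lit 378) (nat_lit 5) (nat_lit 390) (nat_lit 5) (nat_lit 379) (nat_lit 5) (nat_lit 580) (nat_lit 534) (nat_lit 446)))))) (XT.nd (nat_lit 390) (nat_lit 2888) (nat_lit 0) (XT.nd (nat_lit 156) (nat_lit 684) (nat_lit 0) (XT.nd (nat_lit 78) (nat_lit 836) (nat_lit 0) (XT.lf (nat_lit 0) (nat_lit 4151470992) (nat_lit 760) (nat_lit 4663959089) (nat_lit 836) (nat_lit 713119799) (nat_lit 368) (nat_lit 5) (nat_lit 378) (nat_lit 5) (nat_lit 379) (nat_lit 5) (nat_lit 581) (nat_lit 534) (nat_lit 445)) (XT.lf (nat_lit 0) (nat_lit 538615567) (nat_lit 760) (nat_lit 967109892) (nat_lit 836) (nat_lit 8115145489) (nat_lit 357) (nat_lit 5) (nat_lit 367) (nat_lit 5) (nat_lit 368) (nat_lit 5) (nat_lit 582) (nat_lit 534) (nat_lit 444))) (XT.nd (nat_lit 78) (nat_lit 684) (nat_lit 0) (XT.lf (nat_lit 0) (nat_lit 3787948646) (nat_lit 836) (nat_lit 3121341229) (nat_lit 76) (nat_lit 2805084733) (nat_lit 357) (nat_lit 5) (nat_lit 368) (nat_lit 5) (nat_lit 358) (nat_lit 5) (nat_lit 583)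 (nat_lit 534) (nat_lit 443)) (XT.nd (nat_lit 78) (nat_lit 0) (nat_lit 0) (XT.lf (nat_lit 0) (nat_lit 2962444252) (nat_lit 684) (nat_lit 3153535854) (nat_lit 760) (nat_lit 3693766369) (nat_lit 348) (nat_lit 5) (nat_lit 357) (nat_lit 5) (nat_lit 358) (nat_lit 5) (nat_lit 584) (nat_lit 534) (nat_lit 442)) (XT.lf (nat_lit 0) (nat_lit 8490870822) (nat_lit 760) (nat_lit 730015269) (nat_lit 76) (nat_lit 686135096) (nat_lit 348) (nat_lit 5) (nat_lit 358) (nat_lit 5) (nat_lit 349) (nat_lit 5) (nat_lit 585) (nat_lit 534) (nat_lit 441))))) (XT.nd (nat_lit 234) (nat_lit 1368) (nat_lit 0) (XT.nd (nat_lit 78) (nat_lit 684) (nat_lit 0) (XT.lf (nat_lit 0) (nat_lit 927450598) (nat_lit 836) (nat_lit 4478923274) (nat_lit 76) (nat_lit 4599104502) (nat_lit 337) (nat_lit 5) (nat_lit 348) (nat_lit 5) (nat_lit 338) (nat_lit 5) (nat_lit 586) (nat_lit 534) (nat_lit 440)) (XT.nd (nat_lit 78) (nat_lit 0) (nat_lit 0) (XT.lf (nat_lit 0) (nat_lit 1797856320) (nat_lit 684) (nat_lit 1493174352) (nat_lit 760) (nat_lit 6814846733) (nat_lit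 328) (nat_lit 5) (nat_lit 337) (nat_lit 5) (nat_lit 338) (nat_lit 5) (nat_lit 587) (nat_lit 534) (nat_lit 439)) (XT.lf (nat_lit 0) (nat_lit 5724074620) (nat_lit 760) (nat_lit 1992146568) (nat_lit 76) (nat_lit 2491620659) (nat_lit 328) (nat_lit 5) (nat_lit 338) (nat_lit 5) (nat_lit 329) (nat_lit 5) (nat_lit 588) (nat_lit 534) (nat_lit 438)))) (XT.nd (nat_lit 78) (nat_lit 684) (nat_lit 0) (XT.lf (nat_lit 0) (nat_lit 4470426366) (nat_lit 684) (nat_lit 3750459508) (nat_lit 760) (nat_lit 2090658826) (nat_lit 319) (nat_lit 5) (nat_lit 328) (nat_lit 5) (nat_lit 329) (nat_lit 5) (nat_lit 589) (nat_lit 534) (nat_lit 437)) (XT.nd (nat_lit 78) (nat_lit 0) (nat_lit 0) (XT.lf (nat_lit 0) (nat_lit 341727131) (nat_lit 684) (nat_lit 9769540645) (nat_lit 76) (nat_lit 306089353) (nat_lit 310) (nat_lit 5) (nat_lit 319) (nat_lit 5) (nat_lit 311) (nat_lit 5) (nat_lit 590) (nat_lit 534) (nat_lit 436)) (XT.lf (nat_lit 0) (nat_lit 2835655590) (nat_lit 684) (nat_lit 3246476616) (nat_lit 76) (nat_lit 4442060619) (nat_lit 310) (nat_lit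 5) (nat_lit 319) (nat_lit 5) (nat_lit 311) (nat_lit 5) (nat_lit 591) (nat_lit 534) (nat_lit 435))))))))
noncomputable def xc98 : XT := (XT.nd (nat_lit 1560) (nat_lit 1368) (nat_lit 0) (XT.nd (nat_lit 780) (nat_lit 3192) (nat_lit 0) (XT.nd (nat_lit 390) (nat_lit 2356) (nat_lit 0) (XT.nd (nat_lit 156) (nat_lit 1292) (nat_lit 0) (XT.nd (nat_lit 78) (nat_lit 0) (nat_lit 0) (XT.lf (nat_lit 0) (nat_lit 3423775493) (nat_lit 684) (nat_lit 1954944480) (nat_lit 760) (nat_lit 5254461272) (nat_lit 301) (nat_lit 5) (nat_lit 310) (nat_lit 5) (nat_lit 311) (nat_lit 5) (nat_lit 592) (nat_lit 534) (nat_lit 434)) (XT.lf (nat_lit 0) (nat_lit 7986477356) (nat_lit 760) (nat_lit 515670205) (nat_lit 76) (nat_lit 2241926370) (nat_lit 301) (nat_lit 5) (nat_lit 311) (nat_lit 5) (nat_lit 302) (nat_lit 5) (nat_lit 593) (nat_lit 534) (nat_lit 433))) (XT.nd (nat_lit 78) (nat_lit 684) (nat_lit 0) (XT.lf (nat_lit 0) (nat_lit 6354478504) (nat_lit 608) (nat_lit 4323823658) (nat_lit 684) (nat_lit 178245174) (nat_lit 293) (nat_lit 5) (nat_lit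 301) (nat_lit 5) (nat_lit 302) (nat_lit 5) (nat_lit 594) (nat_lit 534) (nat_lit 432)) (XT.nd (nat_lit 78) (nat_lit 0) (nat_lit 0) (XT.lf (nat_lit 0) (nat_lit 2385186334) (nat_lit 608) (nat_lit 32127521) (nat_lit 684) (nat_lit 8553703170) (nat_lit 284) (nat_lit 5) (nat_lit 292) (nat_lit 5) (nat_lit 293) (nat_lit 5) (nat_lit 595) (nat_lit 534) (nat_lit 431)) (XT.lf (nat_lit 0) (nat_lit 5099059239) (nat_lit 684) (nat_lit 1673737468) (nat_lit 76) (nat_lit 4314223646) (nat_lit 284) (nat_lit 5) (nat_lit 293) (nat_lit 5) (nat_lit 285) (nat_lit 5) (nat_lit 596) (nat_lit 534) (nat_lit 430))))) (XT.nd (nat_lit 156) (nat_lit 1140) (nat_lit 0) (XT.nd (nat_lit 78) (nat_lit 608) (nat_lit 0) (XT.lf (nat_lit 0) (nat_lit 5419834430) (nat_lit 608) (nat_lit 2428472792) (nat_lit 684) (nat_lit 3356760198) (nat_lit 276) (nat_lit 5) (nat_lit 284) (nat_lit 5) (nat_lit 285) (nat_lit 5) (nat_lit 597) (nat_lit 534) (nat_lit 429)) (XT.lf (nat_lit 0) (nat_lit 1329233024) (nat_lit 608) (nat_lit 9334916326) (nat_lit 684) (nat_lit 661094901)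 (nat_lit 268) (nat_lit 5) (nat_lit 276) (nat_lit 5) (nat_lit 277) (nat_lit 5) (nat_lit 598) (nat_lit 534) (nat_lit 428))) (XT.nd (nat_lit 78) (nat_lit 1064) (nat_lit 0) (XT.lf (nat_lit 0) (nat_lit 2095022338) (nat_lit 684) (nat_lit 2840476521) (nat_lit 76) (nat_lit 6511376940) (nat_lit 267) (nat_lit 5) (nat_lit 276) (nat_lit 5) (nat_lit 268) (nat_lit 5) (nat_lit 599) (nat_lit 534) (nat_lit 427)) (XT.nd (nat_lit 78) (nat_lit 532) (nat_lit 0) (XT.lf (nat_lit 0) (nat_lit 4485225565) (nat_lit 532) (nat_lit 420497764) (nat_lit 608) (nat_lit 6664963931) (nat_lit 260) (nat_lit 5) (nat_lit 267) (nat_lit 5) (nat_lit 268) (nat_lit 5) (nat_lit 600) (nat_lit 534) (nat_lit 426)) (XT.lf (nat_lit 0) (nat_lit 247724421) (nat_lit 532) (nat_lit 7552252766) (nat_lit 608) (nat_lit 3896451917) (nat_lit 253) (nat_lit 5) (nat_lit 260) (nat_lit 5) (nat_lit 261) (nat_lit 5) (nat_lit 601) (nat_lit 534) (nat_lit 425)))))) (XT.nd (nat_lit 390) (nat_lit 1596) (nat_lit 0) (XT.nd (nat_lit 156) (nat_lit 988) (nat_lit 0) (XT.nd (nat_lit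 78) (nat_lit 608) (nat_lit 0) (XT.lf (nat_lit 0) (nat_lit 7793400093) (nat_lit 532) (nat_lit 2988628825) (nat_lit 608) (nat_lit 1042059522) (nat_lit 253) (nat_lit 5) (nat_lit 260) (nat_lit 5) (nat_lit 261) (nat_lit 5) (nat_lit 602) (nat_lit 534) (nat_lit 424)) (XT.lf (nat_lit 0) (nat_lit 1858777388) (nat_lit 608) (nat_lit 8422120074) (nat_lit 76) (nat_lit 1672884136) (nat_lit 245) (nat_lit 5) (nat_lit 253) (nat_lit 5) (nat_lit 246) (nat_lit 5) (nat_lit 603) (nat_lit 534) (nat_lit 423))) (XT.nd (nat_lit 78) (nat_lit 988) (nat_lit 0) (XT.lf (nat_lit 0) (nat_lit 4830750300) (nat_lit 608) (nat_lit 839808576) (nat_lit 76) (nat_lit 6414831394) (nat_lit 245) (nat_lit 5) (nat_lit 253) (nat_lit 5) (nat_lit 246) (nat_lit 5) (nat_lit 604) (nat_lit 534) (nat_lit 422)) (XT.nd (nat_lit 78) (nat_lit 456) (nat_lit 0) (XT.lf (nat_lit 0) (nat_lit 6958644470) (nat_lit 532) (nat_lit 929129696) (nat_lit 608) (nat_lit 4331345561) (nat_lit 238) (nat_lit 5) (nat_lit 245) (nat_lit 5) (nat_lit 246) (nat_lit 5) (nat_lit 605) (nat_lit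 534) (nat_lit 421)) (XT.lf (nat_lit 0) (nat_lit 2550146532) (nat_lit 456) (nat_lit 8483985196) (nat_lit 532) (nat_lit 1320829006) (nat_lit 232) (nat_lit 5) (nat_lit 238) (nat_lit 5) (nat_lit 239) (nat_lit 5) (nat_lit 606) (nat_lit 534) (nat_lit 420))))) (XT.nd (nat_lit 156) (nat_lit 988) (nat_lit 0) (XT.nd (nat_lit 78) (nat_lit 532) (nat_lit 0) (XT.lf (nat_lit 0) (nat_lit 1749309423) (nat_lit 532) (nat_lit 1949286996) (nat_lit 76) (nat_lit 8794248470) (nat_lit 231) (nat_lit 5) (nat_lit 238) (nat_lit 5) (nat_lit 232) (nat_lit 5) (nat_lit 607) (nat_lit 534) (nat_lit 419)) (XT.lf (nat_lit 0) (nat_lit 4891842332) (nat_lit 608) (nat_lit 6532617651) (nat_lit 76) (nat_lit 1208279357) (nat_lit 224) (nat_lit 5) (nat_lit 232) (nat_lit 5) (nat_lit 225) (nat_lit 5) (nat_lit 608) (nat_lit 534) (nat_lit 418))) (XT.nd (nat_lit 78) (nat_lit 532) (nat_lit 0) (XT.lf (nat_lit 0) (nat_lit 1530628879) (nat_lit 456) (nat_lit 6595401029) (nat_lit 532) (nat_lit 4648826454) (nat_lit 218) (nat_lit 5) (nat_lit 224) (nat_lit 5) (nat_lit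 225) (nat_lit 5) (nat_lit 609) (nat_lit 534) (nat_lit 417)) (XT.nd (nat_lit 78) (nat_lit 532) (nat_lit 0) (XT.lf (nat_lit 0) (nat_lit 9817230401) (nat_lit 456) (nat_lit 1632909635) (nat_lit 532) (nat_lit 1469171659) (nat_lit 218) (nat_lit 5) (nat_lit 224) (nat_lit 5) (nat_lit 225) (nat_lit 5) (nat_lit 610) (nat_lit 534) (nat_lit 416)) (XT.lf (nat_lit 0) (nat_lit 1788947916) (nat_lit 532) (nat_lit 7854781623) (nat_lit 76) (nat_lit 3421934166) (nat_lit 211) (nat_lit 5) (nat_lit 218) (nat_lit 5) (nat_lit 212) (nat_lit 5) (nat_lit 611) (nat_lit 534) (nat_lit 415))))))) (XT.nd (nat_lit 75582) (nat_lit 0) (nat_lit 34276) (XT.nd (nat_lit 75192) (nat_lit 0) (nat_lit 37468) (XT.nd (nat_lit 156) (nat_lit 912) (nat_lit 0) (XT.nd (nat_lit 78) (nat_lit 0) (nat_lit 0) (XT.lf (nat_lit 0) (nat_lit 476872833) (nat_lit 456) (nat_lit 4632352560) (nat_lit 532) (nat_lit 8105190487) (nat_lit 205) (nat_lit 5) (nat_lit 211) (nat_lit 5) (nat_lit 212) (nat_lit 5) (nat_lit 612) (nat_lit 534) (nat_lit 414)) (XT.lf (nat_lit 0) (nat_lit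 8533998146) (nat_lit 532) (nat_lit 4313378692) (nat_lit 76) (nat_lit 518005157) (nat_lit 205) (nat_lit 5) (nat_lit 212) (nat_lit 5) (nat_lit 206) (nat_lit 5) (nat_lit 613) (nat_lit 534) (nat_lit 413))) (XT.nd (nat_lit 78) (nat_lit 456) (nat_lit 0) (XT.lf (nat_lit 0) (nat_lit 4278763652) (nat_lit 456) (nat_lit 7789234940) (nat_lit 532) (nat_lit 1450554871) (nat_lit 199) (nat_lit 5) (nat_lit 205) (nat_lit 5) (nat_lit 206) (nat_lit 5) (nat_lit 614) (nat_lit 534) (nat_lit 412)) (XT.nd (nat_lit 78) (nat_lit 380) (nat_lit 0) (XT.lf (nat_lit 0) (nat_lit 1983161935) (nat_lit 532) (nat_lit 612163872) (nat_lit 76) (nat_lit 11078974295) (nat_lit 198) (nat_lit 5) (nat_lit 205) (nat_lit 5) (nat_lit 199) (nat_lit 5) (nat_lit 615) (nat_lit 534) (nat_lit 411)) (XT.lf (nat_lit 0) (nat_lit 5520381292) (nat_lit 456) (nat_lit 5588898442) (nat_lit 76) (nat_lit 2722605790) (nat_lit 193) (nat_lit 5) (nat_lit 199) (nat_lit 5) (nat_lit 194) (nat_lit 5) (nat_lit 616) (nat_lit 534) (nat_lit 410))))) (XT.nd (nat_lit 156) (nat_lit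 988) (nat_lit 0) (XT.nd (nat_lit 78) (nat_lit 0) (nat_lit 0) (XT.lf (nat_lit 0) (nat_lit 2387014310) (nat_lit 988) (nat_lit 523945223) (nat_lit 988) (nat_lit 523945223) (nat_lit 699) (nat_lit 3) (nat_lit 712) (nat_lit 3) (nat_lit 712) (nat_lit 5) (nat_lit 535) (nat_lit 535) (nat_lit 490)) (XT.lf (nat_lit 76) (nat_lit 2396106034) (nat_lit 0) (nat_lit 4395064536) (nat_lit 988) (nat_lit 107779617) (nat_lit 700) (nat_lit 5) (nat_lit 699) (nat_lit 3) (nat_lit 712) (nat_lit 5) (nat_lit 536) (nat_lit 535) (nat_lit 489))) (XT.nd (nat_lit 78) (nat_lit 0) (nat_lit 0) (XT.lf (nat_lit 0) (nat_lit 1850112297) (nat_lit 988) (nat_lit 1045037966) (nat_lit 1064) (nat_lit 4034172223) (nat_lit 686) (nat_lit 5) (nat_lit 699) (nat_lit 3) (nat_lit 700) (nat_lit 5) (nat_lit 537) (nat_lit 535) (nat_lit 488)) (XT.nd (nat_lit 78) (nat_lit 0) (nat_lit 76) (XT.lf (nat_lit 76) (nat_lit 2487183928) (nat_lit 0) (nat_lit 1323932842) (nat_lit 1064) (nat_lit 3149867522) (nat_lit 687) (nat_lit 5) (nat_lit 686) (nat_lit 5) (nat_lit 700) (nat_lit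 5) (nat_lit 538) (nat_lit 535) (nat_lit 487)) (XT.lf (nat_lit 0) (nat_lit 5770433756) (nat_lit 988) (nat_lit 918405326) (nat_lit 1064) (nat_lit 305262593) (nat_lit 687) (nat_lit 5) (nat_lit 700) (nat_lit 5) (nat_lit 701) (nat_lit 5) (nat_lit 539) (nat_lit 535) (nat_lit 486)))))) (XT.nd (nat_lit 390) (nat_lit 1140) (nat_lit 0) (XT.nd (nat_lit 156) (nat_lit 1064) (nat_lit 0) (XT.nd (nat_lit 78) (nat_lit 0) (nat_lit 0) (XT.lf (nat_lit 0) (nat_lit 708731850) (nat_lit 1064) (nat_lit 4325239255) (nat_lit 1140) (nat_lit 1994270191) (nat_lit 673) (nat_lit 5) (nat_lit 687) (nat_lit 5) (nat_lit 688) (nat_lit 5) (nat_lit 540) (nat_lit 535) (nat_lit 485)) (XT.lf (nat_lit 0) (nat_lit 2621273688) (nat_lit 1064) (nat_lit 689350987) (nat_lit 1140) (nat_lit 3753123632) (nat_lit 673) (nat_lit 5) (nat_lit 687) (nat_lit 5) (nat_lit 688) (nat_lit 5) (nat_lit 541) (nat_lit 535) (nat_lit 484))) (XT.nd (nat_lit 78) (nat_lit 1064) (nat_lit 0) (XT.lf (nat_lit 76) (nat_lit 3032007879) (nat_lit 0) (nat_lit 1512352005) (nat_lit 1140)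 (nat_lit 2556163571) (nat_lit 674) (nat_lit 5) (nat_lit 673) (nat_lit 5) (nat_lit 688) (nat_lit 5) (nat_lit 542) (nat_lit 535) (nat_lit 483)) (XT.nd (nat_lit 78) (nat_lit 1140) (nat_lit 0) (XT.lf (nat_lit 0) (nat_lit 6466145563) (nat_lit 1064) (nat_lit 330823753) (nat_lit 1140) (nat_lit 341863826) (nat_lit 674) (nat_lit 5) (nat_lit 688) (nat_lit 5) (nat_lit 689) (nat_lit 5) (nat_lit 543) (nat_lit 535) (nat_lit 482)) (XT.lf (nat_lit 0) (nat_lit 1219073329) (nat_lit 1140) (nat_lit 3696165580) (nat_lit 1216) (nat_lit 2262771859) (nat_lit 659) (nat_lit 5) (nat_lit 674) (nat_lit 5) (nat_lit 675) (nat_lit 5) (nat_lit 544) (nat_lit 535) (nat_lit 481))))) (XT.nd (nat_lit 156) (nat_lit 1140) (nat_lit 0) (XT.nd (nat_lit 78) (nat_lit 0) (nat_lit 0) (XT.lf (nat_lit 76) (nat_lit 126740126) (nat_lit 0) (nat_lit 2970808121) (nat_lit 1216) (nat_lit 4121180624) (nat_lit 660) (nat_lit 5) (nat_lit 659) (nat_lit 5) (nat_lit 675) (nat_lit 5) (nat_lit 545) (nat_lit 535) (nat_lit 480)) (XT.lf (nat_lit 76) (nat_lit 4048612317)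 (nat_lit 0) (nat_lit 945310357) (nat_lit 1216) (nat_lit 2266735564) (nat_lit 660) (nat_lit 5) (nat_lit 659) (nat_lit 5) (nat_lit 675) (nat_lit 5) (nat_lit 546) (nat_lit 535) (nat_lit 479))) (XT.nd (nat_lit 78) (nat_lit 1216) (nat_lit 0) (XT.lf (nat_lit 76) (nat_lit 719621445) (nat_lit 0) (nat_lit 6177057974) (nat_lit 1216) (nat_lit 407381112) (nat_lit 661) (nat_lit 5) (nat_lit 660) (nat_lit 5) (nat_lit 676) (nat_lit 5) (nat_lit 547) (nat_lit 535) (nat_lit 478)) (XT.nd (nat_lit 78) (nat_lit 0) (nat_lit 0) (XT.lf (nat_lit 0) (nat_lit 1454478755) (nat_lit 1216) (nat_lit 2618936900) (nat_lit 1292) (nat_lit 3275028165) (nat_lit 644) (nat_lit 5) (nat_lit 660) (nat_lit 5) (nat_lit 661) (nat_lit 5) (nat_lit 548) (nat_lit 535) (nat_lit 477)) (XT.lf (nat_lit 76) (nat_lit 1413850033) (nat_lit 0) (nat_lit 1901192309) (nat_lit 1292) (nat_lit 4079283386) (nat_lit 645) (nat_lit 5) (nat_lit 644) (nat_lit 5) (nat_lit 661) (nat_lit 5) (nat_lit 549) (nat_lit 535) (nat_lit 476))))))))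
noncomputable def xc99 : XT := (XT.nd (nat_lit 1560) (nat_lit 10868) (nat_lit 0) (XT.nd (nat_lit 780) (nat_lit 10032) (nat_lit 0) (XT.nd (nat_lit 390) (nat_lit 2584) (nat_lit 0) (XT.nd (nat_lit 156) (nat_lit 1292) (nat_lit 0) (XT.nd (nat_lit 78) (nat_lit 0) (nat_lit 0) (XT.lf (nat_lit 0) (nat_lit 5191025780) (nat_lit 1216) (nat_lit 1908751710) (nat_lit 1292) (nat_lit 341786786) (nat_lit 645) (nat_lit 5) (nat_lit 661) (nat_lit 5) (nat_lit 662) (nat_lit 5) (nat_lit 550) (nat_lit 535) (nat_lit 475)) (XT.lf (nat_lit 76) (nat_lit 2233051142) (nat_lit 0) (nat_lit 4857857029) (nat_lit 1292) (nat_lit 399114949) (nat_lit 646) (nat_lit 5) (nat_lit 645) (nat_lit 5) (nat_lit 662) (nat_lit 5) (nat_lit 551) (nat_lit 535) (nat_lit 474))) (XT.nd (nat_lit 78) (nat_lit 0) (nat_lit 0) (XT.lf (nat_lit 0) (nat_lit 1442336636) (nat_lit 1292) (nat_lit 1093792491) (nat_lit 1368) (nat_lit 5003680959) (nat_lit 628) (nat_lit 5) (nat_lit 645) (nat_lit 5) (nat_lit 646) (nat_lit 5) (nat_lit 552) (nat_lit 535) (nat_lit 473)) (XT.nd (nat_lit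 78) (nat_lit 0) (nat_lit 76) (XT.lf (nat_lit 76) (nat_lit 3163649649) (nat_lit 0) (nat_lit 132599291) (nat_lit 1368) (nat_lit 4294674503) (nat_lit 629) (nat_lit 5) (nat_lit 628) (nat_lit 5) (nat_lit 646) (nat_lit 5) (nat_lit 553) (nat_lit 535) (nat_lit 472)) (XT.lf (nat_lit 0) (nat_lit 5170784506) (nat_lit 1292) (nat_lit 165472252) (nat_lit 1368) (nat_lit 2307134282) (nat_lit 629) (nat_lit 5) (nat_lit 646) (nat_lit 5) (nat_lit 647) (nat_lit 5) (nat_lit 554) (nat_lit 535) (nat_lit 471))))) (XT.nd (nat_lit 156) (nat_lit 1292) (nat_lit 0) (XT.nd (nat_lit 78) (nat_lit 1368) (nat_lit 0) (XT.lf (nat_lit 76) (nat_lit 4207911798) (nat_lit 0) (nat_lit 2864960414) (nat_lit 1368) (nat_lit 624237367) (nat_lit 630) (nat_lit 5) (nat_lit 629) (nat_lit 5) (nat_lit 647) (nat_lit 5) (nat_lit 555) (nat_lit 535) (nat_lit 470)) (XT.lf (nat_lit 76) (nat_lit 894376663) (nat_lit 0) (nat_lit 319286254) (nat_lit 1444) (nat_lit 6538696457) (nat_lit 612) (nat_lit 5) (nat_lit 611) (nat_lit 5) (nat_lit 630) (nat_lit 5) (nat_lit 556)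 (nat_lit 535) (nat_lit 469))) (XT.nd (nat_lit 78) (nat_lit 1368) (nat_lit 0) (XT.lf (nat_lit 0) (nat_lit 3081122945) (nat_lit 1368) (nat_lit 2443306707) (nat_lit 76) (nat_lit 2284181438) (nat_lit 612) (nat_lit 5) (nat_lit 630) (nat_lit 5) (nat_lit 613) (nat_lit 5) (nat_lit 557) (nat_lit 535) (nat_lit 468)) (XT.nd (nat_lit 78) (nat_lit 0) (nat_lit 0) (XT.lf (nat_lit 0) (nat_lit 2056176655) (nat_lit 1368) (nat_lit 2908746817) (nat_lit 1444) (nat_lit 2901487145) (nat_lit 594) (nat_lit 5) (nat_lit 612) (nat_lit 5) (nat_lit 613) (nat_lit 5) (nat_lit 558) (nat_lit 535) (nat_lit 467)) (XT.lf (nat_lit 0) (nat_lit 6650616979) (nat_lit 1368) (nat_lit 216238041) (nat_lit 1444) (nat_lit 1058904566) (nat_lit 594) (nat_lit 5) (nat_lit 612) (nat_lit 5) (nat_lit 613) (nat_lit 5) (nat_lit 559) (nat_lit 535) (nat_lit 466)))))) (XT.nd (nat_lit 390) (nat_lit 5320) (nat_lit 0) (XT.nd (nat_lit 156) (nat_lit 3192) (nat_lit 0) (XT.nd (nat_lit 78) (nat_lit 0) (nat_lit 0) (XT.lf (nat_lit 0) (nat_lit 812775379) (nat_lit 1520) (nat_lit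 4641786039) (nat_lit 76) (nat_lit 2531569879) (nat_lit 574) (nat_lit 5) (nat_lit 594) (nat_lit 5) (nat_lit 575) (nat_lit 5) (nat_lit 560) (nat_lit 535) (nat_lit 465)) (XT.lf (nat_lit 0) (nat_lit 2682857411) (nat_lit 1520) (nat_lit 11169817) (nat_lit 76) (nat_lit 5354042687) (nat_lit 574) (nat_lit 5) (nat_lit 594) (nat_lit 5) (nat_lit 575) (nat_lit 5) (nat_lit 561) (nat_lit 535) (nat_lit 464))) (XT.nd (nat_lit 78) (nat_lit 1672) (nat_lit 0) (XT.lf (nat_lit 0) (nat_lit 4587963973) (nat_lit 1596) (nat_lit 3366121238) (nat_lit 76) (nat_lit 157211995) (nat_lit 554) (nat_lit 5) (nat_lit 575) (nat_lit 5) (nat_lit 555) (nat_lit 5) (nat_lit 562) (nat_lit 535) (nat_lit 463)) (XT.nd (nat_lit 78) (nat_lit 76) (nat_lit 0) (XT.lf (nat_lit 0) (nat_lit 1392832285) (nat_lit 1596) (nat_lit 5131601177) (nat_lit 1672) (nat_lit 1651492676) (nat_lit 533) (nat_lit 5) (nat_lit 554) (nat_lit 5) (nat_lit 555) (nat_lit 5) (nat_lit 563) (nat_lit 535) (nat_lit 462)) (XT.lf (nat_lit 0) (nat_lit 243696756) (nat_lit 1672) (nat_lit 1979489897)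 (nat_lit 76) (nat_lit 6018843884) (nat_lit 532) (nat_lit 5) (nat_lit 554) (nat_lit 5) (nat_lit 533) (nat_lit 5) (nat_lit 564) (nat_lit 535) (nat_lit 461))))) (XT.nd (nat_lit 156) (nat_lit 3648) (nat_lit 0) (XT.nd (nat_lit 78) (nat_lit 0) (nat_lit 0) (XT.lf (nat_lit 0) (nat_lit 2145915220) (nat_lit 1748) (nat_lit 5395333774) (nat_lit 76) (nat_lit 768167106) (nat_lit 510) (nat_lit 5) (nat_lit 533) (nat_lit 5) (nat_lit 511) (nat_lit 5) (nat_lit 565) (nat_lit 535) (nat_lit 460)) (XT.lf (nat_lit 0) (nat_lit 4081971020) (nat_lit 1748) (nat_lit 489124471) (nat_lit 76) (nat_lit 3807140159) (nat_lit 510) (nat_lit 5) (nat_lit 533) (nat_lit 5) (nat_lit 511) (nat_lit 5) (nat_lit 566) (nat_lit 535) (nat_lit 459))) (XT.nd (nat_lit 78) (nat_lit 1900) (nat_lit 0) (XT.lf (nat_lit 0) (nat_lit 4546614959) (nat_lit 1748) (nat_lit 1507984468) (nat_lit 1824) (nat_lit 2393877229) (nat_lit 487) (nat_lit 5) (nat_lit 510) (nat_lit 5) (nat_lit 511) (nat_lit 5) (nat_lit 567) (nat_lit 535) (nat_lit 458)) (XT.nd (nat_lit 78) (nat_lit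 76) (nat_lit 0) (XT.lf (nat_lit 0) (nat_lit 1145463703) (nat_lit 1824) (nat_lit 6911243969) (nat_lit 1900) (nat_lit 463616316) (nat_lit 463) (nat_lit 5) (nat_lit 487) (nat_lit 5) (nat_lit 488) (nat_lit 5) (nat_lit 568) (nat_lit 535) (nat_lit 457)) (XT.lf (nat_lit 0) (nat_lit 1490864338) (nat_lit 1900) (nat_lit 2295301821) (nat_lit 76) (nat_lit 4807141495) (nat_lit 462) (nat_lit 5) (nat_lit 487) (nat_lit 5) (nat_lit 463) (nat_lit 5) (nat_lit 569) (nat_lit 535) (nat_lit 456))))))) (XT.nd (nat_lit 780) (nat_lit 5320) (nat_lit 0) (XT.nd (nat_lit 390) (nat_lit 2584) (nat_lit 0) (XT.nd (nat_lit 156) (nat_lit 1900) (nat_lit 0) (XT.nd (nat_lit 78) (nat_lit 0) (nat_lit 0) (XT.lf (nat_lit 0) (nat_lit 2892367835) (nat_lit 1064) (nat_lit 574264067) (nat_lit 1140) (nat_lit 5201291636) (nat_lit 448) (nat_lit 5) (nat_lit 462) (nat_lit 5) (nat_lit 463) (nat_lit 5) (nat_lit 570) (nat_lit 535) (nat_lit 455)) (XT.lf (nat_lit 0) (nat_lit 5485006641) (nat_lit 1140) (nat_lit 575233865) (nat_lit 76) (nat_lit 2683731291) (nat_lit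 448) (nat_lit 5) (nat_lit 463) (nat_lit 5) (nat_lit 449) (nat_lit 5) (nat_lit 571) (nat_lit 535) (nat_lit 454))) (XT.nd (nat_lit 78) (nat_lit 988) (nat_lit 0) (XT.lf (nat_lit 0) (nat_lit 4759507138) (nat_lit 912) (nat_lit 2789578808) (nat_lit 988) (nat_lit 1272350194) (nat_lit 436) (nat_lit 5) (nat_lit 448) (nat_lit 5) (nat_lit 449) (nat_lit 5) (nat_lit 572) (nat_lit 535) (nat_lit 453)) (XT.nd (nat_lit 78) (nat_lit 0) (nat_lit 0) (XT.lf (nat_lit 0) (nat_lit 730881544) (nat_lit 988) (nat_lit 7612376795) (nat_lit 76) (nat_lit 557359841) (nat_lit 423) (nat_lit 5) (nat_lit 436) (nat_lit 5) (nat_lit 424) (nat_lit 5) (nat_lit 573) (nat_lit 535) (nat_lit 452)) (XT.lf (nat_lit 0) (nat_lit 2774293941) (nat_lit 988) (nat_lit 2236247585) (nat_lit 76) (nat_lit 3970332828) (nat_lit 423) (nat_lit 5) (nat_lit 436) (nat_lit 5) (nat_lit 424) (nat_lit 5) (nat_lit 574) (nat_lit 535) (nat_lit 451))))) (XT.nd (nat_lit 156) (nat_lit 1748) (nat_lit 0) (XT.nd (nat_lit 78) (nat_lit 0) (nat_lit 0) (XT.lf (nat_lit 0) (nat_lit 3261946132)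 (nat_lit 836) (nat_lit 1589596033) (nat_lit 912) (nat_lit 4211335852) (nat_lit 412) (nat_lit 5) (nat_lit 423) (nat_lit 5) (nat_lit 424) (nat_lit 5) (nat_lit 575) (nat_lit 535) (nat_lit 450)) (XT.lf (nat_lit 0) (nat_lit 6969934185) (nat_lit 912) (nat_lit 286849318) (nat_lit 76) (nat_lit 1889747957) (nat_lit 412) (nat_lit 5) (nat_lit 424) (nat_lit 5) (nat_lit 413) (nat_lit 5) (nat_lit 576) (nat_lit 535) (nat_lit 449))) (XT.nd (nat_lit 78) (nat_lit 912) (nat_lit 0) (XT.lf (nat_lit 0) (nat_lit 5369358459) (nat_lit 836) (nat_lit 3779428557) (nat_lit 912) (nat_lit 82710747) (nat_lit 401) (nat_lit 5) (nat_lit 412) (nat_lit 5) (nat_lit 413) (nat_lit 5) (nat_lit 577) (nat_lit 535) (nat_lit 448)) (XT.nd (nat_lit 78) (nat_lit 0) (nat_lit 0) (XT.lf (nat_lit 0) (nat_lit 1806577981) (nat_lit 836) (nat_lit 206095206) (nat_lit 912) (nat_lit 7305494280) (nat_lit 389) (nat_lit 5) (nat_lit 400) (nat_lit 5) (nat_lit 401) (nat_lit 5) (nat_lit 578) (nat_lit 535) (nat_lit 447)) (XT.lf (nat_lit 0) (nat_lit 4170493482) (nat_lit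 912) (nat_lit 1816645976) (nat_lit 76) (nat_lit 3418989004) (nat_lit 389) (nat_lit 5) (nat_lit 401) (nat_lit 5) (nat_lit 390) (nat_lit 5) (nat_lit 579) (nat_lit 535) (nat_lit 446)))))) (XT.nd (nat_lit 390) (nat_lit 2888) (nat_lit 0) (XT.nd (nat_lit 156) (nat_lit 836) (nat_lit 0) (XT.nd (nat_lit 78) (nat_lit 760) (nat_lit 0) (XT.lf (nat_lit 0) (nat_lit 4015485609) (nat_lit 836) (nat_lit 2357165901) (nat_lit 912) (nat_lit 3123175065) (nat_lit 378) (nat_lit 5) (nat_lit 389) (nat_lit 5) (nat_lit 390) (nat_lit 5) (nat_lit 580) (nat_lit 535) (nat_lit 445)) (XT.lf (nat_lit 0) (nat_lit 369507241) (nat_lit 760) (nat_lit 8246818235) (nat_lit 836) (nat_lit 971045214) (nat_lit 368) (nat_lit 5) (nat_lit 378) (nat_lit 5) (nat_lit 379) (nat_lit 5) (nat_lit 581) (nat_lit 535) (nat_lit 444))) (XT.nd (nat_lit 78) (nat_lit 760) (nat_lit 0) (XT.lf (nat_lit 0) (nat_lit 1234924220) (nat_lit 836) (nat_lit 3321662680) (nat_lit 76) (nat_lit 5123464235) (nat_lit 367) (nat_lit 5) (nat_lit 378) (nat_lit 5) (nat_lit 368) (nat_lit 5)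 (nat_lit 582) (nat_lit 535) (nat_lit 443)) (XT.nd (nat_lit 78) (nat_lit 0) (nat_lit 0) (XT.lf (nat_lit 0) (nat_lit 2693424101) (nat_lit 760) (nat_lit 770813498) (nat_lit 836) (nat_lit 6310376090) (nat_lit 357) (nat_lit 5) (nat_lit 367) (nat_lit 5) (nat_lit 368) (nat_lit 5) (nat_lit 583) (nat_lit 535) (nat_lit 442)) (XT.lf (nat_lit 0) (nat_lit 5755666148) (nat_lit 836) (nat_lit 1045228022) (nat_lit 76) (nat_lit 3069824127) (nat_lit 357) (nat_lit 5) (nat_lit 368) (nat_lit 5) (nat_lit 358) (nat_lit 5) (nat_lit 584) (nat_lit 535) (nat_lit 441))))) (XT.nd (nat_lit 234) (nat_lit 1368) (nat_lit 0) (XT.nd (nat_lit 78) (nat_lit 836) (nat_lit 0) (XT.lf (nat_lit 0) (nat_lit 5146163827) (nat_lit 684) (nat_lit 2960790656) (nat_lit 760) (nat_lit 1861511243) (nat_lit 348) (nat_lit 5) (nat_lit 357) (nat_lit 5) (nat_lit 358) (nat_lit 5) (nat_lit 585) (nat_lit 535) (nat_lit 440)) (XT.nd (nat_lit 78) (nat_lit 0) (nat_lit 0) (XT.lf (nat_lit 0) (nat_lit 429451359) (nat_lit 836) (nat_lit 8679470909) (nat_lit 76) (nat_lit 959228709)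 (nat_lit 337) (nat_lit 5) (nat_lit 348) (nat_lit 5) (nat_lit 338) (nat_lit 5) (nat_lit 586) (nat_lit 535) (nat_lit 439)) (XT.lf (nat_lit 0) (nat_lit 2769442191) (nat_lit 836) (nat_lit 2440179309) (nat_lit 76) (nat_lit 4959400925) (nat_lit 337) (nat_lit 5) (nat_lit 348) (nat_lit 5) (nat_lit 338) (nat_lit 5) (nat_lit 587) (nat_lit 535) (nat_lit 438)))) (XT.nd (nat_lit 78) (nat_lit 684) (nat_lit 0) (XT.lf (nat_lit 0) (nat_lit 3948133756) (nat_lit 684) (nat_lit 1210133905) (nat_lit 760) (nat_lit 5113604195) (nat_lit 328) (nat_lit 5) (nat_lit 337) (nat_lit 5) (nat_lit 338) (nat_lit 5) (nat_lit 588) (nat_lit 535) (nat_lit 437)) (XT.nd (nat_lit 78) (nat_lit 0) (nat_lit 0) (XT.lf (nat_lit 0) (nat_lit 75283967) (nat_lit 684) (nat_lit 7531847168) (nat_lit 760) (nat_lit 2769403137) (nat_lit 319) (nat_lit 5) (nat_lit 328) (nat_lit 5) (nat_lit 329) (nat_lit 5) (nat_lit 589) (nat_lit 535) (nat_lit 436)) (XT.lf (nat_lit 0) (nat_lit 6652263854) (nat_lit 684) (nat_lit 3480043048) (nat_lit 760) (nat_lit 350437537) (nat_lit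 319) (nat_lit 5) (nat_lit 328) (nat_lit 5) (nat_lit 329) (nat_lit 5) (nat_lit 590) (nat_lit 535) (nat_lit 435))))))))
noncomputable def xc100 : XT := (XT.nd (nat_lit 1560) (nat_lit 1900) (nat_lit 0) (XT.nd (nat_lit 780) (nat_lit 3724) (nat_lit 0) (XT.nd (nat_lit 390) (nat_lit 1900) (nat_lit 0) (XT.nd (nat_lit 156) (nat_lit 1368) (nat_lit 0) (XT.nd (nat_lit 78) (nat_lit 0) (nat_lit 0) (XT.lf (nat_lit 0) (nat_lit 2088752493) (nat_lit 684) (nat_lit 7830481994) (nat_lit 76) (nat_lit 671578415) (nat_lit 310) (nat_lit 5) (nat_lit 319) (nat_lit 5) (nat_lit 311) (nat_lit 5) (nat_lit 591) (nat_lit 535) (nat_lit 434)) (XT.lf (nat_lit 0) (nat_lit 4598438132) (nat_lit 684) (nat_lit 1218808636) (nat_lit 76) (nat_lit 4883222689) (nat_lit 310) (nat_lit 5) (nat_lit 319) (nat_lit 5) (nat_lit 311) (nat_lit 5) (nat_lit 592) (nat_lit 535) (nat_lit 433))) (XT.nd (nat_lit 78) (nat_lit 684) (nat_lit 0) (XT.lf (nat_lit 0) (nat_lit 5571081427) (nat_lit 684) (nat_lit 1601327180) (nat_lit 760) (nat_lit 3639629825) (nat_lit 301) (nat_lit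 5) (nat_lit 310) (nat_lit 5) (nat_lit 311) (nat_lit 5) (nat_lit 593) (nat_lit 535) (nat_lit 432)) (XT.nd (nat_lit 78) (nat_lit 76) (nat_lit 0) (XT.lf (nat_lit 0) (nat_lit 1563231281) (nat_lit 608) (nat_lit 8248678106) (nat_lit 684) (nat_lit 1113649470) (nat_lit 293) (nat_lit 5) (nat_lit 301) (nat_lit 5) (nat_lit 302) (nat_lit 5) (nat_lit 594) (nat_lit 535) (nat_lit 431)) (XT.lf (nat_lit 0) (nat_lit 1467925748) (nat_lit 684) (nat_lit 2513855168) (nat_lit 76) (nat_lit 7058894649) (nat_lit 292) (nat_lit 5) (nat_lit 301) (nat_lit 5) (nat_lit 293) (nat_lit 5) (nat_lit 595) (nat_lit 535) (nat_lit 430))))) (XT.nd (nat_lit 156) (nat_lit 684) (nat_lit 0) (XT.nd (nat_lit 78) (nat_lit 608) (nat_lit 0) (XT.lf (nat_lit 0) (nat_lit 4096718804) (nat_lit 684) (nat_lit 6664102267) (nat_lit 76) (nat_lit 396917378) (nat_lit 284) (nat_lit 5) (nat_lit 293) (nat_lit 5) (nat_lit 285) (nat_lit 5) (nat_lit 596) (nat_lit 535) (nat_lit 429)) (XT.lf (nat_lit 0) (nat_lit 349560838) (nat_lit 608) (nat_lit 6453034887) (nat_lit 684) (nat_lit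 4474057709) (nat_lit 276) (nat_lit 5) (nat_lit 284) (nat_lit 5) (nat_lit 285) (nat_lit 5) (nat_lit 597) (nat_lit 535) (nat_lit 428))) (XT.nd (nat_lit 78) (nat_lit 684) (nat_lit 0) (XT.lf (nat_lit 0) (nat_lit 7566918382) (nat_lit 608) (nat_lit 2019518672) (nat_lit 684) (nat_lit 1811033715) (nat_lit 276) (nat_lit 5) (nat_lit 284) (nat_lit 5) (nat_lit 285) (nat_lit 5) (nat_lit 598) (nat_lit 535) (nat_lit 427)) (XT.nd (nat_lit 78) (nat_lit 0) (nat_lit 0) (XT.lf (nat_lit 0) (nat_lit 911380343) (nat_lit 684) (nat_lit 8116712661) (nat_lit 76) (nat_lit 2492134804) (nat_lit 267) (nat_lit 5) (nat_lit 276) (nat_lit 5) (nat_lit 268) (nat_lit 5) (nat_lit 599) (nat_lit 535) (nat_lit 426)) (XT.lf (nat_lit 0) (nat_lit 3682857448) (nat_lit 684) (nat_lit 863128523) (nat_lit 76) (nat_lit 7098838236) (nat_lit 267) (nat_lit 5) (nat_lit 276) (nat_lit 5) (nat_lit 268) (nat_lit 5) (nat_lit 600) (nat_lit 535) (nat_lit 425)))))) (XT.nd (nat_lit 390) (nat_lit 1520) (nat_lit 0) (XT.nd (nat_lit 156) (nat_lit 1140) (nat_lit 0) (XT.nd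 (nat_lit 78) (nat_lit 532) (nat_lit 0) (XT.lf (nat_lit 0) (nat_lit 6532990074) (nat_lit 608) (nat_lit 5176161981) (nat_lit 76) (nat_lit 62296870) (nat_lit 260) (nat_lit 5) (nat_lit 268) (nat_lit 5) (nat_lit 261) (nat_lit 5) (nat_lit 601) (nat_lit 535) (nat_lit 424)) (XT.lf (nat_lit 0) (nat_lit 2287427946) (nat_lit 532) (nat_lit 7183658776) (nat_lit 608) (nat_lit 2428901084) (nat_lit 253) (nat_lit 5) (nat_lit 260) (nat_lit 5) (nat_lit 261) (nat_lit 5) (nat_lit 602) (nat_lit 535) (nat_lit 423))) (XT.nd (nat_lit 78) (nat_lit 1064) (nat_lit 0) (XT.lf (nat_lit 0) (nat_lit 446343955) (nat_lit 608) (nat_lit 2089612199) (nat_lit 76) (nat_lit 9494780932) (nat_lit 252) (nat_lit 5) (nat_lit 260) (nat_lit 5) (nat_lit 253) (nat_lit 5) (nat_lit 603) (nat_lit 535) (nat_lit 422)) (XT.nd (nat_lit 78) (nat_lit 532) (nat_lit 0) (XT.lf (nat_lit 0) (nat_lit 3378325821) (nat_lit 608) (nat_lit 6562778191) (nat_lit 76) (nat_lit 2222041983) (nat_lit 245) (nat_lit 5) (nat_lit 253) (nat_lit 5) (nat_lit 246) (nat_lit 5) (nat_lit 604)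 (nat_lit 535) (nat_lit 421)) (XT.lf (nat_lit 0) (nat_lit 1146455024) (nat_lit 532) (nat_lit 5241660579) (nat_lit 608) (nat_lit 5909704940) (nat_lit 238) (nat_lit 5) (nat_lit 245) (nat_lit 5) (nat_lit 246) (nat_lit 5) (nat_lit 605) (nat_lit 535) (nat_lit 420))))) (XT.nd (nat_lit 156) (nat_lit 988) (nat_lit 0) (XT.nd (nat_lit 78) (nat_lit 532) (nat_lit 0) (XT.lf (nat_lit 0) (nat_lit 9072762064) (nat_lit 532) (nat_lit 410400776) (nat_lit 608) (nat_lit 2951525317) (nat_lit 238) (nat_lit 5) (nat_lit 245) (nat_lit 5) (nat_lit 246) (nat_lit 5) (nat_lit 606) (nat_lit 535) (nat_lit 419)) (XT.lf (nat_lit 0) (nat_lit 105691374) (nat_lit 532) (nat_lit 7985919988) (nat_lit 76) (nat_lit 4481859259) (nat_lit 231) (nat_lit 5) (nat_lit 238) (nat_lit 5) (nat_lit 232) (nat_lit 5) (nat_lit 607) (nat_lit 535) (nat_lit 418))) (XT.nd (nat_lit 78) (nat_lit 988) (nat_lit 0) (XT.lf (nat_lit 0) (nat_lit 3191420703) (nat_lit 532) (nat_lit 21367553) (nat_lit 76) (nat_lit 9501713264) (nat_lit 231) (nat_lit 5) (nat_lit 238) (nat_lit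 5) (nat_lit 232) (nat_lit 5) (nat_lit 608) (nat_lit 535) (nat_lit 417)) (XT.nd (nat_lit 78) (nat_lit 456) (nat_lit 0) (XT.lf (nat_lit 0) (nat_lit 6385547235) (nat_lit 608) (nat_lit 4685051153) (nat_lit 76) (nat_lit 1786821745) (nat_lit 224) (nat_lit 5) (nat_lit 232) (nat_lit 5) (nat_lit 225) (nat_lit 5) (nat_lit 609) (nat_lit 535) (nat_lit 416)) (XT.lf (nat_lit 0) (nat_lit 3526445710) (nat_lit 456) (nat_lit 6143362300) (nat_lit 532) (nat_lit 3332864807) (nat_lit 218) (nat_lit 5) (nat_lit 224) (nat_lit 5) (nat_lit 225) (nat_lit 5) (nat_lit 610) (nat_lit 535) (nat_lit 415))))))) (XT.nd (nat_lit 75660) (nat_lit 0) (nat_lit 34200) (XT.nd (nat_lit 390) (nat_lit 456) (nat_lit 0) (XT.nd (nat_lit 156) (nat_lit 912) (nat_lit 0) (XT.nd (nat_lit 78) (nat_lit 532) (nat_lit 0) (XT.lf (nat_lit 0) (nat_lit 11940245846) (nat_lit 456) (nat_lit 1093071015) (nat_lit 532) (nat_lit 117243155) (nat_lit 218) (nat_lit 5) (nat_lit 224) (nat_lit 5) (nat_lit 225) (nat_lit 5) (nat_lit 611) (nat_lit 535) (nat_lit 414)) (XT.lf (nat_lit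 0) (nat_lit 3177522896) (nat_lit 532) (nat_lit 6056584818) (nat_lit 76) (nat_lit 4065761025) (nat_lit 211) (nat_lit 5) (nat_lit 218) (nat_lit 5) (nat_lit 212) (nat_lit 5) (nat_lit 612) (nat_lit 535) (nat_lit 413))) (XT.nd (nat_lit 78) (nat_lit 456) (nat_lit 0) (XT.lf (nat_lit 0) (nat_lit 2428838961) (nat_lit 456) (nat_lit 4121453085) (nat_lit 532) (nat_lit 6901583214) (nat_lit 205) (nat_lit 5) (nat_lit 211) (nat_lit 5) (nat_lit 212) (nat_lit 5) (nat_lit 613) (nat_lit 535) (nat_lit 412)) (XT.nd (nat_lit 78) (nat_lit 456) (nat_lit 0) (XT.lf (nat_lit 0) (nat_lit 10021149452) (nat_lit 532) (nat_lit 2472843340) (nat_lit 76) (nat_lit 1112317128) (nat_lit 205) (nat_lit 5) (nat_lit 212) (nat_lit 5) (nat_lit 206) (nat_lit 5) (nat_lit 614) (nat_lit 535) (nat_lit 411)) (XT.lf (nat_lit 0) (nat_lit 6278465515) (nat_lit 456) (nat_lit 7333979008) (nat_lit 532) (nat_lit 150368989) (nat_lit 199) (nat_lit 5) (nat_lit 205) (nat_lit 5) (nat_lit 206) (nat_lit 5) (nat_lit 615) (nat_lit 535) (nat_lit 410))))) (XT.nd (nat_lit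 75036) (nat_lit 0) (nat_lit 36404) (XT.nd (nat_lit 74958) (nat_lit 0) (nat_lit 37468) (XT.lf (nat_lit 0) (nat_lit 1286194446) (nat_lit 380) (nat_lit 2031025008) (nat_lit 456) (nat_lit 10604631376) (nat_lit 193) (nat_lit 5) (nat_lit 198) (nat_lit 5) (nat_lit 199) (nat_lit 5) (nat_lit 616) (nat_lit 535) (nat_lit 409)) (XT.lf (nat_lit 0) (nat_lit 452653350) (nat_lit 0) (nat_lit 452653350) (nat_lit 988) (nat_lit 2559067221) (nat_lit 686) (nat_lit 5) (nat_lit 686) (nat_lit 3) (nat_lit 699) (nat_lit 3) (nat_lit 536) (nat_lit 536) (nat_lit 488))) (XT.nd (nat_lit 78) (nat_lit 1064) (nat_lit 0) (XT.lf (nat_lit 0) (nat_lit 3736089209) (nat_lit 988) (nat_lit 2573648220) (nat_lit 1064) (nat_lit 649990880) (nat_lit 686) (nat_lit 5) (nat_lit 699) (nat_lit 3) (nat_lit 700) (nat_lit 5) (nat_lit 537) (nat_lit 536) (nat_lit 487)) (XT.nd (nat_lit 78) (nat_lit 1064) (nat_lit 0) (XT.lf (nat_lit 76) (nat_lit 925154692) (nat_lit 0) (nat_lit 4737165196) (nat_lit 1064) (nat_lit 1329767778) (nat_lit 687) (nat_lit 5) (nat_lit 686)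 (nat_lit 5) (nat_lit 700) (nat_lit 5) (nat_lit 538) (nat_lit 536) (nat_lit 486)) (XT.lf (nat_lit 0) (nat_lit 562192921) (nat_lit 1064) (nat_lit 2526562553) (nat_lit 1140) (nat_lit 3936902450) (nat_lit 672) (nat_lit 5) (nat_lit 686) (nat_lit 5) (nat_lit 687) (nat_lit 5) (nat_lit 539) (nat_lit 536) (nat_lit 485)))))) (XT.nd (nat_lit 390) (nat_lit 1140) (nat_lit 0) (XT.nd (nat_lit 156) (nat_lit 1064) (nat_lit 0) (XT.nd (nat_lit 78) (nat_lit 0) (nat_lit 76) (XT.lf (nat_lit 76) (nat_lit 1063669812) (nat_lit 0) (nat_lit 1369128491) (nat_lit 1140) (nat_lit 4627757213) (nat_lit 673) (nat_lit 5) (nat_lit 672) (nat_lit 5) (nat_lit 687) (nat_lit 5) (nat_lit 540) (nat_lit 536) (nat_lit 484)) (XT.lf (nat_lit 0) (nat_lit 4312989324) (nat_lit 1064) (nat_lit 2365480668) (nat_lit 1140) (nat_lit 418241465) (nat_lit 673) (nat_lit 5) (nat_lit 687) (nat_lit 5) (nat_lit 688) (nat_lit 5) (nat_lit 541) (nat_lit 536) (nat_lit 483))) (XT.nd (nat_lit 78) (nat_lit 1140) (nat_lit 0) (XT.lf (nat_lit 76) (nat_lit 1320318771) (nat_lit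 0) (nat_lit 4881641830) (nat_lit 1140) (nat_lit 932210179) (nat_lit 674) (nat_lit 5) (nat_lit 673) (nat_lit 5) (nat_lit 688) (nat_lit 5) (nat_lit 542) (nat_lit 536) (nat_lit 482)) (XT.nd (nat_lit 78) (nat_lit 0) (nat_lit 0) (XT.lf (nat_lit 0) (nat_lit 913739025) (nat_lit 1140) (nat_lit 2093401129) (nat_lit 1216) (nat_lit 4165719608) (nat_lit 658) (nat_lit 5) (nat_lit 673) (nat_lit 5) (nat_lit 674) (nat_lit 5) (nat_lit 543) (nat_lit 536) (nat_lit 481)) (XT.lf (nat_lit 76) (nat_lit 1691067812) (nat_lit 0) (nat_lit 1058921579) (nat_lit 1216) (nat_lit 4462896180) (nat_lit 659) (nat_lit 5) (nat_lit 658) (nat_lit 5) (nat_lit 674) (nat_lit 5) (nat_lit 544) (nat_lit 536) (nat_lit 480))))) (XT.nd (nat_lit 156) (nat_lit 1216) (nat_lit 0) (XT.nd (nat_lit 78) (nat_lit 0) (nat_lit 0) (XT.lf (nat_lit 0) (nat_lit 4598838461) (nat_lit 1140) (nat_lit 1707180350) (nat_lit 1216) (nat_lit 948179113) (nat_lit 659) (nat_lit 5) (nat_lit 674) (nat_lit 5) (nat_lit 675) (nat_lit 5) (nat_lit 545) (nat_lit 536) (nat_lit 479)) (XT.lf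 (nat_lit 76) (nat_lit 2178611704) (nat_lit 0) (nat_lit 4283784990) (nat_lit 1216) (nat_lit 834388621) (nat_lit 660) (nat_lit 5) (nat_lit 659) (nat_lit 5) (nat_lit 675) (nat_lit 5) (nat_lit 546) (nat_lit 536) (nat_lit 478))) (XT.nd (nat_lit 78) (nat_lit 0) (nat_lit 0) (XT.lf (nat_lit 0) (nat_lit 978084065) (nat_lit 1216) (nat_lit 1208550125) (nat_lit 1292) (nat_lit 5154090741) (nat_lit 643) (nat_lit 5) (nat_lit 659) (nat_lit 5) (nat_lit 660) (nat_lit 5) (nat_lit 547) (nat_lit 536) (nat_lit 477)) (XT.nd (nat_lit 78) (nat_lit 0) (nat_lit 76) (XT.lf (nat_lit 76) (nat_lit 2783682102) (nat_lit 0) (nat_lit 7846704) (nat_lit 1292) (nat_lit 4594389561) (nat_lit 644) (nat_lit 5) (nat_lit 643) (nat_lit 5) (nat_lit 660) (nat_lit 5) (nat_lit 548) (nat_lit 536) (nat_lit 476)) (XT.lf (nat_lit 0) (nat_lit 4622349566) (nat_lit 1216) (nat_lit 601467931) (nat_lit 1292) (nat_lit 2208579204) (nat_lit 644) (nat_lit 5) (nat_lit 660) (nat_lit 5) (nat_lit 661) (nat_lit 5) (nat_lit 549) (nat_lit 536) (nat_lit 475))))))))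
noncomputable def xc101 : XT := (XT.nd (nat_lit 1560) (nat_lit 10868) (nat_lit 0) (XT.nd (nat_lit 780) (nat_lit 10032) (nat_lit 0) (XT.nd (nat_lit 390) (nat_lit 2508) (nat_lit 0) (XT.nd (nat_lit 156) (nat_lit 0) (nat_lit 76) (XT.nd (nat_lit 78) (nat_lit 1292) (nat_lit 0) (XT.lf (nat_lit 76) (nat_lit 3498357321) (nat_lit 0) (nat_lit 2973572785) (nat_lit 1292) (nat_lit 1008234742) (nat_lit 645) (nat_lit 5) (nat_lit 644) (nat_lit 5) (nat_lit 661) (nat_lit 5) (nat_lit 550) (nat_lit 536) (nat_lit 474)) (XT.lf (nat_lit 76) (nat_lit 128648677) (nat_lit 0) (nat_lit 654716429) (nat_lit 1368) (nat_lit 6746125878) (nat_lit 628) (nat_lit 5) (nat_lit 627) (nat_lit 5) (nat_lit 645) (nat_lit 5) (nat_lit 551) (nat_lit 536) (nat_lit 473))) (XT.nd (nat_lit 78) (nat_lit 0) (nat_lit 0) (XT.lf (nat_lit 0) (nat_lit 2595742429) (nat_lit 1292) (nat_lit 3249790229) (nat_lit 1368) (nat_lit 1734171713) (nat_lit 628) (nat_lit 5) (nat_lit 645) (nat_lit 5) (nat_lit 646) (nat_lit 5) (nat_lit 552) (nat_lit 536) (nat_lit 472)) (XT.nd (nat_lit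 78) (nat_lit 0) (nat_lit 0) (XT.lf (nat_lit 76) (nat_lit 965303597) (nat_lit 0) (nat_lit 3450873167) (nat_lit 1368) (nat_lit 3215311946) (nat_lit 629) (nat_lit 5) (nat_lit 628) (nat_lit 5) (nat_lit 646) (nat_lit 5) (nat_lit 553) (nat_lit 536) (nat_lit 471)) (XT.lf (nat_lit 76) (nat_lit 5281627136) (nat_lit 0) (nat_lit 974991213) (nat_lit 1368) (nat_lit 1428021233) (nat_lit 629) (nat_lit 5) (nat_lit 628) (nat_lit 5) (nat_lit 646) (nat_lit 5) (nat_lit 554) (nat_lit 536) (nat_lit 470))))) (XT.nd (nat_lit 156) (nat_lit 1292) (nat_lit 0) (XT.nd (nat_lit 78) (nat_lit 0) (nat_lit 0) (XT.lf (nat_lit 0) (nat_lit 374963109) (nat_lit 1368) (nat_lit 5808320177) (nat_lit 1444) (nat_lit 1555819031) (nat_lit 611) (nat_lit 5) (nat_lit 629) (nat_lit 5) (nat_lit 630) (nat_lit 5) (nat_lit 555) (nat_lit 536) (nat_lit 469)) (XT.lf (nat_lit 0) (nat_lit 2180513199) (nat_lit 1368) (nat_lit 1454256166) (nat_lit 1444) (nat_lit 4159986264) (nat_lit 611) (nat_lit 5) (nat_lit 629) (nat_lit 5) (nat_lit 630) (nat_lit 5) (nat_lit 556)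 (nat_lit 536) (nat_lit 468))) (XT.nd (nat_lit 78) (nat_lit 1292) (nat_lit 0) (XT.lf (nat_lit 76) (nat_lit 2999036064) (nat_lit 0) (nat_lit 1006257240) (nat_lit 1444) (nat_lit 3846568928) (nat_lit 612) (nat_lit 5) (nat_lit 611) (nat_lit 5) (nat_lit 630) (nat_lit 5) (nat_lit 557) (nat_lit 536) (nat_lit 467)) (XT.nd (nat_lit 78) (nat_lit 1368) (nat_lit 0) (XT.lf (nat_lit 0) (nat_lit 5851508460) (nat_lit 1368) (nat_lit 387530676) (nat_lit 76) (nat_lit 1671375593) (nat_lit 612) (nat_lit 5) (nat_lit 630) (nat_lit 5) (nat_lit 613) (nat_lit 5) (nat_lit 558) (nat_lit 536) (nat_lit 466)) (XT.lf (nat_lit 0) (nat_lit 4188096023) (nat_lit 1368) (nat_lit 3545350808) (nat_lit 1444) (nat_lit 236717971) (nat_lit 594) (nat_lit 5) (nat_lit 612) (nat_lit 5) (nat_lit 613) (nat_lit 5) (nat_lit 559) (nat_lit 536) (nat_lit 465)))))) (XT.nd (nat_lit 390) (nat_lit 5320) (nat_lit 0) (XT.nd (nat_lit 156) (nat_lit 3192) (nat_lit 0) (XT.nd (nat_lit 78) (nat_lit 0) (nat_lit 0) (XT.lf (nat_lit 0) (nat_lit 801875706) (nat_lit 1444) (nat_lit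 771814323) (nat_lit 1520) (nat_lit 6457750686) (nat_lit 574) (nat_lit 5) (nat_lit 593) (nat_lit 5) (nat_lit 594) (nat_lit 5) (nat_lit 560) (nat_lit 536) (nat_lit 464)) (XT.lf (nat_lit 0) (nat_lit 3421816833) (nat_lit 1520) (nat_lit 2607836398) (nat_lit 76) (nat_lit 2064166375) (nat_lit 574) (nat_lit 5) (nat_lit 594) (nat_lit 5) (nat_lit 575) (nat_lit 5) (nat_lit 561) (nat_lit 536) (nat_lit 463))) (XT.nd (nat_lit 78) (nat_lit 1672) (nat_lit 0) (XT.lf (nat_lit 0) (nat_lit 2101248728) (nat_lit 1520) (nat_lit 3190855537) (nat_lit 1596) (nat_lit 2865640158) (nat_lit 554) (nat_lit 5) (nat_lit 574) (nat_lit 5) (nat_lit 575) (nat_lit 5) (nat_lit 562) (nat_lit 536) (nat_lit 462)) (XT.nd (nat_lit 78) (nat_lit 1672) (nat_lit 0) (XT.lf (nat_lit 0) (nat_lit 6912521595) (nat_lit 1520) (nat_lit 271700273) (nat_lit 1596) (nat_lit 1039039648) (nat_lit 554) (nat_lit 5) (nat_lit 574) (nat_lit 5) (nat_lit 575) (nat_lit 5) (nat_lit 563) (nat_lit 536) (nat_lit 461)) (XT.lf (nat_lit 0) (nat_lit 821440572) (nat_lit 1672) (nat_lit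 4764153329) (nat_lit 76) (nat_lit 2704227098) (nat_lit 532) (nat_lit 5) (nat_lit 554) (nat_lit 5) (nat_lit 533) (nat_lit 5) (nat_lit 564) (nat_lit 536) (nat_lit 460))))) (XT.nd (nat_lit 156) (nat_lit 3648) (nat_lit 0) (XT.nd (nat_lit 78) (nat_lit 0) (nat_lit 0) (XT.lf (nat_lit 0) (nat_lit 83650100) (nat_lit 1672) (nat_lit 2600630649) (nat_lit 1748) (nat_lit 5673714435) (nat_lit 510) (nat_lit 5) (nat_lit 532) (nat_lit 5) (nat_lit 533) (nat_lit 5) (nat_lit 565) (nat_lit 536) (nat_lit 459)) (XT.lf (nat_lit 0) (nat_lit 4587774230) (nat_lit 1748) (nat_lit 3365222907) (nat_lit 76) (nat_lit 474469881) (nat_lit 510) (nat_lit 5) (nat_lit 533) (nat_lit 5) (nat_lit 511) (nat_lit 5) (nat_lit 566) (nat_lit 536) (nat_lit 458))) (XT.nd (nat_lit 78) (nat_lit 1900) (nat_lit 0) (XT.lf (nat_lit 0) (nat_lit 1618414465) (nat_lit 1748) (nat_lit 4907606448) (nat_lit 1824) (nat_lit 1972375761) (nat_lit 487) (nat_lit 5) (nat_lit 510) (nat_lit 5) (nat_lit 511) (nat_lit 5) (nat_lit 567) (nat_lit 536) (nat_lit 457)) (XT.nd (nat_lit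 78) (nat_lit 1900) (nat_lit 0) (XT.lf (nat_lit 0) (nat_lit 6719852784) (nat_lit 1748) (nat_lit 1775145254) (nat_lit 1824) (nat_lit 75909587) (nat_lit 487) (nat_lit 5) (nat_lit 510) (nat_lit 5) (nat_lit 511) (nat_lit 5) (nat_lit 568) (nat_lit 536) (nat_lit 456)) (XT.lf (nat_lit 0) (nat_lit 1834662630) (nat_lit 1900) (nat_lit 5372189769) (nat_lit 76) (nat_lit 1437765977) (nat_lit 462) (nat_lit 5) (nat_lit 487) (nat_lit 5) (nat_lit 463) (nat_lit 5) (nat_lit 569) (nat_lit 536) (nat_lit 455))))))) (XT.nd (nat_lit 780) (nat_lit 5320) (nat_lit 0) (XT.nd (nat_lit 390) (nat_lit 2584) (nat_lit 0) (XT.nd (nat_lit 156) (nat_lit 1900) (nat_lit 0) (XT.nd (nat_lit 78) (nat_lit 1064) (nat_lit 0) (XT.lf (nat_lit 0) (nat_lit 3776906384) (nat_lit 1900) (nat_lit 236210392) (nat_lit 76) (nat_lit 4706788898) (nat_lit 462) (nat_lit 5) (nat_lit 487) (nat_lit 5) (nat_lit 463) (nat_lit 5) (nat_lit 570) (nat_lit 536) (nat_lit 454)) (XT.lf (nat_lit 0) (nat_lit 5041363990) (nat_lit 1064) (nat_lit 720162732) (nat_lit 1140) (nat_lit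 3035103219) (nat_lit 448) (nat_lit 5) (nat_lit 462) (nat_lit 5) (nat_lit 463) (nat_lit 5) (nat_lit 571) (nat_lit 536) (nat_lit 453))) (XT.nd (nat_lit 78) (nat_lit 988) (nat_lit 0) (XT.lf (nat_lit 0) (nat_lit 1528080513) (nat_lit 912) (nat_lit 6257615691) (nat_lit 988) (nat_lit 1089197178) (nat_lit 436) (nat_lit 5) (nat_lit 448) (nat_lit 5) (nat_lit 449) (nat_lit 5) (nat_lit 572) (nat_lit 536) (nat_lit 452)) (XT.nd (nat_lit 78) (nat_lit 912) (nat_lit 0) (XT.lf (nat_lit 0) (nat_lit 885420931) (nat_lit 988) (nat_lit 2024824528) (nat_lit 76) (nat_lit 6044331280) (nat_lit 435) (nat_lit 5) (nat_lit 448) (nat_lit 5) (nat_lit 436) (nat_lit 5) (nat_lit 573) (nat_lit 536) (nat_lit 451)) (XT.lf (nat_lit 0) (nat_lit 2882562740) (nat_lit 988) (nat_lit 5625443616) (nat_lit 76) (nat_lit 527752818) (nat_lit 423) (nat_lit 5) (nat_lit 436) (nat_lit 5) (nat_lit 424) (nat_lit 5) (nat_lit 574) (nat_lit 536) (nat_lit 450))))) (XT.nd (nat_lit 156) (nat_lit 1748) (nat_lit 0) (XT.nd (nat_lit 78) (nat_lit 836) (nat_lit 0) (XT.lf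 (nat_lit 0) (nat_lit 4924940178) (nat_lit 988) (nat_lit 183736542) (nat_lit 76) (nat_lit 4009784367) (nat_lit 423) (nat_lit 5) (nat_lit 436) (nat_lit 5) (nat_lit 424) (nat_lit 5) (nat_lit 575) (nat_lit 536) (nat_lit 449)) (XT.lf (nat_lit 0) (nat_lit 5410623445) (nat_lit 836) (nat_lit 1605555410) (nat_lit 912) (nat_lit 2186479559) (nat_lit 412) (nat_lit 5) (nat_lit 423) (nat_lit 5) (nat_lit 424) (nat_lit 5) (nat_lit 576) (nat_lit 536) (nat_lit 448))) (XT.nd (nat_lit 78) (nat_lit 912) (nat_lit 0) (XT.lf (nat_lit 0) (nat_lit 1814359104) (nat_lit 836) (nat_lit 7333919122) (nat_lit 912) (nat_lit 140282361) (nat_lit 401) (nat_lit 5) (nat_lit 412) (nat_lit 5) (nat_lit 413) (nat_lit 5) (nat_lit 577) (nat_lit 536) (nat_lit 447)) (XT.nd (nat_lit 78) (nat_lit 836) (nat_lit 0) (XT.lf (nat_lit 0) (nat_lit 1930964001) (nat_lit 912) (nat_lit 1842503716) (nat_lit 76) (nat_lit 5602268672) (nat_lit 400) (nat_lit 5) (nat_lit 412) (nat_lit 5) (nat_lit 401) (nat_lit 5) (nat_lit 578) (nat_lit 536) (nat_lit 446)) (XT.lf (nat_lit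 0) (nat_lit 3925248513) (nat_lit 836) (nat_lit 115927304) (nat_lit 912) (nat_lit 5423474491) (nat_lit 389) (nat_lit 5) (nat_lit 400) (nat_lit 5) (nat_lit 401) (nat_lit 5) (nat_lit 579) (nat_lit 536) (nat_lit 445)))))) (XT.nd (nat_lit 390) (nat_lit 2888) (nat_lit 0) (XT.nd (nat_lit 156) (nat_lit 1596) (nat_lit 0) (XT.nd (nat_lit 78) (nat_lit 0) (nat_lit 0) (XT.lf (nat_lit 0) (nat_lit 230244019) (nat_lit 836) (nat_lit 5975018306) (nat_lit 912) (nat_lit 3349848267) (nat_lit 378) (nat_lit 5) (nat_lit 389) (nat_lit 5) (nat_lit 390) (nat_lit 5) (nat_lit 580) (nat_lit 536) (nat_lit 444)) (XT.lf (nat_lit 0) (nat_lit 6162312998) (nat_lit 836) (nat_lit 2262840195) (nat_lit 912) (nat_lit 1221977903) (nat_lit 378) (nat_lit 5) (nat_lit 389) (nat_lit 5) (nat_lit 390) (nat_lit 5) (nat_lit 581) (nat_lit 536) (nat_lit 443))) (XT.nd (nat_lit 78) (nat_lit 760) (nat_lit 0) (XT.lf (nat_lit 0) (nat_lit 937001147) (nat_lit 836) (nat_lit 7279873154) (nat_lit 76) (nat_lit 1523976149) (nat_lit 367) (nat_lit 5) (nat_lit 378) (nat_lit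 5) (nat_lit 368) (nat_lit 5) (nat_lit 582) (nat_lit 536) (nat_lit 442)) (XT.nd (nat_lit 78) (nat_lit 760) (nat_lit 0) (XT.lf (nat_lit 0) (nat_lit 3136561063) (nat_lit 836) (nat_lit 1313667696) (nat_lit 76) (nat_lit 5385779998) (nat_lit 367) (nat_lit 5) (nat_lit 378) (nat_lit 5) (nat_lit 368) (nat_lit 5) (nat_lit 583) (nat_lit 536) (nat_lit 441)) (XT.lf (nat_lit 0) (nat_lit 4808073266) (nat_lit 760) (nat_lit 578964685) (nat_lit 836) (nat_lit 4545895117) (nat_lit 357) (nat_lit 5) (nat_lit 367) (nat_lit 5) (nat_lit 368) (nat_lit 5) (nat_lit 584) (nat_lit 536) (nat_lit 440))))) (XT.nd (nat_lit 234) (nat_lit 1368) (nat_lit 0) (XT.nd (nat_lit 78) (nat_lit 836) (nat_lit 0) (XT.lf (nat_lit 0) (nat_lit 1002513478) (nat_lit 684) (nat_lit 6693266448) (nat_lit 760) (nat_lit 2335752157) (nat_lit 348) (nat_lit 5) (nat_lit 357) (nat_lit 5) (nat_lit 358) (nat_lit 5) (nat_lit 585) (nat_lit 536) (nat_lit 439)) (XT.nd (nat_lit 78) (nat_lit 836) (nat_lit 0) (XT.lf (nat_lit 0) (nat_lit 7291062007) (nat_lit 684) (nat_lit 2774124198)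 (nat_lit 760) (nat_lit 66628384) (nat_lit 348) (nat_lit 5) (nat_lit 357) (nat_lit 5) (nat_lit 358) (nat_lit 5) (nat_lit 586) (nat_lit 536) (nat_lit 438)) (XT.lf (nat_lit 0) (nat_lit 2225729191) (nat_lit 836) (nat_lit 6766469709) (nat_lit 76) (nat_lit 1241466550) (nat_lit 337) (nat_lit 5) (nat_lit 348) (nat_lit 5) (nat_lit 338) (nat_lit 5) (nat_lit 587) (nat_lit 536) (nat_lit 437)))) (XT.nd (nat_lit 78) (nat_lit 1368) (nat_lit 0) (XT.lf (nat_lit 0) (nat_lit 4577467118) (nat_lit 836) (nat_lit 443305818) (nat_lit 76) (nat_lit 5316484304) (nat_lit 337) (nat_lit 5) (nat_lit 348) (nat_lit 5) (nat_lit 338) (nat_lit 5) (nat_lit 588) (nat_lit 536) (nat_lit 436)) (XT.nd (nat_lit 78) (nat_lit 684) (nat_lit 0) (XT.lf (nat_lit 0) (nat_lit 6059315106) (nat_lit 684) (nat_lit 933583089) (nat_lit 760) (nat_lit 3449690704) (nat_lit 328) (nat_lit 5) (nat_lit 337) (nat_lit 5) (nat_lit 338) (nat_lit 5) (nat_lit 589) (nat_lit 536) (nat_lit 435)) (XT.lf (nat_lit 0) (nat_lit 2128190588) (nat_lit 684) (nat_lit 7343831513) (nat_lit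 760) (nat_lit 1077698586) (nat_lit 319) (nat_lit 5) (nat_lit 328) (nat_lit 5) (nat_lit 329) (nat_lit 5) (nat_lit 590) (nat_lit 536) (nat_lit 434))))))))
noncomputable def xc102 : XT := (XT.nd (nat_lit 1560) (nat_lit 1976) (nat_lit 0) (XT.nd (nat_lit 780) (nat_lit 3268) (nat_lit 0) (XT.nd (nat_lit 390) (nat_lit 1900) (nat_lit 0) (XT.nd (nat_lit 156) (nat_lit 1368) (nat_lit 0) (XT.nd (nat_lit 78) (nat_lit 608) (nat_lit 0) (XT.lf (nat_lit 0) (nat_lit 1337613428) (nat_lit 760) (nat_lit 1871042039) (nat_lit 76) (nat_lit 7449897005) (nat_lit 318) (nat_lit 5) (nat_lit 328) (nat_lit 5) (nat_lit 319) (nat_lit 5) (nat_lit 591) (nat_lit 536) (nat_lit 433)) (XT.lf (nat_lit 0) (nat_lit 3803144632) (nat_lit 684) (nat_lit 5935525445) (nat_lit 76) (nat_lit 1030422589) (nat_lit 310) (nat_lit 5) (nat_lit 319) (nat_lit 5) (nat_lit 311) (nat_lit 5) (nat_lit 592) (nat_lit 536) (nat_lit 432))) (XT.nd (nat_lit 78) (nat_lit 684) (nat_lit 0) (XT.lf (nat_lit 0) (nat_lit 778362962) (nat_lit 684) (nat_lit 5556918256) (nat_lit 760)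 (nat_lit 4546217639) (nat_lit 301) (nat_lit 5) (nat_lit 310) (nat_lit 5) (nat_lit 311) (nat_lit 5) (nat_lit 593) (nat_lit 536) (nat_lit 431)) (XT.nd (nat_lit 78) (nat_lit 684) (nat_lit 0) (XT.lf (nat_lit 0) (nat_lit 7680609960) (nat_lit 684) (nat_lit 1255887183) (nat_lit 760) (nat_lit 2059288365) (nat_lit 301) (nat_lit 5) (nat_lit 310) (nat_lit 5) (nat_lit 311) (nat_lit 5) (nat_lit 594) (nat_lit 536) (nat_lit 430)) (XT.lf (nat_lit 0) (nat_lit 494025715) (nat_lit 684) (nat_lit 7505851309) (nat_lit 76) (nat_lit 3111961761) (nat_lit 292) (nat_lit 5) (nat_lit 301) (nat_lit 5) (nat_lit 293) (nat_lit 5) (nat_lit 595) (nat_lit 536) (nat_lit 429))))) (XT.nd (nat_lit 156) (nat_lit 1292) (nat_lit 0) (XT.nd (nat_lit 78) (nat_lit 608) (nat_lit 0) (XT.lf (nat_lit 0) (nat_lit 3080666958) (nat_lit 684) (nat_lit 567713000) (nat_lit 76) (nat_lit 7581365245) (nat_lit 292) (nat_lit 5) (nat_lit 301) (nat_lit 5) (nat_lit 293) (nat_lit 5) (nat_lit 596) (nat_lit 536) (nat_lit 428)) (XT.lf (nat_lit 0) (nat_lit 5746580358) (nat_lit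 684) (nat_lit 4785434798) (nat_lit 76) (nat_lit 817444792) (nat_lit 284) (nat_lit 5) (nat_lit 293) (nat_lit 5) (nat_lit 285) (nat_lit 5) (nat_lit 597) (nat_lit 536) (nat_lit 427))) (XT.nd (nat_lit 78) (nat_lit 684) (nat_lit 0) (XT.lf (nat_lit 0) (nat_lit 2355265059) (nat_lit 608) (nat_lit 6133543060) (nat_lit 684) (nat_lit 2982301914) (nat_lit 276) (nat_lit 5) (nat_lit 284) (nat_lit 5) (nat_lit 285) (nat_lit 5) (nat_lit 598) (nat_lit 536) (nat_lit 426)) (XT.nd (nat_lit 78) (nat_lit 684) (nat_lit 0) (XT.lf (nat_lit 0) (nat_lit 9677779303) (nat_lit 608) (nat_lit 1620151668) (nat_lit 684) (nat_lit 297022087) (nat_lit 276) (nat_lit 5) (nat_lit 284) (nat_lit 5) (nat_lit 285) (nat_lit 5) (nat_lit 599) (nat_lit 536) (nat_lit 425)) (XT.lf (nat_lit 0) (nat_lit 2445230168) (nat_lit 684) (nat_lit 6284774827) (nat_lit 76) (nat_lit 2990245889) (nat_lit 267) (nat_lit 5) (nat_lit 276) (nat_lit 5) (nat_lit 268) (nat_lit 5) (nat_lit 600) (nat_lit 536) (nat_lit 424)))))) (XT.nd (nat_lit 390) (nat_lit 1596) (nat_lit 0) (XT.nd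 (nat_lit 156) (nat_lit 1140) (nat_lit 0) (XT.nd (nat_lit 78) (nat_lit 0) (nat_lit 0) (XT.lf (nat_lit 0) (nat_lit 1089060847) (nat_lit 532) (nat_lit 4160428791) (nat_lit 608) (nat_lit 6598303871) (nat_lit 260) (nat_lit 5) (nat_lit 267) (nat_lit 5) (nat_lit 268) (nat_lit 5) (nat_lit 601) (nat_lit 536) (nat_lit 423)) (XT.lf (nat_lit 0) (nat_lit 8136099924) (nat_lit 608) (nat_lit 3310996068) (nat_lit 76) (nat_lit 530266557) (nat_lit 260) (nat_lit 5) (nat_lit 268) (nat_lit 5) (nat_lit 261) (nat_lit 5) (nat_lit 602) (nat_lit 536) (nat_lit 422))) (XT.nd (nat_lit 78) (nat_lit 608) (nat_lit 0) (XT.lf (nat_lit 0) (nat_lit 4288913755) (nat_lit 532) (nat_lit 6827871123) (nat_lit 608) (nat_lit 992012101) (nat_lit 253) (nat_lit 5) (nat_lit 260) (nat_lit 5) (nat_lit 261) (nat_lit 5) (nat_lit 603) (nat_lit 536) (nat_lit 421)) (XT.nd (nat_lit 78) (nat_lit 532) (nat_lit 0) (XT.lf (nat_lit 0) (nat_lit 1892510871) (nat_lit 608) (nat_lit 194852290) (nat_lit 76) (nat_lit 10155181339) (nat_lit 252) (nat_lit 5) (nat_lit 260) (nat_lit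 5) (nat_lit 253) (nat_lit 5) (nat_lit 604) (nat_lit 536) (nat_lit 420)) (XT.lf (nat_lit 0) (nat_lit 4870702878) (nat_lit 608) (nat_lit 4744990805) (nat_lit 76) (nat_lit 2762157721) (nat_lit 245) (nat_lit 5) (nat_lit 253) (nat_lit 5) (nat_lit 246) (nat_lit 5) (nat_lit 605) (nat_lit 536) (nat_lit 419))))) (XT.nd (nat_lit 156) (nat_lit 1064) (nat_lit 0) (XT.nd (nat_lit 78) (nat_lit 0) (nat_lit 0) (XT.lf (nat_lit 0) (nat_lit 3105604423) (nat_lit 532) (nat_lit 4819717796) (nat_lit 608) (nat_lit 4590205749) (nat_lit 238) (nat_lit 5) (nat_lit 245) (nat_lit 5) (nat_lit 246) (nat_lit 5) (nat_lit 606) (nat_lit 536) (nat_lit 418)) (XT.lf (nat_lit 0) (nat_lit 11055269470) (nat_lit 608) (nat_lit 1503849568) (nat_lit 76) (nat_lit 96555094) (nat_lit 238) (nat_lit 5) (nat_lit 246) (nat_lit 5) (nat_lit 239) (nat_lit 5) (nat_lit 607) (nat_lit 536) (nat_lit 417))) (XT.nd (nat_lit 78) (nat_lit 532) (nat_lit 0) (XT.lf (nat_lit 0) (nat_lit 1487339605) (nat_lit 532) (nat_lit 6217299972) (nat_lit 76) (nat_lit 5092653135) (nat_lit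 231) (nat_lit 5) (nat_lit 238) (nat_lit 5) (nat_lit 232) (nat_lit 5) (nat_lit 608) (nat_lit 536) (nat_lit 416)) (XT.nd (nat_lit 78) (nat_lit 0) (nat_lit 0) (XT.lf (nat_lit 0) (nat_lit 1893567430) (nat_lit 532) (nat_lit 2726460692) (nat_lit 608) (nat_lit 8321412327) (nat_lit 224) (nat_lit 5) (nat_lit 231) (nat_lit 5) (nat_lit 232) (nat_lit 5) (nat_lit 609) (nat_lit 536) (nat_lit 415)) (XT.lf (nat_lit 0) (nat_lit 7854922978) (nat_lit 608) (nat_lit 2877349974) (nat_lit 76) (nat_lit 2355407855) (nat_lit 224) (nat_lit 5) (nat_lit 232) (nat_lit 5) (nat_lit 225) (nat_lit 5) (nat_lit 610) (nat_lit 536) (nat_lit 414))))))) (XT.nd (nat_lit 75738) (nat_lit 0) (nat_lit 32604) (XT.nd (nat_lit 390) (nat_lit 532) (nat_lit 0) (XT.nd (nat_lit 156) (nat_lit 456) (nat_lit 0) (XT.nd (nat_lit 78) (nat_lit 532) (nat_lit 0) (XT.lf (nat_lit 0) (nat_lit 5485867602) (nat_lit 456) (nat_lit 5704958161) (nat_lit 532) (nat_lit 2045294713) (nat_lit 218) (nat_lit 5) (nat_lit 224) (nat_lit 5) (nat_lit 225) (nat_lit 5) (nat_lit 611) (nat_lit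 536) (nat_lit 413)) (XT.lf (nat_lit 0) (nat_lit 644022294) (nat_lit 456) (nat_lit 552400754) (nat_lit 532) (nat_lit 12190823550) (nat_lit 211) (nat_lit 5) (nat_lit 217) (nat_lit 5) (nat_lit 218) (nat_lit 5) (nat_lit 612) (nat_lit 536) (nat_lit 412))) (XT.nd (nat_lit 78) (nat_lit 456) (nat_lit 0) (XT.lf (nat_lit 0) (nat_lit 4541338658) (nat_lit 532) (nat_lit 4298350465) (nat_lit 76) (nat_lit 4700121396) (nat_lit 211) (nat_lit 5) (nat_lit 218) (nat_lit 5) (nat_lit 212) (nat_lit 5) (nat_lit 613) (nat_lit 536) (nat_lit 411)) (XT.nd (nat_lit 78) (nat_lit 0) (nat_lit 0) (XT.lf (nat_lit 0) (nat_lit 4344417540) (nat_lit 456) (nat_lit 3623772068) (nat_lit 532) (nat_lit 5726936022) (nat_lit 205) (nat_lit 5) (nat_lit 211) (nat_lit 5) (nat_lit 212) (nat_lit 5) (nat_lit 614) (nat_lit 536) (nat_lit 410)) (XT.lf (nat_lit 0) (nat_lit 11486923597) (nat_lit 532) (nat_lit 670317387) (nat_lit 76) (nat_lit 1695839775) (nat_lit 205) (nat_lit 5) (nat_lit 212) (nat_lit 5) (nat_lit 206) (nat_lit 5) (nat_lit 615) (nat_lit 536) (nat_lit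 409))))) (XT.nd (nat_lit 75114) (nat_lit 0) (nat_lit 35948) (XT.nd (nat_lit 75036) (nat_lit 0) (nat_lit 37088) (XT.lf (nat_lit 0) (nat_lit 1109462104) (nat_lit 532) (nat_lit 5776438229) (nat_lit 76) (nat_lit 7126926369) (nat_lit 198) (nat_lit 5) (nat_lit 205) (nat_lit 5) (nat_lit 199) (nat_lit 5) (nat_lit 616) (nat_lit 536) (nat_lit 408)) (XT.lf (nat_lit 0) (nat_lit 1407075054) (nat_lit 0) (nat_lit 1407075054) (nat_lit 988) (nat_lit 681537965) (nat_lit 686) (nat_lit 5) (nat_lit 686) (nat_lit 3) (nat_lit 699) (nat_lit 3) (nat_lit 537) (nat_lit 537) (nat_lit 486))) (XT.nd (nat_lit 78) (nat_lit 0) (nat_lit 76) (XT.lf (nat_lit 0) (nat_lit 482808322) (nat_lit 1140) (nat_lit 695814278) (nat_lit 1140) (nat_lit 5845866481) (nat_lit 671) (nat_lit 3) (nat_lit 686) (nat_lit 3) (nat_lit 686) (nat_lit 5) (nat_lit 538) (nat_lit 537) (nat_lit 485)) (XT.nd (nat_lit 78) (nat_lit 0) (nat_lit 0) (XT.lf (nat_lit 0) (nat_lit 2321151786) (nat_lit 1064) (nat_lit 4203138000) (nat_lit 1140) (nat_lit 534322373) (nat_lit 672) (nat_lit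 5) (nat_lit 686) (nat_lit 5) (nat_lit 687) (nat_lit 5) (nat_lit 539) (nat_lit 537) (nat_lit 484)) (XT.lf (nat_lit 0) (nat_lit 4161403421) (nat_lit 1064) (nat_lit 639518093) (nat_lit 1140) (nat_lit 2293197226) (nat_lit 672) (nat_lit 5) (nat_lit 686) (nat_lit 5) (nat_lit 687) (nat_lit 5) (nat_lit 540) (nat_lit 537) (nat_lit 483)))))) (XT.nd (nat_lit 390) (nat_lit 2280) (nat_lit 0) (XT.nd (nat_lit 156) (nat_lit 0) (nat_lit 76) (XT.nd (nat_lit 78) (nat_lit 1140) (nat_lit 0) (XT.lf (nat_lit 76) (nat_lit 3009771710) (nat_lit 0) (nat_lit 3001794177) (nat_lit 1140) (nat_lit 1119311243) (nat_lit 673) (nat_lit 5) (nat_lit 672) (nat_lit 5) (nat_lit 687) (nat_lit 5) (nat_lit 541) (nat_lit 537) (nat_lit 482)) (XT.lf (nat_lit 0) (nat_lit 679108919) (nat_lit 1140) (nat_lit 457865210) (nat_lit 1216) (nat_lit 6032138827) (nat_lit 657) (nat_lit 5) (nat_lit 672) (nat_lit 5) (nat_lit 673) (nat_lit 5) (nat_lit 542) (nat_lit 537) (nat_lit 481))) (XT.nd (nat_lit 78) (nat_lit 0) (nat_lit 0) (XT.lf (nat_lit 0) (nat_lit 2480077844)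 (nat_lit 1140) (nat_lit 3924390254) (nat_lit 1216) (nat_lit 803869643) (nat_lit 658) (nat_lit 5) (nat_lit 673) (nat_lit 5) (nat_lit 674) (nat_lit 5) (nat_lit 543) (nat_lit 537) (nat_lit 480)) (XT.nd (nat_lit 78) (nat_lit 0) (nat_lit 0) (XT.lf (nat_lit 0) (nat_lit 4283446748) (nat_lit 1140) (nat_lit 174911094) (nat_lit 1216) (nat_lit 2790665070) (nat_lit 658) (nat_lit 5) (nat_lit 673) (nat_lit 5) (nat_lit 674) (nat_lit 5) (nat_lit 544) (nat_lit 537) (nat_lit 479)) (XT.lf (nat_lit 76) (nat_lit 3672350133) (nat_lit 0) (nat_lit 2431001824) (nat_lit 1216) (nat_lit 1187563886) (nat_lit 659) (nat_lit 5) (nat_lit 658) (nat_lit 5) (nat_lit 674) (nat_lit 5) (nat_lit 545) (nat_lit 537) (nat_lit 478))))) (XT.nd (nat_lit 234) (nat_lit 1140) (nat_lit 0) (XT.nd (nat_lit 78) (nat_lit 0) (nat_lit 76) (XT.lf (nat_lit 76) (nat_lit 238582680) (nat_lit 0) (nat_lit 338972706) (nat_lit 1292) (nat_lit 6756818120) (nat_lit 643) (nat_lit 5) (nat_lit 642) (nat_lit 5) (nat_lit 659) (nat_lit 5) (nat_lit 546) (nat_lit 537) (nat_lit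 477)) (XT.nd (nat_lit 78) (nat_lit 0) (nat_lit 0) (XT.lf (nat_lit 0) (nat_lit 2355998492) (nat_lit 1216) (nat_lit 3202535624) (nat_lit 1292) (nat_lit 1820133987) (nat_lit 643) (nat_lit 5) (nat_lit 659) (nat_lit 5) (nat_lit 660) (nat_lit 5) (nat_lit 547) (nat_lit 537) (nat_lit 476)) (XT.lf (nat_lit 76) (nat_lit 750132392) (nat_lit 0) (nat_lit 3385631619) (nat_lit 1292) (nat_lit 3288772683) (nat_lit 644) (nat_lit 5) (nat_lit 643) (nat_lit 5) (nat_lit 660) (nat_lit 5) (nat_lit 548) (nat_lit 537) (nat_lit 475)))) (XT.nd (nat_lit 78) (nat_lit 1216) (nat_lit 0) (XT.lf (nat_lit 76) (nat_lit 4799390778) (nat_lit 0) (nat_lit 1132506126) (nat_lit 1292) (nat_lit 1539813423) (nat_lit 644) (nat_lit 5) (nat_lit 643) (nat_lit 5) (nat_lit 660) (nat_lit 5) (nat_lit 549) (nat_lit 537) (nat_lit 474)) (XT.nd (nat_lit 78) (nat_lit 0) (nat_lit 0) (XT.lf (nat_lit 0) (nat_lit 217561702) (nat_lit 1292) (nat_lit 6127464209) (nat_lit 1368) (nat_lit 1175240043) (nat_lit 627) (nat_lit 5) (nat_lit 644) (nat_lit 5) (nat_lit 645) (nat_lit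 5) (nat_lit 550) (nat_lit 537) (nat_lit 473)) (XT.lf (nat_lit 0) (nat_lit 1975560087) (nat_lit 1292) (nat_lit 2038418406) (nat_lit 1368) (nat_lit 3555891691) (nat_lit 627) (nat_lit 5) (nat_lit 644) (nat_lit 5) (nat_lit 645) (nat_lit 5) (nat_lit 551) (nat_lit 537) (nat_lit 472))))))))
noncomputable def xc103 : XT := (XT.nd (nat_lit 1560) (nat_lit 10488) (nat_lit 0) (XT.nd (nat_lit 780) (nat_lit 9576) (nat_lit 0) (XT.nd (nat_lit 390) (nat_lit 2736) (nat_lit 0) (XT.nd (nat_lit 156) (nat_lit 1292) (nat_lit 0) (XT.nd (nat_lit 78) (nat_lit 0) (nat_lit 76) (XT.lf (nat_lit 76) (nat_lit 2134304423) (nat_lit 0) (nat_lit 1609568506) (nat_lit 1368) (nat_lit 3877093355) (nat_lit 628) (nat_lit 5) (nat_lit 627) (nat_lit 5) (nat_lit 645) (nat_lit 5) (nat_lit 552) (nat_lit 537) (nat_lit 471)) (XT.lf (nat_lit 0) (nat_lit 5528761203) (nat_lit 1292) (nat_lit 1287029358) (nat_lit 1368) (nat_lit 857672377) (nat_lit 628) (nat_lit 5) (nat_lit 645) (nat_lit 5) (nat_lit 646) (nat_lit 5) (nat_lit 553) (nat_lit 537) (nat_lit 470)))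 (XT.nd (nat_lit 78) (nat_lit 1368) (nat_lit 0) (XT.lf (nat_lit 76) (nat_lit 2999025839) (nat_lit 0) (nat_lit 4343165078) (nat_lit 1368) (nat_lit 384964499) (nat_lit 629) (nat_lit 5) (nat_lit 628) (nat_lit 5) (nat_lit 646) (nat_lit 5) (nat_lit 554) (nat_lit 537) (nat_lit 469)) (XT.nd (nat_lit 78) (nat_lit 0) (nat_lit 76) (XT.lf (nat_lit 0) (nat_lit 1363197929) (nat_lit 1368) (nat_lit 429277144) (nat_lit 1444) (nat_lit 5989831788) (nat_lit 610) (nat_lit 5) (nat_lit 628) (nat_lit 5) (nat_lit 629) (nat_lit 5) (nat_lit 555) (nat_lit 537) (nat_lit 468)) (XT.lf (nat_lit 0) (nat_lit 3136270792) (nat_lit 1368) (nat_lit 3865083100) (nat_lit 1444) (nat_lit 837257115) (nat_lit 611) (nat_lit 5) (nat_lit 629) (nat_lit 5) (nat_lit 630) (nat_lit 5) (nat_lit 556) (nat_lit 537) (nat_lit 467))))) (XT.nd (nat_lit 156) (nat_lit 2812) (nat_lit 0) (XT.nd (nat_lit 78) (nat_lit 0) (nat_lit 0) (XT.lf (nat_lit 76) (nat_lit 542800657) (nat_lit 0) (nat_lit 4384659206) (nat_lit 1444) (nat_lit 2968930831) (nat_lit 612) (nat_lit 5) (nat_lit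 611) (nat_lit 5) (nat_lit 630) (nat_lit 5) (nat_lit 557) (nat_lit 537) (nat_lit 466)) (XT.lf (nat_lit 76) (nat_lit 5064756759) (nat_lit 0) (nat_lit 1680539690) (nat_lit 1444) (nat_lit 1210215553) (nat_lit 612) (nat_lit 5) (nat_lit 611) (nat_lit 5) (nat_lit 630) (nat_lit 5) (nat_lit 558) (nat_lit 537) (nat_lit 465))) (XT.nd (nat_lit 78) (nat_lit 1444) (nat_lit 0) (XT.lf (nat_lit 0) (nat_lit 559241732) (nat_lit 1444) (nat_lit 6370565235) (nat_lit 76) (nat_lit 1086270928) (nat_lit 593) (nat_lit 5) (nat_lit 612) (nat_lit 5) (nat_lit 594) (nat_lit 5) (nat_lit 559) (nat_lit 537) (nat_lit 464)) (XT.nd (nat_lit 78) (nat_lit 1444) (nat_lit 0) (XT.lf (nat_lit 0) (nat_lit 2344460340) (nat_lit 1444) (nat_lit 1812032869) (nat_lit 76) (nat_lit 3921272724) (nat_lit 593) (nat_lit 5) (nat_lit 612) (nat_lit 5) (nat_lit 594) (nat_lit 5) (nat_lit 560) (nat_lit 537) (nat_lit 463)) (XT.lf (nat_lit 0) (nat_lit 2848574748) (nat_lit 1444) (nat_lit 1301877387) (nat_lit 1520) (nat_lit 3990536533) (nat_lit 574) (nat_lit 5) (nat_lit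 593) (nat_lit 5) (nat_lit 594) (nat_lit 5) (nat_lit 561) (nat_lit 537) (nat_lit 462)))))) (XT.nd (nat_lit 390) (nat_lit 4712) (nat_lit 0) (XT.nd (nat_lit 156) (nat_lit 3344) (nat_lit 0) (XT.nd (nat_lit 78) (nat_lit 1520) (nat_lit 0) (XT.lf (nat_lit 0) (nat_lit 5982358078) (nat_lit 1520) (nat_lit 615793432) (nat_lit 76) (nat_lit 1607530727) (nat_lit 574) (nat_lit 5) (nat_lit 594) (nat_lit 5) (nat_lit 575) (nat_lit 5) (nat_lit 562) (nat_lit 537) (nat_lit 461)) (XT.lf (nat_lit 0) (nat_lit 4174024715) (nat_lit 1520) (nat_lit 3680346724) (nat_lit 1596) (nat_lit 417231074) (nat_lit 554) (nat_lit 5) (nat_lit 574) (nat_lit 5) (nat_lit 575) (nat_lit 5) (nat_lit 563) (nat_lit 537) (nat_lit 460))) (XT.nd (nat_lit 78) (nat_lit 1672) (nat_lit 0) (XT.lf (nat_lit 0) (nat_lit 702451867) (nat_lit 1596) (nat_lit 680559675) (nat_lit 1672) (nat_lit 6956112418) (nat_lit 532) (nat_lit 5) (nat_lit 553) (nat_lit 5) (nat_lit 554) (nat_lit 5) (nat_lit 564) (nat_lit 537) (nat_lit 459)) (XT.nd (nat_lit 78) (nat_lit 1672) (nat_lit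 0) (XT.lf (nat_lit 0) (nat_lit 3225287960) (nat_lit 1672) (nat_lit 2799012170) (nat_lit 76) (nat_lit 2383410328) (nat_lit 532) (nat_lit 5) (nat_lit 554) (nat_lit 5) (nat_lit 533) (nat_lit 5) (nat_lit 565) (nat_lit 537) (nat_lit 458)) (XT.lf (nat_lit 0) (nat_lit 2132191905) (nat_lit 1672) (nat_lit 2959670536) (nat_lit 1748) (nat_lit 3386059245) (nat_lit 510) (nat_lit 5) (nat_lit 532) (nat_lit 5) (nat_lit 533) (nat_lit 5) (nat_lit 566) (nat_lit 537) (nat_lit 457))))) (XT.nd (nat_lit 156) (nat_lit 2888) (nat_lit 0) (XT.nd (nat_lit 78) (nat_lit 1824) (nat_lit 0) (XT.lf (nat_lit 0) (nat_lit 6985316628) (nat_lit 1748) (nat_lit 1377531650) (nat_lit 76) (nat_lit 186899910) (nat_lit 510) (nat_lit 5) (nat_lit 533) (nat_lit 5) (nat_lit 511) (nat_lit 5) (nat_lit 567) (nat_lit 537) (nat_lit 456)) (XT.lf (nat_lit 0) (nat_lit 303598129) (nat_lit 1824) (nat_lit 4932477160) (nat_lit 76) (nat_lit 3386623328) (nat_lit 486) (nat_lit 5) (nat_lit 510) (nat_lit 5) (nat_lit 487) (nat_lit 5) (nat_lit 568) (nat_lit 537) (nat_lit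 455))) (XT.nd (nat_lit 78) (nat_lit 1064) (nat_lit 0) (XT.lf (nat_lit 0) (nat_lit 145752662) (nat_lit 1824) (nat_lit 2022934284) (nat_lit 1900) (nat_lit 6528603261) (nat_lit 462) (nat_lit 5) (nat_lit 486) (nat_lit 5) (nat_lit 487) (nat_lit 5) (nat_lit 569) (nat_lit 537) (nat_lit 454)) (XT.nd (nat_lit 78) (nat_lit 1064) (nat_lit 0) (XT.lf (nat_lit 0) (nat_lit 4083340940) (nat_lit 1900) (nat_lit 3415910559) (nat_lit 76) (nat_lit 1273878721) (nat_lit 462) (nat_lit 5) (nat_lit 487) (nat_lit 5) (nat_lit 463) (nat_lit 5) (nat_lit 570) (nat_lit 537) (nat_lit 453)) (XT.lf (nat_lit 0) (nat_lit 1806009386) (nat_lit 1064) (nat_lit 4226773737) (nat_lit 1140) (nat_lit 2817775830) (nat_lit 448) (nat_lit 5) (nat_lit 462) (nat_lit 5) (nat_lit 463) (nat_lit 5) (nat_lit 571) (nat_lit 537) (nat_lit 452))))))) (XT.nd (nat_lit 780) (nat_lit 5168) (nat_lit 0) (XT.nd (nat_lit 390) (nat_lit 2584) (nat_lit 0) (XT.nd (nat_lit 156) (nat_lit 1748) (nat_lit 0) (XT.nd (nat_lit 78) (nat_lit 988) (nat_lit 0) (XT.lf (nat_lit 0) (nat_lit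 7152138211) (nat_lit 1064) (nat_lit 863759935) (nat_lit 1140) (nat_lit 913746221) (nat_lit 448) (nat_lit 5) (nat_lit 462) (nat_lit 5) (nat_lit 463) (nat_lit 5) (nat_lit 572) (nat_lit 537) (nat_lit 451)) (XT.lf (nat_lit 0) (nat_lit 1027312424) (nat_lit 988) (nat_lit 5417989926) (nat_lit 76) (nat_lit 2564628609) (nat_lit 435) (nat_lit 5) (nat_lit 448) (nat_lit 5) (nat_lit 436) (nat_lit 5) (nat_lit 573) (nat_lit 537) (nat_lit 450))) (XT.nd (nat_lit 78) (nat_lit 1748) (nat_lit 0) (XT.lf (nat_lit 0) (nat_lit 2985210556) (nat_lit 988) (nat_lit 37334768) (nat_lit 76) (nat_lit 6069353777) (nat_lit 435) (nat_lit 5) (nat_lit 448) (nat_lit 5) (nat_lit 436) (nat_lit 5) (nat_lit 574) (nat_lit 537) (nat_lit 449)) (XT.nd (nat_lit 78) (nat_lit 836) (nat_lit 0) (XT.lf (nat_lit 0) (nat_lit 4994292777) (nat_lit 988) (nat_lit 3681838768) (nat_lit 76) (nat_lit 499136189) (nat_lit 423) (nat_lit 5) (nat_lit 436) (nat_lit 5) (nat_lit 424) (nat_lit 5) (nat_lit 575) (nat_lit 537) (nat_lit 448)) (XT.lf (nat_lit 0) (nat_lit 1852684786)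 (nat_lit 836) (nat_lit 5196585781) (nat_lit 912) (nat_lit 2210920514) (nat_lit 412) (nat_lit 5) (nat_lit 423) (nat_lit 5) (nat_lit 424) (nat_lit 5) (nat_lit 576) (nat_lit 537) (nat_lit 447))))) (XT.nd (nat_lit 156) (nat_lit 1672) (nat_lit 0) (XT.nd (nat_lit 78) (nat_lit 912) (nat_lit 0) (XT.lf (nat_lit 0) (nat_lit 7521371851) (nat_lit 836) (nat_lit 1622448772) (nat_lit 912) (nat_lit 203024403) (nat_lit 412) (nat_lit 5) (nat_lit 423) (nat_lit 5) (nat_lit 424) (nat_lit 5) (nat_lit 577) (nat_lit 537) (nat_lit 446)) (XT.lf (nat_lit 0) (nat_lit 1833516559) (nat_lit 912) (nat_lit 5567530391) (nat_lit 76) (nat_lit 2033693346) (nat_lit 400) (nat_lit 5) (nat_lit 412) (nat_lit 5) (nat_lit 401) (nat_lit 5) (nat_lit 578) (nat_lit 537) (nat_lit 445))) (XT.nd (nat_lit 78) (nat_lit 836) (nat_lit 0) (XT.lf (nat_lit 0) (nat_lit 137375462) (nat_lit 836) (nat_lit 3769107538) (nat_lit 912) (nat_lit 5617916863) (nat_lit 389) (nat_lit 5) (nat_lit 400) (nat_lit 5) (nat_lit 401) (nat_lit 5) (nat_lit 579) (nat_lit 537) (nat_lit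 444)) (XT.nd (nat_lit 78) (nat_lit 836) (nat_lit 0) (XT.lf (nat_lit 0) (nat_lit 6005424930) (nat_lit 836) (nat_lit 27617433) (nat_lit 912) (nat_lit 3582569053) (nat_lit 389) (nat_lit 5) (nat_lit 400) (nat_lit 5) (nat_lit 401) (nat_lit 5) (nat_lit 580) (nat_lit 537) (nat_lit 443)) (XT.lf (nat_lit 0) (nat_lit 2260846622) (nat_lit 836) (nat_lit 5955823551) (nat_lit 912) (nat_lit 1491687719) (nat_lit 378) (nat_lit 5) (nat_lit 389) (nat_lit 5) (nat_lit 390) (nat_lit 5) (nat_lit 581) (nat_lit 537) (nat_lit 442)))))) (XT.nd (nat_lit 390) (nat_lit 2888) (nat_lit 0) (XT.nd (nat_lit 156) (nat_lit 1444) (nat_lit 0) (XT.nd (nat_lit 78) (nat_lit 760) (nat_lit 0) (XT.lf (nat_lit 0) (nat_lit 632585141) (nat_lit 912) (nat_lit 1535291268) (nat_lit 76) (nat_lit 7635001413) (nat_lit 377) (nat_lit 5) (nat_lit 389) (nat_lit 5) (nat_lit 378) (nat_lit 5) (nat_lit 582) (nat_lit 537) (nat_lit 441)) (XT.lf (nat_lit 0) (nat_lit 2795876815) (nat_lit 836) (nat_lit 5391717443) (nat_lit 76) (nat_lit 1711167906) (nat_lit 367) (nat_lit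 5) (nat_lit 378) (nat_lit 5) (nat_lit 368) (nat_lit 5) (nat_lit 583) (nat_lit 537) (nat_lit 440))) (XT.nd (nat_lit 78) (nat_lit 684) (nat_lit 0) (XT.lf (nat_lit 0) (nat_lit 662625057) (nat_lit 760) (nat_lit 4345023982) (nat_lit 836) (nat_lit 4988812188) (nat_lit 357) (nat_lit 5) (nat_lit 367) (nat_lit 5) (nat_lit 368) (nat_lit 5) (nat_lit 584) (nat_lit 537) (nat_lit 439)) (XT.nd (nat_lit 78) (nat_lit 684) (nat_lit 0) (XT.lf (nat_lit 0) (nat_lit 6884992789) (nat_lit 760) (nat_lit 391327251) (nat_lit 836) (nat_lit 2819542264) (nat_lit 357) (nat_lit 5) (nat_lit 367) (nat_lit 5) (nat_lit 368) (nat_lit 5) (nat_lit 585) (nat_lit 537) (nat_lit 438)) (XT.lf (nat_lit 0) (nat_lit 3024499928) (nat_lit 684) (nat_lit 6586070727) (nat_lit 760) (nat_lit 586277902) (nat_lit 348) (nat_lit 5) (nat_lit 357) (nat_lit 5) (nat_lit 358) (nat_lit 5) (nat_lit 586) (nat_lit 537) (nat_lit 437))))) (XT.nd (nat_lit 234) (nat_lit 1368) (nat_lit 0) (XT.nd (nat_lit 78) (nat_lit 1444) (nat_lit 0) (XT.lf (nat_lit 0) (nat_lit 1670804831)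 (nat_lit 760) (nat_lit 911255508) (nat_lit 76) (nat_lit 7717548966) (nat_lit 347) (nat_lit 5) (nat_lit 357) (nat_lit 5) (nat_lit 348) (nat_lit 5) (nat_lit 587) (nat_lit 537) (nat_lit 436)) (XT.nd (nat_lit 78) (nat_lit 684) (nat_lit 0) (XT.lf (nat_lit 0) (nat_lit 3988514445) (nat_lit 836) (nat_lit 4896233341) (nat_lit 76) (nat_lit 1519134470) (nat_lit 337) (nat_lit 5) (nat_lit 348) (nat_lit 5) (nat_lit 338) (nat_lit 5) (nat_lit 588) (nat_lit 537) (nat_lit 435)) (XT.lf (nat_lit 0) (nat_lit 1534190188) (nat_lit 684) (nat_lit 4829366341) (nat_lit 760) (nat_lit 4146465751) (nat_lit 328) (nat_lit 5) (nat_lit 337) (nat_lit 5) (nat_lit 338) (nat_lit 5) (nat_lit 589) (nat_lit 537) (nat_lit 434)))) (XT.nd (nat_lit 78) (nat_lit 1368) (nat_lit 0) (XT.lf (nat_lit 0) (nat_lit 8133806556) (nat_lit 684) (nat_lit 663179882) (nat_lit 760) (nat_lit 1821082081) (nat_lit 328) (nat_lit 5) (nat_lit 337) (nat_lit 5) (nat_lit 338) (nat_lit 5) (nat_lit 590) (nat_lit 537) (nat_lit 433)) (XT.nd (nat_lit 78) (nat_lit 608) (nat_lit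 0) (XT.lf (nat_lit 0) (nat_lit 572391537) (nat_lit 760) (nat_lit 6588973252) (nat_lit 76) (nat_lit 3566264356) (nat_lit 318) (nat_lit 5) (nat_lit 328) (nat_lit 5) (nat_lit 319) (nat_lit 5) (nat_lit 591) (nat_lit 537) (nat_lit 432)) (XT.lf (nat_lit 0) (nat_lit 46907588) (nat_lit 608) (nat_lit 2942495213) (nat_lit 684) (nat_lit 7849737475) (nat_lit 310) (nat_lit 5) (nat_lit 318) (nat_lit 5) (nat_lit 319) (nat_lit 5) (nat_lit 592) (nat_lit 537) (nat_lit 431))))))))
noncomputable def xc104 : XT := (XT.nd (nat_lit 1560) (nat_lit 988) (nat_lit 0) (XT.nd (nat_lit 780) (nat_lit 3192) (nat_lit 0) (XT.nd (nat_lit 390) (nat_lit 1824) (nat_lit 0) (XT.nd (nat_lit 156) (nat_lit 1292) (nat_lit 0) (XT.nd (nat_lit 78) (nat_lit 684) (nat_lit 0) (XT.lf (nat_lit 0) (nat_lit 5486874853) (nat_lit 684) (nat_lit 4082334580) (nat_lit 76) (nat_lit 1383030854) (nat_lit 310) (nat_lit 5) (nat_lit 319) (nat_lit 5) (nat_lit 311) (nat_lit 5) (nat_lit 593) (nat_lit 537) (nat_lit 430)) (XT.lf (nat_lit 0) (nat_lit 2752858559) (nat_lit 684)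 (nat_lit 5297991385) (nat_lit 760) (nat_lit 3016422329) (nat_lit 301) (nat_lit 5) (nat_lit 310) (nat_lit 5) (nat_lit 311) (nat_lit 5) (nat_lit 594) (nat_lit 537) (nat_lit 429))) (XT.nd (nat_lit 78) (nat_lit 1292) (nat_lit 0) (XT.lf (nat_lit 0) (nat_lit 9754740138) (nat_lit 684) (nat_lit 918195871) (nat_lit 760) (nat_lit 511533286) (nat_lit 301) (nat_lit 5) (nat_lit 310) (nat_lit 5) (nat_lit 311) (nat_lit 5) (nat_lit 595) (nat_lit 537) (nat_lit 428)) (XT.nd (nat_lit 78) (nat_lit 608) (nat_lit 0) (XT.lf (nat_lit 0) (nat_lit 2056242205) (nat_lit 684) (nat_lit 5698694540) (nat_lit 76) (nat_lit 3548017372) (nat_lit 292) (nat_lit 5) (nat_lit 301) (nat_lit 5) (nat_lit 293) (nat_lit 5) (nat_lit 596) (nat_lit 537) (nat_lit 427)) (XT.lf (nat_lit 0) (nat_lit 1357634234) (nat_lit 608) (nat_lit 3315358739) (nat_lit 684) (nat_lit 6750659620) (nat_lit 284) (nat_lit 5) (nat_lit 292) (nat_lit 5) (nat_lit 293) (nat_lit 5) (nat_lit 597) (nat_lit 537) (nat_lit 426))))) (XT.nd (nat_lit 156) (nat_lit 1216) (nat_lit 0) (XT.nd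 (nat_lit 78) (nat_lit 608) (nat_lit 0) (XT.lf (nat_lit 0) (nat_lit 7368554620) (nat_lit 684) (nat_lit 2947320433) (nat_lit 76) (nat_lit 1230361418) (nat_lit 284) (nat_lit 5) (nat_lit 293) (nat_lit 5) (nat_lit 285) (nat_lit 5) (nat_lit 598) (nat_lit 537) (nat_lit 425)) (XT.lf (nat_lit 0) (nat_lit 4323470902) (nat_lit 608) (nat_lit 5825079237) (nat_lit 684) (nat_lit 1522112362) (nat_lit 276) (nat_lit 5) (nat_lit 284) (nat_lit 5) (nat_lit 285) (nat_lit 5) (nat_lit 599) (nat_lit 537) (nat_lit 424))) (XT.nd (nat_lit 78) (nat_lit 1140) (nat_lit 0) (XT.lf (nat_lit 0) (nat_lit 1171503695) (nat_lit 684) (nat_lit 50508536) (nat_lit 76) (nat_lit 10575401690) (nat_lit 275) (nat_lit 5) (nat_lit 284) (nat_lit 5) (nat_lit 276) (nat_lit 5) (nat_lit 600) (nat_lit 537) (nat_lit 423)) (XT.nd (nat_lit 78) (nat_lit 532) (nat_lit 0) (XT.lf (nat_lit 0) (nat_lit 3950903532) (nat_lit 684) (nat_lit 4493638253) (nat_lit 76) (nat_lit 3480912387) (nat_lit 267) (nat_lit 5) (nat_lit 276) (nat_lit 5) (nat_lit 268) (nat_lit 5) (nat_lit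 601) (nat_lit 537) (nat_lit 422)) (XT.lf (nat_lit 0) (nat_lit 3015063397) (nat_lit 532) (nat_lit 3779984168) (nat_lit 608) (nat_lit 5260825398) (nat_lit 260) (nat_lit 5) (nat_lit 267) (nat_lit 5) (nat_lit 268) (nat_lit 5) (nat_lit 602) (nat_lit 537) (nat_lit 421)))))) (XT.nd (nat_lit 390) (nat_lit 1520) (nat_lit 0) (XT.nd (nat_lit 156) (nat_lit 1064) (nat_lit 0) (XT.nd (nat_lit 78) (nat_lit 608) (nat_lit 0) (XT.lf (nat_lit 0) (nat_lit 9714094942) (nat_lit 608) (nat_lit 1484973435) (nat_lit 76) (nat_lit 989472185) (nat_lit 260) (nat_lit 5) (nat_lit 268) (nat_lit 5) (nat_lit 261) (nat_lit 5) (nat_lit 603) (nat_lit 537) (nat_lit 420)) (XT.lf (nat_lit 0) (nat_lit 410477141) (nat_lit 608) (nat_lit 6071130731) (nat_lit 76) (nat_lit 5841253961) (nat_lit 252) (nat_lit 5) (nat_lit 260) (nat_lit 5) (nat_lit 253) (nat_lit 5) (nat_lit 604) (nat_lit 537) (nat_lit 419))) (XT.nd (nat_lit 78) (nat_lit 532) (nat_lit 0) (XT.lf (nat_lit 0) (nat_lit 1684699269) (nat_lit 532) (nat_lit 1638030258) (nat_lit 608) (nat_lit 9136758395)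 (nat_lit 245) (nat_lit 5) (nat_lit 252) (nat_lit 5) (nat_lit 253) (nat_lit 5) (nat_lit 605) (nat_lit 537) (nat_lit 418)) (XT.nd (nat_lit 78) (nat_lit 532) (nat_lit 0) (XT.lf (nat_lit 0) (nat_lit 6337600345) (nat_lit 608) (nat_lit 2966531384) (nat_lit 76) (nat_lit 3293828113) (nat_lit 245) (nat_lit 5) (nat_lit 253) (nat_lit 5) (nat_lit 246) (nat_lit 5) (nat_lit 606) (nat_lit 537) (nat_lit 417)) (XT.lf (nat_lit 0) (nat_lit 5028751017) (nat_lit 532) (nat_lit 4409791512) (nat_lit 608) (nat_lit 3300143957) (nat_lit 238) (nat_lit 5) (nat_lit 245) (nat_lit 5) (nat_lit 246) (nat_lit 5) (nat_lit 607) (nat_lit 537) (nat_lit 416))))) (XT.nd (nat_lit 156) (nat_lit 988) (nat_lit 0) (XT.nd (nat_lit 78) (nat_lit 76) (nat_lit 0) (XT.lf (nat_lit 0) (nat_lit 318186889) (nat_lit 456) (nat_lit 12291627609) (nat_lit 532) (nat_lit 272247691) (nat_lit 232) (nat_lit 5) (nat_lit 238) (nat_lit 5) (nat_lit 239) (nat_lit 5) (nat_lit 608) (nat_lit 537) (nat_lit 415)) (XT.lf (nat_lit 0) (nat_lit 2843051799) (nat_lit 532) (nat_lit 4488187288)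 (nat_lit 76) (nat_lit 5695425739) (nat_lit 231) (nat_lit 5) (nat_lit 238) (nat_lit 5) (nat_lit 232) (nat_lit 5) (nat_lit 609) (nat_lit 537) (nat_lit 414))) (XT.nd (nat_lit 78) (nat_lit 456) (nat_lit 0) (XT.lf (nat_lit 0) (nat_lit 3772703655) (nat_lit 532) (nat_lit 2251645821) (nat_lit 608) (nat_lit 7149627999) (nat_lit 224) (nat_lit 5) (nat_lit 231) (nat_lit 5) (nat_lit 232) (nat_lit 5) (nat_lit 610) (nat_lit 537) (nat_lit 413)) (XT.nd (nat_lit 78) (nat_lit 456) (nat_lit 0) (XT.lf (nat_lit 0) (nat_lit 9301587756) (nat_lit 608) (nat_lit 1107328536) (nat_lit 76) (nat_lit 2914674484) (nat_lit 224) (nat_lit 5) (nat_lit 232) (nat_lit 5) (nat_lit 225) (nat_lit 5) (nat_lit 611) (nat_lit 537) (nat_lit 412)) (XT.lf (nat_lit 0) (nat_lit 7411129914) (nat_lit 456) (nat_lit 5279580790) (nat_lit 532) (nat_lit 784559518) (nat_lit 218) (nat_lit 5) (nat_lit 224) (nat_lit 5) (nat_lit 225) (nat_lit 5) (nat_lit 612) (nat_lit 537) (nat_lit 411))))))) (XT.nd (nat_lit 75894) (nat_lit 0) (nat_lit 30780) (XT.nd (nat_lit 75504)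 (nat_lit 0) (nat_lit 34352) (XT.nd (nat_lit 156) (nat_lit 456) (nat_lit 0) (XT.nd (nat_lit 78) (nat_lit 0) (nat_lit 0) (XT.lf (nat_lit 0) (nat_lit 2477512229) (nat_lit 456) (nat_lit 14042073) (nat_lit 532) (nat_lit 11137963870) (nat_lit 211) (nat_lit 5) (nat_lit 217) (nat_lit 5) (nat_lit 218) (nat_lit 5) (nat_lit 613) (nat_lit 537) (nat_lit 410)) (XT.lf (nat_lit 0) (nat_lit 5881939849) (nat_lit 532) (nat_lit 2577929499) (nat_lit 76) (nat_lit 5325693558) (nat_lit 211) (nat_lit 5) (nat_lit 218) (nat_lit 5) (nat_lit 212) (nat_lit 5) (nat_lit 614) (nat_lit 537) (nat_lit 409))) (XT.nd (nat_lit 75192) (nat_lit 0) (nat_lit 35416) (XT.lf (nat_lit 0) (nat_lit 6225809734) (nat_lit 456) (nat_lit 3138663812) (nat_lit 532) (nat_lit 4579768806) (nat_lit 205) (nat_lit 5) (nat_lit 211) (nat_lit 5) (nat_lit 212) (nat_lit 5) (nat_lit 615) (nat_lit 537) (nat_lit 408)) (XT.nd (nat_lit 78) (nat_lit 0) (nat_lit 0) (XT.lf (nat_lit 0) (nat_lit 1143451819) (nat_lit 1140) (nat_lit 1192750392) (nat_lit 1140) (nat_lit 1192750392)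 (nat_lit 671) (nat_lit 3) (nat_lit 686) (nat_lit 3) (nat_lit 686) (nat_lit 5) (nat_lit 538) (nat_lit 538) (nat_lit 484)) (XT.lf (nat_lit 76) (nat_lit 1134802359) (nat_lit 0) (nat_lit 2952291354) (nat_lit 1140) (nat_lit 3005699556) (nat_lit 672) (nat_lit 5) (nat_lit 671) (nat_lit 3) (nat_lit 686) (nat_lit 5) (nat_lit 539) (nat_lit 538) (nat_lit 483))))) (XT.nd (nat_lit 156) (nat_lit 0) (nat_lit 0) (XT.nd (nat_lit 78) (nat_lit 1064) (nat_lit 0) (XT.lf (nat_lit 76) (nat_lit 4733853555) (nat_lit 0) (nat_lit 1158859707) (nat_lit 1140) (nat_lit 1236281108) (nat_lit 672) (nat_lit 5) (nat_lit 671) (nat_lit 3) (nat_lit 686) (nat_lit 5) (nat_lit 540) (nat_lit 538) (nat_lit 482)) (XT.lf (nat_lit 0) (nat_lit 527634307) (nat_lit 1140) (nat_lit 5943949244) (nat_lit 1216) (nat_lit 694934464) (nat_lit 657) (nat_lit 5) (nat_lit 672) (nat_lit 5) (nat_lit 673) (nat_lit 5) (nat_lit 541) (nat_lit 538) (nat_lit 481))) (XT.nd (nat_lit 78) (nat_lit 0) (nat_lit 0) (XT.lf (nat_lit 0) (nat_lit 2289052086) (nat_lit 1140) (nat_lit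 2300365246) (nat_lit 1216) (nat_lit 2615639380) (nat_lit 657) (nat_lit 5) (nat_lit 672) (nat_lit 5) (nat_lit 673) (nat_lit 5) (nat_lit 542) (nat_lit 538) (nat_lit 480)) (XT.nd (nat_lit 78) (nat_lit 0) (nat_lit 0) (XT.lf (nat_lit 76) (nat_lit 1410048590) (nat_lit 0) (nat_lit 2640597465) (nat_lit 1216) (nat_lit 3194424674) (nat_lit 658) (nat_lit 5) (nat_lit 657) (nat_lit 5) (nat_lit 673) (nat_lit 5) (nat_lit 543) (nat_lit 538) (nat_lit 479)) (XT.lf (nat_lit 76) (nat_lit 5201479290) (nat_lit 0) (nat_lit 617930696) (nat_lit 1216) (nat_lit 1467039714) (nat_lit 658) (nat_lit 5) (nat_lit 657) (nat_lit 5) (nat_lit 673) (nat_lit 5) (nat_lit 544) (nat_lit 538) (nat_lit 478)))))) (XT.nd (nat_lit 390) (nat_lit 2432) (nat_lit 0) (XT.nd (nat_lit 156) (nat_lit 0) (nat_lit 0) (XT.nd (nat_lit 78) (nat_lit 0) (nat_lit 0) (XT.lf (nat_lit 0) (nat_lit 268958633) (nat_lit 1216) (nat_lit 5602372275) (nat_lit 1292) (nat_lit 1457731686) (nat_lit 642) (nat_lit 5) (nat_lit 658) (nat_lit 5) (nat_lit 659) (nat_lit 5) (nat_lit 545)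 (nat_lit 538) (nat_lit 477)) (XT.lf (nat_lit 0) (nat_lit 1996096838) (nat_lit 1216) (nat_lit 1768574811) (nat_lit 1292) (nat_lit 3608144119) (nat_lit 642) (nat_lit 5) (nat_lit 658) (nat_lit 5) (nat_lit 659) (nat_lit 5) (nat_lit 546) (nat_lit 538) (nat_lit 476))) (XT.nd (nat_lit 78) (nat_lit 0) (nat_lit 76) (XT.lf (nat_lit 76) (nat_lit 2145256507) (nat_lit 0) (nat_lit 1585144855) (nat_lit 1292) (nat_lit 3687593347) (nat_lit 643) (nat_lit 5) (nat_lit 642) (nat_lit 5) (nat_lit 659) (nat_lit 5) (nat_lit 547) (nat_lit 538) (nat_lit 475)) (XT.nd (nat_lit 78) (nat_lit 0) (nat_lit 0) (XT.lf (nat_lit 0) (nat_lit 5474930136) (nat_lit 1216) (nat_lit 1332257514) (nat_lit 1292) (nat_lit 657381925) (nat_lit 643) (nat_lit 5) (nat_lit 659) (nat_lit 5) (nat_lit 660) (nat_lit 5) (nat_lit 548) (nat_lit 538) (nat_lit 474)) (XT.lf (nat_lit 76) (nat_lit 2686738015) (nat_lit 0) (nat_lit 4555797671) (nat_lit 1292) (nat_lit 269779579) (nat_lit 644) (nat_lit 5) (nat_lit 643) (nat_lit 5) (nat_lit 660) (nat_lit 5) (nat_lit 549) (nat_lit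 538) (nat_lit 473))))) (XT.nd (nat_lit 156) (nat_lit 1216) (nat_lit 0) (XT.nd (nat_lit 78) (nat_lit 0) (nat_lit 76) (XT.lf (nat_lit 0) (nat_lit 1434608022) (nat_lit 1292) (nat_lit 791757937) (nat_lit 1368) (nat_lit 5335068083) (nat_lit 626) (nat_lit 5) (nat_lit 643) (nat_lit 5) (nat_lit 644) (nat_lit 5) (nat_lit 550) (nat_lit 538) (nat_lit 472)) (XT.lf (nat_lit 0) (nat_lit 3153748115) (nat_lit 1292) (nat_lit 4273201512) (nat_lit 1368) (nat_lit 184867233) (nat_lit 627) (nat_lit 5) (nat_lit 644) (nat_lit 5) (nat_lit 645) (nat_lit 5) (nat_lit 551) (nat_lit 538) (nat_lit 471))) (XT.nd (nat_lit 78) (nat_lit 1292) (nat_lit 0) (XT.lf (nat_lit 0) (nat_lit 4889419503) (nat_lit 1292) (nat_lit 141135813) (nat_lit 1368) (nat_lit 2633011868) (nat_lit 627) (nat_lit 5) (nat_lit 644) (nat_lit 5) (nat_lit 645) (nat_lit 5) (nat_lit 552) (nat_lit 538) (nat_lit 470)) (XT.nd (nat_lit 78) (nat_lit 1292) (nat_lit 0) (XT.lf (nat_lit 76) (nat_lit 4102291138) (nat_lit 0) (nat_lit 2546948024) (nat_lit 1368) (nat_lit 1067327417) (nat_lit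 628) (nat_lit 5) (nat_lit 627) (nat_lit 5) (nat_lit 645) (nat_lit 5) (nat_lit 553) (nat_lit 538) (nat_lit 469)) (XT.lf (nat_lit 0) (nat_lit 633077357) (nat_lit 1368) (nat_lit 7130721923) (nat_lit 1444) (nat_lit 7376206) (nat_lit 610) (nat_lit 5) (nat_lit 628) (nat_lit 5) (nat_lit 629) (nat_lit 5) (nat_lit 554) (nat_lit 538) (nat_lit 468))))))))
noncomputable def xc105 : XT := (XT.nd (nat_lit 1560) (nat_lit 10184) (nat_lit 0) (XT.nd (nat_lit 780) (nat_lit 8968) (nat_lit 0) (XT.nd (nat_lit 390) (nat_lit 2964) (nat_lit 0) (XT.nd (nat_lit 156) (nat_lit 1368) (nat_lit 0) (XT.nd (nat_lit 78) (nat_lit 0) (nat_lit 0) (XT.lf (nat_lit 0) (nat_lit 2358247102) (nat_lit 1368) (nat_lit 2847261894) (nat_lit 1444) (nat_lit 2621128109) (nat_lit 610) (nat_lit 5) (nat_lit 628) (nat_lit 5) (nat_lit 629) (nat_lit 5) (nat_lit 555) (nat_lit 538) (nat_lit 467)) (XT.lf (nat_lit 76) (nat_lit 1516219709) (nat_lit 0) (nat_lit 2576009066) (nat_lit 1444) (nat_lit 3791495564) (nat_lit 611) (nat_lit 5) (nat_lit 610) (nat_lit 5) (nat_lit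 629) (nat_lit 5) (nat_lit 556) (nat_lit 538) (nat_lit 466))) (XT.nd (nat_lit 78) (nat_lit 1444) (nat_lit 0) (XT.lf (nat_lit 0) (nat_lit 5845870893) (nat_lit 1368) (nat_lit 1962950430) (nat_lit 1444) (nat_lit 133434882) (nat_lit 611) (nat_lit 5) (nat_lit 629) (nat_lit 5) (nat_lit 630) (nat_lit 5) (nat_lit 557) (nat_lit 538) (nat_lit 465)) (XT.nd (nat_lit 78) (nat_lit 1444) (nat_lit 0) (XT.lf (nat_lit 76) (nat_lit 2520068409) (nat_lit 0) (nat_lit 5113683082) (nat_lit 1444) (nat_lit 368226356) (nat_lit 612) (nat_lit 5) (nat_lit 611) (nat_lit 5) (nat_lit 630) (nat_lit 5) (nat_lit 558) (nat_lit 538) (nat_lit 464)) (XT.lf (nat_lit 0) (nat_lit 1355490974) (nat_lit 1444) (nat_lit 978319032) (nat_lit 1520) (nat_lit 5729319507) (nat_lit 592) (nat_lit 5) (nat_lit 611) (nat_lit 5) (nat_lit 612) (nat_lit 5) (nat_lit 559) (nat_lit 538) (nat_lit 463))))) (XT.nd (nat_lit 156) (nat_lit 1596) (nat_lit 0) (XT.nd (nat_lit 78) (nat_lit 1444) (nat_lit 0) (XT.lf (nat_lit 0) (nat_lit 3102530470) (nat_lit 1444) (nat_lit 4493947503)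 (nat_lit 76) (nat_lit 529104306) (nat_lit 593) (nat_lit 5) (nat_lit 612) (nat_lit 5) (nat_lit 594) (nat_lit 5) (nat_lit 560) (nat_lit 538) (nat_lit 462)) (XT.lf (nat_lit 0) (nat_lit 118008525) (nat_lit 1444) (nat_lit 4756562018) (nat_lit 1520) (nat_lit 3314914626) (nat_lit 574) (nat_lit 5) (nat_lit 593) (nat_lit 5) (nat_lit 594) (nat_lit 5) (nat_lit 561) (nat_lit 538) (nat_lit 461))) (XT.nd (nat_lit 78) (nat_lit 1596) (nat_lit 0) (XT.lf (nat_lit 0) (nat_lit 4857354709) (nat_lit 1444) (nat_lit 1822558127) (nat_lit 1520) (nat_lit 1574798276) (nat_lit 574) (nat_lit 5) (nat_lit 593) (nat_lit 5) (nat_lit 594) (nat_lit 5) (nat_lit 562) (nat_lit 538) (nat_lit 460)) (XT.nd (nat_lit 78) (nat_lit 0) (nat_lit 0) (XT.lf (nat_lit 0) (nat_lit 182163638) (nat_lit 1596) (nat_lit 6968270958) (nat_lit 76) (nat_lit 1171089768) (nat_lit 553) (nat_lit 5) (nat_lit 574) (nat_lit 5) (nat_lit 554) (nat_lit 5) (nat_lit 563) (nat_lit 538) (nat_lit 459)) (XT.lf (nat_lit 0) (nat_lit 1956840574) (nat_lit 1596) (nat_lit 2193126287) (nat_lit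 76) (nat_lit 4239427679) (nat_lit 553) (nat_lit 5) (nat_lit 574) (nat_lit 5) (nat_lit 554) (nat_lit 5) (nat_lit 564) (nat_lit 538) (nat_lit 458)))))) (XT.nd (nat_lit 390) (nat_lit 3876) (nat_lit 0) (XT.nd (nat_lit 156) (nat_lit 3496) (nat_lit 0) (XT.nd (nat_lit 78) (nat_lit 0) (nat_lit 0) (XT.lf (nat_lit 0) (nat_lit 2687090589) (nat_lit 1596) (nat_lit 1066605724) (nat_lit 1672) (nat_lit 4705194154) (nat_lit 532) (nat_lit 5) (nat_lit 553) (nat_lit 5) (nat_lit 554) (nat_lit 5) (nat_lit 565) (nat_lit 538) (nat_lit 457)) (XT.lf (nat_lit 0) (nat_lit 5584505922) (nat_lit 1672) (nat_lit 874576972) (nat_lit 76) (nat_lit 2070735097) (nat_lit 532) (nat_lit 5) (nat_lit 554) (nat_lit 5) (nat_lit 533) (nat_lit 5) (nat_lit 566) (nat_lit 538) (nat_lit 456))) (XT.nd (nat_lit 78) (nat_lit 1824) (nat_lit 0) (XT.lf (nat_lit 0) (nat_lit 4142222136) (nat_lit 1672) (nat_lit 3313968978) (nat_lit 1748) (nat_lit 1145889735) (nat_lit 510) (nat_lit 5) (nat_lit 532) (nat_lit 5) (nat_lit 533) (nat_lit 5) (nat_lit 567) (nat_lit 538)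 (nat_lit 455)) (XT.nd (nat_lit 78) (nat_lit 0) (nat_lit 0) (XT.lf (nat_lit 0) (nat_lit 572680229) (nat_lit 1748) (nat_lit 87946485) (nat_lit 1824) (nat_lit 8015471633) (nat_lit 486) (nat_lit 5) (nat_lit 509) (nat_lit 5) (nat_lit 510) (nat_lit 5) (nat_lit 568) (nat_lit 538) (nat_lit 454)) (XT.lf (nat_lit 0) (nat_lit 2509820017) (nat_lit 1824) (nat_lit 3039544040) (nat_lit 76) (nat_lit 3201644711) (nat_lit 486) (nat_lit 5) (nat_lit 510) (nat_lit 5) (nat_lit 487) (nat_lit 5) (nat_lit 569) (nat_lit 538) (nat_lit 453))))) (XT.nd (nat_lit 156) (nat_lit 2052) (nat_lit 0) (XT.nd (nat_lit 78) (nat_lit 0) (nat_lit 0) (XT.lf (nat_lit 0) (nat_lit 2127147861) (nat_lit 1824) (nat_lit 2254768160) (nat_lit 1900) (nat_lit 4445784821) (nat_lit 462) (nat_lit 5) (nat_lit 486) (nat_lit 5) (nat_lit 487) (nat_lit 5) (nat_lit 570) (nat_lit 538) (nat_lit 452)) (XT.lf (nat_lit 0) (nat_lit 6291098740) (nat_lit 1900) (nat_lit 1500642644) (nat_lit 76) (nat_lit 1114194265) (nat_lit 462) (nat_lit 5) (nat_lit 487) (nat_lit 5) (nat_lit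 463) (nat_lit 5) (nat_lit 571) (nat_lit 538) (nat_lit 451))) (XT.nd (nat_lit 78) (nat_lit 988) (nat_lit 0) (XT.lf (nat_lit 0) (nat_lit 3812665791) (nat_lit 1064) (nat_lit 4437969945) (nat_lit 1140) (nat_lit 734857755) (nat_lit 448) (nat_lit 5) (nat_lit 462) (nat_lit 5) (nat_lit 463) (nat_lit 5) (nat_lit 572) (nat_lit 538) (nat_lit 450)) (XT.nd (nat_lit 78) (nat_lit 0) (nat_lit 0) (XT.lf (nat_lit 0) (nat_lit 154554653) (nat_lit 912) (nat_lit 996471526) (nat_lit 988) (nat_lit 7915788080) (nat_lit 435) (nat_lit 5) (nat_lit 447) (nat_lit 5) (nat_lit 448) (nat_lit 5) (nat_lit 573) (nat_lit 538) (nat_lit 449)) (XT.lf (nat_lit 0) (nat_lit 3089114757) (nat_lit 988) (nat_lit 3538127910) (nat_lit 76) (nat_lit 2521936742) (nat_lit 435) (nat_lit 5) (nat_lit 448) (nat_lit 5) (nat_lit 436) (nat_lit 5) (nat_lit 574) (nat_lit 538) (nat_lit 448))))))) (XT.nd (nat_lit 780) (nat_lit 5016) (nat_lit 0) (XT.nd (nat_lit 390) (nat_lit 2508) (nat_lit 0) (XT.nd (nat_lit 156) (nat_lit 1748) (nat_lit 0) (XT.nd (nat_lit 78) (nat_lit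 0) (nat_lit 0) (XT.lf (nat_lit 0) (nat_lit 1936553860) (nat_lit 912) (nat_lit 3122165754) (nat_lit 988) (nat_lit 4174618778) (nat_lit 423) (nat_lit 5) (nat_lit 435) (nat_lit 5) (nat_lit 436) (nat_lit 5) (nat_lit 575) (nat_lit 538) (nat_lit 447)) (XT.lf (nat_lit 0) (nat_lit 7068495032) (nat_lit 988) (nat_lit 1779203225) (nat_lit 76) (nat_lit 471468313) (nat_lit 423) (nat_lit 5) (nat_lit 436) (nat_lit 5) (nat_lit 424) (nat_lit 5) (nat_lit 576) (nat_lit 538) (nat_lit 446))) (XT.nd (nat_lit 78) (nat_lit 912) (nat_lit 0) (XT.lf (nat_lit 0) (nat_lit 3853009009) (nat_lit 836) (nat_lit 5285598138) (nat_lit 912) (nat_lit 267702898) (nat_lit 412) (nat_lit 5) (nat_lit 423) (nat_lit 5) (nat_lit 424) (nat_lit 5) (nat_lit 577) (nat_lit 538) (nat_lit 445)) (XT.nd (nat_lit 78) (nat_lit 0) (nat_lit 0) (XT.lf (nat_lit 0) (nat_lit 90998126) (nat_lit 836) (nat_lit 1628135958) (nat_lit 912) (nat_lit 7776091415) (nat_lit 400) (nat_lit 5) (nat_lit 411) (nat_lit 5) (nat_lit 412) (nat_lit 5) (nat_lit 578) (nat_lit 538) (nat_lit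 444)) (XT.lf (nat_lit 0) (nat_lit 3768233741) (nat_lit 912) (nat_lit 3703461833) (nat_lit 76) (nat_lit 2113667553) (nat_lit 400) (nat_lit 5) (nat_lit 412) (nat_lit 5) (nat_lit 401) (nat_lit 5) (nat_lit 579) (nat_lit 538) (nat_lit 443))))) (XT.nd (nat_lit 156) (nat_lit 1672) (nat_lit 0) (XT.nd (nat_lit 78) (nat_lit 0) (nat_lit 0) (XT.lf (nat_lit 0) (nat_lit 2102545958) (nat_lit 836) (nat_lit 3755638299) (nat_lit 912) (nat_lit 3819123311) (nat_lit 389) (nat_lit 5) (nat_lit 400) (nat_lit 5) (nat_lit 401) (nat_lit 5) (nat_lit 580) (nat_lit 538) (nat_lit 442)) (XT.lf (nat_lit 0) (nat_lit 7990920783) (nat_lit 912) (nat_lit 1721985361) (nat_lit 76) (nat_lit 58166422) (nat_lit 389) (nat_lit 5) (nat_lit 401) (nat_lit 5) (nat_lit 390) (nat_lit 5) (nat_lit 581) (nat_lit 538) (nat_lit 441))) (XT.nd (nat_lit 78) (nat_lit 760) (nat_lit 0) (XT.lf (nat_lit 0) (nat_lit 324566508) (nat_lit 912) (nat_lit 5614886079) (nat_lit 76) (nat_lit 3926644794) (nat_lit 377) (nat_lit 5) (nat_lit 389) (nat_lit 5) (nat_lit 378) (nat_lit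 5) (nat_lit 582) (nat_lit 538) (nat_lit 440)) (XT.nd (nat_lit 78) (nat_lit 0) (nat_lit 0) (XT.lf (nat_lit 0) (nat_lit 371916629) (nat_lit 760) (nat_lit 2066061370) (nat_lit 836) (nat_lit 7525001986) (nat_lit 367) (nat_lit 5) (nat_lit 377) (nat_lit 5) (nat_lit 378) (nat_lit 5) (nat_lit 583) (nat_lit 538) (nat_lit 439)) (XT.lf (nat_lit 0) (nat_lit 4620475287) (nat_lit 836) (nat_lit 3544771732) (nat_lit 76) (nat_lit 1896018171) (nat_lit 367) (nat_lit 5) (nat_lit 378) (nat_lit 5) (nat_lit 368) (nat_lit 5) (nat_lit 584) (nat_lit 538) (nat_lit 438)))))) (XT.nd (nat_lit 390) (nat_lit 2736) (nat_lit 0) (XT.nd (nat_lit 156) (nat_lit 1520) (nat_lit 0) (XT.nd (nat_lit 78) (nat_lit 0) (nat_lit 0) (XT.lf (nat_lit 0) (nat_lit 2617797222) (nat_lit 760) (nat_lit 4236613945) (nat_lit 836) (nat_lit 3306950435) (nat_lit 357) (nat_lit 5) (nat_lit 367) (nat_lit 5) (nat_lit 368) (nat_lit 5) (nat_lit 585) (nat_lit 538) (nat_lit 437)) (XT.lf (nat_lit 0) (nat_lit 8926535453) (nat_lit 760) (nat_lit 207672897) (nat_lit 836) (nat_lit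 1129229192) (nat_lit 357) (nat_lit 5) (nat_lit 367) (nat_lit 5) (nat_lit 368) (nat_lit 5) (nat_lit 586) (nat_lit 538) (nat_lit 436))) (XT.nd (nat_lit 78) (nat_lit 760) (nat_lit 0) (XT.lf (nat_lit 0) (nat_lit 1113637956) (nat_lit 760) (nat_lit 5364980732) (nat_lit 76) (nat_lit 3888077432) (nat_lit 347) (nat_lit 5) (nat_lit 357) (nat_lit 5) (nat_lit 348) (nat_lit 5) (nat_lit 587) (nat_lit 538) (nat_lit 435)) (XT.nd (nat_lit 78) (nat_lit 0) (nat_lit 0) (XT.lf (nat_lit 0) (nat_lit 992290541) (nat_lit 760) (nat_lit 2388763674) (nat_lit 836) (nat_lit 7090921306) (nat_lit 337) (nat_lit 5) (nat_lit 347) (nat_lit 5) (nat_lit 348) (nat_lit 5) (nat_lit 588) (nat_lit 538) (nat_lit 434)) (XT.lf (nat_lit 0) (nat_lit 5719832860) (nat_lit 836) (nat_lit 3066470809) (nat_lit 76) (nat_lit 1792537717) (nat_lit 337) (nat_lit 5) (nat_lit 348) (nat_lit 5) (nat_lit 338) (nat_lit 5) (nat_lit 589) (nat_lit 538) (nat_lit 433))))) (XT.nd (nat_lit 234) (nat_lit 1292) (nat_lit 0) (XT.nd (nat_lit 78) (nat_lit 760) (nat_lit 0) (XT.lf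 (nat_lit 0) (nat_lit 3479879038) (nat_lit 684) (nat_lit 4642546933) (nat_lit 760) (nat_lit 2565078951) (nat_lit 328) (nat_lit 5) (nat_lit 337) (nat_lit 5) (nat_lit 338) (nat_lit 5) (nat_lit 590) (nat_lit 538) (nat_lit 432)) (XT.nd (nat_lit 78) (nat_lit 760) (nat_lit 0) (XT.lf (nat_lit 0) (nat_lit 10173938615) (nat_lit 684) (nat_lit 398593740) (nat_lit 760) (nat_lit 225821257) (nat_lit 328) (nat_lit 5) (nat_lit 337) (nat_lit 5) (nat_lit 338) (nat_lit 5) (nat_lit 591) (nat_lit 538) (nat_lit 431)) (XT.lf (nat_lit 0) (nat_lit 2176714416) (nat_lit 760) (nat_lit 4804325985) (nat_lit 76) (nat_lit 3929202940) (nat_lit 318) (nat_lit 5) (nat_lit 328) (nat_lit 5) (nat_lit 319) (nat_lit 5) (nat_lit 592) (nat_lit 538) (nat_lit 430)))) (XT.nd (nat_lit 78) (nat_lit 684) (nat_lit 0) (XT.lf (nat_lit 0) (nat_lit 1951664402) (nat_lit 608) (nat_lit 2671529513) (nat_lit 684) (nat_lit 6401169806) (nat_lit 310) (nat_lit 5) (nat_lit 318) (nat_lit 5) (nat_lit 319) (nat_lit 5) (nat_lit 593) (nat_lit 538) (nat_lit 429)) (XT.nd (nat_lit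 78) (nat_lit 684) (nat_lit 0) (XT.lf (nat_lit 0) (nat_lit 7141851997) (nat_lit 684) (nat_lit 2268651232) (nat_lit 76) (nat_lit 1729799327) (nat_lit 310) (nat_lit 5) (nat_lit 319) (nat_lit 5) (nat_lit 311) (nat_lit 5) (nat_lit 594) (nat_lit 538) (nat_lit 428)) (XT.lf (nat_lit 0) (nat_lit 4690776494) (nat_lit 684) (nat_lit 5048256061) (nat_lit 760) (nat_lit 1518965632) (nat_lit 301) (nat_lit 5) (nat_lit 310) (nat_lit 5) (nat_lit 311) (nat_lit 5) (nat_lit 595) (nat_lit 538) (nat_lit 427))))))))
noncomputable def xc106 : XT := (XT.nd (nat_lit 76752) (nat_lit 0) (nat_lit 28880) (XT.nd (nat_lit 780) (nat_lit 3116) (nat_lit 0) (XT.nd (nat_lit 390) (nat_lit 1824) (nat_lit 0) (XT.nd (nat_lit 156) (nat_lit 1216) (nat_lit 0) (XT.nd (nat_lit 78) (nat_lit 0) (nat_lit 0) (XT.lf (nat_lit 0) (nat_lit 416572536) (nat_lit 608) (nat_lit 578421509) (nat_lit 684) (nat_lit 10382960829) (nat_lit 292) (nat_lit 5) (nat_lit 300) (nat_lit 5) (nat_lit 301) (nat_lit 5) (nat_lit 596) (nat_lit 538) (nat_lit 426)) (XT.lf (nat_lit 0) (nat_lit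 3589423926) (nat_lit 684) (nat_lit 3931397962) (nat_lit 76) (nat_lit 3978278350) (nat_lit 292) (nat_lit 5) (nat_lit 301) (nat_lit 5) (nat_lit 293) (nat_lit 5) (nat_lit 597) (nat_lit 538) (nat_lit 425))) (XT.nd (nat_lit 78) (nat_lit 608) (nat_lit 0) (XT.lf (nat_lit 0) (nat_lit 3253680608) (nat_lit 608) (nat_lit 2987707182) (nat_lit 684) (nat_lit 5381168740) (nat_lit 284) (nat_lit 5) (nat_lit 292) (nat_lit 5) (nat_lit 293) (nat_lit 5) (nat_lit 598) (nat_lit 538) (nat_lit 424)) (XT.nd (nat_lit 78) (nat_lit 608) (nat_lit 0) (XT.lf (nat_lit 0) (nat_lit 8964448064) (nat_lit 684) (nat_lit 1147536486) (nat_lit 76) (nat_lit 1636137168) (nat_lit 284) (nat_lit 5) (nat_lit 293) (nat_lit 5) (nat_lit 285) (nat_lit 5) (nat_lit 599) (nat_lit 538) (nat_lit 423)) (XT.lf (nat_lit 0) (nat_lit 6256442186) (nat_lit 608) (nat_lit 5527187623) (nat_lit 684) (nat_lit 91736088) (nat_lit 276) (nat_lit 5) (nat_lit 284) (nat_lit 5) (nat_lit 285) (nat_lit 5) (nat_lit 600) (nat_lit 538) (nat_lit 422))))) (XT.nd (nat_lit 156) (nat_lit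 1140) (nat_lit 0) (XT.nd (nat_lit 78) (nat_lit 0) (nat_lit 0) (XT.lf (nat_lit 0) (nat_lit 1801249233) (nat_lit 608) (nat_lit 818771229) (nat_lit 684) (nat_lit 9384774951) (nat_lit 267) (nat_lit 5) (nat_lit 275) (nat_lit 5) (nat_lit 276) (nat_lit 5) (nat_lit 601) (nat_lit 538) (nat_lit 421)) (XT.lf (nat_lit 0) (nat_lit 5430122257) (nat_lit 684) (nat_lit 2741111873) (nat_lit 76) (nat_lit 3964661335) (nat_lit 267) (nat_lit 5) (nat_lit 276) (nat_lit 5) (nat_lit 268) (nat_lit 5) (nat_lit 602) (nat_lit 538) (nat_lit 420))) (XT.nd (nat_lit 78) (nat_lit 608) (nat_lit 0) (XT.lf (nat_lit 0) (nat_lit 4905642763) (nat_lit 532) (nat_lit 3409934872) (nat_lit 608) (nat_lit 3953657677) (nat_lit 260) (nat_lit 5) (nat_lit 267) (nat_lit 5) (nat_lit 268) (nat_lit 5) (nat_lit 603) (nat_lit 538) (nat_lit 419)) (XT.nd (nat_lit 78) (nat_lit 76) (nat_lit 0) (XT.lf (nat_lit 0) (nat_lit 308132782) (nat_lit 532) (nat_lit 10962560904) (nat_lit 608) (nat_lit 1134310050) (nat_lit 253) (nat_lit 5) (nat_lit 260) (nat_lit 5) (nat_lit 261)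 (nat_lit 5) (nat_lit 604) (nat_lit 538) (nat_lit 418)) (XT.lf (nat_lit 0) (nat_lit 1773030070) (nat_lit 608) (nat_lit 4367697001) (nat_lit 76) (nat_lit 6401446211) (nat_lit 252) (nat_lit 5) (nat_lit 260) (nat_lit 5) (nat_lit 253) (nat_lit 5) (nat_lit 605) (nat_lit 538) (nat_lit 417)))))) (XT.nd (nat_lit 390) (nat_lit 1520) (nat_lit 0) (XT.nd (nat_lit 156) (nat_lit 1064) (nat_lit 0) (XT.nd (nat_lit 78) (nat_lit 0) (nat_lit 0) (XT.lf (nat_lit 0) (nat_lit 3531243966) (nat_lit 532) (nat_lit 1197498016) (nat_lit 608) (nat_lit 7953086777) (nat_lit 245) (nat_lit 5) (nat_lit 252) (nat_lit 5) (nat_lit 253) (nat_lit 5) (nat_lit 606) (nat_lit 538) (nat_lit 416)) (XT.lf (nat_lit 0) (nat_lit 7780657053) (nat_lit 608) (nat_lit 1225247597) (nat_lit 76) (nat_lit 3817631663) (nat_lit 245) (nat_lit 5) (nat_lit 253) (nat_lit 5) (nat_lit 246) (nat_lit 5) (nat_lit 607) (nat_lit 538) (nat_lit 415))) (XT.nd (nat_lit 78) (nat_lit 532) (nat_lit 0) (XT.lf (nat_lit 0) (nat_lit 6918094304) (nat_lit 532) (nat_lit 4011327749) (nat_lit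 608) (nat_lit 2037940466) (nat_lit 238) (nat_lit 5) (nat_lit 245) (nat_lit 5) (nat_lit 246) (nat_lit 5) (nat_lit 608) (nat_lit 538) (nat_lit 414)) (XT.nd (nat_lit 78) (nat_lit 0) (nat_lit 0) (XT.lf (nat_lit 0) (nat_lit 1025915423) (nat_lit 532) (nat_lit 10996233485) (nat_lit 76) (nat_lit 1091537896) (nat_lit 231) (nat_lit 5) (nat_lit 238) (nat_lit 5) (nat_lit 232) (nat_lit 5) (nat_lit 609) (nat_lit 538) (nat_lit 413)) (XT.lf (nat_lit 0) (nat_lit 4174389383) (nat_lit 532) (nat_lit 2796464409) (nat_lit 76) (nat_lit 6290802478) (nat_lit 231) (nat_lit 5) (nat_lit 238) (nat_lit 5) (nat_lit 232) (nat_lit 5) (nat_lit 610) (nat_lit 538) (nat_lit 412))))) (XT.nd (nat_lit 156) (nat_lit 532) (nat_lit 0) (XT.nd (nat_lit 78) (nat_lit 456) (nat_lit 0) (XT.lf (nat_lit 0) (nat_lit 5617924046) (nat_lit 532) (nat_lit 1787889729) (nat_lit 608) (nat_lit 6006372410) (nat_lit 224) (nat_lit 5) (nat_lit 231) (nat_lit 5) (nat_lit 232) (nat_lit 5) (nat_lit 611) (nat_lit 538) (nat_lit 411)) (XT.lf (nat_lit 0) (nat_lit 635460802)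 (nat_lit 456) (nat_lit 10095775429) (nat_lit 532) (nat_lit 2833903738) (nat_lit 218) (nat_lit 5) (nat_lit 224) (nat_lit 5) (nat_lit 225) (nat_lit 5) (nat_lit 612) (nat_lit 538) (nat_lit 410))) (XT.nd (nat_lit 78) (nat_lit 456) (nat_lit 0) (XT.lf (nat_lit 0) (nat_lit 444933143) (nat_lit 532) (nat_lit 4418725525) (nat_lit 76) (nat_lit 8856478770) (nat_lit 217) (nat_lit 5) (nat_lit 224) (nat_lit 5) (nat_lit 218) (nat_lit 5) (nat_lit 613) (nat_lit 538) (nat_lit 409)) (XT.nd (nat_lit 78) (nat_lit 0) (nat_lit 0) (XT.lf (nat_lit 0) (nat_lit 3766561431) (nat_lit 532) (nat_lit 9603984465) (nat_lit 76) (nat_lit 507011730) (nat_lit 211) (nat_lit 5) (nat_lit 218) (nat_lit 5) (nat_lit 212) (nat_lit 5) (nat_lit 614) (nat_lit 538) (nat_lit 408)) (XT.lf (nat_lit 0) (nat_lit 7200822799) (nat_lit 532) (nat_lit 893244361) (nat_lit 76) (nat_lit 5943135663) (nat_lit 211) (nat_lit 5) (nat_lit 218) (nat_lit 5) (nat_lit 212) (nat_lit 5) (nat_lit 615) (nat_lit 538) (nat_lit 407))))))) (XT.nd (nat_lit 780) (nat_lit 3800) (nat_lit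 0) (XT.nd (nat_lit 390) (nat_lit 1140) (nat_lit 0) (XT.nd (nat_lit 156) (nat_lit 0) (nat_lit 0) (XT.nd (nat_lit 78) (nat_lit 1140) (nat_lit 0) (XT.lf (nat_lit 0) (nat_lit 2924782295) (nat_lit 1140) (nat_lit 319718250) (nat_lit 1140) (nat_lit 319718250) (nat_lit 671) (nat_lit 3) (nat_lit 686) (nat_lit 3) (nat_lit 686) (nat_lit 5) (nat_lit 539) (nat_lit 539) (nat_lit 482)) (XT.lf (nat_lit 0) (nat_lit 457117260) (nat_lit 1140) (nat_lit 4228712628) (nat_lit 1216) (nat_lit 2479286801) (nat_lit 656) (nat_lit 5) (nat_lit 671) (nat_lit 3) (nat_lit 672) (nat_lit 5) (nat_lit 540) (nat_lit 539) (nat_lit 481))) (XT.nd (nat_lit 78) (nat_lit 0) (nat_lit 0) (XT.lf (nat_lit 0) (nat_lit 2169965042) (nat_lit 1140) (nat_lit 642177118) (nat_lit 1216) (nat_lit 4391036478) (nat_lit 656) (nat_lit 5) (nat_lit 671) (nat_lit 3) (nat_lit 672) (nat_lit 5) (nat_lit 541) (nat_lit 539) (nat_lit 480)) (XT.nd (nat_lit 78) (nat_lit 0) (nat_lit 76) (XT.lf (nat_lit 76) (nat_lit 3032662069) (nat_lit 0) (nat_lit 859908004) (nat_lit 1216) (nat_lit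 3349925253) (nat_lit 657) (nat_lit 5) (nat_lit 656) (nat_lit 5) (nat_lit 672) (nat_lit 5) (nat_lit 542) (nat_lit 539) (nat_lit 479)) (XT.lf (nat_lit 0) (nat_lit 5617970370) (nat_lit 1140) (nat_lit 524237193) (nat_lit 1216) (nat_lit 1141027354) (nat_lit 657) (nat_lit 5) (nat_lit 672) (nat_lit 5) (nat_lit 673) (nat_lit 5) (nat_lit 543) (nat_lit 539) (nat_lit 478))))) (XT.nd (nat_lit 156) (nat_lit 0) (nat_lit 76) (XT.nd (nat_lit 78) (nat_lit 0) (nat_lit 0) (XT.lf (nat_lit 0) (nat_lit 36580749) (nat_lit 1216) (nat_lit 4076950246) (nat_lit 1292) (nat_lit 3211570961) (nat_lit 641) (nat_lit 5) (nat_lit 657) (nat_lit 5) (nat_lit 658) (nat_lit 5) (nat_lit 544) (nat_lit 539) (nat_lit 477)) (XT.lf (nat_lit 0) (nat_lit 1711637491) (nat_lit 1216) (nat_lit 299682552) (nat_lit 1292) (nat_lit 5357039930) (nat_lit 641) (nat_lit 5) (nat_lit 657) (nat_lit 5) (nat_lit 658) (nat_lit 5) (nat_lit 545) (nat_lit 539) (nat_lit 476))) (XT.nd (nat_lit 78) (nat_lit 0) (nat_lit 0) (XT.lf (nat_lit 0) (nat_lit 3403284263) (nat_lit 1216)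 (nat_lit 3837461337) (nat_lit 1292) (nat_lit 172078948) (nat_lit 642) (nat_lit 5) (nat_lit 658) (nat_lit 5) (nat_lit 659) (nat_lit 5) (nat_lit 546) (nat_lit 539) (nat_lit 475)) (XT.nd (nat_lit 78) (nat_lit 0) (nat_lit 0) (XT.lf (nat_lit 76) (nat_lit 36690168) (nat_lit 0) (nat_lit 5067161389) (nat_lit 1292) (nat_lit 2354828215) (nat_lit 643) (nat_lit 5) (nat_lit 642) (nat_lit 5) (nat_lit 659) (nat_lit 5) (nat_lit 547) (nat_lit 539) (nat_lit 474)) (XT.lf (nat_lit 76) (nat_lit 4016210631) (nat_lit 0) (nat_lit 2808113318) (nat_lit 1292) (nat_lit 681413328) (nat_lit 643) (nat_lit 5) (nat_lit 642) (nat_lit 5) (nat_lit 659) (nat_lit 5) (nat_lit 548) (nat_lit 539) (nat_lit 473)))))) (XT.nd (nat_lit 390) (nat_lit 1368) (nat_lit 0) (XT.nd (nat_lit 156) (nat_lit 1216) (nat_lit 0) (XT.nd (nat_lit 78) (nat_lit 0) (nat_lit 76) (XT.lf (nat_lit 76) (nat_lit 497264850) (nat_lit 0) (nat_lit 478646510) (nat_lit 1368) (nat_lit 6578416527) (nat_lit 626) (nat_lit 5) (nat_lit 625) (nat_lit 5) (nat_lit 643) (nat_lit 5) (nat_lit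 549) (nat_lit 539) (nat_lit 472)) (XT.lf (nat_lit 0) (nat_lit 2654530747) (nat_lit 1292) (nat_lit 3034213388) (nat_lit 1368) (nat_lit 1915113519) (nat_lit 626) (nat_lit 5) (nat_lit 643) (nat_lit 5) (nat_lit 644) (nat_lit 5) (nat_lit 550) (nat_lit 539) (nat_lit 471))) (XT.nd (nat_lit 78) (nat_lit 1292) (nat_lit 0) (XT.lf (nat_lit 76) (nat_lit 1055354725) (nat_lit 0) (nat_lit 3283520016) (nat_lit 1368) (nat_lit 3316063048) (nat_lit 627) (nat_lit 5) (nat_lit 626) (nat_lit 5) (nat_lit 644) (nat_lit 5) (nat_lit 551) (nat_lit 539) (nat_lit 470)) (XT.nd (nat_lit 78) (nat_lit 1292) (nat_lit 0) (XT.lf (nat_lit 76) (nat_lit 5243594503) (nat_lit 0) (nat_lit 796387696) (nat_lit 1368) (nat_lit 1667398560) (nat_lit 627) (nat_lit 5) (nat_lit 626) (nat_lit 5) (nat_lit 644) (nat_lit 5) (nat_lit 552) (nat_lit 539) (nat_lit 469)) (XT.lf (nat_lit 0) (nat_lit 95978) (nat_lit 1368) (nat_lit 6019475197) (nat_lit 1444) (nat_lit 1741581348) (nat_lit 609) (nat_lit 5) (nat_lit 627) (nat_lit 5) (nat_lit 628) (nat_lit 5) (nat_lit 553)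 (nat_lit 539) (nat_lit 468))))) (XT.nd (nat_lit 234) (nat_lit 1368) (nat_lit 0) (XT.nd (nat_lit 78) (nat_lit 0) (nat_lit 0) (XT.lf (nat_lit 0) (nat_lit 1664397195) (nat_lit 1368) (nat_lit 1792359395) (nat_lit 1444) (nat_lit 4359309640) (nat_lit 609) (nat_lit 5) (nat_lit 627) (nat_lit 5) (nat_lit 628) (nat_lit 5) (nat_lit 554) (nat_lit 539) (nat_lit 467)) (XT.nd (nat_lit 78) (nat_lit 0) (nat_lit 76) (XT.lf (nat_lit 76) (nat_lit 2528030934) (nat_lit 0) (nat_lit 814921566) (nat_lit 1444) (nat_lit 4529508903) (nat_lit 610) (nat_lit 5) (nat_lit 609) (nat_lit 5) (nat_lit 628) (nat_lit 5) (nat_lit 555) (nat_lit 539) (nat_lit 466)) (XT.lf (nat_lit 0) (nat_lit 5044551834) (nat_lit 1368) (nat_lit 1007935659) (nat_lit 1444) (nat_lit 1877710030) (nat_lit 610) (nat_lit 5) (nat_lit 628) (nat_lit 5) (nat_lit 629) (nat_lit 5) (nat_lit 556) (nat_lit 539) (nat_lit 465)))) (XT.nd (nat_lit 78) (nat_lit 1444) (nat_lit 0) (XT.lf (nat_lit 76) (nat_lit 3430340107) (nat_lit 0) (nat_lit 3343356048) (nat_lit 1444) (nat_lit 1215524403)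 (nat_lit 611) (nat_lit 5) (nat_lit 610) (nat_lit 5) (nat_lit 629) (nat_lit 5) (nat_lit 557) (nat_lit 539) (nat_lit 464)) (XT.nd (nat_lit 78) (nat_lit 0) (nat_lit 76) (XT.lf (nat_lit 0) (nat_lit 454538056) (nat_lit 1444) (nat_lit 106290409) (nat_lit 1520) (nat_lit 7489075798) (nat_lit 591) (nat_lit 5) (nat_lit 610) (nat_lit 5) (nat_lit 611) (nat_lit 5) (nat_lit 558) (nat_lit 539) (nat_lit 463)) (XT.lf (nat_lit 0) (nat_lit 2152591137) (nat_lit 1444) (nat_lit 3665347626) (nat_lit 1520) (nat_lit 2293487194) (nat_lit 592) (nat_lit 5) (nat_lit 611) (nat_lit 5) (nat_lit 612) (nat_lit 5) (nat_lit 559) (nat_lit 539) (nat_lit 462))))))))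
noncomputable def xc107 : XT := (XT.nd (nat_lit 1560) (nat_lit 9424) (nat_lit 0) (XT.nd (nat_lit 780) (nat_lit 6536) (nat_lit 0) (XT.nd (nat_lit 390) (nat_lit 5092) (nat_lit 0) (XT.nd (nat_lit 156) (nat_lit 2964) (nat_lit 0) (XT.nd (nat_lit 78) (nat_lit 0) (nat_lit 0) (XT.lf (nat_lit 76) (nat_lit 899958304) (nat_lit 0) (nat_lit 2962266083) (nat_lit 1520) (nat_lit 4312403581) (nat_lit 593) (nat_lit 5) (nat_lit 592) (nat_lit 5) (nat_lit 612) (nat_lit 5) (nat_lit 560) (nat_lit 539) (nat_lit 461)) (XT.lf (nat_lit 76) (nat_lit 5581521493) (nat_lit 0) (nat_lit 16948852) (nat_lit 1520) (nat_lit 2640777498) (nat_lit 593) (nat_lit 5) (nat_lit 592) (nat_lit 5) (nat_lit 612) (nat_lit 5) (nat_lit 561) (nat_lit 539) (nat_lit 460))) (XT.nd (nat_lit 78) (nat_lit 1596) (nat_lit 0) (XT.lf (nat_lit 0) (nat_lit 2033906407) (nat_lit 1444) (nat_lit 5336637565) (nat_lit 1520) (nat_lit 934596264) (nat_lit 574) (nat_lit 5) (nat_lit 593) (nat_lit 5) (nat_lit 594) (nat_lit 5) (nat_lit 562) (nat_lit 539) (nat_lit 459)) (XT.nd (nat_lit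 78) (nat_lit 1520) (nat_lit 0) (XT.lf (nat_lit 0) (nat_lit 781957730) (nat_lit 1520) (nat_lit 1547239805) (nat_lit 76) (nat_lit 6043314089) (nat_lit 573) (nat_lit 5) (nat_lit 593) (nat_lit 5) (nat_lit 574) (nat_lit 5) (nat_lit 563) (nat_lit 539) (nat_lit 458)) (XT.lf (nat_lit 0) (nat_lit 2516037077) (nat_lit 1596) (nat_lit 5162891330) (nat_lit 76) (nat_lit 762266361) (nat_lit 553) (nat_lit 5) (nat_lit 574) (nat_lit 5) (nat_lit 554) (nat_lit 5) (nat_lit 564) (nat_lit 539) (nat_lit 457))))) (XT.nd (nat_lit 156) (nat_lit 3496) (nat_lit 0) (XT.nd (nat_lit 78) (nat_lit 1596) (nat_lit 0) (XT.lf (nat_lit 0) (nat_lit 4280516764) (nat_lit 1596) (nat_lit 330376022) (nat_lit 76) (nat_lit 3900446427) (nat_lit 553) (nat_lit 5) (nat_lit 574) (nat_lit 5) (nat_lit 554) (nat_lit 5) (nat_lit 565) (nat_lit 539) (nat_lit 456)) (XT.lf (nat_lit 0) (nat_lit 4634901687) (nat_lit 1596) (nat_lit 1445910596) (nat_lit 1672) (nat_lit 2502065711) (nat_lit 532) (nat_lit 5) (nat_lit 553) (nat_lit 5) (nat_lit 554) (nat_lit 5) (nat_lit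 566) (nat_lit 539) (nat_lit 455))) (XT.nd (nat_lit 78) (nat_lit 1824) (nat_lit 0) (XT.lf (nat_lit 0) (nat_lit 1024886556) (nat_lit 1672) (nat_lit 6883569459) (nat_lit 1748) (nat_lit 747566624) (nat_lit 510) (nat_lit 5) (nat_lit 532) (nat_lit 5) (nat_lit 533) (nat_lit 5) (nat_lit 567) (nat_lit 539) (nat_lit 454)) (XT.nd (nat_lit 78) (nat_lit 1748) (nat_lit 0) (XT.lf (nat_lit 0) (nat_lit 1035701034) (nat_lit 1748) (nat_lit 2621242967) (nat_lit 76) (nat_lit 5073405827) (nat_lit 509) (nat_lit 5) (nat_lit 532) (nat_lit 5) (nat_lit 510) (nat_lit 5) (nat_lit 568) (nat_lit 539) (nat_lit 453)) (XT.lf (nat_lit 0) (nat_lit 2491725026) (nat_lit 1748) (nat_lit 340753926) (nat_lit 1824) (nat_lit 5973830506) (nat_lit 486) (nat_lit 5) (nat_lit 509) (nat_lit 5) (nat_lit 510) (nat_lit 5) (nat_lit 569) (nat_lit 539) (nat_lit 452)))))) (XT.nd (nat_lit 390) (nat_lit 2660) (nat_lit 0) (XT.nd (nat_lit 156) (nat_lit 2052) (nat_lit 0) (XT.nd (nat_lit 78) (nat_lit 1824) (nat_lit 0) (XT.lf (nat_lit 0) (nat_lit 4674731839) (nat_lit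 1824) (nat_lit 1186087840) (nat_lit 76) (nat_lit 3022779601) (nat_lit 486) (nat_lit 5) (nat_lit 510) (nat_lit 5) (nat_lit 487) (nat_lit 5) (nat_lit 570) (nat_lit 539) (nat_lit 451)) (XT.lf (nat_lit 0) (nat_lit 4071344168) (nat_lit 1824) (nat_lit 2483807382) (nat_lit 1900) (nat_lit 2407258664) (nat_lit 462) (nat_lit 5) (nat_lit 486) (nat_lit 5) (nat_lit 487) (nat_lit 5) (nat_lit 571) (nat_lit 539) (nat_lit 450))) (XT.nd (nat_lit 78) (nat_lit 988) (nat_lit 0) (XT.lf (nat_lit 0) (nat_lit 380901149) (nat_lit 1064) (nat_lit 8082024906) (nat_lit 1140) (nat_lit 580078102) (nat_lit 448) (nat_lit 5) (nat_lit 462) (nat_lit 5) (nat_lit 463) (nat_lit 5) (nat_lit 572) (nat_lit 539) (nat_lit 449)) (XT.nd (nat_lit 78) (nat_lit 912) (nat_lit 0) (XT.lf (nat_lit 0) (nat_lit 1289511155) (nat_lit 1140) (nat_lit 3350307234) (nat_lit 76) (nat_lit 4484772548) (nat_lit 447) (nat_lit 5) (nat_lit 462) (nat_lit 5) (nat_lit 448) (nat_lit 5) (nat_lit 573) (nat_lit 539) (nat_lit 448)) (XT.lf (nat_lit 0) (nat_lit 2066117275) (nat_lit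 912) (nat_lit 1109767077) (nat_lit 988) (nat_lit 6032106844) (nat_lit 435) (nat_lit 5) (nat_lit 447) (nat_lit 5) (nat_lit 448) (nat_lit 5) (nat_lit 574) (nat_lit 539) (nat_lit 447))))) (XT.nd (nat_lit 156) (nat_lit 1748) (nat_lit 0) (XT.nd (nat_lit 78) (nat_lit 912) (nat_lit 0) (XT.lf (nat_lit 0) (nat_lit 5112888674) (nat_lit 988) (nat_lit 1697873731) (nat_lit 76) (nat_lit 2482040568) (nat_lit 435) (nat_lit 5) (nat_lit 448) (nat_lit 5) (nat_lit 436) (nat_lit 5) (nat_lit 575) (nat_lit 539) (nat_lit 446)) (XT.lf (nat_lit 0) (nat_lit 3873729196) (nat_lit 912) (nat_lit 3222011968) (nat_lit 988) (nat_lit 2283429218) (nat_lit 423) (nat_lit 5) (nat_lit 435) (nat_lit 5) (nat_lit 436) (nat_lit 5) (nat_lit 576) (nat_lit 539) (nat_lit 445))) (XT.nd (nat_lit 78) (nat_lit 912) (nat_lit 0) (XT.lf (nat_lit 0) (nat_lit 85870168) (nat_lit 836) (nat_lit 9022203578) (nat_lit 912) (nat_lit 359396455) (nat_lit 412) (nat_lit 5) (nat_lit 423) (nat_lit 5) (nat_lit 424) (nat_lit 5) (nat_lit 577) (nat_lit 539) (nat_lit 444)) (XT.nd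 (nat_lit 78) (nat_lit 836) (nat_lit 0) (XT.lf (nat_lit 0) (nat_lit 1615732274) (nat_lit 912) (nat_lit 3750395390) (nat_lit 76) (nat_lit 4190528840) (nat_lit 411) (nat_lit 5) (nat_lit 423) (nat_lit 5) (nat_lit 412) (nat_lit 5) (nat_lit 578) (nat_lit 539) (nat_lit 443)) (XT.lf (nat_lit 0) (nat_lit 1992436634) (nat_lit 836) (nat_lit 1621656892) (nat_lit 912) (nat_lit 6033716086) (nat_lit 400) (nat_lit 5) (nat_lit 411) (nat_lit 5) (nat_lit 412) (nat_lit 5) (nat_lit 579) (nat_lit 539) (nat_lit 442))))))) (XT.nd (nat_lit 780) (nat_lit 4636) (nat_lit 0) (XT.nd (nat_lit 390) (nat_lit 2280) (nat_lit 0) (XT.nd (nat_lit 156) (nat_lit 1672) (nat_lit 0) (XT.nd (nat_lit 78) (nat_lit 836) (nat_lit 0) (XT.lf (nat_lit 0) (nat_lit 5667941793) (nat_lit 912) (nat_lit 1878819838) (nat_lit 76) (nat_lit 2193715164) (nat_lit 400) (nat_lit 5) (nat_lit 412) (nat_lit 5) (nat_lit 401) (nat_lit 5) (nat_lit 580) (nat_lit 539) (nat_lit 441)) (XT.lf (nat_lit 0) (nat_lit 4030816587) (nat_lit 836) (nat_lit 3745349883) (nat_lit 912) (nat_lit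 2058566244) (nat_lit 389) (nat_lit 5) (nat_lit 400) (nat_lit 5) (nat_lit 401) (nat_lit 5) (nat_lit 581) (nat_lit 539) (nat_lit 440))) (XT.nd (nat_lit 78) (nat_lit 836) (nat_lit 0) (XT.lf (nat_lit 0) (nat_lit 129375869) (nat_lit 836) (nat_lit 9788255293) (nat_lit 912) (nat_lit 13422433) (nat_lit 378) (nat_lit 5) (nat_lit 389) (nat_lit 5) (nat_lit 390) (nat_lit 5) (nat_lit 582) (nat_lit 539) (nat_lit 439)) (XT.nd (nat_lit 78) (nat_lit 760) (nat_lit 0) (XT.lf (nat_lit 0) (nat_lit 2086279825) (nat_lit 912) (nat_lit 3832050497) (nat_lit 76) (nat_lit 4109885969) (nat_lit 377) (nat_lit 5) (nat_lit 389) (nat_lit 5) (nat_lit 378) (nat_lit 5) (nat_lit 583) (nat_lit 539) (nat_lit 438)) (XT.lf (nat_lit 0) (nat_lit 2262020283) (nat_lit 760) (nat_lit 1957746657) (nat_lit 836) (nat_lit 5907715391) (nat_lit 367) (nat_lit 5) (nat_lit 377) (nat_lit 5) (nat_lit 378) (nat_lit 5) (nat_lit 584) (nat_lit 539) (nat_lit 437))))) (XT.nd (nat_lit 156) (nat_lit 1520) (nat_lit 0) (XT.nd (nat_lit 78) (nat_lit 760) (nat_lit 0) (XT.lf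 (nat_lit 0) (nat_lit 6412885691) (nat_lit 836) (nat_lit 1736793600) (nat_lit 76) (nat_lit 2078716415) (nat_lit 367) (nat_lit 5) (nat_lit 378) (nat_lit 5) (nat_lit 368) (nat_lit 5) (nat_lit 585) (nat_lit 539) (nat_lit 436)) (XT.lf (nat_lit 0) (nat_lit 4536665724) (nat_lit 760) (nat_lit 4133619852) (nat_lit 836) (nat_lit 1660634623) (nat_lit 357) (nat_lit 5) (nat_lit 367) (nat_lit 5) (nat_lit 368) (nat_lit 5) (nat_lit 586) (nat_lit 539) (nat_lit 435))) (XT.nd (nat_lit 78) (nat_lit 760) (nat_lit 0) (XT.lf (nat_lit 0) (nat_lit 502450286) (nat_lit 684) (nat_lit 20962921) (nat_lit 760) (nat_lit 9912150935) (nat_lit 347) (nat_lit 5) (nat_lit 356) (nat_lit 5) (nat_lit 357) (nat_lit 5) (nat_lit 587) (nat_lit 539) (nat_lit 434)) (XT.nd (nat_lit 78) (nat_lit 760) (nat_lit 0) (XT.lf (nat_lit 0) (nat_lit 2773548637) (nat_lit 760) (nat_lit 3600949865) (nat_lit 76) (nat_lit 4166691230) (nat_lit 347) (nat_lit 5) (nat_lit 357) (nat_lit 5) (nat_lit 348) (nat_lit 5) (nat_lit 588) (nat_lit 539) (nat_lit 433)) (XT.lf (nat_lit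 0) (nat_lit 2871155450) (nat_lit 760) (nat_lit 2195117209) (nat_lit 836) (nat_lit 5582704590) (nat_lit 337) (nat_lit 5) (nat_lit 347) (nat_lit 5) (nat_lit 348) (nat_lit 5) (nat_lit 589) (nat_lit 539) (nat_lit 432)))))) (XT.nd (nat_lit 390) (nat_lit 2584) (nat_lit 0) (XT.nd (nat_lit 156) (nat_lit 1368) (nat_lit 0) (XT.nd (nat_lit 78) (nat_lit 684) (nat_lit 0) (XT.lf (nat_lit 0) (nat_lit 7421646016) (nat_lit 836) (nat_lit 1274967469) (nat_lit 76) (nat_lit 2061972245) (nat_lit 337) (nat_lit 5) (nat_lit 348) (nat_lit 5) (nat_lit 338) (nat_lit 5) (nat_lit 590) (nat_lit 539) (nat_lit 431)) (XT.lf (nat_lit 0) (nat_lit 5390119685) (nat_lit 684) (nat_lit 4462996167) (nat_lit 760) (nat_lit 1016691839) (nat_lit 328) (nat_lit 5) (nat_lit 337) (nat_lit 5) (nat_lit 338) (nat_lit 5) (nat_lit 591) (nat_lit 539) (nat_lit 430))) (XT.nd (nat_lit 78) (nat_lit 608) (nat_lit 0) (XT.lf (nat_lit 0) (nat_lit 1205604074) (nat_lit 684) (nat_lit 122660162) (nat_lit 760) (nat_lit 9654895440) (nat_lit 318) (nat_lit 5) (nat_lit 327)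 (nat_lit 5) (nat_lit 328) (nat_lit 5) (nat_lit 592) (nat_lit 539) (nat_lit 429)) (XT.nd (nat_lit 78) (nat_lit 608) (nat_lit 0) (XT.lf (nat_lit 0) (nat_lit 3751270474) (nat_lit 760) (nat_lit 3058402958) (nat_lit 76) (nat_lit 4288076597) (nat_lit 318) (nat_lit 5) (nat_lit 328) (nat_lit 5) (nat_lit 319) (nat_lit 5) (nat_lit 593) (nat_lit 539) (nat_lit 428)) (XT.lf (nat_lit 0) (nat_lit 3820588753) (nat_lit 608) (nat_lit 2407951642) (nat_lit 684) (nat_lit 4985976729) (nat_lit 310) (nat_lit 5) (nat_lit 318) (nat_lit 5) (nat_lit 319) (nat_lit 5) (nat_lit 594) (nat_lit 539) (nat_lit 427))))) (XT.nd (nat_lit 234) (nat_lit 1216) (nat_lit 0) (XT.nd (nat_lit 78) (nat_lit 1368) (nat_lit 0) (XT.lf (nat_lit 0) (nat_lit 8769925145) (nat_lit 684) (nat_lit 492292192) (nat_lit 76) (nat_lit 2071111822) (nat_lit 310) (nat_lit 5) (nat_lit 319) (nat_lit 5) (nat_lit 311) (nat_lit 5) (nat_lit 595) (nat_lit 539) (nat_lit 426)) (XT.nd (nat_lit 78) (nat_lit 684) (nat_lit 0) (XT.lf (nat_lit 0) (nat_lit 6594339009) (nat_lit 684) (nat_lit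 4807338106) (nat_lit 760) (nat_lit 52050497) (nat_lit 301) (nat_lit 5) (nat_lit 310) (nat_lit 5) (nat_lit 311) (nat_lit 5) (nat_lit 596) (nat_lit 539) (nat_lit 425)) (XT.lf (nat_lit 0) (nat_lit 2242324187) (nat_lit 608) (nat_lit 233053129) (nat_lit 684) (nat_lit 9100856573) (nat_lit 292) (nat_lit 5) (nat_lit 300) (nat_lit 5) (nat_lit 301) (nat_lit 5) (nat_lit 597) (nat_lit 539) (nat_lit 424)))) (XT.nd (nat_lit 78) (nat_lit 1216) (nat_lit 0) (XT.lf (nat_lit 0) (nat_lit 5095330894) (nat_lit 684) (nat_lit 2201807478) (nat_lit 76) (nat_lit 4403192466) (nat_lit 292) (nat_lit 5) (nat_lit 301) (nat_lit 5) (nat_lit 293) (nat_lit 5) (nat_lit 598) (nat_lit 539) (nat_lit 423)) (XT.nd (nat_lit 78) (nat_lit 608) (nat_lit 0) (XT.lf (nat_lit 0) (nat_lit 5115076490) (nat_lit 608) (nat_lit 2668800491) (nat_lit 684) (nat_lit 4042709770) (nat_lit 284) (nat_lit 5) (nat_lit 292) (nat_lit 5) (nat_lit 293) (nat_lit 5) (nat_lit 599) (nat_lit 539) (nat_lit 422)) (XT.lf (nat_lit 0) (nat_lit 624253572) (nat_lit 608) (nat_lit 9915810984)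 (nat_lit 684) (nat_lit 1415026691) (nat_lit 276) (nat_lit 5) (nat_lit 284) (nat_lit 5) (nat_lit 285) (nat_lit 5) (nat_lit 600) (nat_lit 539) (nat_lit 421))))))))
noncomputable def xc108 : XT := (XT.nd (nat_lit 76830) (nat_lit 0) (nat_lit 25992) (XT.nd (nat_lit 780) (nat_lit 1520) (nat_lit 0) (XT.nd (nat_lit 390) (nat_lit 1596) (nat_lit 0) (XT.nd (nat_lit 156) (nat_lit 1140) (nat_lit 0) (XT.nd (nat_lit 78) (nat_lit 608) (nat_lit 0) (XT.lf (nat_lit 0) (nat_lit 1293334612) (nat_lit 684) (nat_lit 3937416002) (nat_lit 76) (nat_lit 6854357410) (nat_lit 275) (nat_lit 5) (nat_lit 284) (nat_lit 5) (nat_lit 276) (nat_lit 5) (nat_lit 601) (nat_lit 539) (nat_lit 420)) (XT.lf (nat_lit 0) (nat_lit 3618754992) (nat_lit 608) (nat_lit 423740497) (nat_lit 684) (nat_lit 8174931813) (nat_lit 267) (nat_lit 5) (nat_lit 275) (nat_lit 5) (nat_lit 276) (nat_lit 5) (nat_lit 602) (nat_lit 539) (nat_lit 419))) (XT.nd (nat_lit 78) (nat_lit 1140) (nat_lit 0) (XT.lf (nat_lit 0) (nat_lit 6884553858) (nat_lit 684) (nat_lit 1025077569)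 (nat_lit 76) (nat_lit 4442004063) (nat_lit 267) (nat_lit 5) (nat_lit 276) (nat_lit 5) (nat_lit 268) (nat_lit 5) (nat_lit 603) (nat_lit 539) (nat_lit 418)) (XT.nd (nat_lit 78) (nat_lit 608) (nat_lit 0) (XT.lf (nat_lit 0) (nat_lit 6762961788) (nat_lit 532) (nat_lit 3049789683) (nat_lit 608) (nat_lit 2675191204) (nat_lit 260) (nat_lit 5) (nat_lit 267) (nat_lit 5) (nat_lit 268) (nat_lit 5) (nat_lit 604) (nat_lit 539) (nat_lit 417)) (XT.lf (nat_lit 0) (nat_lit 185965596) (nat_lit 608) (nat_lit 10542221538) (nat_lit 76) (nat_lit 1898453398) (nat_lit 252) (nat_lit 5) (nat_lit 260) (nat_lit 5) (nat_lit 253) (nat_lit 5) (nat_lit 605) (nat_lit 539) (nat_lit 416))))) (XT.nd (nat_lit 156) (nat_lit 1064) (nat_lit 0) (XT.nd (nat_lit 78) (nat_lit 532) (nat_lit 0) (XT.lf (nat_lit 0) (nat_lit 3110243254) (nat_lit 608) (nat_lit 2701055992) (nat_lit 76) (nat_lit 6955625818) (nat_lit 252) (nat_lit 5) (nat_lit 260) (nat_lit 5) (nat_lit 253) (nat_lit 5) (nat_lit 606) (nat_lit 539) (nat_lit 415)) (XT.lf (nat_lit 0) (nat_lit 5344324354)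 (nat_lit 532) (nat_lit 766533666) (nat_lit 608) (nat_lit 6798800968) (nat_lit 245) (nat_lit 5) (nat_lit 252) (nat_lit 5) (nat_lit 253) (nat_lit 5) (nat_lit 607) (nat_lit 539) (nat_lit 414))) (XT.nd (nat_lit 78) (nat_lit 532) (nat_lit 0) (XT.lf (nat_lit 0) (nat_lit 487333275) (nat_lit 532) (nat_lit 8717291993) (nat_lit 608) (nat_lit 3849960236) (nat_lit 238) (nat_lit 5) (nat_lit 245) (nat_lit 5) (nat_lit 246) (nat_lit 5) (nat_lit 608) (nat_lit 539) (nat_lit 413)) (XT.nd (nat_lit 78) (nat_lit 532) (nat_lit 0) (XT.lf (nat_lit 0) (nat_lit 8775764405) (nat_lit 532) (nat_lit 3623792297) (nat_lit 608) (nat_lit 802068777) (nat_lit 238) (nat_lit 5) (nat_lit 245) (nat_lit 5) (nat_lit 246) (nat_lit 5) (nat_lit 609) (nat_lit 539) (nat_lit 412)) (XT.lf (nat_lit 0) (nat_lit 2295920544) (nat_lit 532) (nat_lit 9469602641) (nat_lit 76) (nat_lit 1585396326) (nat_lit 231) (nat_lit 5) (nat_lit 238) (nat_lit 5) (nat_lit 232) (nat_lit 5) (nat_lit 610) (nat_lit 539) (nat_lit 411)))))) (XT.nd (nat_lit 75660) (nat_lit 0) (nat_lit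 32604) (XT.nd (nat_lit 156) (nat_lit 988) (nat_lit 0) (XT.nd (nat_lit 78) (nat_lit 532) (nat_lit 0) (XT.lf (nat_lit 0) (nat_lit 5482864242) (nat_lit 532) (nat_lit 1140084370) (nat_lit 76) (nat_lit 6879390755) (nat_lit 231) (nat_lit 5) (nat_lit 238) (nat_lit 5) (nat_lit 232) (nat_lit 5) (nat_lit 611) (nat_lit 539) (nat_lit 410)) (XT.lf (nat_lit 0) (nat_lit 7431326662) (nat_lit 532) (nat_lit 1334615413) (nat_lit 608) (nat_lit 4890198292) (nat_lit 224) (nat_lit 5) (nat_lit 231) (nat_lit 5) (nat_lit 232) (nat_lit 5) (nat_lit 612) (nat_lit 539) (nat_lit 409))) (XT.nd (nat_lit 78) (nat_lit 532) (nat_lit 0) (XT.lf (nat_lit 0) (nat_lit 2358998584) (nat_lit 456) (nat_lit 9789330151) (nat_lit 532) (nat_lit 1664016343) (nat_lit 218) (nat_lit 5) (nat_lit 224) (nat_lit 5) (nat_lit 225) (nat_lit 5) (nat_lit 613) (nat_lit 539) (nat_lit 408)) (XT.nd (nat_lit 78) (nat_lit 456) (nat_lit 0) (XT.lf (nat_lit 0) (nat_lit 1640575770) (nat_lit 532) (nat_lit 2813999466) (nat_lit 76) (nat_lit 9516183613) (nat_lit 217) (nat_lit 5)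 (nat_lit 224) (nat_lit 5) (nat_lit 218) (nat_lit 5) (nat_lit 614) (nat_lit 539) (nat_lit 407)) (XT.lf (nat_lit 0) (nat_lit 5019583007) (nat_lit 532) (nat_lit 8093864421) (nat_lit 76) (nat_lit 1018061998) (nat_lit 211) (nat_lit 5) (nat_lit 218) (nat_lit 5) (nat_lit 212) (nat_lit 5) (nat_lit 615) (nat_lit 539) (nat_lit 406))))) (XT.nd (nat_lit 156) (nat_lit 1216) (nat_lit 0) (XT.nd (nat_lit 78) (nat_lit 0) (nat_lit 0) (XT.lf (nat_lit 0) (nat_lit 532421343) (nat_lit 0) (nat_lit 532421343) (nat_lit 1140) (nat_lit 2536439553) (nat_lit 656) (nat_lit 5) (nat_lit 656) (nat_lit 3) (nat_lit 671) (nat_lit 3) (nat_lit 540) (nat_lit 540) (nat_lit 480)) (XT.lf (nat_lit 0) (nat_lit 3813743373) (nat_lit 1140) (nat_lit 2555758233) (nat_lit 1216) (nat_lit 871702355) (nat_lit 656) (nat_lit 5) (nat_lit 671) (nat_lit 3) (nat_lit 672) (nat_lit 5) (nat_lit 541) (nat_lit 540) (nat_lit 479))) (XT.nd (nat_lit 78) (nat_lit 1216) (nat_lit 0) (XT.lf (nat_lit 76) (nat_lit 1082240418) (nat_lit 0) (nat_lit 4419997378) (nat_lit 1216) (nat_lit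 1778966763) (nat_lit 657) (nat_lit 5) (nat_lit 656) (nat_lit 5) (nat_lit 672) (nat_lit 5) (nat_lit 542) (nat_lit 540) (nat_lit 478)) (XT.nd (nat_lit 78) (nat_lit 1216) (nat_lit 0) (XT.lf (nat_lit 76) (nat_lit 4805046643) (nat_lit 0) (nat_lit 2393985419) (nat_lit 1216) (nat_lit 123485876) (nat_lit 657) (nat_lit 5) (nat_lit 656) (nat_lit 5) (nat_lit 672) (nat_lit 5) (nat_lit 543) (nat_lit 540) (nat_lit 477)) (XT.lf (nat_lit 76) (nat_lit 1220784959) (nat_lit 0) (nat_lit 289654374) (nat_lit 1292) (nat_lit 5854701029) (nat_lit 641) (nat_lit 5) (nat_lit 640) (nat_lit 5) (nat_lit 657) (nat_lit 5) (nat_lit 544) (nat_lit 540) (nat_lit 476))))))) (XT.nd (nat_lit 780) (nat_lit 4180) (nat_lit 0) (XT.nd (nat_lit 390) (nat_lit 1292) (nat_lit 0) (XT.nd (nat_lit 156) (nat_lit 1216) (nat_lit 0) (XT.nd (nat_lit 78) (nat_lit 0) (nat_lit 0) (XT.lf (nat_lit 0) (nat_lit 3163187561) (nat_lit 1216) (nat_lit 2376850259) (nat_lit 1292) (nat_lit 1868808301) (nat_lit 641) (nat_lit 5) (nat_lit 657) (nat_lit 5) (nat_lit 658) (nat_lit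 5) (nat_lit 545) (nat_lit 540) (nat_lit 475)) (XT.lf (nat_lit 76) (nat_lit 1460179202) (nat_lit 0) (nat_lit 3359755016) (nat_lit 1292) (nat_lit 2634076019) (nat_lit 642) (nat_lit 5) (nat_lit 641) (nat_lit 5) (nat_lit 658) (nat_lit 5) (nat_lit 546) (nat_lit 540) (nat_lit 474))) (XT.nd (nat_lit 78) (nat_lit 1216) (nat_lit 0) (XT.lf (nat_lit 76) (nat_lit 5383261725) (nat_lit 0) (nat_lit 1102693292) (nat_lit 1292) (nat_lit 1014602885) (nat_lit 642) (nat_lit 5) (nat_lit 641) (nat_lit 5) (nat_lit 658) (nat_lit 5) (nat_lit 547) (nat_lit 540) (nat_lit 473)) (XT.nd (nat_lit 78) (nat_lit 0) (nat_lit 0) (XT.lf (nat_lit 0) (nat_lit 609516136) (nat_lit 1292) (nat_lit 5722805724) (nat_lit 1368) (nat_lit 1216022557) (nat_lit 625) (nat_lit 5) (nat_lit 642) (nat_lit 5) (nat_lit 643) (nat_lit 5) (nat_lit 548) (nat_lit 540) (nat_lit 472)) (XT.lf (nat_lit 0) (nat_lit 2235583059) (nat_lit 1292) (nat_lit 1758697857) (nat_lit 1368) (nat_lit 3603013468) (nat_lit 625) (nat_lit 5) (nat_lit 642) (nat_lit 5) (nat_lit 643) (nat_lit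 5) (nat_lit 549) (nat_lit 540) (nat_lit 471))))) (XT.nd (nat_lit 156) (nat_lit 1292) (nat_lit 0) (XT.nd (nat_lit 78) (nat_lit 0) (nat_lit 76) (XT.lf (nat_lit 76) (nat_lit 2291500307) (nat_lit 0) (nat_lit 1579738644) (nat_lit 1368) (nat_lit 3776445865) (nat_lit 626) (nat_lit 5) (nat_lit 625) (nat_lit 5) (nat_lit 643) (nat_lit 5) (nat_lit 550) (nat_lit 540) (nat_lit 470)) (XT.lf (nat_lit 0) (nat_lit 5520094398) (nat_lit 1292) (nat_lit 1282047994) (nat_lit 1368) (nat_lit 897333699) (nat_lit 626) (nat_lit 5) (nat_lit 643) (nat_lit 5) (nat_lit 644) (nat_lit 5) (nat_lit 551) (nat_lit 540) (nat_lit 469))) (XT.nd (nat_lit 78) (nat_lit 1368) (nat_lit 0) (XT.lf (nat_lit 76) (nat_lit 2877384839) (nat_lit 0) (nat_lit 4317286690) (nat_lit 1368) (nat_lit 557779478) (nat_lit 627) (nat_lit 5) (nat_lit 626) (nat_lit 5) (nat_lit 644) (nat_lit 5) (nat_lit 552) (nat_lit 540) (nat_lit 468)) (XT.nd (nat_lit 78) (nat_lit 0) (nat_lit 76) (XT.lf (nat_lit 0) (nat_lit 1054460664) (nat_lit 1368) (nat_lit 699892794) (nat_lit 1444)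 (nat_lit 6052540546) (nat_lit 608) (nat_lit 5) (nat_lit 626) (nat_lit 5) (nat_lit 627) (nat_lit 5) (nat_lit 553) (nat_lit 540) (nat_lit 467)) (XT.lf (nat_lit 0) (nat_lit 2685189081) (nat_lit 1368) (nat_lit 4289734151) (nat_lit 1444) (nat_lit 887557198) (nat_lit 609) (nat_lit 5) (nat_lit 627) (nat_lit 5) (nat_lit 628) (nat_lit 5) (nat_lit 554) (nat_lit 540) (nat_lit 466)))))) (XT.nd (nat_lit 390) (nat_lit 2888) (nat_lit 0) (XT.nd (nat_lit 156) (nat_lit 1368) (nat_lit 0) (XT.nd (nat_lit 78) (nat_lit 0) (nat_lit 0) (XT.lf (nat_lit 0) (nat_lit 4330127475) (nat_lit 1368) (nat_lit 14353103) (nat_lit 1444) (nat_lit 3575068601) (nat_lit 609) (nat_lit 5) (nat_lit 627) (nat_lit 5) (nat_lit 628) (nat_lit 5) (nat_lit 555) (nat_lit 540) (nat_lit 465)) (XT.lf (nat_lit 76) (nat_lit 4380511787) (nat_lit 0) (nat_lit 1621824844) (nat_lit 1444) (nat_lit 1975537686) (nat_lit 610) (nat_lit 5) (nat_lit 609) (nat_lit 5) (nat_lit 628) (nat_lit 5) (nat_lit 556) (nat_lit 540) (nat_lit 464))) (XT.nd (nat_lit 78) (nat_lit 1444) (nat_lit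 0) (XT.lf (nat_lit 76) (nat_lit 805101620) (nat_lit 0) (nat_lit 6882227278) (nat_lit 1444) (nat_lit 350452684) (nat_lit 611) (nat_lit 5) (nat_lit 610) (nat_lit 5) (nat_lit 629) (nat_lit 5) (nat_lit 557) (nat_lit 540) (nat_lit 463)) (XT.nd (nat_lit 78) (nat_lit 0) (nat_lit 0) (XT.lf (nat_lit 0) (nat_lit 1291825828) (nat_lit 1444) (nat_lit 2797758882) (nat_lit 1520) (nat_lit 4009098158) (nat_lit 591) (nat_lit 5) (nat_lit 610) (nat_lit 5) (nat_lit 611) (nat_lit 5) (nat_lit 558) (nat_lit 540) (nat_lit 462)) (XT.lf (nat_lit 76) (nat_lit 1722259115) (nat_lit 0) (nat_lit 1218630242) (nat_lit 1520) (nat_lit 5220296118) (nat_lit 592) (nat_lit 5) (nat_lit 591) (nat_lit 5) (nat_lit 611) (nat_lit 5) (nat_lit 559) (nat_lit 540) (nat_lit 461))))) (XT.nd (nat_lit 156) (nat_lit 2964) (nat_lit 0) (XT.nd (nat_lit 78) (nat_lit 0) (nat_lit 0) (XT.lf (nat_lit 0) (nat_lit 4620917929) (nat_lit 1444) (nat_lit 1889595164) (nat_lit 1520) (nat_lit 1714467588) (nat_lit 592) (nat_lit 5) (nat_lit 611) (nat_lit 5) (nat_lit 612) (nat_lit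 5) (nat_lit 560) (nat_lit 540) (nat_lit 460)) (XT.lf (nat_lit 76) (nat_lit 2754852021) (nat_lit 0) (nat_lit 3574263751) (nat_lit 1520) (nat_lit 1961046822) (nat_lit 593) (nat_lit 5) (nat_lit 592) (nat_lit 5) (nat_lit 612) (nat_lit 5) (nat_lit 561) (nat_lit 540) (nat_lit 459))) (XT.nd (nat_lit 78) (nat_lit 2964) (nat_lit 0) (XT.lf (nat_lit 76) (nat_lit 7494028933) (nat_lit 0) (nat_lit 559201893) (nat_lit 1520) (nat_lit 303784390) (nat_lit 593) (nat_lit 5) (nat_lit 592) (nat_lit 5) (nat_lit 612) (nat_lit 5) (nat_lit 562) (nat_lit 540) (nat_lit 458)) (XT.nd (nat_lit 78) (nat_lit 1520) (nat_lit 0) (XT.lf (nat_lit 0) (nat_lit 1379984095) (nat_lit 1520) (nat_lit 4520239128) (nat_lit 76) (nat_lit 2524572729) (nat_lit 573) (nat_lit 5) (nat_lit 593) (nat_lit 5) (nat_lit 574) (nat_lit 5) (nat_lit 563) (nat_lit 540) (nat_lit 457)) (XT.lf (nat_lit 0) (nat_lit 258768009) (nat_lit 1520) (nat_lit 2815773419) (nat_lit 1596) (nat_lit 5419729106) (nat_lit 553) (nat_lit 5) (nat_lit 573) (nat_lit 5) (nat_lit 574) (nat_lit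 5) (nat_lit 564) (nat_lit 540) (nat_lit 456))))))))
noncomputable def xc109 : XT := (XT.nd (nat_lit 1560) (nat_lit 8892) (nat_lit 0) (XT.nd (nat_lit 780) (nat_lit 5320) (nat_lit 0) (XT.nd (nat_lit 390) (nat_lit 4712) (nat_lit 0) (XT.nd (nat_lit 156) (nat_lit 1748) (nat_lit 0) (XT.nd (nat_lit 78) (nat_lit 1596) (nat_lit 0) (XT.lf (nat_lit 0) (nat_lit 4806102307) (nat_lit 1596) (nat_lit 3396920930) (nat_lit 76) (nat_lit 362051094) (nat_lit 553) (nat_lit 5) (nat_lit 574) (nat_lit 5) (nat_lit 554) (nat_lit 5) (nat_lit 565) (nat_lit 540) (nat_lit 455)) (XT.lf (nat_lit 0) (nat_lit 1515468796) (nat_lit 1596) (nat_lit 5056325662) (nat_lit 1672) (nat_lit 2065511679) (nat_lit 532) (nat_lit 5) (nat_lit 553) (nat_lit 5) (nat_lit 554) (nat_lit 5) (nat_lit 566) (nat_lit 540) (nat_lit 454))) (XT.nd (nat_lit 78) (nat_lit 1748) (nat_lit 0) (XT.lf (nat_lit 0) (nat_lit 6548119988) (nat_lit 1596) (nat_lit 1818901046) (nat_lit 1672) (nat_lit 344079030) (nat_lit 532) (nat_lit 5) (nat_lit 553) (nat_lit 5) (nat_lit 554) (nat_lit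 5) (nat_lit 567) (nat_lit 540) (nat_lit 453)) (XT.nd (nat_lit 78) (nat_lit 0) (nat_lit 0) (XT.lf (nat_lit 0) (nat_lit 1393736959) (nat_lit 1748) (nat_lit 5896235241) (nat_lit 76) (nat_lit 1496206757) (nat_lit 509) (nat_lit 5) (nat_lit 532) (nat_lit 5) (nat_lit 510) (nat_lit 5) (nat_lit 568) (nat_lit 540) (nat_lit 452)) (XT.lf (nat_lit 0) (nat_lit 3160585993) (nat_lit 1748) (nat_lit 828008227) (nat_lit 76) (nat_lit 4874143831) (nat_lit 509) (nat_lit 5) (nat_lit 532) (nat_lit 5) (nat_lit 510) (nat_lit 5) (nat_lit 569) (nat_lit 540) (nat_lit 451))))) (XT.nd (nat_lit 156) (nat_lit 1140) (nat_lit 0) (XT.nd (nat_lit 78) (nat_lit 1824) (nat_lit 0) (XT.lf (nat_lit 0) (nat_lit 4375076629) (nat_lit 1748) (nat_lit 588868996) (nat_lit 1824) (nat_lit 3976860980) (nat_lit 486) (nat_lit 5) (nat_lit 509) (nat_lit 5) (nat_lit 510) (nat_lit 5) (nat_lit 570) (nat_lit 540) (nat_lit 450)) (XT.lf (nat_lit 0) (nat_lit 638478699) (nat_lit 1824) (nat_lit 6166491649) (nat_lit 1900) (nat_lit 2215435941) (nat_lit 462) (nat_lit 5)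 (nat_lit 486) (nat_lit 5) (nat_lit 487) (nat_lit 5) (nat_lit 571) (nat_lit 540) (nat_lit 449))) (XT.nd (nat_lit 78) (nat_lit 1140) (nat_lit 0) (XT.lf (nat_lit 0) (nat_lit 5980580884) (nat_lit 1824) (nat_lit 2710284624) (nat_lit 1900) (nat_lit 410573144) (nat_lit 462) (nat_lit 5) (nat_lit 486) (nat_lit 5) (nat_lit 487) (nat_lit 5) (nat_lit 572) (nat_lit 540) (nat_lit 448)) (XT.nd (nat_lit 78) (nat_lit 0) (nat_lit 0) (XT.lf (nat_lit 0) (nat_lit 1405526907) (nat_lit 1140) (nat_lit 6948061910) (nat_lit 76) (nat_lit 830440727) (nat_lit 447) (nat_lit 5) (nat_lit 462) (nat_lit 5) (nat_lit 448) (nat_lit 5) (nat_lit 573) (nat_lit 540) (nat_lit 447)) (XT.lf (nat_lit 0) (nat_lit 3265739208) (nat_lit 1140) (nat_lit 1570802024) (nat_lit 76) (nat_lit 4431412576) (nat_lit 447) (nat_lit 5) (nat_lit 462) (nat_lit 5) (nat_lit 448) (nat_lit 5) (nat_lit 574) (nat_lit 540) (nat_lit 446)))))) (XT.nd (nat_lit 390) (nat_lit 2584) (nat_lit 0) (XT.nd (nat_lit 156) (nat_lit 912) (nat_lit 0) (XT.nd (nat_lit 78) (nat_lit 912) (nat_lit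 0) (XT.lf (nat_lit 0) (nat_lit 3941802875) (nat_lit 912) (nat_lit 1221703018) (nat_lit 988) (nat_lit 4190045215) (nat_lit 435) (nat_lit 5) (nat_lit 447) (nat_lit 5) (nat_lit 448) (nat_lit 5) (nat_lit 575) (nat_lit 540) (nat_lit 445)) (XT.lf (nat_lit 0) (nat_lit 106373530) (nat_lit 912) (nat_lit 6995268662) (nat_lit 988) (nat_lit 2339171403) (nat_lit 423) (nat_lit 5) (nat_lit 435) (nat_lit 5) (nat_lit 436) (nat_lit 5) (nat_lit 576) (nat_lit 540) (nat_lit 444))) (XT.nd (nat_lit 78) (nat_lit 912) (nat_lit 0) (XT.lf (nat_lit 0) (nat_lit 5775929134) (nat_lit 912) (nat_lit 3322402706) (nat_lit 988) (nat_lit 431095173) (nat_lit 423) (nat_lit 5) (nat_lit 435) (nat_lit 5) (nat_lit 436) (nat_lit 5) (nat_lit 577) (nat_lit 540) (nat_lit 443)) (XT.nd (nat_lit 78) (nat_lit 0) (nat_lit 0) (XT.lf (nat_lit 0) (nat_lit 1486466612) (nat_lit 912) (nat_lit 7692147219) (nat_lit 76) (nat_lit 441179653) (nat_lit 411) (nat_lit 5) (nat_lit 423) (nat_lit 5) (nat_lit 412) (nat_lit 5) (nat_lit 578) (nat_lit 540) (nat_lit 442)) (XT.lf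 (nat_lit 0) (nat_lit 3460050034) (nat_lit 912) (nat_lit 1987457507) (nat_lit 76) (nat_lit 4263935305) (nat_lit 411) (nat_lit 5) (nat_lit 423) (nat_lit 5) (nat_lit 412) (nat_lit 5) (nat_lit 579) (nat_lit 540) (nat_lit 441))))) (XT.nd (nat_lit 156) (nat_lit 1748) (nat_lit 0) (XT.nd (nat_lit 78) (nat_lit 0) (nat_lit 0) (XT.lf (nat_lit 0) (nat_lit 3858139408) (nat_lit 836) (nat_lit 1616564285) (nat_lit 912) (nat_lit 4330190912) (nat_lit 400) (nat_lit 5) (nat_lit 411) (nat_lit 5) (nat_lit 412) (nat_lit 5) (nat_lit 580) (nat_lit 540) (nat_lit 440)) (XT.lf (nat_lit 0) (nat_lit 7534802530) (nat_lit 912) (nat_lit 91414275) (nat_lit 76) (nat_lit 2273896906) (nat_lit 400) (nat_lit 5) (nat_lit 412) (nat_lit 5) (nat_lit 401) (nat_lit 5) (nat_lit 581) (nat_lit 540) (nat_lit 439))) (XT.nd (nat_lit 78) (nat_lit 912) (nat_lit 0) (XT.lf (nat_lit 0) (nat_lit 5924408419) (nat_lit 836) (nat_lit 3738171931) (nat_lit 912) (nat_lit 334128637) (nat_lit 389) (nat_lit 5) (nat_lit 400) (nat_lit 5) (nat_lit 401) (nat_lit 5) (nat_lit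 582) (nat_lit 540) (nat_lit 438)) (XT.nd (nat_lit 78) (nat_lit 0) (nat_lit 0) (XT.lf (nat_lit 0) (nat_lit 1707294544) (nat_lit 912) (nat_lit 8139648564) (nat_lit 76) (nat_lit 248220554) (nat_lit 377) (nat_lit 5) (nat_lit 389) (nat_lit 5) (nat_lit 378) (nat_lit 5) (nat_lit 583) (nat_lit 540) (nat_lit 437)) (XT.lf (nat_lit 0) (nat_lit 3815069999) (nat_lit 912) (nat_lit 2087148539) (nat_lit 76) (nat_lit 4292726017) (nat_lit 377) (nat_lit 5) (nat_lit 389) (nat_lit 5) (nat_lit 378) (nat_lit 5) (nat_lit 584) (nat_lit 540) (nat_lit 436))))))) (XT.nd (nat_lit 780) (nat_lit 4408) (nat_lit 0) (XT.nd (nat_lit 390) (nat_lit 2204) (nat_lit 0) (XT.nd (nat_lit 156) (nat_lit 760) (nat_lit 0) (XT.nd (nat_lit 78) (nat_lit 760) (nat_lit 0) (XT.lf (nat_lit 0) (nat_lit 4116819821) (nat_lit 760) (nat_lit 1853076196) (nat_lit 836) (nat_lit 4326728375) (nat_lit 367) (nat_lit 5) (nat_lit 377) (nat_lit 5) (nat_lit 378) (nat_lit 5) (nat_lit 585) (nat_lit 540) (nat_lit 435)) (XT.lf (nat_lit 0) (nat_lit 34842105) (nat_lit 760) (nat_lit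 8140515310) (nat_lit 836) (nat_lit 2224830835) (nat_lit 357) (nat_lit 5) (nat_lit 367) (nat_lit 5) (nat_lit 368) (nat_lit 5) (nat_lit 586) (nat_lit 540) (nat_lit 434))) (XT.nd (nat_lit 78) (nat_lit 760) (nat_lit 0) (XT.lf (nat_lit 0) (nat_lit 6421432638) (nat_lit 760) (nat_lit 4035855522) (nat_lit 836) (nat_lit 47889202) (nat_lit 357) (nat_lit 5) (nat_lit 367) (nat_lit 5) (nat_lit 368) (nat_lit 5) (nat_lit 587) (nat_lit 540) (nat_lit 433)) (XT.nd (nat_lit 78) (nat_lit 0) (nat_lit 0) (XT.lf (nat_lit 0) (nat_lit 2139270018) (nat_lit 760) (nat_lit 8296999578) (nat_lit 76) (nat_lit 175812221) (nat_lit 347) (nat_lit 5) (nat_lit 357) (nat_lit 5) (nat_lit 348) (nat_lit 5) (nat_lit 588) (nat_lit 540) (nat_lit 432)) (XT.lf (nat_lit 0) (nat_lit 4403066054) (nat_lit 760) (nat_lit 1874304423) (nat_lit 76) (nat_lit 4443077967) (nat_lit 347) (nat_lit 5) (nat_lit 357) (nat_lit 5) (nat_lit 348) (nat_lit 5) (nat_lit 589) (nat_lit 540) (nat_lit 431))))) (XT.nd (nat_lit 156) (nat_lit 760) (nat_lit 0) (XT.nd (nat_lit 78) (nat_lit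 684) (nat_lit 0) (XT.lf (nat_lit 0) (nat_lit 4715409679) (nat_lit 760) (nat_lit 2006972515) (nat_lit 836) (nat_lit 4108396415) (nat_lit 337) (nat_lit 5) (nat_lit 347) (nat_lit 5) (nat_lit 348) (nat_lit 5) (nat_lit 590) (nat_lit 540) (nat_lit 430)) (XT.lf (nat_lit 0) (nat_lit 486802687) (nat_lit 684) (nat_lit 8612212077) (nat_lit 760) (nat_lit 1844083079) (nat_lit 328) (nat_lit 5) (nat_lit 337) (nat_lit 5) (nat_lit 338) (nat_lit 5) (nat_lit 591) (nat_lit 540) (nat_lit 429))) (XT.nd (nat_lit 78) (nat_lit 684) (nat_lit 0) (XT.lf (nat_lit 0) (nat_lit 493980414) (nat_lit 760) (nat_lit 3793136792) (nat_lit 76) (nat_lit 6769795449) (nat_lit 327) (nat_lit 5) (nat_lit 337) (nat_lit 5) (nat_lit 328) (nat_lit 5) (nat_lit 592) (nat_lit 540) (nat_lit 428)) (XT.nd (nat_lit 78) (nat_lit 0) (nat_lit 0) (XT.lf (nat_lit 0) (nat_lit 2855018936) (nat_lit 760) (nat_lit 8166402682) (nat_lit 76) (nat_lit 151321242) (nat_lit 318) (nat_lit 5) (nat_lit 328) (nat_lit 5) (nat_lit 319) (nat_lit 5) (nat_lit 593) (nat_lit 540) (nat_lit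 427)) (XT.lf (nat_lit 0) (nat_lit 5297866212) (nat_lit 760) (nat_lit 1349088945) (nat_lit 76) (nat_lit 4643243740) (nat_lit 318) (nat_lit 5) (nat_lit 328) (nat_lit 5) (nat_lit 319) (nat_lit 5) (nat_lit 594) (nat_lit 540) (nat_lit 426)))))) (XT.nd (nat_lit 390) (nat_lit 2432) (nat_lit 0) (XT.nd (nat_lit 156) (nat_lit 684) (nat_lit 0) (XT.nd (nat_lit 78) (nat_lit 684) (nat_lit 0) (XT.lf (nat_lit 0) (nat_lit 5655834691) (nat_lit 608) (nat_lit 2151412038) (nat_lit 684) (nat_lit 3602404767) (nat_lit 310) (nat_lit 5) (nat_lit 318) (nat_lit 5) (nat_lit 319) (nat_lit 5) (nat_lit 595) (nat_lit 540) (nat_lit 425)) (XT.lf (nat_lit 0) (nat_lit 1265450563) (nat_lit 684) (nat_lit 9115651809) (nat_lit 760) (nat_lit 1150105972) (nat_lit 301) (nat_lit 5) (nat_lit 310) (nat_lit 5) (nat_lit 311) (nat_lit 5) (nat_lit 596) (nat_lit 540) (nat_lit 424))) (XT.nd (nat_lit 78) (nat_lit 608) (nat_lit 0) (XT.lf (nat_lit 0) (nat_lit 1367882730) (nat_lit 760) (nat_lit 3197815585) (nat_lit 76) (nat_lit 7088636149) (nat_lit 300) (nat_lit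 5) (nat_lit 310) (nat_lit 5) (nat_lit 301) (nat_lit 5) (nat_lit 597) (nat_lit 540) (nat_lit 423)) (XT.nd (nat_lit 78) (nat_lit 0) (nat_lit 0) (XT.lf (nat_lit 0) (nat_lit 3929339984) (nat_lit 684) (nat_lit 7746281318) (nat_lit 76) (nat_lit 103980481) (nat_lit 292) (nat_lit 5) (nat_lit 301) (nat_lit 5) (nat_lit 293) (nat_lit 5) (nat_lit 598) (nat_lit 540) (nat_lit 422)) (XT.lf (nat_lit 0) (nat_lit 6575667434) (nat_lit 684) (nat_lit 507840510) (nat_lit 76) (nat_lit 4823194559) (nat_lit 292) (nat_lit 5) (nat_lit 301) (nat_lit 5) (nat_lit 293) (nat_lit 5) (nat_lit 599) (nat_lit 540) (nat_lit 421))))) (XT.nd (nat_lit 234) (nat_lit 1140) (nat_lit 0) (XT.nd (nat_lit 78) (nat_lit 684) (nat_lit 0) (XT.lf (nat_lit 0) (nat_lit 6943946907) (nat_lit 608) (nat_lit 2358219528) (nat_lit 684) (nat_lit 2733634760) (nat_lit 284) (nat_lit 5) (nat_lit 292) (nat_lit 5) (nat_lit 293) (nat_lit 5) (nat_lit 600) (nat_lit 540) (nat_lit 420)) (XT.nd (nat_lit 78) (nat_lit 76) (nat_lit 0) (XT.lf (nat_lit 0) (nat_lit 2376738593) (nat_lit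 608) (nat_lit 9723635238) (nat_lit 684) (nat_lit 66765305) (nat_lit 276) (nat_lit 5) (nat_lit 284) (nat_lit 5) (nat_lit 285) (nat_lit 5) (nat_lit 601) (nat_lit 540) (nat_lit 419)) (XT.lf (nat_lit 0) (nat_lit 2651071954) (nat_lit 684) (nat_lit 2292520857) (nat_lit 76) (nat_lit 7356518658) (nat_lit 275) (nat_lit 5) (nat_lit 284) (nat_lit 5) (nat_lit 276) (nat_lit 5) (nat_lit 602) (nat_lit 540) (nat_lit 418)))) (XT.nd (nat_lit 78) (nat_lit 532) (nat_lit 0) (XT.lf (nat_lit 0) (nat_lit 5403433796) (nat_lit 608) (nat_lit 36784553) (nat_lit 684) (nat_lit 6995159941) (nat_lit 267) (nat_lit 5) (nat_lit 275) (nat_lit 5) (nat_lit 276) (nat_lit 5) (nat_lit 603) (nat_lit 540) (nat_lit 417)) (XT.nd (nat_lit 78) (nat_lit 0) (nat_lit 0) (XT.lf (nat_lit 0) (nat_lit 665237613) (nat_lit 532) (nat_lit 7654895456) (nat_lit 608) (nat_lit 4252518448) (nat_lit 260) (nat_lit 5) (nat_lit 267) (nat_lit 5) (nat_lit 268) (nat_lit 5) (nat_lit 604) (nat_lit 540) (nat_lit 416)) (XT.lf (nat_lit 0) (nat_lit 8589115073) (nat_lit 532) (nat_lit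 2699074706) (nat_lit 608) (nat_lit 1423870319) (nat_lit 260) (nat_lit 5) (nat_lit 267) (nat_lit 5) (nat_lit 268) (nat_lit 5) (nat_lit 605) (nat_lit 540) (nat_lit 415))))))))
noncomputable def xc110 : XT := (XT.nd (nat_lit 76908) (nat_lit 0) (nat_lit 20444) (XT.nd (nat_lit 76128) (nat_lit 0) (nat_lit 30932) (XT.nd (nat_lit 390) (nat_lit 1520) (nat_lit 0) (XT.nd (nat_lit 156) (nat_lit 1140) (nat_lit 0) (XT.nd (nat_lit 78) (nat_lit 0) (nat_lit 0) (XT.lf (nat_lit 0) (nat_lit 1465912930) (nat_lit 608) (nat_lit 9033463078) (nat_lit 76) (nat_lit 2354217253) (nat_lit 252) (nat_lit 5) (nat_lit 260) (nat_lit 5) (nat_lit 253) (nat_lit 5) (nat_lit 606) (nat_lit 540) (nat_lit 414)) (XT.lf (nat_lit 0) (nat_lit 4423652062) (nat_lit 608) (nat_lit 1069191924) (nat_lit 76) (nat_lit 7504341066) (nat_lit 252) (nat_lit 5) (nat_lit 260) (nat_lit 5) (nat_lit 253) (nat_lit 5) (nat_lit 607) (nat_lit 540) (nat_lit 413))) (XT.nd (nat_lit 78) (nat_lit 608) (nat_lit 0) (XT.lf (nat_lit 0) (nat_lit 7126004678) (nat_lit 532) (nat_lit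 344614906) (nat_lit 608) (nat_lit 5672428328) (nat_lit 245) (nat_lit 5) (nat_lit 252) (nat_lit 5) (nat_lit 253) (nat_lit 5) (nat_lit 608) (nat_lit 540) (nat_lit 412)) (XT.nd (nat_lit 78) (nat_lit 76) (nat_lit 0) (XT.lf (nat_lit 0) (nat_lit 2182676230) (nat_lit 532) (nat_lit 8433047630) (nat_lit 608) (nat_lit 2675360913) (nat_lit 238) (nat_lit 5) (nat_lit 245) (nat_lit 5) (nat_lit 246) (nat_lit 5) (nat_lit 609) (nat_lit 540) (nat_lit 411)) (XT.lf (nat_lit 0) (nat_lit 403583809) (nat_lit 608) (nat_lit 2840377834) (nat_lit 76) (nat_lit 10197533005) (nat_lit 237) (nat_lit 5) (nat_lit 245) (nat_lit 5) (nat_lit 238) (nat_lit 5) (nat_lit 610) (nat_lit 540) (nat_lit 410))))) (XT.nd (nat_lit 156) (nat_lit 532) (nat_lit 0) (XT.nd (nat_lit 78) (nat_lit 532) (nat_lit 0) (XT.lf (nat_lit 0) (nat_lit 3542806671) (nat_lit 532) (nat_lit 7980260059) (nat_lit 76) (nat_lit 2070802514) (nat_lit 231) (nat_lit 5) (nat_lit 238) (nat_lit 5) (nat_lit 232) (nat_lit 5) (nat_lit 611) (nat_lit 540) (nat_lit 409)) (XT.lf (nat_lit 0)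 (nat_lit 489350126) (nat_lit 532) (nat_lit 6283767916) (nat_lit 608) (nat_lit 6975607846) (nat_lit 224) (nat_lit 5) (nat_lit 231) (nat_lit 5) (nat_lit 232) (nat_lit 5) (nat_lit 612) (nat_lit 540) (nat_lit 408))) (XT.nd (nat_lit 78) (nat_lit 532) (nat_lit 0) (XT.lf (nat_lit 0) (nat_lit 9214943712) (nat_lit 532) (nat_lit 891265323) (nat_lit 608) (nat_lit 3799707788) (nat_lit 224) (nat_lit 5) (nat_lit 231) (nat_lit 5) (nat_lit 232) (nat_lit 5) (nat_lit 613) (nat_lit 540) (nat_lit 407)) (XT.nd (nat_lit 78) (nat_lit 76) (nat_lit 0) (XT.lf (nat_lit 0) (nat_lit 4050573563) (nat_lit 456) (nat_lit 9496496237) (nat_lit 532) (nat_lit 518360231) (nat_lit 218) (nat_lit 5) (nat_lit 224) (nat_lit 5) (nat_lit 225) (nat_lit 5) (nat_lit 614) (nat_lit 540) (nat_lit 406)) (XT.lf (nat_lit 0) (nat_lit 2814048535) (nat_lit 532) (nat_lit 1242924045) (nat_lit 76) (nat_lit 10170343566) (nat_lit 217) (nat_lit 5) (nat_lit 224) (nat_lit 5) (nat_lit 218) (nat_lit 5) (nat_lit 615) (nat_lit 540) (nat_lit 405)))))) (XT.nd (nat_lit 390)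 (nat_lit 1216) (nat_lit 0) (XT.nd (nat_lit 156) (nat_lit 1216) (nat_lit 0) (XT.nd (nat_lit 78) (nat_lit 0) (nat_lit 0) (XT.lf (nat_lit 0) (nat_lit 1366203644) (nat_lit 0) (nat_lit 1366203644) (nat_lit 1140) (nat_lit 907845150) (nat_lit 656) (nat_lit 5) (nat_lit 656) (nat_lit 3) (nat_lit 671) (nat_lit 3) (nat_lit 541) (nat_lit 541) (nat_lit 478)) (XT.lf (nat_lit 0) (nat_lit 6399109203) (nat_lit 0) (nat_lit 713035429) (nat_lit 1140) (nat_lit 209185797) (nat_lit 656) (nat_lit 5) (nat_lit 656) (nat_lit 3) (nat_lit 671) (nat_lit 3) (nat_lit 542) (nat_lit 541) (nat_lit 477))) (XT.nd (nat_lit 78) (nat_lit 0) (nat_lit 0) (XT.lf (nat_lit 0) (nat_lit 1395765580) (nat_lit 1216) (nat_lit 4590401949) (nat_lit 1292) (nat_lit 1376921298) (nat_lit 640) (nat_lit 5) (nat_lit 656) (nat_lit 5) (nat_lit 657) (nat_lit 5) (nat_lit 543) (nat_lit 541) (nat_lit 476)) (XT.nd (nat_lit 78) (nat_lit 0) (nat_lit 0) (XT.lf (nat_lit 0) (nat_lit 2999729258) (nat_lit 1216) (nat_lit 879983093) (nat_lit 1292) (nat_lit 3526551275) (nat_lit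 640) (nat_lit 5) (nat_lit 656) (nat_lit 5) (nat_lit 657) (nat_lit 5) (nat_lit 544) (nat_lit 541) (nat_lit 475)) (XT.lf (nat_lit 76) (nat_lit 2921121685) (nat_lit 0) (nat_lit 1693185000) (nat_lit 1292) (nat_lit 2836427656) (nat_lit 641) (nat_lit 5) (nat_lit 640) (nat_lit 5) (nat_lit 657) (nat_lit 5) (nat_lit 545) (nat_lit 541) (nat_lit 474))))) (XT.nd (nat_lit 156) (nat_lit 0) (nat_lit 0) (XT.nd (nat_lit 78) (nat_lit 1292) (nat_lit 0) (XT.lf (nat_lit 0) (nat_lit 6230944965) (nat_lit 1216) (nat_lit 711931486) (nat_lit 1292) (nat_lit 553825684) (nat_lit 641) (nat_lit 5) (nat_lit 657) (nat_lit 5) (nat_lit 658) (nat_lit 5) (nat_lit 546) (nat_lit 541) (nat_lit 473)) (XT.lf (nat_lit 0) (nat_lit 324910880) (nat_lit 1292) (nat_lit 4355296555) (nat_lit 1368) (nat_lit 2863481204) (nat_lit 624) (nat_lit 5) (nat_lit 641) (nat_lit 5) (nat_lit 642) (nat_lit 5) (nat_lit 547) (nat_lit 541) (nat_lit 472))) (XT.nd (nat_lit 78) (nat_lit 0) (nat_lit 76) (XT.lf (nat_lit 0) (nat_lit 1896747607) (nat_lit 1292) (nat_lit 446092593)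 (nat_lit 1368) (nat_lit 5249284140) (nat_lit 624) (nat_lit 5) (nat_lit 641) (nat_lit 5) (nat_lit 642) (nat_lit 5) (nat_lit 548) (nat_lit 541) (nat_lit 471)) (XT.nd (nat_lit 78) (nat_lit 0) (nat_lit 0) (XT.lf (nat_lit 0) (nat_lit 3485931027) (nat_lit 1292) (nat_lit 4076372965) (nat_lit 1368) (nat_lit 79509381) (nat_lit 625) (nat_lit 5) (nat_lit 642) (nat_lit 5) (nat_lit 643) (nat_lit 5) (nat_lit 549) (nat_lit 541) (nat_lit 470)) (XT.lf (nat_lit 0) (nat_lit 5088358023) (nat_lit 1292) (nat_lit 67510173) (nat_lit 1368) (nat_lit 2537001554) (nat_lit 625) (nat_lit 5) (nat_lit 642) (nat_lit 5) (nat_lit 643) (nat_lit 5) (nat_lit 550) (nat_lit 541) (nat_lit 469))))))) (XT.nd (nat_lit 780) (nat_lit 7904) (nat_lit 0) (XT.nd (nat_lit 390) (nat_lit 1292) (nat_lit 0) (XT.nd (nat_lit 156) (nat_lit 0) (nat_lit 76) (XT.nd (nat_lit 78) (nat_lit 1368) (nat_lit 0) (XT.lf (nat_lit 76) (nat_lit 4052334311) (nat_lit 0) (nat_lit 2660467599) (nat_lit 1368) (nat_lit 1032348685) (nat_lit 626) (nat_lit 5) (nat_lit 625) (nat_lit 5)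 (nat_lit 643) (nat_lit 5) (nat_lit 551) (nat_lit 541) (nat_lit 468)) (XT.lf (nat_lit 76) (nat_lit 436356858) (nat_lit 0) (nat_lit 94684619) (nat_lit 1444) (nat_lit 7268018485) (nat_lit 608) (nat_lit 5) (nat_lit 607) (nat_lit 5) (nat_lit 626) (nat_lit 5) (nat_lit 552) (nat_lit 541) (nat_lit 467))) (XT.nd (nat_lit 78) (nat_lit 0) (nat_lit 0) (XT.lf (nat_lit 0) (nat_lit 2117841911) (nat_lit 1368) (nat_lit 3202082594) (nat_lit 1444) (nat_lit 2533869774) (nat_lit 608) (nat_lit 5) (nat_lit 626) (nat_lit 5) (nat_lit 627) (nat_lit 5) (nat_lit 553) (nat_lit 541) (nat_lit 466)) (XT.nd (nat_lit 78) (nat_lit 0) (nat_lit 76) (XT.lf (nat_lit 76) (nat_lit 1031789487) (nat_lit 0) (nat_lit 2677239150) (nat_lit 1444) (nat_lit 4201144141) (nat_lit 609) (nat_lit 5) (nat_lit 608) (nat_lit 5) (nat_lit 627) (nat_lit 5) (nat_lit 554) (nat_lit 541) (nat_lit 465)) (XT.lf (nat_lit 0) (nat_lit 5319718682) (nat_lit 1368) (nat_lit 2597241108) (nat_lit 1444) (nat_lit 50967919) (nat_lit 609) (nat_lit 5) (nat_lit 627) (nat_lit 5) (nat_lit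 628) (nat_lit 5) (nat_lit 555) (nat_lit 541) (nat_lit 464))))) (XT.nd (nat_lit 156) (nat_lit 0) (nat_lit 76) (XT.nd (nat_lit 78) (nat_lit 1444) (nat_lit 0) (XT.lf (nat_lit 76) (nat_lit 1751753739) (nat_lit 0) (nat_lit 5206571225) (nat_lit 1444) (nat_lit 1068601130) (nat_lit 610) (nat_lit 5) (nat_lit 609) (nat_lit 5) (nat_lit 628) (nat_lit 5) (nat_lit 556) (nat_lit 541) (nat_lit 463)) (XT.lf (nat_lit 0) (nat_lit 519912056) (nat_lit 1444) (nat_lit 1890765099) (nat_lit 1520) (nat_lit 5676670557) (nat_lit 590) (nat_lit 5) (nat_lit 609) (nat_lit 5) (nat_lit 610) (nat_lit 5) (nat_lit 557) (nat_lit 541) (nat_lit 462))) (XT.nd (nat_lit 78) (nat_lit 0) (nat_lit 0) (XT.lf (nat_lit 0) (nat_lit 2113304928) (nat_lit 1444) (nat_lit 5566925088) (nat_lit 1520) (nat_lit 468860383) (nat_lit 591) (nat_lit 5) (nat_lit 610) (nat_lit 5) (nat_lit 611) (nat_lit 5) (nat_lit 558) (nat_lit 541) (nat_lit 461)) (XT.nd (nat_lit 78) (nat_lit 0) (nat_lit 0) (XT.lf (nat_lit 0) (nat_lit 3735386357) (nat_lit 1444) (nat_lit 1081079162) (nat_lit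 1520) (nat_lit 3395668229) (nat_lit 591) (nat_lit 5) (nat_lit 610) (nat_lit 5) (nat_lit 611) (nat_lit 5) (nat_lit 559) (nat_lit 541) (nat_lit 460)) (XT.lf (nat_lit 76) (nat_lit 3517677123) (nat_lit 0) (nat_lit 1863781083) (nat_lit 1520) (nat_lit 2895150959) (nat_lit 592) (nat_lit 5) (nat_lit 591) (nat_lit 5) (nat_lit 611) (nat_lit 5) (nat_lit 560) (nat_lit 541) (nat_lit 459)))))) (XT.nd (nat_lit 390) (nat_lit 5092) (nat_lit 0) (XT.nd (nat_lit 156) (nat_lit 1444) (nat_lit 0) (XT.nd (nat_lit 78) (nat_lit 1520) (nat_lit 0) (XT.lf (nat_lit 0) (nat_lit 7044434874) (nat_lit 1444) (nat_lit 150128883) (nat_lit 1520) (nat_lit 1148132804) (nat_lit 592) (nat_lit 5) (nat_lit 611) (nat_lit 5) (nat_lit 612) (nat_lit 5) (nat_lit 561) (nat_lit 541) (nat_lit 458)) (XT.lf (nat_lit 0) (nat_lit 338187571) (nat_lit 1520) (nat_lit 3836580337) (nat_lit 1596) (nat_lit 4235057770) (nat_lit 572) (nat_lit 5) (nat_lit 592) (nat_lit 5) (nat_lit 593) (nat_lit 5) (nat_lit 562) (nat_lit 541) (nat_lit 457))) (XT.nd (nat_lit 78) (nat_lit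 1444) (nat_lit 0) (XT.lf (nat_lit 76) (nat_lit 894725174) (nat_lit 0) (nat_lit 1072171550) (nat_lit 1596) (nat_lit 6511692743) (nat_lit 573) (nat_lit 5) (nat_lit 572) (nat_lit 5) (nat_lit 593) (nat_lit 5) (nat_lit 563) (nat_lit 541) (nat_lit 456)) (XT.nd (nat_lit 78) (nat_lit 1520) (nat_lit 0) (XT.lf (nat_lit 0) (nat_lit 3638235199) (nat_lit 1520) (nat_lit 2813037223) (nat_lit 76) (nat_lit 2097256979) (nat_lit 573) (nat_lit 5) (nat_lit 593) (nat_lit 5) (nat_lit 574) (nat_lit 5) (nat_lit 564) (nat_lit 541) (nat_lit 455)) (XT.lf (nat_lit 0) (nat_lit 2049723697) (nat_lit 1520) (nat_lit 3284816189) (nat_lit 1596) (nat_lit 3285499393) (nat_lit 553) (nat_lit 5) (nat_lit 573) (nat_lit 5) (nat_lit 574) (nat_lit 5) (nat_lit 565) (nat_lit 541) (nat_lit 454))))) (XT.nd (nat_lit 234) (nat_lit 3420) (nat_lit 0) (XT.nd (nat_lit 78) (nat_lit 1672) (nat_lit 0) (XT.lf (nat_lit 0) (nat_lit 7024759642) (nat_lit 1520) (nat_lit 30434794) (nat_lit 1596) (nat_lit 1637978340) (nat_lit 553) (nat_lit 5) (nat_lit 573) (nat_lit 5)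 (nat_lit 574) (nat_lit 5) (nat_lit 566) (nat_lit 541) (nat_lit 453)) (XT.nd (nat_lit 78) (nat_lit 0) (nat_lit 0) (XT.lf (nat_lit 0) (nat_lit 57151896) (nat_lit 1672) (nat_lit 5437242483) (nat_lit 76) (nat_lit 3273066547) (nat_lit 531) (nat_lit 5) (nat_lit 553) (nat_lit 5) (nat_lit 532) (nat_lit 5) (nat_lit 567) (nat_lit 541) (nat_lit 452)) (XT.lf (nat_lit 0) (nat_lit 1748095694) (nat_lit 1672) (nat_lit 426164224) (nat_lit 76) (nat_lit 6669083298) (nat_lit 531) (nat_lit 5) (nat_lit 553) (nat_lit 5) (nat_lit 532) (nat_lit 5) (nat_lit 568) (nat_lit 541) (nat_lit 451)))) (XT.nd (nat_lit 78) (nat_lit 1748) (nat_lit 0) (XT.lf (nat_lit 0) (nat_lit 3484524383) (nat_lit 1748) (nat_lit 4204689751) (nat_lit 76) (nat_lit 1231297449) (nat_lit 509) (nat_lit 5) (nat_lit 532) (nat_lit 5) (nat_lit 510) (nat_lit 5) (nat_lit 569) (nat_lit 541) (nat_lit 450)) (XT.nd (nat_lit 78) (nat_lit 0) (nat_lit 0) (XT.lf (nat_lit 0) (nat_lit 941773524) (nat_lit 1748) (nat_lit 4310602222) (nat_lit 1824) (nat_lit 3746915406) (nat_lit 486)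 (nat_lit 5) (nat_lit 509) (nat_lit 5) (nat_lit 510) (nat_lit 5) (nat_lit 570) (nat_lit 541) (nat_lit 449)) (XT.lf (nat_lit 0) (nat_lit 6224897560) (nat_lit 1748) (nat_lit 832576394) (nat_lit 1824) (nat_lit 2022136246) (nat_lit 486) (nat_lit 5) (nat_lit 509) (nat_lit 5) (nat_lit 510) (nat_lit 5) (nat_lit 571) (nat_lit 541) (nat_lit 448))))))))
noncomputable def xc111 : XT := (XT.nd (nat_lit 1560) (nat_lit 8056) (nat_lit 0) (XT.nd (nat_lit 780) (nat_lit 4788) (nat_lit 0) (XT.nd (nat_lit 390) (nat_lit 2660) (nat_lit 0) (XT.nd (nat_lit 156) (nat_lit 1976) (nat_lit 0) (XT.nd (nat_lit 78) (nat_lit 76) (nat_lit 0) (XT.lf (nat_lit 0) (nat_lit 2443218697) (nat_lit 1824) (nat_lit 6463155888) (nat_lit 1900) (nat_lit 255008686) (nat_lit 462) (nat_lit 5) (nat_lit 486) (nat_lit 5) (nat_lit 487) (nat_lit 5) (nat_lit 572) (nat_lit 541) (nat_lit 447)) (XT.lf (nat_lit 0) (nat_lit 1526358319) (nat_lit 1900) (nat_lit 1397825021) (nat_lit 76) (nat_lit 6320425264) (nat_lit 461) (nat_lit 5) (nat_lit 486) (nat_lit 5) (nat_lit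 462) (nat_lit 5) (nat_lit 573) (nat_lit 541) (nat_lit 446))) (XT.nd (nat_lit 78) (nat_lit 912) (nat_lit 0) (XT.lf (nat_lit 0) (nat_lit 3345831396) (nat_lit 1140) (nat_lit 5276717898) (nat_lit 76) (nat_lit 706799127) (nat_lit 447) (nat_lit 5) (nat_lit 462) (nat_lit 5) (nat_lit 448) (nat_lit 5) (nat_lit 574) (nat_lit 541) (nat_lit 445)) (XT.nd (nat_lit 78) (nat_lit 0) (nat_lit 0) (XT.lf (nat_lit 0) (nat_lit 174884647) (nat_lit 912) (nat_lit 5032004763) (nat_lit 988) (nat_lit 4208791240) (nat_lit 435) (nat_lit 5) (nat_lit 447) (nat_lit 5) (nat_lit 448) (nat_lit 5) (nat_lit 575) (nat_lit 541) (nat_lit 444)) (XT.lf (nat_lit 0) (nat_lit 5783771625) (nat_lit 912) (nat_lit 1332392942) (nat_lit 988) (nat_lit 2387356533) (nat_lit 435) (nat_lit 5) (nat_lit 447) (nat_lit 5) (nat_lit 448) (nat_lit 5) (nat_lit 576) (nat_lit 541) (nat_lit 443))))) (XT.nd (nat_lit 156) (nat_lit 1672) (nat_lit 0) (XT.nd (nat_lit 78) (nat_lit 76) (nat_lit 0) (XT.lf (nat_lit 0) (nat_lit 1897447426) (nat_lit 912) (nat_lit 7170419622) (nat_lit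 988) (nat_lit 525167939) (nat_lit 423) (nat_lit 5) (nat_lit 435) (nat_lit 5) (nat_lit 436) (nat_lit 5) (nat_lit 577) (nat_lit 541) (nat_lit 442)) (XT.lf (nat_lit 0) (nat_lit 1366424731) (nat_lit 988) (nat_lit 2047811096) (nat_lit 76) (nat_lit 6269722602) (nat_lit 422) (nat_lit 5) (nat_lit 435) (nat_lit 5) (nat_lit 423) (nat_lit 5) (nat_lit 578) (nat_lit 541) (nat_lit 441))) (XT.nd (nat_lit 78) (nat_lit 836) (nat_lit 0) (XT.lf (nat_lit 0) (nat_lit 3292669585) (nat_lit 912) (nat_lit 6044082525) (nat_lit 76) (nat_lit 439803136) (nat_lit 411) (nat_lit 5) (nat_lit 423) (nat_lit 5) (nat_lit 412) (nat_lit 5) (nat_lit 579) (nat_lit 541) (nat_lit 440)) (XT.nd (nat_lit 78) (nat_lit 836) (nat_lit 0) (XT.lf (nat_lit 0) (nat_lit 5270891859) (nat_lit 912) (nat_lit 260630541) (nat_lit 76) (nat_lit 4339213903) (nat_lit 411) (nat_lit 5) (nat_lit 423) (nat_lit 5) (nat_lit 412) (nat_lit 5) (nat_lit 580) (nat_lit 541) (nat_lit 439)) (XT.lf (nat_lit 0) (nat_lit 5690256101) (nat_lit 836) (nat_lit 1612826996) (nat_lit 912) (nat_lit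 2663431123) (nat_lit 400) (nat_lit 5) (nat_lit 411) (nat_lit 5) (nat_lit 412) (nat_lit 5) (nat_lit 581) (nat_lit 541) (nat_lit 438)))))) (XT.nd (nat_lit 390) (nat_lit 2280) (nat_lit 0) (XT.nd (nat_lit 156) (nat_lit 1596) (nat_lit 0) (XT.nd (nat_lit 78) (nat_lit 76) (nat_lit 0) (XT.lf (nat_lit 0) (nat_lit 1682945255) (nat_lit 836) (nat_lit 7698891407) (nat_lit 912) (nat_lit 682253963) (nat_lit 389) (nat_lit 5) (nat_lit 400) (nat_lit 5) (nat_lit 401) (nat_lit 5) (nat_lit 582) (nat_lit 541) (nat_lit 437)) (XT.lf (nat_lit 0) (nat_lit 1338449683) (nat_lit 912) (nat_lit 2386606493) (nat_lit 76) (nat_lit 6438040655) (nat_lit 388) (nat_lit 5) (nat_lit 400) (nat_lit 5) (nat_lit 389) (nat_lit 5) (nat_lit 583) (nat_lit 541) (nat_lit 436))) (XT.nd (nat_lit 78) (nat_lit 760) (nat_lit 0) (XT.lf (nat_lit 0) (nat_lit 3395425315) (nat_lit 912) (nat_lit 6516615097) (nat_lit 76) (nat_lit 351853915) (nat_lit 377) (nat_lit 5) (nat_lit 389) (nat_lit 5) (nat_lit 378) (nat_lit 5) (nat_lit 584) (nat_lit 541) (nat_lit 435)) (XT.nd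 (nat_lit 78) (nat_lit 760) (nat_lit 0) (XT.lf (nat_lit 0) (nat_lit 5512925203) (nat_lit 912) (nat_lit 378081276) (nat_lit 76) (nat_lit 4475314802) (nat_lit 377) (nat_lit 5) (nat_lit 389) (nat_lit 5) (nat_lit 378) (nat_lit 5) (nat_lit 585) (nat_lit 541) (nat_lit 434)) (XT.lf (nat_lit 0) (nat_lit 5938447963) (nat_lit 760) (nat_lit 1751897241) (nat_lit 836) (nat_lit 2780101346) (nat_lit 367) (nat_lit 5) (nat_lit 377) (nat_lit 5) (nat_lit 378) (nat_lit 5) (nat_lit 586) (nat_lit 541) (nat_lit 433))))) (XT.nd (nat_lit 156) (nat_lit 1444) (nat_lit 0) (XT.nd (nat_lit 78) (nat_lit 76) (nat_lit 0) (XT.lf (nat_lit 0) (nat_lit 1794395417) (nat_lit 760) (nat_lit 8126426864) (nat_lit 836) (nat_lit 655643027) (nat_lit 357) (nat_lit 5) (nat_lit 367) (nat_lit 5) (nat_lit 368) (nat_lit 5) (nat_lit 587) (nat_lit 541) (nat_lit 432)) (XT.lf (nat_lit 0) (nat_lit 1513088418) (nat_lit 836) (nat_lit 2419900445) (nat_lit 76) (nat_lit 6750988341) (nat_lit 356) (nat_lit 5) (nat_lit 367) (nat_lit 5) (nat_lit 357) (nat_lit 5) (nat_lit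 588) (nat_lit 541) (nat_lit 431))) (XT.nd (nat_lit 78) (nat_lit 760) (nat_lit 0) (XT.lf (nat_lit 0) (nat_lit 3725238207) (nat_lit 760) (nat_lit 6699543061) (nat_lit 76) (nat_lit 368596026) (nat_lit 347) (nat_lit 5) (nat_lit 357) (nat_lit 5) (nat_lit 348) (nat_lit 5) (nat_lit 589) (nat_lit 541) (nat_lit 430)) (XT.nd (nat_lit 78) (nat_lit 760) (nat_lit 0) (XT.lf (nat_lit 0) (nat_lit 6004051679) (nat_lit 760) (nat_lit 182970405) (nat_lit 76) (nat_lit 4717495958) (nat_lit 347) (nat_lit 5) (nat_lit 357) (nat_lit 5) (nat_lit 348) (nat_lit 5) (nat_lit 590) (nat_lit 541) (nat_lit 429)) (XT.lf (nat_lit 0) (nat_lit 6527164163) (nat_lit 760) (nat_lit 1824075597) (nat_lit 836) (nat_lit 2666186924) (nat_lit 337) (nat_lit 5) (nat_lit 347) (nat_lit 5) (nat_lit 348) (nat_lit 5) (nat_lit 591) (nat_lit 541) (nat_lit 428))))))) (XT.nd (nat_lit 780) (nat_lit 4028) (nat_lit 0) (XT.nd (nat_lit 390) (nat_lit 1976) (nat_lit 0) (XT.nd (nat_lit 156) (nat_lit 1292) (nat_lit 0) (XT.nd (nat_lit 78) (nat_lit 76) (nat_lit 0) (XT.lf (nat_lit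 0) (nat_lit 2231017812) (nat_lit 684) (nat_lit 8527766108) (nat_lit 760) (nat_lit 373542359) (nat_lit 328) (nat_lit 5) (nat_lit 337) (nat_lit 5) (nat_lit 338) (nat_lit 5) (nat_lit 592) (nat_lit 541) (nat_lit 427)) (XT.lf (nat_lit 0) (nat_lit 1962342636) (nat_lit 760) (nat_lit 2149072658) (nat_lit 76) (nat_lit 7137391236) (nat_lit 327) (nat_lit 5) (nat_lit 337) (nat_lit 5) (nat_lit 328) (nat_lit 5) (nat_lit 593) (nat_lit 541) (nat_lit 426))) (XT.nd (nat_lit 78) (nat_lit 608) (nat_lit 0) (XT.lf (nat_lit 0) (nat_lit 4354835323) (nat_lit 760) (nat_lit 6593964000) (nat_lit 76) (nat_lit 418470815) (nat_lit 318) (nat_lit 5) (nat_lit 328) (nat_lit 5) (nat_lit 319) (nat_lit 5) (nat_lit 594) (nat_lit 541) (nat_lit 425)) (XT.nd (nat_lit 78) (nat_lit 0) (nat_lit 0) (XT.lf (nat_lit 0) (nat_lit 329989237) (nat_lit 608) (nat_lit 6490404265) (nat_lit 684) (nat_lit 4667206149) (nat_lit 310) (nat_lit 5) (nat_lit 318) (nat_lit 5) (nat_lit 319) (nat_lit 5) (nat_lit 595) (nat_lit 541) (nat_lit 424)) (XT.lf (nat_lit 0) (nat_lit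 7459487873) (nat_lit 608) (nat_lit 1901573461) (nat_lit 684) (nat_lit 2248759383) (nat_lit 310) (nat_lit 5) (nat_lit 318) (nat_lit 5) (nat_lit 319) (nat_lit 5) (nat_lit 596) (nat_lit 541) (nat_lit 423))))) (XT.nd (nat_lit 156) (nat_lit 1216) (nat_lit 0) (XT.nd (nat_lit 78) (nat_lit 0) (nat_lit 0) (XT.lf (nat_lit 0) (nat_lit 234706777) (nat_lit 760) (nat_lit 8739519003) (nat_lit 76) (nat_lit 2759842795) (nat_lit 300) (nat_lit 5) (nat_lit 310) (nat_lit 5) (nat_lit 301) (nat_lit 5) (nat_lit 597) (nat_lit 541) (nat_lit 422)) (XT.lf (nat_lit 0) (nat_lit 2760367195) (nat_lit 760) (nat_lit 1571637251) (nat_lit 76) (nat_lit 7528047817) (nat_lit 300) (nat_lit 5) (nat_lit 310) (nat_lit 5) (nat_lit 301) (nat_lit 5) (nat_lit 598) (nat_lit 541) (nat_lit 421))) (XT.nd (nat_lit 78) (nat_lit 608) (nat_lit 0) (XT.lf (nat_lit 0) (nat_lit 5359328667) (nat_lit 684) (nat_lit 6197282319) (nat_lit 76) (nat_lit 431489741) (nat_lit 292) (nat_lit 5) (nat_lit 301) (nat_lit 5) (nat_lit 293) (nat_lit 5) (nat_lit 599) (nat_lit 541)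 (nat_lit 420)) (XT.nd (nat_lit 78) (nat_lit 0) (nat_lit 0) (XT.lf (nat_lit 0) (nat_lit 1167833362) (nat_lit 608) (nat_lit 6871833576) (nat_lit 684) (nat_lit 4078456114) (nat_lit 284) (nat_lit 5) (nat_lit 292) (nat_lit 5) (nat_lit 293) (nat_lit 5) (nat_lit 600) (nat_lit 541) (nat_lit 419)) (XT.lf (nat_lit 0) (nat_lit 8742349957) (nat_lit 608) (nat_lit 2055559839) (nat_lit 684) (nat_lit 1452350895) (nat_lit 284) (nat_lit 5) (nat_lit 292) (nat_lit 5) (nat_lit 293) (nat_lit 5) (nat_lit 601) (nat_lit 541) (nat_lit 418)))))) (XT.nd (nat_lit 390) (nat_lit 2204) (nat_lit 0) (XT.nd (nat_lit 156) (nat_lit 1140) (nat_lit 0) (XT.nd (nat_lit 78) (nat_lit 0) (nat_lit 0) (XT.lf (nat_lit 0) (nat_lit 1238548079) (nat_lit 684) (nat_lit 8295919866) (nat_lit 76) (nat_lit 2849847606) (nat_lit 275) (nat_lit 5) (nat_lit 284) (nat_lit 5) (nat_lit 276) (nat_lit 5) (nat_lit 602) (nat_lit 541) (nat_lit 417)) (XT.lf (nat_lit 0) (nat_lit 3984245883) (nat_lit 684) (nat_lit 681658987) (nat_lit 76) (nat_lit 7854546859) (nat_lit 275) (nat_lit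 5) (nat_lit 284) (nat_lit 5) (nat_lit 276) (nat_lit 5) (nat_lit 603) (nat_lit 541) (nat_lit 416))) (XT.nd (nat_lit 78) (nat_lit 532) (nat_lit 0) (XT.lf (nat_lit 0) (nat_lit 6816983983) (nat_lit 684) (nat_lit 5503622108) (nat_lit 76) (nat_lit 338062774) (nat_lit 267) (nat_lit 5) (nat_lit 276) (nat_lit 5) (nat_lit 268) (nat_lit 5) (nat_lit 604) (nat_lit 541) (nat_lit 415)) (XT.nd (nat_lit 78) (nat_lit 0) (nat_lit 0) (XT.lf (nat_lit 0) (nat_lit 2336281629) (nat_lit 532) (nat_lit 7404355354) (nat_lit 608) (nat_lit 3058328907) (nat_lit 260) (nat_lit 5) (nat_lit 267) (nat_lit 5) (nat_lit 268) (nat_lit 5) (nat_lit 605) (nat_lit 541) (nat_lit 414)) (XT.lf (nat_lit 0) (nat_lit 10386131947) (nat_lit 532) (nat_lit 2357332660) (nat_lit 608) (nat_lit 198190950) (nat_lit 260) (nat_lit 5) (nat_lit 267) (nat_lit 5) (nat_lit 268) (nat_lit 5) (nat_lit 606) (nat_lit 541) (nat_lit 413))))) (XT.nd (nat_lit 234) (nat_lit 1064) (nat_lit 0) (XT.nd (nat_lit 78) (nat_lit 532) (nat_lit 0) (XT.lf (nat_lit 0) (nat_lit 2721901721) (nat_lit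 608) (nat_lit 7561303724) (nat_lit 76) (nat_lit 2802872904) (nat_lit 252) (nat_lit 5) (nat_lit 260) (nat_lit 5) (nat_lit 253) (nat_lit 5) (nat_lit 607) (nat_lit 541) (nat_lit 412)) (XT.nd (nat_lit 78) (nat_lit 0) (nat_lit 0) (XT.lf (nat_lit 0) (nat_lit 536885802) (nat_lit 532) (nat_lit 5181343289) (nat_lit 608) (nat_lit 7514725263) (nat_lit 245) (nat_lit 5) (nat_lit 252) (nat_lit 5) (nat_lit 253) (nat_lit 5) (nat_lit 608) (nat_lit 541) (nat_lit 411)) (XT.lf (nat_lit 0) (nat_lit 8809967481) (nat_lit 608) (nat_lit 4504229930) (nat_lit 76) (nat_lit 67861456) (nat_lit 245) (nat_lit 5) (nat_lit 253) (nat_lit 5) (nat_lit 246) (nat_lit 5) (nat_lit 609) (nat_lit 541) (nat_lit 410)))) (XT.nd (nat_lit 78) (nat_lit 532) (nat_lit 0) (XT.lf (nat_lit 0) (nat_lit 3846472286) (nat_lit 532) (nat_lit 8160925995) (nat_lit 608) (nat_lit 1525870700) (nat_lit 238) (nat_lit 5) (nat_lit 245) (nat_lit 5) (nat_lit 246) (nat_lit 5) (nat_lit 610) (nat_lit 541) (nat_lit 409)) (XT.nd (nat_lit 78) (nat_lit 456) (nat_lit 0) (XT.lf (nat_lit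 0) (nat_lit 1575596567) (nat_lit 608) (nat_lit 1293293861) (nat_lit 76) (nat_lit 10818106957) (nat_lit 237) (nat_lit 5) (nat_lit 245) (nat_lit 5) (nat_lit 238) (nat_lit 5) (nat_lit 611) (nat_lit 541) (nat_lit 408)) (XT.lf (nat_lit 0) (nat_lit 4767995481) (nat_lit 532) (nat_lit 6526317937) (nat_lit 76) (nat_lit 2548299170) (nat_lit 231) (nat_lit 5) (nat_lit 238) (nat_lit 5) (nat_lit 232) (nat_lit 5) (nat_lit 612) (nat_lit 541) (nat_lit 407))))))))
noncomputable def xc112 : XT := (XT.nd (nat_lit 77064) (nat_lit 0) (nat_lit 15048) (XT.nd (nat_lit 76284) (nat_lit 0) (nat_lit 27816) (XT.nd (nat_lit 75894) (nat_lit 0) (nat_lit 30324) (XT.nd (nat_lit 75660) (nat_lit 0) (nat_lit 31540) (XT.nd (nat_lit 78) (nat_lit 0) (nat_lit 0) (XT.lf (nat_lit 0) (nat_lit 2102069008) (nat_lit 532) (nat_lit 5948617394) (nat_lit 608) (nat_lit 5950125425) (nat_lit 224) (nat_lit 5) (nat_lit 231) (nat_lit 5) (nat_lit 232) (nat_lit 5) (nat_lit 613) (nat_lit 541) (nat_lit 406)) (XT.lf (nat_lit 0) (nat_lit 10970744430) (nat_lit 532) (nat_lit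 457300550) (nat_lit 608) (nat_lit 2733550397) (nat_lit 224) (nat_lit 5) (nat_lit 231) (nat_lit 5) (nat_lit 232) (nat_lit 5) (nat_lit 614) (nat_lit 541) (nat_lit 405))) (XT.nd (nat_lit 78) (nat_lit 0) (nat_lit 0) (XT.lf (nat_lit 0) (nat_lit 679086274) (nat_lit 1292) (nat_lit 1501054998) (nat_lit 1292) (nat_lit 1501054998) (nat_lit 639) (nat_lit 3) (nat_lit 656) (nat_lit 3) (nat_lit 656) (nat_lit 5) (nat_lit 542) (nat_lit 542) (nat_lit 476)) (XT.nd (nat_lit 78) (nat_lit 0) (nat_lit 0) (XT.lf (nat_lit 76) (nat_lit 662471951) (nat_lit 0) (nat_lit 2254677031) (nat_lit 1292) (nat_lit 4487840991) (nat_lit 640) (nat_lit 5) (nat_lit 639) (nat_lit 3) (nat_lit 656) (nat_lit 5) (nat_lit 543) (nat_lit 542) (nat_lit 475)) (XT.lf (nat_lit 76) (nat_lit 4420148426) (nat_lit 0) (nat_lit 66743180) (nat_lit 1292) (nat_lit 2961959127) (nat_lit 640) (nat_lit 5) (nat_lit 639) (nat_lit 3) (nat_lit 656) (nat_lit 5) (nat_lit 544) (nat_lit 542) (nat_lit 474))))) (XT.nd (nat_lit 156) (nat_lit 0) (nat_lit 0) (XT.nd (nat_lit 78) (nat_lit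 1292) (nat_lit 0) (XT.lf (nat_lit 76) (nat_lit 733548673) (nat_lit 0) (nat_lit 5333660770) (nat_lit 1292) (nat_lit 1426798707) (nat_lit 641) (nat_lit 5) (nat_lit 640) (nat_lit 5) (nat_lit 657) (nat_lit 5) (nat_lit 545) (nat_lit 542) (nat_lit 473)) (XT.lf (nat_lit 0) (nat_lit 118881177) (nat_lit 1292) (nat_lit 2950831453) (nat_lit 1368) (nat_lit 4470708157) (nat_lit 623) (nat_lit 5) (nat_lit 640) (nat_lit 5) (nat_lit 641) (nat_lit 5) (nat_lit 546) (nat_lit 542) (nat_lit 472))) (XT.nd (nat_lit 78) (nat_lit 0) (nat_lit 76) (XT.lf (nat_lit 76) (nat_lit 916194181) (nat_lit 0) (nat_lit 727651188) (nat_lit 1368) (nat_lit 5944381048) (nat_lit 624) (nat_lit 5) (nat_lit 623) (nat_lit 5) (nat_lit 641) (nat_lit 5) (nat_lit 547) (nat_lit 542) (nat_lit 471)) (XT.nd (nat_lit 78) (nat_lit 0) (nat_lit 0) (XT.lf (nat_lit 0) (nat_lit 3192261762) (nat_lit 1292) (nat_lit 2769039464) (nat_lit 1368) (nat_lit 1675830692) (nat_lit 624) (nat_lit 5) (nat_lit 641) (nat_lit 5) (nat_lit 642) (nat_lit 5) (nat_lit 548) (nat_lit 542) (nat_lit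 470)) (XT.lf (nat_lit 76) (nat_lit 1201292707) (nat_lit 0) (nat_lit 3545946955) (nat_lit 1368) (nat_lit 2940266767) (nat_lit 625) (nat_lit 5) (nat_lit 624) (nat_lit 5) (nat_lit 642) (nat_lit 5) (nat_lit 549) (nat_lit 542) (nat_lit 469)))))) (XT.nd (nat_lit 390) (nat_lit 1292) (nat_lit 0) (XT.nd (nat_lit 156) (nat_lit 0) (nat_lit 0) (XT.nd (nat_lit 78) (nat_lit 1292) (nat_lit 0) (XT.lf (nat_lit 76) (nat_lit 5267052315) (nat_lit 0) (nat_lit 1048407527) (nat_lit 1368) (nat_lit 1423788442) (nat_lit 625) (nat_lit 5) (nat_lit 624) (nat_lit 5) (nat_lit 642) (nat_lit 5) (nat_lit 550) (nat_lit 542) (nat_lit 468)) (XT.lf (nat_lit 0) (nat_lit 105868324) (nat_lit 1368) (nat_lit 6181431817) (nat_lit 1444) (nat_lit 1505022216) (nat_lit 607) (nat_lit 5) (nat_lit 625) (nat_lit 5) (nat_lit 626) (nat_lit 5) (nat_lit 551) (nat_lit 542) (nat_lit 467))) (XT.nd (nat_lit 78) (nat_lit 0) (nat_lit 0) (XT.lf (nat_lit 0) (nat_lit 1635407218) (nat_lit 1368) (nat_lit 2075690313) (nat_lit 1444) (nat_lit 4135407638) (nat_lit 607) (nat_lit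 5) (nat_lit 625) (nat_lit 5) (nat_lit 626) (nat_lit 5) (nat_lit 552) (nat_lit 542) (nat_lit 466)) (XT.nd (nat_lit 78) (nat_lit 0) (nat_lit 76) (XT.lf (nat_lit 76) (nat_lit 2118149642) (nat_lit 0) (nat_lit 1056524975) (nat_lit 1444) (nat_lit 4727516769) (nat_lit 608) (nat_lit 5) (nat_lit 607) (nat_lit 5) (nat_lit 626) (nat_lit 5) (nat_lit 553) (nat_lit 542) (nat_lit 465)) (XT.lf (nat_lit 0) (nat_lit 4735472964) (nat_lit 1368) (nat_lit 1567939900) (nat_lit 1444) (nat_lit 1655766003) (nat_lit 608) (nat_lit 5) (nat_lit 626) (nat_lit 5) (nat_lit 627) (nat_lit 5) (nat_lit 554) (nat_lit 542) (nat_lit 464))))) (XT.nd (nat_lit 156) (nat_lit 1368) (nat_lit 0) (XT.nd (nat_lit 78) (nat_lit 0) (nat_lit 0) (XT.lf (nat_lit 76) (nat_lit 2739437358) (nat_lit 0) (nat_lit 3579503696) (nat_lit 1444) (nat_lit 1698538373) (nat_lit 609) (nat_lit 5) (nat_lit 608) (nat_lit 5) (nat_lit 627) (nat_lit 5) (nat_lit 555) (nat_lit 542) (nat_lit 463)) (XT.lf (nat_lit 76) (nat_lit 7132382608) (nat_lit 0) (nat_lit 779400037) (nat_lit 1444)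 (nat_lit 165611628) (nat_lit 609) (nat_lit 5) (nat_lit 608) (nat_lit 5) (nat_lit 627) (nat_lit 5) (nat_lit 556) (nat_lit 542) (nat_lit 462))) (XT.nd (nat_lit 78) (nat_lit 0) (nat_lit 0) (XT.lf (nat_lit 0) (nat_lit 1383667896) (nat_lit 1444) (nat_lit 4662754218) (nat_lit 1520) (nat_lit 2091825458) (nat_lit 590) (nat_lit 5) (nat_lit 609) (nat_lit 5) (nat_lit 610) (nat_lit 5) (nat_lit 557) (nat_lit 542) (nat_lit 461)) (XT.nd (nat_lit 78) (nat_lit 0) (nat_lit 0) (XT.lf (nat_lit 0) (nat_lit 2941433686) (nat_lit 1444) (nat_lit 231673777) (nat_lit 1520) (nat_lit 5027596439) (nat_lit 590) (nat_lit 5) (nat_lit 609) (nat_lit 5) (nat_lit 610) (nat_lit 5) (nat_lit 558) (nat_lit 542) (nat_lit 460)) (XT.lf (nat_lit 76) (nat_lit 4322760608) (nat_lit 0) (nat_lit 204455537) (nat_lit 1520) (nat_lit 3737258162) (nat_lit 591) (nat_lit 5) (nat_lit 590) (nat_lit 5) (nat_lit 610) (nat_lit 5) (nat_lit 559) (nat_lit 542) (nat_lit 459))))))) (XT.nd (nat_lit 780) (nat_lit 6612) (nat_lit 0) (XT.nd (nat_lit 390) (nat_lit 4788) (nat_lit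 0) (XT.nd (nat_lit 156) (nat_lit 1444) (nat_lit 0) (XT.nd (nat_lit 78) (nat_lit 0) (nat_lit 0) (XT.lf (nat_lit 76) (nat_lit 609088888) (nat_lit 0) (nat_lit 5528800646) (nat_lit 1520) (nat_lit 2191769218) (nat_lit 592) (nat_lit 5) (nat_lit 591) (nat_lit 5) (nat_lit 611) (nat_lit 5) (nat_lit 560) (nat_lit 542) (nat_lit 458)) (XT.lf (nat_lit 76) (nat_lit 5280622771) (nat_lit 0) (nat_lit 2497729366) (nat_lit 1520) (nat_lit 617845328) (nat_lit 592) (nat_lit 5) (nat_lit 591) (nat_lit 5) (nat_lit 611) (nat_lit 5) (nat_lit 561) (nat_lit 542) (nat_lit 457))) (XT.nd (nat_lit 78) (nat_lit 0) (nat_lit 0) (XT.lf (nat_lit 0) (nat_lit 959010220) (nat_lit 1520) (nat_lit 6894907822) (nat_lit 1596) (nat_lit 610334580) (nat_lit 572) (nat_lit 5) (nat_lit 592) (nat_lit 5) (nat_lit 593) (nat_lit 5) (nat_lit 562) (nat_lit 542) (nat_lit 456)) (XT.nd (nat_lit 78) (nat_lit 0) (nat_lit 0) (XT.lf (nat_lit 0) (nat_lit 2567386403) (nat_lit 1520) (nat_lit 2186620880) (nat_lit 1596) (nat_lit 3779416764) (nat_lit 572) (nat_lit 5) (nat_lit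 592) (nat_lit 5) (nat_lit 593) (nat_lit 5) (nat_lit 563) (nat_lit 542) (nat_lit 455)) (XT.lf (nat_lit 76) (nat_lit 2627950931) (nat_lit 0) (nat_lit 1568278717) (nat_lit 1596) (nat_lit 4407985194) (nat_lit 573) (nat_lit 5) (nat_lit 572) (nat_lit 5) (nat_lit 593) (nat_lit 5) (nat_lit 564) (nat_lit 542) (nat_lit 454))))) (XT.nd (nat_lit 156) (nat_lit 3344) (nat_lit 0) (XT.nd (nat_lit 78) (nat_lit 1520) (nat_lit 0) (XT.lf (nat_lit 0) (nat_lit 5855032412) (nat_lit 1520) (nat_lit 1141494537) (nat_lit 76) (nat_lit 1679948749) (nat_lit 573) (nat_lit 5) (nat_lit 593) (nat_lit 5) (nat_lit 574) (nat_lit 5) (nat_lit 565) (nat_lit 542) (nat_lit 453)) (XT.lf (nat_lit 0) (nat_lit 3807154473) (nat_lit 1520) (nat_lit 3747213109) (nat_lit 1596) (nat_lit 1195668921) (nat_lit 553) (nat_lit 5) (nat_lit 573) (nat_lit 5) (nat_lit 574) (nat_lit 5) (nat_lit 566) (nat_lit 542) (nat_lit 452))) (XT.nd (nat_lit 78) (nat_lit 1672) (nat_lit 0) (XT.lf (nat_lit 0) (nat_lit 19959943) (nat_lit 1596) (nat_lit 416902750) (nat_lit 1672) (nat_lit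 8388541363) (nat_lit 531) (nat_lit 5) (nat_lit 552) (nat_lit 5) (nat_lit 553) (nat_lit 5) (nat_lit 567) (nat_lit 542) (nat_lit 451)) (XT.nd (nat_lit 78) (nat_lit 1672) (nat_lit 0) (XT.lf (nat_lit 0) (nat_lit 2111680614) (nat_lit 1672) (nat_lit 3803049308) (nat_lit 76) (nat_lit 2986879808) (nat_lit 531) (nat_lit 5) (nat_lit 553) (nat_lit 5) (nat_lit 532) (nat_lit 5) (nat_lit 568) (nat_lit 542) (nat_lit 450)) (XT.lf (nat_lit 0) (nat_lit 1291007049) (nat_lit 1672) (nat_lit 2513555848) (nat_lit 1748) (nat_lit 5175086978) (nat_lit 509) (nat_lit 5) (nat_lit 531) (nat_lit 5) (nat_lit 532) (nat_lit 5) (nat_lit 569) (nat_lit 542) (nat_lit 449)))))) (XT.nd (nat_lit 390) (nat_lit 1900) (nat_lit 0) (XT.nd (nat_lit 156) (nat_lit 2964) (nat_lit 0) (XT.nd (nat_lit 78) (nat_lit 1748) (nat_lit 0) (XT.lf (nat_lit 0) (nat_lit 5537022141) (nat_lit 1748) (nat_lit 2549577283) (nat_lit 76) (nat_lit 972538696) (nat_lit 509) (nat_lit 5) (nat_lit 532) (nat_lit 5) (nat_lit 510) (nat_lit 5) (nat_lit 570) (nat_lit 542) (nat_lit 448))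 (XT.lf (nat_lit 0) (nat_lit 2688373111) (nat_lit 1748) (nat_lit 4624196638) (nat_lit 1824) (nat_lit 1827479250) (nat_lit 486) (nat_lit 5) (nat_lit 509) (nat_lit 5) (nat_lit 510) (nat_lit 5) (nat_lit 571) (nat_lit 542) (nat_lit 447))) (XT.nd (nat_lit 78) (nat_lit 2964) (nat_lit 0) (XT.lf (nat_lit 0) (nat_lit 8043281899) (nat_lit 1748) (nat_lit 1072151816) (nat_lit 1824) (nat_lit 107309889) (nat_lit 486) (nat_lit 5) (nat_lit 509) (nat_lit 5) (nat_lit 510) (nat_lit 5) (nat_lit 572) (nat_lit 542) (nat_lit 446)) (XT.nd (nat_lit 78) (nat_lit 1064) (nat_lit 0) (XT.lf (nat_lit 0) (nat_lit 1644920643) (nat_lit 1900) (nat_lit 5103063699) (nat_lit 76) (nat_lit 2558510173) (nat_lit 461) (nat_lit 5) (nat_lit 486) (nat_lit 5) (nat_lit 462) (nat_lit 5) (nat_lit 573) (nat_lit 542) (nat_lit 445)) (XT.lf (nat_lit 0) (nat_lit 291547437) (nat_lit 1064) (nat_lit 3131562467) (nat_lit 1140) (nat_lit 5968950860) (nat_lit 447) (nat_lit 5) (nat_lit 461) (nat_lit 5) (nat_lit 462) (nat_lit 5) (nat_lit 574) (nat_lit 542) (nat_lit 444)))))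 (XT.nd (nat_lit 156) (nat_lit 988) (nat_lit 0) (XT.nd (nat_lit 78) (nat_lit 912) (nat_lit 0) (XT.lf (nat_lit 0) (nat_lit 5250689154) (nat_lit 1140) (nat_lit 3642243365) (nat_lit 76) (nat_lit 586130790) (nat_lit 447) (nat_lit 5) (nat_lit 462) (nat_lit 5) (nat_lit 448) (nat_lit 5) (nat_lit 575) (nat_lit 542) (nat_lit 443)) (XT.lf (nat_lit 0) (nat_lit 1906943804) (nat_lit 912) (nat_lit 5217209431) (nat_lit 988) (nat_lit 2443467471) (nat_lit 435) (nat_lit 5) (nat_lit 447) (nat_lit 5) (nat_lit 448) (nat_lit 5) (nat_lit 576) (nat_lit 542) (nat_lit 442))) (XT.nd (nat_lit 78) (nat_lit 988) (nat_lit 0) (XT.lf (nat_lit 0) (nat_lit 7594115159) (nat_lit 912) (nat_lit 1441947244) (nat_lit 988) (nat_lit 621868767) (nat_lit 435) (nat_lit 5) (nat_lit 447) (nat_lit 5) (nat_lit 448) (nat_lit 5) (nat_lit 577) (nat_lit 542) (nat_lit 441)) (XT.nd (nat_lit 78) (nat_lit 0) (nat_lit 0) (XT.lf (nat_lit 0) (nat_lit 1236427499) (nat_lit 988) (nat_lit 6102980394) (nat_lit 76) (nat_lit 2410151252) (nat_lit 422) (nat_lit 5) (nat_lit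 435) (nat_lit 5) (nat_lit 423) (nat_lit 5) (nat_lit 578) (nat_lit 542) (nat_lit 440)) (XT.lf (nat_lit 0) (nat_lit 3124217316) (nat_lit 988) (nat_lit 379903607) (nat_lit 76) (nat_lit 6338804811) (nat_lit 422) (nat_lit 5) (nat_lit 435) (nat_lit 5) (nat_lit 423) (nat_lit 5) (nat_lit 579) (nat_lit 542) (nat_lit 439))))))))
noncomputable def xc113 : XT := (XT.nd (nat_lit 1560) (nat_lit 5168) (nat_lit 0) (XT.nd (nat_lit 780) (nat_lit 4864) (nat_lit 0) (XT.nd (nat_lit 390) (nat_lit 2432) (nat_lit 0) (XT.nd (nat_lit 156) (nat_lit 912) (nat_lit 0) (XT.nd (nat_lit 78) (nat_lit 836) (nat_lit 0) (XT.lf (nat_lit 0) (nat_lit 5066013982) (nat_lit 912) (nat_lit 4433026807) (nat_lit 76) (nat_lit 438795171) (nat_lit 411) (nat_lit 5) (nat_lit 423) (nat_lit 5) (nat_lit 412) (nat_lit 5) (nat_lit 580) (nat_lit 542) (nat_lit 438)) (XT.lf (nat_lit 0) (nat_lit 1451166975) (nat_lit 836) (nat_lit 5608575449) (nat_lit 912) (nat_lit 2974641353) (nat_lit 400) (nat_lit 5) (nat_lit 411) (nat_lit 5) (nat_lit 412) (nat_lit 5) (nat_lit 581)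 (nat_lit 542) (nat_lit 437))) (XT.nd (nat_lit 78) (nat_lit 912) (nat_lit 0) (XT.lf (nat_lit 0) (nat_lit 7490868128) (nat_lit 836) (nat_lit 1610415548) (nat_lit 912) (nat_lit 1031421384) (nat_lit 400) (nat_lit 5) (nat_lit 411) (nat_lit 5) (nat_lit 412) (nat_lit 5) (nat_lit 582) (nat_lit 542) (nat_lit 436)) (XT.nd (nat_lit 78) (nat_lit 0) (nat_lit 0) (XT.lf (nat_lit 0) (nat_lit 955179850) (nat_lit 912) (nat_lit 6813929143) (nat_lit 76) (nat_lit 2463421856) (nat_lit 388) (nat_lit 5) (nat_lit 400) (nat_lit 5) (nat_lit 389) (nat_lit 5) (nat_lit 583) (nat_lit 542) (nat_lit 435)) (XT.lf (nat_lit 0) (nat_lit 2974975590) (nat_lit 912) (nat_lit 737945588) (nat_lit 76) (nat_lit 6621151361) (nat_lit 388) (nat_lit 5) (nat_lit 400) (nat_lit 5) (nat_lit 389) (nat_lit 5) (nat_lit 584) (nat_lit 542) (nat_lit 434))))) (XT.nd (nat_lit 156) (nat_lit 836) (nat_lit 0) (XT.nd (nat_lit 78) (nat_lit 760) (nat_lit 0) (XT.lf (nat_lit 0) (nat_lit 5053092453) (nat_lit 912) (nat_lit 4930466777) (nat_lit 76) (nat_lit 453728508) (nat_lit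 377) (nat_lit 5) (nat_lit 389) (nat_lit 5) (nat_lit 378) (nat_lit 5) (nat_lit 585) (nat_lit 542) (nat_lit 433)) (XT.lf (nat_lit 0) (nat_lit 1314420093) (nat_lit 760) (nat_lit 5875884595) (nat_lit 836) (nat_lit 3351913047) (nat_lit 367) (nat_lit 5) (nat_lit 377) (nat_lit 5) (nat_lit 378) (nat_lit 5) (nat_lit 586) (nat_lit 542) (nat_lit 432))) (XT.nd (nat_lit 78) (nat_lit 836) (nat_lit 0) (XT.lf (nat_lit 0) (nat_lit 7728969850) (nat_lit 760) (nat_lit 1654062753) (nat_lit 836) (nat_lit 1265959432) (nat_lit 367) (nat_lit 5) (nat_lit 377) (nat_lit 5) (nat_lit 378) (nat_lit 5) (nat_lit 587) (nat_lit 542) (nat_lit 431)) (XT.nd (nat_lit 78) (nat_lit 0) (nat_lit 0) (XT.lf (nat_lit 0) (nat_lit 870696110) (nat_lit 836) (nat_lit 7242386903) (nat_lit 76) (nat_lit 2644302315) (nat_lit 356) (nat_lit 5) (nat_lit 367) (nat_lit 5) (nat_lit 357) (nat_lit 5) (nat_lit 588) (nat_lit 542) (nat_lit 430)) (XT.lf (nat_lit 0) (nat_lit 3044017975) (nat_lit 836) (nat_lit 790864748) (nat_lit 76) (nat_lit 7032679783) (nat_lit 356) (nat_lit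 5) (nat_lit 367) (nat_lit 5) (nat_lit 357) (nat_lit 5) (nat_lit 589) (nat_lit 542) (nat_lit 429)))))) (XT.nd (nat_lit 390) (nat_lit 2660) (nat_lit 0) (XT.nd (nat_lit 156) (nat_lit 760) (nat_lit 0) (XT.nd (nat_lit 78) (nat_lit 760) (nat_lit 0) (XT.lf (nat_lit 0) (nat_lit 5283002093) (nat_lit 760) (nat_lit 5138612249) (nat_lit 76) (nat_lit 557886017) (nat_lit 347) (nat_lit 5) (nat_lit 357) (nat_lit 5) (nat_lit 348) (nat_lit 5) (nat_lit 590) (nat_lit 542) (nat_lit 428)) (XT.lf (nat_lit 0) (nat_lit 1494660847) (nat_lit 760) (nat_lit 6093351804) (nat_lit 836) (nat_lit 3505240409) (nat_lit 337) (nat_lit 5) (nat_lit 347) (nat_lit 5) (nat_lit 348) (nat_lit 5) (nat_lit 591) (nat_lit 542) (nat_lit 427))) (XT.nd (nat_lit 78) (nat_lit 760) (nat_lit 0) (XT.lf (nat_lit 0) (nat_lit 8308463204) (nat_lit 760) (nat_lit 1646181514) (nat_lit 836) (nat_lit 1254326676) (nat_lit 337) (nat_lit 5) (nat_lit 347) (nat_lit 5) (nat_lit 348) (nat_lit 5) (nat_lit 592) (nat_lit 542) (nat_lit 426)) (XT.nd (nat_lit 78) (nat_lit 0) (nat_lit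 0) (XT.lf (nat_lit 0) (nat_lit 1053868766) (nat_lit 760) (nat_lit 7390658033) (nat_lit 76) (nat_lit 2881824523) (nat_lit 327) (nat_lit 5) (nat_lit 337) (nat_lit 5) (nat_lit 328) (nat_lit 5) (nat_lit 593) (nat_lit 542) (nat_lit 425)) (XT.lf (nat_lit 0) (nat_lit 3403437446) (nat_lit 760) (nat_lit 538914098) (nat_lit 76) (nat_lit 7503322334) (nat_lit 327) (nat_lit 5) (nat_lit 337) (nat_lit 5) (nat_lit 328) (nat_lit 5) (nat_lit 594) (nat_lit 542) (nat_lit 424))))) (XT.nd (nat_lit 156) (nat_lit 1368) (nat_lit 0) (XT.nd (nat_lit 78) (nat_lit 608) (nat_lit 0) (XT.lf (nat_lit 0) (nat_lit 5828625616) (nat_lit 760) (nat_lit 5057478481) (nat_lit 76) (nat_lit 680707156) (nat_lit 318) (nat_lit 5) (nat_lit 328) (nat_lit 5) (nat_lit 319) (nat_lit 5) (nat_lit 595) (nat_lit 542) (nat_lit 423)) (XT.lf (nat_lit 0) (nat_lit 1993977737) (nat_lit 608) (nat_lit 6333088020) (nat_lit 684) (nat_lit 3362811566) (nat_lit 310) (nat_lit 5) (nat_lit 318) (nat_lit 5) (nat_lit 319) (nat_lit 5) (nat_lit 596) (nat_lit 542) (nat_lit 422)))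 (XT.nd (nat_lit 78) (nat_lit 1368) (nat_lit 0) (XT.lf (nat_lit 0) (nat_lit 9233568527) (nat_lit 608) (nat_lit 1658110488) (nat_lit 684) (nat_lit 923402506) (nat_lit 310) (nat_lit 5) (nat_lit 318) (nat_lit 5) (nat_lit 319) (nat_lit 5) (nat_lit 597) (nat_lit 542) (nat_lit 421)) (XT.nd (nat_lit 78) (nat_lit 608) (nat_lit 0) (XT.lf (nat_lit 0) (nat_lit 1577760531) (nat_lit 760) (nat_lit 7257314632) (nat_lit 76) (nat_lit 3106842538) (nat_lit 300) (nat_lit 5) (nat_lit 310) (nat_lit 5) (nat_lit 301) (nat_lit 5) (nat_lit 598) (nat_lit 542) (nat_lit 420)) (XT.lf (nat_lit 0) (nat_lit 21719516) (nat_lit 608) (nat_lit 4106113313) (nat_lit 684) (nat_lit 7943111537) (nat_lit 292) (nat_lit 5) (nat_lit 300) (nat_lit 5) (nat_lit 301) (nat_lit 5) (nat_lit 599) (nat_lit 542) (nat_lit 419))))))) (XT.nd (nat_lit 780) (nat_lit 1596) (nat_lit 0) (XT.nd (nat_lit 390) (nat_lit 1672) (nat_lit 0) (XT.nd (nat_lit 156) (nat_lit 1292) (nat_lit 0) (XT.nd (nat_lit 78) (nat_lit 608) (nat_lit 0) (XT.lf (nat_lit 0) (nat_lit 6765440542) (nat_lit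 684) (nat_lit 4683468810) (nat_lit 76) (nat_lit 752912357) (nat_lit 292) (nat_lit 5) (nat_lit 301) (nat_lit 5) (nat_lit 293) (nat_lit 5) (nat_lit 600) (nat_lit 542) (nat_lit 418)) (XT.lf (nat_lit 0) (nat_lit 2818174453) (nat_lit 608) (nat_lit 6666305464) (nat_lit 684) (nat_lit 2850263902) (nat_lit 284) (nat_lit 5) (nat_lit 292) (nat_lit 5) (nat_lit 293) (nat_lit 5) (nat_lit 601) (nat_lit 542) (nat_lit 417))) (XT.nd (nat_lit 78) (nat_lit 1292) (nat_lit 0) (XT.lf (nat_lit 0) (nat_lit 10512279725) (nat_lit 608) (nat_lit 1760431052) (nat_lit 684) (nat_lit 197318174) (nat_lit 284) (nat_lit 5) (nat_lit 292) (nat_lit 5) (nat_lit 293) (nat_lit 5) (nat_lit 602) (nat_lit 542) (nat_lit 416)) (XT.nd (nat_lit 78) (nat_lit 608) (nat_lit 0) (XT.lf (nat_lit 0) (nat_lit 2518370501) (nat_lit 684) (nat_lit 6837610530) (nat_lit 76) (nat_lit 3250862037) (nat_lit 275) (nat_lit 5) (nat_lit 284) (nat_lit 5) (nat_lit 276) (nat_lit 5) (nat_lit 603) (nat_lit 542) (nat_lit 415)) (XT.lf (nat_lit 0) (nat_lit 909009790) (nat_lit 608)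 (nat_lit 4391265512) (nat_lit 684) (nat_lit 7445801938) (nat_lit 267) (nat_lit 5) (nat_lit 275) (nat_lit 5) (nat_lit 276) (nat_lit 5) (nat_lit 604) (nat_lit 542) (nat_lit 414))))) (XT.nd (nat_lit 156) (nat_lit 1140) (nat_lit 0) (XT.nd (nat_lit 78) (nat_lit 532) (nat_lit 0) (XT.lf (nat_lit 0) (nat_lit 8172282595) (nat_lit 684) (nat_lit 4009775221) (nat_lit 76) (nat_lit 705349726) (nat_lit 267) (nat_lit 5) (nat_lit 276) (nat_lit 5) (nat_lit 268) (nat_lit 5) (nat_lit 605) (nat_lit 542) (nat_lit 413)) (XT.lf (nat_lit 0) (nat_lit 3976374490) (nat_lit 532) (nat_lit 7164478206) (nat_lit 608) (nat_lit 1889930019) (nat_lit 260) (nat_lit 5) (nat_lit 267) (nat_lit 5) (nat_lit 268) (nat_lit 5) (nat_lit 606) (nat_lit 542) (nat_lit 412))) (XT.nd (nat_lit 78) (nat_lit 1064) (nat_lit 0) (XT.lf (nat_lit 0) (nat_lit 990143089) (nat_lit 608) (nat_lit 1027334729) (nat_lit 76) (nat_lit 11159191849) (nat_lit 259) (nat_lit 5) (nat_lit 267) (nat_lit 5) (nat_lit 260) (nat_lit 5) (nat_lit 607) (nat_lit 542) (nat_lit 411)) (XT.nd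 (nat_lit 78) (nat_lit 532) (nat_lit 0) (XT.lf (nat_lit 0) (nat_lit 3955377176) (nat_lit 608) (nat_lit 6123882533) (nat_lit 76) (nat_lit 3244908165) (nat_lit 252) (nat_lit 5) (nat_lit 260) (nat_lit 5) (nat_lit 253) (nat_lit 5) (nat_lit 608) (nat_lit 542) (nat_lit 410)) (XT.lf (nat_lit 0) (nat_lit 2125819157) (nat_lit 532) (nat_lit 4872940249) (nat_lit 608) (nat_lit 6475480433) (nat_lit 245) (nat_lit 5) (nat_lit 252) (nat_lit 5) (nat_lit 253) (nat_lit 5) (nat_lit 609) (nat_lit 542) (nat_lit 409)))))) (XT.nd (nat_lit 75972) (nat_lit 0) (nat_lit 30324) (XT.nd (nat_lit 156) (nat_lit 1064) (nat_lit 0) (XT.nd (nat_lit 78) (nat_lit 532) (nat_lit 0) (XT.lf (nat_lit 0) (nat_lit 10132089286) (nat_lit 608) (nat_lit 3026771322) (nat_lit 76) (nat_lit 467871685) (nat_lit 245) (nat_lit 5) (nat_lit 253) (nat_lit 5) (nat_lit 246) (nat_lit 5) (nat_lit 610) (nat_lit 542) (nat_lit 408)) (XT.lf (nat_lit 0) (nat_lit 5480632154) (nat_lit 532) (nat_lit 7900478053) (nat_lit 608) (nat_lit 400104540) (nat_lit 238) (nat_lit 5) (nat_lit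 245) (nat_lit 5) (nat_lit 246) (nat_lit 5) (nat_lit 611) (nat_lit 542) (nat_lit 407))) (XT.nd (nat_lit 78) (nat_lit 532) (nat_lit 0) (XT.lf (nat_lit 0) (nat_lit 225406981) (nat_lit 456) (nat_lit 2501908840) (nat_lit 532) (nat_lit 11210970907) (nat_lit 231) (nat_lit 5) (nat_lit 237) (nat_lit 5) (nat_lit 238) (nat_lit 5) (nat_lit 612) (nat_lit 542) (nat_lit 406)) (XT.nd (nat_lit 78) (nat_lit 532) (nat_lit 0) (XT.lf (nat_lit 0) (nat_lit 5972863923) (nat_lit 532) (nat_lit 5105952982) (nat_lit 76) (nat_lit 3018412217) (nat_lit 231) (nat_lit 5) (nat_lit 238) (nat_lit 5) (nat_lit 232) (nat_lit 5) (nat_lit 613) (nat_lit 542) (nat_lit 405)) (XT.lf (nat_lit 0) (nat_lit 3684798470) (nat_lit 532) (nat_lit 5624658292) (nat_lit 608) (nat_lit 4949371515) (nat_lit 224) (nat_lit 5) (nat_lit 231) (nat_lit 5) (nat_lit 232) (nat_lit 5) (nat_lit 614) (nat_lit 542) (nat_lit 404))))) (XT.nd (nat_lit 234) (nat_lit 1216) (nat_lit 0) (XT.nd (nat_lit 78) (nat_lit 0) (nat_lit 0) (XT.lf (nat_lit 0) (nat_lit 2223755700) (nat_lit 1292)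 (nat_lit 750162456) (nat_lit 1292) (nat_lit 750162456) (nat_lit 639) (nat_lit 3) (nat_lit 656) (nat_lit 3) (nat_lit 656) (nat_lit 5) (nat_lit 543) (nat_lit 543) (nat_lit 474)) (XT.nd (nat_lit 78) (nat_lit 0) (nat_lit 0) (XT.lf (nat_lit 76) (nat_lit 2227273494) (nat_lit 0) (nat_lit 3760424921) (nat_lit 1292) (nat_lit 1504916193) (nat_lit 640) (nat_lit 5) (nat_lit 639) (nat_lit 3) (nat_lit 656) (nat_lit 5) (nat_lit 544) (nat_lit 543) (nat_lit 473)) (XT.lf (nat_lit 76) (nat_lit 6029680908) (nat_lit 0) (nat_lit 1500092112) (nat_lit 1292) (nat_lit 8765351) (nat_lit 640) (nat_lit 5) (nat_lit 639) (nat_lit 3) (nat_lit 656) (nat_lit 5) (nat_lit 545) (nat_lit 543) (nat_lit 472)))) (XT.nd (nat_lit 78) (nat_lit 0) (nat_lit 0) (XT.lf (nat_lit 0) (nat_lit 1479529865) (nat_lit 1292) (nat_lit 5267994996) (nat_lit 1368) (nat_lit 838019171) (nat_lit 623) (nat_lit 5) (nat_lit 640) (nat_lit 5) (nat_lit 641) (nat_lit 5) (nat_lit 546) (nat_lit 543) (nat_lit 471)) (XT.nd (nat_lit 78) (nat_lit 0) (nat_lit 0) (XT.lf (nat_lit 0)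 (nat_lit 2979864263) (nat_lit 1292) (nat_lit 1423353304) (nat_lit 1368) (nat_lit 3230626085) (nat_lit 623) (nat_lit 5) (nat_lit 640) (nat_lit 5) (nat_lit 641) (nat_lit 5) (nat_lit 547) (nat_lit 543) (nat_lit 470)) (XT.lf (nat_lit 76) (nat_lit 2510575377) (nat_lit 0) (nat_lit 1978934083) (nat_lit 1368) (nat_lit 3194016485) (nat_lit 624) (nat_lit 5) (nat_lit 623) (nat_lit 5) (nat_lit 641) (nat_lit 5) (nat_lit 548) (nat_lit 543) (nat_lit 469))))))))
noncomputable def xc114 : XT := (XT.nd (nat_lit 1560) (nat_lit 12540) (nat_lit 0) (XT.nd (nat_lit 780) (nat_lit 4408) (nat_lit 0) (XT.nd (nat_lit 390) (nat_lit 1292) (nat_lit 0) (XT.nd (nat_lit 156) (nat_lit 1368) (nat_lit 0) (XT.nd (nat_lit 78) (nat_lit 0) (nat_lit 0) (XT.lf (nat_lit 0) (nat_lit 6005869266) (nat_lit 1292) (nat_lit 1216035956) (nat_lit 1368) (nat_lit 512768936) (nat_lit 624) (nat_lit 5) (nat_lit 641) (nat_lit 5) (nat_lit 642) (nat_lit 5) (nat_lit 549) (nat_lit 543) (nat_lit 468)) (XT.lf (nat_lit 76) (nat_lit 2823121382) (nat_lit 0) (nat_lit 4725282430)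 (nat_lit 1368) (nat_lit 238527228) (nat_lit 625) (nat_lit 5) (nat_lit 624) (nat_lit 5) (nat_lit 642) (nat_lit 5) (nat_lit 550) (nat_lit 543) (nat_lit 467))) (XT.nd (nat_lit 78) (nat_lit 0) (nat_lit 76) (XT.lf (nat_lit 0) (nat_lit 1237703899) (nat_lit 1368) (nat_lit 910049011) (nat_lit 1444) (nat_lit 5692857172) (nat_lit 606) (nat_lit 5) (nat_lit 624) (nat_lit 5) (nat_lit 625) (nat_lit 5) (nat_lit 551) (nat_lit 543) (nat_lit 466)) (XT.nd (nat_lit 78) (nat_lit 0) (nat_lit 0) (XT.lf (nat_lit 0) (nat_lit 2730135349) (nat_lit 1368) (nat_lit 4653937363) (nat_lit 1444) (nat_lit 511463569) (nat_lit 607) (nat_lit 5) (nat_lit 625) (nat_lit 5) (nat_lit 626) (nat_lit 5) (nat_lit 552) (nat_lit 543) (nat_lit 465)) (XT.lf (nat_lit 0) (nat_lit 4238850322) (nat_lit 1368) (nat_lit 498455992) (nat_lit 1444) (nat_lit 3214528447) (nat_lit 607) (nat_lit 5) (nat_lit 625) (nat_lit 5) (nat_lit 626) (nat_lit 5) (nat_lit 553) (nat_lit 543) (nat_lit 464))))) (XT.nd (nat_lit 156) (nat_lit 1368) (nat_lit 0) (XT.nd (nat_lit 78) (nat_lit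 0) (nat_lit 76) (XT.lf (nat_lit 76) (nat_lit 3768611103) (nat_lit 0) (nat_lit 2000326238) (nat_lit 1444) (nat_lit 2240500317) (nat_lit 608) (nat_lit 5) (nat_lit 607) (nat_lit 5) (nat_lit 626) (nat_lit 5) (nat_lit 554) (nat_lit 543) (nat_lit 463)) (XT.lf (nat_lit 76) (nat_lit 33380876) (nat_lit 0) (nat_lit 7272291456) (nat_lit 1444) (nat_lit 763001716) (nat_lit 609) (nat_lit 5) (nat_lit 608) (nat_lit 5) (nat_lit 627) (nat_lit 5) (nat_lit 555) (nat_lit 543) (nat_lit 462))) (XT.nd (nat_lit 78) (nat_lit 0) (nat_lit 0) (XT.lf (nat_lit 0) (nat_lit 743792949) (nat_lit 1444) (nat_lit 3718072519) (nat_lit 1520) (nat_lit 3666945259) (nat_lit 589) (nat_lit 5) (nat_lit 608) (nat_lit 5) (nat_lit 609) (nat_lit 5) (nat_lit 556) (nat_lit 543) (nat_lit 461)) (XT.nd (nat_lit 78) (nat_lit 0) (nat_lit 76) (XT.lf (nat_lit 76) (nat_lit 667787920) (nat_lit 0) (nat_lit 1575309918) (nat_lit 1520) (nat_lit 5947501834) (nat_lit 590) (nat_lit 5) (nat_lit 589) (nat_lit 5) (nat_lit 609) (nat_lit 5) (nat_lit 557) (nat_lit 543) (nat_lit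 460)) (XT.lf (nat_lit 0) (nat_lit 3775187714) (nat_lit 1444) (nat_lit 3092375358) (nat_lit 1520) (nat_lit 1386007526) (nat_lit 590) (nat_lit 5) (nat_lit 609) (nat_lit 5) (nat_lit 610) (nat_lit 5) (nat_lit 558) (nat_lit 543) (nat_lit 459)))))) (XT.nd (nat_lit 390) (nat_lit 3040) (nat_lit 0) (XT.nd (nat_lit 156) (nat_lit 1444) (nat_lit 0) (XT.nd (nat_lit 78) (nat_lit 0) (nat_lit 0) (XT.lf (nat_lit 76) (nat_lit 1413241332) (nat_lit 0) (nat_lit 3913693256) (nat_lit 1520) (nat_lit 2991088185) (nat_lit 591) (nat_lit 5) (nat_lit 590) (nat_lit 5) (nat_lit 610) (nat_lit 5) (nat_lit 559) (nat_lit 543) (nat_lit 458)) (XT.lf (nat_lit 76) (nat_lit 6029499139) (nat_lit 0) (nat_lit 870836704) (nat_lit 1520) (nat_lit 1483617853) (nat_lit 591) (nat_lit 5) (nat_lit 590) (nat_lit 5) (nat_lit 610) (nat_lit 5) (nat_lit 560) (nat_lit 543) (nat_lit 457))) (XT.nd (nat_lit 78) (nat_lit 0) (nat_lit 0) (XT.lf (nat_lit 0) (nat_lit 53109841) (nat_lit 1520) (nat_lit 6170883620) (nat_lit 1596) (nat_lit 2227208454) (nat_lit 571) (nat_lit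 5) (nat_lit 591) (nat_lit 5) (nat_lit 592) (nat_lit 5) (nat_lit 561) (nat_lit 543) (nat_lit 456)) (XT.nd (nat_lit 78) (nat_lit 0) (nat_lit 76) (XT.lf (nat_lit 0) (nat_lit 1593155224) (nat_lit 1520) (nat_lit 1517340954) (nat_lit 1596) (nat_lit 5409255782) (nat_lit 571) (nat_lit 5) (nat_lit 591) (nat_lit 5) (nat_lit 592) (nat_lit 5) (nat_lit 562) (nat_lit 543) (nat_lit 455)) (XT.lf (nat_lit 0) (nat_lit 3157048347) (nat_lit 1520) (nat_lit 5339971603) (nat_lit 1596) (nat_lit 92794054) (nat_lit 572) (nat_lit 5) (nat_lit 592) (nat_lit 5) (nat_lit 593) (nat_lit 5) (nat_lit 563) (nat_lit 543) (nat_lit 454))))) (XT.nd (nat_lit 156) (nat_lit 3116) (nat_lit 0) (XT.nd (nat_lit 78) (nat_lit 0) (nat_lit 0) (XT.lf (nat_lit 0) (nat_lit 4754869349) (nat_lit 1520) (nat_lit 570711752) (nat_lit 1596) (nat_lit 3335645082) (nat_lit 572) (nat_lit 5) (nat_lit 592) (nat_lit 5) (nat_lit 593) (nat_lit 5) (nat_lit 564) (nat_lit 543) (nat_lit 453)) (XT.lf (nat_lit 76) (nat_lit 4329232801) (nat_lit 0) (nat_lit 2055876257) (nat_lit 1596)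 (nat_lit 2348950162) (nat_lit 573) (nat_lit 5) (nat_lit 572) (nat_lit 5) (nat_lit 593) (nat_lit 5) (nat_lit 565) (nat_lit 543) (nat_lit 452))) (XT.nd (nat_lit 78) (nat_lit 1672) (nat_lit 0) (XT.lf (nat_lit 0) (nat_lit 502983000) (nat_lit 1520) (nat_lit 7533192873) (nat_lit 1596) (nat_lit 772410422) (nat_lit 553) (nat_lit 5) (nat_lit 573) (nat_lit 5) (nat_lit 574) (nat_lit 5) (nat_lit 566) (nat_lit 543) (nat_lit 451)) (XT.nd (nat_lit 78) (nat_lit 1596) (nat_lit 0) (XT.lf (nat_lit 0) (nat_lit 841078407) (nat_lit 1596) (nat_lit 3356731115) (nat_lit 76) (nat_lit 4686360065) (nat_lit 552) (nat_lit 5) (nat_lit 573) (nat_lit 5) (nat_lit 553) (nat_lit 5) (nat_lit 567) (nat_lit 543) (nat_lit 450)) (XT.lf (nat_lit 0) (nat_lit 1686415873) (nat_lit 1596) (nat_lit 774575401) (nat_lit 1672) (nat_lit 6500482937) (nat_lit 531) (nat_lit 5) (nat_lit 552) (nat_lit 5) (nat_lit 553) (nat_lit 5) (nat_lit 568) (nat_lit 543) (nat_lit 449))))))) (XT.nd (nat_lit 780) (nat_lit 5168) (nat_lit 0) (XT.nd (nat_lit 390) (nat_lit 2052)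 (nat_lit 0) (XT.nd (nat_lit 156) (nat_lit 3648) (nat_lit 0) (XT.nd (nat_lit 78) (nat_lit 1672) (nat_lit 0) (XT.lf (nat_lit 0) (nat_lit 4127564439) (nat_lit 1672) (nat_lit 2203852678) (nat_lit 76) (nat_lit 2708624256) (nat_lit 531) (nat_lit 5) (nat_lit 553) (nat_lit 5) (nat_lit 532) (nat_lit 5) (nat_lit 569) (nat_lit 543) (nat_lit 448)) (XT.lf (nat_lit 0) (nat_lit 2981063375) (nat_lit 1672) (nat_lit 2845347294) (nat_lit 1748) (nat_lit 3293792027) (nat_lit 509) (nat_lit 5) (nat_lit 531) (nat_lit 5) (nat_lit 532) (nat_lit 5) (nat_lit 570) (nat_lit 543) (nat_lit 447))) (XT.nd (nat_lit 78) (nat_lit 3648) (nat_lit 0) (XT.lf (nat_lit 0) (nat_lit 7553575031) (nat_lit 1748) (nat_lit 928898066) (nat_lit 76) (nat_lit 719608942) (nat_lit 509) (nat_lit 5) (nat_lit 532) (nat_lit 5) (nat_lit 510) (nat_lit 5) (nat_lit 571) (nat_lit 543) (nat_lit 446)) (XT.nd (nat_lit 78) (nat_lit 1824) (nat_lit 0) (XT.lf (nat_lit 0) (nat_lit 52207822) (nat_lit 1824) (nat_lit 4882675242) (nat_lit 76) (nat_lit 4350255338) (nat_lit 485) (nat_lit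 5) (nat_lit 509) (nat_lit 5) (nat_lit 486) (nat_lit 5) (nat_lit 572) (nat_lit 543) (nat_lit 445)) (XT.lf (nat_lit 0) (nat_lit 456521248) (nat_lit 1824) (nat_lit 1293117910) (nat_lit 1900) (nat_lit 7620304812) (nat_lit 461) (nat_lit 5) (nat_lit 485) (nat_lit 5) (nat_lit 486) (nat_lit 5) (nat_lit 573) (nat_lit 543) (nat_lit 444))))) (XT.nd (nat_lit 156) (nat_lit 988) (nat_lit 0) (XT.nd (nat_lit 78) (nat_lit 1064) (nat_lit 0) (XT.lf (nat_lit 0) (nat_lit 3505595035) (nat_lit 1900) (nat_lit 3525217853) (nat_lit 76) (nat_lit 2425142739) (nat_lit 461) (nat_lit 5) (nat_lit 486) (nat_lit 5) (nat_lit 462) (nat_lit 5) (nat_lit 574) (nat_lit 543) (nat_lit 443)) (XT.lf (nat_lit 0) (nat_lit 1966233485) (nat_lit 1064) (nat_lit 3328111166) (nat_lit 1140) (nat_lit 4249390839) (nat_lit 447) (nat_lit 5) (nat_lit 461) (nat_lit 5) (nat_lit 462) (nat_lit 5) (nat_lit 575) (nat_lit 543) (nat_lit 442))) (XT.nd (nat_lit 78) (nat_lit 988) (nat_lit 0) (XT.lf (nat_lit 0) (nat_lit 7122274572) (nat_lit 1140) (nat_lit 2042646008) (nat_lit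 76) (nat_lit 468283701) (nat_lit 447) (nat_lit 5) (nat_lit 462) (nat_lit 5) (nat_lit 448) (nat_lit 5) (nat_lit 576) (nat_lit 543) (nat_lit 441)) (XT.nd (nat_lit 78) (nat_lit 76) (nat_lit 0) (XT.lf (nat_lit 0) (nat_lit 3606521995) (nat_lit 912) (nat_lit 5402834446) (nat_lit 988) (nat_lit 714655549) (nat_lit 435) (nat_lit 5) (nat_lit 447) (nat_lit 5) (nat_lit 448) (nat_lit 5) (nat_lit 577) (nat_lit 543) (nat_lit 440)) (XT.lf (nat_lit 0) (nat_lit 1093980211) (nat_lit 988) (nat_lit 449151879) (nat_lit 76) (nat_lit 8273538142) (nat_lit 434) (nat_lit 5) (nat_lit 447) (nat_lit 5) (nat_lit 435) (nat_lit 5) (nat_lit 578) (nat_lit 543) (nat_lit 439)))))) (XT.nd (nat_lit 390) (nat_lit 2508) (nat_lit 0) (XT.nd (nat_lit 156) (nat_lit 912) (nat_lit 0) (XT.nd (nat_lit 78) (nat_lit 836) (nat_lit 0) (XT.lf (nat_lit 0) (nat_lit 2957689471) (nat_lit 988) (nat_lit 4549683422) (nat_lit 76) (nat_lit 2403146196) (nat_lit 422) (nat_lit 5) (nat_lit 435) (nat_lit 5) (nat_lit 423) (nat_lit 5) (nat_lit 579) (nat_lit 543) (nat_lit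 438)) (XT.lf (nat_lit 0) (nat_lit 1271683124) (nat_lit 836) (nat_lit 3586543209) (nat_lit 912) (nat_lit 5148028823) (nat_lit 411) (nat_lit 5) (nat_lit 422) (nat_lit 5) (nat_lit 423) (nat_lit 5) (nat_lit 580) (nat_lit 543) (nat_lit 437))) (XT.nd (nat_lit 78) (nat_lit 912) (nat_lit 0) (XT.lf (nat_lit 0) (nat_lit 6808521310) (nat_lit 912) (nat_lit 2857003214) (nat_lit 76) (nat_lit 438147749) (nat_lit 411) (nat_lit 5) (nat_lit 423) (nat_lit 5) (nat_lit 412) (nat_lit 5) (nat_lit 581) (nat_lit 543) (nat_lit 436)) (XT.nd (nat_lit 78) (nat_lit 76) (nat_lit 0) (XT.lf (nat_lit 0) (nat_lit 3133922574) (nat_lit 836) (nat_lit 5686758734) (nat_lit 912) (nat_lit 1381900492) (nat_lit 400) (nat_lit 5) (nat_lit 411) (nat_lit 5) (nat_lit 412) (nat_lit 5) (nat_lit 582) (nat_lit 543) (nat_lit 435)) (XT.lf (nat_lit 0) (nat_lit 560340505) (nat_lit 912) (nat_lit 1045201385) (nat_lit 76) (nat_lit 8697890943) (nat_lit 399) (nat_lit 5) (nat_lit 411) (nat_lit 5) (nat_lit 400) (nat_lit 5) (nat_lit 583) (nat_lit 543) (nat_lit 434)))))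 (XT.nd (nat_lit 156) (nat_lit 836) (nat_lit 0) (XT.nd (nat_lit 78) (nat_lit 836) (nat_lit 0) (XT.lf (nat_lit 0) (nat_lit 2552476500) (nat_lit 912) (nat_lit 5287077299) (nat_lit 76) (nat_lit 2565974503) (nat_lit 388) (nat_lit 5) (nat_lit 400) (nat_lit 5) (nat_lit 389) (nat_lit 5) (nat_lit 584) (nat_lit 543) (nat_lit 433)) (XT.lf (nat_lit 0) (nat_lit 889481232) (nat_lit 836) (nat_lit 3698017062) (nat_lit 912) (nat_lit 5922107679) (nat_lit 377) (nat_lit 5) (nat_lit 388) (nat_lit 5) (nat_lit 389) (nat_lit 5) (nat_lit 585) (nat_lit 543) (nat_lit 432))) (XT.nd (nat_lit 78) (nat_lit 836) (nat_lit 0) (XT.lf (nat_lit 0) (nat_lit 6682180668) (nat_lit 912) (nat_lit 3379248525) (nat_lit 76) (nat_lit 553957936) (nat_lit 377) (nat_lit 5) (nat_lit 389) (nat_lit 5) (nat_lit 378) (nat_lit 5) (nat_lit 586) (nat_lit 543) (nat_lit 431)) (XT.nd (nat_lit 78) (nat_lit 76) (nat_lit 0) (XT.lf (nat_lit 0) (nat_lit 2979681953) (nat_lit 760) (nat_lit 5863135196) (nat_lit 836) (nat_lit 1879986660) (nat_lit 367) (nat_lit 5) (nat_lit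 377) (nat_lit 5) (nat_lit 378) (nat_lit 5) (nat_lit 587) (nat_lit 543) (nat_lit 430)) (XT.lf (nat_lit 0) (nat_lit 214657563) (nat_lit 836) (nat_lit 1343333145) (nat_lit 76) (nat_lit 9274287943) (nat_lit 366) (nat_lit 5) (nat_lit 377) (nat_lit 5) (nat_lit 367) (nat_lit 5) (nat_lit 588) (nat_lit 543) (nat_lit 429))))))))
noncomputable def xc115 : XT := (XT.nd (nat_lit 1560) (nat_lit 1596) (nat_lit 0) (XT.nd (nat_lit 780) (nat_lit 4332) (nat_lit 0) (XT.nd (nat_lit 390) (nat_lit 2052) (nat_lit 0) (XT.nd (nat_lit 156) (nat_lit 836) (nat_lit 0) (XT.nd (nat_lit 78) (nat_lit 684) (nat_lit 0) (XT.lf (nat_lit 0) (nat_lit 2359352963) (nat_lit 836) (nat_lit 5742691792) (nat_lit 76) (nat_lit 2840984122) (nat_lit 356) (nat_lit 5) (nat_lit 367) (nat_lit 5) (nat_lit 357) (nat_lit 5) (nat_lit 589) (nat_lit 543) (nat_lit 428)) (XT.lf (nat_lit 0) (nat_lit 816321064) (nat_lit 684) (nat_lit 3736272398) (nat_lit 760) (nat_lit 6503288648) (nat_lit 347) (nat_lit 5) (nat_lit 356) (nat_lit 5) (nat_lit 357) (nat_lit 5) (nat_lit 590)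 (nat_lit 543) (nat_lit 427))) (XT.nd (nat_lit 78) (nat_lit 836) (nat_lit 0) (XT.lf (nat_lit 0) (nat_lit 6814324496) (nat_lit 760) (nat_lit 3612278695) (nat_lit 76) (nat_lit 743897708) (nat_lit 347) (nat_lit 5) (nat_lit 357) (nat_lit 5) (nat_lit 348) (nat_lit 5) (nat_lit 591) (nat_lit 543) (nat_lit 426)) (XT.nd (nat_lit 78) (nat_lit 76) (nat_lit 0) (XT.lf (nat_lit 0) (nat_lit 3142942061) (nat_lit 760) (nat_lit 6005046688) (nat_lit 836) (nat_lit 2138890329) (nat_lit 337) (nat_lit 5) (nat_lit 347) (nat_lit 5) (nat_lit 348) (nat_lit 5) (nat_lit 592) (nat_lit 543) (nat_lit 425)) (XT.lf (nat_lit 0) (nat_lit 127185665) (nat_lit 836) (nat_lit 1345014867) (nat_lit 76) (nat_lit 9933248219) (nat_lit 336) (nat_lit 5) (nat_lit 347) (nat_lit 5) (nat_lit 337) (nat_lit 5) (nat_lit 593) (nat_lit 543) (nat_lit 424))))) (XT.nd (nat_lit 156) (nat_lit 684) (nat_lit 0) (XT.nd (nat_lit 78) (nat_lit 684) (nat_lit 0) (XT.lf (nat_lit 0) (nat_lit 2449306883) (nat_lit 760) (nat_lit 5917745690) (nat_lit 76) (nat_lit 3158268144) (nat_lit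 327) (nat_lit 5) (nat_lit 337) (nat_lit 5) (nat_lit 328) (nat_lit 5) (nat_lit 594) (nat_lit 543) (nat_lit 423)) (XT.lf (nat_lit 0) (nat_lit 1053065332) (nat_lit 684) (nat_lit 3772690553) (nat_lit 760) (nat_lit 6821677442) (nat_lit 318) (nat_lit 5) (nat_lit 327) (nat_lit 5) (nat_lit 328) (nat_lit 5) (nat_lit 595) (nat_lit 543) (nat_lit 422))) (XT.nd (nat_lit 78) (nat_lit 684) (nat_lit 0) (XT.lf (nat_lit 0) (nat_lit 7278044714) (nat_lit 760) (nat_lit 3555047890) (nat_lit 76) (nat_lit 938330261) (nat_lit 318) (nat_lit 5) (nat_lit 328) (nat_lit 5) (nat_lit 319) (nat_lit 5) (nat_lit 596) (nat_lit 543) (nat_lit 421)) (XT.nd (nat_lit 78) (nat_lit 76) (nat_lit 0) (XT.lf (nat_lit 0) (nat_lit 3626887582) (nat_lit 608) (nat_lit 6183774837) (nat_lit 684) (nat_lit 2086604989) (nat_lit 310) (nat_lit 5) (nat_lit 318) (nat_lit 5) (nat_lit 319) (nat_lit 5) (nat_lit 597) (nat_lit 543) (nat_lit 420)) (XT.lf (nat_lit 0) (nat_lit 370328375) (nat_lit 684) (nat_lit 1047895554) (nat_lit 76) (nat_lit 10607220827) (nat_lit 309)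 (nat_lit 5) (nat_lit 318) (nat_lit 5) (nat_lit 310) (nat_lit 5) (nat_lit 598) (nat_lit 543) (nat_lit 419)))))) (XT.nd (nat_lit 390) (nat_lit 2356) (nat_lit 0) (XT.nd (nat_lit 156) (nat_lit 684) (nat_lit 0) (XT.nd (nat_lit 78) (nat_lit 608) (nat_lit 0) (XT.lf (nat_lit 0) (nat_lit 2895705224) (nat_lit 760) (nat_lit 5809809300) (nat_lit 76) (nat_lit 3449451214) (nat_lit 300) (nat_lit 5) (nat_lit 310) (nat_lit 5) (nat_lit 301) (nat_lit 5) (nat_lit 599) (nat_lit 543) (nat_lit 418)) (XT.lf (nat_lit 0) (nat_lit 1604327560) (nat_lit 608) (nat_lit 3877500606) (nat_lit 684) (nat_lit 6805045013) (nat_lit 292) (nat_lit 5) (nat_lit 300) (nat_lit 5) (nat_lit 301) (nat_lit 5) (nat_lit 600) (nat_lit 543) (nat_lit 417))) (XT.nd (nat_lit 78) (nat_lit 684) (nat_lit 0) (XT.lf (nat_lit 0) (nat_lit 8149235802) (nat_lit 684) (nat_lit 3202975215) (nat_lit 76) (nat_lit 1068617298) (nat_lit 292) (nat_lit 5) (nat_lit 301) (nat_lit 5) (nat_lit 293) (nat_lit 5) (nat_lit 601) (nat_lit 543) (nat_lit 416)) (XT.nd (nat_lit 78) (nat_lit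 76) (nat_lit 0) (XT.lf (nat_lit 0) (nat_lit 4438344578) (nat_lit 608) (nat_lit 6469984529) (nat_lit 684) (nat_lit 1648367475) (nat_lit 284) (nat_lit 5) (nat_lit 292) (nat_lit 5) (nat_lit 293) (nat_lit 5) (nat_lit 602) (nat_lit 543) (nat_lit 415)) (XT.lf (nat_lit 0) (nat_lit 1019405457) (nat_lit 684) (nat_lit 446210092) (nat_lit 76) (nat_lit 11229422875) (nat_lit 283) (nat_lit 5) (nat_lit 292) (nat_lit 5) (nat_lit 284) (nat_lit 5) (nat_lit 603) (nat_lit 543) (nat_lit 414))))) (XT.nd (nat_lit 156) (nat_lit 1140) (nat_lit 0) (XT.nd (nat_lit 78) (nat_lit 608) (nat_lit 0) (XT.lf (nat_lit 0) (nat_lit 3775054193) (nat_lit 684) (nat_lit 5413205750) (nat_lit 76) (nat_lit 3646538138) (nat_lit 275) (nat_lit 5) (nat_lit 284) (nat_lit 5) (nat_lit 276) (nat_lit 5) (nat_lit 604) (nat_lit 543) (nat_lit 413)) (XT.lf (nat_lit 0) (nat_lit 2478076207) (nat_lit 608) (nat_lit 4120937006) (nat_lit 684) (nat_lit 6378076492) (nat_lit 267) (nat_lit 5) (nat_lit 275) (nat_lit 5) (nat_lit 276) (nat_lit 5) (nat_lit 605) (nat_lit 543)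 (nat_lit 412))) (XT.nd (nat_lit 78) (nat_lit 1140) (nat_lit 0) (XT.lf (nat_lit 0) (nat_lit 9507353517) (nat_lit 684) (nat_lit 2548333539) (nat_lit 76) (nat_lit 1065982765) (nat_lit 267) (nat_lit 5) (nat_lit 276) (nat_lit 5) (nat_lit 268) (nat_lit 5) (nat_lit 606) (nat_lit 543) (nat_lit 411)) (XT.nd (nat_lit 78) (nat_lit 608) (nat_lit 0) (XT.lf (nat_lit 0) (nat_lit 5587396816) (nat_lit 532) (nat_lit 6934868640) (nat_lit 608) (nat_lit 745908679) (nat_lit 260) (nat_lit 5) (nat_lit 267) (nat_lit 5) (nat_lit 268) (nat_lit 5) (nat_lit 607) (nat_lit 543) (nat_lit 410)) (XT.lf (nat_lit 0) (nat_lit 475060761) (nat_lit 532) (nat_lit 1681420736) (nat_lit 608) (nat_lit 11260740565) (nat_lit 252) (nat_lit 5) (nat_lit 259) (nat_lit 5) (nat_lit 260) (nat_lit 5) (nat_lit 608) (nat_lit 543) (nat_lit 409))))))) (XT.nd (nat_lit 76440) (nat_lit 0) (nat_lit 27132) (XT.nd (nat_lit 390) (nat_lit 0) (nat_lit 0) (XT.nd (nat_lit 156) (nat_lit 1064) (nat_lit 0) (XT.nd (nat_lit 78) (nat_lit 532) (nat_lit 0) (XT.lf (nat_lit 0) (nat_lit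 5167738680) (nat_lit 608) (nat_lit 4719402027) (nat_lit 76) (nat_lit 3680796143) (nat_lit 252) (nat_lit 5) (nat_lit 260) (nat_lit 5) (nat_lit 253) (nat_lit 5) (nat_lit 609) (nat_lit 543) (nat_lit 408)) (XT.lf (nat_lit 0) (nat_lit 3685247919) (nat_lit 532) (nat_lit 4574368771) (nat_lit 608) (nat_lit 5461641968) (nat_lit 245) (nat_lit 5) (nat_lit 252) (nat_lit 5) (nat_lit 253) (nat_lit 5) (nat_lit 610) (nat_lit 543) (nat_lit 407))) (XT.nd (nat_lit 78) (nat_lit 1064) (nat_lit 0) (XT.lf (nat_lit 0) (nat_lit 11436155961) (nat_lit 608) (nat_lit 1580633156) (nat_lit 76) (nat_lit 860401937) (nat_lit 245) (nat_lit 5) (nat_lit 253) (nat_lit 5) (nat_lit 246) (nat_lit 5) (nat_lit 611) (nat_lit 543) (nat_lit 406)) (XT.nd (nat_lit 78) (nat_lit 456) (nat_lit 0) (XT.lf (nat_lit 0) (nat_lit 694053438) (nat_lit 608) (nat_lit 6952561735) (nat_lit 76) (nat_lit 6388295161) (nat_lit 237) (nat_lit 5) (nat_lit 245) (nat_lit 5) (nat_lit 238) (nat_lit 5) (nat_lit 612) (nat_lit 543) (nat_lit 405)) (XT.lf (nat_lit 0) (nat_lit 1731354624)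 (nat_lit 456) (nat_lit 2135557499) (nat_lit 532) (nat_lit 10328394685) (nat_lit 231) (nat_lit 5) (nat_lit 237) (nat_lit 5) (nat_lit 238) (nat_lit 5) (nat_lit 613) (nat_lit 543) (nat_lit 404))))) (XT.nd (nat_lit 75816) (nat_lit 0) (nat_lit 29716) (XT.nd (nat_lit 75738) (nat_lit 0) (nat_lit 31008) (XT.lf (nat_lit 0) (nat_lit 7158746165) (nat_lit 532) (nat_lit 3717403727) (nat_lit 76) (nat_lit 3481651534) (nat_lit 231) (nat_lit 5) (nat_lit 238) (nat_lit 5) (nat_lit 232) (nat_lit 5) (nat_lit 614) (nat_lit 543) (nat_lit 403)) (XT.lf (nat_lit 0) (nat_lit 3739864514) (nat_lit 1292) (nat_lit 14575892) (nat_lit 1292) (nat_lit 14575892) (nat_lit 639) (nat_lit 3) (nat_lit 656) (nat_lit 3) (nat_lit 656) (nat_lit 5) (nat_lit 544) (nat_lit 544) (nat_lit 472))) (XT.nd (nat_lit 78) (nat_lit 0) (nat_lit 0) (XT.lf (nat_lit 0) (nat_lit 1399749197) (nat_lit 1292) (nat_lit 3830426529) (nat_lit 1368) (nat_lit 2353980158) (nat_lit 622) (nat_lit 5) (nat_lit 639) (nat_lit 3) (nat_lit 640) (nat_lit 5) (nat_lit 545) (nat_lit 544)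 (nat_lit 471)) (XT.nd (nat_lit 78) (nat_lit 0) (nat_lit 0) (XT.lf (nat_lit 0) (nat_lit 2848658682) (nat_lit 1292) (nat_lit 38726489) (nat_lit 1368) (nat_lit 4744562046) (nat_lit 622) (nat_lit 5) (nat_lit 639) (nat_lit 3) (nat_lit 640) (nat_lit 5) (nat_lit 546) (nat_lit 544) (nat_lit 470)) (XT.lf (nat_lit 76) (nat_lit 3860016047) (nat_lit 0) (nat_lit 454610423) (nat_lit 1368) (nat_lit 3366309067) (nat_lit 623) (nat_lit 5) (nat_lit 622) (nat_lit 5) (nat_lit 640) (nat_lit 5) (nat_lit 547) (nat_lit 544) (nat_lit 469)))))) (XT.nd (nat_lit 390) (nat_lit 1292) (nat_lit 0) (XT.nd (nat_lit 156) (nat_lit 1368) (nat_lit 0) (XT.nd (nat_lit 78) (nat_lit 0) (nat_lit 0) (XT.lf (nat_lit 76) (nat_lit 74039929) (nat_lit 0) (nat_lit 5713504664) (nat_lit 1368) (nat_lit 1943809119) (nat_lit 624) (nat_lit 5) (nat_lit 623) (nat_lit 5) (nat_lit 641) (nat_lit 5) (nat_lit 548) (nat_lit 544) (nat_lit 468)) (XT.lf (nat_lit 76) (nat_lit 4075643971) (nat_lit 0) (nat_lit 3207218909) (nat_lit 1368) (nat_lit 500061190) (nat_lit 624) (nat_lit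 5) (nat_lit 623) (nat_lit 5) (nat_lit 641) (nat_lit 5) (nat_lit 549) (nat_lit 544) (nat_lit 467))) (XT.nd (nat_lit 78) (nat_lit 0) (nat_lit 76) (XT.lf (nat_lit 76) (nat_lit 299288959) (nat_lit 0) (nat_lit 627236665) (nat_lit 1444) (nat_lit 6909542087) (nat_lit 606) (nat_lit 5) (nat_lit 605) (nat_lit 5) (nat_lit 624) (nat_lit 5) (nat_lit 550) (nat_lit 544) (nat_lit 466)) (XT.nd (nat_lit 78) (nat_lit 0) (nat_lit 0) (XT.lf (nat_lit 0) (nat_lit 2378443517) (nat_lit 1368) (nat_lit 3490759324) (nat_lit 1444) (nat_lit 2020937875) (nat_lit 606) (nat_lit 5) (nat_lit 624) (nat_lit 5) (nat_lit 625) (nat_lit 5) (nat_lit 551) (nat_lit 544) (nat_lit 465)) (XT.lf (nat_lit 76) (nat_lit 619827069) (nat_lit 0) (nat_lit 3213861506) (nat_lit 1444) (nat_lit 4112123283) (nat_lit 607) (nat_lit 5) (nat_lit 606) (nat_lit 5) (nat_lit 625) (nat_lit 5) (nat_lit 552) (nat_lit 544) (nat_lit 464))))) (XT.nd (nat_lit 234) (nat_lit 0) (nat_lit 0) (XT.nd (nat_lit 78) (nat_lit 1368) (nat_lit 0) (XT.lf (nat_lit 76) (nat_lit 4839748413) (nat_lit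 0) (nat_lit 468358930) (nat_lit 1444) (nat_lit 2694690109) (nat_lit 607) (nat_lit 5) (nat_lit 606) (nat_lit 5) (nat_lit 625) (nat_lit 5) (nat_lit 553) (nat_lit 544) (nat_lit 463)) (XT.nd (nat_lit 78) (nat_lit 1444) (nat_lit 0) (XT.lf (nat_lit 76) (nat_lit 1061385311) (nat_lit 0) (nat_lit 5740043421) (nat_lit 1444) (nat_lit 1259708098) (nat_lit 608) (nat_lit 5) (nat_lit 607) (nat_lit 5) (nat_lit 626) (nat_lit 5) (nat_lit 554) (nat_lit 544) (nat_lit 462)) (XT.lf (nat_lit 0) (nat_lit 193440357) (nat_lit 1444) (nat_lit 2732436653) (nat_lit 1520) (nat_lit 5194898926) (nat_lit 588) (nat_lit 5) (nat_lit 607) (nat_lit 5) (nat_lit 608) (nat_lit 5) (nat_lit 555) (nat_lit 544) (nat_lit 461)))) (XT.nd (nat_lit 78) (nat_lit 0) (nat_lit 76) (XT.lf (nat_lit 76) (nat_lit 1612604346) (nat_lit 0) (nat_lit 24973602) (nat_lit 1520) (nat_lit 6544289692) (nat_lit 589) (nat_lit 5) (nat_lit 588) (nat_lit 5) (nat_lit 608) (nat_lit 5) (nat_lit 556) (nat_lit 544) (nat_lit 460)) (XT.nd (nat_lit 78) (nat_lit 0) (nat_lit 0) (XT.lf (nat_lit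 0) (nat_lit 3116973231) (nat_lit 1444) (nat_lit 2202389953) (nat_lit 1520) (nat_lit 2924692672) (nat_lit 589) (nat_lit 5) (nat_lit 608) (nat_lit 5) (nat_lit 609) (nat_lit 5) (nat_lit 557) (nat_lit 544) (nat_lit 459)) (XT.lf (nat_lit 76) (nat_lit 2260726879) (nat_lit 0) (nat_lit 2349551778) (nat_lit 1520) (nat_lit 3697524871) (nat_lit 590) (nat_lit 5) (nat_lit 589) (nat_lit 5) (nat_lit 609) (nat_lit 5) (nat_lit 558) (nat_lit 544) (nat_lit 458))))))))
noncomputable def xc116 : XT := (XT.nd (nat_lit 1560) (nat_lit 9424) (nat_lit 0) (XT.nd (nat_lit 780) (nat_lit 8968) (nat_lit 0) (XT.nd (nat_lit 390) (nat_lit 1368) (nat_lit 0) (XT.nd (nat_lit 156) (nat_lit 1520) (nat_lit 0) (XT.nd (nat_lit 78) (nat_lit 0) (nat_lit 0) (XT.lf (nat_lit 0) (nat_lit 6122746889) (nat_lit 1444) (nat_lit 1555189854) (nat_lit 1520) (nat_lit 695105569) (nat_lit 590) (nat_lit 5) (nat_lit 609) (nat_lit 5) (nat_lit 610) (nat_lit 5) (nat_lit 559) (nat_lit 544) (nat_lit 457)) (XT.lf (nat_lit 76) (nat_lit 3030019216) (nat_lit 0) (nat_lit 4641273059)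 (nat_lit 1520) (nat_lit 768179094) (nat_lit 591) (nat_lit 5) (nat_lit 590) (nat_lit 5) (nat_lit 610) (nat_lit 5) (nat_lit 560) (nat_lit 544) (nat_lit 456))) (XT.nd (nat_lit 78) (nat_lit 0) (nat_lit 76) (XT.lf (nat_lit 0) (nat_lit 715176890) (nat_lit 1520) (nat_lit 804851783) (nat_lit 1596) (nat_lit 6987478760) (nat_lit 570) (nat_lit 5) (nat_lit 590) (nat_lit 5) (nat_lit 591) (nat_lit 5) (nat_lit 561) (nat_lit 544) (nat_lit 455)) (XT.nd (nat_lit 78) (nat_lit 0) (nat_lit 0) (XT.lf (nat_lit 0) (nat_lit 2225831099) (nat_lit 1520) (nat_lit 4670327231) (nat_lit 1596) (nat_lit 1680487929) (nat_lit 571) (nat_lit 5) (nat_lit 591) (nat_lit 5) (nat_lit 592) (nat_lit 5) (nat_lit 562) (nat_lit 544) (nat_lit 454)) (XT.lf (nat_lit 76) (nat_lit 45034292) (nat_lit 0) (nat_lit 3709353939) (nat_lit 1596) (nat_lit 4893027730) (nat_lit 572) (nat_lit 5) (nat_lit 571) (nat_lit 5) (nat_lit 592) (nat_lit 5) (nat_lit 563) (nat_lit 544) (nat_lit 453))))) (XT.nd (nat_lit 156) (nat_lit 1444) (nat_lit 0) (XT.nd (nat_lit 78) (nat_lit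 0) (nat_lit 76) (XT.lf (nat_lit 76) (nat_lit 4897131285) (nat_lit 0) (nat_lit 420035391) (nat_lit 1596) (nat_lit 3402363237) (nat_lit 572) (nat_lit 5) (nat_lit 571) (nat_lit 5) (nat_lit 592) (nat_lit 5) (nat_lit 564) (nat_lit 544) (nat_lit 452)) (XT.lf (nat_lit 76) (nat_lit 1026532816) (nat_lit 0) (nat_lit 5883285336) (nat_lit 1596) (nat_lit 1883297465) (nat_lit 573) (nat_lit 5) (nat_lit 572) (nat_lit 5) (nat_lit 593) (nat_lit 5) (nat_lit 565) (nat_lit 544) (nat_lit 451))) (XT.nd (nat_lit 78) (nat_lit 1520) (nat_lit 0) (XT.lf (nat_lit 76) (nat_lit 6000518390) (nat_lit 0) (nat_lit 2535509704) (nat_lit 1596) (nat_lit 332112618) (nat_lit 573) (nat_lit 5) (nat_lit 572) (nat_lit 5) (nat_lit 593) (nat_lit 5) (nat_lit 566) (nat_lit 544) (nat_lit 450)) (XT.nd (nat_lit 78) (nat_lit 0) (nat_lit 0) (XT.lf (nat_lit 0) (nat_lit 1227048459) (nat_lit 1596) (nat_lit 6822393962) (nat_lit 76) (nat_lit 895196323) (nat_lit 552) (nat_lit 5) (nat_lit 573) (nat_lit 5) (nat_lit 553) (nat_lit 5) (nat_lit 567) (nat_lit 544) (nat_lit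 449)) (XT.lf (nat_lit 0) (nat_lit 2823168781) (nat_lit 1596) (nat_lit 1811898974) (nat_lit 76) (nat_lit 4387352298) (nat_lit 552) (nat_lit 5) (nat_lit 573) (nat_lit 5) (nat_lit 553) (nat_lit 5) (nat_lit 568) (nat_lit 544) (nat_lit 448)))))) (XT.nd (nat_lit 390) (nat_lit 3876) (nat_lit 0) (XT.nd (nat_lit 156) (nat_lit 3496) (nat_lit 0) (XT.nd (nat_lit 78) (nat_lit 0) (nat_lit 0) (XT.lf (nat_lit 0) (nat_lit 3321505909) (nat_lit 1596) (nat_lit 1125836418) (nat_lit 1672) (nat_lit 4654493698) (nat_lit 531) (nat_lit 5) (nat_lit 552) (nat_lit 5) (nat_lit 553) (nat_lit 5) (nat_lit 569) (nat_lit 544) (nat_lit 447)) (XT.lf (nat_lit 0) (nat_lit 6107126696) (nat_lit 1672) (nat_lit 637724410) (nat_lit 76) (nat_lit 2437928280) (nat_lit 531) (nat_lit 5) (nat_lit 553) (nat_lit 5) (nat_lit 532) (nat_lit 5) (nat_lit 570) (nat_lit 544) (nat_lit 446))) (XT.nd (nat_lit 78) (nat_lit 1824) (nat_lit 0) (XT.lf (nat_lit 0) (nat_lit 4640296508) (nat_lit 1672) (nat_lit 3172842790) (nat_lit 1748) (nat_lit 1451943252) (nat_lit 509)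 (nat_lit 5) (nat_lit 531) (nat_lit 5) (nat_lit 532) (nat_lit 5) (nat_lit 571) (nat_lit 544) (nat_lit 445)) (XT.nd (nat_lit 78) (nat_lit 0) (nat_lit 0) (XT.lf (nat_lit 0) (nat_lit 188996721) (nat_lit 1824) (nat_lit 8682483120) (nat_lit 76) (nat_lit 477778240) (nat_lit 485) (nat_lit 5) (nat_lit 509) (nat_lit 5) (nat_lit 486) (nat_lit 5) (nat_lit 572) (nat_lit 544) (nat_lit 444)) (XT.lf (nat_lit 0) (nat_lit 1871581069) (nat_lit 1824) (nat_lit 3359863876) (nat_lit 76) (nat_lit 4202916385) (nat_lit 485) (nat_lit 5) (nat_lit 509) (nat_lit 5) (nat_lit 486) (nat_lit 5) (nat_lit 573) (nat_lit 544) (nat_lit 443))))) (XT.nd (nat_lit 156) (nat_lit 2052) (nat_lit 0) (XT.nd (nat_lit 78) (nat_lit 0) (nat_lit 0) (XT.lf (nat_lit 0) (nat_lit 2075455592) (nat_lit 1824) (nat_lit 1502303843) (nat_lit 1900) (nat_lit 5943609828) (nat_lit 461) (nat_lit 5) (nat_lit 485) (nat_lit 5) (nat_lit 486) (nat_lit 5) (nat_lit 574) (nat_lit 544) (nat_lit 442)) (XT.lf (nat_lit 0) (nat_lit 5332508146) (nat_lit 1900) (nat_lit 1981047932) (nat_lit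 76) (nat_lit 2296273777) (nat_lit 461) (nat_lit 5) (nat_lit 486) (nat_lit 5) (nat_lit 462) (nat_lit 5) (nat_lit 575) (nat_lit 544) (nat_lit 441))) (XT.nd (nat_lit 78) (nat_lit 988) (nat_lit 0) (XT.lf (nat_lit 0) (nat_lit 3609609576) (nat_lit 1064) (nat_lit 3523390661) (nat_lit 1140) (nat_lit 2566847862) (nat_lit 447) (nat_lit 5) (nat_lit 461) (nat_lit 5) (nat_lit 462) (nat_lit 5) (nat_lit 576) (nat_lit 544) (nat_lit 440)) (XT.nd (nat_lit 78) (nat_lit 988) (nat_lit 0) (XT.lf (nat_lit 0) (nat_lit 8962693569) (nat_lit 1140) (nat_lit 475999673) (nat_lit 76) (nat_lit 353111021) (nat_lit 447) (nat_lit 5) (nat_lit 462) (nat_lit 5) (nat_lit 448) (nat_lit 5) (nat_lit 577) (nat_lit 544) (nat_lit 439)) (XT.lf (nat_lit 0) (nat_lit 966854098) (nat_lit 988) (nat_lit 4615673529) (nat_lit 76) (nat_lit 4302233839) (nat_lit 434) (nat_lit 5) (nat_lit 447) (nat_lit 5) (nat_lit 435) (nat_lit 5) (nat_lit 578) (nat_lit 544) (nat_lit 438))))))) (XT.nd (nat_lit 780) (nat_lit 4332) (nat_lit 0) (XT.nd (nat_lit 390) (nat_lit 2432)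 (nat_lit 0) (XT.nd (nat_lit 156) (nat_lit 1748) (nat_lit 0) (XT.nd (nat_lit 78) (nat_lit 0) (nat_lit 0) (XT.lf (nat_lit 0) (nat_lit 1144555990) (nat_lit 912) (nat_lit 1631913929) (nat_lit 988) (nat_lit 7203222917) (nat_lit 422) (nat_lit 5) (nat_lit 434) (nat_lit 5) (nat_lit 435) (nat_lit 5) (nat_lit 579) (nat_lit 544) (nat_lit 437)) (XT.lf (nat_lit 0) (nat_lit 4647498222) (nat_lit 988) (nat_lit 3030376648) (nat_lit 76) (nat_lit 2398144836) (nat_lit 422) (nat_lit 5) (nat_lit 435) (nat_lit 5) (nat_lit 423) (nat_lit 5) (nat_lit 580) (nat_lit 544) (nat_lit 436))) (XT.nd (nat_lit 78) (nat_lit 912) (nat_lit 0) (XT.lf (nat_lit 0) (nat_lit 2896823147) (nat_lit 836) (nat_lit 3667635403) (nat_lit 912) (nat_lit 3609645585) (nat_lit 411) (nat_lit 5) (nat_lit 422) (nat_lit 5) (nat_lit 423) (nat_lit 5) (nat_lit 581) (nat_lit 544) (nat_lit 435)) (XT.nd (nat_lit 78) (nat_lit 912) (nat_lit 0) (XT.lf (nat_lit 0) (nat_lit 8522149491) (nat_lit 912) (nat_lit 1314100863) (nat_lit 76) (nat_lit 437853299) (nat_lit 411) (nat_lit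 5) (nat_lit 423) (nat_lit 5) (nat_lit 412) (nat_lit 5) (nat_lit 582) (nat_lit 544) (nat_lit 434)) (XT.lf (nat_lit 0) (nat_lit 176195392) (nat_lit 912) (nat_lit 5590447733) (nat_lit 76) (nat_lit 4608739090) (nat_lit 399) (nat_lit 5) (nat_lit 411) (nat_lit 5) (nat_lit 400) (nat_lit 5) (nat_lit 583) (nat_lit 544) (nat_lit 433))))) (XT.nd (nat_lit 156) (nat_lit 1596) (nat_lit 0) (XT.nd (nat_lit 78) (nat_lit 0) (nat_lit 0) (XT.lf (nat_lit 0) (nat_lit 519564672) (nat_lit 836) (nat_lit 1591873202) (nat_lit 912) (nat_lit 8367178252) (nat_lit 388) (nat_lit 5) (nat_lit 399) (nat_lit 5) (nat_lit 400) (nat_lit 5) (nat_lit 584) (nat_lit 544) (nat_lit 432)) (XT.lf (nat_lit 0) (nat_lit 4120435923) (nat_lit 912) (nat_lit 3794269800) (nat_lit 76) (nat_lit 2668509111) (nat_lit 388) (nat_lit 5) (nat_lit 400) (nat_lit 5) (nat_lit 389) (nat_lit 5) (nat_lit 585) (nat_lit 544) (nat_lit 431))) (XT.nd (nat_lit 78) (nat_lit 760) (nat_lit 0) (XT.lf (nat_lit 0) (nat_lit 2495303133) (nat_lit 836) (nat_lit 3681422248) (nat_lit 912)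 (nat_lit 4513039016) (nat_lit 377) (nat_lit 5) (nat_lit 388) (nat_lit 5) (nat_lit 389) (nat_lit 5) (nat_lit 586) (nat_lit 544) (nat_lit 430)) (XT.nd (nat_lit 78) (nat_lit 760) (nat_lit 0) (XT.lf (nat_lit 0) (nat_lit 8284515521) (nat_lit 912) (nat_lit 1861070724) (nat_lit 76) (nat_lit 652652298) (nat_lit 377) (nat_lit 5) (nat_lit 389) (nat_lit 5) (nat_lit 378) (nat_lit 5) (nat_lit 587) (nat_lit 544) (nat_lit 429)) (XT.lf (nat_lit 0) (nat_lit 4614605714) (nat_lit 760) (nat_lit 5855189239) (nat_lit 836) (nat_lit 438381618) (nat_lit 367) (nat_lit 5) (nat_lit 377) (nat_lit 5) (nat_lit 378) (nat_lit 5) (nat_lit 588) (nat_lit 544) (nat_lit 428)))))) (XT.nd (nat_lit 390) (nat_lit 2052) (nat_lit 0) (XT.nd (nat_lit 156) (nat_lit 1444) (nat_lit 0) (XT.nd (nat_lit 78) (nat_lit 0) (nat_lit 0) (XT.lf (nat_lit 0) (nat_lit 195908246) (nat_lit 760) (nat_lit 1455495550) (nat_lit 836) (nat_lit 9368793622) (nat_lit 356) (nat_lit 5) (nat_lit 366) (nat_lit 5) (nat_lit 367) (nat_lit 5) (nat_lit 589) (nat_lit 544) (nat_lit 427))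 (XT.lf (nat_lit 0) (nat_lit 3820652797) (nat_lit 836) (nat_lit 4276862383) (nat_lit 76) (nat_lit 3036015799) (nat_lit 356) (nat_lit 5) (nat_lit 367) (nat_lit 5) (nat_lit 357) (nat_lit 5) (nat_lit 590) (nat_lit 544) (nat_lit 426))) (XT.nd (nat_lit 78) (nat_lit 760) (nat_lit 0) (XT.lf (nat_lit 0) (nat_lit 2402931499) (nat_lit 684) (nat_lit 3637294231) (nat_lit 760) (nat_lit 5208767689) (nat_lit 347) (nat_lit 5) (nat_lit 356) (nat_lit 5) (nat_lit 357) (nat_lit 5) (nat_lit 591) (nat_lit 544) (nat_lit 425)) (XT.nd (nat_lit 78) (nat_lit 760) (nat_lit 0) (XT.lf (nat_lit 0) (nat_lit 8320913140) (nat_lit 760) (nat_lit 2118678634) (nat_lit 76) (nat_lit 926839839) (nat_lit 347) (nat_lit 5) (nat_lit 357) (nat_lit 5) (nat_lit 348) (nat_lit 5) (nat_lit 592) (nat_lit 544) (nat_lit 424)) (XT.lf (nat_lit 0) (nat_lit 4761344922) (nat_lit 760) (nat_lit 5923136711) (nat_lit 836) (nat_lit 800992541) (nat_lit 337) (nat_lit 5) (nat_lit 347) (nat_lit 5) (nat_lit 348) (nat_lit 5) (nat_lit 593) (nat_lit 544) (nat_lit 423))))) (XT.nd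 (nat_lit 156) (nat_lit 1292) (nat_lit 0) (XT.nd (nat_lit 78) (nat_lit 0) (nat_lit 0) (XT.lf (nat_lit 0) (nat_lit 173221611) (nat_lit 684) (nat_lit 1293483206) (nat_lit 760) (nat_lit 10140044366) (nat_lit 327) (nat_lit 5) (nat_lit 336) (nat_lit 5) (nat_lit 337) (nat_lit 5) (nat_lit 594) (nat_lit 544) (nat_lit 422)) (XT.lf (nat_lit 0) (nat_lit 3819285660) (nat_lit 760) (nat_lit 4478309847) (nat_lit 76) (nat_lit 3431744090) (nat_lit 327) (nat_lit 5) (nat_lit 337) (nat_lit 5) (nat_lit 328) (nat_lit 5) (nat_lit 595) (nat_lit 544) (nat_lit 421))) (XT.nd (nat_lit 78) (nat_lit 608) (nat_lit 0) (XT.lf (nat_lit 0) (nat_lit 2621668772) (nat_lit 684) (nat_lit 3605740724) (nat_lit 760) (nat_lit 5626803374) (nat_lit 318) (nat_lit 5) (nat_lit 327) (nat_lit 5) (nat_lit 328) (nat_lit 5) (nat_lit 596) (nat_lit 544) (nat_lit 420)) (XT.nd (nat_lit 78) (nat_lit 608) (nat_lit 0) (XT.lf (nat_lit 0) (nat_lit 8704696135) (nat_lit 760) (nat_lit 2084837660) (nat_lit 76) (nat_lit 1191630663) (nat_lit 318) (nat_lit 5) (nat_lit 328)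 (nat_lit 5) (nat_lit 319) (nat_lit 5) (nat_lit 597) (nat_lit 544) (nat_lit 419)) (XT.lf (nat_lit 0) (nat_lit 5230596317) (nat_lit 608) (nat_lit 6042191834) (nat_lit 684) (nat_lit 837042579) (nat_lit 310) (nat_lit 5) (nat_lit 318) (nat_lit 5) (nat_lit 319) (nat_lit 5) (nat_lit 598) (nat_lit 544) (nat_lit 418))))))))
noncomputable def xc117 : XT := (XT.nd (nat_lit 77376) (nat_lit 0) (nat_lit 22344) (XT.nd (nat_lit 780) (nat_lit 1672) (nat_lit 0) (XT.nd (nat_lit 390) (nat_lit 1900) (nat_lit 0) (XT.nd (nat_lit 156) (nat_lit 1216) (nat_lit 0) (XT.nd (nat_lit 78) (nat_lit 0) (nat_lit 0) (XT.lf (nat_lit 0) (nat_lit 454925781) (nat_lit 684) (nat_lit 1175134361) (nat_lit 760) (nat_lit 10610785705) (nat_lit 300) (nat_lit 5) (nat_lit 309) (nat_lit 5) (nat_lit 310) (nat_lit 5) (nat_lit 599) (nat_lit 544) (nat_lit 417)) (XT.lf (nat_lit 0) (nat_lit 4190056740) (nat_lit 760) (nat_lit 4395198465) (nat_lit 76) (nat_lit 3788021001) (nat_lit 300) (nat_lit 5) (nat_lit 310) (nat_lit 5) (nat_lit 301) (nat_lit 5) (nat_lit 600)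 (nat_lit 544) (nat_lit 416))) (XT.nd (nat_lit 78) (nat_lit 608) (nat_lit 0) (XT.lf (nat_lit 0) (nat_lit 3157150034) (nat_lit 608) (nat_lit 3656381862) (nat_lit 684) (nat_lit 5694578482) (nat_lit 292) (nat_lit 5) (nat_lit 300) (nat_lit 5) (nat_lit 301) (nat_lit 5) (nat_lit 601) (nat_lit 544) (nat_lit 415)) (XT.nd (nat_lit 78) (nat_lit 608) (nat_lit 0) (XT.lf (nat_lit 0) (nat_lit 9512226716) (nat_lit 684) (nat_lit 1753998415) (nat_lit 76) (nat_lit 1378961861) (nat_lit 292) (nat_lit 5) (nat_lit 301) (nat_lit 5) (nat_lit 293) (nat_lit 5) (nat_lit 602) (nat_lit 544) (nat_lit 414)) (XT.lf (nat_lit 0) (nat_lit 6030193588) (nat_lit 608) (nat_lit 6282537773) (nat_lit 684) (nat_lit 471317808) (nat_lit 284) (nat_lit 5) (nat_lit 292) (nat_lit 5) (nat_lit 293) (nat_lit 5) (nat_lit 603) (nat_lit 544) (nat_lit 413))))) (XT.nd (nat_lit 156) (nat_lit 1216) (nat_lit 0) (XT.nd (nat_lit 78) (nat_lit 0) (nat_lit 0) (XT.lf (nat_lit 0) (nat_lit 1047830973) (nat_lit 608) (nat_lit 1169498578) (nat_lit 684) (nat_lit 10708004489)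 (nat_lit 275) (nat_lit 5) (nat_lit 283) (nat_lit 5) (nat_lit 284) (nat_lit 5) (nat_lit 604) (nat_lit 544) (nat_lit 412)) (XT.lf (nat_lit 0) (nat_lit 5010028828) (nat_lit 684) (nat_lit 4020934503) (nat_lit 76) (nat_lit 4037287875) (nat_lit 275) (nat_lit 5) (nat_lit 284) (nat_lit 5) (nat_lit 276) (nat_lit 5) (nat_lit 605) (nat_lit 544) (nat_lit 411))) (XT.nd (nat_lit 78) (nat_lit 608) (nat_lit 0) (XT.lf (nat_lit 0) (nat_lit 4018301150) (nat_lit 608) (nat_lit 3859109478) (nat_lit 684) (nat_lit 5336240208) (nat_lit 267) (nat_lit 5) (nat_lit 275) (nat_lit 5) (nat_lit 276) (nat_lit 5) (nat_lit 606) (nat_lit 544) (nat_lit 410)) (XT.nd (nat_lit 78) (nat_lit 608) (nat_lit 0) (XT.lf (nat_lit 0) (nat_lit 10823630221) (nat_lit 684) (nat_lit 1117526674) (nat_lit 76) (nat_lit 1420372436) (nat_lit 267) (nat_lit 5) (nat_lit 276) (nat_lit 5) (nat_lit 268) (nat_lit 5) (nat_lit 607) (nat_lit 544) (nat_lit 409)) (XT.lf (nat_lit 0) (nat_lit 370182054) (nat_lit 608) (nat_lit 6342480840) (nat_lit 76) (nat_lit 6798503608) (nat_lit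 259) (nat_lit 5) (nat_lit 267) (nat_lit 5) (nat_lit 260) (nat_lit 5) (nat_lit 608) (nat_lit 544) (nat_lit 408)))))) (XT.nd (nat_lit 76206) (nat_lit 0) (nat_lit 27968) (XT.nd (nat_lit 156) (nat_lit 1140) (nat_lit 0) (XT.nd (nat_lit 78) (nat_lit 0) (nat_lit 0) (XT.lf (nat_lit 0) (nat_lit 1961751497) (nat_lit 532) (nat_lit 1346500058) (nat_lit 608) (nat_lit 10355093803) (nat_lit 252) (nat_lit 5) (nat_lit 259) (nat_lit 5) (nat_lit 260) (nat_lit 5) (nat_lit 609) (nat_lit 544) (nat_lit 407)) (XT.lf (nat_lit 0) (nat_lit 6360341781) (nat_lit 608) (nat_lit 3346125558) (nat_lit 76) (nat_lit 4110995893) (nat_lit 252) (nat_lit 5) (nat_lit 260) (nat_lit 5) (nat_lit 253) (nat_lit 5) (nat_lit 610) (nat_lit 544) (nat_lit 406))) (XT.nd (nat_lit 78) (nat_lit 608) (nat_lit 0) (XT.lf (nat_lit 0) (nat_lit 5216961700) (nat_lit 532) (nat_lit 4285204202) (nat_lit 608) (nat_lit 4471924334) (nat_lit 245) (nat_lit 5) (nat_lit 252) (nat_lit 5) (nat_lit 253) (nat_lit 5) (nat_lit 611) (nat_lit 544) (nat_lit 405)) (XT.nd (nat_lit 78)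 (nat_lit 608) (nat_lit 0) (XT.lf (nat_lit 0) (nat_lit 12723534299) (nat_lit 608) (nat_lit 164078198) (nat_lit 76) (nat_lit 1245903726) (nat_lit 245) (nat_lit 5) (nat_lit 253) (nat_lit 5) (nat_lit 246) (nat_lit 5) (nat_lit 612) (nat_lit 544) (nat_lit 404)) (XT.lf (nat_lit 0) (nat_lit 1762151805) (nat_lit 608) (nat_lit 5638918996) (nat_lit 76) (nat_lit 6893409616) (nat_lit 237) (nat_lit 5) (nat_lit 245) (nat_lit 5) (nat_lit 238) (nat_lit 5) (nat_lit 613) (nat_lit 544) (nat_lit 403))))) (XT.nd (nat_lit 156) (nat_lit 1292) (nat_lit 0) (XT.nd (nat_lit 78) (nat_lit 0) (nat_lit 0) (XT.lf (nat_lit 0) (nat_lit 701927558) (nat_lit 0) (nat_lit 701927558) (nat_lit 1292) (nat_lit 2411774650) (nat_lit 622) (nat_lit 5) (nat_lit 622) (nat_lit 3) (nat_lit 639) (nat_lit 3) (nat_lit 545) (nat_lit 545) (nat_lit 470)) (XT.lf (nat_lit 0) (nat_lit 4229197203) (nat_lit 1292) (nat_lit 2436201653) (nat_lit 1368) (nat_lit 1014201829) (nat_lit 622) (nat_lit 5) (nat_lit 639) (nat_lit 3) (nat_lit 640) (nat_lit 5) (nat_lit 546) (nat_lit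 545) (nat_lit 469))) (XT.nd (nat_lit 78) (nat_lit 1292) (nat_lit 0) (XT.lf (nat_lit 76) (nat_lit 1421130903) (nat_lit 0) (nat_lit 4240250446) (nat_lit 1368) (nat_lit 2067884669) (nat_lit 623) (nat_lit 5) (nat_lit 622) (nat_lit 5) (nat_lit 640) (nat_lit 5) (nat_lit 547) (nat_lit 545) (nat_lit 468)) (XT.nd (nat_lit 78) (nat_lit 1292) (nat_lit 0) (XT.lf (nat_lit 76) (nat_lit 5369723104) (nat_lit 0) (nat_lit 1733165866) (nat_lit 1368) (nat_lit 677424748) (nat_lit 623) (nat_lit 5) (nat_lit 622) (nat_lit 5) (nat_lit 640) (nat_lit 5) (nat_lit 548) (nat_lit 545) (nat_lit 467)) (XT.lf (nat_lit 0) (nat_lit 711618085) (nat_lit 1368) (nat_lit 6276779521) (nat_lit 1444) (nat_lit 844281316) (nat_lit 605) (nat_lit 5) (nat_lit 623) (nat_lit 5) (nat_lit 624) (nat_lit 5) (nat_lit 549) (nat_lit 545) (nat_lit 466))))))) (XT.nd (nat_lit 780) (nat_lit 4332) (nat_lit 0) (XT.nd (nat_lit 390) (nat_lit 1292) (nat_lit 0) (XT.nd (nat_lit 156) (nat_lit 0) (nat_lit 76) (XT.nd (nat_lit 78) (nat_lit 0) (nat_lit 0) (XT.lf (nat_lit 0) (nat_lit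 2112607648) (nat_lit 1368) (nat_lit 2287126164) (nat_lit 1444) (nat_lit 3486405832) (nat_lit 605) (nat_lit 5) (nat_lit 623) (nat_lit 5) (nat_lit 624) (nat_lit 5) (nat_lit 550) (nat_lit 545) (nat_lit 465)) (XT.lf (nat_lit 76) (nat_lit 1786453481) (nat_lit 0) (nat_lit 1732906218) (nat_lit 1444) (nat_lit 4421757482) (nat_lit 606) (nat_lit 5) (nat_lit 605) (nat_lit 5) (nat_lit 624) (nat_lit 5) (nat_lit 551) (nat_lit 545) (nat_lit 464))) (XT.nd (nat_lit 78) (nat_lit 0) (nat_lit 0) (XT.lf (nat_lit 0) (nat_lit 4942881280) (nat_lit 1368) (nat_lit 2050821649) (nat_lit 1444) (nat_lit 1003721053) (nat_lit 606) (nat_lit 5) (nat_lit 624) (nat_lit 5) (nat_lit 625) (nat_lit 5) (nat_lit 552) (nat_lit 545) (nat_lit 463)) (XT.nd (nat_lit 78) (nat_lit 0) (nat_lit 0) (XT.lf (nat_lit 76) (nat_lit 2132043887) (nat_lit 0) (nat_lit 4255574811) (nat_lit 1444) (nat_lit 1667385673) (nat_lit 607) (nat_lit 5) (nat_lit 606) (nat_lit 5) (nat_lit 625) (nat_lit 5) (nat_lit 553) (nat_lit 545) (nat_lit 462)) (XT.lf (nat_lit 76) (nat_lit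 6406955417) (nat_lit 0) (nat_lit 1435996770) (nat_lit 1444) (nat_lit 271152465) (nat_lit 607) (nat_lit 5) (nat_lit 606) (nat_lit 5) (nat_lit 625) (nat_lit 5) (nat_lit 554) (nat_lit 545) (nat_lit 461))))) (XT.nd (nat_lit 156) (nat_lit 0) (nat_lit 0) (XT.nd (nat_lit 78) (nat_lit 0) (nat_lit 0) (XT.lf (nat_lit 0) (nat_lit 1132712626) (nat_lit 1444) (nat_lit 5583983833) (nat_lit 1520) (nat_lit 1457646396) (nat_lit 588) (nat_lit 5) (nat_lit 607) (nat_lit 5) (nat_lit 608) (nat_lit 5) (nat_lit 555) (nat_lit 545) (nat_lit 460)) (XT.lf (nat_lit 0) (nat_lit 2550998540) (nat_lit 1444) (nat_lit 1270006681) (nat_lit 1520) (nat_lit 4414947449) (nat_lit 588) (nat_lit 5) (nat_lit 607) (nat_lit 5) (nat_lit 608) (nat_lit 5) (nat_lit 556) (nat_lit 545) (nat_lit 459))) (XT.nd (nat_lit 78) (nat_lit 0) (nat_lit 76) (XT.lf (nat_lit 76) (nat_lit 3151954356) (nat_lit 0) (nat_lit 835698833) (nat_lit 1520) (nat_lit 4311343568) (nat_lit 589) (nat_lit 5) (nat_lit 588) (nat_lit 5) (nat_lit 608) (nat_lit 5) (nat_lit 557) (nat_lit 545)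 (nat_lit 458)) (XT.nd (nat_lit 78) (nat_lit 0) (nat_lit 0) (XT.lf (nat_lit 0) (nat_lit 5446041283) (nat_lit 1444) (nat_lit 718137084) (nat_lit 1520) (nat_lit 2199265444) (nat_lit 589) (nat_lit 5) (nat_lit 608) (nat_lit 5) (nat_lit 609) (nat_lit 5) (nat_lit 558) (nat_lit 545) (nat_lit 457)) (XT.lf (nat_lit 76) (nat_lit 3824187475) (nat_lit 0) (nat_lit 3110437144) (nat_lit 1520) (nat_lit 1494536690) (nat_lit 590) (nat_lit 5) (nat_lit 589) (nat_lit 5) (nat_lit 609) (nat_lit 5) (nat_lit 559) (nat_lit 545) (nat_lit 456)))))) (XT.nd (nat_lit 390) (nat_lit 2964) (nat_lit 0) (XT.nd (nat_lit 156) (nat_lit 0) (nat_lit 0) (XT.nd (nat_lit 78) (nat_lit 1520) (nat_lit 0) (XT.lf (nat_lit 0) (nat_lit 8429030566) (nat_lit 1444) (nat_lit 49353040) (nat_lit 1520) (nat_lit 18290545) (nat_lit 590) (nat_lit 5) (nat_lit 609) (nat_lit 5) (nat_lit 610) (nat_lit 5) (nat_lit 560) (nat_lit 545) (nat_lit 455)) (XT.lf (nat_lit 0) (nat_lit 1392047380) (nat_lit 1520) (nat_lit 3956802366) (nat_lit 1596) (nat_lit 3216060008) (nat_lit 570)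 (nat_lit 5) (nat_lit 590) (nat_lit 5) (nat_lit 591) (nat_lit 5) (nat_lit 561) (nat_lit 545) (nat_lit 454))) (XT.nd (nat_lit 78) (nat_lit 0) (nat_lit 76) (XT.lf (nat_lit 76) (nat_lit 713657547) (nat_lit 0) (nat_lit 2143313040) (nat_lit 1596) (nat_lit 5777993552) (nat_lit 571) (nat_lit 5) (nat_lit 570) (nat_lit 5) (nat_lit 591) (nat_lit 5) (nat_lit 562) (nat_lit 545) (nat_lit 453)) (XT.nd (nat_lit 78) (nat_lit 0) (nat_lit 0) (XT.lf (nat_lit 0) (nat_lit 4357678615) (nat_lit 1520) (nat_lit 3202820605) (nat_lit 1596) (nat_lit 1145792523) (nat_lit 571) (nat_lit 5) (nat_lit 591) (nat_lit 5) (nat_lit 592) (nat_lit 5) (nat_lit 563) (nat_lit 545) (nat_lit 452)) (XT.lf (nat_lit 76) (nat_lit 1596578983) (nat_lit 0) (nat_lit 4289367660) (nat_lit 1596) (nat_lit 2893150163) (nat_lit 572) (nat_lit 5) (nat_lit 571) (nat_lit 5) (nat_lit 592) (nat_lit 5) (nat_lit 564) (nat_lit 545) (nat_lit 451))))) (XT.nd (nat_lit 234) (nat_lit 1520) (nat_lit 0) (XT.nd (nat_lit 78) (nat_lit 1520) (nat_lit 0) (XT.lf (nat_lit 76) (nat_lit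 6515313130) (nat_lit 0) (nat_lit 924344571) (nat_lit 1596) (nat_lit 1413804501) (nat_lit 572) (nat_lit 5) (nat_lit 571) (nat_lit 5) (nat_lit 592) (nat_lit 5) (nat_lit 565) (nat_lit 545) (nat_lit 450)) (XT.nd (nat_lit 78) (nat_lit 0) (nat_lit 0) (XT.lf (nat_lit 0) (nat_lit 101043328) (nat_lit 1596) (nat_lit 6329147231) (nat_lit 1672) (nat_lit 2498970455) (nat_lit 551) (nat_lit 5) (nat_lit 572) (nat_lit 5) (nat_lit 573) (nat_lit 5) (nat_lit 566) (nat_lit 545) (nat_lit 449)) (XT.lf (nat_lit 0) (nat_lit 1623347727) (nat_lit 1596) (nat_lit 1373466468) (nat_lit 1672) (nat_lit 6009452578) (nat_lit 551) (nat_lit 5) (nat_lit 572) (nat_lit 5) (nat_lit 573) (nat_lit 5) (nat_lit 567) (nat_lit 545) (nat_lit 448)))) (XT.nd (nat_lit 78) (nat_lit 1596) (nat_lit 0) (XT.lf (nat_lit 0) (nat_lit 3178323552) (nat_lit 1596) (nat_lit 5378482271) (nat_lit 76) (nat_lit 528065967) (nat_lit 552) (nat_lit 5) (nat_lit 573) (nat_lit 5) (nat_lit 553) (nat_lit 5) (nat_lit 568) (nat_lit 545) (nat_lit 447)) (XT.nd (nat_lit 78) (nat_lit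 1596) (nat_lit 0) (XT.lf (nat_lit 0) (nat_lit 4768587180) (nat_lit 1596) (nat_lit 298764825) (nat_lit 76) (nat_lit 4097614754) (nat_lit 552) (nat_lit 5) (nat_lit 573) (nat_lit 5) (nat_lit 553) (nat_lit 5) (nat_lit 569) (nat_lit 545) (nat_lit 446)) (XT.lf (nat_lit 0) (nat_lit 4927114918) (nat_lit 1596) (nat_lit 1471084315) (nat_lit 1672) (nat_lit 2848315120) (nat_lit 531) (nat_lit 5) (nat_lit 552) (nat_lit 5) (nat_lit 553) (nat_lit 5) (nat_lit 570) (nat_lit 545) (nat_lit 445))))))))
noncomputable def xc118 : XT := (XT.nd (nat_lit 1560) (nat_lit 7904) (nat_lit 0) (XT.nd (nat_lit 780) (nat_lit 5016) (nat_lit 0) (XT.nd (nat_lit 390) (nat_lit 2964) (nat_lit 0) (XT.nd (nat_lit 156) (nat_lit 3572) (nat_lit 0) (XT.nd (nat_lit 78) (nat_lit 76) (nat_lit 0) (XT.lf (nat_lit 0) (nat_lit 909123506) (nat_lit 1672) (nat_lit 7149396077) (nat_lit 1748) (nat_lit 1271212549) (nat_lit 509) (nat_lit 5) (nat_lit 531) (nat_lit 5) (nat_lit 532) (nat_lit 5) (nat_lit 571) (nat_lit 545) (nat_lit 444)) (XT.lf (nat_lit 0) (nat_lit 348037985)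 (nat_lit 1748) (nat_lit 3146007410) (nat_lit 76) (nat_lit 5920225922) (nat_lit 508) (nat_lit 5) (nat_lit 531) (nat_lit 5) (nat_lit 509) (nat_lit 5) (nat_lit 572) (nat_lit 545) (nat_lit 443))) (XT.nd (nat_lit 78) (nat_lit 1824) (nat_lit 0) (XT.lf (nat_lit 0) (nat_lit 1975452234) (nat_lit 1824) (nat_lit 7267441732) (nat_lit 76) (nat_lit 257584728) (nat_lit 485) (nat_lit 5) (nat_lit 509) (nat_lit 5) (nat_lit 486) (nat_lit 5) (nat_lit 573) (nat_lit 545) (nat_lit 442)) (XT.nd (nat_lit 78) (nat_lit 1824) (nat_lit 0) (XT.lf (nat_lit 0) (nat_lit 3656733845) (nat_lit 1824) (nat_lit 1869520908) (nat_lit 76) (nat_lit 4061730519) (nat_lit 485) (nat_lit 5) (nat_lit 509) (nat_lit 5) (nat_lit 486) (nat_lit 5) (nat_lit 574) (nat_lit 545) (nat_lit 441)) (XT.lf (nat_lit 0) (nat_lit 3664257974) (nat_lit 1824) (nat_lit 1708554817) (nat_lit 1900) (nat_lit 4304407167) (nat_lit 461) (nat_lit 5) (nat_lit 485) (nat_lit 5) (nat_lit 486) (nat_lit 5) (nat_lit 575) (nat_lit 545) (nat_lit 440))))) (XT.nd (nat_lit 156) (nat_lit 1900)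 (nat_lit 0) (XT.nd (nat_lit 78) (nat_lit 1064) (nat_lit 0) (XT.lf (nat_lit 0) (nat_lit 7127740787) (nat_lit 1900) (nat_lit 468694382) (nat_lit 76) (nat_lit 2171714999) (nat_lit 461) (nat_lit 5) (nat_lit 486) (nat_lit 5) (nat_lit 462) (nat_lit 5) (nat_lit 576) (nat_lit 545) (nat_lit 439)) (XT.lf (nat_lit 0) (nat_lit 5223565918) (nat_lit 1064) (nat_lit 3717577498) (nat_lit 1140) (nat_lit 919289400) (nat_lit 447) (nat_lit 5) (nat_lit 461) (nat_lit 5) (nat_lit 462) (nat_lit 5) (nat_lit 577) (nat_lit 545) (nat_lit 438))) (XT.nd (nat_lit 78) (nat_lit 912) (nat_lit 0) (XT.lf (nat_lit 0) (nat_lit 815362032) (nat_lit 988) (nat_lit 8886484398) (nat_lit 76) (nat_lit 252805866) (nat_lit 434) (nat_lit 5) (nat_lit 447) (nat_lit 5) (nat_lit 435) (nat_lit 5) (nat_lit 578) (nat_lit 545) (nat_lit 437)) (XT.nd (nat_lit 78) (nat_lit 912) (nat_lit 0) (XT.lf (nat_lit 0) (nat_lit 2606954795) (nat_lit 988) (nat_lit 3151438127) (nat_lit 76) (nat_lit 4291551835) (nat_lit 434) (nat_lit 5) (nat_lit 447) (nat_lit 5) (nat_lit 435) (nat_lit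 5) (nat_lit 579) (nat_lit 545) (nat_lit 436)) (XT.lf (nat_lit 0) (nat_lit 2713755530) (nat_lit 912) (nat_lit 1717267385) (nat_lit 988) (nat_lit 5716188536) (nat_lit 422) (nat_lit 5) (nat_lit 434) (nat_lit 5) (nat_lit 435) (nat_lit 5) (nat_lit 580) (nat_lit 545) (nat_lit 435)))))) (XT.nd (nat_lit 390) (nat_lit 2432) (nat_lit 0) (XT.nd (nat_lit 156) (nat_lit 1748) (nat_lit 0) (XT.nd (nat_lit 78) (nat_lit 836) (nat_lit 0) (XT.lf (nat_lit 0) (nat_lit 6307782829) (nat_lit 988) (nat_lit 1543213668) (nat_lit 76) (nat_lit 2395103999) (nat_lit 422) (nat_lit 5) (nat_lit 435) (nat_lit 5) (nat_lit 423) (nat_lit 5) (nat_lit 581) (nat_lit 545) (nat_lit 434)) (XT.lf (nat_lit 0) (nat_lit 4492347423) (nat_lit 836) (nat_lit 3749985929) (nat_lit 912) (nat_lit 2104230064) (nat_lit 411) (nat_lit 5) (nat_lit 422) (nat_lit 5) (nat_lit 423) (nat_lit 5) (nat_lit 582) (nat_lit 545) (nat_lit 433))) (XT.nd (nat_lit 78) (nat_lit 912) (nat_lit 0) (XT.lf (nat_lit 0) (nat_lit 200152980) (nat_lit 836) (nat_lit 10009942173) (nat_lit 912)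 (nat_lit 239051214) (nat_lit 400) (nat_lit 5) (nat_lit 411) (nat_lit 5) (nat_lit 412) (nat_lit 5) (nat_lit 583) (nat_lit 545) (nat_lit 432)) (XT.nd (nat_lit 78) (nat_lit 836) (nat_lit 0) (XT.lf (nat_lit 0) (nat_lit 1686108713) (nat_lit 912) (nat_lit 4154358745) (nat_lit 76) (nat_lit 4712208778) (nat_lit 399) (nat_lit 5) (nat_lit 411) (nat_lit 5) (nat_lit 400) (nat_lit 5) (nat_lit 584) (nat_lit 545) (nat_lit 431)) (XT.lf (nat_lit 0) (nat_lit 2067670369) (nat_lit 836) (nat_lit 1572832489) (nat_lit 912) (nat_lit 7017864713) (nat_lit 388) (nat_lit 5) (nat_lit 399) (nat_lit 5) (nat_lit 400) (nat_lit 5) (nat_lit 585) (nat_lit 545) (nat_lit 430))))) (XT.nd (nat_lit 156) (nat_lit 1596) (nat_lit 0) (XT.nd (nat_lit 78) (nat_lit 836) (nat_lit 0) (XT.lf (nat_lit 0) (nat_lit 5660851074) (nat_lit 912) (nat_lit 2333679758) (nat_lit 76) (nat_lit 2771105667) (nat_lit 388) (nat_lit 5) (nat_lit 400) (nat_lit 5) (nat_lit 389) (nat_lit 5) (nat_lit 586) (nat_lit 545) (nat_lit 429)) (XT.lf (nat_lit 0) (nat_lit 4071576242) (nat_lit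 836) (nat_lit 3668011906) (nat_lit 912) (nat_lit 3135104087) (nat_lit 377) (nat_lit 5) (nat_lit 388) (nat_lit 5) (nat_lit 389) (nat_lit 5) (nat_lit 587) (nat_lit 545) (nat_lit 428))) (XT.nd (nat_lit 78) (nat_lit 1596) (nat_lit 0) (XT.lf (nat_lit 0) (nat_lit 9861866001) (nat_lit 912) (nat_lit 374106468) (nat_lit 76) (nat_lit 749918342) (nat_lit 377) (nat_lit 5) (nat_lit 389) (nat_lit 5) (nat_lit 378) (nat_lit 5) (nat_lit 588) (nat_lit 545) (nat_lit 427)) (XT.nd (nat_lit 78) (nat_lit 760) (nat_lit 0) (XT.lf (nat_lit 0) (nat_lit 961833933) (nat_lit 836) (nat_lit 4883658022) (nat_lit 76) (nat_lit 5252767616) (nat_lit 366) (nat_lit 5) (nat_lit 377) (nat_lit 5) (nat_lit 367) (nat_lit 5) (nat_lit 589) (nat_lit 545) (nat_lit 426)) (XT.lf (nat_lit 0) (nat_lit 1722622730) (nat_lit 760) (nat_lit 1347302755) (nat_lit 836) (nat_lit 8142891284) (nat_lit 356) (nat_lit 5) (nat_lit 366) (nat_lit 5) (nat_lit 367) (nat_lit 5) (nat_lit 590) (nat_lit 545) (nat_lit 425))))))) (XT.nd (nat_lit 780) (nat_lit 3648) (nat_lit 0) (XT.nd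 (nat_lit 390) (nat_lit 2052) (nat_lit 0) (XT.nd (nat_lit 156) (nat_lit 1520) (nat_lit 0) (XT.nd (nat_lit 78) (nat_lit 684) (nat_lit 0) (XT.lf (nat_lit 0) (nat_lit 5256266905) (nat_lit 836) (nat_lit 2843096242) (nat_lit 76) (nat_lit 3229581171) (nat_lit 356) (nat_lit 5) (nat_lit 367) (nat_lit 5) (nat_lit 357) (nat_lit 5) (nat_lit 591) (nat_lit 545) (nat_lit 424)) (XT.lf (nat_lit 0) (nat_lit 3960298100) (nat_lit 684) (nat_lit 3543081624) (nat_lit 760) (nat_lit 3943674750) (nat_lit 347) (nat_lit 5) (nat_lit 356) (nat_lit 5) (nat_lit 357) (nat_lit 5) (nat_lit 592) (nat_lit 545) (nat_lit 423))) (XT.nd (nat_lit 78) (nat_lit 1520) (nat_lit 0) (XT.lf (nat_lit 0) (nat_lit 9804423055) (nat_lit 760) (nat_lit 656010266) (nat_lit 76) (nat_lit 1106914677) (nat_lit 347) (nat_lit 5) (nat_lit 357) (nat_lit 5) (nat_lit 348) (nat_lit 5) (nat_lit 593) (nat_lit 545) (nat_lit 422)) (XT.nd (nat_lit 78) (nat_lit 684) (nat_lit 0) (XT.lf (nat_lit 0) (nat_lit 503360489) (nat_lit 836) (nat_lit 5340694561) (nat_lit 76) (nat_lit 5844973866)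 (nat_lit 336) (nat_lit 5) (nat_lit 347) (nat_lit 5) (nat_lit 337) (nat_lit 5) (nat_lit 594) (nat_lit 545) (nat_lit 421)) (XT.lf (nat_lit 0) (nat_lit 1679347335) (nat_lit 684) (nat_lit 1110425909) (nat_lit 760) (nat_lit 9023169882) (nat_lit 327) (nat_lit 5) (nat_lit 336) (nat_lit 5) (nat_lit 337) (nat_lit 5) (nat_lit 595) (nat_lit 545) (nat_lit 420))))) (XT.nd (nat_lit 156) (nat_lit 1368) (nat_lit 0) (XT.nd (nat_lit 78) (nat_lit 684) (nat_lit 0) (XT.lf (nat_lit 0) (nat_lit 5165368259) (nat_lit 760) (nat_lit 3070576201) (nat_lit 76) (nat_lit 3702522939) (nat_lit 327) (nat_lit 5) (nat_lit 337) (nat_lit 5) (nat_lit 328) (nat_lit 5) (nat_lit 596) (nat_lit 545) (nat_lit 419)) (XT.lf (nat_lit 0) (nat_lit 4161551333) (nat_lit 684) (nat_lit 3444864727) (nat_lit 760) (nat_lit 4459728122) (nat_lit 318) (nat_lit 5) (nat_lit 327) (nat_lit 5) (nat_lit 328) (nat_lit 5) (nat_lit 597) (nat_lit 545) (nat_lit 418))) (XT.nd (nat_lit 78) (nat_lit 1368) (nat_lit 0) (XT.lf (nat_lit 0) (nat_lit 10110134279) (nat_lit 760) (nat_lit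 645074217) (nat_lit 76) (nat_lit 1440889841) (nat_lit 318) (nat_lit 5) (nat_lit 328) (nat_lit 5) (nat_lit 319) (nat_lit 5) (nat_lit 598) (nat_lit 545) (nat_lit 417)) (XT.nd (nat_lit 78) (nat_lit 684) (nat_lit 0) (XT.lf (nat_lit 0) (nat_lit 382288131) (nat_lit 684) (nat_lit 5523223995) (nat_lit 76) (nat_lit 6422068504) (nat_lit 309) (nat_lit 5) (nat_lit 318) (nat_lit 5) (nat_lit 310) (nat_lit 5) (nat_lit 599) (nat_lit 545) (nat_lit 416)) (XT.lf (nat_lit 0) (nat_lit 1942286260) (nat_lit 684) (nat_lit 930829843) (nat_lit 760) (nat_lit 9588278645) (nat_lit 300) (nat_lit 5) (nat_lit 309) (nat_lit 5) (nat_lit 310) (nat_lit 5) (nat_lit 600) (nat_lit 545) (nat_lit 415)))))) (XT.nd (nat_lit 390) (nat_lit 1748) (nat_lit 0) (XT.nd (nat_lit 156) (nat_lit 1292) (nat_lit 0) (XT.nd (nat_lit 78) (nat_lit 608) (nat_lit 0) (XT.lf (nat_lit 0) (nat_lit 5462282914) (nat_lit 760) (nat_lit 3011738515) (nat_lit 76) (nat_lit 4122894034) (nat_lit 300) (nat_lit 5) (nat_lit 310) (nat_lit 5) (nat_lit 301) (nat_lit 5) (nat_lit 601)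 (nat_lit 545) (nat_lit 414)) (XT.lf (nat_lit 0) (nat_lit 4681976927) (nat_lit 608) (nat_lit 3442438416) (nat_lit 684) (nat_lit 4610308354) (nat_lit 292) (nat_lit 5) (nat_lit 300) (nat_lit 5) (nat_lit 301) (nat_lit 5) (nat_lit 602) (nat_lit 545) (nat_lit 413))) (XT.nd (nat_lit 78) (nat_lit 1292) (nat_lit 0) (XT.lf (nat_lit 0) (nat_lit 10855879746) (nat_lit 684) (nat_lit 334795123) (nat_lit 76) (nat_lit 1684292172) (nat_lit 292) (nat_lit 5) (nat_lit 301) (nat_lit 5) (nat_lit 293) (nat_lit 5) (nat_lit 603) (nat_lit 545) (nat_lit 412)) (XT.nd (nat_lit 78) (nat_lit 608) (nat_lit 0) (XT.lf (nat_lit 0) (nat_lit 673338108) (nat_lit 684) (nat_lit 5425789054) (nat_lit 76) (nat_lit 6917656506) (nat_lit 283) (nat_lit 5) (nat_lit 292) (nat_lit 5) (nat_lit 284) (nat_lit 5) (nat_lit 604) (nat_lit 545) (nat_lit 411)) (XT.lf (nat_lit 0) (nat_lit 2519204511) (nat_lit 608) (nat_lit 877160490) (nat_lit 684) (nat_lit 9764729622) (nat_lit 275) (nat_lit 5) (nat_lit 283) (nat_lit 5) (nat_lit 284) (nat_lit 5) (nat_lit 605) (nat_lit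 545) (nat_lit 410))))) (XT.nd (nat_lit 234) (nat_lit 608) (nat_lit 0) (XT.nd (nat_lit 78) (nat_lit 1140) (nat_lit 0) (XT.lf (nat_lit 0) (nat_lit 6224679184) (nat_lit 684) (nat_lit 2659085448) (nat_lit 76) (nat_lit 4423511308) (nat_lit 275) (nat_lit 5) (nat_lit 284) (nat_lit 5) (nat_lit 276) (nat_lit 5) (nat_lit 606) (nat_lit 545) (nat_lit 409)) (XT.nd (nat_lit 78) (nat_lit 532) (nat_lit 0) (XT.lf (nat_lit 0) (nat_lit 5531446314) (nat_lit 608) (nat_lit 3605412902) (nat_lit 684) (nat_lit 4318976340) (nat_lit 267) (nat_lit 5) (nat_lit 275) (nat_lit 5) (nat_lit 276) (nat_lit 5) (nat_lit 607) (nat_lit 545) (nat_lit 408)) (XT.lf (nat_lit 0) (nat_lit 288136213) (nat_lit 532) (nat_lit 11836238030) (nat_lit 608) (nat_lit 1482650944) (nat_lit 260) (nat_lit 5) (nat_lit 267) (nat_lit 5) (nat_lit 268) (nat_lit 5) (nat_lit 608) (nat_lit 545) (nat_lit 407)))) (XT.nd (nat_lit 78) (nat_lit 532) (nat_lit 0) (XT.lf (nat_lit 0) (nat_lit 1455085239) (nat_lit 608) (nat_lit 5040099167) (nat_lit 76) (nat_lit 7264608047) (nat_lit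 259) (nat_lit 5) (nat_lit 267) (nat_lit 5) (nat_lit 260) (nat_lit 5) (nat_lit 609) (nat_lit 545) (nat_lit 406)) (XT.nd (nat_lit 78) (nat_lit 0) (nat_lit 0) (XT.lf (nat_lit 0) (nat_lit 3420814979) (nat_lit 532) (nat_lit 1019192178) (nat_lit 608) (nat_lit 9475246839) (nat_lit 252) (nat_lit 5) (nat_lit 259) (nat_lit 5) (nat_lit 260) (nat_lit 5) (nat_lit 610) (nat_lit 545) (nat_lit 405)) (XT.lf (nat_lit 0) (nat_lit 7534500105) (nat_lit 608) (nat_lit 2002374760) (nat_lit 76) (nat_lit 4535953054) (nat_lit 252) (nat_lit 5) (nat_lit 260) (nat_lit 5) (nat_lit 253) (nat_lit 5) (nat_lit 611) (nat_lit 545) (nat_lit 404))))))))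
noncomputable def xc119 : XT := (XT.nd (nat_lit 77454) (nat_lit 0) (nat_lit 12236) (XT.nd (nat_lit 76674) (nat_lit 0) (nat_lit 25156) (XT.nd (nat_lit 76284) (nat_lit 0) (nat_lit 27816) (XT.nd (nat_lit 76050) (nat_lit 0) (nat_lit 27816) (XT.nd (nat_lit 78) (nat_lit 532) (nat_lit 0) (XT.lf (nat_lit 0) (nat_lit 6722693496) (nat_lit 532) (nat_lit 4005037520) (nat_lit 608) (nat_lit 3505085932) (nat_lit 245) (nat_lit 5) (nat_lit 252) (nat_lit 5) (nat_lit 253) (nat_lit 5) (nat_lit 612) (nat_lit 545) (nat_lit 403)) (XT.lf (nat_lit 0) (nat_lit 1240847685) (nat_lit 532) (nat_lit 12762760052) (nat_lit 608) (nat_lit 392022976) (nat_lit 238) (nat_lit 5) (nat_lit 245) (nat_lit 5) (nat_lit 246) (nat_lit 5) (nat_lit 613) (nat_lit 545) (nat_lit 402))) (XT.nd (nat_lit 78) (nat_lit 1368) (nat_lit 0) (XT.lf (nat_lit 0) (nat_lit 1404833042) (nat_lit 0) (nat_lit 1404833042) (nat_lit 1292) (nat_lit 1054619023) (nat_lit 622) (nat_lit 5) (nat_lit 622) (nat_lit 3) (nat_lit 639) (nat_lit 3) (nat_lit 546) (nat_lit 546) (nat_lit 468))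 (XT.nd (nat_lit 78) (nat_lit 1368) (nat_lit 0) (XT.lf (nat_lit 0) (nat_lit 6705928434) (nat_lit 0) (nat_lit 302485837) (nat_lit 1292) (nat_lit 770684634) (nat_lit 622) (nat_lit 5) (nat_lit 622) (nat_lit 3) (nat_lit 639) (nat_lit 3) (nat_lit 547) (nat_lit 546) (nat_lit 467)) (XT.lf (nat_lit 0) (nat_lit 585148479) (nat_lit 1368) (nat_lit 4980552120) (nat_lit 1444) (nat_lit 2264896757) (nat_lit 604) (nat_lit 5) (nat_lit 622) (nat_lit 5) (nat_lit 623) (nat_lit 5) (nat_lit 548) (nat_lit 546) (nat_lit 466))))) (XT.nd (nat_lit 156) (nat_lit 0) (nat_lit 76) (XT.nd (nat_lit 78) (nat_lit 0) (nat_lit 0) (XT.lf (nat_lit 0) (nat_lit 1932527964) (nat_lit 1368) (nat_lit 1042501369) (nat_lit 1444) (nat_lit 4908502076) (nat_lit 604) (nat_lit 5) (nat_lit 622) (nat_lit 5) (nat_lit 623) (nat_lit 5) (nat_lit 549) (nat_lit 546) (nat_lit 465)) (XT.lf (nat_lit 76) (nat_lit 2995322819) (nat_lit 0) (nat_lit 297143648) (nat_lit 1444) (nat_lit 4645347900) (nat_lit 605) (nat_lit 5) (nat_lit 604) (nat_lit 5) (nat_lit 623) (nat_lit 5)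 (nat_lit 550) (nat_lit 546) (nat_lit 464))) (XT.nd (nat_lit 78) (nat_lit 0) (nat_lit 0) (XT.lf (nat_lit 0) (nat_lit 4669258593) (nat_lit 1368) (nat_lit 899777691) (nat_lit 1444) (nat_lit 2424356009) (nat_lit 605) (nat_lit 5) (nat_lit 623) (nat_lit 5) (nat_lit 624) (nat_lit 5) (nat_lit 551) (nat_lit 546) (nat_lit 463)) (XT.nd (nat_lit 78) (nat_lit 0) (nat_lit 76) (XT.lf (nat_lit 76) (nat_lit 3245845317) (nat_lit 0) (nat_lit 2818241793) (nat_lit 1444) (nat_lit 1986187012) (nat_lit 606) (nat_lit 5) (nat_lit 605) (nat_lit 5) (nat_lit 624) (nat_lit 5) (nat_lit 552) (nat_lit 546) (nat_lit 462)) (XT.lf (nat_lit 0) (nat_lit 7460874712) (nat_lit 1368) (nat_lit 640710765) (nat_lit 1444) (nat_lit 7229174) (nat_lit 606) (nat_lit 5) (nat_lit 624) (nat_lit 5) (nat_lit 625) (nat_lit 5) (nat_lit 553) (nat_lit 546) (nat_lit 461)))))) (XT.nd (nat_lit 390) (nat_lit 1368) (nat_lit 0) (XT.nd (nat_lit 156) (nat_lit 0) (nat_lit 76) (XT.nd (nat_lit 78) (nat_lit 0) (nat_lit 0) (XT.lf (nat_lit 0) (nat_lit 718571534) (nat_lit 1444)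 (nat_lit 4556773819) (nat_lit 1520) (nat_lit 2892871664) (nat_lit 587) (nat_lit 5) (nat_lit 606) (nat_lit 5) (nat_lit 607) (nat_lit 5) (nat_lit 554) (nat_lit 546) (nat_lit 460)) (XT.lf (nat_lit 0) (nat_lit 2077051330) (nat_lit 1444) (nat_lit 294787110) (nat_lit 1520) (nat_lit 5857419231) (nat_lit 587) (nat_lit 5) (nat_lit 606) (nat_lit 5) (nat_lit 607) (nat_lit 5) (nat_lit 555) (nat_lit 546) (nat_lit 459))) (XT.nd (nat_lit 78) (nat_lit 0) (nat_lit 0) (XT.lf (nat_lit 0) (nat_lit 3462905482) (nat_lit 1444) (nat_lit 4208331446) (nat_lit 1520) (nat_lit 620280250) (nat_lit 588) (nat_lit 5) (nat_lit 607) (nat_lit 5) (nat_lit 608) (nat_lit 5) (nat_lit 556) (nat_lit 546) (nat_lit 458)) (XT.nd (nat_lit 78) (nat_lit 0) (nat_lit 0) (XT.lf (nat_lit 76) (nat_lit 164924894) (nat_lit 0) (nat_lit 4700457167) (nat_lit 1520) (nat_lit 3489863802) (nat_lit 589) (nat_lit 5) (nat_lit 588) (nat_lit 5) (nat_lit 608) (nat_lit 5) (nat_lit 557) (nat_lit 546) (nat_lit 457)) (XT.lf (nat_lit 76) (nat_lit 4663568918) (nat_lit 0) (nat_lit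 1631176515) (nat_lit 1520) (nat_lit 2125528995) (nat_lit 589) (nat_lit 5) (nat_lit 588) (nat_lit 5) (nat_lit 608) (nat_lit 5) (nat_lit 558) (nat_lit 546) (nat_lit 456))))) (XT.nd (nat_lit 156) (nat_lit 0) (nat_lit 0) (XT.nd (nat_lit 78) (nat_lit 1520) (nat_lit 0) (XT.lf (nat_lit 76) (nat_lit 746242165) (nat_lit 0) (nat_lit 6992273797) (nat_lit 1520) (nat_lit 748373217) (nat_lit 590) (nat_lit 5) (nat_lit 589) (nat_lit 5) (nat_lit 609) (nat_lit 5) (nat_lit 559) (nat_lit 546) (nat_lit 455)) (XT.lf (nat_lit 0) (nat_lit 655385224) (nat_lit 1520) (nat_lit 3199035626) (nat_lit 1596) (nat_lit 4700178735) (nat_lit 569) (nat_lit 5) (nat_lit 589) (nat_lit 5) (nat_lit 590) (nat_lit 5) (nat_lit 560) (nat_lit 546) (nat_lit 454))) (XT.nd (nat_lit 78) (nat_lit 0) (nat_lit 76) (XT.lf (nat_lit 76) (nat_lit 1427919718) (nat_lit 0) (nat_lit 630606280) (nat_lit 1596) (nat_lit 6565414604) (nat_lit 570) (nat_lit 5) (nat_lit 569) (nat_lit 5) (nat_lit 590) (nat_lit 5) (nat_lit 561) (nat_lit 546) (nat_lit 453)) (XT.nd (nat_lit 78)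 (nat_lit 0) (nat_lit 0) (XT.lf (nat_lit 0) (nat_lit 3501120309) (nat_lit 1520) (nat_lit 2540598590) (nat_lit 1596) (nat_lit 2652723587) (nat_lit 570) (nat_lit 5) (nat_lit 590) (nat_lit 5) (nat_lit 591) (nat_lit 5) (nat_lit 562) (nat_lit 546) (nat_lit 452)) (XT.lf (nat_lit 76) (nat_lit 2213432759) (nat_lit 0) (nat_lit 2750745616) (nat_lit 1596) (nat_lit 3802345618) (nat_lit 571) (nat_lit 5) (nat_lit 570) (nat_lit 5) (nat_lit 591) (nat_lit 5) (nat_lit 563) (nat_lit 546) (nat_lit 451))))))) (XT.nd (nat_lit 780) (nat_lit 8284) (nat_lit 0) (XT.nd (nat_lit 390) (nat_lit 3192) (nat_lit 0) (XT.nd (nat_lit 156) (nat_lit 1596) (nat_lit 0) (XT.nd (nat_lit 78) (nat_lit 0) (nat_lit 0) (XT.lf (nat_lit 0) (nat_lit 6451109479) (nat_lit 1520) (nat_lit 1766576008) (nat_lit 1596) (nat_lit 622471191) (nat_lit 571) (nat_lit 5) (nat_lit 591) (nat_lit 5) (nat_lit 592) (nat_lit 5) (nat_lit 564) (nat_lit 546) (nat_lit 450)) (XT.lf (nat_lit 76) (nat_lit 3118941170) (nat_lit 0) (nat_lit 4861339790) (nat_lit 1596) (nat_lit 934732773)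 (nat_lit 572) (nat_lit 5) (nat_lit 571) (nat_lit 5) (nat_lit 592) (nat_lit 5) (nat_lit 565) (nat_lit 546) (nat_lit 449))) (XT.nd (nat_lit 78) (nat_lit 0) (nat_lit 76) (XT.lf (nat_lit 0) (nat_lit 527652666) (nat_lit 1596) (nat_lit 888289712) (nat_lit 1672) (nat_lit 7575632378) (nat_lit 550) (nat_lit 5) (nat_lit 571) (nat_lit 5) (nat_lit 572) (nat_lit 5) (nat_lit 566) (nat_lit 546) (nat_lit 448)) (XT.nd (nat_lit 78) (nat_lit 0) (nat_lit 0) (XT.lf (nat_lit 0) (nat_lit 2022338477) (nat_lit 1596) (nat_lit 4936799900) (nat_lit 1672) (nat_lit 2110095325) (nat_lit 551) (nat_lit 5) (nat_lit 572) (nat_lit 5) (nat_lit 573) (nat_lit 5) (nat_lit 567) (nat_lit 546) (nat_lit 447)) (XT.lf (nat_lit 76) (nat_lit 89383815) (nat_lit 0) (nat_lit 3448652658) (nat_lit 1672) (nat_lit 5610588604) (nat_lit 552) (nat_lit 5) (nat_lit 551) (nat_lit 5) (nat_lit 573) (nat_lit 5) (nat_lit 568) (nat_lit 546) (nat_lit 446))))) (XT.nd (nat_lit 156) (nat_lit 1748) (nat_lit 0) (XT.nd (nat_lit 78) (nat_lit 1596) (nat_lit 0) (XT.lf (nat_lit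 0) (nat_lit 5093806713) (nat_lit 1596) (nat_lit 3967059633) (nat_lit 76) (nat_lit 168544354) (nat_lit 552) (nat_lit 5) (nat_lit 573) (nat_lit 5) (nat_lit 553) (nat_lit 5) (nat_lit 569) (nat_lit 546) (nat_lit 445)) (XT.lf (nat_lit 0) (nat_lit 1200208954) (nat_lit 1596) (nat_lit 5487147120) (nat_lit 1672) (nat_lit 2624324243) (nat_lit 531) (nat_lit 5) (nat_lit 552) (nat_lit 5) (nat_lit 553) (nat_lit 5) (nat_lit 570) (nat_lit 546) (nat_lit 444))) (XT.nd (nat_lit 78) (nat_lit 1748) (nat_lit 0) (XT.lf (nat_lit 0) (nat_lit 6505067915) (nat_lit 1596) (nat_lit 1810705126) (nat_lit 1672) (nat_lit 1079763878) (nat_lit 531) (nat_lit 5) (nat_lit 552) (nat_lit 5) (nat_lit 553) (nat_lit 5) (nat_lit 571) (nat_lit 546) (nat_lit 443)) (XT.nd (nat_lit 78) (nat_lit 0) (nat_lit 0) (XT.lf (nat_lit 0) (nat_lit 494483290) (nat_lit 1748) (nat_lit 7049564100) (nat_lit 76) (nat_lit 1936854429) (nat_lit 508) (nat_lit 5) (nat_lit 531) (nat_lit 5) (nat_lit 509) (nat_lit 5) (nat_lit 572) (nat_lit 546) (nat_lit 442)) (XT.lf (nat_lit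 0) (nat_lit 2094326653) (nat_lit 1748) (nat_lit 1707909840) (nat_lit 76) (nat_lit 5765424832) (nat_lit 508) (nat_lit 5) (nat_lit 531) (nat_lit 5) (nat_lit 509) (nat_lit 5) (nat_lit 573) (nat_lit 546) (nat_lit 441)))))) (XT.nd (nat_lit 390) (nat_lit 3572) (nat_lit 0) (XT.nd (nat_lit 156) (nat_lit 2964) (nat_lit 0) (XT.nd (nat_lit 78) (nat_lit 0) (nat_lit 0) (XT.lf (nat_lit 0) (nat_lit 3728413392) (nat_lit 1824) (nat_lit 5885790326) (nat_lit 76) (nat_lit 41908781) (nat_lit 485) (nat_lit 5) (nat_lit 509) (nat_lit 5) (nat_lit 486) (nat_lit 5) (nat_lit 574) (nat_lit 546) (nat_lit 440)) (XT.lf (nat_lit 0) (nat_lit 5409723534) (nat_lit 1824) (nat_lit 409852267) (nat_lit 76) (nat_lit 3926467443) (nat_lit 485) (nat_lit 5) (nat_lit 509) (nat_lit 5) (nat_lit 486) (nat_lit 5) (nat_lit 575) (nat_lit 546) (nat_lit 439))) (XT.nd (nat_lit 78) (nat_lit 1140) (nat_lit 0) (XT.lf (nat_lit 0) (nat_lit 5224753120) (nat_lit 1824) (nat_lit 1912088559) (nat_lit 1900) (nat_lit 2700688643) (nat_lit 461) (nat_lit 5) (nat_lit 485)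 (nat_lit 5) (nat_lit 486) (nat_lit 5) (nat_lit 576) (nat_lit 546) (nat_lit 438)) (XT.nd (nat_lit 78) (nat_lit 76) (nat_lit 0) (XT.lf (nat_lit 0) (nat_lit 1027111935) (nat_lit 1064) (nat_lit 7872865123) (nat_lit 1140) (nat_lit 1030841915) (nat_lit 447) (nat_lit 5) (nat_lit 461) (nat_lit 5) (nat_lit 462) (nat_lit 5) (nat_lit 577) (nat_lit 546) (nat_lit 437)) (XT.lf (nat_lit 0) (nat_lit 686131721) (nat_lit 1140) (nat_lit 3220107885) (nat_lit 76) (nat_lit 6119196779) (nat_lit 446) (nat_lit 5) (nat_lit 461) (nat_lit 5) (nat_lit 447) (nat_lit 5) (nat_lit 578) (nat_lit 546) (nat_lit 436))))) (XT.nd (nat_lit 234) (nat_lit 1748) (nat_lit 0) (XT.nd (nat_lit 78) (nat_lit 912) (nat_lit 0) (XT.lf (nat_lit 0) (nat_lit 2420653209) (nat_lit 988) (nat_lit 7538185779) (nat_lit 76) (nat_lit 163031904) (nat_lit 434) (nat_lit 5) (nat_lit 447) (nat_lit 5) (nat_lit 435) (nat_lit 5) (nat_lit 579) (nat_lit 546) (nat_lit 435)) (XT.nd (nat_lit 78) (nat_lit 912) (nat_lit 0) (XT.lf (nat_lit 0) (nat_lit 4216921281) (nat_lit 988) (nat_lit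 1718360706) (nat_lit 76) (nat_lit 4284412206) (nat_lit 434) (nat_lit 5) (nat_lit 447) (nat_lit 5) (nat_lit 435) (nat_lit 5) (nat_lit 580) (nat_lit 546) (nat_lit 434)) (XT.lf (nat_lit 0) (nat_lit 4254294020) (nat_lit 912) (nat_lit 1802280915) (nat_lit 988) (nat_lit 4262751024) (nat_lit 422) (nat_lit 5) (nat_lit 434) (nat_lit 5) (nat_lit 435) (nat_lit 5) (nat_lit 581) (nat_lit 546) (nat_lit 433)))) (XT.nd (nat_lit 78) (nat_lit 1748) (nat_lit 0) (XT.lf (nat_lit 0) (nat_lit 7940411613) (nat_lit 988) (nat_lit 86409243) (nat_lit 76) (nat_lit 2393982883) (nat_lit 422) (nat_lit 5) (nat_lit 435) (nat_lit 5) (nat_lit 423) (nat_lit 5) (nat_lit 582) (nat_lit 546) (nat_lit 432)) (XT.nd (nat_lit 78) (nat_lit 912) (nat_lit 0) (XT.lf (nat_lit 0) (nat_lit 6060075775) (nat_lit 836) (nat_lit 3833634069) (nat_lit 912) (nat_lit 629966691) (nat_lit 411) (nat_lit 5) (nat_lit 422) (nat_lit 5) (nat_lit 423) (nat_lit 5) (nat_lit 583) (nat_lit 546) (nat_lit 431)) (XT.lf (nat_lit 0) (nat_lit 1236218029) (nat_lit 912) (nat_lit 8934843132)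 (nat_lit 76) (nat_lit 457478595) (nat_lit 399) (nat_lit 5) (nat_lit 411) (nat_lit 5) (nat_lit 400) (nat_lit 5) (nat_lit 584) (nat_lit 546) (nat_lit 430))))))))
noncomputable def xc120 : XT := (XT.nd (nat_lit 1560) (nat_lit 2964) (nat_lit 0) (XT.nd (nat_lit 780) (nat_lit 4028) (nat_lit 0) (XT.nd (nat_lit 390) (nat_lit 2204) (nat_lit 0) (XT.nd (nat_lit 156) (nat_lit 1672) (nat_lit 0) (XT.nd (nat_lit 78) (nat_lit 836) (nat_lit 0) (XT.lf (nat_lit 0) (nat_lit 3167725362) (nat_lit 912) (nat_lit 2749654740) (nat_lit 76) (nat_lit 4817309265) (nat_lit 399) (nat_lit 5) (nat_lit 411) (nat_lit 5) (nat_lit 400) (nat_lit 5) (nat_lit 585) (nat_lit 546) (nat_lit 429)) (XT.lf (nat_lit 0) (nat_lit 3587026856) (nat_lit 836) (nat_lit 1555386624) (nat_lit 912) (nat_lit 5700458546) (nat_lit 388) (nat_lit 5) (nat_lit 399) (nat_lit 5) (nat_lit 400) (nat_lit 5) (nat_lit 586) (nat_lit 546) (nat_lit 428))) (XT.nd (nat_lit 78) (nat_lit 1672) (nat_lit 0) (XT.lf (nat_lit 0) (nat_lit 7175458362) (nat_lit 912) (nat_lit 903541129) (nat_lit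 76) (nat_lit 2873842633) (nat_lit 388) (nat_lit 5) (nat_lit 400) (nat_lit 5) (nat_lit 389) (nat_lit 5) (nat_lit 587) (nat_lit 546) (nat_lit 427)) (XT.nd (nat_lit 78) (nat_lit 836) (nat_lit 0) (XT.lf (nat_lit 0) (nat_lit 5620104121) (nat_lit 836) (nat_lit 3657713178) (nat_lit 912) (nat_lit 1786622288) (nat_lit 377) (nat_lit 5) (nat_lit 388) (nat_lit 5) (nat_lit 389) (nat_lit 5) (nat_lit 588) (nat_lit 546) (nat_lit 426)) (XT.lf (nat_lit 0) (nat_lit 241610847) (nat_lit 836) (nat_lit 10082033478) (nat_lit 76) (nat_lit 854576864) (nat_lit 366) (nat_lit 5) (nat_lit 377) (nat_lit 5) (nat_lit 367) (nat_lit 5) (nat_lit 589) (nat_lit 546) (nat_lit 425))))) (XT.nd (nat_lit 156) (nat_lit 1444) (nat_lit 0) (XT.nd (nat_lit 78) (nat_lit 760) (nat_lit 0) (XT.lf (nat_lit 0) (nat_lit 2329704542) (nat_lit 836) (nat_lit 3507973760) (nat_lit 76) (nat_lit 5455500521) (nat_lit 366) (nat_lit 5) (nat_lit 377) (nat_lit 5) (nat_lit 367) (nat_lit 5) (nat_lit 590) (nat_lit 546) (nat_lit 424)) (XT.lf (nat_lit 0) (nat_lit 3220739467)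 (nat_lit 760) (nat_lit 1242277735) (nat_lit 836) (nat_lit 6947350214) (nat_lit 356) (nat_lit 5) (nat_lit 366) (nat_lit 5) (nat_lit 367) (nat_lit 5) (nat_lit 591) (nat_lit 546) (nat_lit 423))) (XT.nd (nat_lit 78) (nat_lit 1444) (nat_lit 0) (XT.lf (nat_lit 0) (nat_lit 6667813862) (nat_lit 836) (nat_lit 1439651180) (nat_lit 76) (nat_lit 3421859314) (nat_lit 356) (nat_lit 5) (nat_lit 367) (nat_lit 5) (nat_lit 357) (nat_lit 5) (nat_lit 592) (nat_lit 546) (nat_lit 422)) (XT.nd (nat_lit 78) (nat_lit 760) (nat_lit 0) (XT.lf (nat_lit 0) (nat_lit 5490203766) (nat_lit 684) (nat_lit 3453467966) (nat_lit 760) (nat_lit 2706450308) (nat_lit 347) (nat_lit 5) (nat_lit 356) (nat_lit 5) (nat_lit 357) (nat_lit 5) (nat_lit 593) (nat_lit 546) (nat_lit 421)) (XT.lf (nat_lit 0) (nat_lit 787801008) (nat_lit 760) (nat_lit 10483772812) (nat_lit 836) (nat_lit 501632210) (nat_lit 337) (nat_lit 5) (nat_lit 347) (nat_lit 5) (nat_lit 348) (nat_lit 5) (nat_lit 594) (nat_lit 546) (nat_lit 420)))))) (XT.nd (nat_lit 390) (nat_lit 1976) (nat_lit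 0) (XT.nd (nat_lit 156) (nat_lit 1292) (nat_lit 0) (XT.nd (nat_lit 78) (nat_lit 684) (nat_lit 0) (XT.lf (nat_lit 0) (nat_lit 1772229715) (nat_lit 836) (nat_lit 3993632355) (nat_lit 76) (nat_lit 6131706330) (nat_lit 336) (nat_lit 5) (nat_lit 347) (nat_lit 5) (nat_lit 337) (nat_lit 5) (nat_lit 595) (nat_lit 546) (nat_lit 419)) (XT.lf (nat_lit 0) (nat_lit 3157245404) (nat_lit 684) (nat_lit 931820355) (nat_lit 760) (nat_lit 7935202511) (nat_lit 327) (nat_lit 5) (nat_lit 336) (nat_lit 5) (nat_lit 337) (nat_lit 5) (nat_lit 596) (nat_lit 546) (nat_lit 418))) (XT.nd (nat_lit 78) (nat_lit 1292) (nat_lit 0) (XT.lf (nat_lit 0) (nat_lit 6489068632) (nat_lit 760) (nat_lit 1692829860) (nat_lit 76) (nat_lit 3970867868) (nat_lit 327) (nat_lit 5) (nat_lit 337) (nat_lit 5) (nat_lit 328) (nat_lit 5) (nat_lit 597) (nat_lit 546) (nat_lit 417)) (XT.nd (nat_lit 78) (nat_lit 608) (nat_lit 0) (XT.lf (nat_lit 0) (nat_lit 5674472081) (nat_lit 684) (nat_lit 3289818527) (nat_lit 760) (nat_lit 3319000232) (nat_lit 318) (nat_lit 5) (nat_lit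 327) (nat_lit 5) (nat_lit 328) (nat_lit 5) (nat_lit 598) (nat_lit 546) (nat_lit 416)) (XT.lf (nat_lit 0) (nat_lit 776136762) (nat_lit 608) (nat_lit 10724769021) (nat_lit 684) (nat_lit 915283045) (nat_lit 310) (nat_lit 5) (nat_lit 318) (nat_lit 5) (nat_lit 319) (nat_lit 5) (nat_lit 599) (nat_lit 546) (nat_lit 415))))) (XT.nd (nat_lit 156) (nat_lit 1216) (nat_lit 0) (XT.nd (nat_lit 78) (nat_lit 684) (nat_lit 0) (XT.lf (nat_lit 0) (nat_lit 1567244582) (nat_lit 684) (nat_lit 4203419561) (nat_lit 76) (nat_lit 6779864121) (nat_lit 309) (nat_lit 5) (nat_lit 318) (nat_lit 5) (nat_lit 310) (nat_lit 5) (nat_lit 600) (nat_lit 546) (nat_lit 414)) (XT.lf (nat_lit 0) (nat_lit 3401991235) (nat_lit 684) (nat_lit 692038515) (nat_lit 760) (nat_lit 8593267233) (nat_lit 300) (nat_lit 5) (nat_lit 309) (nat_lit 5) (nat_lit 310) (nat_lit 5) (nat_lit 601) (nat_lit 546) (nat_lit 413))) (XT.nd (nat_lit 78) (nat_lit 1216) (nat_lit 0) (XT.lf (nat_lit 0) (nat_lit 6713805620) (nat_lit 760) (nat_lit 1657744221) (nat_lit 76) (nat_lit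 4454402870) (nat_lit 300) (nat_lit 5) (nat_lit 310) (nat_lit 5) (nat_lit 301) (nat_lit 5) (nat_lit 602) (nat_lit 546) (nat_lit 412)) (XT.nd (nat_lit 78) (nat_lit 608) (nat_lit 0) (XT.lf (nat_lit 0) (nat_lit 6180541392) (nat_lit 608) (nat_lit 3235363420) (nat_lit 684) (nat_lit 3550878902) (nat_lit 292) (nat_lit 5) (nat_lit 300) (nat_lit 5) (nat_lit 301) (nat_lit 5) (nat_lit 603) (nat_lit 546) (nat_lit 411)) (XT.lf (nat_lit 0) (nat_lit 1070358589) (nat_lit 608) (nat_lit 11118208467) (nat_lit 684) (nat_lit 921534565) (nat_lit 284) (nat_lit 5) (nat_lit 292) (nat_lit 5) (nat_lit 293) (nat_lit 5) (nat_lit 604) (nat_lit 546) (nat_lit 410))))))) (XT.nd (nat_lit 76752) (nat_lit 0) (nat_lit 25916) (XT.nd (nat_lit 390) (nat_lit 1140) (nat_lit 0) (XT.nd (nat_lit 156) (nat_lit 1140) (nat_lit 0) (XT.nd (nat_lit 78) (nat_lit 608) (nat_lit 0) (XT.lf (nat_lit 0) (nat_lit 1790012508) (nat_lit 684) (nat_lit 4130976952) (nat_lit 76) (nat_lit 7334014434) (nat_lit 283) (nat_lit 5) (nat_lit 292) (nat_lit 5) (nat_lit 284) (nat_lit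 5) (nat_lit 605) (nat_lit 546) (nat_lit 409)) (XT.lf (nat_lit 0) (nat_lit 3963684064) (nat_lit 608) (nat_lit 591235745) (nat_lit 684) (nat_lit 8847533868) (nat_lit 275) (nat_lit 5) (nat_lit 283) (nat_lit 5) (nat_lit 284) (nat_lit 5) (nat_lit 606) (nat_lit 546) (nat_lit 408))) (XT.nd (nat_lit 78) (nat_lit 1140) (nat_lit 0) (XT.lf (nat_lit 0) (nat_lit 7420347105) (nat_lit 684) (nat_lit 1326004426) (nat_lit 76) (nat_lit 4805597140) (nat_lit 275) (nat_lit 5) (nat_lit 284) (nat_lit 5) (nat_lit 276) (nat_lit 5) (nat_lit 607) (nat_lit 546) (nat_lit 407)) (XT.nd (nat_lit 78) (nat_lit 532) (nat_lit 0) (XT.lf (nat_lit 0) (nat_lit 7019217822) (nat_lit 608) (nat_lit 3359490820) (nat_lit 684) (nat_lit 3325013045) (nat_lit 267) (nat_lit 5) (nat_lit 275) (nat_lit 5) (nat_lit 276) (nat_lit 5) (nat_lit 608) (nat_lit 546) (nat_lit 406)) (XT.lf (nat_lit 0) (nat_lit 1681020997) (nat_lit 532) (nat_lit 11735216560) (nat_lit 608) (nat_lit 441893231) (nat_lit 260) (nat_lit 5) (nat_lit 267) (nat_lit 5) (nat_lit 268) (nat_lit 5)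 (nat_lit 609) (nat_lit 546) (nat_lit 405))))) (XT.nd (nat_lit 156) (nat_lit 532) (nat_lit 0) (XT.nd (nat_lit 78) (nat_lit 532) (nat_lit 0) (XT.lf (nat_lit 0) (nat_lit 2519845868) (nat_lit 608) (nat_lit 3767168654) (nat_lit 76) (nat_lit 7727215054) (nat_lit 259) (nat_lit 5) (nat_lit 267) (nat_lit 5) (nat_lit 260) (nat_lit 5) (nat_lit 610) (nat_lit 546) (nat_lit 404)) (XT.lf (nat_lit 0) (nat_lit 4853926062) (nat_lit 532) (nat_lit 699093629) (nat_lit 608) (nat_lit 8620010484) (nat_lit 252) (nat_lit 5) (nat_lit 259) (nat_lit 5) (nat_lit 260) (nat_lit 5) (nat_lit 611) (nat_lit 546) (nat_lit 403))) (XT.nd (nat_lit 78) (nat_lit 532) (nat_lit 0) (XT.lf (nat_lit 0) (nat_lit 8691487193) (nat_lit 608) (nat_lit 686527111) (nat_lit 76) (nat_lit 4956100454) (nat_lit 252) (nat_lit 5) (nat_lit 260) (nat_lit 5) (nat_lit 253) (nat_lit 5) (nat_lit 612) (nat_lit 546) (nat_lit 402)) (XT.nd (nat_lit 76050) (nat_lit 0) (nat_lit 27208) (XT.lf (nat_lit 0) (nat_lit 8204122148) (nat_lit 532) (nat_lit 3733474713) (nat_lit 608) (nat_lit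 2559927282) (nat_lit 245) (nat_lit 5) (nat_lit 252) (nat_lit 5) (nat_lit 253) (nat_lit 5) (nat_lit 613) (nat_lit 546) (nat_lit 401)) (XT.lf (nat_lit 0) (nat_lit 271498593) (nat_lit 1444) (nat_lit 1821726602) (nat_lit 1444) (nat_lit 1821726602) (nat_lit 603) (nat_lit 3) (nat_lit 622) (nat_lit 3) (nat_lit 622) (nat_lit 5) (nat_lit 547) (nat_lit 547) (nat_lit 466)))))) (XT.nd (nat_lit 390) (nat_lit 1292) (nat_lit 0) (XT.nd (nat_lit 156) (nat_lit 0) (nat_lit 76) (XT.nd (nat_lit 78) (nat_lit 0) (nat_lit 76) (XT.lf (nat_lit 76) (nat_lit 246904804) (nat_lit 0) (nat_lit 1592834952) (nat_lit 1444) (nat_lit 6042543111) (nat_lit 604) (nat_lit 5) (nat_lit 603) (nat_lit 3) (nat_lit 622) (nat_lit 5) (nat_lit 548) (nat_lit 547) (nat_lit 465)) (XT.lf (nat_lit 0) (nat_lit 3160026909) (nat_lit 1368) (nat_lit 3696031004) (nat_lit 1444) (nat_lit 1079702067) (nat_lit 604) (nat_lit 5) (nat_lit 622) (nat_lit 5) (nat_lit 623) (nat_lit 5) (nat_lit 549) (nat_lit 547) (nat_lit 464))) (XT.nd (nat_lit 78) (nat_lit 0) (nat_lit 0) (XT.lf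 (nat_lit 76) (nat_lit 297543248) (nat_lit 0) (nat_lit 4188484241) (nat_lit 1444) (nat_lit 3504695399) (nat_lit 605) (nat_lit 5) (nat_lit 604) (nat_lit 5) (nat_lit 623) (nat_lit 5) (nat_lit 550) (nat_lit 547) (nat_lit 463)) (XT.nd (nat_lit 78) (nat_lit 0) (nat_lit 76) (XT.lf (nat_lit 76) (nat_lit 4403294006) (nat_lit 0) (nat_lit 1427418553) (nat_lit 1444) (nat_lit 2216231561) (nat_lit 605) (nat_lit 5) (nat_lit 604) (nat_lit 5) (nat_lit 623) (nat_lit 5) (nat_lit 551) (nat_lit 547) (nat_lit 462)) (XT.lf (nat_lit 76) (nat_lit 465777841) (nat_lit 0) (nat_lit 6716651683) (nat_lit 1444) (nat_lit 922259802) (nat_lit 606) (nat_lit 5) (nat_lit 605) (nat_lit 5) (nat_lit 624) (nat_lit 5) (nat_lit 552) (nat_lit 547) (nat_lit 461))))) (XT.nd (nat_lit 156) (nat_lit 0) (nat_lit 76) (XT.nd (nat_lit 78) (nat_lit 0) (nat_lit 0) (XT.lf (nat_lit 0) (nat_lit 394837470) (nat_lit 1444) (nat_lit 3486997957) (nat_lit 1520) (nat_lit 4281655392) (nat_lit 586) (nat_lit 5) (nat_lit 605) (nat_lit 5) (nat_lit 606) (nat_lit 5) (nat_lit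 553) (nat_lit 547) (nat_lit 460)) (XT.lf (nat_lit 76) (nat_lit 733340451) (nat_lit 0) (nat_lit 966374487) (nat_lit 1520) (nat_lit 6524157911) (nat_lit 587) (nat_lit 5) (nat_lit 586) (nat_lit 5) (nat_lit 606) (nat_lit 5) (nat_lit 554) (nat_lit 547) (nat_lit 459))) (XT.nd (nat_lit 78) (nat_lit 0) (nat_lit 0) (XT.lf (nat_lit 0) (nat_lit 3036864051) (nat_lit 1444) (nat_lit 3231527533) (nat_lit 1520) (nat_lit 2016949591) (nat_lit 587) (nat_lit 5) (nat_lit 606) (nat_lit 5) (nat_lit 607) (nat_lit 5) (nat_lit 555) (nat_lit 547) (nat_lit 458)) (XT.nd (nat_lit 78) (nat_lit 0) (nat_lit 0) (XT.lf (nat_lit 76) (nat_lit 1102384692) (nat_lit 0) (nat_lit 3282111240) (nat_lit 1520) (nat_lit 3963870232) (nat_lit 588) (nat_lit 5) (nat_lit 587) (nat_lit 5) (nat_lit 607) (nat_lit 5) (nat_lit 556) (nat_lit 547) (nat_lit 457)) (XT.lf (nat_lit 76) (nat_lit 5548569085) (nat_lit 0) (nat_lit 202845582) (nat_lit 1520) (nat_lit 2661392354) (nat_lit 588) (nat_lit 5) (nat_lit 587) (nat_lit 5) (nat_lit 607) (nat_lit 5) (nat_lit 557) (nat_lit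 547) (nat_lit 456))))))))
noncomputable def xc121 : XT := (XT.nd (nat_lit 1560) (nat_lit 10184) (nat_lit 0) (XT.nd (nat_lit 780) (nat_lit 6764) (nat_lit 0) (XT.nd (nat_lit 390) (nat_lit 1368) (nat_lit 0) (XT.nd (nat_lit 156) (nat_lit 0) (nat_lit 76) (XT.nd (nat_lit 78) (nat_lit 1520) (nat_lit 0) (XT.lf (nat_lit 76) (nat_lit 1588395426) (nat_lit 0) (nat_lit 5557960139) (nat_lit 1520) (nat_lit 1332169467) (nat_lit 589) (nat_lit 5) (nat_lit 588) (nat_lit 5) (nat_lit 608) (nat_lit 5) (nat_lit 558) (nat_lit 547) (nat_lit 455)) (XT.lf (nat_lit 0) (nat_lit 15568828) (nat_lit 1520) (nat_lit 2396650103) (nat_lit 1596) (nat_lit 6133492517) (nat_lit 568) (nat_lit 5) (nat_lit 588) (nat_lit 5) (nat_lit 589) (nat_lit 5) (nat_lit 559) (nat_lit 547) (nat_lit 454))) (XT.nd (nat_lit 78) (nat_lit 0) (nat_lit 0) (XT.lf (nat_lit 0) (nat_lit 1364140775) (nat_lit 1520) (nat_lit 6431542967) (nat_lit 1596) (nat_lit 818549301) (nat_lit 569) (nat_lit 5) (nat_lit 589) (nat_lit 5) (nat_lit 590) (nat_lit 5) (nat_lit 560) (nat_lit 547)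 (nat_lit 453)) (XT.nd (nat_lit 78) (nat_lit 0) (nat_lit 0) (XT.lf (nat_lit 0) (nat_lit 2744444014) (nat_lit 1520) (nat_lit 1832662541) (nat_lit 1596) (nat_lit 4106925177) (nat_lit 569) (nat_lit 5) (nat_lit 589) (nat_lit 5) (nat_lit 590) (nat_lit 5) (nat_lit 561) (nat_lit 547) (nat_lit 452)) (XT.lf (nat_lit 76) (nat_lit 2877421688) (nat_lit 0) (nat_lit 1266746701) (nat_lit 1596) (nat_lit 4611223527) (nat_lit 570) (nat_lit 5) (nat_lit 569) (nat_lit 5) (nat_lit 590) (nat_lit 5) (nat_lit 562) (nat_lit 547) (nat_lit 451))))) (XT.nd (nat_lit 156) (nat_lit 1520) (nat_lit 0) (XT.nd (nat_lit 78) (nat_lit 0) (nat_lit 0) (XT.lf (nat_lit 0) (nat_lit 5571557922) (nat_lit 1520) (nat_lit 1154136607) (nat_lit 1596) (nat_lit 2102493148) (nat_lit 570) (nat_lit 5) (nat_lit 590) (nat_lit 5) (nat_lit 591) (nat_lit 5) (nat_lit 563) (nat_lit 547) (nat_lit 450)) (XT.lf (nat_lit 76) (nat_lit 3685519619) (nat_lit 0) (nat_lit 3348404045) (nat_lit 1596) (nat_lit 1868388872) (nat_lit 571) (nat_lit 5) (nat_lit 570) (nat_lit 5) (nat_lit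 591) (nat_lit 5) (nat_lit 564) (nat_lit 547) (nat_lit 449))) (XT.nd (nat_lit 78) (nat_lit 1596) (nat_lit 0) (XT.lf (nat_lit 0) (nat_lit 8508502767) (nat_lit 1520) (nat_lit 359865036) (nat_lit 1596) (nat_lit 109894488) (nat_lit 571) (nat_lit 5) (nat_lit 591) (nat_lit 5) (nat_lit 592) (nat_lit 5) (nat_lit 565) (nat_lit 547) (nat_lit 448)) (XT.nd (nat_lit 78) (nat_lit 0) (nat_lit 0) (XT.lf (nat_lit 0) (nat_lit 971645679) (nat_lit 1596) (nat_lit 4447706282) (nat_lit 1672) (nat_lit 3635709431) (nat_lit 550) (nat_lit 5) (nat_lit 571) (nat_lit 5) (nat_lit 572) (nat_lit 5) (nat_lit 566) (nat_lit 547) (nat_lit 447)) (XT.lf (nat_lit 76) (nat_lit 530408196) (nat_lit 0) (nat_lit 1886308673) (nat_lit 1672) (nat_lit 6716996563) (nat_lit 551) (nat_lit 5) (nat_lit 550) (nat_lit 5) (nat_lit 572) (nat_lit 5) (nat_lit 567) (nat_lit 547) (nat_lit 446)))))) (XT.nd (nat_lit 390) (nat_lit 5244) (nat_lit 0) (XT.nd (nat_lit 156) (nat_lit 1596) (nat_lit 0) (XT.nd (nat_lit 78) (nat_lit 0) (nat_lit 0) (XT.lf (nat_lit 0) (nat_lit 3907531769)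 (nat_lit 1596) (nat_lit 3575587537) (nat_lit 1672) (nat_lit 1730483949) (nat_lit 551) (nat_lit 5) (nat_lit 572) (nat_lit 5) (nat_lit 573) (nat_lit 5) (nat_lit 568) (nat_lit 547) (nat_lit 445)) (XT.lf (nat_lit 76) (nat_lit 1541514929) (nat_lit 0) (nat_lit 3885273887) (nat_lit 1672) (nat_lit 3868331096) (nat_lit 552) (nat_lit 5) (nat_lit 551) (nat_lit 5) (nat_lit 573) (nat_lit 5) (nat_lit 569) (nat_lit 547) (nat_lit 444))) (XT.nd (nat_lit 78) (nat_lit 1596) (nat_lit 0) (XT.lf (nat_lit 76) (nat_lit 6790657062) (nat_lit 0) (nat_lit 186239482) (nat_lit 1672) (nat_lit 2401362572) (nat_lit 552) (nat_lit 5) (nat_lit 551) (nat_lit 5) (nat_lit 573) (nat_lit 5) (nat_lit 570) (nat_lit 547) (nat_lit 443)) (XT.nd (nat_lit 78) (nat_lit 76) (nat_lit 0) (XT.lf (nat_lit 0) (nat_lit 2674615779) (nat_lit 1596) (nat_lit 5901006851) (nat_lit 1672) (nat_lit 887087646) (nat_lit 531) (nat_lit 5) (nat_lit 552) (nat_lit 5) (nat_lit 553) (nat_lit 5) (nat_lit 571) (nat_lit 547) (nat_lit 442)) (XT.lf (nat_lit 0) (nat_lit 644703545)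 (nat_lit 1672) (nat_lit 1496043097) (nat_lit 76) (nat_lit 7408102806) (nat_lit 530) (nat_lit 5) (nat_lit 552) (nat_lit 5) (nat_lit 531) (nat_lit 5) (nat_lit 572) (nat_lit 547) (nat_lit 441))))) (XT.nd (nat_lit 156) (nat_lit 3572) (nat_lit 0) (XT.nd (nat_lit 78) (nat_lit 0) (nat_lit 0) (XT.lf (nat_lit 0) (nat_lit 2209596395) (nat_lit 1748) (nat_lit 5718969383) (nat_lit 76) (nat_lit 1707742882) (nat_lit 508) (nat_lit 5) (nat_lit 531) (nat_lit 5) (nat_lit 509) (nat_lit 5) (nat_lit 573) (nat_lit 547) (nat_lit 440)) (XT.lf (nat_lit 0) (nat_lit 3808000871) (nat_lit 1748) (nat_lit 299336665) (nat_lit 76) (nat_lit 5618136627) (nat_lit 508) (nat_lit 5) (nat_lit 531) (nat_lit 5) (nat_lit 509) (nat_lit 5) (nat_lit 574) (nat_lit 547) (nat_lit 439))) (XT.nd (nat_lit 78) (nat_lit 1824) (nat_lit 0) (XT.lf (nat_lit 0) (nat_lit 5279255189) (nat_lit 1748) (nat_lit 171758318) (nat_lit 1824) (nat_lit 4365158023) (nat_lit 485) (nat_lit 5) (nat_lit 508) (nat_lit 5) (nat_lit 509) (nat_lit 5) (nat_lit 575) (nat_lit 547) (nat_lit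 438)) (XT.nd (nat_lit 78) (nat_lit 0) (nat_lit 0) (XT.lf (nat_lit 0) (nat_lit 1034444038) (nat_lit 1824) (nat_lit 6104814458) (nat_lit 1900) (nat_lit 2769178231) (nat_lit 461) (nat_lit 5) (nat_lit 485) (nat_lit 5) (nat_lit 486) (nat_lit 5) (nat_lit 576) (nat_lit 547) (nat_lit 437)) (XT.lf (nat_lit 0) (nat_lit 6758707992) (nat_lit 1824) (nat_lit 2113116418) (nat_lit 1900) (nat_lit 1130513001) (nat_lit 461) (nat_lit 5) (nat_lit 485) (nat_lit 5) (nat_lit 486) (nat_lit 5) (nat_lit 577) (nat_lit 547) (nat_lit 436))))))) (XT.nd (nat_lit 780) (nat_lit 4636) (nat_lit 0) (XT.nd (nat_lit 390) (nat_lit 2584) (nat_lit 0) (XT.nd (nat_lit 156) (nat_lit 1824) (nat_lit 0) (XT.nd (nat_lit 78) (nat_lit 0) (nat_lit 0) (XT.lf (nat_lit 0) (nat_lit 542242230) (nat_lit 1140) (nat_lit 7601024663) (nat_lit 76) (nat_lit 1954612006) (nat_lit 446) (nat_lit 5) (nat_lit 461) (nat_lit 5) (nat_lit 447) (nat_lit 5) (nat_lit 578) (nat_lit 547) (nat_lit 435)) (XT.lf (nat_lit 0) (nat_lit 2248786623) (nat_lit 1140) (nat_lit 1839480878) (nat_lit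 76) (nat_lit 6106606055) (nat_lit 446) (nat_lit 5) (nat_lit 461) (nat_lit 5) (nat_lit 447) (nat_lit 5) (nat_lit 579) (nat_lit 547) (nat_lit 434))) (XT.nd (nat_lit 78) (nat_lit 912) (nat_lit 0) (XT.lf (nat_lit 0) (nat_lit 3996348028) (nat_lit 988) (nat_lit 6222178727) (nat_lit 76) (nat_lit 75144831) (nat_lit 434) (nat_lit 5) (nat_lit 447) (nat_lit 5) (nat_lit 435) (nat_lit 5) (nat_lit 580) (nat_lit 547) (nat_lit 433)) (XT.nd (nat_lit 78) (nat_lit 912) (nat_lit 0) (XT.lf (nat_lit 0) (nat_lit 5798594759) (nat_lit 988) (nat_lit 314717364) (nat_lit 76) (nat_lit 4280739949) (nat_lit 434) (nat_lit 5) (nat_lit 447) (nat_lit 5) (nat_lit 435) (nat_lit 5) (nat_lit 581) (nat_lit 547) (nat_lit 432)) (XT.lf (nat_lit 0) (nat_lit 5767929861) (nat_lit 912) (nat_lit 1887027208) (nat_lit 988) (nat_lit 2841122843) (nat_lit 422) (nat_lit 5) (nat_lit 434) (nat_lit 5) (nat_lit 435) (nat_lit 5) (nat_lit 582) (nat_lit 547) (nat_lit 431))))) (XT.nd (nat_lit 156) (nat_lit 1672) (nat_lit 0) (XT.nd (nat_lit 78) (nat_lit 76) (nat_lit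 0) (XT.lf (nat_lit 0) (nat_lit 1359594608) (nat_lit 836) (nat_lit 8196427567) (nat_lit 912) (nat_lit 1043975756) (nat_lit 411) (nat_lit 5) (nat_lit 422) (nat_lit 5) (nat_lit 423) (nat_lit 5) (nat_lit 583) (nat_lit 547) (nat_lit 430)) (XT.lf (nat_lit 0) (nat_lit 804212745) (nat_lit 912) (nat_lit 3109009906) (nat_lit 76) (nat_lit 6792161322) (nat_lit 410) (nat_lit 5) (nat_lit 422) (nat_lit 5) (nat_lit 411) (nat_lit 5) (nat_lit 584) (nat_lit 547) (nat_lit 429))) (XT.nd (nat_lit 78) (nat_lit 836) (nat_lit 0) (XT.lf (nat_lit 0) (nat_lit 2680446778) (nat_lit 912) (nat_lit 7654921192) (nat_lit 76) (nat_lit 477271610) (nat_lit 399) (nat_lit 5) (nat_lit 411) (nat_lit 5) (nat_lit 400) (nat_lit 5) (nat_lit 585) (nat_lit 547) (nat_lit 428)) (XT.nd (nat_lit 78) (nat_lit 836) (nat_lit 0) (XT.lf (nat_lit 0) (nat_lit 4622750838) (nat_lit 912) (nat_lit 1374629401) (nat_lit 76) (nat_lit 4924090198) (nat_lit 399) (nat_lit 5) (nat_lit 411) (nat_lit 5) (nat_lit 400) (nat_lit 5) (nat_lit 586) (nat_lit 547) (nat_lit 427)) (XT.lf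 (nat_lit 0) (nat_lit 5079377812) (nat_lit 836) (nat_lit 1539490785) (nat_lit 912) (nat_lit 4413310989) (nat_lit 388) (nat_lit 5) (nat_lit 399) (nat_lit 5) (nat_lit 400) (nat_lit 5) (nat_lit 587) (nat_lit 547) (nat_lit 426)))))) (XT.nd (nat_lit 390) (nat_lit 2204) (nat_lit 0) (XT.nd (nat_lit 156) (nat_lit 1596) (nat_lit 0) (XT.nd (nat_lit 78) (nat_lit 0) (nat_lit 0) (XT.lf (nat_lit 0) (nat_lit 504470069) (nat_lit 836) (nat_lit 8164745389) (nat_lit 912) (nat_lit 2475602330) (nat_lit 377) (nat_lit 5) (nat_lit 388) (nat_lit 5) (nat_lit 389) (nat_lit 5) (nat_lit 588) (nat_lit 547) (nat_lit 425)) (XT.lf (nat_lit 0) (nat_lit 7142633418) (nat_lit 836) (nat_lit 3650457056) (nat_lit 912) (nat_lit 465968843) (nat_lit 377) (nat_lit 5) (nat_lit 388) (nat_lit 5) (nat_lit 389) (nat_lit 5) (nat_lit 589) (nat_lit 547) (nat_lit 424))) (XT.nd (nat_lit 78) (nat_lit 760) (nat_lit 0) (XT.lf (nat_lit 0) (nat_lit 1568633192) (nat_lit 836) (nat_lit 8839206086) (nat_lit 76) (nat_lit 967430708) (nat_lit 366) (nat_lit 5) (nat_lit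 377) (nat_lit 5) (nat_lit 367) (nat_lit 5) (nat_lit 590) (nat_lit 547) (nat_lit 423)) (XT.nd (nat_lit 78) (nat_lit 760) (nat_lit 0) (XT.lf (nat_lit 0) (nat_lit 3672563464) (nat_lit 836) (nat_lit 2161988077) (nat_lit 76) (nat_lit 5658495147) (nat_lit 366) (nat_lit 5) (nat_lit 377) (nat_lit 5) (nat_lit 367) (nat_lit 5) (nat_lit 591) (nat_lit 547) (nat_lit 422)) (XT.lf (nat_lit 0) (nat_lit 4691982670) (nat_lit 760) (nat_lit 1140276813) (nat_lit 836) (nat_lit 5780646608) (nat_lit 356) (nat_lit 5) (nat_lit 366) (nat_lit 5) (nat_lit 367) (nat_lit 5) (nat_lit 592) (nat_lit 547) (nat_lit 421))))) (XT.nd (nat_lit 234) (nat_lit 684) (nat_lit 0) (XT.nd (nat_lit 78) (nat_lit 1520) (nat_lit 0) (XT.lf (nat_lit 0) (nat_lit 8056861814) (nat_lit 836) (nat_lit 64842718) (nat_lit 76) (nat_lit 3613024797) (nat_lit 356) (nat_lit 5) (nat_lit 367) (nat_lit 5) (nat_lit 357) (nat_lit 5) (nat_lit 593) (nat_lit 547) (nat_lit 420)) (XT.nd (nat_lit 78) (nat_lit 836) (nat_lit 0) (XT.lf (nat_lit 0) (nat_lit 6994375107) (nat_lit 684)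 (nat_lit 3368293486) (nat_lit 760) (nat_lit 1495587065) (nat_lit 347) (nat_lit 5) (nat_lit 356) (nat_lit 5) (nat_lit 357) (nat_lit 5) (nat_lit 594) (nat_lit 547) (nat_lit 419)) (XT.lf (nat_lit 0) (nat_lit 729165345) (nat_lit 836) (nat_lit 9776422333) (nat_lit 76) (nat_lit 1478402743) (nat_lit 336) (nat_lit 5) (nat_lit 347) (nat_lit 5) (nat_lit 337) (nat_lit 5) (nat_lit 595) (nat_lit 547) (nat_lit 418)))) (XT.nd (nat_lit 78) (nat_lit 684) (nat_lit 0) (XT.lf (nat_lit 0) (nat_lit 3017595510) (nat_lit 836) (nat_lit 2676084687) (nat_lit 76) (nat_lit 6417578621) (nat_lit 336) (nat_lit 5) (nat_lit 347) (nat_lit 5) (nat_lit 337) (nat_lit 5) (nat_lit 596) (nat_lit 547) (nat_lit 417)) (XT.nd (nat_lit 78) (nat_lit 0) (nat_lit 0) (XT.lf (nat_lit 0) (nat_lit 4608617073) (nat_lit 684) (nat_lit 757440545) (nat_lit 760) (nat_lit 6874730506) (nat_lit 327) (nat_lit 5) (nat_lit 336) (nat_lit 5) (nat_lit 337) (nat_lit 5) (nat_lit 597) (nat_lit 547) (nat_lit 416)) (XT.lf (nat_lit 0) (nat_lit 7791853664) (nat_lit 760) (nat_lit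 343412846) (nat_lit 76) (nat_lit 4237035005) (nat_lit 327) (nat_lit 5) (nat_lit 337) (nat_lit 5) (nat_lit 328) (nat_lit 5) (nat_lit 598) (nat_lit 547) (nat_lit 415))))))))
noncomputable def xc122 : XT := (XT.nd (nat_lit 77688) (nat_lit 0) (nat_lit 19456) (XT.nd (nat_lit 780) (nat_lit 1748) (nat_lit 0) (XT.nd (nat_lit 390) (nat_lit 1900) (nat_lit 0) (XT.nd (nat_lit 156) (nat_lit 684) (nat_lit 0) (XT.nd (nat_lit 78) (nat_lit 684) (nat_lit 0) (XT.lf (nat_lit 0) (nat_lit 7162134650) (nat_lit 684) (nat_lit 3140367402) (nat_lit 760) (nat_lit 2203217172) (nat_lit 318) (nat_lit 5) (nat_lit 327) (nat_lit 5) (nat_lit 328) (nat_lit 5) (nat_lit 599) (nat_lit 547) (nat_lit 414)) (XT.lf (nat_lit 0) (nat_lit 232881641) (nat_lit 684) (nat_lit 10464567205) (nat_lit 76) (nat_lit 1944043832) (nat_lit 309) (nat_lit 5) (nat_lit 318) (nat_lit 5) (nat_lit 310) (nat_lit 5) (nat_lit 600) (nat_lit 547) (nat_lit 413))) (XT.nd (nat_lit 78) (nat_lit 684) (nat_lit 0) (XT.lf (nat_lit 0) (nat_lit 2730183752) (nat_lit 684) (nat_lit 2912758124)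 (nat_lit 76) (nat_lit 7135909546) (nat_lit 309) (nat_lit 5) (nat_lit 318) (nat_lit 5) (nat_lit 310) (nat_lit 5) (nat_lit 601) (nat_lit 547) (nat_lit 412)) (XT.nd (nat_lit 78) (nat_lit 0) (nat_lit 0) (XT.lf (nat_lit 0) (nat_lit 4835716613) (nat_lit 684) (nat_lit 458466824) (nat_lit 760) (nat_lit 7624439591) (nat_lit 300) (nat_lit 5) (nat_lit 309) (nat_lit 5) (nat_lit 310) (nat_lit 5) (nat_lit 602) (nat_lit 547) (nat_lit 411)) (XT.lf (nat_lit 0) (nat_lit 7946002769) (nat_lit 760) (nat_lit 331586279) (nat_lit 76) (nat_lit 4782870929) (nat_lit 300) (nat_lit 5) (nat_lit 310) (nat_lit 5) (nat_lit 301) (nat_lit 5) (nat_lit 603) (nat_lit 547) (nat_lit 410))))) (XT.nd (nat_lit 156) (nat_lit 608) (nat_lit 0) (XT.nd (nat_lit 78) (nat_lit 684) (nat_lit 0) (XT.lf (nat_lit 0) (nat_lit 7654522199) (nat_lit 608) (nat_lit 3034861381) (nat_lit 684) (nat_lit 2514980275) (nat_lit 292) (nat_lit 5) (nat_lit 300) (nat_lit 5) (nat_lit 301) (nat_lit 5) (nat_lit 604) (nat_lit 547) (nat_lit 409)) (XT.lf (nat_lit 0) (nat_lit 153938672)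 (nat_lit 684) (nat_lit 10898623366) (nat_lit 76) (nat_lit 2298181863) (nat_lit 283) (nat_lit 5) (nat_lit 292) (nat_lit 5) (nat_lit 284) (nat_lit 5) (nat_lit 605) (nat_lit 547) (nat_lit 408))) (XT.nd (nat_lit 78) (nat_lit 608) (nat_lit 0) (XT.lf (nat_lit 0) (nat_lit 2886181499) (nat_lit 684) (nat_lit 2864761540) (nat_lit 76) (nat_lit 7747904256) (nat_lit 283) (nat_lit 5) (nat_lit 292) (nat_lit 5) (nat_lit 284) (nat_lit 5) (nat_lit 606) (nat_lit 547) (nat_lit 407)) (XT.nd (nat_lit 78) (nat_lit 0) (nat_lit 0) (XT.lf (nat_lit 0) (nat_lit 5382918782) (nat_lit 608) (nat_lit 311376537) (nat_lit 684) (nat_lit 7955193555) (nat_lit 275) (nat_lit 5) (nat_lit 283) (nat_lit 5) (nat_lit 284) (nat_lit 5) (nat_lit 607) (nat_lit 547) (nat_lit 406)) (XT.lf (nat_lit 0) (nat_lit 8598333378) (nat_lit 684) (nat_lit 20092055) (nat_lit 76) (nat_lit 5183923236) (nat_lit 275) (nat_lit 5) (nat_lit 284) (nat_lit 5) (nat_lit 276) (nat_lit 5) (nat_lit 608) (nat_lit 547) (nat_lit 405)))))) (XT.nd (nat_lit 76518) (nat_lit 0) (nat_lit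 25308) (XT.nd (nat_lit 156) (nat_lit 532) (nat_lit 0) (XT.nd (nat_lit 78) (nat_lit 608) (nat_lit 0) (XT.lf (nat_lit 0) (nat_lit 8483268635) (nat_lit 608) (nat_lit 3120999802) (nat_lit 684) (nat_lit 2353121513) (nat_lit 267) (nat_lit 5) (nat_lit 275) (nat_lit 5) (nat_lit 276) (nat_lit 5) (nat_lit 609) (nat_lit 547) (nat_lit 404)) (XT.lf (nat_lit 0) (nat_lit 570532209) (nat_lit 608) (nat_lit 11070928976) (nat_lit 76) (nat_lit 2473539054) (nat_lit 259) (nat_lit 5) (nat_lit 267) (nat_lit 5) (nat_lit 260) (nat_lit 5) (nat_lit 610) (nat_lit 547) (nat_lit 403))) (XT.nd (nat_lit 78) (nat_lit 532) (nat_lit 0) (XT.lf (nat_lit 0) (nat_lit 3565685811) (nat_lit 608) (nat_lit 2522123237) (nat_lit 76) (nat_lit 8186752480) (nat_lit 259) (nat_lit 5) (nat_lit 267) (nat_lit 5) (nat_lit 260) (nat_lit 5) (nat_lit 611) (nat_lit 547) (nat_lit 402)) (XT.nd (nat_lit 76206) (nat_lit 0) (nat_lit 26676) (XT.lf (nat_lit 0) (nat_lit 6262706604) (nat_lit 532) (nat_lit 385814455) (nat_lit 608) (nat_lit 7788237979) (nat_lit 252) (nat_lit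 5) (nat_lit 259) (nat_lit 5) (nat_lit 260) (nat_lit 5) (nat_lit 612) (nat_lit 547) (nat_lit 401)) (XT.lf (nat_lit 0) (nat_lit 1558264443) (nat_lit 1444) (nat_lit 1204633383) (nat_lit 1444) (nat_lit 1204633383) (nat_lit 603) (nat_lit 3) (nat_lit 622) (nat_lit 3) (nat_lit 622) (nat_lit 5) (nat_lit 548) (nat_lit 548) (nat_lit 464))))) (XT.nd (nat_lit 156) (nat_lit 1368) (nat_lit 0) (XT.nd (nat_lit 78) (nat_lit 0) (nat_lit 0) (XT.lf (nat_lit 76) (nat_lit 1550299353) (nat_lit 0) (nat_lit 2847088929) (nat_lit 1444) (nat_lit 3591940997) (nat_lit 604) (nat_lit 5) (nat_lit 603) (nat_lit 3) (nat_lit 622) (nat_lit 5) (nat_lit 549) (nat_lit 548) (nat_lit 463)) (XT.lf (nat_lit 76) (nat_lit 5604910356) (nat_lit 0) (nat_lit 82496949) (nat_lit 1444) (nat_lit 2357605680) (nat_lit 604) (nat_lit 5) (nat_lit 603) (nat_lit 3) (nat_lit 622) (nat_lit 5) (nat_lit 550) (nat_lit 548) (nat_lit 462))) (XT.nd (nat_lit 78) (nat_lit 1444) (nat_lit 0) (XT.lf (nat_lit 76) (nat_lit 1625126202) (nat_lit 0) (nat_lit 5374540232) (nat_lit 1444)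 (nat_lit 1102217447) (nat_lit 605) (nat_lit 5) (nat_lit 604) (nat_lit 5) (nat_lit 623) (nat_lit 5) (nat_lit 551) (nat_lit 548) (nat_lit 461)) (XT.nd (nat_lit 78) (nat_lit 0) (nat_lit 76) (XT.lf (nat_lit 0) (nat_lit 161389089) (nat_lit 1444) (nat_lit 2374167679) (nat_lit 1520) (nat_lit 5624605526) (nat_lit 585) (nat_lit 5) (nat_lit 604) (nat_lit 5) (nat_lit 605) (nat_lit 5) (nat_lit 552) (nat_lit 548) (nat_lit 460)) (XT.lf (nat_lit 0) (nat_lit 1418865888) (nat_lit 1444) (nat_lit 6412674320) (nat_lit 1520) (nat_lit 388255395) (nat_lit 586) (nat_lit 5) (nat_lit 605) (nat_lit 5) (nat_lit 606) (nat_lit 5) (nat_lit 553) (nat_lit 548) (nat_lit 459))))))) (XT.nd (nat_lit 780) (nat_lit 4560) (nat_lit 0) (XT.nd (nat_lit 390) (nat_lit 1368) (nat_lit 0) (XT.nd (nat_lit 156) (nat_lit 0) (nat_lit 76) (XT.nd (nat_lit 78) (nat_lit 0) (nat_lit 0) (XT.lf (nat_lit 0) (nat_lit 2703943407) (nat_lit 1444) (nat_lit 2210749960) (nat_lit 1520) (nat_lit 3365881322) (nat_lit 586) (nat_lit 5) (nat_lit 605) (nat_lit 5) (nat_lit 606)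 (nat_lit 5) (nat_lit 554) (nat_lit 548) (nat_lit 458)) (XT.lf (nat_lit 76) (nat_lit 2085140032) (nat_lit 0) (nat_lit 1913338197) (nat_lit 1520) (nat_lit 4344418108) (nat_lit 587) (nat_lit 5) (nat_lit 586) (nat_lit 5) (nat_lit 606) (nat_lit 5) (nat_lit 555) (nat_lit 548) (nat_lit 457))) (XT.nd (nat_lit 78) (nat_lit 0) (nat_lit 0) (XT.lf (nat_lit 0) (nat_lit 5312058354) (nat_lit 1444) (nat_lit 1934776151) (nat_lit 1520) (nat_lit 1159768873) (nat_lit 587) (nat_lit 5) (nat_lit 606) (nat_lit 5) (nat_lit 607) (nat_lit 5) (nat_lit 556) (nat_lit 548) (nat_lit 456)) (XT.nd (nat_lit 78) (nat_lit 0) (nat_lit 0) (XT.lf (nat_lit 76) (nat_lit 2476857858) (nat_lit 0) (nat_lit 4175145131) (nat_lit 1520) (nat_lit 1819581723) (nat_lit 588) (nat_lit 5) (nat_lit 587) (nat_lit 5) (nat_lit 607) (nat_lit 5) (nat_lit 557) (nat_lit 548) (nat_lit 455)) (XT.lf (nat_lit 76) (nat_lit 6985447792) (nat_lit 0) (nat_lit 1018070794) (nat_lit 1520) (nat_lit 534653619) (nat_lit 588) (nat_lit 5) (nat_lit 587) (nat_lit 5) (nat_lit 607) (nat_lit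 5) (nat_lit 558) (nat_lit 548) (nat_lit 454))))) (XT.nd (nat_lit 156) (nat_lit 0) (nat_lit 76) (XT.nd (nat_lit 78) (nat_lit 0) (nat_lit 0) (XT.lf (nat_lit 0) (nat_lit 771924075) (nat_lit 1520) (nat_lit 5625861681) (nat_lit 1596) (nat_lit 2208084265) (nat_lit 568) (nat_lit 5) (nat_lit 588) (nat_lit 5) (nat_lit 589) (nat_lit 5) (nat_lit 559) (nat_lit 548) (nat_lit 453)) (XT.lf (nat_lit 0) (nat_lit 2087366339) (nat_lit 1520) (nat_lit 1078653495) (nat_lit 1596) (nat_lit 5509035296) (nat_lit 568) (nat_lit 5) (nat_lit 588) (nat_lit 5) (nat_lit 589) (nat_lit 5) (nat_lit 560) (nat_lit 548) (nat_lit 452))) (XT.nd (nat_lit 78) (nat_lit 0) (nat_lit 0) (XT.lf (nat_lit 0) (nat_lit 3426669753) (nat_lit 1520) (nat_lit 5157866181) (nat_lit 1596) (nat_lit 161138784) (nat_lit 569) (nat_lit 5) (nat_lit 589) (nat_lit 5) (nat_lit 590) (nat_lit 5) (nat_lit 561) (nat_lit 548) (nat_lit 451)) (XT.nd (nat_lit 78) (nat_lit 0) (nat_lit 0) (XT.lf (nat_lit 0) (nat_lit 4794672269) (nat_lit 1520) (nat_lit 494504375) (nat_lit 1596) (nat_lit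 3528493580) (nat_lit 569) (nat_lit 5) (nat_lit 589) (nat_lit 5) (nat_lit 590) (nat_lit 5) (nat_lit 562) (nat_lit 548) (nat_lit 450)) (XT.lf (nat_lit 76) (nat_lit 4300736727) (nat_lit 0) (nat_lit 1891397566) (nat_lit 1596) (nat_lit 2698931110) (nat_lit 570) (nat_lit 5) (nat_lit 569) (nat_lit 5) (nat_lit 590) (nat_lit 5) (nat_lit 563) (nat_lit 548) (nat_lit 449)))))) (XT.nd (nat_lit 390) (nat_lit 3116) (nat_lit 0) (XT.nd (nat_lit 156) (nat_lit 0) (nat_lit 0) (XT.nd (nat_lit 78) (nat_lit 1596) (nat_lit 0) (XT.lf (nat_lit 76) (nat_lit 206957805) (nat_lit 0) (nat_lit 7400111629) (nat_lit 1596) (nat_lit 1359070291) (nat_lit 571) (nat_lit 5) (nat_lit 570) (nat_lit 5) (nat_lit 591) (nat_lit 5) (nat_lit 564) (nat_lit 548) (nat_lit 448)) (XT.lf (nat_lit 0) (nat_lit 25852548) (nat_lit 1596) (nat_lit 3910918101) (nat_lit 1672) (nat_lit 5105578263) (nat_lit 549) (nat_lit 5) (nat_lit 570) (nat_lit 5) (nat_lit 571) (nat_lit 5) (nat_lit 565) (nat_lit 548) (nat_lit 447))) (XT.nd (nat_lit 78) (nat_lit 0) (nat_lit 76) (XT.lf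 (nat_lit 76) (nat_lit 1020605071) (nat_lit 0) (nat_lit 381638777) (nat_lit 1672) (nat_lit 7718021025) (nat_lit 550) (nat_lit 5) (nat_lit 549) (nat_lit 5) (nat_lit 571) (nat_lit 5) (nat_lit 566) (nat_lit 548) (nat_lit 446)) (XT.nd (nat_lit 78) (nat_lit 0) (nat_lit 0) (XT.lf (nat_lit 0) (nat_lit 2829379954) (nat_lit 1596) (nat_lit 3135182659) (nat_lit 1672) (nat_lit 3234713788) (nat_lit 550) (nat_lit 5) (nat_lit 571) (nat_lit 5) (nat_lit 572) (nat_lit 5) (nat_lit 567) (nat_lit 548) (nat_lit 445)) (XT.lf (nat_lit 76) (nat_lit 1933273860) (nat_lit 0) (nat_lit 2343073042) (nat_lit 1672) (nat_lit 5003697050) (nat_lit 551) (nat_lit 5) (nat_lit 550) (nat_lit 5) (nat_lit 572) (nat_lit 5) (nat_lit 568) (nat_lit 548) (nat_lit 444))))) (XT.nd (nat_lit 234) (nat_lit 3268) (nat_lit 0) (XT.nd (nat_lit 78) (nat_lit 0) (nat_lit 0) (XT.lf (nat_lit 0) (nat_lit 5758795171) (nat_lit 1596) (nat_lit 2243842501) (nat_lit 1672) (nat_lit 1359659869) (nat_lit 551) (nat_lit 5) (nat_lit 572) (nat_lit 5) (nat_lit 573) (nat_lit 5) (nat_lit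 569) (nat_lit 548) (nat_lit 443)) (XT.nd (nat_lit 78) (nat_lit 0) (nat_lit 0) (XT.lf (nat_lit 76) (nat_lit 2966370062) (nat_lit 0) (nat_lit 4316351313) (nat_lit 1672) (nat_lit 2163239740) (nat_lit 552) (nat_lit 5) (nat_lit 551) (nat_lit 5) (nat_lit 573) (nat_lit 5) (nat_lit 570) (nat_lit 548) (nat_lit 442)) (XT.lf (nat_lit 76) (nat_lit 8293161217) (nat_lit 0) (nat_lit 536407359) (nat_lit 1672) (nat_lit 701882002) (nat_lit 552) (nat_lit 5) (nat_lit 551) (nat_lit 5) (nat_lit 573) (nat_lit 5) (nat_lit 571) (nat_lit 548) (nat_lit 441)))) (XT.nd (nat_lit 78) (nat_lit 1672) (nat_lit 0) (XT.lf (nat_lit 0) (nat_lit 804702481) (nat_lit 1672) (nat_lit 5501232092) (nat_lit 76) (nat_lit 3312087379) (nat_lit 530) (nat_lit 5) (nat_lit 552) (nat_lit 5) (nat_lit 531) (nat_lit 5) (nat_lit 572) (nat_lit 548) (nat_lit 440)) (XT.nd (nat_lit 78) (nat_lit 1672) (nat_lit 0) (XT.lf (nat_lit 0) (nat_lit 2321974950) (nat_lit 1672) (nat_lit 136993819) (nat_lit 76) (nat_lit 7247465487) (nat_lit 530) (nat_lit 5) (nat_lit 552) (nat_lit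 5) (nat_lit 531) (nat_lit 5) (nat_lit 573) (nat_lit 548) (nat_lit 439)) (XT.lf (nat_lit 0) (nat_lit 3892795858) (nat_lit 1748) (nat_lit 4418906250) (nat_lit 76) (nat_lit 1484449993) (nat_lit 508) (nat_lit 5) (nat_lit 531) (nat_lit 5) (nat_lit 509) (nat_lit 5) (nat_lit 574) (nat_lit 548) (nat_lit 438))))))))
noncomputable def xc123 : XT := (XT.nd (nat_lit 1560) (nat_lit 6688) (nat_lit 0) (XT.nd (nat_lit 780) (nat_lit 4788) (nat_lit 0) (XT.nd (nat_lit 390) (nat_lit 2736) (nat_lit 0) (XT.nd (nat_lit 156) (nat_lit 2964) (nat_lit 0) (XT.nd (nat_lit 78) (nat_lit 0) (nat_lit 0) (XT.lf (nat_lit 0) (nat_lit 1095755991) (nat_lit 1748) (nat_lit 4402389404) (nat_lit 1824) (nat_lit 4389457991) (nat_lit 485) (nat_lit 5) (nat_lit 508) (nat_lit 5) (nat_lit 509) (nat_lit 5) (nat_lit 575) (nat_lit 548) (nat_lit 437)) (XT.lf (nat_lit 0) (nat_lit 6762425565) (nat_lit 1748) (nat_lit 381915284) (nat_lit 1824) (nat_lit 2836369371) (nat_lit 485) (nat_lit 5) (nat_lit 508) (nat_lit 5) (nat_lit 509) (nat_lit 5) (nat_lit 576) (nat_lit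 548) (nat_lit 436))) (XT.nd (nat_lit 78) (nat_lit 1140) (nat_lit 0) (XT.lf (nat_lit 0) (nat_lit 2456564106) (nat_lit 1824) (nat_lit 6386504951) (nat_lit 1900) (nat_lit 1232219232) (nat_lit 461) (nat_lit 5) (nat_lit 485) (nat_lit 5) (nat_lit 486) (nat_lit 5) (nat_lit 577) (nat_lit 548) (nat_lit 435)) (XT.nd (nat_lit 78) (nat_lit 1064) (nat_lit 0) (XT.lf (nat_lit 0) (nat_lit 402645946) (nat_lit 1900) (nat_lit 1906495740) (nat_lit 76) (nat_lit 7862486383) (nat_lit 460) (nat_lit 5) (nat_lit 485) (nat_lit 5) (nat_lit 461) (nat_lit 5) (nat_lit 578) (nat_lit 548) (nat_lit 434)) (XT.lf (nat_lit 0) (nat_lit 2071648121) (nat_lit 1140) (nat_lit 6336349897) (nat_lit 76) (nat_lit 1861376147) (nat_lit 446) (nat_lit 5) (nat_lit 461) (nat_lit 5) (nat_lit 447) (nat_lit 5) (nat_lit 579) (nat_lit 548) (nat_lit 433))))) (XT.nd (nat_lit 156) (nat_lit 1824) (nat_lit 0) (XT.nd (nat_lit 78) (nat_lit 912) (nat_lit 0) (XT.lf (nat_lit 0) (nat_lit 3782547695) (nat_lit 1140) (nat_lit 487353574) (nat_lit 76) (nat_lit 6099004746) (nat_lit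 446) (nat_lit 5) (nat_lit 461) (nat_lit 5) (nat_lit 447) (nat_lit 5) (nat_lit 580) (nat_lit 548) (nat_lit 432)) (XT.lf (nat_lit 0) (nat_lit 5533216372) (nat_lit 912) (nat_lit 11106267) (nat_lit 988) (nat_lit 4925773871) (nat_lit 434) (nat_lit 5) (nat_lit 446) (nat_lit 5) (nat_lit 447) (nat_lit 5) (nat_lit 581) (nat_lit 548) (nat_lit 431))) (XT.nd (nat_lit 78) (nat_lit 912) (nat_lit 0) (XT.lf (nat_lit 0) (nat_lit 1075261389) (nat_lit 912) (nat_lit 6285478284) (nat_lit 988) (nat_lit 3212184145) (nat_lit 422) (nat_lit 5) (nat_lit 434) (nat_lit 5) (nat_lit 435) (nat_lit 5) (nat_lit 582) (nat_lit 548) (nat_lit 430)) (XT.nd (nat_lit 78) (nat_lit 912) (nat_lit 0) (XT.lf (nat_lit 0) (nat_lit 7256366083) (nat_lit 912) (nat_lit 1971577321) (nat_lit 988) (nat_lit 1449576209) (nat_lit 422) (nat_lit 5) (nat_lit 434) (nat_lit 5) (nat_lit 435) (nat_lit 5) (nat_lit 583) (nat_lit 548) (nat_lit 429)) (XT.lf (nat_lit 0) (nat_lit 359258930) (nat_lit 912) (nat_lit 8006835973) (nat_lit 76) (nat_lit 2417757409) (nat_lit 410)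 (nat_lit 5) (nat_lit 422) (nat_lit 5) (nat_lit 411) (nat_lit 5) (nat_lit 584) (nat_lit 548) (nat_lit 428)))))) (XT.nd (nat_lit 390) (nat_lit 2280) (nat_lit 0) (XT.nd (nat_lit 156) (nat_lit 1672) (nat_lit 0) (XT.nd (nat_lit 78) (nat_lit 836) (nat_lit 0) (XT.lf (nat_lit 0) (nat_lit 2202795464) (nat_lit 912) (nat_lit 1787404153) (nat_lit 76) (nat_lit 6901562768) (nat_lit 410) (nat_lit 5) (nat_lit 422) (nat_lit 5) (nat_lit 411) (nat_lit 5) (nat_lit 585) (nat_lit 548) (nat_lit 427)) (XT.lf (nat_lit 0) (nat_lit 4098439016) (nat_lit 912) (nat_lit 6406040758) (nat_lit 76) (nat_lit 497047187) (nat_lit 399) (nat_lit 5) (nat_lit 411) (nat_lit 5) (nat_lit 400) (nat_lit 5) (nat_lit 586) (nat_lit 548) (nat_lit 426))) (XT.nd (nat_lit 78) (nat_lit 1672) (nat_lit 0) (XT.lf (nat_lit 0) (nat_lit 6052836543) (nat_lit 912) (nat_lit 27632913) (nat_lit 76) (nat_lit 5032601555) (nat_lit 399) (nat_lit 5) (nat_lit 411) (nat_lit 5) (nat_lit 400) (nat_lit 5) (nat_lit 587) (nat_lit 548) (nat_lit 425)) (XT.nd (nat_lit 78) (nat_lit 836)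 (nat_lit 0) (XT.lf (nat_lit 0) (nat_lit 6546411752) (nat_lit 836) (nat_lit 1525102236) (nat_lit 912) (nat_lit 3154829103) (nat_lit 388) (nat_lit 5) (nat_lit 399) (nat_lit 5) (nat_lit 400) (nat_lit 5) (nat_lit 588) (nat_lit 548) (nat_lit 424)) (XT.lf (nat_lit 0) (nat_lit 1897037131) (nat_lit 836) (nat_lit 8249206585) (nat_lit 912) (nat_lit 1195324288) (nat_lit 377) (nat_lit 5) (nat_lit 388) (nat_lit 5) (nat_lit 389) (nat_lit 5) (nat_lit 589) (nat_lit 548) (nat_lit 423))))) (XT.nd (nat_lit 156) (nat_lit 1444) (nat_lit 0) (XT.nd (nat_lit 78) (nat_lit 760) (nat_lit 0) (XT.lf (nat_lit 0) (nat_lit 817562576) (nat_lit 912) (nat_lit 2823129392) (nat_lit 76) (nat_lit 7817807491) (nat_lit 376) (nat_lit 5) (nat_lit 388) (nat_lit 5) (nat_lit 377) (nat_lit 5) (nat_lit 590) (nat_lit 548) (nat_lit 422)) (XT.lf (nat_lit 0) (nat_lit 2870853730) (nat_lit 836) (nat_lit 7627612601) (nat_lit 76) (nat_lit 1078823063) (nat_lit 366) (nat_lit 5) (nat_lit 377) (nat_lit 5) (nat_lit 367) (nat_lit 5) (nat_lit 591) (nat_lit 548) (nat_lit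 421))) (XT.nd (nat_lit 78) (nat_lit 1444) (nat_lit 0) (XT.lf (nat_lit 0) (nat_lit 4991944021) (nat_lit 836) (nat_lit 844073322) (nat_lit 76) (nat_lit 5861904011) (nat_lit 366) (nat_lit 5) (nat_lit 377) (nat_lit 5) (nat_lit 367) (nat_lit 5) (nat_lit 592) (nat_lit 548) (nat_lit 420)) (XT.nd (nat_lit 78) (nat_lit 684) (nat_lit 0) (XT.lf (nat_lit 0) (nat_lit 6138021875) (nat_lit 760) (nat_lit 1041161476) (nat_lit 836) (nat_lit 4641308934) (nat_lit 356) (nat_lit 5) (nat_lit 366) (nat_lit 5) (nat_lit 367) (nat_lit 5) (nat_lit 593) (nat_lit 548) (nat_lit 419)) (XT.lf (nat_lit 0) (nat_lit 1300008198) (nat_lit 684) (nat_lit 8133363004) (nat_lit 760) (nat_lit 2511680217) (nat_lit 347) (nat_lit 5) (nat_lit 356) (nat_lit 5) (nat_lit 357) (nat_lit 5) (nat_lit 594) (nat_lit 548) (nat_lit 418))))))) (XT.nd (nat_lit 780) (nat_lit 2508) (nat_lit 0) (XT.nd (nat_lit 390) (nat_lit 1976) (nat_lit 0) (XT.nd (nat_lit 156) (nat_lit 1368) (nat_lit 0) (XT.nd (nat_lit 78) (nat_lit 836) (nat_lit 0) (XT.lf (nat_lit 0) (nat_lit 8474484895)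 (nat_lit 684) (nat_lit 3287404993) (nat_lit 760) (nat_lit 309627748) (nat_lit 347) (nat_lit 5) (nat_lit 356) (nat_lit 5) (nat_lit 357) (nat_lit 5) (nat_lit 595) (nat_lit 548) (nat_lit 417)) (XT.lf (nat_lit 0) (nat_lit 1929945907) (nat_lit 836) (nat_lit 8601930863) (nat_lit 76) (nat_lit 1668008215) (nat_lit 336) (nat_lit 5) (nat_lit 347) (nat_lit 5) (nat_lit 337) (nat_lit 5) (nat_lit 596) (nat_lit 548) (nat_lit 416))) (XT.nd (nat_lit 78) (nat_lit 1368) (nat_lit 0) (XT.lf (nat_lit 0) (nat_lit 4240885905) (nat_lit 836) (nat_lit 1386449599) (nat_lit 76) (nat_lit 6702829622) (nat_lit 336) (nat_lit 5) (nat_lit 347) (nat_lit 5) (nat_lit 337) (nat_lit 5) (nat_lit 597) (nat_lit 548) (nat_lit 415)) (XT.nd (nat_lit 78) (nat_lit 684) (nat_lit 0) (XT.lf (nat_lit 0) (nat_lit 6035109639) (nat_lit 684) (nat_lit 587068193) (nat_lit 760) (nat_lit 5840391153) (nat_lit 327) (nat_lit 5) (nat_lit 336) (nat_lit 5) (nat_lit 337) (nat_lit 5) (nat_lit 598) (nat_lit 548) (nat_lit 414)) (XT.lf (nat_lit 0) (nat_lit 992292400) (nat_lit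 684) (nat_lit 8089295455) (nat_lit 760) (nat_lit 3515423982) (nat_lit 318) (nat_lit 5) (nat_lit 327) (nat_lit 5) (nat_lit 328) (nat_lit 5) (nat_lit 599) (nat_lit 548) (nat_lit 413))))) (XT.nd (nat_lit 156) (nat_lit 1292) (nat_lit 0) (XT.nd (nat_lit 78) (nat_lit 684) (nat_lit 0) (XT.lf (nat_lit 0) (nat_lit 8626189652) (nat_lit 684) (nat_lit 2996285577) (nat_lit 760) (nat_lit 1111023283) (nat_lit 318) (nat_lit 5) (nat_lit 327) (nat_lit 5) (nat_lit 328) (nat_lit 5) (nat_lit 600) (nat_lit 548) (nat_lit 412)) (XT.lf (nat_lit 0) (nat_lit 1346945430) (nat_lit 684) (nat_lit 9326084208) (nat_lit 76) (nat_lit 2199050338) (nat_lit 309) (nat_lit 5) (nat_lit 318) (nat_lit 5) (nat_lit 310) (nat_lit 5) (nat_lit 601) (nat_lit 548) (nat_lit 411))) (XT.nd (nat_lit 78) (nat_lit 1292) (nat_lit 0) (XT.lf (nat_lit 0) (nat_lit 3872440521) (nat_lit 684) (nat_lit 1649665892) (nat_lit 76) (nat_lit 7490515609) (nat_lit 309) (nat_lit 5) (nat_lit 318) (nat_lit 5) (nat_lit 310) (nat_lit 5) (nat_lit 602) (nat_lit 548) (nat_lit 410))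 (XT.nd (nat_lit 78) (nat_lit 608) (nat_lit 0) (XT.lf (nat_lit 0) (nat_lit 6245085264) (nat_lit 684) (nat_lit 229831027) (nat_lit 760) (nat_lit 6680529894) (nat_lit 300) (nat_lit 5) (nat_lit 309) (nat_lit 5) (nat_lit 310) (nat_lit 5) (nat_lit 603) (nat_lit 548) (nat_lit 409)) (XT.lf (nat_lit 0) (nat_lit 981179391) (nat_lit 608) (nat_lit 8185401325) (nat_lit 684) (nat_lit 4133804009) (nat_lit 292) (nat_lit 5) (nat_lit 300) (nat_lit 5) (nat_lit 301) (nat_lit 5) (nat_lit 604) (nat_lit 548) (nat_lit 408)))))) (XT.nd (nat_lit 390) (nat_lit 608) (nat_lit 0) (XT.nd (nat_lit 156) (nat_lit 1216) (nat_lit 0) (XT.nd (nat_lit 78) (nat_lit 684) (nat_lit 0) (XT.lf (nat_lit 0) (nat_lit 9105546110) (nat_lit 608) (nat_lit 2840647701) (nat_lit 684) (nat_lit 1501346582) (nat_lit 292) (nat_lit 5) (nat_lit 300) (nat_lit 5) (nat_lit 301) (nat_lit 5) (nat_lit 605) (nat_lit 548) (nat_lit 407)) (XT.lf (nat_lit 0) (nat_lit 1196594642) (nat_lit 684) (nat_lit 9794208626) (nat_lit 76) (nat_lit 2606115630) (nat_lit 283) (nat_lit 5) (nat_lit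 292) (nat_lit 5) (nat_lit 284) (nat_lit 5) (nat_lit 606) (nat_lit 548) (nat_lit 406))) (XT.nd (nat_lit 78) (nat_lit 1216) (nat_lit 0) (XT.lf (nat_lit 0) (nat_lit 3963098459) (nat_lit 684) (nat_lit 1625598726) (nat_lit 76) (nat_lit 8159695802) (nat_lit 283) (nat_lit 5) (nat_lit 292) (nat_lit 5) (nat_lit 284) (nat_lit 5) (nat_lit 607) (nat_lit 548) (nat_lit 405)) (XT.nd (nat_lit 78) (nat_lit 608) (nat_lit 0) (XT.lf (nat_lit 0) (nat_lit 6778505874) (nat_lit 608) (nat_lit 37246586) (nat_lit 684) (nat_lit 7086528308) (nat_lit 275) (nat_lit 5) (nat_lit 283) (nat_lit 5) (nat_lit 284) (nat_lit 5) (nat_lit 608) (nat_lit 548) (nat_lit 404)) (XT.lf (nat_lit 0) (nat_lit 1276945962) (nat_lit 608) (nat_lit 8491244375) (nat_lit 684) (nat_lit 4290201953) (nat_lit 267) (nat_lit 5) (nat_lit 275) (nat_lit 5) (nat_lit 276) (nat_lit 5) (nat_lit 609) (nat_lit 548) (nat_lit 403))))) (XT.nd (nat_lit 76440) (nat_lit 0) (nat_lit 24700) (XT.nd (nat_lit 78) (nat_lit 608) (nat_lit 0) (XT.lf (nat_lit 0) (nat_lit 9925200882) (nat_lit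 608) (nat_lit 2889608923) (nat_lit 684) (nat_lit 1402114169) (nat_lit 267) (nat_lit 5) (nat_lit 275) (nat_lit 5) (nat_lit 276) (nat_lit 5) (nat_lit 610) (nat_lit 548) (nat_lit 402)) (XT.nd (nat_lit 78) (nat_lit 0) (nat_lit 0) (XT.lf (nat_lit 0) (nat_lit 1557867388) (nat_lit 608) (nat_lit 9997848743) (nat_lit 76) (nat_lit 2822022702) (nat_lit 259) (nat_lit 5) (nat_lit 267) (nat_lit 5) (nat_lit 260) (nat_lit 5) (nat_lit 611) (nat_lit 548) (nat_lit 401)) (XT.lf (nat_lit 0) (nat_lit 4593788287) (nat_lit 608) (nat_lit 1303449219) (nat_lit 76) (nat_lit 8643637399) (nat_lit 259) (nat_lit 5) (nat_lit 267) (nat_lit 5) (nat_lit 260) (nat_lit 5) (nat_lit 612) (nat_lit 548) (nat_lit 400)))) (XT.nd (nat_lit 78) (nat_lit 1444) (nat_lit 0) (XT.lf (nat_lit 0) (nat_lit 2821009777) (nat_lit 1444) (nat_lit 600575578) (nat_lit 1444) (nat_lit 600575578) (nat_lit 603) (nat_lit 3) (nat_lit 622) (nat_lit 3) (nat_lit 622) (nat_lit 5) (nat_lit 549) (nat_lit 549) (nat_lit 462)) (XT.nd (nat_lit 78) (nat_lit 1444) (nat_lit 0) (XT.lf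 (nat_lit 76) (nat_lit 2829341147) (nat_lit 0) (nat_lit 4078960810) (nat_lit 1444) (nat_lit 1192179494) (nat_lit 604) (nat_lit 5) (nat_lit 603) (nat_lit 3) (nat_lit 622) (nat_lit 5) (nat_lit 550) (nat_lit 549) (nat_lit 461)) (XT.lf (nat_lit 0) (nat_lit 18138723) (nat_lit 1444) (nat_lit 1217778701) (nat_lit 1520) (nat_lit 6922312635) (nat_lit 584) (nat_lit 5) (nat_lit 603) (nat_lit 3) (nat_lit 604) (nat_lit 5) (nat_lit 551) (nat_lit 549) (nat_lit 460))))))))
noncomputable def xc124 : XT := (XT.nd (nat_lit 1560) (nat_lit 13148) (nat_lit 0) (XT.nd (nat_lit 780) (nat_lit 1368) (nat_lit 0) (XT.nd (nat_lit 390) (nat_lit 1368) (nat_lit 0) (XT.nd (nat_lit 156) (nat_lit 0) (nat_lit 0) (XT.nd (nat_lit 78) (nat_lit 0) (nat_lit 0) (XT.lf (nat_lit 0) (nat_lit 1235872983) (nat_lit 1444) (nat_lit 5297347882) (nat_lit 1520) (nat_lit 1683773889) (nat_lit 585) (nat_lit 5) (nat_lit 604) (nat_lit 5) (nat_lit 605) (nat_lit 5) (nat_lit 552) (nat_lit 549) (nat_lit 459)) (XT.lf (nat_lit 0) (nat_lit 2464018718) (nat_lit 1444) (nat_lit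 1145527995) (nat_lit 1520) (nat_lit 4667669028) (nat_lit 585) (nat_lit 5) (nat_lit 604) (nat_lit 5) (nat_lit 605) (nat_lit 5) (nat_lit 553) (nat_lit 549) (nat_lit 458))) (XT.nd (nat_lit 78) (nat_lit 0) (nat_lit 76) (XT.lf (nat_lit 76) (nat_lit 3113648706) (nat_lit 0) (nat_lit 593535565) (nat_lit 1520) (nat_lit 4631649832) (nat_lit 586) (nat_lit 5) (nat_lit 585) (nat_lit 5) (nat_lit 605) (nat_lit 5) (nat_lit 554) (nat_lit 549) (nat_lit 457)) (XT.nd (nat_lit 78) (nat_lit 0) (nat_lit 0) (XT.lf (nat_lit 0) (nat_lit 4969872706) (nat_lit 1444) (nat_lit 961243356) (nat_lit 1520) (nat_lit 2470677632) (nat_lit 586) (nat_lit 5) (nat_lit 605) (nat_lit 5) (nat_lit 606) (nat_lit 5) (nat_lit 555) (nat_lit 549) (nat_lit 456)) (XT.lf (nat_lit 76) (nat_lit 3412053109) (nat_lit 0) (nat_lit 2843219936) (nat_lit 1520) (nat_lit 2210792281) (nat_lit 587) (nat_lit 5) (nat_lit 586) (nat_lit 5) (nat_lit 606) (nat_lit 5) (nat_lit 556) (nat_lit 549) (nat_lit 455))))) (XT.nd (nat_lit 156) (nat_lit 0) (nat_lit 0) (XT.nd (nat_lit 78)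 (nat_lit 1520) (nat_lit 0) (XT.lf (nat_lit 0) (nat_lit 7546766478) (nat_lit 1444) (nat_lit 664953861) (nat_lit 1520) (nat_lit 320296324) (nat_lit 587) (nat_lit 5) (nat_lit 606) (nat_lit 5) (nat_lit 607) (nat_lit 5) (nat_lit 557) (nat_lit 549) (nat_lit 454)) (XT.lf (nat_lit 0) (nat_lit 277560152) (nat_lit 1520) (nat_lit 4774488346) (nat_lit 1596) (nat_lit 3546881430) (nat_lit 567) (nat_lit 5) (nat_lit 587) (nat_lit 5) (nat_lit 588) (nat_lit 5) (nat_lit 558) (nat_lit 549) (nat_lit 453))) (XT.nd (nat_lit 78) (nat_lit 0) (nat_lit 76) (XT.lf (nat_lit 0) (nat_lit 1529641007) (nat_lit 1520) (nat_lit 278196154) (nat_lit 1596) (nat_lit 6859671773) (nat_lit 567) (nat_lit 5) (nat_lit 587) (nat_lit 5) (nat_lit 588) (nat_lit 5) (nat_lit 559) (nat_lit 549) (nat_lit 452)) (XT.nd (nat_lit 78) (nat_lit 0) (nat_lit 0) (XT.lf (nat_lit 0) (nat_lit 2818231317) (nat_lit 1520) (nat_lit 4399232238) (nat_lit 1596) (nat_lit 1519768429) (nat_lit 568) (nat_lit 5) (nat_lit 588) (nat_lit 5) (nat_lit 589) (nat_lit 5) (nat_lit 560) (nat_lit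 549) (nat_lit 451)) (XT.lf (nat_lit 76) (nat_lit 215488503) (nat_lit 0) (nat_lit 3906072060) (nat_lit 1596) (nat_lit 4687011377) (nat_lit 569) (nat_lit 5) (nat_lit 568) (nat_lit 5) (nat_lit 589) (nat_lit 5) (nat_lit 561) (nat_lit 549) (nat_lit 450)))))) (XT.nd (nat_lit 390) (nat_lit 0) (nat_lit 0) (XT.nd (nat_lit 156) (nat_lit 1444) (nat_lit 0) (XT.nd (nat_lit 78) (nat_lit 0) (nat_lit 76) (XT.lf (nat_lit 76) (nat_lit 4964919133) (nat_lit 0) (nat_lit 489678405) (nat_lit 1596) (nat_lit 3426670086) (nat_lit 569) (nat_lit 5) (nat_lit 568) (nat_lit 5) (nat_lit 589) (nat_lit 5) (nat_lit 562) (nat_lit 549) (nat_lit 449)) (XT.lf (nat_lit 76) (nat_lit 827889267) (nat_lit 0) (nat_lit 5985909569) (nat_lit 1596) (nat_lit 2141630032) (nat_lit 570) (nat_lit 5) (nat_lit 569) (nat_lit 5) (nat_lit 590) (nat_lit 5) (nat_lit 563) (nat_lit 549) (nat_lit 448))) (XT.nd (nat_lit 78) (nat_lit 1520) (nat_lit 0) (XT.lf (nat_lit 76) (nat_lit 5699483684) (nat_lit 0) (nat_lit 2505269281) (nat_lit 1596) (nat_lit 826230678) (nat_lit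 570) (nat_lit 5) (nat_lit 569) (nat_lit 5) (nat_lit 590) (nat_lit 5) (nat_lit 564) (nat_lit 549) (nat_lit 447)) (XT.nd (nat_lit 78) (nat_lit 0) (nat_lit 0) (XT.lf (nat_lit 0) (nat_lit 501159496) (nat_lit 1596) (nat_lit 7554936427) (nat_lit 1672) (nat_lit 1052039405) (nat_lit 549) (nat_lit 5) (nat_lit 570) (nat_lit 5) (nat_lit 571) (nat_lit 5) (nat_lit 565) (nat_lit 549) (nat_lit 446)) (XT.lf (nat_lit 0) (nat_lit 1858948279) (nat_lit 1596) (nat_lit 2645578947) (nat_lit 1672) (nat_lit 4681896900) (nat_lit 549) (nat_lit 5) (nat_lit 570) (nat_lit 5) (nat_lit 571) (nat_lit 5) (nat_lit 566) (nat_lit 549) (nat_lit 445))))) (XT.nd (nat_lit 156) (nat_lit 0) (nat_lit 76) (XT.nd (nat_lit 78) (nat_lit 0) (nat_lit 76) (XT.lf (nat_lit 76) (nat_lit 2375735494) (nat_lit 0) (nat_lit 859864872) (nat_lit 1672) (nat_lit 6030845737) (nat_lit 550) (nat_lit 5) (nat_lit 549) (nat_lit 5) (nat_lit 571) (nat_lit 5) (nat_lit 567) (nat_lit 549) (nat_lit 444)) (XT.lf (nat_lit 0) (nat_lit 4652885432) (nat_lit 1596) (nat_lit 1850829652)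 (nat_lit 1672) (nat_lit 2844092963) (nat_lit 550) (nat_lit 5) (nat_lit 571) (nat_lit 5) (nat_lit 572) (nat_lit 5) (nat_lit 568) (nat_lit 549) (nat_lit 443))) (XT.nd (nat_lit 78) (nat_lit 0) (nat_lit 76) (XT.lf (nat_lit 76) (nat_lit 3310133782) (nat_lit 0) (nat_lit 2792700934) (nat_lit 1672) (nat_lit 3327877638) (nat_lit 551) (nat_lit 5) (nat_lit 550) (nat_lit 5) (nat_lit 572) (nat_lit 5) (nat_lit 569) (nat_lit 549) (nat_lit 442)) (XT.nd (nat_lit 78) (nat_lit 0) (nat_lit 0) (XT.lf (nat_lit 0) (nat_lit 7578231711) (nat_lit 1596) (nat_lit 939952735) (nat_lit 1672) (nat_lit 997162794) (nat_lit 551) (nat_lit 5) (nat_lit 572) (nat_lit 5) (nat_lit 573) (nat_lit 5) (nat_lit 570) (nat_lit 549) (nat_lit 441)) (XT.lf (nat_lit 76) (nat_lit 4365590615) (nat_lit 0) (nat_lit 4742328425) (nat_lit 1672) (nat_lit 493261572) (nat_lit 552) (nat_lit 5) (nat_lit 551) (nat_lit 5) (nat_lit 573) (nat_lit 5) (nat_lit 571) (nat_lit 549) (nat_lit 440))))))) (XT.nd (nat_lit 780) (nat_lit 4408) (nat_lit 0) (XT.nd (nat_lit 390) (nat_lit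 3876) (nat_lit 0) (XT.nd (nat_lit 156) (nat_lit 3344) (nat_lit 0) (XT.nd (nat_lit 78) (nat_lit 0) (nat_lit 76) (XT.lf (nat_lit 76) (nat_lit 78375263) (nat_lit 0) (nat_lit 873224425) (nat_lit 1748) (nat_lit 8737305635) (nat_lit 530) (nat_lit 5) (nat_lit 529) (nat_lit 5) (nat_lit 552) (nat_lit 5) (nat_lit 572) (nat_lit 549) (nat_lit 439)) (XT.lf (nat_lit 0) (nat_lit 2452539015) (nat_lit 1672) (nat_lit 4249521303) (nat_lit 76) (nat_lit 3075584641) (nat_lit 530) (nat_lit 5) (nat_lit 552) (nat_lit 5) (nat_lit 531) (nat_lit 5) (nat_lit 573) (nat_lit 549) (nat_lit 438))) (XT.nd (nat_lit 78) (nat_lit 1748) (nat_lit 0) (XT.lf (nat_lit 0) (nat_lit 1211185961) (nat_lit 1672) (nat_lit 2764839844) (nat_lit 1748) (nat_lit 5892284339) (nat_lit 508) (nat_lit 5) (nat_lit 530) (nat_lit 5) (nat_lit 531) (nat_lit 5) (nat_lit 574) (nat_lit 549) (nat_lit 437)) (XT.nd (nat_lit 78) (nat_lit 1748) (nat_lit 0) (XT.lf (nat_lit 0) (nat_lit 5546014650) (nat_lit 1748) (nat_lit 3147766381) (nat_lit 76) (nat_lit 1266688256) (nat_lit 508)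 (nat_lit 5) (nat_lit 531) (nat_lit 5) (nat_lit 509) (nat_lit 5) (nat_lit 575) (nat_lit 549) (nat_lit 436)) (XT.lf (nat_lit 0) (nat_lit 2468244908) (nat_lit 1748) (nat_lit 4693105623) (nat_lit 1824) (nat_lit 2892843413) (nat_lit 485) (nat_lit 5) (nat_lit 508) (nat_lit 5) (nat_lit 509) (nat_lit 5) (nat_lit 576) (nat_lit 549) (nat_lit 435))))) (XT.nd (nat_lit 156) (nat_lit 1976) (nat_lit 0) (XT.nd (nat_lit 78) (nat_lit 1900) (nat_lit 0) (XT.lf (nat_lit 0) (nat_lit 8221766034) (nat_lit 1748) (nat_lit 588248130) (nat_lit 1824) (nat_lit 1339759761) (nat_lit 485) (nat_lit 5) (nat_lit 508) (nat_lit 5) (nat_lit 509) (nat_lit 5) (nat_lit 577) (nat_lit 549) (nat_lit 434)) (XT.lf (nat_lit 0) (nat_lit 270057422) (nat_lit 1900) (nat_lit 6395762367) (nat_lit 76) (nat_lit 3580837643) (nat_lit 460) (nat_lit 5) (nat_lit 485) (nat_lit 5) (nat_lit 461) (nat_lit 5) (nat_lit 578) (nat_lit 549) (nat_lit 433))) (XT.nd (nat_lit 78) (nat_lit 1976) (nat_lit 0) (XT.lf (nat_lit 0) (nat_lit 1891519500) (nat_lit 1900) (nat_lit 604257117)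 (nat_lit 76) (nat_lit 7849578298) (nat_lit 460) (nat_lit 5) (nat_lit 485) (nat_lit 5) (nat_lit 461) (nat_lit 5) (nat_lit 579) (nat_lit 549) (nat_lit 432)) (XT.nd (nat_lit 78) (nat_lit 912) (nat_lit 0) (XT.lf (nat_lit 0) (nat_lit 3572674554) (nat_lit 1140) (nat_lit 5101393639) (nat_lit 76) (nat_lit 1771414033) (nat_lit 446) (nat_lit 5) (nat_lit 461) (nat_lit 5) (nat_lit 447) (nat_lit 5) (nat_lit 580) (nat_lit 549) (nat_lit 431)) (XT.lf (nat_lit 0) (nat_lit 849017960) (nat_lit 912) (nat_lit 4445667066) (nat_lit 988) (nat_lit 5252783546) (nat_lit 434) (nat_lit 5) (nat_lit 446) (nat_lit 5) (nat_lit 447) (nat_lit 5) (nat_lit 581) (nat_lit 549) (nat_lit 430)))))) (XT.nd (nat_lit 390) (nat_lit 2584) (nat_lit 0) (XT.nd (nat_lit 156) (nat_lit 912) (nat_lit 0) (XT.nd (nat_lit 78) (nat_lit 912) (nat_lit 0) (XT.lf (nat_lit 0) (nat_lit 6970081497) (nat_lit 912) (nat_lit 96653848) (nat_lit 988) (nat_lit 3584448418) (nat_lit 434) (nat_lit 5) (nat_lit 446) (nat_lit 5) (nat_lit 447) (nat_lit 5) (nat_lit 582) (nat_lit 549)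 (nat_lit 429)) (XT.lf (nat_lit 0) (nat_lit 2442921151) (nat_lit 912) (nat_lit 6457079583) (nat_lit 988) (nat_lit 1856458131) (nat_lit 422) (nat_lit 5) (nat_lit 434) (nat_lit 5) (nat_lit 435) (nat_lit 5) (nat_lit 583) (nat_lit 549) (nat_lit 428))) (XT.nd (nat_lit 78) (nat_lit 912) (nat_lit 0) (XT.lf (nat_lit 0) (nat_lit 8721252752) (nat_lit 912) (nat_lit 2056000764) (nat_lit 988) (nat_lit 86440580) (nat_lit 422) (nat_lit 5) (nat_lit 434) (nat_lit 5) (nat_lit 435) (nat_lit 5) (nat_lit 584) (nat_lit 549) (nat_lit 427)) (XT.nd (nat_lit 78) (nat_lit 0) (nat_lit 0) (XT.lf (nat_lit 0) (nat_lit 1721834759) (nat_lit 912) (nat_lit 6810319798) (nat_lit 76) (nat_lit 2440189242) (nat_lit 410) (nat_lit 5) (nat_lit 422) (nat_lit 5) (nat_lit 411) (nat_lit 5) (nat_lit 585) (nat_lit 549) (nat_lit 426)) (XT.lf (nat_lit 0) (nat_lit 3575665737) (nat_lit 912) (nat_lit 493100380) (nat_lit 76) (nat_lit 7014179009) (nat_lit 410) (nat_lit 5) (nat_lit 422) (nat_lit 5) (nat_lit 411) (nat_lit 5) (nat_lit 586) (nat_lit 549) (nat_lit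 425))))) (XT.nd (nat_lit 156) (nat_lit 912) (nat_lit 0) (XT.nd (nat_lit 78) (nat_lit 836) (nat_lit 0) (XT.lf (nat_lit 0) (nat_lit 5491810432) (nat_lit 912) (nat_lit 5186623263) (nat_lit 76) (nat_lit 516821026) (nat_lit 399) (nat_lit 5) (nat_lit 411) (nat_lit 5) (nat_lit 400) (nat_lit 5) (nat_lit 587) (nat_lit 549) (nat_lit 424)) (XT.lf (nat_lit 0) (nat_lit 1310112783) (nat_lit 836) (nat_lit 6157975471) (nat_lit 912) (nat_lit 3841287018) (nat_lit 388) (nat_lit 5) (nat_lit 399) (nat_lit 5) (nat_lit 400) (nat_lit 5) (nat_lit 588) (nat_lit 549) (nat_lit 423))) (XT.nd (nat_lit 78) (nat_lit 912) (nat_lit 0) (XT.lf (nat_lit 0) (nat_lit 7989764425) (nat_lit 836) (nat_lit 1512180246) (nat_lit 912) (nat_lit 1923473450) (nat_lit 388) (nat_lit 5) (nat_lit 399) (nat_lit 5) (nat_lit 400) (nat_lit 5) (nat_lit 589) (nat_lit 549) (nat_lit 422)) (XT.nd (nat_lit 78) (nat_lit 0) (nat_lit 0) (XT.lf (nat_lit 0) (nat_lit 58149172) (nat_lit 912) (nat_lit 8279878830) (nat_lit 76) (nat_lit 3205232859) (nat_lit 376) (nat_lit 5) (nat_lit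 388) (nat_lit 5) (nat_lit 377) (nat_lit 5) (nat_lit 590) (nat_lit 549) (nat_lit 421)) (XT.lf (nat_lit 0) (nat_lit 2070570216) (nat_lit 912) (nat_lit 1560350209) (nat_lit 76) (nat_lit 8031948214) (nat_lit 376) (nat_lit 5) (nat_lit 388) (nat_lit 5) (nat_lit 377) (nat_lit 5) (nat_lit 591) (nat_lit 549) (nat_lit 420))))))))
noncomputable def xc125 : XT := (XT.nd (nat_lit 1560) (nat_lit 608) (nat_lit 0) (XT.nd (nat_lit 780) (nat_lit 3876) (nat_lit 0) (XT.nd (nat_lit 390) (nat_lit 2128) (nat_lit 0) (XT.nd (nat_lit 156) (nat_lit 760) (nat_lit 0) (XT.nd (nat_lit 78) (nat_lit 760) (nat_lit 0) (XT.lf (nat_lit 0) (nat_lit 4149770107) (nat_lit 836) (nat_lit 6445699642) (nat_lit 76) (nat_lit 1188869093) (nat_lit 366) (nat_lit 5) (nat_lit 377) (nat_lit 5) (nat_lit 367) (nat_lit 5) (nat_lit 592) (nat_lit 549) (nat_lit 419)) (XT.lf (nat_lit 0) (nat_lit 453289410) (nat_lit 760) (nat_lit 5838984883) (nat_lit 836) (nat_lit 5615530608) (nat_lit 356) (nat_lit 5) (nat_lit 366) (nat_lit 5) (nat_lit 367) (nat_lit 5) (nat_lit 593)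 (nat_lit 549) (nat_lit 418))) (XT.nd (nat_lit 78) (nat_lit 760) (nat_lit 0) (XT.lf (nat_lit 0) (nat_lit 7560474308) (nat_lit 760) (nat_lit 944798168) (nat_lit 836) (nat_lit 3527915768) (nat_lit 356) (nat_lit 5) (nat_lit 366) (nat_lit 5) (nat_lit 367) (nat_lit 5) (nat_lit 594) (nat_lit 549) (nat_lit 417)) (XT.nd (nat_lit 78) (nat_lit 76) (nat_lit 0) (XT.lf (nat_lit 0) (nat_lit 2639951779) (nat_lit 684) (nat_lit 8150682849) (nat_lit 760) (nat_lit 1369883371) (nat_lit 347) (nat_lit 5) (nat_lit 356) (nat_lit 5) (nat_lit 357) (nat_lit 5) (nat_lit 595) (nat_lit 549) (nat_lit 416)) (XT.lf (nat_lit 0) (nat_lit 841651889) (nat_lit 760) (nat_lit 2363355810) (nat_lit 76) (nat_lit 9084854597) (nat_lit 346) (nat_lit 5) (nat_lit 356) (nat_lit 5) (nat_lit 347) (nat_lit 5) (nat_lit 596) (nat_lit 549) (nat_lit 415))))) (XT.nd (nat_lit 156) (nat_lit 1368) (nat_lit 0) (XT.nd (nat_lit 78) (nat_lit 0) (nat_lit 0) (XT.lf (nat_lit 0) (nat_lit 3108680595) (nat_lit 836) (nat_lit 7457149106) (nat_lit 76) (nat_lit 1855191348) (nat_lit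 336) (nat_lit 5) (nat_lit 347) (nat_lit 5) (nat_lit 337) (nat_lit 5) (nat_lit 597) (nat_lit 549) (nat_lit 414)) (XT.lf (nat_lit 0) (nat_lit 5443483789) (nat_lit 836) (nat_lit 123178224) (nat_lit 76) (nat_lit 6987693046) (nat_lit 336) (nat_lit 5) (nat_lit 347) (nat_lit 5) (nat_lit 337) (nat_lit 5) (nat_lit 598) (nat_lit 549) (nat_lit 413))) (XT.nd (nat_lit 78) (nat_lit 684) (nat_lit 0) (XT.lf (nat_lit 0) (nat_lit 7438318775) (nat_lit 684) (nat_lit 420492408) (nat_lit 760) (nat_lit 4830868753) (nat_lit 327) (nat_lit 5) (nat_lit 336) (nat_lit 5) (nat_lit 337) (nat_lit 5) (nat_lit 599) (nat_lit 549) (nat_lit 412)) (XT.nd (nat_lit 78) (nat_lit 0) (nat_lit 0) (XT.lf (nat_lit 0) (nat_lit 2307052277) (nat_lit 684) (nat_lit 8048248842) (nat_lit 760) (nat_lit 2471753803) (nat_lit 318) (nat_lit 5) (nat_lit 327) (nat_lit 5) (nat_lit 328) (nat_lit 5) (nat_lit 600) (nat_lit 549) (nat_lit 411)) (XT.lf (nat_lit 0) (nat_lit 10068237003) (nat_lit 684) (nat_lit 2857355875) (nat_lit 760) (nat_lit 41107809) (nat_lit 318) (nat_lit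 5) (nat_lit 327) (nat_lit 5) (nat_lit 328) (nat_lit 5) (nat_lit 601) (nat_lit 549) (nat_lit 410)))))) (XT.nd (nat_lit 390) (nat_lit 1900) (nat_lit 0) (XT.nd (nat_lit 156) (nat_lit 1292) (nat_lit 0) (XT.nd (nat_lit 78) (nat_lit 0) (nat_lit 0) (XT.lf (nat_lit 0) (nat_lit 2440210901) (nat_lit 684) (nat_lit 8217167270) (nat_lit 76) (nat_lit 2450764553) (nat_lit 309) (nat_lit 5) (nat_lit 318) (nat_lit 5) (nat_lit 310) (nat_lit 5) (nat_lit 602) (nat_lit 549) (nat_lit 409)) (XT.lf (nat_lit 0) (nat_lit 4995307530) (nat_lit 684) (nat_lit 412621346) (nat_lit 76) (nat_lit 7843985929) (nat_lit 309) (nat_lit 5) (nat_lit 318) (nat_lit 5) (nat_lit 310) (nat_lit 5) (nat_lit 603) (nat_lit 549) (nat_lit 408))) (XT.nd (nat_lit 78) (nat_lit 608) (nat_lit 0) (XT.lf (nat_lit 0) (nat_lit 7631669321) (nat_lit 684) (nat_lit 5856776) (nat_lit 760) (nat_lit 5760316493) (nat_lit 300) (nat_lit 5) (nat_lit 309) (nat_lit 5) (nat_lit 310) (nat_lit 5) (nat_lit 604) (nat_lit 549) (nat_lit 407)) (XT.nd (nat_lit 78) (nat_lit 0) (nat_lit 0)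 (XT.lf (nat_lit 0) (nat_lit 2273286770) (nat_lit 608) (nat_lit 8099196698) (nat_lit 684) (nat_lit 3173408227) (nat_lit 292) (nat_lit 5) (nat_lit 300) (nat_lit 5) (nat_lit 301) (nat_lit 5) (nat_lit 605) (nat_lit 549) (nat_lit 406)) (XT.lf (nat_lit 0) (nat_lit 10535190160) (nat_lit 608) (nat_lit 2652448250) (nat_lit 684) (nat_lit 508754041) (nat_lit 292) (nat_lit 5) (nat_lit 300) (nat_lit 5) (nat_lit 301) (nat_lit 5) (nat_lit 606) (nat_lit 549) (nat_lit 405))))) (XT.nd (nat_lit 156) (nat_lit 1216) (nat_lit 0) (XT.nd (nat_lit 78) (nat_lit 0) (nat_lit 0) (XT.lf (nat_lit 0) (nat_lit 2219735683) (nat_lit 684) (nat_lit 8719055499) (nat_lit 76) (nat_lit 2910035454) (nat_lit 283) (nat_lit 5) (nat_lit 292) (nat_lit 5) (nat_lit 284) (nat_lit 5) (nat_lit 607) (nat_lit 549) (nat_lit 404)) (XT.lf (nat_lit 0) (nat_lit 5021977240) (nat_lit 684) (nat_lit 411995700) (nat_lit 76) (nat_lit 8569750023) (nat_lit 283) (nat_lit 5) (nat_lit 292) (nat_lit 5) (nat_lit 284) (nat_lit 5) (nat_lit 608) (nat_lit 549) (nat_lit 403))) (XT.nd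 (nat_lit 78) (nat_lit 608) (nat_lit 0) (XT.lf (nat_lit 0) (nat_lit 7922016443) (nat_lit 684) (nat_lit 6010422860) (nat_lit 76) (nat_lit 228443447) (nat_lit 275) (nat_lit 5) (nat_lit 284) (nat_lit 5) (nat_lit 276) (nat_lit 5) (nat_lit 609) (nat_lit 549) (nat_lit 402)) (XT.nd (nat_lit 78) (nat_lit 0) (nat_lit 0) (XT.lf (nat_lit 0) (nat_lit 2549805347) (nat_lit 608) (nat_lit 8373019385) (nat_lit 684) (nat_lit 3397506213) (nat_lit 267) (nat_lit 5) (nat_lit 275) (nat_lit 5) (nat_lit 276) (nat_lit 5) (nat_lit 610) (nat_lit 549) (nat_lit 401)) (XT.lf (nat_lit 0) (nat_lit 11346568101) (nat_lit 608) (nat_lit 2664999261) (nat_lit 684) (nat_lit 470842944) (nat_lit 267) (nat_lit 5) (nat_lit 275) (nat_lit 5) (nat_lit 276) (nat_lit 5) (nat_lit 611) (nat_lit 549) (nat_lit 400))))))) (XT.nd (nat_lit 77064) (nat_lit 0) (nat_lit 21964) (XT.nd (nat_lit 76674) (nat_lit 0) (nat_lit 23332) (XT.nd (nat_lit 76440) (nat_lit 0) (nat_lit 24700) (XT.nd (nat_lit 76362) (nat_lit 0) (nat_lit 26144) (XT.lf (nat_lit 0) (nat_lit 2527052932)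 (nat_lit 608) (nat_lit 8953573871) (nat_lit 76) (nat_lit 3165864989) (nat_lit 259) (nat_lit 5) (nat_lit 267) (nat_lit 5) (nat_lit 260) (nat_lit 5) (nat_lit 612) (nat_lit 549) (nat_lit 399)) (XT.lf (nat_lit 0) (nat_lit 4061186263) (nat_lit 1444) (nat_lit 8828466) (nat_lit 1444) (nat_lit 8828466) (nat_lit 603) (nat_lit 3) (nat_lit 622) (nat_lit 3) (nat_lit 622) (nat_lit 5) (nat_lit 550) (nat_lit 550) (nat_lit 460))) (XT.nd (nat_lit 78) (nat_lit 0) (nat_lit 0) (XT.lf (nat_lit 0) (nat_lit 1144393597) (nat_lit 1444) (nat_lit 4137773079) (nat_lit 1520) (nat_lit 2933427944) (nat_lit 584) (nat_lit 5) (nat_lit 603) (nat_lit 3) (nat_lit 604) (nat_lit 5) (nat_lit 551) (nat_lit 550) (nat_lit 459)) (XT.nd (nat_lit 78) (nat_lit 0) (nat_lit 76) (XT.lf (nat_lit 0) (nat_lit 2316999851) (nat_lit 1444) (nat_lit 35374665) (nat_lit 1520) (nat_lit 5922888416) (nat_lit 584) (nat_lit 5) (nat_lit 603) (nat_lit 3) (nat_lit 604) (nat_lit 5) (nat_lit 552) (nat_lit 550) (nat_lit 458)) (XT.lf (nat_lit 0) (nat_lit 3514905978) (nat_lit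 1444) (nat_lit 4152193822) (nat_lit 1520) (nat_lit 668989948) (nat_lit 585) (nat_lit 5) (nat_lit 604) (nat_lit 5) (nat_lit 605) (nat_lit 5) (nat_lit 553) (nat_lit 550) (nat_lit 457))))) (XT.nd (nat_lit 156) (nat_lit 1444) (nat_lit 0) (XT.nd (nat_lit 78) (nat_lit 0) (nat_lit 0) (XT.lf (nat_lit 76) (nat_lit 58903600) (nat_lit 0) (nat_lit 4664891203) (nat_lit 1520) (nat_lit 3674599858) (nat_lit 586) (nat_lit 5) (nat_lit 585) (nat_lit 5) (nat_lit 605) (nat_lit 5) (nat_lit 554) (nat_lit 550) (nat_lit 456)) (XT.lf (nat_lit 76) (nat_lit 4394421768) (nat_lit 0) (nat_lit 1561595215) (nat_lit 1520) (nat_lit 2505947590) (nat_lit 586) (nat_lit 5) (nat_lit 585) (nat_lit 5) (nat_lit 605) (nat_lit 5) (nat_lit 555) (nat_lit 550) (nat_lit 455))) (XT.nd (nat_lit 78) (nat_lit 1520) (nat_lit 0) (XT.lf (nat_lit 76) (nat_lit 266511944) (nat_lit 0) (nat_lit 6930450170) (nat_lit 1520) (nat_lit 1330164172) (nat_lit 587) (nat_lit 5) (nat_lit 586) (nat_lit 5) (nat_lit 606) (nat_lit 5) (nat_lit 556) (nat_lit 550) (nat_lit 454)) (XT.nd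 (nat_lit 78) (nat_lit 1520) (nat_lit 0) (XT.lf (nat_lit 76) (nat_lit 4715598167) (nat_lit 0) (nat_lit 3757076814) (nat_lit 1520) (nat_lit 120719211) (nat_lit 587) (nat_lit 5) (nat_lit 586) (nat_lit 5) (nat_lit 606) (nat_lit 5) (nat_lit 557) (nat_lit 550) (nat_lit 453)) (XT.lf (nat_lit 76) (nat_lit 576664445) (nat_lit 0) (nat_lit 498138415) (nat_lit 1596) (nat_lit 7586512252) (nat_lit 567) (nat_lit 5) (nat_lit 566) (nat_lit 5) (nat_lit 587) (nat_lit 5) (nat_lit 558) (nat_lit 550) (nat_lit 452)))))) (XT.nd (nat_lit 390) (nat_lit 1444) (nat_lit 0) (XT.nd (nat_lit 156) (nat_lit 0) (nat_lit 76) (XT.nd (nat_lit 78) (nat_lit 0) (nat_lit 0) (XT.lf (nat_lit 0) (nat_lit 2310400943) (nat_lit 1520) (nat_lit 3593466353) (nat_lit 1596) (nat_lit 2826357378) (nat_lit 567) (nat_lit 5) (nat_lit 587) (nat_lit 5) (nat_lit 588) (nat_lit 5) (nat_lit 559) (nat_lit 550) (nat_lit 451)) (XT.lf (nat_lit 76) (nat_lit 980582557) (nat_lit 0) (nat_lit 2573556673) (nat_lit 1596) (nat_lit 5246706420) (nat_lit 568) (nat_lit 5) (nat_lit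 567) (nat_lit 5) (nat_lit 588) (nat_lit 5) (nat_lit 560) (nat_lit 550) (nat_lit 450))) (XT.nd (nat_lit 78) (nat_lit 0) (nat_lit 0) (XT.lf (nat_lit 0) (nat_lit 4826603594) (nat_lit 1520) (nat_lit 3200070904) (nat_lit 1596) (nat_lit 846129273) (nat_lit 568) (nat_lit 5) (nat_lit 588) (nat_lit 5) (nat_lit 589) (nat_lit 5) (nat_lit 561) (nat_lit 550) (nat_lit 449)) (XT.nd (nat_lit 78) (nat_lit 0) (nat_lit 0) (XT.lf (nat_lit 76) (nat_lit 1498476187) (nat_lit 0) (nat_lit 4627550604) (nat_lit 1596) (nat_lit 2820145789) (nat_lit 569) (nat_lit 5) (nat_lit 568) (nat_lit 5) (nat_lit 589) (nat_lit 5) (nat_lit 562) (nat_lit 550) (nat_lit 448)) (XT.lf (nat_lit 76) (nat_lit 6317823313) (nat_lit 0) (nat_lit 1130214231) (nat_lit 1596) (nat_lit 1573040924) (nat_lit 569) (nat_lit 5) (nat_lit 568) (nat_lit 5) (nat_lit 589) (nat_lit 5) (nat_lit 563) (nat_lit 550) (nat_lit 447))))) (XT.nd (nat_lit 234) (nat_lit 0) (nat_lit 76) (XT.nd (nat_lit 78) (nat_lit 1596) (nat_lit 0) (XT.lf (nat_lit 76) (nat_lit 2131439428) (nat_lit 0)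 (nat_lit 6670376547) (nat_lit 1596) (nat_lit 295561599) (nat_lit 570) (nat_lit 5) (nat_lit 569) (nat_lit 5) (nat_lit 590) (nat_lit 5) (nat_lit 564) (nat_lit 550) (nat_lit 446)) (XT.nd (nat_lit 78) (nat_lit 0) (nat_lit 76) (XT.lf (nat_lit 0) (nat_lit 995873827) (nat_lit 1596) (nat_lit 2106493284) (nat_lit 1672) (nat_lit 6072673924) (nat_lit 548) (nat_lit 5) (nat_lit 569) (nat_lit 5) (nat_lit 570) (nat_lit 5) (nat_lit 565) (nat_lit 550) (nat_lit 445)) (XT.lf (nat_lit 0) (nat_lit 2307828450) (nat_lit 1596) (nat_lit 6388821905) (nat_lit 1672) (nat_lit 557596930) (nat_lit 549) (nat_lit 5) (nat_lit 570) (nat_lit 5) (nat_lit 571) (nat_lit 5) (nat_lit 566) (nat_lit 550) (nat_lit 444)))) (XT.nd (nat_lit 78) (nat_lit 0) (nat_lit 0) (XT.lf (nat_lit 0) (nat_lit 3657544660) (nat_lit 1596) (nat_lit 1407104986) (nat_lit 1672) (nat_lit 4270159089) (nat_lit 549) (nat_lit 5) (nat_lit 570) (nat_lit 5) (nat_lit 571) (nat_lit 5) (nat_lit 567) (nat_lit 550) (nat_lit 443)) (XT.nd (nat_lit 78) (nat_lit 0) (nat_lit 76) (XT.lf (nat_lit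 76) (nat_lit 3706139787) (nat_lit 0) (nat_lit 1329381777) (nat_lit 1672) (nat_lit 4381436020) (nat_lit 550) (nat_lit 5) (nat_lit 549) (nat_lit 5) (nat_lit 571) (nat_lit 5) (nat_lit 568) (nat_lit 550) (nat_lit 442)) (XT.lf (nat_lit 0) (nat_lit 6444249446) (nat_lit 1596) (nat_lit 593097437) (nat_lit 1672) (nat_lit 2463340161) (nat_lit 550) (nat_lit 5) (nat_lit 571) (nat_lit 5) (nat_lit 572) (nat_lit 5) (nat_lit 569) (nat_lit 550) (nat_lit 441))))))))
noncomputable def xc126 : XT := (XT.nd (nat_lit 1560) (nat_lit 8588) (nat_lit 0) (XT.nd (nat_lit 780) (nat_lit 5472) (nat_lit 0) (XT.nd (nat_lit 390) (nat_lit 5244) (nat_lit 0) (XT.nd (nat_lit 156) (nat_lit 1596) (nat_lit 0) (XT.nd (nat_lit 78) (nat_lit 0) (nat_lit 76) (XT.lf (nat_lit 76) (nat_lit 4662567181) (nat_lit 0) (nat_lit 3235681473) (nat_lit 1672) (nat_lit 1687501942) (nat_lit 551) (nat_lit 5) (nat_lit 550) (nat_lit 5) (nat_lit 572) (nat_lit 5) (nat_lit 570) (nat_lit 550) (nat_lit 440)) (XT.lf (nat_lit 76) (nat_lit 342127639) (nat_lit 0) (nat_lit 9027972145)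 (nat_lit 1672) (nat_lit 302641606) (nat_lit 552) (nat_lit 5) (nat_lit 551) (nat_lit 5) (nat_lit 573) (nat_lit 5) (nat_lit 571) (nat_lit 550) (nat_lit 439))) (XT.nd (nat_lit 78) (nat_lit 0) (nat_lit 0) (XT.lf (nat_lit 0) (nat_lit 1128590472) (nat_lit 1672) (nat_lit 4027472143) (nat_lit 1748) (nat_lit 4604601985) (nat_lit 529) (nat_lit 5) (nat_lit 551) (nat_lit 5) (nat_lit 552) (nat_lit 5) (nat_lit 572) (nat_lit 550) (nat_lit 438)) (XT.nd (nat_lit 78) (nat_lit 0) (nat_lit 76) (XT.lf (nat_lit 76) (nat_lit 1380890243) (nat_lit 0) (nat_lit 1191441658) (nat_lit 1748) (nat_lit 7278216952) (nat_lit 530) (nat_lit 5) (nat_lit 529) (nat_lit 5) (nat_lit 552) (nat_lit 5) (nat_lit 573) (nat_lit 550) (nat_lit 437)) (XT.lf (nat_lit 0) (nat_lit 4069969730) (nat_lit 1672) (nat_lit 3025654145) (nat_lit 76) (nat_lit 2846107786) (nat_lit 530) (nat_lit 5) (nat_lit 552) (nat_lit 5) (nat_lit 531) (nat_lit 5) (nat_lit 574) (nat_lit 550) (nat_lit 436))))) (XT.nd (nat_lit 156) (nat_lit 3648) (nat_lit 0) (XT.nd (nat_lit 78) (nat_lit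 0) (nat_lit 0) (XT.lf (nat_lit 0) (nat_lit 2535656360) (nat_lit 1672) (nat_lit 3065959412) (nat_lit 1748) (nat_lit 4433042520) (nat_lit 508) (nat_lit 5) (nat_lit 530) (nat_lit 5) (nat_lit 531) (nat_lit 5) (nat_lit 575) (nat_lit 550) (nat_lit 435)) (XT.lf (nat_lit 0) (nat_lit 7171124558) (nat_lit 1748) (nat_lit 1903995455) (nat_lit 76) (nat_lit 1054180097) (nat_lit 508) (nat_lit 5) (nat_lit 531) (nat_lit 5) (nat_lit 509) (nat_lit 5) (nat_lit 576) (nat_lit 550) (nat_lit 434))) (XT.nd (nat_lit 78) (nat_lit 1900) (nat_lit 0) (XT.lf (nat_lit 0) (nat_lit 3815739176) (nat_lit 1748) (nat_lit 4981766305) (nat_lit 1824) (nat_lit 1427820872) (nat_lit 485) (nat_lit 5) (nat_lit 508) (nat_lit 5) (nat_lit 509) (nat_lit 5) (nat_lit 577) (nat_lit 550) (nat_lit 433)) (XT.nd (nat_lit 78) (nat_lit 1824) (nat_lit 0) (XT.lf (nat_lit 0) (nat_lit 124805473) (nat_lit 1824) (nat_lit 665349097) (nat_lit 76) (nat_lit 9533234224) (nat_lit 484) (nat_lit 5) (nat_lit 508) (nat_lit 5) (nat_lit 485) (nat_lit 5) (nat_lit 578) (nat_lit 550)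 (nat_lit 432)) (XT.lf (nat_lit 0) (nat_lit 1727243507) (nat_lit 1900) (nat_lit 5209590812) (nat_lit 76) (nat_lit 3485633010) (nat_lit 460) (nat_lit 5) (nat_lit 485) (nat_lit 5) (nat_lit 461) (nat_lit 5) (nat_lit 579) (nat_lit 550) (nat_lit 431)))))) (XT.nd (nat_lit 390) (nat_lit 2584) (nat_lit 0) (XT.nd (nat_lit 156) (nat_lit 1824) (nat_lit 0) (XT.nd (nat_lit 78) (nat_lit 0) (nat_lit 0) (XT.lf (nat_lit 0) (nat_lit 680908370) (nat_lit 1064) (nat_lit 2676180993) (nat_lit 1140) (nat_lit 7166532023) (nat_lit 446) (nat_lit 5) (nat_lit 460) (nat_lit 5) (nat_lit 461) (nat_lit 5) (nat_lit 580) (nat_lit 550) (nat_lit 430)) (XT.lf (nat_lit 0) (nat_lit 5047043722) (nat_lit 1140) (nat_lit 3894614077) (nat_lit 76) (nat_lit 1684591606) (nat_lit 446) (nat_lit 5) (nat_lit 461) (nat_lit 5) (nat_lit 447) (nat_lit 5) (nat_lit 581) (nat_lit 550) (nat_lit 429))) (XT.nd (nat_lit 78) (nat_lit 912) (nat_lit 0) (XT.lf (nat_lit 0) (nat_lit 2166195180) (nat_lit 912) (nat_lit 4618232814) (nat_lit 988) (nat_lit 3946230461) (nat_lit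 434) (nat_lit 5) (nat_lit 446) (nat_lit 5) (nat_lit 447) (nat_lit 5) (nat_lit 582) (nat_lit 550) (nat_lit 428)) (XT.nd (nat_lit 78) (nat_lit 912) (nat_lit 0) (XT.lf (nat_lit 0) (nat_lit 8384185931) (nat_lit 912) (nat_lit 180599088) (nat_lit 988) (nat_lit 2272207234) (nat_lit 434) (nat_lit 5) (nat_lit 446) (nat_lit 5) (nat_lit 447) (nat_lit 5) (nat_lit 583) (nat_lit 550) (nat_lit 427)) (XT.lf (nat_lit 0) (nat_lit 3785661287) (nat_lit 912) (nat_lit 6630330877) (nat_lit 988) (nat_lit 528756751) (nat_lit 422) (nat_lit 5) (nat_lit 434) (nat_lit 5) (nat_lit 435) (nat_lit 5) (nat_lit 584) (nat_lit 550) (nat_lit 426))))) (XT.nd (nat_lit 156) (nat_lit 1672) (nat_lit 0) (XT.nd (nat_lit 78) (nat_lit 836) (nat_lit 0) (XT.lf (nat_lit 0) (nat_lit 1233507107) (nat_lit 988) (nat_lit 898580996) (nat_lit 76) (nat_lit 8922404702) (nat_lit 421) (nat_lit 5) (nat_lit 434) (nat_lit 5) (nat_lit 422) (nat_lit 5) (nat_lit 585) (nat_lit 550) (nat_lit 425)) (XT.lf (nat_lit 0) (nat_lit 3059030634) (nat_lit 912) (nat_lit 5642553786)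 (nat_lit 76) (nat_lit 2464076347) (nat_lit 410) (nat_lit 5) (nat_lit 422) (nat_lit 5) (nat_lit 411) (nat_lit 5) (nat_lit 586) (nat_lit 550) (nat_lit 424))) (XT.nd (nat_lit 78) (nat_lit 836) (nat_lit 0) (XT.lf (nat_lit 0) (nat_lit 785747149) (nat_lit 836) (nat_lit 4143748376) (nat_lit 912) (nat_lit 6349388913) (nat_lit 399) (nat_lit 5) (nat_lit 410) (nat_lit 5) (nat_lit 411) (nat_lit 5) (nat_lit 587) (nat_lit 550) (nat_lit 423)) (XT.nd (nat_lit 78) (nat_lit 836) (nat_lit 0) (XT.lf (nat_lit 0) (nat_lit 6862125914) (nat_lit 912) (nat_lit 3995143974) (nat_lit 76) (nat_lit 536608519) (nat_lit 399) (nat_lit 5) (nat_lit 411) (nat_lit 5) (nat_lit 400) (nat_lit 5) (nat_lit 588) (nat_lit 550) (nat_lit 422)) (XT.lf (nat_lit 0) (nat_lit 2623005663) (nat_lit 836) (nat_lit 6238562398) (nat_lit 912) (nat_lit 2649041940) (nat_lit 388) (nat_lit 5) (nat_lit 399) (nat_lit 5) (nat_lit 400) (nat_lit 5) (nat_lit 589) (nat_lit 550) (nat_lit 421))))))) (XT.nd (nat_lit 780) (nat_lit 3952) (nat_lit 0) (XT.nd (nat_lit 390) (nat_lit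 2204) (nat_lit 0) (XT.nd (nat_lit 156) (nat_lit 1520) (nat_lit 0) (XT.nd (nat_lit 78) (nat_lit 912) (nat_lit 0) (XT.lf (nat_lit 0) (nat_lit 9411021110) (nat_lit 836) (nat_lit 1500686025) (nat_lit 912) (nat_lit 717755842) (nat_lit 388) (nat_lit 5) (nat_lit 399) (nat_lit 5) (nat_lit 400) (nat_lit 5) (nat_lit 590) (nat_lit 550) (nat_lit 420)) (XT.lf (nat_lit 0) (nat_lit 1271720380) (nat_lit 912) (nat_lit 7152102121) (nat_lit 76) (nat_lit 3325989058) (nat_lit 376) (nat_lit 5) (nat_lit 388) (nat_lit 5) (nat_lit 377) (nat_lit 5) (nat_lit 591) (nat_lit 550) (nat_lit 419))) (XT.nd (nat_lit 78) (nat_lit 1520) (nat_lit 0) (XT.lf (nat_lit 0) (nat_lit 3300617134) (nat_lit 912) (nat_lit 323543208) (nat_lit 76) (nat_lit 8248127907) (nat_lit 376) (nat_lit 5) (nat_lit 388) (nat_lit 5) (nat_lit 377) (nat_lit 5) (nat_lit 592) (nat_lit 550) (nat_lit 418)) (XT.nd (nat_lit 78) (nat_lit 760) (nat_lit 0) (XT.lf (nat_lit 0) (nat_lit 5406832504) (nat_lit 836) (nat_lit 5291967333) (nat_lit 76) (nat_lit 1297680664) (nat_lit 366)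 (nat_lit 5) (nat_lit 377) (nat_lit 5) (nat_lit 367) (nat_lit 5) (nat_lit 593) (nat_lit 550) (nat_lit 417)) (XT.lf (nat_lit 0) (nat_lit 1736563036) (nat_lit 760) (nat_lit 5840875818) (nat_lit 836) (nat_lit 4545273236) (nat_lit 356) (nat_lit 5) (nat_lit 366) (nat_lit 5) (nat_lit 367) (nat_lit 5) (nat_lit 594) (nat_lit 550) (nat_lit 416))))) (XT.nd (nat_lit 156) (nat_lit 1520) (nat_lit 0) (XT.nd (nat_lit 78) (nat_lit 684) (nat_lit 0) (XT.lf (nat_lit 0) (nat_lit 8960907165) (nat_lit 760) (nat_lit 851058090) (nat_lit 836) (nat_lit 2439093706) (nat_lit 356) (nat_lit 5) (nat_lit 366) (nat_lit 5) (nat_lit 367) (nat_lit 5) (nat_lit 595) (nat_lit 550) (nat_lit 415)) (XT.lf (nat_lit 0) (nat_lit 3955672208) (nat_lit 684) (nat_lit 8173993109) (nat_lit 760) (nat_lit 251538584) (nat_lit 347) (nat_lit 5) (nat_lit 356) (nat_lit 5) (nat_lit 357) (nat_lit 5) (nat_lit 596) (nat_lit 550) (nat_lit 414))) (XT.nd (nat_lit 78) (nat_lit 1444) (nat_lit 0) (XT.lf (nat_lit 0) (nat_lit 1967029865) (nat_lit 760) (nat_lit 1157674954)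 (nat_lit 76) (nat_lit 9388726060) (nat_lit 346) (nat_lit 5) (nat_lit 356) (nat_lit 5) (nat_lit 347) (nat_lit 5) (nat_lit 597) (nat_lit 550) (nat_lit 413)) (XT.nd (nat_lit 78) (nat_lit 684) (nat_lit 0) (XT.lf (nat_lit 0) (nat_lit 4266717115) (nat_lit 836) (nat_lit 6340605454) (nat_lit 76) (nat_lit 2040145010) (nat_lit 336) (nat_lit 5) (nat_lit 347) (nat_lit 5) (nat_lit 337) (nat_lit 5) (nat_lit 598) (nat_lit 550) (nat_lit 412)) (XT.lf (nat_lit 0) (nat_lit 1130048246) (nat_lit 684) (nat_lit 5504017642) (nat_lit 760) (nat_lit 6149686502) (nat_lit 327) (nat_lit 5) (nat_lit 336) (nat_lit 5) (nat_lit 337) (nat_lit 5) (nat_lit 599) (nat_lit 550) (nat_lit 411)))))) (XT.nd (nat_lit 390) (nat_lit 1900) (nat_lit 0) (XT.nd (nat_lit 156) (nat_lit 1368) (nat_lit 0) (XT.nd (nat_lit 78) (nat_lit 684) (nat_lit 0) (XT.lf (nat_lit 0) (nat_lit 8819790786) (nat_lit 684) (nat_lit 257509378) (nat_lit 760) (nat_lit 3844892681) (nat_lit 327) (nat_lit 5) (nat_lit 336) (nat_lit 5) (nat_lit 337) (nat_lit 5) (nat_lit 600) (nat_lit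 550) (nat_lit 410)) (XT.lf (nat_lit 0) (nat_lit 3597824262) (nat_lit 684) (nat_lit 8014257530) (nat_lit 760) (nat_lit 1450467369) (nat_lit 318) (nat_lit 5) (nat_lit 327) (nat_lit 5) (nat_lit 328) (nat_lit 5) (nat_lit 601) (nat_lit 550) (nat_lit 409))) (XT.nd (nat_lit 78) (nat_lit 1292) (nat_lit 0) (XT.lf (nat_lit 0) (nat_lit 994579566) (nat_lit 760) (nat_lit 1722115658) (nat_lit 76) (nat_lit 10488574436) (nat_lit 317) (nat_lit 5) (nat_lit 327) (nat_lit 5) (nat_lit 318) (nat_lit 5) (nat_lit 602) (nat_lit 550) (nat_lit 408)) (XT.nd (nat_lit 78) (nat_lit 684) (nat_lit 0) (XT.lf (nat_lit 0) (nat_lit 3513934921) (nat_lit 684) (nat_lit 7136375455) (nat_lit 76) (nat_lit 2699446518) (nat_lit 309) (nat_lit 5) (nat_lit 318) (nat_lit 5) (nat_lit 310) (nat_lit 5) (nat_lit 603) (nat_lit 550) (nat_lit 407)) (XT.lf (nat_lit 0) (nat_lit 810476518) (nat_lit 684) (nat_lit 5294822649) (nat_lit 760) (nat_lit 7391402922) (nat_lit 300) (nat_lit 5) (nat_lit 309) (nat_lit 5) (nat_lit 310) (nat_lit 5) (nat_lit 604) (nat_lit 550)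 (nat_lit 406))))) (XT.nd (nat_lit 234) (nat_lit 1216) (nat_lit 0) (XT.nd (nat_lit 78) (nat_lit 684) (nat_lit 0) (XT.lf (nat_lit 0) (nat_lit 8784658744) (nat_lit 760) (nat_lit 4650286442) (nat_lit 76) (nat_lit 210918280) (nat_lit 300) (nat_lit 5) (nat_lit 310) (nat_lit 5) (nat_lit 301) (nat_lit 5) (nat_lit 605) (nat_lit 550) (nat_lit 405)) (XT.nd (nat_lit 78) (nat_lit 76) (nat_lit 0) (XT.lf (nat_lit 0) (nat_lit 3541824200) (nat_lit 608) (nat_lit 8020972391) (nat_lit 684) (nat_lit 2234308281) (nat_lit 292) (nat_lit 5) (nat_lit 300) (nat_lit 5) (nat_lit 301) (nat_lit 5) (nat_lit 606) (nat_lit 550) (nat_lit 404)) (XT.lf (nat_lit 0) (nat_lit 457895598) (nat_lit 684) (nat_lit 2009030620) (nat_lit 76) (nat_lit 11484015541) (nat_lit 291) (nat_lit 5) (nat_lit 300) (nat_lit 5) (nat_lit 292) (nat_lit 5) (nat_lit 607) (nat_lit 550) (nat_lit 403)))) (XT.nd (nat_lit 78) (nat_lit 608) (nat_lit 0) (XT.lf (nat_lit 0) (nat_lit 3224539035) (nat_lit 684) (nat_lit 7671755237) (nat_lit 76) (nat_lit 3210256069) (nat_lit 283)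 (nat_lit 5) (nat_lit 292) (nat_lit 5) (nat_lit 284) (nat_lit 5) (nat_lit 608) (nat_lit 550) (nat_lit 402)) (XT.nd (nat_lit 78) (nat_lit 0) (nat_lit 0) (XT.lf (nat_lit 0) (nat_lit 787823669) (nat_lit 608) (nat_lit 5281285285) (nat_lit 684) (nat_lit 8195710846) (nat_lit 275) (nat_lit 5) (nat_lit 283) (nat_lit 5) (nat_lit 284) (nat_lit 5) (nat_lit 609) (nat_lit 550) (nat_lit 401)) (XT.lf (nat_lit 0) (nat_lit 9012978493) (nat_lit 684) (nat_lit 4923806187) (nat_lit 76) (nat_lit 488622370) (nat_lit 275) (nat_lit 5) (nat_lit 284) (nat_lit 5) (nat_lit 276) (nat_lit 5) (nat_lit 610) (nat_lit 550) (nat_lit 400))))))))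
noncomputable def xc127 : XT := (XT.nd (nat_lit 78000) (nat_lit 0) (nat_lit 9196) (XT.nd (nat_lit 77220) (nat_lit 0) (nat_lit 21280) (XT.nd (nat_lit 76830) (nat_lit 0) (nat_lit 22724) (XT.nd (nat_lit 76596) (nat_lit 0) (nat_lit 24092) (XT.nd (nat_lit 76518) (nat_lit 0) (nat_lit 24092) (XT.lf (nat_lit 0) (nat_lit 3799686945) (nat_lit 608) (nat_lit 8263615223) (nat_lit 684) (nat_lit 2524952898) (nat_lit 267) (nat_lit 5) (nat_lit 275) (nat_lit 5) (nat_lit 276) (nat_lit 5) (nat_lit 611) (nat_lit 550) (nat_lit 399)) (XT.lf (nat_lit 0) (nat_lit 567550293) (nat_lit 0) (nat_lit 567550293) (nat_lit 1444) (nat_lit 3002183441) (nat_lit 584) (nat_lit 5) (nat_lit 584) (nat_lit 3) (nat_lit 603) (nat_lit 3) (nat_lit 551) (nat_lit 551) (nat_lit 458))) (XT.nd (nat_lit 78) (nat_lit 0) (nat_lit 0) (XT.lf (nat_lit 0) (nat_lit 3420711227) (nat_lit 1444) (nat_lit 3037430884) (nat_lit 1520) (nat_lit 1876537217) (nat_lit 584) (nat_lit 5) (nat_lit 603) (nat_lit 3) (nat_lit 604) (nat_lit 5) (nat_lit 552) (nat_lit 551) (nat_lit 457))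 (XT.nd (nat_lit 78) (nat_lit 0) (nat_lit 0) (XT.lf (nat_lit 76) (nat_lit 1138752447) (nat_lit 0) (nat_lit 3441225797) (nat_lit 1520) (nat_lit 3816301698) (nat_lit 585) (nat_lit 5) (nat_lit 584) (nat_lit 5) (nat_lit 604) (nat_lit 5) (nat_lit 553) (nat_lit 551) (nat_lit 456)) (XT.lf (nat_lit 76) (nat_lit 5424421650) (nat_lit 0) (nat_lit 329700800) (nat_lit 1520) (nat_lit 2705158294) (nat_lit 585) (nat_lit 5) (nat_lit 584) (nat_lit 5) (nat_lit 604) (nat_lit 5) (nat_lit 554) (nat_lit 551) (nat_lit 455))))) (XT.nd (nat_lit 156) (nat_lit 1444) (nat_lit 0) (XT.nd (nat_lit 78) (nat_lit 0) (nat_lit 0) (XT.lf (nat_lit 76) (nat_lit 1254689602) (nat_lit 0) (nat_lit 5695629164) (nat_lit 1520) (nat_lit 1573253385) (nat_lit 586) (nat_lit 5) (nat_lit 585) (nat_lit 5) (nat_lit 605) (nat_lit 5) (nat_lit 555) (nat_lit 551) (nat_lit 454)) (XT.lf (nat_lit 76) (nat_lit 5653494448) (nat_lit 0) (nat_lit 2511886077) (nat_lit 1520) (nat_lit 423871963) (nat_lit 586) (nat_lit 5) (nat_lit 585) (nat_lit 5) (nat_lit 605) (nat_lit 5)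 (nat_lit 556) (nat_lit 551) (nat_lit 453))) (XT.nd (nat_lit 78) (nat_lit 0) (nat_lit 0) (XT.lf (nat_lit 0) (nat_lit 726024178) (nat_lit 1520) (nat_lit 7178351695) (nat_lit 1596) (nat_lit 752028348) (nat_lit 566) (nat_lit 5) (nat_lit 586) (nat_lit 5) (nat_lit 587) (nat_lit 5) (nat_lit 557) (nat_lit 551) (nat_lit 452)) (XT.nd (nat_lit 78) (nat_lit 0) (nat_lit 0) (XT.lf (nat_lit 0) (nat_lit 1902988564) (nat_lit 1520) (nat_lit 2740174147) (nat_lit 1596) (nat_lit 4081487146) (nat_lit 566) (nat_lit 5) (nat_lit 586) (nat_lit 5) (nat_lit 587) (nat_lit 5) (nat_lit 558) (nat_lit 551) (nat_lit 451)) (XT.lf (nat_lit 76) (nat_lit 1794586737) (nat_lit 0) (nat_lit 1294355879) (nat_lit 1596) (nat_lit 5705610570) (nat_lit 567) (nat_lit 5) (nat_lit 566) (nat_lit 5) (nat_lit 587) (nat_lit 5) (nat_lit 559) (nat_lit 551) (nat_lit 450)))))) (XT.nd (nat_lit 390) (nat_lit 0) (nat_lit 76) (XT.nd (nat_lit 156) (nat_lit 1520) (nat_lit 0) (XT.nd (nat_lit 78) (nat_lit 0) (nat_lit 0) (XT.lf (nat_lit 0) (nat_lit 4305176423) (nat_lit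 1520) (nat_lit 2438392427) (nat_lit 1596) (nat_lit 2122156267) (nat_lit 567) (nat_lit 5) (nat_lit 587) (nat_lit 5) (nat_lit 588) (nat_lit 5) (nat_lit 560) (nat_lit 551) (nat_lit 449)) (XT.lf (nat_lit 76) (nat_lit 2219065466) (nat_lit 0) (nat_lit 3324430526) (nat_lit 1596) (nat_lit 3394870993) (nat_lit 568) (nat_lit 5) (nat_lit 567) (nat_lit 5) (nat_lit 588) (nat_lit 5) (nat_lit 561) (nat_lit 551) (nat_lit 448))) (XT.nd (nat_lit 78) (nat_lit 1596) (nat_lit 0) (XT.lf (nat_lit 0) (nat_lit 6799344480) (nat_lit 1520) (nat_lit 2026907790) (nat_lit 1596) (nat_lit 186355851) (nat_lit 568) (nat_lit 5) (nat_lit 588) (nat_lit 5) (nat_lit 589) (nat_lit 5) (nat_lit 562) (nat_lit 551) (nat_lit 447)) (XT.nd (nat_lit 78) (nat_lit 1596) (nat_lit 0) (XT.lf (nat_lit 76) (nat_lit 2757471002) (nat_lit 0) (nat_lit 5338476378) (nat_lit 1596) (nat_lit 992075603) (nat_lit 569) (nat_lit 5) (nat_lit 568) (nat_lit 5) (nat_lit 589) (nat_lit 5) (nat_lit 563) (nat_lit 551) (nat_lit 446)) (XT.lf (nat_lit 0) (nat_lit 239833643) (nat_lit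 1596) (nat_lit 1517625229) (nat_lit 1672) (nat_lit 7407663483) (nat_lit 547) (nat_lit 5) (nat_lit 568) (nat_lit 5) (nat_lit 569) (nat_lit 5) (nat_lit 564) (nat_lit 551) (nat_lit 445))))) (XT.nd (nat_lit 156) (nat_lit 0) (nat_lit 76) (XT.nd (nat_lit 78) (nat_lit 0) (nat_lit 0) (XT.lf (nat_lit 0) (nat_lit 1494222442) (nat_lit 1596) (nat_lit 5842353521) (nat_lit 1672) (nat_lit 1906835648) (nat_lit 548) (nat_lit 5) (nat_lit 569) (nat_lit 5) (nat_lit 570) (nat_lit 5) (nat_lit 565) (nat_lit 551) (nat_lit 444)) (XT.lf (nat_lit 0) (nat_lit 2772400522) (nat_lit 1596) (nat_lit 912401554) (nat_lit 1672) (nat_lit 5638492070) (nat_lit 548) (nat_lit 5) (nat_lit 569) (nat_lit 5) (nat_lit 570) (nat_lit 5) (nat_lit 566) (nat_lit 551) (nat_lit 443))) (XT.nd (nat_lit 78) (nat_lit 0) (nat_lit 0) (XT.lf (nat_lit 0) (nat_lit 4080864838) (nat_lit 1596) (nat_lit 5250534089) (nat_lit 1672) (nat_lit 73282449) (nat_lit 549) (nat_lit 5) (nat_lit 570) (nat_lit 5) (nat_lit 571) (nat_lit 5) (nat_lit 567) (nat_lit 551) (nat_lit 442))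 (XT.nd (nat_lit 78) (nat_lit 0) (nat_lit 0) (XT.lf (nat_lit 0) (nat_lit 5423714984) (nat_lit 1596) (nat_lit 194007621) (nat_lit 1672) (nat_lit 3869810879) (nat_lit 549) (nat_lit 5) (nat_lit 570) (nat_lit 5) (nat_lit 571) (nat_lit 5) (nat_lit 568) (nat_lit 551) (nat_lit 441)) (XT.lf (nat_lit 76) (nat_lit 5013335999) (nat_lit 0) (nat_lit 1790724898) (nat_lit 1672) (nat_lit 2767770399) (nat_lit 550) (nat_lit 5) (nat_lit 549) (nat_lit 5) (nat_lit 571) (nat_lit 5) (nat_lit 569) (nat_lit 551) (nat_lit 440))))))) (XT.nd (nat_lit 780) (nat_lit 5472) (nat_lit 0) (XT.nd (nat_lit 390) (nat_lit 5244) (nat_lit 0) (XT.nd (nat_lit 156) (nat_lit 1596) (nat_lit 0) (XT.nd (nat_lit 78) (nat_lit 0) (nat_lit 0) (XT.lf (nat_lit 76) (nat_lit 648011534) (nat_lit 0) (nat_lit 7561689221) (nat_lit 1672) (nat_lit 1448161977) (nat_lit 551) (nat_lit 5) (nat_lit 550) (nat_lit 5) (nat_lit 572) (nat_lit 5) (nat_lit 570) (nat_lit 551) (nat_lit 439)) (XT.lf (nat_lit 76) (nat_lit 5992103342) (nat_lit 0) (nat_lit 3672489029) (nat_lit 1672)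 (nat_lit 80601029) (nat_lit 551) (nat_lit 5) (nat_lit 550) (nat_lit 5) (nat_lit 572) (nat_lit 5) (nat_lit 571) (nat_lit 551) (nat_lit 438))) (XT.nd (nat_lit 78) (nat_lit 0) (nat_lit 0) (XT.lf (nat_lit 0) (nat_lit 1288607750) (nat_lit 1672) (nat_lit 8231336462) (nat_lit 1748) (nat_lit 314326447) (nat_lit 529) (nat_lit 5) (nat_lit 551) (nat_lit 5) (nat_lit 552) (nat_lit 5) (nat_lit 572) (nat_lit 551) (nat_lit 437)) (XT.nd (nat_lit 78) (nat_lit 0) (nat_lit 0) (XT.lf (nat_lit 0) (nat_lit 2713175621) (nat_lit 1672) (nat_lit 2849310493) (nat_lit 1748) (nat_lit 4362052913) (nat_lit 529) (nat_lit 5) (nat_lit 551) (nat_lit 5) (nat_lit 552) (nat_lit 5) (nat_lit 573) (nat_lit 551) (nat_lit 436)) (XT.lf (nat_lit 76) (nat_lit 2658938147) (nat_lit 0) (nat_lit 1504344641) (nat_lit 1748) (nat_lit 5853390292) (nat_lit 530) (nat_lit 5) (nat_lit 529) (nat_lit 5) (nat_lit 552) (nat_lit 5) (nat_lit 574) (nat_lit 551) (nat_lit 435))))) (XT.nd (nat_lit 156) (nat_lit 3648) (nat_lit 0) (XT.nd (nat_lit 78) (nat_lit 1672) (nat_lit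 0) (XT.lf (nat_lit 0) (nat_lit 5658846956) (nat_lit 1672) (nat_lit 1828134178) (nat_lit 76) (nat_lit 2623340834) (nat_lit 530) (nat_lit 5) (nat_lit 552) (nat_lit 5) (nat_lit 531) (nat_lit 5) (nat_lit 575) (nat_lit 551) (nat_lit 434)) (XT.lf (nat_lit 0) (nat_lit 3836126003) (nat_lit 1672) (nat_lit 3363555774) (nat_lit 1748) (nat_lit 3005856095) (nat_lit 508) (nat_lit 5) (nat_lit 530) (nat_lit 5) (nat_lit 531) (nat_lit 5) (nat_lit 576) (nat_lit 551) (nat_lit 433))) (XT.nd (nat_lit 78) (nat_lit 3648) (nat_lit 0) (XT.lf (nat_lit 0) (nat_lit 8769938835) (nat_lit 1748) (nat_lit 686090884) (nat_lit 76) (nat_lit 846657468) (nat_lit 508) (nat_lit 5) (nat_lit 531) (nat_lit 5) (nat_lit 509) (nat_lit 5) (nat_lit 577) (nat_lit 551) (nat_lit 432)) (XT.nd (nat_lit 78) (nat_lit 1824) (nat_lit 0) (XT.lf (nat_lit 0) (nat_lit 7270238) (nat_lit 1824) (nat_lit 5261316908) (nat_lit 76) (nat_lit 5132456358) (nat_lit 484) (nat_lit 5) (nat_lit 508) (nat_lit 5) (nat_lit 485) (nat_lit 5) (nat_lit 578) (nat_lit 551) (nat_lit 431))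 (XT.lf (nat_lit 0) (nat_lit 570995615) (nat_lit 1824) (nat_lit 976235678) (nat_lit 1900) (nat_lit 8954140846) (nat_lit 460) (nat_lit 5) (nat_lit 484) (nat_lit 5) (nat_lit 485) (nat_lit 5) (nat_lit 579) (nat_lit 551) (nat_lit 430)))))) (XT.nd (nat_lit 390) (nat_lit 3496) (nat_lit 0) (XT.nd (nat_lit 156) (nat_lit 912) (nat_lit 0) (XT.nd (nat_lit 78) (nat_lit 1064) (nat_lit 0) (XT.lf (nat_lit 0) (nat_lit 3157198735) (nat_lit 1900) (nat_lit 4050723418) (nat_lit 76) (nat_lit 3395002162) (nat_lit 460) (nat_lit 5) (nat_lit 485) (nat_lit 5) (nat_lit 461) (nat_lit 5) (nat_lit 580) (nat_lit 551) (nat_lit 429)) (XT.lf (nat_lit 0) (nat_lit 1949276147) (nat_lit 1064) (nat_lit 2851151040) (nat_lit 1140) (nat_lit 5906060203) (nat_lit 446) (nat_lit 5) (nat_lit 460) (nat_lit 5) (nat_lit 461) (nat_lit 5) (nat_lit 581) (nat_lit 551) (nat_lit 428))) (XT.nd (nat_lit 78) (nat_lit 912) (nat_lit 0) (XT.lf (nat_lit 0) (nat_lit 6496423348) (nat_lit 1140) (nat_lit 2714521511) (nat_lit 76) (nat_lit 1600779874) (nat_lit 446) (nat_lit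 5) (nat_lit 461) (nat_lit 5) (nat_lit 447) (nat_lit 5) (nat_lit 582) (nat_lit 551) (nat_lit 427)) (XT.nd (nat_lit 78) (nat_lit 0) (nat_lit 0) (XT.lf (nat_lit 0) (nat_lit 3459227715) (nat_lit 912) (nat_lit 4791001553) (nat_lit 988) (nat_lit 2668360803) (nat_lit 434) (nat_lit 5) (nat_lit 446) (nat_lit 5) (nat_lit 447) (nat_lit 5) (nat_lit 583) (nat_lit 551) (nat_lit 426)) (XT.lf (nat_lit 0) (nat_lit 9777074190) (nat_lit 912) (nat_lit 263038601) (nat_lit 988) (nat_lit 987460921) (nat_lit 434) (nat_lit 5) (nat_lit 446) (nat_lit 5) (nat_lit 447) (nat_lit 5) (nat_lit 584) (nat_lit 551) (nat_lit 425))))) (XT.nd (nat_lit 234) (nat_lit 1672) (nat_lit 0) (XT.nd (nat_lit 78) (nat_lit 836) (nat_lit 0) (XT.lf (nat_lit 0) (nat_lit 762369137) (nat_lit 988) (nat_lit 6037849327) (nat_lit 76) (nat_lit 4337528186) (nat_lit 421) (nat_lit 5) (nat_lit 434) (nat_lit 5) (nat_lit 422) (nat_lit 5) (nat_lit 585) (nat_lit 551) (nat_lit 424)) (XT.nd (nat_lit 78) (nat_lit 0) (nat_lit 0) (XT.lf (nat_lit 0) (nat_lit 323889720) (nat_lit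 836) (nat_lit 2205633171) (nat_lit 912) (nat_lit 8720559596) (nat_lit 410) (nat_lit 5) (nat_lit 421) (nat_lit 5) (nat_lit 422) (nat_lit 5) (nat_lit 586) (nat_lit 551) (nat_lit 423)) (XT.lf (nat_lit 0) (nat_lit 4372382700) (nat_lit 912) (nat_lit 4502067291) (nat_lit 76) (nat_lit 2489408738) (nat_lit 410) (nat_lit 5) (nat_lit 422) (nat_lit 5) (nat_lit 411) (nat_lit 5) (nat_lit 587) (nat_lit 551) (nat_lit 422)))) (XT.nd (nat_lit 78) (nat_lit 836) (nat_lit 0) (XT.lf (nat_lit 0) (nat_lit 2046554021) (nat_lit 836) (nat_lit 4217234449) (nat_lit 912) (nat_lit 5215889180) (nat_lit 399) (nat_lit 5) (nat_lit 410) (nat_lit 5) (nat_lit 411) (nat_lit 5) (nat_lit 588) (nat_lit 551) (nat_lit 421)) (XT.nd (nat_lit 78) (nat_lit 836) (nat_lit 0) (XT.lf (nat_lit 0) (nat_lit 8210901759) (nat_lit 912) (nat_lit 2830129750) (nat_lit 76) (nat_lit 556424765) (nat_lit 399) (nat_lit 5) (nat_lit 411) (nat_lit 5) (nat_lit 400) (nat_lit 5) (nat_lit 589) (nat_lit 551) (nat_lit 420)) (XT.lf (nat_lit 0) (nat_lit 3912192636) (nat_lit 836)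 (nat_lit 6322414209) (nat_lit 912) (nat_lit 1482231527) (nat_lit 388) (nat_lit 5) (nat_lit 399) (nat_lit 5) (nat_lit 400) (nat_lit 5) (nat_lit 590) (nat_lit 551) (nat_lit 419))))))))
noncomputable def xc128 : XT := (XT.nd (nat_lit 1560) (nat_lit 0) (nat_lit 0) (XT.nd (nat_lit 780) (nat_lit 3952) (nat_lit 0) (XT.nd (nat_lit 390) (nat_lit 2204) (nat_lit 0) (XT.nd (nat_lit 156) (nat_lit 1520) (nat_lit 0) (XT.nd (nat_lit 78) (nat_lit 836) (nat_lit 0) (XT.lf (nat_lit 0) (nat_lit 457680484) (nat_lit 912) (nat_lit 1029830889) (nat_lit 76) (nat_lit 10350967084) (nat_lit 387) (nat_lit 5) (nat_lit 399) (nat_lit 5) (nat_lit 388) (nat_lit 5) (nat_lit 591) (nat_lit 551) (nat_lit 418)) (XT.lf (nat_lit 0) (nat_lit 2462483723) (nat_lit 912) (nat_lit 6051993178) (nat_lit 76) (nat_lit 3446960534) (nat_lit 376) (nat_lit 5) (nat_lit 388) (nat_lit 5) (nat_lit 377) (nat_lit 5) (nat_lit 592) (nat_lit 551) (nat_lit 417))) (XT.nd (nat_lit 78) (nat_lit 760) (nat_lit 0) (XT.lf (nat_lit 0) (nat_lit 900572574) (nat_lit 760) (nat_lit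 3614383365) (nat_lit 836) (nat_lit 7571749019) (nat_lit 366) (nat_lit 5) (nat_lit 376) (nat_lit 5) (nat_lit 377) (nat_lit 5) (nat_lit 593) (nat_lit 551) (nat_lit 416)) (XT.nd (nat_lit 78) (nat_lit 760) (nat_lit 0) (XT.lf (nat_lit 0) (nat_lit 6643445697) (nat_lit 836) (nat_lit 4164967098) (nat_lit 76) (nat_lit 1405366484) (nat_lit 366) (nat_lit 5) (nat_lit 377) (nat_lit 5) (nat_lit 367) (nat_lit 5) (nat_lit 594) (nat_lit 551) (nat_lit 415)) (XT.lf (nat_lit 0) (nat_lit 2996023092) (nat_lit 760) (nat_lit 5847265843) (nat_lit 836) (nat_lit 3499531271) (nat_lit 356) (nat_lit 5) (nat_lit 366) (nat_lit 5) (nat_lit 367) (nat_lit 5) (nat_lit 595) (nat_lit 551) (nat_lit 414))))) (XT.nd (nat_lit 156) (nat_lit 1444) (nat_lit 0) (XT.nd (nat_lit 78) (nat_lit 760) (nat_lit 0) (XT.lf (nat_lit 0) (nat_lit 10340839814) (nat_lit 760) (nat_lit 759817005) (nat_lit 836) (nat_lit 1373515356) (nat_lit 356) (nat_lit 5) (nat_lit 366) (nat_lit 5) (nat_lit 367) (nat_lit 5) (nat_lit 596) (nat_lit 551) (nat_lit 413)) (XT.lf (nat_lit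 0) (nat_lit 833604358) (nat_lit 760) (nat_lit 7363996144) (nat_lit 76) (nat_lit 4409467985) (nat_lit 346) (nat_lit 5) (nat_lit 356) (nat_lit 5) (nat_lit 347) (nat_lit 5) (nat_lit 597) (nat_lit 551) (nat_lit 412))) (XT.nd (nat_lit 78) (nat_lit 684) (nat_lit 0) (XT.lf (nat_lit 0) (nat_lit 23777872) (nat_lit 760) (nat_lit 3048245757) (nat_lit 836) (nat_lit 9670307281) (nat_lit 336) (nat_lit 5) (nat_lit 346) (nat_lit 5) (nat_lit 347) (nat_lit 5) (nat_lit 598) (nat_lit 551) (nat_lit 411)) (XT.nd (nat_lit 78) (nat_lit 684) (nat_lit 0) (XT.lf (nat_lit 0) (nat_lit 5405360673) (nat_lit 836) (nat_lit 5250879083) (nat_lit 76) (nat_lit 2223056556) (nat_lit 336) (nat_lit 5) (nat_lit 347) (nat_lit 5) (nat_lit 337) (nat_lit 5) (nat_lit 599) (nat_lit 551) (nat_lit 410)) (XT.lf (nat_lit 0) (nat_lit 2361184148) (nat_lit 684) (nat_lit 5446065762) (nat_lit 760) (nat_lit 5211314108) (nat_lit 327) (nat_lit 5) (nat_lit 336) (nat_lit 5) (nat_lit 337) (nat_lit 5) (nat_lit 600) (nat_lit 551) (nat_lit 409)))))) (XT.nd (nat_lit 390)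 (nat_lit 1900) (nat_lit 0) (XT.nd (nat_lit 156) (nat_lit 1368) (nat_lit 0) (XT.nd (nat_lit 78) (nat_lit 684) (nat_lit 0) (XT.lf (nat_lit 0) (nat_lit 10181024775) (nat_lit 684) (nat_lit 97922083) (nat_lit 760) (nat_lit 2881235510) (nat_lit 327) (nat_lit 5) (nat_lit 336) (nat_lit 5) (nat_lit 337) (nat_lit 5) (nat_lit 601) (nat_lit 551) (nat_lit 408)) (XT.lf (nat_lit 0) (nat_lit 4866081150) (nat_lit 684) (nat_lit 7987156783) (nat_lit 760) (nat_lit 450332628) (nat_lit 318) (nat_lit 5) (nat_lit 327) (nat_lit 5) (nat_lit 328) (nat_lit 5) (nat_lit 602) (nat_lit 551) (nat_lit 407))) (XT.nd (nat_lit 78) (nat_lit 1292) (nat_lit 0) (XT.lf (nat_lit 0) (nat_lit 2010203195) (nat_lit 760) (nat_lit 570432382) (nat_lit 76) (nat_lit 10868775533) (nat_lit 317) (nat_lit 5) (nat_lit 327) (nat_lit 5) (nat_lit 318) (nat_lit 5) (nat_lit 603) (nat_lit 551) (nat_lit 406)) (XT.nd (nat_lit 78) (nat_lit 684) (nat_lit 0) (XT.lf (nat_lit 0) (nat_lit 4569334537) (nat_lit 684) (nat_lit 6082317919) (nat_lit 76) (nat_lit 2945348823) (nat_lit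 309) (nat_lit 5) (nat_lit 318) (nat_lit 5) (nat_lit 310) (nat_lit 5) (nat_lit 604) (nat_lit 551) (nat_lit 405)) (XT.lf (nat_lit 0) (nat_lit 2015597508) (nat_lit 684) (nat_lit 5185331665) (nat_lit 760) (nat_lit 6546189090) (nat_lit 300) (nat_lit 5) (nat_lit 309) (nat_lit 5) (nat_lit 310) (nat_lit 5) (nat_lit 605) (nat_lit 551) (nat_lit 404))))) (XT.nd (nat_lit 156) (nat_lit 1292) (nat_lit 0) (XT.nd (nat_lit 78) (nat_lit 608) (nat_lit 0) (XT.lf (nat_lit 0) (nat_lit 9916158253) (nat_lit 760) (nat_lit 3559928553) (nat_lit 76) (nat_lit 423531343) (nat_lit 300) (nat_lit 5) (nat_lit 310) (nat_lit 5) (nat_lit 301) (nat_lit 5) (nat_lit 606) (nat_lit 551) (nat_lit 403)) (XT.lf (nat_lit 0) (nat_lit 4788239014) (nat_lit 608) (nat_lit 7950511176) (nat_lit 684) (nat_lit 1315357278) (nat_lit 292) (nat_lit 5) (nat_lit 300) (nat_lit 5) (nat_lit 301) (nat_lit 5) (nat_lit 607) (nat_lit 551) (nat_lit 402))) (XT.nd (nat_lit 78) (nat_lit 1216) (nat_lit 0) (XT.lf (nat_lit 0) (nat_lit 1399405366) (nat_lit 684) (nat_lit 884249214)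 (nat_lit 76) (nat_lit 11927615199) (nat_lit 291) (nat_lit 5) (nat_lit 300) (nat_lit 5) (nat_lit 292) (nat_lit 5) (nat_lit 608) (nat_lit 551) (nat_lit 401)) (XT.nd (nat_lit 78) (nat_lit 608) (nat_lit 0) (XT.lf (nat_lit 0) (nat_lit 4212144616) (nat_lit 684) (nat_lit 6650948346) (nat_lit 76) (nat_lit 3507083169) (nat_lit 283) (nat_lit 5) (nat_lit 292) (nat_lit 5) (nat_lit 284) (nat_lit 5) (nat_lit 609) (nat_lit 551) (nat_lit 400)) (XT.lf (nat_lit 0) (nat_lit 1970096862) (nat_lit 608) (nat_lit 5132982582) (nat_lit 684) (nat_lit 7428742907) (nat_lit 275) (nat_lit 5) (nat_lit 283) (nat_lit 5) (nat_lit 284) (nat_lit 5) (nat_lit 610) (nat_lit 551) (nat_lit 399))))))) (XT.nd (nat_lit 77298) (nat_lit 0) (nat_lit 20672) (XT.nd (nat_lit 76908) (nat_lit 0) (nat_lit 22040) (XT.nd (nat_lit 76674) (nat_lit 0) (nat_lit 23484) (XT.nd (nat_lit 76596) (nat_lit 0) (nat_lit 23484) (XT.lf (nat_lit 0) (nat_lit 10089548830) (nat_lit 684) (nat_lit 3862319671) (nat_lit 76) (nat_lit 744079221) (nat_lit 275) (nat_lit 5) (nat_lit 284)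 (nat_lit 5) (nat_lit 276) (nat_lit 5) (nat_lit 611) (nat_lit 551) (nat_lit 398)) (XT.lf (nat_lit 0) (nat_lit 1133011339) (nat_lit 0) (nat_lit 1133011339) (nat_lit 1444) (nat_lit 1931764888) (nat_lit 584) (nat_lit 5) (nat_lit 584) (nat_lit 3) (nat_lit 603) (nat_lit 3) (nat_lit 552) (nat_lit 552) (nat_lit 456))) (XT.nd (nat_lit 78) (nat_lit 0) (nat_lit 0) (XT.lf (nat_lit 0) (nat_lit 5655051786) (nat_lit 1444) (nat_lit 1961022969) (nat_lit 1520) (nat_lit 841827202) (nat_lit 584) (nat_lit 5) (nat_lit 603) (nat_lit 3) (nat_lit 604) (nat_lit 5) (nat_lit 553) (nat_lit 552) (nat_lit 455)) (XT.nd (nat_lit 78) (nat_lit 0) (nat_lit 0) (XT.lf (nat_lit 76) (nat_lit 2291202736) (nat_lit 0) (nat_lit 4511166864) (nat_lit 1520) (nat_lit 1719070662) (nat_lit 585) (nat_lit 5) (nat_lit 584) (nat_lit 5) (nat_lit 604) (nat_lit 5) (nat_lit 554) (nat_lit 552) (nat_lit 454)) (XT.lf (nat_lit 76) (nat_lit 6640434828) (nat_lit 0) (nat_lit 1317781631) (nat_lit 1520) (nat_lit 628323156) (nat_lit 585) (nat_lit 5) (nat_lit 584) (nat_lit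 5) (nat_lit 604) (nat_lit 5) (nat_lit 555) (nat_lit 552) (nat_lit 453))))) (XT.nd (nat_lit 156) (nat_lit 0) (nat_lit 0) (XT.nd (nat_lit 78) (nat_lit 0) (nat_lit 0) (XT.lf (nat_lit 0) (nat_lit 479298759) (nat_lit 1520) (nat_lit 6228064834) (nat_lit 1596) (nat_lit 1945488134) (nat_lit 565) (nat_lit 5) (nat_lit 585) (nat_lit 5) (nat_lit 586) (nat_lit 5) (nat_lit 556) (nat_lit 552) (nat_lit 452)) (XT.lf (nat_lit 0) (nat_lit 1595841566) (nat_lit 1520) (nat_lit 1838944073) (nat_lit 1596) (nat_lit 5285719566) (nat_lit 565) (nat_lit 5) (nat_lit 585) (nat_lit 5) (nat_lit 586) (nat_lit 5) (nat_lit 557) (nat_lit 552) (nat_lit 451))) (XT.nd (nat_lit 78) (nat_lit 0) (nat_lit 76) (XT.lf (nat_lit 76) (nat_lit 2657899346) (nat_lit 0) (nat_lit 67897170) (nat_lit 1596) (nat_lit 6063895399) (nat_lit 566) (nat_lit 5) (nat_lit 565) (nat_lit 5) (nat_lit 586) (nat_lit 5) (nat_lit 558) (nat_lit 552) (nat_lit 450)) (XT.nd (nat_lit 78) (nat_lit 0) (nat_lit 0) (XT.lf (nat_lit 0) (nat_lit 3886941493) (nat_lit 1520) (nat_lit 1627755087)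 (nat_lit 1596) (nat_lit 3345395710) (nat_lit 566) (nat_lit 5) (nat_lit 586) (nat_lit 5) (nat_lit 587) (nat_lit 5) (nat_lit 559) (nat_lit 552) (nat_lit 449)) (XT.lf (nat_lit 76) (nat_lit 2990021918) (nat_lit 0) (nat_lit 2075966464) (nat_lit 1596) (nat_lit 3866020429) (nat_lit 567) (nat_lit 5) (nat_lit 566) (nat_lit 5) (nat_lit 587) (nat_lit 5) (nat_lit 560) (nat_lit 552) (nat_lit 448)))))) (XT.nd (nat_lit 390) (nat_lit 0) (nat_lit 76) (XT.nd (nat_lit 156) (nat_lit 1520) (nat_lit 0) (XT.nd (nat_lit 78) (nat_lit 0) (nat_lit 0) (XT.lf (nat_lit 0) (nat_lit 6264182164) (nat_lit 1520) (nat_lit 1307860725) (nat_lit 1596) (nat_lit 1433411139) (nat_lit 567) (nat_lit 5) (nat_lit 587) (nat_lit 5) (nat_lit 588) (nat_lit 5) (nat_lit 561) (nat_lit 552) (nat_lit 447)) (XT.lf (nat_lit 76) (nat_lit 3434987776) (nat_lit 0) (nat_lit 4063163196) (nat_lit 1596) (nat_lit 1581982604) (nat_lit 568) (nat_lit 5) (nat_lit 567) (nat_lit 5) (nat_lit 588) (nat_lit 5) (nat_lit 562) (nat_lit 552) (nat_lit 446))) (XT.nd (nat_lit 78) (nat_lit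 1520) (nat_lit 0) (XT.lf (nat_lit 76) (nat_lit 8275259505) (nat_lit 0) (nat_lit 466453731) (nat_lit 1596) (nat_lit 414896815) (nat_lit 568) (nat_lit 5) (nat_lit 567) (nat_lit 5) (nat_lit 588) (nat_lit 5) (nat_lit 563) (nat_lit 552) (nat_lit 445)) (XT.nd (nat_lit 78) (nat_lit 0) (nat_lit 0) (XT.lf (nat_lit 0) (nat_lit 788895592) (nat_lit 1596) (nat_lit 5245418926) (nat_lit 1672) (nat_lit 3199731667) (nat_lit 547) (nat_lit 5) (nat_lit 568) (nat_lit 5) (nat_lit 569) (nat_lit 5) (nat_lit 564) (nat_lit 552) (nat_lit 444)) (XT.lf (nat_lit 0) (nat_lit 1997121720) (nat_lit 1596) (nat_lit 366434539) (nat_lit 1672) (nat_lit 6949703190) (nat_lit 547) (nat_lit 5) (nat_lit 568) (nat_lit 5) (nat_lit 569) (nat_lit 5) (nat_lit 565) (nat_lit 552) (nat_lit 443))))) (XT.nd (nat_lit 156) (nat_lit 0) (nat_lit 0) (XT.nd (nat_lit 78) (nat_lit 0) (nat_lit 0) (XT.lf (nat_lit 0) (nat_lit 3246272792) (nat_lit 1596) (nat_lit 4747218635) (nat_lit 1672) (nat_lit 1400231839) (nat_lit 548) (nat_lit 5) (nat_lit 569) (nat_lit 5) (nat_lit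 570) (nat_lit 5) (nat_lit 566) (nat_lit 552) (nat_lit 442)) (XT.lf (nat_lit 76) (nat_lit 260990962) (nat_lit 0) (nat_lit 4256950039) (nat_lit 1672) (nat_lit 4957906141) (nat_lit 549) (nat_lit 5) (nat_lit 548) (nat_lit 5) (nat_lit 570) (nat_lit 5) (nat_lit 567) (nat_lit 552) (nat_lit 441))) (XT.nd (nat_lit 78) (nat_lit 0) (nat_lit 76) (XT.lf (nat_lit 76) (nat_lit 5418132215) (nat_lit 0) (nat_lit 406814198) (nat_lit 1672) (nat_lit 3734470443) (nat_lit 549) (nat_lit 5) (nat_lit 548) (nat_lit 5) (nat_lit 570) (nat_lit 5) (nat_lit 568) (nat_lit 552) (nat_lit 440)) (XT.nd (nat_lit 78) (nat_lit 0) (nat_lit 0) (XT.lf (nat_lit 76) (nat_lit 1008377908) (nat_lit 0) (nat_lit 6157635856) (nat_lit 1672) (nat_lit 2478487173) (nat_lit 550) (nat_lit 5) (nat_lit 549) (nat_lit 5) (nat_lit 571) (nat_lit 5) (nat_lit 569) (nat_lit 552) (nat_lit 439)) (XT.lf (nat_lit 76) (nat_lit 6298794392) (nat_lit 0) (nat_lit 2244412796) (nat_lit 1672) (nat_lit 1187894799) (nat_lit 550) (nat_lit 5) (nat_lit 549) (nat_lit 5) (nat_lit 571) (nat_lit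 5) (nat_lit 570) (nat_lit 552) (nat_lit 438))))))))
noncomputable def xc129 : XT := (XT.nd (nat_lit 1560) (nat_lit 9424) (nat_lit 0) (XT.nd (nat_lit 780) (nat_lit 4636) (nat_lit 0) (XT.nd (nat_lit 390) (nat_lit 5168) (nat_lit 0) (XT.nd (nat_lit 156) (nat_lit 0) (nat_lit 0) (XT.nd (nat_lit 78) (nat_lit 0) (nat_lit 0) (XT.lf (nat_lit 0) (nat_lit 129633348) (nat_lit 1672) (nat_lit 7947217715) (nat_lit 1748) (nat_lit 1742512446) (nat_lit 528) (nat_lit 5) (nat_lit 550) (nat_lit 5) (nat_lit 551) (nat_lit 5) (nat_lit 571) (nat_lit 552) (nat_lit 437)) (XT.lf (nat_lit 0) (nat_lit 1475125779) (nat_lit 1672) (nat_lit 2618559224) (nat_lit 1748) (nat_lit 5815199130) (nat_lit 528) (nat_lit 5) (nat_lit 550) (nat_lit 5) (nat_lit 551) (nat_lit 5) (nat_lit 572) (nat_lit 552) (nat_lit 436))) (XT.nd (nat_lit 78) (nat_lit 0) (nat_lit 76) (XT.lf (nat_lit 76) (nat_lit 2838248883) (nat_lit 0) (nat_lit 7565771) (nat_lit 1748) (nat_lit 7154416059) (nat_lit 529) (nat_lit 5) (nat_lit 528) (nat_lit 5) (nat_lit 551) (nat_lit 5) (nat_lit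 573) (nat_lit 552) (nat_lit 435)) (XT.nd (nat_lit 78) (nat_lit 0) (nat_lit 0) (XT.lf (nat_lit 0) (nat_lit 4268797591) (nat_lit 1672) (nat_lit 1696462896) (nat_lit 1748) (nat_lit 4127647382) (nat_lit 529) (nat_lit 5) (nat_lit 551) (nat_lit 5) (nat_lit 552) (nat_lit 5) (nat_lit 574) (nat_lit 552) (nat_lit 434)) (XT.lf (nat_lit 76) (nat_lit 3913991284) (nat_lit 0) (nat_lit 1812280582) (nat_lit 1748) (nat_lit 4461047296) (nat_lit 530) (nat_lit 5) (nat_lit 529) (nat_lit 5) (nat_lit 552) (nat_lit 5) (nat_lit 575) (nat_lit 552) (nat_lit 433))))) (XT.nd (nat_lit 156) (nat_lit 3648) (nat_lit 0) (XT.nd (nat_lit 78) (nat_lit 1672) (nat_lit 0) (XT.lf (nat_lit 0) (nat_lit 7220964524) (nat_lit 1672) (nat_lit 655514769) (nat_lit 76) (nat_lit 2406979212) (nat_lit 530) (nat_lit 5) (nat_lit 552) (nat_lit 5) (nat_lit 531) (nat_lit 5) (nat_lit 576) (nat_lit 552) (nat_lit 432)) (XT.lf (nat_lit 0) (nat_lit 5114075471) (nat_lit 1672) (nat_lit 3657929133) (nat_lit 1748) (nat_lit 1608988139) (nat_lit 508) (nat_lit 5) (nat_lit 530)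 (nat_lit 5) (nat_lit 531) (nat_lit 5) (nat_lit 577) (nat_lit 552) (nat_lit 431))) (XT.nd (nat_lit 78) (nat_lit 1900) (nat_lit 0) (XT.lf (nat_lit 0) (nat_lit 514143453) (nat_lit 1748) (nat_lit 9833409468) (nat_lit 1824) (nat_lit 133056151) (nat_lit 485) (nat_lit 5) (nat_lit 508) (nat_lit 5) (nat_lit 509) (nat_lit 5) (nat_lit 578) (nat_lit 552) (nat_lit 430)) (XT.nd (nat_lit 78) (nat_lit 1824) (nat_lit 0) (XT.lf (nat_lit 0) (nat_lit 1395869005) (nat_lit 1824) (nat_lit 4148736398) (nat_lit 76) (nat_lit 5036605751) (nat_lit 484) (nat_lit 5) (nat_lit 508) (nat_lit 5) (nat_lit 485) (nat_lit 5) (nat_lit 579) (nat_lit 552) (nat_lit 429)) (XT.lf (nat_lit 0) (nat_lit 1792210489) (nat_lit 1824) (nat_lit 1155049009) (nat_lit 1900) (nat_lit 7736675910) (nat_lit 460) (nat_lit 5) (nat_lit 484) (nat_lit 5) (nat_lit 485) (nat_lit 5) (nat_lit 580) (nat_lit 552) (nat_lit 428)))))) (XT.nd (nat_lit 390) (nat_lit 2584) (nat_lit 0) (XT.nd (nat_lit 156) (nat_lit 988) (nat_lit 0) (XT.nd (nat_lit 78) (nat_lit 1064) (nat_lit 0) (XT.lf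 (nat_lit 0) (nat_lit 4561567583) (nat_lit 1900) (nat_lit 2917724805) (nat_lit 76) (nat_lit 3308785031) (nat_lit 460) (nat_lit 5) (nat_lit 485) (nat_lit 5) (nat_lit 461) (nat_lit 5) (nat_lit 581) (nat_lit 552) (nat_lit 427)) (XT.lf (nat_lit 0) (nat_lit 3194287824) (nat_lit 1064) (nat_lit 3024904576) (nat_lit 1140) (nat_lit 4674890306) (nat_lit 446) (nat_lit 5) (nat_lit 460) (nat_lit 5) (nat_lit 461) (nat_lit 5) (nat_lit 582) (nat_lit 552) (nat_lit 426))) (XT.nd (nat_lit 78) (nat_lit 988) (nat_lit 0) (XT.lf (nat_lit 0) (nat_lit 7922429046) (nat_lit 1140) (nat_lit 1559676178) (nat_lit 76) (nat_lit 1519854713) (nat_lit 446) (nat_lit 5) (nat_lit 461) (nat_lit 5) (nat_lit 447) (nat_lit 5) (nat_lit 583) (nat_lit 552) (nat_lit 425)) (XT.nd (nat_lit 78) (nat_lit 76) (nat_lit 0) (XT.lf (nat_lit 0) (nat_lit 4729593191) (nat_lit 912) (nat_lit 4964103477) (nat_lit 988) (nat_lit 1417619728) (nat_lit 434) (nat_lit 5) (nat_lit 446) (nat_lit 5) (nat_lit 447) (nat_lit 5) (nat_lit 584) (nat_lit 552) (nat_lit 424)) (XT.lf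 (nat_lit 0) (nat_lit 267768893) (nat_lit 988) (nat_lit 74500172) (nat_lit 76) (nat_lit 10880678266) (nat_lit 433) (nat_lit 5) (nat_lit 446) (nat_lit 5) (nat_lit 434) (nat_lit 5) (nat_lit 585) (nat_lit 552) (nat_lit 423))))) (XT.nd (nat_lit 156) (nat_lit 836) (nat_lit 0) (XT.nd (nat_lit 78) (nat_lit 836) (nat_lit 0) (XT.lf (nat_lit 0) (nat_lit 2021972143) (nat_lit 988) (nat_lit 4946650956) (nat_lit 76) (nat_lit 4366919548) (nat_lit 421) (nat_lit 5) (nat_lit 434) (nat_lit 5) (nat_lit 422) (nat_lit 5) (nat_lit 586) (nat_lit 552) (nat_lit 422)) (XT.lf (nat_lit 0) (nat_lit 1534349482) (nat_lit 836) (nat_lit 2273537410) (nat_lit 912) (nat_lit 7642571359) (nat_lit 410) (nat_lit 5) (nat_lit 421) (nat_lit 5) (nat_lit 422) (nat_lit 5) (nat_lit 587) (nat_lit 552) (nat_lit 421))) (XT.nd (nat_lit 78) (nat_lit 836) (nat_lit 0) (XT.lf (nat_lit 0) (nat_lit 5663378464) (nat_lit 912) (nat_lit 3387439692) (nat_lit 76) (nat_lit 2516177751) (nat_lit 410) (nat_lit 5) (nat_lit 422) (nat_lit 5) (nat_lit 411) (nat_lit 5) (nat_lit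 588) (nat_lit 552) (nat_lit 420)) (XT.nd (nat_lit 78) (nat_lit 0) (nat_lit 0) (XT.lf (nat_lit 0) (nat_lit 3284228593) (nat_lit 836) (nat_lit 4292554826) (nat_lit 912) (nat_lit 4108665720) (nat_lit 399) (nat_lit 5) (nat_lit 410) (nat_lit 5) (nat_lit 411) (nat_lit 5) (nat_lit 589) (nat_lit 552) (nat_lit 419)) (XT.lf (nat_lit 0) (nat_lit 9539607805) (nat_lit 912) (nat_lit 1690156889) (nat_lit 76) (nat_lit 576284590) (nat_lit 399) (nat_lit 5) (nat_lit 411) (nat_lit 5) (nat_lit 400) (nat_lit 5) (nat_lit 590) (nat_lit 552) (nat_lit 418))))))) (XT.nd (nat_lit 780) (nat_lit 4636) (nat_lit 0) (XT.nd (nat_lit 390) (nat_lit 2280) (nat_lit 0) (XT.nd (nat_lit 156) (nat_lit 760) (nat_lit 0) (XT.nd (nat_lit 78) (nat_lit 912) (nat_lit 0) (XT.lf (nat_lit 0) (nat_lit 5179139737) (nat_lit 836) (nat_lit 6409532007) (nat_lit 912) (nat_lit 339450886) (nat_lit 388) (nat_lit 5) (nat_lit 399) (nat_lit 5) (nat_lit 400) (nat_lit 5) (nat_lit 591) (nat_lit 552) (nat_lit 417)) (XT.lf (nat_lit 0) (nat_lit 131834461) (nat_lit 836) (nat_lit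 1470217063) (nat_lit 912) (nat_lit 10450429627) (nat_lit 376) (nat_lit 5) (nat_lit 387) (nat_lit 5) (nat_lit 388) (nat_lit 5) (nat_lit 592) (nat_lit 552) (nat_lit 416))) (XT.nd (nat_lit 78) (nat_lit 760) (nat_lit 0) (XT.lf (nat_lit 0) (nat_lit 3631811189) (nat_lit 912) (nat_lit 4978155124) (nat_lit 76) (nat_lit 3568237013) (nat_lit 376) (nat_lit 5) (nat_lit 388) (nat_lit 5) (nat_lit 377) (nat_lit 5) (nat_lit 593) (nat_lit 552) (nat_lit 415)) (XT.nd (nat_lit 78) (nat_lit 0) (nat_lit 0) (XT.lf (nat_lit 0) (nat_lit 2105600904) (nat_lit 760) (nat_lit 3605476537) (nat_lit 836) (nat_lit 6595185069) (nat_lit 366) (nat_lit 5) (nat_lit 376) (nat_lit 5) (nat_lit 377) (nat_lit 5) (nat_lit 594) (nat_lit 552) (nat_lit 414)) (XT.lf (nat_lit 0) (nat_lit 7860971035) (nat_lit 836) (nat_lit 3063299521) (nat_lit 76) (nat_lit 1512032260) (nat_lit 366) (nat_lit 5) (nat_lit 377) (nat_lit 5) (nat_lit 367) (nat_lit 5) (nat_lit 595) (nat_lit 552) (nat_lit 413))))) (XT.nd (nat_lit 156) (nat_lit 1520) (nat_lit 0) (XT.nd (nat_lit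 78) (nat_lit 0) (nat_lit 0) (XT.lf (nat_lit 0) (nat_lit 4233114638) (nat_lit 760) (nat_lit 5858071702) (nat_lit 836) (nat_lit 2477011873) (nat_lit 356) (nat_lit 5) (nat_lit 366) (nat_lit 5) (nat_lit 367) (nat_lit 5) (nat_lit 596) (nat_lit 552) (nat_lit 412)) (XT.lf (nat_lit 0) (nat_lit 11701745908) (nat_lit 760) (nat_lit 670955054) (nat_lit 836) (nat_lit 329897404) (nat_lit 356) (nat_lit 5) (nat_lit 366) (nat_lit 5) (nat_lit 367) (nat_lit 5) (nat_lit 597) (nat_lit 552) (nat_lit 411))) (XT.nd (nat_lit 78) (nat_lit 760) (nat_lit 0) (XT.lf (nat_lit 0) (nat_lit 1894883099) (nat_lit 760) (nat_lit 6330595209) (nat_lit 76) (nat_lit 4612784984) (nat_lit 346) (nat_lit 5) (nat_lit 356) (nat_lit 5) (nat_lit 347) (nat_lit 5) (nat_lit 598) (nat_lit 552) (nat_lit 410)) (XT.nd (nat_lit 78) (nat_lit 0) (nat_lit 0) (XT.lf (nat_lit 0) (nat_lit 1197166651) (nat_lit 760) (nat_lit 2968036951) (nat_lit 836) (nat_lit 8811285770) (nat_lit 336) (nat_lit 5) (nat_lit 346) (nat_lit 5) (nat_lit 347) (nat_lit 5) (nat_lit 599) (nat_lit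 552) (nat_lit 409)) (XT.lf (nat_lit 0) (nat_lit 6525875822) (nat_lit 836) (nat_lit 4186597857) (nat_lit 76) (nat_lit 2404108081) (nat_lit 336) (nat_lit 5) (nat_lit 347) (nat_lit 5) (nat_lit 337) (nat_lit 5) (nat_lit 600) (nat_lit 552) (nat_lit 408)))))) (XT.nd (nat_lit 390) (nat_lit 2584) (nat_lit 0) (XT.nd (nat_lit 156) (nat_lit 1368) (nat_lit 0) (XT.nd (nat_lit 78) (nat_lit 0) (nat_lit 0) (XT.lf (nat_lit 0) (nat_lit 3570013883) (nat_lit 684) (nat_lit 5393479741) (nat_lit 760) (nat_lit 4295388405) (nat_lit 327) (nat_lit 5) (nat_lit 336) (nat_lit 5) (nat_lit 337) (nat_lit 5) (nat_lit 601) (nat_lit 552) (nat_lit 407)) (XT.lf (nat_lit 0) (nat_lit 11465394295) (nat_lit 760) (nat_lit 1880630777) (nat_lit 76) (nat_lit 57693286) (nat_lit 327) (nat_lit 5) (nat_lit 337) (nat_lit 5) (nat_lit 328) (nat_lit 5) (nat_lit 602) (nat_lit 552) (nat_lit 406))) (XT.nd (nat_lit 78) (nat_lit 608) (nat_lit 0) (XT.lf (nat_lit 0) (nat_lit 522892916) (nat_lit 760) (nat_lit 7440388640) (nat_lit 76) (nat_lit 5586847570) (nat_lit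 317) (nat_lit 5) (nat_lit 327) (nat_lit 5) (nat_lit 318) (nat_lit 5) (nat_lit 603) (nat_lit 552) (nat_lit 405)) (XT.nd (nat_lit 78) (nat_lit 0) (nat_lit 0) (XT.lf (nat_lit 0) (nat_lit 565644384) (nat_lit 608) (nat_lit 2445501962) (nat_lit 684) (nat_lit 10687990816) (nat_lit 309) (nat_lit 5) (nat_lit 317) (nat_lit 5) (nat_lit 318) (nat_lit 5) (nat_lit 604) (nat_lit 552) (nat_lit 404)) (XT.lf (nat_lit 0) (nat_lit 5607588699) (nat_lit 684) (nat_lit 5053651854) (nat_lit 76) (nat_lit 3188716943) (nat_lit 309) (nat_lit 5) (nat_lit 318) (nat_lit 5) (nat_lit 310) (nat_lit 5) (nat_lit 605) (nat_lit 552) (nat_lit 403))))) (XT.nd (nat_lit 234) (nat_lit 1292) (nat_lit 0) (XT.nd (nat_lit 78) (nat_lit 608) (nat_lit 0) (XT.lf (nat_lit 0) (nat_lit 3198654036) (nat_lit 684) (nat_lit 5082014619) (nat_lit 760) (nat_lit 5722632008) (nat_lit 300) (nat_lit 5) (nat_lit 309) (nat_lit 5) (nat_lit 310) (nat_lit 5) (nat_lit 606) (nat_lit 552) (nat_lit 402)) (XT.nd (nat_lit 78) (nat_lit 608) (nat_lit 0) (XT.lf (nat_lit 0) (nat_lit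 11033172627) (nat_lit 760) (nat_lit 2493714959) (nat_lit 76) (nat_lit 632304447) (nat_lit 300) (nat_lit 5) (nat_lit 310) (nat_lit 5) (nat_lit 301) (nat_lit 5) (nat_lit 607) (nat_lit 552) (nat_lit 401)) (XT.lf (nat_lit 0) (nat_lit 6013932985) (nat_lit 608) (nat_lit 7887606115) (nat_lit 684) (nat_lit 415446461) (nat_lit 292) (nat_lit 5) (nat_lit 300) (nat_lit 5) (nat_lit 301) (nat_lit 5) (nat_lit 608) (nat_lit 552) (nat_lit 400)))) (XT.nd (nat_lit 78) (nat_lit 608) (nat_lit 0) (XT.lf (nat_lit 0) (nat_lit 220685251) (nat_lit 608) (nat_lit 2104288555) (nat_lit 684) (nat_lit 12152527683) (nat_lit 283) (nat_lit 5) (nat_lit 291) (nat_lit 5) (nat_lit 292) (nat_lit 5) (nat_lit 609) (nat_lit 552) (nat_lit 399)) (XT.nd (nat_lit 78) (nat_lit 608) (nat_lit 0) (XT.lf (nat_lit 0) (nat_lit 5183656636) (nat_lit 684) (nat_lit 5655322565) (nat_lit 76) (nat_lit 3800813817) (nat_lit 283) (nat_lit 5) (nat_lit 292) (nat_lit 5) (nat_lit 284) (nat_lit 5) (nat_lit 610) (nat_lit 552) (nat_lit 398)) (XT.lf (nat_lit 0) (nat_lit 3130718252)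 (nat_lit 608) (nat_lit 4991574175) (nat_lit 684) (nat_lit 6682582898) (nat_lit 275) (nat_lit 5) (nat_lit 283) (nat_lit 5) (nat_lit 284) (nat_lit 5) (nat_lit 611) (nat_lit 552) (nat_lit 397))))))))
noncomputable def xc130 : XT := (XT.nd (nat_lit 1560) (nat_lit 10640) (nat_lit 0) (XT.nd (nat_lit 780) (nat_lit 2812) (nat_lit 0) (XT.nd (nat_lit 390) (nat_lit 0) (nat_lit 76) (XT.nd (nat_lit 156) (nat_lit 1520) (nat_lit 0) (XT.nd (nat_lit 78) (nat_lit 0) (nat_lit 0) (XT.lf (nat_lit 0) (nat_lit 1688264838) (nat_lit 0) (nat_lit 1688264838) (nat_lit 1444) (nat_lit 883835190) (nat_lit 584) (nat_lit 5) (nat_lit 584) (nat_lit 3) (nat_lit 603) (nat_lit 3) (nat_lit 553) (nat_lit 553) (nat_lit 454)) (XT.lf (nat_lit 0) (nat_lit 7676879187) (nat_lit 0) (nat_lit 174225597) (nat_lit 1444) (nat_lit 734149659) (nat_lit 584) (nat_lit 5) (nat_lit 584) (nat_lit 3) (nat_lit 603) (nat_lit 3) (nat_lit 554) (nat_lit 553) (nat_lit 453))) (XT.nd (nat_lit 78) (nat_lit 0) (nat_lit 0) (XT.lf (nat_lit 0) (nat_lit 331300317) (nat_lit 1520)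 (nat_lit 5230108660) (nat_lit 1596) (nat_lit 3089311848) (nat_lit 564) (nat_lit 5) (nat_lit 584) (nat_lit 5) (nat_lit 585) (nat_lit 5) (nat_lit 555) (nat_lit 553) (nat_lit 452)) (XT.nd (nat_lit 78) (nat_lit 0) (nat_lit 76) (XT.lf (nat_lit 0) (nat_lit 1388844736) (nat_lit 1520) (nat_lit 889347134) (nat_lit 1596) (nat_lit 6439597118) (nat_lit 564) (nat_lit 5) (nat_lit 584) (nat_lit 5) (nat_lit 585) (nat_lit 5) (nat_lit 556) (nat_lit 553) (nat_lit 451)) (XT.lf (nat_lit 0) (nat_lit 2471748097) (nat_lit 1520) (nat_lit 5222506494) (nat_lit 1596) (nat_lit 1091861549) (nat_lit 565) (nat_lit 5) (nat_lit 585) (nat_lit 5) (nat_lit 586) (nat_lit 5) (nat_lit 557) (nat_lit 553) (nat_lit 450))))) (XT.nd (nat_lit 156) (nat_lit 0) (nat_lit 76) (XT.nd (nat_lit 78) (nat_lit 0) (nat_lit 0) (XT.lf (nat_lit 0) (nat_lit 3571742086) (nat_lit 1520) (nat_lit 767762527) (nat_lit 1596) (nat_lit 4516398322) (nat_lit 565) (nat_lit 5) (nat_lit 585) (nat_lit 5) (nat_lit 586) (nat_lit 5) (nat_lit 558) (nat_lit 553) (nat_lit 449)) (XT.lf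 (nat_lit 76) (nat_lit 3811728547) (nat_lit 0) (nat_lit 881596547) (nat_lit 1596) (nat_lit 4233770306) (nat_lit 566) (nat_lit 5) (nat_lit 565) (nat_lit 5) (nat_lit 586) (nat_lit 5) (nat_lit 559) (nat_lit 553) (nat_lit 448))) (XT.nd (nat_lit 78) (nat_lit 0) (nat_lit 0) (XT.lf (nat_lit 0) (nat_lit 5835012077) (nat_lit 1520) (nat_lit 538412321) (nat_lit 1596) (nat_lit 2626335556) (nat_lit 566) (nat_lit 5) (nat_lit 586) (nat_lit 5) (nat_lit 587) (nat_lit 5) (nat_lit 560) (nat_lit 553) (nat_lit 447)) (XT.nd (nat_lit 78) (nat_lit 0) (nat_lit 76) (XT.lf (nat_lit 76) (nat_lit 4164339318) (nat_lit 0) (nat_lit 2843863598) (nat_lit 1596) (nat_lit 2065503130) (nat_lit 567) (nat_lit 5) (nat_lit 566) (nat_lit 5) (nat_lit 587) (nat_lit 5) (nat_lit 561) (nat_lit 553) (nat_lit 446)) (XT.lf (nat_lit 0) (nat_lit 8189640944) (nat_lit 1520) (nat_lit 200512027) (nat_lit 1596) (nat_lit 759284039) (nat_lit 567) (nat_lit 5) (nat_lit 587) (nat_lit 5) (nat_lit 588) (nat_lit 5) (nat_lit 562) (nat_lit 553) (nat_lit 445)))))) (XT.nd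 (nat_lit 390) (nat_lit 1444) (nat_lit 0) (XT.nd (nat_lit 156) (nat_lit 0) (nat_lit 76) (XT.nd (nat_lit 78) (nat_lit 0) (nat_lit 0) (XT.lf (nat_lit 0) (nat_lit 191584293) (nat_lit 1596) (nat_lit 4597696538) (nat_lit 1672) (nat_lit 4436866244) (nat_lit 546) (nat_lit 5) (nat_lit 567) (nat_lit 5) (nat_lit 568) (nat_lit 5) (nat_lit 563) (nat_lit 553) (nat_lit 444)) (XT.lf (nat_lit 76) (nat_lit 234170180) (nat_lit 0) (nat_lit 1098768087) (nat_lit 1672) (nat_lit 7971731760) (nat_lit 547) (nat_lit 5) (nat_lit 546) (nat_lit 5) (nat_lit 568) (nat_lit 5) (nat_lit 564) (nat_lit 553) (nat_lit 443))) (XT.nd (nat_lit 78) (nat_lit 0) (nat_lit 0) (XT.lf (nat_lit 0) (nat_lit 2522802332) (nat_lit 1596) (nat_lit 4191951623) (nat_lit 1672) (nat_lit 2669497318) (nat_lit 547) (nat_lit 5) (nat_lit 568) (nat_lit 5) (nat_lit 569) (nat_lit 5) (nat_lit 565) (nat_lit 553) (nat_lit 442)) (XT.nd (nat_lit 78) (nat_lit 0) (nat_lit 76) (XT.lf (nat_lit 76) (nat_lit 772024441) (nat_lit 0) (nat_lit 2954492235) (nat_lit 1672) (nat_lit 5739107874)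 (nat_lit 548) (nat_lit 5) (nat_lit 547) (nat_lit 5) (nat_lit 569) (nat_lit 5) (nat_lit 566) (nat_lit 553) (nat_lit 441)) (XT.lf (nat_lit 0) (nat_lit 4966490348) (nat_lit 1596) (nat_lit 3677243787) (nat_lit 1672) (nat_lit 904648893) (nat_lit 548) (nat_lit 5) (nat_lit 569) (nat_lit 5) (nat_lit 570) (nat_lit 5) (nat_lit 567) (nat_lit 553) (nat_lit 440))))) (XT.nd (nat_lit 156) (nat_lit 1596) (nat_lit 0) (XT.nd (nat_lit 78) (nat_lit 0) (nat_lit 0) (XT.lf (nat_lit 76) (nat_lit 1423466059) (nat_lit 0) (nat_lit 4815182824) (nat_lit 1672) (nat_lit 3394001495) (nat_lit 549) (nat_lit 5) (nat_lit 548) (nat_lit 5) (nat_lit 570) (nat_lit 5) (nat_lit 568) (nat_lit 553) (nat_lit 439)) (XT.lf (nat_lit 76) (nat_lit 6661058858) (nat_lit 0) (nat_lit 878767917) (nat_lit 1672) (nat_lit 2178706157) (nat_lit 549) (nat_lit 5) (nat_lit 548) (nat_lit 5) (nat_lit 570) (nat_lit 5) (nat_lit 569) (nat_lit 553) (nat_lit 438))) (XT.nd (nat_lit 78) (nat_lit 1672) (nat_lit 0) (XT.lf (nat_lit 76) (nat_lit 2190498086) (nat_lit 0) (nat_lit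 6690468377) (nat_lit 1672) (nat_lit 924889262) (nat_lit 550) (nat_lit 5) (nat_lit 549) (nat_lit 5) (nat_lit 571) (nat_lit 5) (nat_lit 570) (nat_lit 553) (nat_lit 437)) (XT.nd (nat_lit 78) (nat_lit 0) (nat_lit 76) (XT.lf (nat_lit 0) (nat_lit 355357781) (nat_lit 1672) (nat_lit 2333205499) (nat_lit 1748) (nat_lit 7206197096) (nat_lit 527) (nat_lit 5) (nat_lit 549) (nat_lit 5) (nat_lit 550) (nat_lit 5) (nat_lit 571) (nat_lit 553) (nat_lit 436)) (XT.lf (nat_lit 0) (nat_lit 1657971693) (nat_lit 1672) (nat_lit 6920810252) (nat_lit 1748) (nat_lit 1406357256) (nat_lit 528) (nat_lit 5) (nat_lit 550) (nat_lit 5) (nat_lit 551) (nat_lit 5) (nat_lit 572) (nat_lit 553) (nat_lit 435))))))) (XT.nd (nat_lit 780) (nat_lit 5548) (nat_lit 0) (XT.nd (nat_lit 390) (nat_lit 3648) (nat_lit 0) (XT.nd (nat_lit 156) (nat_lit 1520) (nat_lit 0) (XT.nd (nat_lit 78) (nat_lit 0) (nat_lit 0) (XT.lf (nat_lit 0) (nat_lit 3000457390) (nat_lit 1672) (nat_lit 1508820784) (nat_lit 1748) (nat_lit 5567772289) (nat_lit 528) (nat_lit 5) (nat_lit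 550) (nat_lit 5) (nat_lit 551) (nat_lit 5) (nat_lit 573) (nat_lit 553) (nat_lit 434)) (XT.lf (nat_lit 76) (nat_lit 4049478027) (nat_lit 0) (nat_lit 327247580) (nat_lit 1748) (nat_lit 5793936915) (nat_lit 529) (nat_lit 5) (nat_lit 528) (nat_lit 5) (nat_lit 551) (nat_lit 5) (nat_lit 574) (nat_lit 553) (nat_lit 433))) (XT.nd (nat_lit 78) (nat_lit 1596) (nat_lit 0) (XT.lf (nat_lit 0) (nat_lit 5797232422) (nat_lit 1672) (nat_lit 567537668) (nat_lit 1748) (nat_lit 3901043669) (nat_lit 529) (nat_lit 5) (nat_lit 551) (nat_lit 5) (nat_lit 552) (nat_lit 5) (nat_lit 575) (nat_lit 553) (nat_lit 432)) (XT.nd (nat_lit 78) (nat_lit 1596) (nat_lit 0) (XT.lf (nat_lit 76) (nat_lit 5147475237) (nat_lit 0) (nat_lit 2115586024) (nat_lit 1748) (nat_lit 3099469701) (nat_lit 530) (nat_lit 5) (nat_lit 529) (nat_lit 5) (nat_lit 552) (nat_lit 5) (nat_lit 576) (nat_lit 553) (nat_lit 431)) (XT.lf (nat_lit 0) (nat_lit 500162738) (nat_lit 1672) (nat_lit 8261144963) (nat_lit 1748) (nat_lit 1699813943) (nat_lit 508) (nat_lit 5) (nat_lit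 530) (nat_lit 5) (nat_lit 531) (nat_lit 5) (nat_lit 577) (nat_lit 553) (nat_lit 430))))) (XT.nd (nat_lit 156) (nat_lit 1824) (nat_lit 0) (XT.nd (nat_lit 78) (nat_lit 1824) (nat_lit 0) (XT.lf (nat_lit 0) (nat_lit 6370938822) (nat_lit 1672) (nat_lit 3949371302) (nat_lit 1748) (nat_lit 240759329) (nat_lit 508) (nat_lit 5) (nat_lit 530) (nat_lit 5) (nat_lit 531) (nat_lit 5) (nat_lit 578) (nat_lit 553) (nat_lit 429)) (XT.lf (nat_lit 0) (nat_lit 1227291468) (nat_lit 1824) (nat_lit 8970985482) (nat_lit 76) (nat_lit 464654848) (nat_lit 484) (nat_lit 5) (nat_lit 508) (nat_lit 5) (nat_lit 485) (nat_lit 5) (nat_lit 579) (nat_lit 553) (nat_lit 428))) (XT.nd (nat_lit 78) (nat_lit 1824) (nat_lit 0) (XT.lf (nat_lit 0) (nat_lit 2758324411) (nat_lit 1824) (nat_lit 3061193201) (nat_lit 76) (nat_lit 4946546119) (nat_lit 484) (nat_lit 5) (nat_lit 508) (nat_lit 5) (nat_lit 485) (nat_lit 5) (nat_lit 580) (nat_lit 553) (nat_lit 427)) (XT.nd (nat_lit 78) (nat_lit 0) (nat_lit 0) (XT.lf (nat_lit 0) (nat_lit 2990871847) (nat_lit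 1824) (nat_lit 1331253234) (nat_lit 1900) (nat_lit 6549091327) (nat_lit 460) (nat_lit 5) (nat_lit 484) (nat_lit 5) (nat_lit 485) (nat_lit 5) (nat_lit 581) (nat_lit 553) (nat_lit 426)) (XT.lf (nat_lit 0) (nat_lit 5941942412) (nat_lit 1900) (nat_lit 1809207827) (nat_lit 76) (nat_lit 3226828115) (nat_lit 460) (nat_lit 5) (nat_lit 485) (nat_lit 5) (nat_lit 461) (nat_lit 5) (nat_lit 582) (nat_lit 553) (nat_lit 425)))))) (XT.nd (nat_lit 390) (nat_lit 2584) (nat_lit 0) (XT.nd (nat_lit 156) (nat_lit 1900) (nat_lit 0) (XT.nd (nat_lit 78) (nat_lit 0) (nat_lit 0) (XT.lf (nat_lit 0) (nat_lit 4417368268) (nat_lit 1064) (nat_lit 3197600394) (nat_lit 1140) (nat_lit 3471491630) (nat_lit 446) (nat_lit 5) (nat_lit 460) (nat_lit 5) (nat_lit 461) (nat_lit 5) (nat_lit 583) (nat_lit 553) (nat_lit 424)) (XT.lf (nat_lit 0) (nat_lit 9326626600) (nat_lit 1140) (nat_lit 428686154) (nat_lit 76) (nat_lit 1441696677) (nat_lit 446) (nat_lit 5) (nat_lit 461) (nat_lit 5) (nat_lit 447) (nat_lit 5) (nat_lit 584) (nat_lit 553) (nat_lit 423)))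 (XT.nd (nat_lit 78) (nat_lit 988) (nat_lit 0) (XT.lf (nat_lit 0) (nat_lit 5978722658) (nat_lit 912) (nat_lit 5137666490) (nat_lit 988) (nat_lit 192503945) (nat_lit 434) (nat_lit 5) (nat_lit 446) (nat_lit 5) (nat_lit 447) (nat_lit 5) (nat_lit 585) (nat_lit 553) (nat_lit 422)) (XT.nd (nat_lit 78) (nat_lit 0) (nat_lit 0) (XT.lf (nat_lit 0) (nat_lit 1086344572) (nat_lit 912) (nat_lit 406606219) (nat_lit 988) (nat_lit 9929988540) (nat_lit 421) (nat_lit 5) (nat_lit 433) (nat_lit 5) (nat_lit 434) (nat_lit 5) (nat_lit 586) (nat_lit 553) (nat_lit 421)) (XT.lf (nat_lit 0) (nat_lit 3258447363) (nat_lit 988) (nat_lit 3880690322) (nat_lit 76) (nat_lit 4399126065) (nat_lit 421) (nat_lit 5) (nat_lit 434) (nat_lit 5) (nat_lit 422) (nat_lit 5) (nat_lit 587) (nat_lit 553) (nat_lit 420))))) (XT.nd (nat_lit 156) (nat_lit 1748) (nat_lit 0) (XT.nd (nat_lit 78) (nat_lit 0) (nat_lit 0) (XT.lf (nat_lit 0) (nat_lit 2722266351) (nat_lit 836) (nat_lit 2341875877) (nat_lit 912) (nat_lit 6591655554) (nat_lit 410) (nat_lit 5) (nat_lit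 421) (nat_lit 5) (nat_lit 422) (nat_lit 5) (nat_lit 588) (nat_lit 553) (nat_lit 419)) (XT.lf (nat_lit 0) (nat_lit 6933458903) (nat_lit 912) (nat_lit 2297298304) (nat_lit 76) (nat_lit 2544376007) (nat_lit 410) (nat_lit 5) (nat_lit 422) (nat_lit 5) (nat_lit 411) (nat_lit 5) (nat_lit 589) (nat_lit 553) (nat_lit 418))) (XT.nd (nat_lit 78) (nat_lit 912) (nat_lit 0) (XT.lf (nat_lit 0) (nat_lit 4500185648) (nat_lit 836) (nat_lit 4369732036) (nat_lit 912) (nat_lit 3026343413) (nat_lit 399) (nat_lit 5) (nat_lit 410) (nat_lit 5) (nat_lit 411) (nat_lit 5) (nat_lit 590) (nat_lit 553) (nat_lit 417)) (XT.nd (nat_lit 78) (nat_lit 912) (nat_lit 0) (XT.lf (nat_lit 0) (nat_lit 10849669484) (nat_lit 912) (nat_lit 573849055) (nat_lit 76) (nat_lit 596202563) (nat_lit 399) (nat_lit 5) (nat_lit 411) (nat_lit 5) (nat_lit 400) (nat_lit 5) (nat_lit 591) (nat_lit 553) (nat_lit 416)) (XT.lf (nat_lit 0) (nat_lit 770420186) (nat_lit 912) (nat_lit 5724329302) (nat_lit 76) (nat_lit 5649676874) (nat_lit 387) (nat_lit 5) (nat_lit 399) (nat_lit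 5) (nat_lit 388) (nat_lit 5) (nat_lit 592) (nat_lit 553) (nat_lit 415))))))))
noncomputable def xc131 : XT := (XT.nd (nat_lit 3744) (nat_lit 1596) (nat_lit 0) (XT.nd (nat_lit 780) (nat_lit 12312) (nat_lit 0) (XT.nd (nat_lit 390) (nat_lit 2204) (nat_lit 0) (XT.nd (nat_lit 156) (nat_lit 1520) (nat_lit 0) (XT.nd (nat_lit 78) (nat_lit 0) (nat_lit 0) (XT.lf (nat_lit 0) (nat_lit 1284242004) (nat_lit 836) (nat_lit 1447628460) (nat_lit 912) (nat_lit 9539644652) (nat_lit 376) (nat_lit 5) (nat_lit 387) (nat_lit 5) (nat_lit 388) (nat_lit 5) (nat_lit 593) (nat_lit 553) (nat_lit 414)) (XT.lf (nat_lit 0) (nat_lit 4781031220) (nat_lit 912) (nat_lit 3929238874) (nat_lit 76) (nat_lit 3689906702) (nat_lit 376) (nat_lit 5) (nat_lit 388) (nat_lit 5) (nat_lit 377) (nat_lit 5) (nat_lit 594) (nat_lit 553) (nat_lit 413))) (XT.nd (nat_lit 78) (nat_lit 760) (nat_lit 0) (XT.lf (nat_lit 0) (nat_lit 3288636489) (nat_lit 760) (nat_lit 3599544454) (nat_lit 836) (nat_lit 5642891414) (nat_lit 366) (nat_lit 5) (nat_lit 376) (nat_lit 5)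 (nat_lit 377) (nat_lit 5) (nat_lit 595) (nat_lit 553) (nat_lit 412)) (XT.nd (nat_lit 78) (nat_lit 760) (nat_lit 0) (XT.lf (nat_lit 0) (nat_lit 9060728348) (nat_lit 836) (nat_lit 1985612303) (nat_lit 76) (nat_lit 1617780830) (nat_lit 366) (nat_lit 5) (nat_lit 377) (nat_lit 5) (nat_lit 367) (nat_lit 5) (nat_lit 596) (nat_lit 553) (nat_lit 411)) (XT.lf (nat_lit 0) (nat_lit 5449237026) (nat_lit 760) (nat_lit 5873215203) (nat_lit 836) (nat_lit 1476465583) (nat_lit 356) (nat_lit 5) (nat_lit 366) (nat_lit 5) (nat_lit 367) (nat_lit 5) (nat_lit 597) (nat_lit 553) (nat_lit 410))))) (XT.nd (nat_lit 156) (nat_lit 1444) (nat_lit 0) (XT.nd (nat_lit 78) (nat_lit 0) (nat_lit 0) (XT.lf (nat_lit 0) (nat_lit 105529280) (nat_lit 684) (nat_lit 579068292) (nat_lit 760) (nat_lit 12251709495) (nat_lit 346) (nat_lit 5) (nat_lit 355) (nat_lit 5) (nat_lit 356) (nat_lit 5) (nat_lit 598) (nat_lit 553) (nat_lit 409)) (XT.lf (nat_lit 0) (nat_lit 2936824065) (nat_lit 760) (nat_lit 5322373531) (nat_lit 76) (nat_lit 4815697775) (nat_lit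 346) (nat_lit 5) (nat_lit 356) (nat_lit 5) (nat_lit 347) (nat_lit 5) (nat_lit 599) (nat_lit 553) (nat_lit 408))) (XT.nd (nat_lit 78) (nat_lit 684) (nat_lit 0) (XT.lf (nat_lit 0) (nat_lit 2348477556) (nat_lit 760) (nat_lit 2891705917) (nat_lit 836) (nat_lit 7975950877) (nat_lit 336) (nat_lit 5) (nat_lit 346) (nat_lit 5) (nat_lit 347) (nat_lit 5) (nat_lit 600) (nat_lit 553) (nat_lit 407)) (XT.nd (nat_lit 78) (nat_lit 684) (nat_lit 0) (XT.lf (nat_lit 0) (nat_lit 7629488240) (nat_lit 836) (nat_lit 3146436304) (nat_lit 76) (nat_lit 2583476665) (nat_lit 336) (nat_lit 5) (nat_lit 347) (nat_lit 5) (nat_lit 337) (nat_lit 5) (nat_lit 601) (nat_lit 553) (nat_lit 406)) (XT.lf (nat_lit 0) (nat_lit 4757913635) (nat_lit 684) (nat_lit 5346113526) (nat_lit 760) (nat_lit 3400757934) (nat_lit 327) (nat_lit 5) (nat_lit 336) (nat_lit 5) (nat_lit 337) (nat_lit 5) (nat_lit 602) (nat_lit 553) (nat_lit 405)))))) (XT.nd (nat_lit 390) (nat_lit 10260) (nat_lit 0) (XT.nd (nat_lit 156) (nat_lit 1292) (nat_lit 0) (XT.nd (nat_lit 78)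 (nat_lit 760) (nat_lit 0) (XT.lf (nat_lit 0) (nat_lit 12638105669) (nat_lit 760) (nat_lit 805727554) (nat_lit 76) (nat_lit 209043097) (nat_lit 327) (nat_lit 5) (nat_lit 337) (nat_lit 5) (nat_lit 328) (nat_lit 5) (nat_lit 603) (nat_lit 553) (nat_lit 404)) (XT.lf (nat_lit 0) (nat_lit 1471651313) (nat_lit 760) (nat_lit 6471483778) (nat_lit 76) (nat_lit 5859184148) (nat_lit 317) (nat_lit 5) (nat_lit 327) (nat_lit 5) (nat_lit 318) (nat_lit 5) (nat_lit 604) (nat_lit 553) (nat_lit 403))) (XT.nd (nat_lit 78) (nat_lit 684) (nat_lit 0) (XT.lf (nat_lit 0) (nat_lit 1687316533) (nat_lit 608) (nat_lit 2311164418) (nat_lit 684) (nat_lit 9956051173) (nat_lit 309) (nat_lit 5) (nat_lit 317) (nat_lit 5) (nat_lit 318) (nat_lit 5) (nat_lit 605) (nat_lit 553) (nat_lit 402)) (XT.nd (nat_lit 78) (nat_lit 684) (nat_lit 0) (XT.lf (nat_lit 0) (nat_lit 6629839927) (nat_lit 684) (nat_lit 4049080501) (nat_lit 76) (nat_lit 3429789575) (nat_lit 309) (nat_lit 5) (nat_lit 318) (nat_lit 5) (nat_lit 310) (nat_lit 5) (nat_lit 606) (nat_lit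 553) (nat_lit 401)) (XT.lf (nat_lit 0) (nat_lit 4360997531) (nat_lit 684) (nat_lit 4984670213) (nat_lit 760) (nat_lit 4919667439) (nat_lit 300) (nat_lit 5) (nat_lit 309) (nat_lit 5) (nat_lit 310) (nat_lit 5) (nat_lit 607) (nat_lit 553) (nat_lit 400))))) (XT.nd (nat_lit 156) (nat_lit 9576) (nat_lit 0) (XT.nd (nat_lit 78) (nat_lit 684) (nat_lit 0) (XT.lf (nat_lit 0) (nat_lit 12136853390) (nat_lit 760) (nat_lit 1450344193) (nat_lit 76) (nat_lit 837475025) (nat_lit 300) (nat_lit 5) (nat_lit 310) (nat_lit 5) (nat_lit 301) (nat_lit 5) (nat_lit 608) (nat_lit 553) (nat_lit 399)) (XT.lf (nat_lit 0) (nat_lit 460378215) (nat_lit 684) (nat_lit 7368592598) (nat_lit 76) (nat_lit 6756796713) (nat_lit 291) (nat_lit 5) (nat_lit 300) (nat_lit 5) (nat_lit 292) (nat_lit 5) (nat_lit 609) (nat_lit 553) (nat_lit 398))) (XT.nd (nat_lit 2262) (nat_lit 8968) (nat_lit 0) (XT.lf (nat_lit 0) (nat_lit 1315646516) (nat_lit 608) (nat_lit 1924256322) (nat_lit 684) (nat_lit 11509739644) (nat_lit 283) (nat_lit 5) (nat_lit 291) (nat_lit 5)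 (nat_lit 292) (nat_lit 5) (nat_lit 610) (nat_lit 553) (nat_lit 397)) (XT.nd (nat_lit 78) (nat_lit 380) (nat_lit 0) (XT.lf (nat_lit 0) (nat_lit 8806073924) (nat_lit 456) (nat_lit 6752201052) (nat_lit 76) (nat_lit 5131600023) (nat_lit 170) (nat_lit 5) (nat_lit 176) (nat_lit 5) (nat_lit 171) (nat_lit 5) (nat_lit 639) (nat_lit 553) (nat_lit 368)) (XT.lf (nat_lit 0) (nat_lit 6029703433) (nat_lit 380) (nat_lit 7825551570) (nat_lit 456) (nat_lit 7086647556) (nat_lit 165) (nat_lit 5) (nat_lit 170) (nat_lit 5) (nat_lit 171) (nat_lit 5) (nat_lit 640) (nat_lit 553) (nat_lit 367))))))) (XT.nd (nat_lit 74646) (nat_lit 0) (nat_lit 30552) (XT.nd (nat_lit 390) (nat_lit 456) (nat_lit 0) (XT.nd (nat_lit 156) (nat_lit 684) (nat_lit 0) (XT.nd (nat_lit 78) (nat_lit 456) (nat_lit 0) (XT.lf (nat_lit 0) (nat_lit 19043537895) (nat_lit 456) (nat_lit 2052274217) (nat_lit 76) (nat_lit 102396452) (nat_lit 165) (nat_lit 5) (nat_lit 171) (nat_lit 5) (nat_lit 166) (nat_lit 5) (nat_lit 641) (nat_lit 553) (nat_lit 366)) (XT.lf (nat_lit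 0) (nat_lit 2955458617) (nat_lit 456) (nat_lit 10329575237) (nat_lit 76) (nat_lit 8171889003) (nat_lit 159) (nat_lit 5) (nat_lit 165) (nat_lit 5) (nat_lit 160) (nat_lit 5) (nat_lit 642) (nat_lit 553) (nat_lit 365))) (XT.nd (nat_lit 78) (nat_lit 304) (nat_lit 0) (XT.lf (nat_lit 0) (nat_lit 2889313447) (nat_lit 380) (nat_lit 5274559099) (nat_lit 456) (nat_lit 13556155622) (nat_lit 154) (nat_lit 5) (nat_lit 159) (nat_lit 5) (nat_lit 160) (nat_lit 5) (nat_lit 643) (nat_lit 553) (nat_lit 364)) (XT.nd (nat_lit 78) (nat_lit 304) (nat_lit 0) (XT.lf (nat_lit 0) (nat_lit 13557363285) (nat_lit 456) (nat_lit 5505782256) (nat_lit 76) (nat_lit 2923632109) (nat_lit 154) (nat_lit 5) (nat_lit 160) (nat_lit 5) (nat_lit 155) (nat_lit 5) (nat_lit 644) (nat_lit 553) (nat_lit 363)) (XT.lf (nat_lit 0) (nat_lit 8145677073) (nat_lit 304) (nat_lit 10993344199) (nat_lit 380) (nat_lit 3118235135) (nat_lit 150) (nat_lit 5) (nat_lit 154) (nat_lit 5) (nat_lit 155) (nat_lit 5) (nat_lit 645) (nat_lit 553) (nat_lit 362))))) (XT.nd (nat_lit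 74022) (nat_lit 0) (nat_lit 31844) (XT.nd (nat_lit 78) (nat_lit 380) (nat_lit 0) (XT.lf (nat_lit 0) (nat_lit 2298705819) (nat_lit 380) (nat_lit 414675011) (nat_lit 76) (nat_lit 19818871736) (nat_lit 149) (nat_lit 5) (nat_lit 154) (nat_lit 5) (nat_lit 150) (nat_lit 5) (nat_lit 646) (nat_lit 553) (nat_lit 361)) (XT.lf (nat_lit 0) (nat_lit 7901807122) (nat_lit 456) (nat_lit 9145038310) (nat_lit 76) (nat_lit 5763099709) (nat_lit 144) (nat_lit 5) (nat_lit 150) (nat_lit 5) (nat_lit 145) (nat_lit 5) (nat_lit 647) (nat_lit 553) (nat_lit 360))) (XT.nd (nat_lit 78) (nat_lit 0) (nat_lit 0) (XT.lf (nat_lit 0) (nat_lit 140986818) (nat_lit 1596) (nat_lit 2092009246) (nat_lit 1596) (nat_lit 2092009246) (nat_lit 563) (nat_lit 3) (nat_lit 584) (nat_lit 3) (nat_lit 584) (nat_lit 5) (nat_lit 554) (nat_lit 554) (nat_lit 452)) (XT.nd (nat_lit 78) (nat_lit 0) (nat_lit 76) (XT.lf (nat_lit 76) (nat_lit 110512803) (nat_lit 0) (nat_lit 1172124948) (nat_lit 1596) (nat_lit 7433847971) (nat_lit 564) (nat_lit 5) (nat_lit 563) (nat_lit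 3) (nat_lit 584) (nat_lit 5) (nat_lit 555) (nat_lit 554) (nat_lit 451)) (XT.lf (nat_lit 0) (nat_lit 2319621396) (nat_lit 1520) (nat_lit 4264594491) (nat_lit 1596) (nat_lit 2199750099) (nat_lit 564) (nat_lit 5) (nat_lit 584) (nat_lit 5) (nat_lit 585) (nat_lit 5) (nat_lit 556) (nat_lit 554) (nat_lit 450)))))) (XT.nd (nat_lit 390) (nat_lit 1368) (nat_lit 0) (XT.nd (nat_lit 156) (nat_lit 0) (nat_lit 76) (XT.nd (nat_lit 78) (nat_lit 0) (nat_lit 76) (XT.lf (nat_lit 76) (nat_lit 143886692) (nat_lit 0) (nat_lit 3216507453) (nat_lit 1596) (nat_lit 5492742471) (nat_lit 565) (nat_lit 5) (nat_lit 564) (nat_lit 5) (nat_lit 585) (nat_lit 5) (nat_lit 557) (nat_lit 554) (nat_lit 449)) (XT.lf (nat_lit 0) (nat_lit 4427049420) (nat_lit 1520) (nat_lit 4240720910) (nat_lit 1596) (nat_lit 255820706) (nat_lit 565) (nat_lit 5) (nat_lit 585) (nat_lit 5) (nat_lit 586) (nat_lit 5) (nat_lit 558) (nat_lit 554) (nat_lit 448))) (XT.nd (nat_lit 78) (nat_lit 0) (nat_lit 0) (XT.lf (nat_lit 76) (nat_lit 285564425) (nat_lit 0) (nat_lit 5227963009)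 (nat_lit 1596) (nat_lit 3481959002) (nat_lit 566) (nat_lit 5) (nat_lit 565) (nat_lit 5) (nat_lit 586) (nat_lit 5) (nat_lit 559) (nat_lit 554) (nat_lit 447)) (XT.nd (nat_lit 78) (nat_lit 0) (nat_lit 76) (XT.lf (nat_lit 76) (nat_lit 4945893928) (nat_lit 0) (nat_lit 1680025704) (nat_lit 1596) (nat_lit 2442818069) (nat_lit 566) (nat_lit 5) (nat_lit 565) (nat_lit 5) (nat_lit 586) (nat_lit 5) (nat_lit 560) (nat_lit 554) (nat_lit 446)) (XT.lf (nat_lit 76) (nat_lit 536184799) (nat_lit 0) (nat_lit 7216713279) (nat_lit 1596) (nat_lit 1390710764) (nat_lit 567) (nat_lit 5) (nat_lit 566) (nat_lit 5) (nat_lit 587) (nat_lit 5) (nat_lit 561) (nat_lit 554) (nat_lit 445))))) (XT.nd (nat_lit 234) (nat_lit 0) (nat_lit 0) (XT.nd (nat_lit 78) (nat_lit 1520) (nat_lit 0) (XT.lf (nat_lit 76) (nat_lit 5318865014) (nat_lit 0) (nat_lit 3598912539) (nat_lit 1596) (nat_lit 301894211) (nat_lit 567) (nat_lit 5) (nat_lit 566) (nat_lit 5) (nat_lit 587) (nat_lit 5) (nat_lit 562) (nat_lit 554) (nat_lit 444)) (XT.nd (nat_lit 78) (nat_lit 0)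 (nat_lit 0) (XT.lf (nat_lit 0) (nat_lit 781555571) (nat_lit 1596) (nat_lit 8405998854) (nat_lit 1672) (nat_lit 109928769) (nat_lit 546) (nat_lit 5) (nat_lit 567) (nat_lit 5) (nat_lit 568) (nat_lit 5) (nat_lit 563) (nat_lit 554) (nat_lit 443)) (XT.lf (nat_lit 0) (nat_lit 1910182995) (nat_lit 1596) (nat_lit 3584426064) (nat_lit 1672) (nat_lit 3881652359) (nat_lit 546) (nat_lit 5) (nat_lit 567) (nat_lit 5) (nat_lit 568) (nat_lit 5) (nat_lit 564) (nat_lit 554) (nat_lit 442)))) (XT.nd (nat_lit 78) (nat_lit 0) (nat_lit 76) (XT.lf (nat_lit 76) (nat_lit 1336806776) (nat_lit 0) (nat_lit 1711063030) (nat_lit 1672) (nat_lit 6409017128) (nat_lit 547) (nat_lit 5) (nat_lit 546) (nat_lit 5) (nat_lit 568) (nat_lit 5) (nat_lit 565) (nat_lit 554) (nat_lit 441)) (XT.nd (nat_lit 78) (nat_lit 0) (nat_lit 0) (XT.lf (nat_lit 0) (nat_lit 4224670170) (nat_lit 1596) (nat_lit 3162396114) (nat_lit 1672) (nat_lit 2151732918) (nat_lit 547) (nat_lit 5) (nat_lit 568) (nat_lit 5) (nat_lit 569) (nat_lit 5) (nat_lit 566) (nat_lit 554) (nat_lit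 440)) (XT.lf (nat_lit 76) (nat_lit 1893534507) (nat_lit 0) (nat_lit 3533725008) (nat_lit 1672) (nat_lit 4195046549) (nat_lit 548) (nat_lit 5) (nat_lit 547) (nat_lit 5) (nat_lit 569) (nat_lit 5) (nat_lit 567) (nat_lit 554) (nat_lit 439))))))))
noncomputable def xc132 : XT := (XT.nd (nat_lit 1560) (nat_lit 8512) (nat_lit 0) (XT.nd (nat_lit 780) (nat_lit 8056) (nat_lit 0) (XT.nd (nat_lit 390) (nat_lit 0) (nat_lit 76) (XT.nd (nat_lit 156) (nat_lit 1596) (nat_lit 0) (XT.nd (nat_lit 78) (nat_lit 0) (nat_lit 0) (XT.lf (nat_lit 0) (nat_lit 6656835246) (nat_lit 1596) (nat_lit 2631104676) (nat_lit 1672) (nat_lit 419485831) (nat_lit 548) (nat_lit 5) (nat_lit 569) (nat_lit 5) (nat_lit 570) (nat_lit 5) (nat_lit 568) (nat_lit 554) (nat_lit 438)) (XT.lf (nat_lit 76) (nat_lit 2564253026) (nat_lit 0) (nat_lit 5366209455) (nat_lit 1672) (nat_lit 1863397510) (nat_lit 549) (nat_lit 5) (nat_lit 548) (nat_lit 5) (nat_lit 570) (nat_lit 5) (nat_lit 569) (nat_lit 554) (nat_lit 437))) (XT.nd (nat_lit 78) (nat_lit 1596) (nat_lit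 0) (XT.lf (nat_lit 76) (nat_lit 7884787530) (nat_lit 0) (nat_lit 1342150113) (nat_lit 1672) (nat_lit 655139089) (nat_lit 549) (nat_lit 5) (nat_lit 548) (nat_lit 5) (nat_lit 570) (nat_lit 5) (nat_lit 570) (nat_lit 554) (nat_lit 436)) (XT.nd (nat_lit 78) (nat_lit 0) (nat_lit 0) (XT.lf (nat_lit 0) (nat_lit 589690971) (nat_lit 1672) (nat_lit 6624401075) (nat_lit 1748) (nat_lit 2757492524) (nat_lit 527) (nat_lit 5) (nat_lit 549) (nat_lit 5) (nat_lit 550) (nat_lit 5) (nat_lit 571) (nat_lit 554) (nat_lit 435)) (XT.lf (nat_lit 0) (nat_lit 1853352513) (nat_lit 1672) (nat_lit 1265027822) (nat_lit 1748) (nat_lit 6944362727) (nat_lit 527) (nat_lit 5) (nat_lit 549) (nat_lit 5) (nat_lit 550) (nat_lit 5) (nat_lit 572) (nat_lit 554) (nat_lit 434))))) (XT.nd (nat_lit 156) (nat_lit 0) (nat_lit 0) (XT.nd (nat_lit 78) (nat_lit 0) (nat_lit 0) (XT.lf (nat_lit 0) (nat_lit 3157630240) (nat_lit 1672) (nat_lit 5919903295) (nat_lit 1748) (nat_lit 1077885555) (nat_lit 528) (nat_lit 5) (nat_lit 550) (nat_lit 5) (nat_lit 551) (nat_lit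 5) (nat_lit 573) (nat_lit 554) (nat_lit 433)) (XT.lf (nat_lit 0) (nat_lit 4498210767) (nat_lit 1672) (nat_lit 422013708) (nat_lit 1748) (nat_lit 5329521024) (nat_lit 528) (nat_lit 5) (nat_lit 550) (nat_lit 5) (nat_lit 551) (nat_lit 5) (nat_lit 574) (nat_lit 554) (nat_lit 432))) (XT.nd (nat_lit 78) (nat_lit 0) (nat_lit 76) (XT.lf (nat_lit 76) (nat_lit 5240102504) (nat_lit 0) (nat_lit 640915266) (nat_lit 1748) (nat_lit 4464633545) (nat_lit 529) (nat_lit 5) (nat_lit 528) (nat_lit 5) (nat_lit 551) (nat_lit 5) (nat_lit 575) (nat_lit 554) (nat_lit 431)) (XT.nd (nat_lit 78) (nat_lit 0) (nat_lit 0) (XT.lf (nat_lit 76) (nat_lit 545971521) (nat_lit 0) (nat_lit 6757773502) (nat_lit 1748) (nat_lit 3139486099) (nat_lit 530) (nat_lit 5) (nat_lit 529) (nat_lit 5) (nat_lit 552) (nat_lit 5) (nat_lit 576) (nat_lit 554) (nat_lit 430)) (XT.lf (nat_lit 76) (nat_lit 6360770885) (nat_lit 0) (nat_lit 2414587317) (nat_lit 1748) (nat_lit 1766996829) (nat_lit 530) (nat_lit 5) (nat_lit 529) (nat_lit 5) (nat_lit 552) (nat_lit 5) (nat_lit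 577) (nat_lit 554) (nat_lit 429)))))) (XT.nd (nat_lit 390) (nat_lit 2964) (nat_lit 0) (XT.nd (nat_lit 156) (nat_lit 3572) (nat_lit 0) (XT.nd (nat_lit 78) (nat_lit 76) (nat_lit 0) (XT.lf (nat_lit 0) (nat_lit 1642108974) (nat_lit 1672) (nat_lit 8640371379) (nat_lit 1748) (nat_lit 360860642) (nat_lit 508) (nat_lit 5) (nat_lit 530) (nat_lit 5) (nat_lit 531) (nat_lit 5) (nat_lit 578) (nat_lit 554) (nat_lit 428)) (XT.lf (nat_lit 0) (nat_lit 1086021825) (nat_lit 1748) (nat_lit 3144856493) (nat_lit 76) (nat_lit 6514796015) (nat_lit 507) (nat_lit 5) (nat_lit 530) (nat_lit 5) (nat_lit 508) (nat_lit 5) (nat_lit 579) (nat_lit 554) (nat_lit 427))) (XT.nd (nat_lit 78) (nat_lit 1824) (nat_lit 0) (XT.lf (nat_lit 0) (nat_lit 2560207912) (nat_lit 1824) (nat_lit 8002838599) (nat_lit 76) (nat_lit 286897212) (nat_lit 484) (nat_lit 5) (nat_lit 508) (nat_lit 5) (nat_lit 485) (nat_lit 5) (nat_lit 580) (nat_lit 554) (nat_lit 426)) (XT.nd (nat_lit 78) (nat_lit 1824) (nat_lit 0) (XT.lf (nat_lit 0) (nat_lit 4096207188) (nat_lit 1824)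 (nat_lit 1997351779) (nat_lit 76) (nat_lit 4862093970) (nat_lit 484) (nat_lit 5) (nat_lit 508) (nat_lit 5) (nat_lit 485) (nat_lit 5) (nat_lit 581) (nat_lit 554) (nat_lit 425)) (XT.lf (nat_lit 0) (nat_lit 4168352826) (nat_lit 1824) (nat_lit 1505036359) (nat_lit 1900) (nat_lit 5389878900) (nat_lit 460) (nat_lit 5) (nat_lit 484) (nat_lit 5) (nat_lit 485) (nat_lit 5) (nat_lit 582) (nat_lit 554) (nat_lit 424))))) (XT.nd (nat_lit 156) (nat_lit 1900) (nat_lit 0) (XT.nd (nat_lit 78) (nat_lit 1064) (nat_lit 0) (XT.lf (nat_lit 0) (nat_lit 7299865724) (nat_lit 1900) (nat_lit 723831551) (nat_lit 76) (nat_lit 3148984231) (nat_lit 460) (nat_lit 5) (nat_lit 485) (nat_lit 5) (nat_lit 461) (nat_lit 5) (nat_lit 583) (nat_lit 554) (nat_lit 423)) (XT.lf (nat_lit 0) (nat_lit 5619897379) (nat_lit 1064) (nat_lit 3369393354) (nat_lit 1140) (nat_lit 2294385051) (nat_lit 446) (nat_lit 5) (nat_lit 460) (nat_lit 5) (nat_lit 461) (nat_lit 5) (nat_lit 584) (nat_lit 554) (nat_lit 422))) (XT.nd (nat_lit 78) (nat_lit 988) (nat_lit 0) (XT.lf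 (nat_lit 0) (nat_lit 688828779) (nat_lit 912) (nat_lit 10026177708) (nat_lit 988) (nat_lit 681834362) (nat_lit 434) (nat_lit 5) (nat_lit 446) (nat_lit 5) (nat_lit 447) (nat_lit 5) (nat_lit 585) (nat_lit 554) (nat_lit 421)) (XT.nd (nat_lit 78) (nat_lit 912) (nat_lit 0) (XT.lf (nat_lit 0) (nat_lit 995214578) (nat_lit 988) (nat_lit 4309923351) (nat_lit 76) (nat_lit 6206109620) (nat_lit 433) (nat_lit 5) (nat_lit 446) (nat_lit 5) (nat_lit 434) (nat_lit 5) (nat_lit 586) (nat_lit 554) (nat_lit 420)) (XT.lf (nat_lit 0) (nat_lit 2226241993) (nat_lit 912) (nat_lit 469507508) (nat_lit 988) (nat_lit 8932122142) (nat_lit 421) (nat_lit 5) (nat_lit 433) (nat_lit 5) (nat_lit 434) (nat_lit 5) (nat_lit 587) (nat_lit 554) (nat_lit 419))))))) (XT.nd (nat_lit 780) (nat_lit 4332) (nat_lit 0) (XT.nd (nat_lit 390) (nat_lit 1672) (nat_lit 0) (XT.nd (nat_lit 156) (nat_lit 1672) (nat_lit 0) (XT.nd (nat_lit 78) (nat_lit 836) (nat_lit 0) (XT.lf (nat_lit 0) (nat_lit 4473208561) (nat_lit 988) (nat_lit 2838644714) (nat_lit 76) (nat_lit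 4434117550) (nat_lit 421) (nat_lit 5) (nat_lit 434) (nat_lit 5) (nat_lit 422) (nat_lit 5) (nat_lit 588) (nat_lit 554) (nat_lit 418)) (XT.lf (nat_lit 0) (nat_lit 3889004911) (nat_lit 836) (nat_lit 2410693133) (nat_lit 912) (nat_lit 5566465181) (nat_lit 410) (nat_lit 5) (nat_lit 421) (nat_lit 5) (nat_lit 422) (nat_lit 5) (nat_lit 589) (nat_lit 554) (nat_lit 417))) (XT.nd (nat_lit 78) (nat_lit 1672) (nat_lit 0) (XT.lf (nat_lit 0) (nat_lit 8184020497) (nat_lit 912) (nat_lit 1230316375) (nat_lit 76) (nat_lit 2573997380) (nat_lit 410) (nat_lit 5) (nat_lit 422) (nat_lit 5) (nat_lit 411) (nat_lit 5) (nat_lit 590) (nat_lit 554) (nat_lit 416)) (XT.nd (nat_lit 78) (nat_lit 836) (nat_lit 0) (XT.lf (nat_lit 0) (nat_lit 5695795361) (nat_lit 836) (nat_lit 4448789607) (nat_lit 912) (nat_lit 1967593444) (nat_lit 399) (nat_lit 5) (nat_lit 410) (nat_lit 5) (nat_lit 411) (nat_lit 5) (nat_lit 591) (nat_lit 554) (nat_lit 415)) (XT.lf (nat_lit 0) (nat_lit 527036908) (nat_lit 836) (nat_lit 11618854761) (nat_lit 912) (nat_lit 92577978)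 (nat_lit 388) (nat_lit 5) (nat_lit 399) (nat_lit 5) (nat_lit 400) (nat_lit 5) (nat_lit 592) (nat_lit 554) (nat_lit 414))))) (XT.nd (nat_lit 156) (nat_lit 760) (nat_lit 0) (XT.nd (nat_lit 78) (nat_lit 836) (nat_lit 0) (XT.lf (nat_lit 0) (nat_lit 1854762741) (nat_lit 912) (nat_lit 4726373336) (nat_lit 76) (nat_lit 5784741208) (nat_lit 387) (nat_lit 5) (nat_lit 399) (nat_lit 5) (nat_lit 388) (nat_lit 5) (nat_lit 593) (nat_lit 554) (nat_lit 413)) (XT.lf (nat_lit 0) (nat_lit 2415050695) (nat_lit 836) (nat_lit 1426607034) (nat_lit 912) (nat_lit 8654126927) (nat_lit 376) (nat_lit 5) (nat_lit 387) (nat_lit 5) (nat_lit 388) (nat_lit 5) (nat_lit 594) (nat_lit 554) (nat_lit 412))) (XT.nd (nat_lit 78) (nat_lit 760) (nat_lit 0) (XT.lf (nat_lit 0) (nat_lit 5911430589) (nat_lit 912) (nat_lit 2903941153) (nat_lit 76) (nat_lit 3812056383) (nat_lit 376) (nat_lit 5) (nat_lit 388) (nat_lit 5) (nat_lit 377) (nat_lit 5) (nat_lit 595) (nat_lit 554) (nat_lit 411)) (XT.nd (nat_lit 78) (nat_lit 0) (nat_lit 0) (XT.lf (nat_lit 0)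 (nat_lit 4451029333) (nat_lit 760) (nat_lit 3596524180) (nat_lit 836) (nat_lit 4713652590) (nat_lit 366) (nat_lit 5) (nat_lit 376) (nat_lit 5) (nat_lit 377) (nat_lit 5) (nat_lit 596) (nat_lit 554) (nat_lit 410)) (XT.lf (nat_lit 0) (nat_lit 10243997791) (nat_lit 836) (nat_lit 930598281) (nat_lit 76) (nat_lit 1722712308) (nat_lit 366) (nat_lit 5) (nat_lit 377) (nat_lit 5) (nat_lit 367) (nat_lit 5) (nat_lit 597) (nat_lit 554) (nat_lit 409)))))) (XT.nd (nat_lit 390) (nat_lit 2052) (nat_lit 0) (XT.nd (nat_lit 156) (nat_lit 760) (nat_lit 0) (XT.nd (nat_lit 78) (nat_lit 760) (nat_lit 0) (XT.lf (nat_lit 0) (nat_lit 6645745888) (nat_lit 760) (nat_lit 5892623055) (nat_lit 836) (nat_lit 496684506) (nat_lit 356) (nat_lit 5) (nat_lit 366) (nat_lit 5) (nat_lit 367) (nat_lit 5) (nat_lit 598) (nat_lit 554) (nat_lit 408)) (XT.lf (nat_lit 0) (nat_lit 1201211399) (nat_lit 684) (nat_lit 480720573) (nat_lit 760) (nat_lit 11493377095) (nat_lit 346) (nat_lit 5) (nat_lit 355) (nat_lit 5) (nat_lit 356) (nat_lit 5) (nat_lit 599)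 (nat_lit 554) (nat_lit 407))) (XT.nd (nat_lit 78) (nat_lit 760) (nat_lit 0) (XT.lf (nat_lit 0) (nat_lit 3960615625) (nat_lit 760) (nat_lit 4338054391) (nat_lit 76) (nat_lit 5018371873) (nat_lit 346) (nat_lit 5) (nat_lit 356) (nat_lit 5) (nat_lit 347) (nat_lit 5) (nat_lit 600) (nat_lit 554) (nat_lit 406)) (XT.nd (nat_lit 78) (nat_lit 0) (nat_lit 0) (XT.lf (nat_lit 0) (nat_lit 3479037621) (nat_lit 760) (nat_lit 2819117340) (nat_lit 836) (nat_lit 7163189418) (nat_lit 336) (nat_lit 5) (nat_lit 346) (nat_lit 5) (nat_lit 347) (nat_lit 5) (nat_lit 601) (nat_lit 554) (nat_lit 405)) (XT.lf (nat_lit 0) (nat_lit 8717386445) (nat_lit 836) (nat_lit 2129113675) (nat_lit 76) (nat_lit 2761334610) (nat_lit 336) (nat_lit 5) (nat_lit 347) (nat_lit 5) (nat_lit 337) (nat_lit 5) (nat_lit 602) (nat_lit 554) (nat_lit 404))))) (XT.nd (nat_lit 156) (nat_lit 684) (nat_lit 0) (XT.nd (nat_lit 78) (nat_lit 684) (nat_lit 0) (XT.lf (nat_lit 0) (nat_lit 5926216346) (nat_lit 684) (nat_lit 5303827983) (nat_lit 760) (nat_lit 2526310348) (nat_lit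 327) (nat_lit 5) (nat_lit 336) (nat_lit 5) (nat_lit 337) (nat_lit 5) (nat_lit 603) (nat_lit 554) (nat_lit 403)) (XT.lf (nat_lit 0) (nat_lit 250762178) (nat_lit 684) (nat_lit 13548503700) (nat_lit 760) (nat_lit 108453549) (nat_lit 318) (nat_lit 5) (nat_lit 327) (nat_lit 5) (nat_lit 328) (nat_lit 5) (nat_lit 604) (nat_lit 554) (nat_lit 402))) (XT.nd (nat_lit 78) (nat_lit 608) (nat_lit 0) (XT.lf (nat_lit 0) (nat_lit 2402949525) (nat_lit 760) (nat_lit 5526602963) (nat_lit 76) (nat_lit 6130731177) (nat_lit 317) (nat_lit 5) (nat_lit 327) (nat_lit 5) (nat_lit 318) (nat_lit 5) (nat_lit 605) (nat_lit 554) (nat_lit 401)) (XT.nd (nat_lit 78) (nat_lit 0) (nat_lit 0) (XT.lf (nat_lit 0) (nat_lit 2788305522) (nat_lit 608) (nat_lit 2181255850) (nat_lit 684) (nat_lit 9246195401) (nat_lit 309) (nat_lit 5) (nat_lit 317) (nat_lit 5) (nat_lit 318) (nat_lit 5) (nat_lit 606) (nat_lit 554) (nat_lit 400)) (XT.lf (nat_lit 0) (nat_lit 7637195908) (nat_lit 684) (nat_lit 3067351240) (nat_lit 76) (nat_lit 3668798950) (nat_lit 309) (nat_lit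 5) (nat_lit 318) (nat_lit 5) (nat_lit 310) (nat_lit 5) (nat_lit 607) (nat_lit 554) (nat_lit 399))))))))
noncomputable def xc133 : XT := (XT.nd (nat_lit 77298) (nat_lit 0) (nat_lit 29336) (XT.nd (nat_lit 2730) (nat_lit 1900) (nat_lit 0) (XT.nd (nat_lit 2340) (nat_lit 1216) (nat_lit 0) (XT.nd (nat_lit 156) (nat_lit 9044) (nat_lit 0) (XT.nd (nat_lit 78) (nat_lit 0) (nat_lit 0) (XT.lf (nat_lit 0) (nat_lit 5503936833) (nat_lit 684) (nat_lit 4893105737) (nat_lit 760) (nat_lit 4136268008) (nat_lit 300) (nat_lit 5) (nat_lit 309) (nat_lit 5) (nat_lit 310) (nat_lit 5) (nat_lit 608) (nat_lit 554) (nat_lit 398)) (XT.lf (nat_lit 0) (nat_lit 13228319129) (nat_lit 760) (nat_lit 428558051) (nat_lit 76) (nat_lit 1039273053) (nat_lit 300) (nat_lit 5) (nat_lit 310) (nat_lit 5) (nat_lit 301) (nat_lit 5) (nat_lit 609) (nat_lit 554) (nat_lit 397))) (XT.nd (nat_lit 2028) (nat_lit 8360) (nat_lit 0) (XT.lf (nat_lit 0) (nat_lit 1314045582) (nat_lit 684) (nat_lit 6460822457) (nat_lit 76) (nat_lit 7085685989) (nat_lit 291) (nat_lit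 5) (nat_lit 300) (nat_lit 5) (nat_lit 292) (nat_lit 5) (nat_lit 610) (nat_lit 554) (nat_lit 396)) (XT.nd (nat_lit 78) (nat_lit 0) (nat_lit 0) (XT.lf (nat_lit 0) (nat_lit 5341764233) (nat_lit 380) (nat_lit 5243558966) (nat_lit 456) (nat_lit 9513458971) (nat_lit 181) (nat_lit 5) (nat_lit 186) (nat_lit 5) (nat_lit 187) (nat_lit 5) (nat_lit 636) (nat_lit 554) (nat_lit 370)) (XT.lf (nat_lit 0) (nat_lit 15384335708) (nat_lit 456) (nat_lit 2487363017) (nat_lit 76) (nat_lit 2470405874) (nat_lit 181) (nat_lit 5) (nat_lit 187) (nat_lit 5) (nat_lit 182) (nat_lit 5) (nat_lit 637) (nat_lit 554) (nat_lit 369))))) (XT.nd (nat_lit 156) (nat_lit 380) (nat_lit 0) (XT.nd (nat_lit 78) (nat_lit 456) (nat_lit 0) (XT.lf (nat_lit 0) (nat_lit 10113685516) (nat_lit 380) (nat_lit 10258170377) (nat_lit 456) (nat_lit 216587309) (nat_lit 176) (nat_lit 5) (nat_lit 181) (nat_lit 5) (nat_lit 182) (nat_lit 5) (nat_lit 638) (nat_lit 554) (nat_lit 368)) (XT.lf (nat_lit 0) (nat_lit 2147212599) (nat_lit 380) (nat_lit 2434526597) (nat_lit 456)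 (nat_lit 16256911679) (nat_lit 170) (nat_lit 5) (nat_lit 175) (nat_lit 5) (nat_lit 176) (nat_lit 5) (nat_lit 639) (nat_lit 554) (nat_lit 367))) (XT.nd (nat_lit 78) (nat_lit 380) (nat_lit 0) (XT.lf (nat_lit 0) (nat_lit 9572109736) (nat_lit 456) (nat_lit 5978745007) (nat_lit 76) (nat_lit 5541000031) (nat_lit 170) (nat_lit 5) (nat_lit 176) (nat_lit 5) (nat_lit 171) (nat_lit 5) (nat_lit 640) (nat_lit 554) (nat_lit 366)) (XT.nd (nat_lit 78) (nat_lit 0) (nat_lit 0) (XT.lf (nat_lit 0) (nat_lit 7052820594) (nat_lit 380) (nat_lit 7663746674) (nat_lit 456) (nat_lit 6632470142) (nat_lit 165) (nat_lit 5) (nat_lit 170) (nat_lit 5) (nat_lit 171) (nat_lit 5) (nat_lit 641) (nat_lit 554) (nat_lit 365)) (XT.lf (nat_lit 0) (nat_lit 19999186969) (nat_lit 456) (nat_lit 1199045609) (nat_lit 76) (nat_lit 412425908) (nat_lit 165) (nat_lit 5) (nat_lit 171) (nat_lit 5) (nat_lit 166) (nat_lit 5) (nat_lit 642) (nat_lit 554) (nat_lit 364)))))) (XT.nd (nat_lit 390) (nat_lit 304) (nat_lit 0) (XT.nd (nat_lit 156) (nat_lit 760) (nat_lit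 0) (XT.nd (nat_lit 78) (nat_lit 380) (nat_lit 0) (XT.lf (nat_lit 0) (nat_lit 3587632082) (nat_lit 456) (nat_lit 9640142351) (nat_lit 76) (nat_lit 8646807637) (nat_lit 159) (nat_lit 5) (nat_lit 165) (nat_lit 5) (nat_lit 160) (nat_lit 5) (nat_lit 643) (nat_lit 554) (nat_lit 363)) (XT.lf (nat_lit 0) (nat_lit 3837229209) (nat_lit 380) (nat_lit 5057527836) (nat_lit 456) (nat_lit 13248301939) (nat_lit 154) (nat_lit 5) (nat_lit 159) (nat_lit 5) (nat_lit 160) (nat_lit 5) (nat_lit 644) (nat_lit 554) (nat_lit 362))) (XT.nd (nat_lit 78) (nat_lit 760) (nat_lit 0) (XT.lf (nat_lit 0) (nat_lit 14387041020) (nat_lit 456) (nat_lit 4734128087) (nat_lit 76) (nat_lit 3294156226) (nat_lit 154) (nat_lit 5) (nat_lit 160) (nat_lit 5) (nat_lit 155) (nat_lit 5) (nat_lit 645) (nat_lit 554) (nat_lit 361)) (XT.nd (nat_lit 78) (nat_lit 456) (nat_lit 0) (XT.lf (nat_lit 0) (nat_lit 9184559312) (nat_lit 304) (nat_lit 10890508647) (nat_lit 380) (nat_lit 2616251329) (nat_lit 150) (nat_lit 5) (nat_lit 154) (nat_lit 5) (nat_lit 155) (nat_lit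 5) (nat_lit 646) (nat_lit 554) (nat_lit 360)) (XT.lf (nat_lit 0) (nat_lit 448985524) (nat_lit 380) (nat_lit 2444635971) (nat_lit 456) (nat_lit 20078281026) (nat_lit 144) (nat_lit 5) (nat_lit 149) (nat_lit 5) (nat_lit 150) (nat_lit 5) (nat_lit 647) (nat_lit 554) (nat_lit 359))))) (XT.nd (nat_lit 73944) (nat_lit 0) (nat_lit 32148) (XT.nd (nat_lit 78) (nat_lit 304) (nat_lit 0) (XT.lf (nat_lit 0) (nat_lit 8602823545) (nat_lit 456) (nat_lit 8458811454) (nat_lit 76) (nat_lit 6193633493) (nat_lit 144) (nat_lit 5) (nat_lit 150) (nat_lit 5) (nat_lit 145) (nat_lit 5) (nat_lit 648) (nat_lit 554) (nat_lit 358)) (XT.lf (nat_lit 0) (nat_lit 5937003129) (nat_lit 304) (nat_lit 8536915835) (nat_lit 380) (nat_lit 9069428840) (nat_lit 140) (nat_lit 5) (nat_lit 144) (nat_lit 5) (nat_lit 145) (nat_lit 5) (nat_lit 649) (nat_lit 554) (nat_lit 357))) (XT.nd (nat_lit 78) (nat_lit 0) (nat_lit 0) (XT.lf (nat_lit 0) (nat_lit 1134459402) (nat_lit 1596) (nat_lit 1628582641) (nat_lit 1596) (nat_lit 1628582641) (nat_lit 563) (nat_lit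 3) (nat_lit 584) (nat_lit 3) (nat_lit 584) (nat_lit 5) (nat_lit 555) (nat_lit 555) (nat_lit 450)) (XT.nd (nat_lit 78) (nat_lit 0) (nat_lit 76) (XT.lf (nat_lit 76) (nat_lit 1116608393) (nat_lit 0) (nat_lit 2140656565) (nat_lit 1596) (nat_lit 5594438289) (nat_lit 564) (nat_lit 5) (nat_lit 563) (nat_lit 3) (nat_lit 584) (nat_lit 5) (nat_lit 556) (nat_lit 555) (nat_lit 449)) (XT.lf (nat_lit 0) (nat_lit 4270757262) (nat_lit 1520) (nat_lit 3321323960) (nat_lit 1596) (nat_lit 1329339116) (nat_lit 564) (nat_lit 5) (nat_lit 584) (nat_lit 5) (nat_lit 585) (nat_lit 5) (nat_lit 557) (nat_lit 555) (nat_lit 448))))))) (XT.nd (nat_lit 780) (nat_lit 1444) (nat_lit 0) (XT.nd (nat_lit 390) (nat_lit 0) (nat_lit 0) (XT.nd (nat_lit 156) (nat_lit 1444) (nat_lit 0) (XT.nd (nat_lit 78) (nat_lit 0) (nat_lit 0) (XT.lf (nat_lit 76) (nat_lit 1168559989) (nat_lit 0) (nat_lit 4133071741) (nat_lit 1596) (nat_lit 3690959477) (nat_lit 565) (nat_lit 5) (nat_lit 564) (nat_lit 5) (nat_lit 585) (nat_lit 5) (nat_lit 558) (nat_lit 555) (nat_lit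 447)) (XT.lf (nat_lit 76) (nat_lit 5780038911) (nat_lit 0) (nat_lit 571118827) (nat_lit 1596) (nat_lit 2714068726) (nat_lit 565) (nat_lit 5) (nat_lit 564) (nat_lit 5) (nat_lit 585) (nat_lit 5) (nat_lit 559) (nat_lit 555) (nat_lit 446))) (XT.nd (nat_lit 78) (nat_lit 1520) (nat_lit 0) (XT.lf (nat_lit 76) (nat_lit 1328462782) (nat_lit 0) (nat_lit 6098009746) (nat_lit 1596) (nat_lit 1712747551) (nat_lit 566) (nat_lit 5) (nat_lit 565) (nat_lit 5) (nat_lit 586) (nat_lit 5) (nat_lit 560) (nat_lit 555) (nat_lit 445)) (XT.nd (nat_lit 78) (nat_lit 1520) (nat_lit 0) (XT.lf (nat_lit 76) (nat_lit 6061661874) (nat_lit 0) (nat_lit 2464104137) (nat_lit 1596) (nat_lit 688879693) (nat_lit 566) (nat_lit 5) (nat_lit 565) (nat_lit 5) (nat_lit 586) (nat_lit 5) (nat_lit 561) (nat_lit 555) (nat_lit 444)) (XT.lf (nat_lit 0) (nat_lit 346399960) (nat_lit 1596) (nat_lit 7696805087) (nat_lit 1672) (nat_lit 1248418234) (nat_lit 545) (nat_lit 5) (nat_lit 566) (nat_lit 5) (nat_lit 567) (nat_lit 5) (nat_lit 562) (nat_lit 555) (nat_lit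 443))))) (XT.nd (nat_lit 156) (nat_lit 0) (nat_lit 76) (XT.nd (nat_lit 78) (nat_lit 0) (nat_lit 0) (XT.lf (nat_lit 0) (nat_lit 1408185636) (nat_lit 1596) (nat_lit 2924316299) (nat_lit 1672) (nat_lit 5037248409) (nat_lit 545) (nat_lit 5) (nat_lit 566) (nat_lit 5) (nat_lit 567) (nat_lit 5) (nat_lit 563) (nat_lit 555) (nat_lit 442)) (XT.lf (nat_lit 76) (nat_lit 1955649358) (nat_lit 0) (nat_lit 526097230) (nat_lit 1672) (nat_lit 6967884034) (nat_lit 546) (nat_lit 5) (nat_lit 545) (nat_lit 5) (nat_lit 567) (nat_lit 5) (nat_lit 564) (nat_lit 555) (nat_lit 441))) (XT.nd (nat_lit 78) (nat_lit 0) (nat_lit 0) (XT.lf (nat_lit 0) (nat_lit 3596567177) (nat_lit 1596) (nat_lit 2593807390) (nat_lit 1672) (nat_lit 3340339607) (nat_lit 546) (nat_lit 5) (nat_lit 567) (nat_lit 5) (nat_lit 568) (nat_lit 5) (nat_lit 565) (nat_lit 555) (nat_lit 440)) (XT.nd (nat_lit 78) (nat_lit 0) (nat_lit 76) (XT.lf (nat_lit 76) (nat_lit 2418861243) (nat_lit 0) (nat_lit 2312681043) (nat_lit 1672) (nat_lit 4881921358) (nat_lit 547) (nat_lit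 5) (nat_lit 546) (nat_lit 5) (nat_lit 568) (nat_lit 5) (nat_lit 566) (nat_lit 555) (nat_lit 439)) (XT.lf (nat_lit 0) (nat_lit 5896449032) (nat_lit 1596) (nat_lit 2155483962) (nat_lit 1672) (nat_lit 1645791849) (nat_lit 547) (nat_lit 5) (nat_lit 568) (nat_lit 5) (nat_lit 569) (nat_lit 5) (nat_lit 567) (nat_lit 555) (nat_lit 438)))))) (XT.nd (nat_lit 390) (nat_lit 0) (nat_lit 76) (XT.nd (nat_lit 156) (nat_lit 1596) (nat_lit 0) (XT.nd (nat_lit 78) (nat_lit 0) (nat_lit 0) (XT.lf (nat_lit 76) (nat_lit 2994524745) (nat_lit 0) (nat_lit 4104344652) (nat_lit 1672) (nat_lit 2684518912) (nat_lit 548) (nat_lit 5) (nat_lit 547) (nat_lit 5) (nat_lit 569) (nat_lit 5) (nat_lit 568) (nat_lit 555) (nat_lit 437)) (XT.lf (nat_lit 76) (nat_lit 8262992836) (nat_lit 0) (nat_lit 56580508) (nat_lit 1672) (nat_lit 1551308325) (nat_lit 548) (nat_lit 5) (nat_lit 547) (nat_lit 5) (nat_lit 569) (nat_lit 5) (nat_lit 569) (nat_lit 555) (nat_lit 436))) (XT.nd (nat_lit 78) (nat_lit 1672) (nat_lit 0) (XT.lf (nat_lit 76) (nat_lit 3684663081)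 (nat_lit 0) (nat_lit 5910599172) (nat_lit 1672) (nat_lit 364252527) (nat_lit 549) (nat_lit 5) (nat_lit 548) (nat_lit 5) (nat_lit 570) (nat_lit 5) (nat_lit 570) (nat_lit 555) (nat_lit 435)) (XT.nd (nat_lit 78) (nat_lit 0) (nat_lit 76) (XT.lf (nat_lit 0) (nat_lit 827054202) (nat_lit 1672) (nat_lit 964884560) (nat_lit 1748) (nat_lit 8258040869) (nat_lit 526) (nat_lit 5) (nat_lit 548) (nat_lit 5) (nat_lit 549) (nat_lit 5) (nat_lit 571) (nat_lit 555) (nat_lit 434)) (XT.lf (nat_lit 0) (nat_lit 2063139276) (nat_lit 1672) (nat_lit 5663906952) (nat_lit 1748) (nat_lit 2414644031) (nat_lit 527) (nat_lit 5) (nat_lit 549) (nat_lit 5) (nat_lit 550) (nat_lit 5) (nat_lit 572) (nat_lit 555) (nat_lit 433))))) (XT.nd (nat_lit 234) (nat_lit 0) (nat_lit 76) (XT.nd (nat_lit 78) (nat_lit 0) (nat_lit 76) (XT.lf (nat_lit 0) (nat_lit 3323414157) (nat_lit 1672) (nat_lit 218777257) (nat_lit 1748) (nat_lit 6693055527) (nat_lit 527) (nat_lit 5) (nat_lit 549) (nat_lit 5) (nat_lit 550) (nat_lit 5) (nat_lit 573) (nat_lit 555) (nat_lit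 432)) (XT.nd (nat_lit 78) (nat_lit 0) (nat_lit 0) (XT.lf (nat_lit 0) (nat_lit 4630336010) (nat_lit 1672) (nat_lit 4943219507) (nat_lit 1748) (nat_lit 756691589) (nat_lit 528) (nat_lit 5) (nat_lit 550) (nat_lit 5) (nat_lit 551) (nat_lit 5) (nat_lit 574) (nat_lit 555) (nat_lit 431)) (XT.lf (nat_lit 76) (nat_lit 651702879) (nat_lit 0) (nat_lit 5322618258) (nat_lit 1748) (nat_lit 4452608795) (nat_lit 529) (nat_lit 5) (nat_lit 528) (nat_lit 5) (nat_lit 551) (nat_lit 5) (nat_lit 575) (nat_lit 555) (nat_lit 430)))) (XT.nd (nat_lit 78) (nat_lit 0) (nat_lit 76) (XT.lf (nat_lit 76) (nat_lit 6411450994) (nat_lit 0) (nat_lit 948930357) (nat_lit 1748) (nat_lit 3164862290) (nat_lit 529) (nat_lit 5) (nat_lit 528) (nat_lit 5) (nat_lit 551) (nat_lit 5) (nat_lit 576) (nat_lit 555) (nat_lit 429)) (XT.nd (nat_lit 78) (nat_lit 0) (nat_lit 0) (XT.lf (nat_lit 76) (nat_lit 1645465602) (nat_lit 0) (nat_lit 7144585415) (nat_lit 1748) (nat_lit 1835155953) (nat_lit 530) (nat_lit 5) (nat_lit 529) (nat_lit 5) (nat_lit 552) (nat_lit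 5) (nat_lit 577) (nat_lit 555) (nat_lit 428)) (XT.lf (nat_lit 76) (nat_lit 7555216352) (nat_lit 0) (nat_lit 2709601066) (nat_lit 1748) (nat_lit 462023169) (nat_lit 530) (nat_lit 5) (nat_lit 529) (nat_lit 5) (nat_lit 552) (nat_lit 5) (nat_lit 578) (nat_lit 555) (nat_lit 427))))))))
noncomputable def xc134 : XT := (XT.nd (nat_lit 1560) (nat_lit 14516) (nat_lit 0) (XT.nd (nat_lit 780) (nat_lit 4940) (nat_lit 0) (XT.nd (nat_lit 390) (nat_lit 2964) (nat_lit 0) (XT.nd (nat_lit 156) (nat_lit 3572) (nat_lit 0) (XT.nd (nat_lit 78) (nat_lit 0) (nat_lit 0) (XT.lf (nat_lit 0) (nat_lit 939078560) (nat_lit 1748) (nat_lit 8073492033) (nat_lit 76) (nat_lit 1817559138) (nat_lit 507) (nat_lit 5) (nat_lit 530) (nat_lit 5) (nat_lit 508) (nat_lit 5) (nat_lit 579) (nat_lit 555) (nat_lit 426)) (XT.lf (nat_lit 0) (nat_lit 2384535407) (nat_lit 1748) (nat_lit 2124052816) (nat_lit 76) (nat_lit 6426385990) (nat_lit 507) (nat_lit 5) (nat_lit 530) (nat_lit 5) (nat_lit 508) (nat_lit 5) (nat_lit 580) (nat_lit 555) (nat_lit 425))) (XT.nd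 (nat_lit 78) (nat_lit 1824) (nat_lit 0) (XT.lf (nat_lit 0) (nat_lit 3868977058) (nat_lit 1824) (nat_lit 7059890188) (nat_lit 76) (nat_lit 112847831) (nat_lit 484) (nat_lit 5) (nat_lit 508) (nat_lit 5) (nat_lit 485) (nat_lit 5) (nat_lit 581) (nat_lit 555) (nat_lit 424)) (XT.nd (nat_lit 78) (nat_lit 1824) (nat_lit 0) (XT.lf (nat_lit 0) (nat_lit 5411038183) (nat_lit 1824) (nat_lit 955921184) (nat_lit 76) (nat_lit 4783073766) (nat_lit 484) (nat_lit 5) (nat_lit 508) (nat_lit 5) (nat_lit 485) (nat_lit 5) (nat_lit 582) (nat_lit 555) (nat_lit 423)) (XT.lf (nat_lit 0) (nat_lit 5325983186) (nat_lit 1824) (nat_lit 1676580819) (nat_lit 1900) (nat_lit 4257582040) (nat_lit 460) (nat_lit 5) (nat_lit 484) (nat_lit 5) (nat_lit 485) (nat_lit 5) (nat_lit 583) (nat_lit 555) (nat_lit 422))))) (XT.nd (nat_lit 156) (nat_lit 1900) (nat_lit 0) (XT.nd (nat_lit 78) (nat_lit 0) (nat_lit 0) (XT.lf (nat_lit 0) (nat_lit 344215134) (nat_lit 1064) (nat_lit 8294852081) (nat_lit 1140) (nat_lit 2733132013) (nat_lit 446) (nat_lit 5) (nat_lit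 460) (nat_lit 5) (nat_lit 461) (nat_lit 5) (nat_lit 584) (nat_lit 555) (nat_lit 421)) (XT.lf (nat_lit 0) (nat_lit 6803212037) (nat_lit 1064) (nat_lit 3540434577) (nat_lit 1140) (nat_lit 1142140868) (nat_lit 446) (nat_lit 5) (nat_lit 460) (nat_lit 5) (nat_lit 461) (nat_lit 5) (nat_lit 585) (nat_lit 555) (nat_lit 420))) (XT.nd (nat_lit 78) (nat_lit 912) (nat_lit 0) (XT.lf (nat_lit 0) (nat_lit 479329966) (nat_lit 988) (nat_lit 9814151332) (nat_lit 76) (nat_lit 1308005401) (nat_lit 433) (nat_lit 5) (nat_lit 446) (nat_lit 5) (nat_lit 434) (nat_lit 5) (nat_lit 586) (nat_lit 555) (nat_lit 419)) (XT.nd (nat_lit 78) (nat_lit 912) (nat_lit 0) (XT.lf (nat_lit 0) (nat_lit 2157942192) (nat_lit 988) (nat_lit 3314253660) (nat_lit 76) (nat_lit 6246353828) (nat_lit 433) (nat_lit 5) (nat_lit 446) (nat_lit 5) (nat_lit 434) (nat_lit 5) (nat_lit 587) (nat_lit 555) (nat_lit 418)) (XT.lf (nat_lit 0) (nat_lit 3345517437) (nat_lit 912) (nat_lit 531540069) (nat_lit 988) (nat_lit 7960758656) (nat_lit 421) (nat_lit 5) (nat_lit 433)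 (nat_lit 5) (nat_lit 434) (nat_lit 5) (nat_lit 588) (nat_lit 555) (nat_lit 417)))))) (XT.nd (nat_lit 390) (nat_lit 2356) (nat_lit 0) (XT.nd (nat_lit 156) (nat_lit 1748) (nat_lit 0) (XT.nd (nat_lit 78) (nat_lit 836) (nat_lit 0) (XT.lf (nat_lit 0) (nat_lit 5667624915) (nat_lit 988) (nat_lit 1819235935) (nat_lit 76) (nat_lit 4471866572) (nat_lit 421) (nat_lit 5) (nat_lit 434) (nat_lit 5) (nat_lit 422) (nat_lit 5) (nat_lit 589) (nat_lit 555) (nat_lit 416)) (XT.lf (nat_lit 0) (nat_lit 5035886541) (nat_lit 836) (nat_lit 2480033234) (nat_lit 912) (nat_lit 4565699633) (nat_lit 410) (nat_lit 5) (nat_lit 421) (nat_lit 5) (nat_lit 422) (nat_lit 5) (nat_lit 590) (nat_lit 555) (nat_lit 415))) (XT.nd (nat_lit 78) (nat_lit 1748) (nat_lit 0) (XT.lf (nat_lit 0) (nat_lit 9416417185) (nat_lit 912) (nat_lit 185211154) (nat_lit 76) (nat_lit 2605036971) (nat_lit 410) (nat_lit 5) (nat_lit 422) (nat_lit 5) (nat_lit 411) (nat_lit 5) (nat_lit 591) (nat_lit 555) (nat_lit 414)) (XT.nd (nat_lit 78) (nat_lit 912) (nat_lit 0) (XT.lf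 (nat_lit 0) (nat_lit 6872385241) (nat_lit 836) (nat_lit 4529752069) (nat_lit 912) (nat_lit 931131359) (nat_lit 399) (nat_lit 5) (nat_lit 410) (nat_lit 5) (nat_lit 411) (nat_lit 5) (nat_lit 592) (nat_lit 555) (nat_lit 413)) (XT.lf (nat_lit 0) (nat_lit 954783580) (nat_lit 912) (nat_lit 10854418342) (nat_lit 76) (nat_lit 653032121) (nat_lit 387) (nat_lit 5) (nat_lit 399) (nat_lit 5) (nat_lit 388) (nat_lit 5) (nat_lit 593) (nat_lit 555) (nat_lit 412))))) (XT.nd (nat_lit 156) (nat_lit 1520) (nat_lit 0) (XT.nd (nat_lit 78) (nat_lit 836) (nat_lit 0) (XT.lf (nat_lit 0) (nat_lit 2919284132) (nat_lit 912) (nat_lit 3751655751) (nat_lit 76) (nat_lit 5921649792) (nat_lit 387) (nat_lit 5) (nat_lit 399) (nat_lit 5) (nat_lit 388) (nat_lit 5) (nat_lit 594) (nat_lit 555) (nat_lit 411)) (XT.lf (nat_lit 0) (nat_lit 3525562254) (nat_lit 836) (nat_lit 1407105731) (nat_lit 912) (nat_lit 7792693301) (nat_lit 376) (nat_lit 5) (nat_lit 387) (nat_lit 5) (nat_lit 388) (nat_lit 5) (nat_lit 595) (nat_lit 555) (nat_lit 410))) (XT.nd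 (nat_lit 78) (nat_lit 1520) (nat_lit 0) (XT.lf (nat_lit 0) (nat_lit 7024256226) (nat_lit 912) (nat_lit 1901002580) (nat_lit 76) (nat_lit 3934771507) (nat_lit 376) (nat_lit 5) (nat_lit 388) (nat_lit 5) (nat_lit 377) (nat_lit 5) (nat_lit 596) (nat_lit 555) (nat_lit 409)) (XT.nd (nat_lit 78) (nat_lit 760) (nat_lit 0) (XT.lf (nat_lit 0) (nat_lit 5594086938) (nat_lit 760) (nat_lit 3596356275) (nat_lit 836) (nat_lit 3806294872) (nat_lit 366) (nat_lit 5) (nat_lit 376) (nat_lit 5) (nat_lit 377) (nat_lit 5) (nat_lit 597) (nat_lit 555) (nat_lit 408)) (XT.lf (nat_lit 0) (nat_lit 104375366) (nat_lit 760) (nat_lit 11308323918) (nat_lit 836) (nat_lit 1723226513) (nat_lit 356) (nat_lit 5) (nat_lit 366) (nat_lit 5) (nat_lit 367) (nat_lit 5) (nat_lit 598) (nat_lit 555) (nat_lit 407))))))) (XT.nd (nat_lit 780) (nat_lit 10944) (nat_lit 0) (XT.nd (nat_lit 390) (nat_lit 2052) (nat_lit 0) (XT.nd (nat_lit 156) (nat_lit 760) (nat_lit 0) (XT.nd (nat_lit 78) (nat_lit 684) (nat_lit 0) (XT.lf (nat_lit 0) (nat_lit 457420560) (nat_lit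 836) (nat_lit 5455736622) (nat_lit 76) (nat_lit 7363464946) (nat_lit 355) (nat_lit 5) (nat_lit 366) (nat_lit 5) (nat_lit 356) (nat_lit 5) (nat_lit 599) (nat_lit 555) (nat_lit 406)) (XT.lf (nat_lit 0) (nat_lit 2276342444) (nat_lit 684) (nat_lit 384674580) (nat_lit 760) (nat_lit 10758839994) (nat_lit 346) (nat_lit 5) (nat_lit 355) (nat_lit 5) (nat_lit 356) (nat_lit 5) (nat_lit 600) (nat_lit 555) (nat_lit 405))) (XT.nd (nat_lit 78) (nat_lit 760) (nat_lit 0) (XT.lf (nat_lit 0) (nat_lit 4967408751) (nat_lit 760) (nat_lit 3376404665) (nat_lit 76) (nat_lit 5220969359) (nat_lit 346) (nat_lit 5) (nat_lit 356) (nat_lit 5) (nat_lit 347) (nat_lit 5) (nat_lit 601) (nat_lit 555) (nat_lit 404)) (XT.nd (nat_lit 78) (nat_lit 0) (nat_lit 0) (XT.lf (nat_lit 0) (nat_lit 4590131748) (nat_lit 760) (nat_lit 2750141463) (nat_lit 836) (nat_lit 6371927565) (nat_lit 336) (nat_lit 5) (nat_lit 346) (nat_lit 5) (nat_lit 347) (nat_lit 5) (nat_lit 602) (nat_lit 555) (nat_lit 403)) (XT.lf (nat_lit 0) (nat_lit 9790723447) (nat_lit 836)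 (nat_lit 1133392070) (nat_lit 76) (nat_lit 2937849663) (nat_lit 336) (nat_lit 5) (nat_lit 347) (nat_lit 5) (nat_lit 337) (nat_lit 5) (nat_lit 603) (nat_lit 555) (nat_lit 402))))) (XT.nd (nat_lit 156) (nat_lit 608) (nat_lit 0) (XT.nd (nat_lit 78) (nat_lit 760) (nat_lit 0) (XT.lf (nat_lit 0) (nat_lit 7076213605) (nat_lit 684) (nat_lit 5266490650) (nat_lit 760) (nat_lit 1670970787) (nat_lit 327) (nat_lit 5) (nat_lit 336) (nat_lit 5) (nat_lit 337) (nat_lit 5) (nat_lit 604) (nat_lit 555) (nat_lit 401)) (XT.lf (nat_lit 0) (nat_lit 775009769) (nat_lit 760) (nat_lit 12876132580) (nat_lit 76) (nat_lit 517018421) (nat_lit 317) (nat_lit 5) (nat_lit 327) (nat_lit 5) (nat_lit 318) (nat_lit 5) (nat_lit 605) (nat_lit 555) (nat_lit 400))) (XT.nd (nat_lit 78) (nat_lit 608) (nat_lit 0) (XT.lf (nat_lit 0) (nat_lit 3317853176) (nat_lit 760) (nat_lit 4604541318) (nat_lit 76) (nat_lit 6401715031) (nat_lit 317) (nat_lit 5) (nat_lit 327) (nat_lit 5) (nat_lit 318) (nat_lit 5) (nat_lit 606) (nat_lit 555) (nat_lit 399)) (XT.nd (nat_lit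 78) (nat_lit 0) (nat_lit 0) (XT.lf (nat_lit 0) (nat_lit 3869871958) (nat_lit 608) (nat_lit 2055588525) (nat_lit 684) (nat_lit 8557439189) (nat_lit 309) (nat_lit 5) (nat_lit 317) (nat_lit 5) (nat_lit 318) (nat_lit 5) (nat_lit 607) (nat_lit 555) (nat_lit 398)) (XT.lf (nat_lit 0) (nat_lit 8630731044) (nat_lit 684) (nat_lit 2107253752) (nat_lit 76) (nat_lit 3905971146) (nat_lit 309) (nat_lit 5) (nat_lit 318) (nat_lit 5) (nat_lit 310) (nat_lit 5) (nat_lit 608) (nat_lit 555) (nat_lit 397)))))) (XT.nd (nat_lit 2262) (nat_lit 1216) (nat_lit 0) (XT.nd (nat_lit 2028) (nat_lit 8436) (nat_lit 0) (XT.nd (nat_lit 78) (nat_lit 608) (nat_lit 0) (XT.lf (nat_lit 0) (nat_lit 6628740053) (nat_lit 684) (nat_lit 4807136749) (nat_lit 760) (nat_lit 3371441676) (nat_lit 300) (nat_lit 5) (nat_lit 309) (nat_lit 5) (nat_lit 310) (nat_lit 5) (nat_lit 609) (nat_lit 555) (nat_lit 396)) (XT.lf (nat_lit 0) (nat_lit 580473251) (nat_lit 608) (nat_lit 13731952580) (nat_lit 684) (nat_lit 661216948) (nat_lit 292) (nat_lit 5) (nat_lit 300) (nat_lit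 5) (nat_lit 301) (nat_lit 5) (nat_lit 610) (nat_lit 555) (nat_lit 395))) (XT.nd (nat_lit 78) (nat_lit 380) (nat_lit 0) (XT.lf (nat_lit 0) (nat_lit 1772371136) (nat_lit 456) (nat_lit 268284335) (nat_lit 532) (nat_lit 17963256832) (nat_lit 186) (nat_lit 5) (nat_lit 192) (nat_lit 5) (nat_lit 193) (nat_lit 5) (nat_lit 635) (nat_lit 555) (nat_lit 370)) (XT.nd (nat_lit 78) (nat_lit 380) (nat_lit 0) (XT.lf (nat_lit 0) (nat_lit 6651980690) (nat_lit 532) (nat_lit 6101269215) (nat_lit 76) (nat_lit 7491085444) (nat_lit 186) (nat_lit 5) (nat_lit 193) (nat_lit 5) (nat_lit 187) (nat_lit 5) (nat_lit 636) (nat_lit 555) (nat_lit 369)) (XT.lf (nat_lit 0) (nat_lit 6341368869) (nat_lit 380) (nat_lit 5049351903) (nat_lit 456) (nat_lit 9098142591) (nat_lit 181) (nat_lit 5) (nat_lit 186) (nat_lit 5) (nat_lit 187) (nat_lit 5) (nat_lit 637) (nat_lit 555) (nat_lit 368))))) (XT.nd (nat_lit 234) (nat_lit 380) (nat_lit 0) (XT.nd (nat_lit 78) (nat_lit 836) (nat_lit 0) (XT.lf (nat_lit 0) (nat_lit 16275976268) (nat_lit 456) (nat_lit 1652088722)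 (nat_lit 76) (nat_lit 2809182401) (nat_lit 181) (nat_lit 5) (nat_lit 187) (nat_lit 5) (nat_lit 182) (nat_lit 5) (nat_lit 638) (nat_lit 555) (nat_lit 367)) (XT.nd (nat_lit 78) (nat_lit 380) (nat_lit 0) (XT.lf (nat_lit 0) (nat_lit 364039238) (nat_lit 456) (nat_lit 9795864720) (nat_lit 76) (nat_lit 10828676138) (nat_lit 175) (nat_lit 5) (nat_lit 181) (nat_lit 5) (nat_lit 176) (nat_lit 5) (nat_lit 639) (nat_lit 555) (nat_lit 366)) (XT.lf (nat_lit 0) (nat_lit 3071275396) (nat_lit 380) (nat_lit 2178467332) (nat_lit 456) (nat_lit 15994134733) (nat_lit 170) (nat_lit 5) (nat_lit 175) (nat_lit 5) (nat_lit 176) (nat_lit 5) (nat_lit 640) (nat_lit 555) (nat_lit 365)))) (XT.nd (nat_lit 78) (nat_lit 380) (nat_lit 0) (XT.lf (nat_lit 0) (nat_lit 10330559171) (nat_lit 456) (nat_lit 5225098006) (nat_lit 76) (nat_lit 5946675863) (nat_lit 170) (nat_lit 5) (nat_lit 176) (nat_lit 5) (nat_lit 171) (nat_lit 5) (nat_lit 641) (nat_lit 555) (nat_lit 364)) (XT.nd (nat_lit 78) (nat_lit 0) (nat_lit 0) (XT.lf (nat_lit 0) (nat_lit 8061354026)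 (nat_lit 380) (nat_lit 7511066276) (nat_lit 456) (nat_lit 6192349106) (nat_lit 165) (nat_lit 5) (nat_lit 170) (nat_lit 5) (nat_lit 171) (nat_lit 5) (nat_lit 642) (nat_lit 555) (nat_lit 363)) (XT.lf (nat_lit 0) (nat_lit 20951629682) (nat_lit 456) (nat_lit 363478182) (nat_lit 76) (nat_lit 716696654) (nat_lit 165) (nat_lit 5) (nat_lit 171) (nat_lit 5) (nat_lit 166) (nat_lit 5) (nat_lit 643) (nat_lit 555) (nat_lit 362))))))))
noncomputable def xc135 : XT := (XT.nd (nat_lit 75348) (nat_lit 0) (nat_lit 21356) (XT.nd (nat_lit 74568) (nat_lit 0) (nat_lit 30704) (XT.nd (nat_lit 390) (nat_lit 304) (nat_lit 0) (XT.nd (nat_lit 156) (nat_lit 760) (nat_lit 0) (XT.nd (nat_lit 78) (nat_lit 380) (nat_lit 0) (XT.lf (nat_lit 0) (nat_lit 4210196232) (nat_lit 456) (nat_lit 8971714526) (nat_lit 76) (nat_lit 9119129463) (nat_lit 159) (nat_lit 5) (nat_lit 165) (nat_lit 5) (nat_lit 160) (nat_lit 5) (nat_lit 644) (nat_lit 555) (nat_lit 361)) (XT.lf (nat_lit 0) (nat_lit 4769538474) (nat_lit 380) (nat_lit 4848679888) (nat_lit 456)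 (nat_lit 12956773556) (nat_lit 154) (nat_lit 5) (nat_lit 159) (nat_lit 5) (nat_lit 160) (nat_lit 5) (nat_lit 645) (nat_lit 555) (nat_lit 360))) (XT.nd (nat_lit 78) (nat_lit 760) (nat_lit 0) (XT.lf (nat_lit 0) (nat_lit 15211623891) (nat_lit 456) (nat_lit 3981281031) (nat_lit 76) (nat_lit 3659973487) (nat_lit 154) (nat_lit 5) (nat_lit 160) (nat_lit 5) (nat_lit 155) (nat_lit 5) (nat_lit 646) (nat_lit 555) (nat_lit 359)) (XT.nd (nat_lit 78) (nat_lit 456) (nat_lit 0) (XT.lf (nat_lit 0) (nat_lit 10210204263) (nat_lit 304) (nat_lit 10798147313) (nat_lit 380) (nat_lit 2126142188) (nat_lit 150) (nat_lit 5) (nat_lit 154) (nat_lit 5) (nat_lit 155) (nat_lit 5) (nat_lit 647) (nat_lit 555) (nat_lit 358)) (XT.lf (nat_lit 0) (nat_lit 1301462989) (nat_lit 380) (nat_lit 2180331057) (nat_lit 456) (nat_lit 19938924889) (nat_lit 144) (nat_lit 5) (nat_lit 149) (nat_lit 5) (nat_lit 150) (nat_lit 5) (nat_lit 648) (nat_lit 555) (nat_lit 357))))) (XT.nd (nat_lit 73944) (nat_lit 0) (nat_lit 32148) (XT.nd (nat_lit 78) (nat_lit 304)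 (nat_lit 0) (XT.lf (nat_lit 0) (nat_lit 9296775711) (nat_lit 456) (nat_lit 7792609346) (nat_lit 76) (nat_lit 6620535565) (nat_lit 144) (nat_lit 5) (nat_lit 150) (nat_lit 5) (nat_lit 145) (nat_lit 5) (nat_lit 649) (nat_lit 555) (nat_lit 356)) (XT.lf (nat_lit 0) (nat_lit 6885625619) (nat_lit 304) (nat_lit 8394822317) (nat_lit 380) (nat_lit 8723410785) (nat_lit 140) (nat_lit 5) (nat_lit 144) (nat_lit 5) (nat_lit 145) (nat_lit 5) (nat_lit 650) (nat_lit 555) (nat_lit 355))) (XT.nd (nat_lit 78) (nat_lit 0) (nat_lit 0) (XT.lf (nat_lit 0) (nat_lit 2109333179) (nat_lit 1596) (nat_lit 1175507628) (nat_lit 1596) (nat_lit 1175507628) (nat_lit 563) (nat_lit 3) (nat_lit 584) (nat_lit 3) (nat_lit 584) (nat_lit 5) (nat_lit 556) (nat_lit 556) (nat_lit 448)) (XT.nd (nat_lit 78) (nat_lit 0) (nat_lit 76) (XT.lf (nat_lit 76) (nat_lit 2103843804) (nat_lit 0) (nat_lit 3091859852) (nat_lit 1596) (nat_lit 3795440240) (nat_lit 564) (nat_lit 5) (nat_lit 563) (nat_lit 3) (nat_lit 584) (nat_lit 5) (nat_lit 557) (nat_lit 556) (nat_lit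 447)) (XT.lf (nat_lit 0) (nat_lit 6186952336) (nat_lit 1520) (nat_lit 2399128350) (nat_lit 1596) (nat_lit 477027413) (nat_lit 564) (nat_lit 5) (nat_lit 584) (nat_lit 5) (nat_lit 585) (nat_lit 5) (nat_lit 558) (nat_lit 556) (nat_lit 446)))))) (XT.nd (nat_lit 390) (nat_lit 0) (nat_lit 76) (XT.nd (nat_lit 156) (nat_lit 1520) (nat_lit 0) (XT.nd (nat_lit 78) (nat_lit 0) (nat_lit 0) (XT.lf (nat_lit 76) (nat_lit 2174049185) (nat_lit 0) (nat_lit 5034874025) (nat_lit 1596) (nat_lit 1927372050) (nat_lit 565) (nat_lit 5) (nat_lit 564) (nat_lit 5) (nat_lit 585) (nat_lit 5) (nat_lit 559) (nat_lit 556) (nat_lit 445)) (XT.lf (nat_lit 76) (nat_lit 6858500469) (nat_lit 0) (nat_lit 1385620467) (nat_lit 1596) (nat_lit 966971064) (nat_lit 565) (nat_lit 5) (nat_lit 564) (nat_lit 5) (nat_lit 585) (nat_lit 5) (nat_lit 560) (nat_lit 556) (nat_lit 444))) (XT.nd (nat_lit 78) (nat_lit 0) (nat_lit 0) (XT.lf (nat_lit 0) (nat_lit 20175199) (nat_lit 1596) (nat_lit 6935422019) (nat_lit 1672) (nat_lit 2331633282) (nat_lit 544) (nat_lit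 5) (nat_lit 565) (nat_lit 5) (nat_lit 566) (nat_lit 5) (nat_lit 561) (nat_lit 556) (nat_lit 443)) (XT.nd (nat_lit 78) (nat_lit 0) (nat_lit 76) (XT.lf (nat_lit 0) (nat_lit 1016622355) (nat_lit 1596) (nat_lit 2211277739) (nat_lit 1672) (nat_lit 6136815224) (nat_lit 544) (nat_lit 5) (nat_lit 565) (nat_lit 5) (nat_lit 566) (nat_lit 5) (nat_lit 562) (nat_lit 556) (nat_lit 442)) (XT.lf (nat_lit 0) (nat_lit 2031836927) (nat_lit 1596) (nat_lit 6818871299) (nat_lit 1672) (nat_lit 593066303) (nat_lit 545) (nat_lit 5) (nat_lit 566) (nat_lit 5) (nat_lit 567) (nat_lit 5) (nat_lit 563) (nat_lit 556) (nat_lit 441))))) (XT.nd (nat_lit 156) (nat_lit 0) (nat_lit 76) (XT.nd (nat_lit 78) (nat_lit 0) (nat_lit 0) (XT.lf (nat_lit 0) (nat_lit 3081946376) (nat_lit 1596) (nat_lit 1971165478) (nat_lit 1672) (nat_lit 4471012694) (nat_lit 545) (nat_lit 5) (nat_lit 566) (nat_lit 5) (nat_lit 567) (nat_lit 5) (nat_lit 564) (nat_lit 556) (nat_lit 440)) (XT.lf (nat_lit 76) (nat_lit 2999743984) (nat_lit 0) (nat_lit 1151492962) (nat_lit 1672)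 (nat_lit 5454882453) (nat_lit 546) (nat_lit 5) (nat_lit 545) (nat_lit 5) (nat_lit 567) (nat_lit 5) (nat_lit 565) (nat_lit 556) (nat_lit 439))) (XT.nd (nat_lit 78) (nat_lit 0) (nat_lit 0) (XT.lf (nat_lit 0) (nat_lit 5252678185) (nat_lit 1596) (nat_lit 1624627026) (nat_lit 1672) (nat_lit 2812235019) (nat_lit 546) (nat_lit 5) (nat_lit 567) (nat_lit 5) (nat_lit 568) (nat_lit 5) (nat_lit 566) (nat_lit 556) (nat_lit 438)) (XT.nd (nat_lit 78) (nat_lit 0) (nat_lit 76) (XT.lf (nat_lit 76) (nat_lit 3481577503) (nat_lit 0) (nat_lit 2904298709) (nat_lit 1672) (nat_lit 3388560062) (nat_lit 547) (nat_lit 5) (nat_lit 546) (nat_lit 5) (nat_lit 568) (nat_lit 5) (nat_lit 567) (nat_lit 556) (nat_lit 437)) (XT.lf (nat_lit 0) (nat_lit 7540027243) (nat_lit 1596) (nat_lit 1169989187) (nat_lit 1672) (nat_lit 1151049355) (nat_lit 547) (nat_lit 5) (nat_lit 568) (nat_lit 5) (nat_lit 569) (nat_lit 5) (nat_lit 568) (nat_lit 556) (nat_lit 436))))))) (XT.nd (nat_lit 780) (nat_lit 7980) (nat_lit 0) (XT.nd (nat_lit 390) (nat_lit 0) (nat_lit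 76) (XT.nd (nat_lit 156) (nat_lit 1596) (nat_lit 0) (XT.nd (nat_lit 78) (nat_lit 0) (nat_lit 0) (XT.lf (nat_lit 76) (nat_lit 4076252560) (nat_lit 0) (nat_lit 4666963210) (nat_lit 1672) (nat_lit 1205694327) (nat_lit 548) (nat_lit 5) (nat_lit 547) (nat_lit 5) (nat_lit 569) (nat_lit 5) (nat_lit 569) (nat_lit 556) (nat_lit 435)) (XT.lf (nat_lit 76) (nat_lit 9430053987) (nat_lit 0) (nat_lit 528821594) (nat_lit 1672) (nat_lit 79868842) (nat_lit 548) (nat_lit 5) (nat_lit 547) (nat_lit 5) (nat_lit 569) (nat_lit 5) (nat_lit 570) (nat_lit 556) (nat_lit 434))) (XT.nd (nat_lit 78) (nat_lit 0) (nat_lit 0) (XT.lf (nat_lit 0) (nat_lit 1090719479) (nat_lit 1672) (nat_lit 5350866115) (nat_lit 1748) (nat_lit 3687927130) (nat_lit 526) (nat_lit 5) (nat_lit 548) (nat_lit 5) (nat_lit 549) (nat_lit 5) (nat_lit 571) (nat_lit 556) (nat_lit 433)) (XT.nd (nat_lit 78) (nat_lit 0) (nat_lit 76) (XT.lf (nat_lit 76) (nat_lit 42920213) (nat_lit 0) (nat_lit 2229761852) (nat_lit 1748) (nat_lit 7949624333) (nat_lit 527) (nat_lit 5) (nat_lit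 526) (nat_lit 5) (nat_lit 549) (nat_lit 5) (nat_lit 572) (nat_lit 556) (nat_lit 432)) (XT.lf (nat_lit 0) (nat_lit 3509298723) (nat_lit 1672) (nat_lit 4726644776) (nat_lit 1748) (nat_lit 2080393329) (nat_lit 527) (nat_lit 5) (nat_lit 549) (nat_lit 5) (nat_lit 550) (nat_lit 5) (nat_lit 573) (nat_lit 556) (nat_lit 431))))) (XT.nd (nat_lit 156) (nat_lit 0) (nat_lit 76) (XT.nd (nat_lit 78) (nat_lit 0) (nat_lit 76) (XT.lf (nat_lit 76) (nat_lit 817510480) (nat_lit 0) (nat_lit 3955029448) (nat_lit 1748) (nat_lit 5639671249) (nat_lit 528) (nat_lit 5) (nat_lit 527) (nat_lit 5) (nat_lit 550) (nat_lit 5) (nat_lit 574) (nat_lit 556) (nat_lit 430)) (XT.lf (nat_lit 0) (nat_lit 6077761229) (nat_lit 1672) (nat_lit 3989525405) (nat_lit 1748) (nat_lit 442383208) (nat_lit 528) (nat_lit 5) (nat_lit 550) (nat_lit 5) (nat_lit 551) (nat_lit 5) (nat_lit 575) (nat_lit 556) (nat_lit 429))) (XT.nd (nat_lit 78) (nat_lit 0) (nat_lit 0) (XT.lf (nat_lit 76) (nat_lit 1710370702) (nat_lit 0) (nat_lit 5718479236) (nat_lit 1748) (nat_lit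 3179833593) (nat_lit 529) (nat_lit 5) (nat_lit 528) (nat_lit 5) (nat_lit 551) (nat_lit 5) (nat_lit 576) (nat_lit 556) (nat_lit 428)) (XT.nd (nat_lit 78) (nat_lit 0) (nat_lit 76) (XT.lf (nat_lit 76) (nat_lit 7564811156) (nat_lit 0) (nat_lit 1251642898) (nat_lit 1748) (nat_lit 1893034655) (nat_lit 529) (nat_lit 5) (nat_lit 528) (nat_lit 5) (nat_lit 551) (nat_lit 5) (nat_lit 577) (nat_lit 556) (nat_lit 427)) (XT.lf (nat_lit 76) (nat_lit 2724678884) (nat_lit 0) (nat_lit 7529361440) (nat_lit 1748) (nat_lit 557826134) (nat_lit 530) (nat_lit 5) (nat_lit 529) (nat_lit 5) (nat_lit 552) (nat_lit 5) (nat_lit 578) (nat_lit 556) (nat_lit 426)))))) (XT.nd (nat_lit 390) (nat_lit 2964) (nat_lit 0) (XT.nd (nat_lit 156) (nat_lit 3496) (nat_lit 0) (XT.nd (nat_lit 78) (nat_lit 0) (nat_lit 76) (XT.lf (nat_lit 0) (nat_lit 806288799) (nat_lit 1748) (nat_lit 2189235153) (nat_lit 1824) (nat_lit 7920409464) (nat_lit 506) (nat_lit 5) (nat_lit 529) (nat_lit 5) (nat_lit 530) (nat_lit 5) (nat_lit 579) (nat_lit 556) (nat_lit 425)) (XT.lf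 (nat_lit 0) (nat_lit 2209618116) (nat_lit 1748) (nat_lit 7172510103) (nat_lit 76) (nat_lit 1639492727) (nat_lit 507) (nat_lit 5) (nat_lit 530) (nat_lit 5) (nat_lit 508) (nat_lit 5) (nat_lit 580) (nat_lit 556) (nat_lit 424))) (XT.nd (nat_lit 78) (nat_lit 3572) (nat_lit 0) (XT.lf (nat_lit 0) (nat_lit 3659439826) (nat_lit 1748) (nat_lit 1124914489) (nat_lit 76) (nat_lit 6344700382) (nat_lit 507) (nat_lit 5) (nat_lit 530) (nat_lit 5) (nat_lit 508) (nat_lit 5) (nat_lit 581) (nat_lit 556) (nat_lit 423)) (XT.nd (nat_lit 78) (nat_lit 1824) (nat_lit 0) (XT.lf (nat_lit 0) (nat_lit 5097000425) (nat_lit 1748) (nat_lit 58467994) (nat_lit 1824) (nat_lit 6082825463) (nat_lit 484) (nat_lit 5) (nat_lit 507) (nat_lit 5) (nat_lit 508) (nat_lit 5) (nat_lit 582) (nat_lit 556) (nat_lit 422)) (XT.lf (nat_lit 0) (nat_lit 65201946) (nat_lit 1824) (nat_lit 6639511910) (nat_lit 1900) (nat_lit 4644539017) (nat_lit 460) (nat_lit 5) (nat_lit 484) (nat_lit 5) (nat_lit 485) (nat_lit 5) (nat_lit 583) (nat_lit 556) (nat_lit 421))))) (XT.nd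 (nat_lit 234) (nat_lit 1900) (nat_lit 0) (XT.nd (nat_lit 78) (nat_lit 1064) (nat_lit 0) (XT.lf (nat_lit 0) (nat_lit 6465051200) (nat_lit 1824) (nat_lit 1846063736) (nat_lit 1900) (nat_lit 3150793621) (nat_lit 460) (nat_lit 5) (nat_lit 484) (nat_lit 5) (nat_lit 485) (nat_lit 5) (nat_lit 584) (nat_lit 556) (nat_lit 420)) (XT.nd (nat_lit 78) (nat_lit 0) (nat_lit 0) (XT.lf (nat_lit 0) (nat_lit 1401017781) (nat_lit 1064) (nat_lit 8562370060) (nat_lit 1140) (nat_lit 1613155552) (nat_lit 446) (nat_lit 5) (nat_lit 460) (nat_lit 5) (nat_lit 461) (nat_lit 5) (nat_lit 585) (nat_lit 556) (nat_lit 419)) (XT.lf (nat_lit 0) (nat_lit 7968607987) (nat_lit 1064) (nat_lit 3710871639) (nat_lit 1140) (nat_lit 13376723) (nat_lit 446) (nat_lit 5) (nat_lit 460) (nat_lit 5) (nat_lit 461) (nat_lit 5) (nat_lit 586) (nat_lit 556) (nat_lit 418)))) (XT.nd (nat_lit 78) (nat_lit 912) (nat_lit 0) (XT.lf (nat_lit 0) (nat_lit 1609331587) (nat_lit 988) (nat_lit 8949779301) (nat_lit 76) (nat_lit 1251932191) (nat_lit 433) (nat_lit 5) (nat_lit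 446) (nat_lit 5) (nat_lit 434) (nat_lit 5) (nat_lit 587) (nat_lit 556) (nat_lit 417)) (XT.nd (nat_lit 78) (nat_lit 912) (nat_lit 0) (XT.lf (nat_lit 0) (nat_lit 3299547135) (nat_lit 988) (nat_lit 2340680834) (nat_lit 76) (nat_lit 6290660005) (nat_lit 433) (nat_lit 5) (nat_lit 446) (nat_lit 5) (nat_lit 434) (nat_lit 5) (nat_lit 588) (nat_lit 556) (nat_lit 416)) (XT.lf (nat_lit 0) (nat_lit 4445444515) (nat_lit 912) (nat_lit 592769112) (nat_lit 988) (nat_lit 7014624032) (nat_lit 421) (nat_lit 5) (nat_lit 433) (nat_lit 5) (nat_lit 434) (nat_lit 5) (nat_lit 589) (nat_lit 556) (nat_lit 415))))))))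
noncomputable def xc136 : XT := (XT.nd (nat_lit 3510) (nat_lit 4408) (nat_lit 0) (XT.nd (nat_lit 780) (nat_lit 12008) (nat_lit 0) (XT.nd (nat_lit 390) (nat_lit 2356) (nat_lit 0) (XT.nd (nat_lit 156) (nat_lit 1748) (nat_lit 0) (XT.nd (nat_lit 78) (nat_lit 836) (nat_lit 0) (XT.lf (nat_lit 0) (nat_lit 6843022955) (nat_lit 988) (nat_lit 821228425) (nat_lit 76) (nat_lit 4512348377) (nat_lit 421) (nat_lit 5) (nat_lit 434) (nat_lit 5) (nat_lit 422) (nat_lit 5) (nat_lit 590) (nat_lit 556) (nat_lit 414)) (XT.lf (nat_lit 0) (nat_lit 6164191288) (nat_lit 836) (nat_lit 2549939779) (nat_lit 912) (nat_lit 3588102772) (nat_lit 410) (nat_lit 5) (nat_lit 421) (nat_lit 5) (nat_lit 422) (nat_lit 5) (nat_lit 591) (nat_lit 556) (nat_lit 413))) (XT.nd (nat_lit 78) (nat_lit 912) (nat_lit 0) (XT.lf (nat_lit 0) (nat_lit 850411263) (nat_lit 836) (nat_lit 9787072422) (nat_lit 912) (nat_lit 1792601248) (nat_lit 399) (nat_lit 5) (nat_lit 410) (nat_lit 5) (nat_lit 411) (nat_lit 5) (nat_lit 592) (nat_lit 556) (nat_lit 412)) (XT.nd (nat_lit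 78) (nat_lit 836) (nat_lit 0) (XT.lf (nat_lit 0) (nat_lit 83179388) (nat_lit 912) (nat_lit 4528907380) (nat_lit 76) (nat_lit 7947504426) (nat_lit 398) (nat_lit 5) (nat_lit 410) (nat_lit 5) (nat_lit 399) (nat_lit 5) (nat_lit 593) (nat_lit 556) (nat_lit 411)) (XT.lf (nat_lit 0) (nat_lit 1981159777) (nat_lit 912) (nat_lit 10023227247) (nat_lit 76) (nat_lit 686890568) (nat_lit 387) (nat_lit 5) (nat_lit 399) (nat_lit 5) (nat_lit 388) (nat_lit 5) (nat_lit 594) (nat_lit 556) (nat_lit 410))))) (XT.nd (nat_lit 156) (nat_lit 1520) (nat_lit 0) (XT.nd (nat_lit 78) (nat_lit 836) (nat_lit 0) (XT.lf (nat_lit 0) (nat_lit 3965199742) (nat_lit 912) (nat_lit 2798963903) (nat_lit 76) (nat_lit 6060472792) (nat_lit 387) (nat_lit 5) (nat_lit 399) (nat_lit 5) (nat_lit 388) (nat_lit 5) (nat_lit 595) (nat_lit 556) (nat_lit 409)) (XT.lf (nat_lit 0) (nat_lit 4617037114) (nat_lit 836) (nat_lit 1389079598) (nat_lit 912) (nat_lit 6954202525) (nat_lit 376) (nat_lit 5) (nat_lit 387) (nat_lit 5) (nat_lit 388) (nat_lit 5) (nat_lit 596) (nat_lit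 556) (nat_lit 408))) (XT.nd (nat_lit 78) (nat_lit 1520) (nat_lit 0) (XT.lf (nat_lit 0) (nat_lit 8120716962) (nat_lit 912) (nat_lit 919205834) (nat_lit 76) (nat_lit 4058136292) (nat_lit 376) (nat_lit 5) (nat_lit 388) (nat_lit 5) (nat_lit 377) (nat_lit 5) (nat_lit 597) (nat_lit 556) (nat_lit 407)) (XT.nd (nat_lit 78) (nat_lit 760) (nat_lit 0) (XT.lf (nat_lit 0) (nat_lit 6719076153) (nat_lit 760) (nat_lit 3598984681) (nat_lit 836) (nat_lit 2919684544) (nat_lit 366) (nat_lit 5) (nat_lit 376) (nat_lit 5) (nat_lit 377) (nat_lit 5) (nat_lit 598) (nat_lit 556) (nat_lit 406)) (XT.lf (nat_lit 0) (nat_lit 1131261142) (nat_lit 760) (nat_lit 11442089611) (nat_lit 836) (nat_lit 806595322) (nat_lit 356) (nat_lit 5) (nat_lit 366) (nat_lit 5) (nat_lit 367) (nat_lit 5) (nat_lit 599) (nat_lit 556) (nat_lit 405)))))) (XT.nd (nat_lit 390) (nat_lit 10488) (nat_lit 0) (XT.nd (nat_lit 156) (nat_lit 760) (nat_lit 0) (XT.nd (nat_lit 78) (nat_lit 684) (nat_lit 0) (XT.lf (nat_lit 0) (nat_lit 1386786550) (nat_lit 836) (nat_lit 4547869627)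 (nat_lit 76) (nat_lit 7589045707) (nat_lit 355) (nat_lit 5) (nat_lit 366) (nat_lit 5) (nat_lit 356) (nat_lit 5) (nat_lit 600) (nat_lit 556) (nat_lit 404)) (XT.lf (nat_lit 0) (nat_lit 3332160351) (nat_lit 684) (nat_lit 290810589) (nat_lit 760) (nat_lit 10047061158) (nat_lit 346) (nat_lit 5) (nat_lit 355) (nat_lit 5) (nat_lit 356) (nat_lit 5) (nat_lit 601) (nat_lit 556) (nat_lit 403))) (XT.nd (nat_lit 78) (nat_lit 760) (nat_lit 0) (XT.lf (nat_lit 0) (nat_lit 5958318646) (nat_lit 760) (nat_lit 2436233014) (nat_lit 76) (nat_lit 5423649077) (nat_lit 346) (nat_lit 5) (nat_lit 356) (nat_lit 5) (nat_lit 347) (nat_lit 5) (nat_lit 602) (nat_lit 556) (nat_lit 402)) (XT.nd (nat_lit 78) (nat_lit 0) (nat_lit 0) (XT.lf (nat_lit 0) (nat_lit 5683004523) (nat_lit 760) (nat_lit 2684653881) (nat_lit 836) (nat_lit 5601129245) (nat_lit 336) (nat_lit 5) (nat_lit 346) (nat_lit 5) (nat_lit 347) (nat_lit 5) (nat_lit 603) (nat_lit 556) (nat_lit 401)) (XT.lf (nat_lit 0) (nat_lit 10850618341) (nat_lit 836) (nat_lit 158074638) (nat_lit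 76) (nat_lit 3113185242) (nat_lit 336) (nat_lit 5) (nat_lit 347) (nat_lit 5) (nat_lit 337) (nat_lit 5) (nat_lit 604) (nat_lit 556) (nat_lit 400))))) (XT.nd (nat_lit 156) (nat_lit 9044) (nat_lit 0) (XT.nd (nat_lit 78) (nat_lit 760) (nat_lit 0) (XT.lf (nat_lit 0) (nat_lit 8209157458) (nat_lit 684) (nat_lit 5233975507) (nat_lit 760) (nat_lit 833700307) (nat_lit 327) (nat_lit 5) (nat_lit 336) (nat_lit 5) (nat_lit 337) (nat_lit 5) (nat_lit 605) (nat_lit 556) (nat_lit 399)) (XT.lf (nat_lit 0) (nat_lit 1640357671) (nat_lit 760) (nat_lit 12121308462) (nat_lit 76) (nat_lit 672818819) (nat_lit 317) (nat_lit 5) (nat_lit 327) (nat_lit 5) (nat_lit 318) (nat_lit 5) (nat_lit 606) (nat_lit 556) (nat_lit 398))) (XT.nd (nat_lit 78) (nat_lit 9044) (nat_lit 0) (XT.lf (nat_lit 0) (nat_lit 4217394266) (nat_lit 760) (nat_lit 3704135312) (nat_lit 76) (nat_lit 6672357204) (nat_lit 317) (nat_lit 5) (nat_lit 327) (nat_lit 5) (nat_lit 318) (nat_lit 5) (nat_lit 607) (nat_lit 556) (nat_lit 397)) (XT.nd (nat_lit 2028) (nat_lit 8436)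 (nat_lit 0) (XT.lf (nat_lit 0) (nat_lit 4933236645) (nat_lit 608) (nat_lit 1933981685) (nat_lit 684) (nat_lit 7888833917) (nat_lit 309) (nat_lit 5) (nat_lit 317) (nat_lit 5) (nat_lit 318) (nat_lit 5) (nat_lit 608) (nat_lit 556) (nat_lit 396)) (XT.lf (nat_lit 0) (nat_lit 13614413356) (nat_lit 532) (nat_lit 1739253491) (nat_lit 76) (nat_lit 4556604070) (nat_lit 198) (nat_lit 5) (nat_lit 205) (nat_lit 5) (nat_lit 199) (nat_lit 5) (nat_lit 634) (nat_lit 556) (nat_lit 370))))))) (XT.nd (nat_lit 780) (nat_lit 1520) (nat_lit 0) (XT.nd (nat_lit 390) (nat_lit 1596) (nat_lit 0) (XT.nd (nat_lit 156) (nat_lit 380) (nat_lit 0) (XT.nd (nat_lit 78) (nat_lit 532) (nat_lit 0) (XT.lf (nat_lit 0) (nat_lit 10528646888) (nat_lit 380) (nat_lit 7768840144) (nat_lit 456) (nat_lit 1851771826) (nat_lit 193) (nat_lit 5) (nat_lit 198) (nat_lit 5) (nat_lit 199) (nat_lit 5) (nat_lit 635) (nat_lit 556) (nat_lit 369)) (XT.lf (nat_lit 0) (nat_lit 2667586521) (nat_lit 532) (nat_lit 17713334753) (nat_lit 76) (nat_lit 11326288) (nat_lit 186)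 (nat_lit 5) (nat_lit 193) (nat_lit 5) (nat_lit 187) (nat_lit 5) (nat_lit 636) (nat_lit 556) (nat_lit 368))) (XT.nd (nat_lit 78) (nat_lit 380) (nat_lit 0) (XT.lf (nat_lit 0) (nat_lit 7361387616) (nat_lit 532) (nat_lit 5359509775) (nat_lit 76) (nat_lit 7916777095) (nat_lit 186) (nat_lit 5) (nat_lit 193) (nat_lit 5) (nat_lit 187) (nat_lit 5) (nat_lit 637) (nat_lit 556) (nat_lit 367)) (XT.nd (nat_lit 78) (nat_lit 0) (nat_lit 0) (XT.lf (nat_lit 0) (nat_lit 7326298276) (nat_lit 380) (nat_lit 4862874272) (nat_lit 456) (nat_lit 8698035508) (nat_lit 181) (nat_lit 5) (nat_lit 186) (nat_lit 5) (nat_lit 187) (nat_lit 5) (nat_lit 638) (nat_lit 556) (nat_lit 366)) (XT.lf (nat_lit 0) (nat_lit 17162774001) (nat_lit 456) (nat_lit 834475406) (nat_lit 76) (nat_lit 3143497930) (nat_lit 181) (nat_lit 5) (nat_lit 187) (nat_lit 5) (nat_lit 182) (nat_lit 5) (nat_lit 639) (nat_lit 556) (nat_lit 365))))) (XT.nd (nat_lit 156) (nat_lit 760) (nat_lit 0) (XT.nd (nat_lit 78) (nat_lit 380) (nat_lit 0) (XT.lf (nat_lit 0) (nat_lit 930778789)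 (nat_lit 456) (nat_lit 9139269743) (nat_lit 76) (nat_lit 11327095307) (nat_lit 175) (nat_lit 5) (nat_lit 181) (nat_lit 5) (nat_lit 176) (nat_lit 5) (nat_lit 640) (nat_lit 556) (nat_lit 364)) (XT.lf (nat_lit 0) (nat_lit 3979604541) (nat_lit 380) (nat_lit 1929120688) (nat_lit 456) (nat_lit 15748931710) (nat_lit 170) (nat_lit 5) (nat_lit 175) (nat_lit 5) (nat_lit 176) (nat_lit 5) (nat_lit 641) (nat_lit 556) (nat_lit 363))) (XT.nd (nat_lit 78) (nat_lit 760) (nat_lit 0) (XT.lf (nat_lit 0) (nat_lit 11082160014) (nat_lit 456) (nat_lit 4490286336) (nat_lit 76) (nat_lit 6349015601) (nat_lit 170) (nat_lit 5) (nat_lit 176) (nat_lit 5) (nat_lit 171) (nat_lit 5) (nat_lit 642) (nat_lit 556) (nat_lit 362)) (XT.nd (nat_lit 78) (nat_lit 380) (nat_lit 0) (XT.lf (nat_lit 0) (nat_lit 9056372937) (nat_lit 380) (nat_lit 7367212888) (nat_lit 456) (nat_lit 5765667023) (nat_lit 165) (nat_lit 5) (nat_lit 170) (nat_lit 5) (nat_lit 171) (nat_lit 5) (nat_lit 643) (nat_lit 556) (nat_lit 361)) (XT.lf (nat_lit 0) (nat_lit 461475619) (nat_lit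 380) (nat_lit 21443189181) (nat_lit 456) (nat_lit 557078498) (nat_lit 160) (nat_lit 5) (nat_lit 165) (nat_lit 5) (nat_lit 166) (nat_lit 5) (nat_lit 644) (nat_lit 556) (nat_lit 360)))))) (XT.nd (nat_lit 390) (nat_lit 304) (nat_lit 0) (XT.nd (nat_lit 156) (nat_lit 760) (nat_lit 0) (XT.nd (nat_lit 78) (nat_lit 380) (nat_lit 0) (XT.lf (nat_lit 0) (nat_lit 4823822982) (nat_lit 456) (nat_lit 8323360782) (nat_lit 76) (nat_lit 9589272215) (nat_lit 159) (nat_lit 5) (nat_lit 165) (nat_lit 5) (nat_lit 160) (nat_lit 5) (nat_lit 645) (nat_lit 556) (nat_lit 359)) (XT.lf (nat_lit 0) (nat_lit 5687271304) (nat_lit 380) (nat_lit 4647692601) (nat_lit 456) (nat_lit 12681023963) (nat_lit 154) (nat_lit 5) (nat_lit 159) (nat_lit 5) (nat_lit 160) (nat_lit 5) (nat_lit 646) (nat_lit 556) (nat_lit 358))) (XT.nd (nat_lit 78) (nat_lit 760) (nat_lit 0) (XT.lf (nat_lit 0) (nat_lit 16031852188) (nat_lit 456) (nat_lit 3246287642) (nat_lit 76) (nat_lit 4021460284) (nat_lit 154) (nat_lit 5) (nat_lit 160) (nat_lit 5) (nat_lit 155) (nat_lit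 5) (nat_lit 647) (nat_lit 556) (nat_lit 357)) (XT.nd (nat_lit 78) (nat_lit 456) (nat_lit 0) (XT.lf (nat_lit 0) (nat_lit 11223668023) (nat_lit 304) (nat_lit 10715983090) (nat_lit 380) (nat_lit 1647294243) (nat_lit 150) (nat_lit 5) (nat_lit 154) (nat_lit 5) (nat_lit 155) (nat_lit 5) (nat_lit 648) (nat_lit 556) (nat_lit 356)) (XT.lf (nat_lit 0) (nat_lit 2138235958) (nat_lit 380) (nat_lit 1922901891) (nat_lit 456) (nat_lit 19817786280) (nat_lit 144) (nat_lit 5) (nat_lit 149) (nat_lit 5) (nat_lit 150) (nat_lit 5) (nat_lit 649) (nat_lit 556) (nat_lit 355))))) (XT.nd (nat_lit 156) (nat_lit 0) (nat_lit 0) (XT.nd (nat_lit 78) (nat_lit 304) (nat_lit 0) (XT.lf (nat_lit 0) (nat_lit 9984341074) (nat_lit 456) (nat_lit 7145521954) (nat_lit 76) (nat_lit 7044208677) (nat_lit 144) (nat_lit 5) (nat_lit 150) (nat_lit 5) (nat_lit 145) (nat_lit 5) (nat_lit 650) (nat_lit 556) (nat_lit 354)) (XT.lf (nat_lit 0) (nat_lit 7820995213) (nat_lit 304) (nat_lit 8262034571) (nat_lit 380) (nat_lit 8390952212) (nat_lit 140) (nat_lit 5) (nat_lit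 144) (nat_lit 5) (nat_lit 145) (nat_lit 5) (nat_lit 651) (nat_lit 556) (nat_lit 353))) (XT.nd (nat_lit 73788) (nat_lit 0) (nat_lit 32148) (XT.lf (nat_lit 0) (nat_lit 22350587651) (nat_lit 380) (nat_lit 1611058489) (nat_lit 76) (nat_lit 817306629) (nat_lit 140) (nat_lit 5) (nat_lit 145) (nat_lit 5) (nat_lit 141) (nat_lit 5) (nat_lit 652) (nat_lit 556) (nat_lit 352)) (XT.nd (nat_lit 78) (nat_lit 0) (nat_lit 0) (XT.lf (nat_lit 0) (nat_lit 3066729944) (nat_lit 1596) (nat_lit 732229367) (nat_lit 1596) (nat_lit 732229367) (nat_lit 563) (nat_lit 3) (nat_lit 584) (nat_lit 3) (nat_lit 584) (nat_lit 5) (nat_lit 557) (nat_lit 557) (nat_lit 446)) (XT.lf (nat_lit 76) (nat_lit 3073355555) (nat_lit 0) (nat_lit 4026813308) (nat_lit 1596) (nat_lit 2034664294) (nat_lit 564) (nat_lit 5) (nat_lit 563) (nat_lit 3) (nat_lit 584) (nat_lit 5) (nat_lit 558) (nat_lit 557) (nat_lit 445))))))))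
noncomputable def xc137 : XT := (XT.nd (nat_lit 1560) (nat_lit 12084) (nat_lit 0) (XT.nd (nat_lit 780) (nat_lit 1368) (nat_lit 0) (XT.nd (nat_lit 390) (nat_lit 0) (nat_lit 76) (XT.nd (nat_lit 156) (nat_lit 1520) (nat_lit 0) (XT.nd (nat_lit 78) (nat_lit 0) (nat_lit 76) (XT.lf (nat_lit 76) (nat_lit 7709774348) (nat_lit 0) (nat_lit 362962138) (nat_lit 1596) (nat_lit 1136272681) (nat_lit 564) (nat_lit 5) (nat_lit 563) (nat_lit 3) (nat_lit 584) (nat_lit 5) (nat_lit 559) (nat_lit 557) (nat_lit 444)) (XT.lf (nat_lit 76) (nat_lit 3161511326) (nat_lit 0) (nat_lit 5922904116) (nat_lit 1596) (nat_lit 199861612) (nat_lit 565) (nat_lit 5) (nat_lit 564) (nat_lit 5) (nat_lit 585) (nat_lit 5) (nat_lit 560) (nat_lit 557) (nat_lit 443))) (XT.nd (nat_lit 78) (nat_lit 0) (nat_lit 76) (XT.lf (nat_lit 0) (nat_lit 735346439) (nat_lit 1596) (nat_lit 1444946592) (nat_lit 1672) (nat_lit 7180861201) (nat_lit 543) (nat_lit 5) (nat_lit 564) (nat_lit 5) (nat_lit 565) (nat_lit 5) (nat_lit 561) (nat_lit 557) (nat_lit 442)) (XT.nd (nat_lit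 78) (nat_lit 0) (nat_lit 0) (XT.lf (nat_lit 0) (nat_lit 1697112201) (nat_lit 1596) (nat_lit 6093538644) (nat_lit 1672) (nat_lit 1648682558) (nat_lit 544) (nat_lit 5) (nat_lit 565) (nat_lit 5) (nat_lit 566) (nat_lit 5) (nat_lit 562) (nat_lit 557) (nat_lit 441)) (XT.lf (nat_lit 0) (nat_lit 2680615094) (nat_lit 1596) (nat_lit 1294138769) (nat_lit 1672) (nat_lit 5544273696) (nat_lit 544) (nat_lit 5) (nat_lit 565) (nat_lit 5) (nat_lit 566) (nat_lit 5) (nat_lit 563) (nat_lit 557) (nat_lit 440))))) (XT.nd (nat_lit 156) (nat_lit 0) (nat_lit 76) (XT.nd (nat_lit 78) (nat_lit 0) (nat_lit 76) (XT.lf (nat_lit 76) (nat_lit 3636500435) (nat_lit 0) (nat_lit 49625852) (nat_lit 1672) (nat_lit 5914143953) (nat_lit 545) (nat_lit 5) (nat_lit 544) (nat_lit 5) (nat_lit 566) (nat_lit 5) (nat_lit 564) (nat_lit 557) (nat_lit 439)) (XT.lf (nat_lit 0) (nat_lit 4725281792) (nat_lit 1596) (nat_lit 1038234745) (nat_lit 1672) (nat_lit 3919351939) (nat_lit 545) (nat_lit 5) (nat_lit 566) (nat_lit 5) (nat_lit 567) (nat_lit 5) (nat_lit 565)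 (nat_lit 557) (nat_lit 438))) (XT.nd (nat_lit 78) (nat_lit 0) (nat_lit 76) (XT.lf (nat_lit 76) (nat_lit 4025695840) (nat_lit 0) (nat_lit 1765520310) (nat_lit 1672) (nat_lit 3975783965) (nat_lit 546) (nat_lit 5) (nat_lit 545) (nat_lit 5) (nat_lit 567) (nat_lit 5) (nat_lit 566) (nat_lit 557) (nat_lit 437)) (XT.nd (nat_lit 78) (nat_lit 0) (nat_lit 0) (XT.lf (nat_lit 0) (nat_lit 6880395786) (nat_lit 1596) (nat_lit 675711923) (nat_lit 1672) (nat_lit 2296669474) (nat_lit 546) (nat_lit 5) (nat_lit 567) (nat_lit 5) (nat_lit 568) (nat_lit 5) (nat_lit 567) (nat_lit 557) (nat_lit 436)) (XT.lf (nat_lit 76) (nat_lit 4526160067) (nat_lit 0) (nat_lit 3486571577) (nat_lit 1672) (nat_lit 1927111998) (nat_lit 547) (nat_lit 5) (nat_lit 546) (nat_lit 5) (nat_lit 568) (nat_lit 5) (nat_lit 568) (nat_lit 557) (nat_lit 435)))))) (XT.nd (nat_lit 390) (nat_lit 0) (nat_lit 152) (XT.nd (nat_lit 156) (nat_lit 0) (nat_lit 0) (XT.nd (nat_lit 78) (nat_lit 1672) (nat_lit 0) (XT.lf (nat_lit 0) (nat_lit 9157234199) (nat_lit 1596) (nat_lit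 204726480) (nat_lit 1672) (nat_lit 666901627) (nat_lit 547) (nat_lit 5) (nat_lit 568) (nat_lit 5) (nat_lit 569) (nat_lit 5) (nat_lit 569) (nat_lit 557) (nat_lit 434)) (XT.lf (nat_lit 0) (nat_lit 240007748) (nat_lit 1672) (nat_lit 4980556182) (nat_lit 1748) (nat_lit 4898317416) (nat_lit 525) (nat_lit 5) (nat_lit 547) (nat_lit 5) (nat_lit 548) (nat_lit 5) (nat_lit 570) (nat_lit 557) (nat_lit 433))) (XT.nd (nat_lit 78) (nat_lit 0) (nat_lit 76) (XT.lf (nat_lit 76) (nat_lit 366401258) (nat_lit 0) (nat_lit 980763030) (nat_lit 1748) (nat_lit 8863723270) (nat_lit 526) (nat_lit 5) (nat_lit 525) (nat_lit 5) (nat_lit 548) (nat_lit 5) (nat_lit 571) (nat_lit 557) (nat_lit 432)) (XT.nd (nat_lit 78) (nat_lit 0) (nat_lit 0) (XT.lf (nat_lit 0) (nat_lit 2513326137) (nat_lit 1672) (nat_lit 4451472105) (nat_lit 1748) (nat_lit 3339199588) (nat_lit 526) (nat_lit 5) (nat_lit 548) (nat_lit 5) (nat_lit 549) (nat_lit 5) (nat_lit 572) (nat_lit 557) (nat_lit 431)) (XT.lf (nat_lit 76) (nat_lit 1043568823) (nat_lit 0) (nat_lit 2654383938)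 (nat_lit 1748) (nat_lit 6701115871) (nat_lit 527) (nat_lit 5) (nat_lit 526) (nat_lit 5) (nat_lit 549) (nat_lit 5) (nat_lit 573) (nat_lit 557) (nat_lit 430))))) (XT.nd (nat_lit 156) (nat_lit 0) (nat_lit 76) (XT.nd (nat_lit 78) (nat_lit 0) (nat_lit 0) (XT.lf (nat_lit 0) (nat_lit 4929827509) (nat_lit 1672) (nat_lit 3811431117) (nat_lit 1748) (nat_lit 1754312246) (nat_lit 527) (nat_lit 5) (nat_lit 549) (nat_lit 5) (nat_lit 550) (nat_lit 5) (nat_lit 574) (nat_lit 557) (nat_lit 429)) (XT.lf (nat_lit 76) (nat_lit 1836964175) (nat_lit 0) (nat_lit 4361404867) (nat_lit 1748) (nat_lit 4395394640) (nat_lit 528) (nat_lit 5) (nat_lit 527) (nat_lit 5) (nat_lit 550) (nat_lit 5) (nat_lit 575) (nat_lit 557) (nat_lit 428))) (XT.nd (nat_lit 78) (nat_lit 0) (nat_lit 0) (XT.lf (nat_lit 0) (nat_lit 7501525698) (nat_lit 1672) (nat_lit 3057629551) (nat_lit 1748) (nat_lit 134581302) (nat_lit 528) (nat_lit 5) (nat_lit 550) (nat_lit 5) (nat_lit 551) (nat_lit 5) (nat_lit 576) (nat_lit 557) (nat_lit 427)) (XT.nd (nat_lit 78) (nat_lit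 0) (nat_lit 0) (XT.lf (nat_lit 76) (nat_lit 2749608647) (nat_lit 0) (nat_lit 6111019344) (nat_lit 1748) (nat_lit 1934484303) (nat_lit 529) (nat_lit 5) (nat_lit 528) (nat_lit 5) (nat_lit 551) (nat_lit 5) (nat_lit 577) (nat_lit 557) (nat_lit 426)) (XT.lf (nat_lit 76) (nat_lit 8701431429) (nat_lit 0) (nat_lit 1549391956) (nat_lit 1748) (nat_lit 647614994) (nat_lit 529) (nat_lit 5) (nat_lit 528) (nat_lit 5) (nat_lit 551) (nat_lit 5) (nat_lit 578) (nat_lit 557) (nat_lit 425))))))) (XT.nd (nat_lit 780) (nat_lit 5092) (nat_lit 0) (XT.nd (nat_lit 390) (nat_lit 3876) (nat_lit 0) (XT.nd (nat_lit 156) (nat_lit 1672) (nat_lit 0) (XT.nd (nat_lit 78) (nat_lit 0) (nat_lit 0) (XT.lf (nat_lit 0) (nat_lit 684922520) (nat_lit 1748) (nat_lit 7222921612) (nat_lit 1824) (nat_lit 3095328463) (nat_lit 506) (nat_lit 5) (nat_lit 529) (nat_lit 5) (nat_lit 530) (nat_lit 5) (nat_lit 579) (nat_lit 557) (nat_lit 424)) (XT.lf (nat_lit 0) (nat_lit 2044417386) (nat_lit 1748) (nat_lit 1230749757) (nat_lit 1824) (nat_lit 7834570159) (nat_lit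 506) (nat_lit 5) (nat_lit 529) (nat_lit 5) (nat_lit 530) (nat_lit 5) (nat_lit 580) (nat_lit 557) (nat_lit 423))) (XT.nd (nat_lit 78) (nat_lit 1748) (nat_lit 0) (XT.lf (nat_lit 0) (nat_lit 3456961176) (nat_lit 1748) (nat_lit 6294764832) (nat_lit 76) (nat_lit 1466191083) (nat_lit 507) (nat_lit 5) (nat_lit 530) (nat_lit 5) (nat_lit 508) (nat_lit 5) (nat_lit 581) (nat_lit 557) (nat_lit 422)) (XT.nd (nat_lit 78) (nat_lit 1748) (nat_lit 0) (XT.lf (nat_lit 0) (nat_lit 4912188130) (nat_lit 1748) (nat_lit 146240746) (nat_lit 76) (nat_lit 6269543901) (nat_lit 507) (nat_lit 5) (nat_lit 530) (nat_lit 5) (nat_lit 508) (nat_lit 5) (nat_lit 582) (nat_lit 557) (nat_lit 421)) (XT.lf (nat_lit 0) (nat_lit 6193525808) (nat_lit 1748) (nat_lit 227940376) (nat_lit 1824) (nat_lit 5018265391) (nat_lit 484) (nat_lit 5) (nat_lit 507) (nat_lit 5) (nat_lit 508) (nat_lit 5) (nat_lit 583) (nat_lit 557) (nat_lit 420))))) (XT.nd (nat_lit 156) (nat_lit 2052) (nat_lit 0) (XT.nd (nat_lit 78) (nat_lit 0) (nat_lit 0) (XT.lf (nat_lit 0) (nat_lit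 1078808289) (nat_lit 1824) (nat_lit 6905587737) (nat_lit 1900) (nat_lit 3568861111) (nat_lit 460) (nat_lit 5) (nat_lit 484) (nat_lit 5) (nat_lit 485) (nat_lit 5) (nat_lit 584) (nat_lit 557) (nat_lit 419)) (XT.lf (nat_lit 0) (nat_lit 7586805464) (nat_lit 1824) (nat_lit 2013657157) (nat_lit 1900) (nat_lit 2068153919) (nat_lit 460) (nat_lit 5) (nat_lit 484) (nat_lit 5) (nat_lit 485) (nat_lit 5) (nat_lit 585) (nat_lit 557) (nat_lit 418))) (XT.nd (nat_lit 78) (nat_lit 988) (nat_lit 0) (XT.lf (nat_lit 0) (nat_lit 2438186871) (nat_lit 1064) (nat_lit 8831292334) (nat_lit 1140) (nat_lit 516392229) (nat_lit 446) (nat_lit 5) (nat_lit 460) (nat_lit 5) (nat_lit 461) (nat_lit 5) (nat_lit 586) (nat_lit 557) (nat_lit 417)) (XT.nd (nat_lit 78) (nat_lit 912) (nat_lit 0) (XT.lf (nat_lit 0) (nat_lit 1078906305) (nat_lit 1140) (nat_lit 2794702416) (nat_lit 76) (nat_lit 8031195317) (nat_lit 445) (nat_lit 5) (nat_lit 460) (nat_lit 5) (nat_lit 446) (nat_lit 5) (nat_lit 587) (nat_lit 557) (nat_lit 416)) (XT.lf (nat_lit 0) (nat_lit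 2718426159) (nat_lit 988) (nat_lit 8109306359) (nat_lit 76) (nat_lit 1197930737) (nat_lit 433) (nat_lit 5) (nat_lit 446) (nat_lit 5) (nat_lit 434) (nat_lit 5) (nat_lit 588) (nat_lit 557) (nat_lit 415)))))) (XT.nd (nat_lit 390) (nat_lit 2508) (nat_lit 0) (XT.nd (nat_lit 156) (nat_lit 1672) (nat_lit 0) (XT.nd (nat_lit 78) (nat_lit 912) (nat_lit 0) (XT.lf (nat_lit 0) (nat_lit 4421330177) (nat_lit 988) (nat_lit 1388015501) (nat_lit 76) (nat_lit 6338982912) (nat_lit 433) (nat_lit 5) (nat_lit 446) (nat_lit 5) (nat_lit 434) (nat_lit 5) (nat_lit 589) (nat_lit 557) (nat_lit 414)) (XT.lf (nat_lit 0) (nat_lit 5527256836) (nat_lit 912) (nat_lit 653257945) (nat_lit 988) (nat_lit 6092488796) (nat_lit 421) (nat_lit 5) (nat_lit 433) (nat_lit 5) (nat_lit 434) (nat_lit 5) (nat_lit 590) (nat_lit 557) (nat_lit 413))) (XT.nd (nat_lit 78) (nat_lit 836) (nat_lit 0) (XT.lf (nat_lit 0) (nat_lit 158653288) (nat_lit 836) (nat_lit 7843065227) (nat_lit 912) (nat_lit 4397917614) (nat_lit 410) (nat_lit 5) (nat_lit 421) (nat_lit 5) (nat_lit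 422) (nat_lit 5) (nat_lit 591) (nat_lit 557) (nat_lit 412)) (XT.nd (nat_lit 78) (nat_lit 836) (nat_lit 0) (XT.lf (nat_lit 0) (nat_lit 7275159673) (nat_lit 836) (nat_lit 2620455953) (nat_lit 912) (nat_lit 2632461085) (nat_lit 410) (nat_lit 5) (nat_lit 421) (nat_lit 5) (nat_lit 422) (nat_lit 5) (nat_lit 592) (nat_lit 557) (nat_lit 411)) (XT.lf (nat_lit 0) (nat_lit 1868800907) (nat_lit 836) (nat_lit 9975262730) (nat_lit 912) (nat_lit 814689757) (nat_lit 399) (nat_lit 5) (nat_lit 410) (nat_lit 5) (nat_lit 411) (nat_lit 5) (nat_lit 593) (nat_lit 557) (nat_lit 410))))) (XT.nd (nat_lit 234) (nat_lit 1596) (nat_lit 0) (XT.nd (nat_lit 78) (nat_lit 836) (nat_lit 0) (XT.lf (nat_lit 0) (nat_lit 1065693785) (nat_lit 912) (nat_lit 3624649615) (nat_lit 76) (nat_lit 8100768169) (nat_lit 398) (nat_lit 5) (nat_lit 410) (nat_lit 5) (nat_lit 399) (nat_lit 5) (nat_lit 594) (nat_lit 557) (nat_lit 409)) (XT.nd (nat_lit 78) (nat_lit 0) (nat_lit 0) (XT.lf (nat_lit 0) (nat_lit 2988949568) (nat_lit 912) (nat_lit 9216118298) (nat_lit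 76) (nat_lit 720618580) (nat_lit 387) (nat_lit 5) (nat_lit 399) (nat_lit 5) (nat_lit 388) (nat_lit 5) (nat_lit 595) (nat_lit 557) (nat_lit 408)) (XT.lf (nat_lit 0) (nat_lit 4993686673) (nat_lit 912) (nat_lit 1867126030) (nat_lit 76) (nat_lit 6201280484) (nat_lit 387) (nat_lit 5) (nat_lit 399) (nat_lit 5) (nat_lit 388) (nat_lit 5) (nat_lit 596) (nat_lit 557) (nat_lit 407)))) (XT.nd (nat_lit 78) (nat_lit 760) (nat_lit 0) (XT.lf (nat_lit 0) (nat_lit 5690696210) (nat_lit 836) (nat_lit 1372485713) (nat_lit 912) (nat_lit 6137553549) (nat_lit 376) (nat_lit 5) (nat_lit 387) (nat_lit 5) (nat_lit 388) (nat_lit 5) (nat_lit 597) (nat_lit 557) (nat_lit 406)) (XT.nd (nat_lit 78) (nat_lit 0) (nat_lit 0) (XT.lf (nat_lit 0) (nat_lit 43192595) (nat_lit 760) (nat_lit 9159073052) (nat_lit 836) (nat_lit 4139321646) (nat_lit 366) (nat_lit 5) (nat_lit 376) (nat_lit 5) (nat_lit 377) (nat_lit 5) (nat_lit 598) (nat_lit 557) (nat_lit 405)) (XT.lf (nat_lit 0) (nat_lit 7827224955) (nat_lit 760) (nat_lit 3604356608) (nat_lit 836) (nat_lit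 2052726230) (nat_lit 366) (nat_lit 5) (nat_lit 376) (nat_lit 5) (nat_lit 377) (nat_lit 5) (nat_lit 599) (nat_lit 557) (nat_lit 404))))))))
noncomputable def xc138 : XT := (XT.nd (nat_lit 3354) (nat_lit 2280) (nat_lit 0) (XT.nd (nat_lit 2574) (nat_lit 10564) (nat_lit 0) (XT.nd (nat_lit 390) (nat_lit 2052) (nat_lit 0) (XT.nd (nat_lit 156) (nat_lit 1444) (nat_lit 0) (XT.nd (nat_lit 78) (nat_lit 0) (nat_lit 0) (XT.lf (nat_lit 0) (nat_lit 90237082) (nat_lit 836) (nat_lit 11491276032) (nat_lit 76) (nat_lit 2048047847) (nat_lit 355) (nat_lit 5) (nat_lit 366) (nat_lit 5) (nat_lit 356) (nat_lit 5) (nat_lit 600) (nat_lit 557) (nat_lit 403)) (XT.lf (nat_lit 0) (nat_lit 2299006690) (nat_lit 836) (nat_lit 3661335932) (nat_lit 76) (nat_lit 7816097154) (nat_lit 355) (nat_lit 5) (nat_lit 366) (nat_lit 5) (nat_lit 356) (nat_lit 5) (nat_lit 601) (nat_lit 557) (nat_lit 402))) (XT.nd (nat_lit 78) (nat_lit 760) (nat_lit 0) (XT.lf (nat_lit 0) (nat_lit 4369863783) (nat_lit 684) (nat_lit 199012920) (nat_lit 760) (nat_lit 9357041563)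 (nat_lit 346) (nat_lit 5) (nat_lit 355) (nat_lit 5) (nat_lit 356) (nat_lit 5) (nat_lit 602) (nat_lit 557) (nat_lit 401)) (XT.nd (nat_lit 78) (nat_lit 760) (nat_lit 0) (XT.lf (nat_lit 0) (nat_lit 6934426312) (nat_lit 760) (nat_lit 1516388139) (nat_lit 76) (nat_lit 5626566821) (nat_lit 346) (nat_lit 5) (nat_lit 356) (nat_lit 5) (nat_lit 347) (nat_lit 5) (nat_lit 603) (nat_lit 557) (nat_lit 400)) (XT.lf (nat_lit 0) (nat_lit 6758861981) (nat_lit 760) (nat_lit 2622535337) (nat_lit 836) (nat_lit 4849794591) (nat_lit 336) (nat_lit 5) (nat_lit 346) (nat_lit 5) (nat_lit 347) (nat_lit 5) (nat_lit 604) (nat_lit 557) (nat_lit 399))))) (XT.nd (nat_lit 156) (nat_lit 1368) (nat_lit 0) (XT.nd (nat_lit 78) (nat_lit 0) (nat_lit 0) (XT.lf (nat_lit 0) (nat_lit 808601106) (nat_lit 684) (nat_lit 11094806704) (nat_lit 760) (nat_lit 2484149512) (nat_lit 327) (nat_lit 5) (nat_lit 336) (nat_lit 5) (nat_lit 337) (nat_lit 5) (nat_lit 605) (nat_lit 557) (nat_lit 398)) (XT.lf (nat_lit 0) (nat_lit 9326262157) (nat_lit 684) (nat_lit 5206162748)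 (nat_lit 760) (nat_lit 13494367) (nat_lit 327) (nat_lit 5) (nat_lit 336) (nat_lit 5) (nat_lit 337) (nat_lit 5) (nat_lit 606) (nat_lit 557) (nat_lit 397))) (XT.nd (nat_lit 78) (nat_lit 608) (nat_lit 0) (XT.lf (nat_lit 0) (nat_lit 2490011909) (nat_lit 760) (nat_lit 11390698521) (nat_lit 76) (nat_lit 826086834) (nat_lit 317) (nat_lit 5) (nat_lit 327) (nat_lit 5) (nat_lit 318) (nat_lit 5) (nat_lit 607) (nat_lit 557) (nat_lit 396)) (XT.nd (nat_lit 78) (nat_lit 608) (nat_lit 0) (XT.lf (nat_lit 0) (nat_lit 5102572627) (nat_lit 760) (nat_lit 2824261047) (nat_lit 76) (nat_lit 6942874582) (nat_lit 317) (nat_lit 5) (nat_lit 327) (nat_lit 5) (nat_lit 318) (nat_lit 5) (nat_lit 608) (nat_lit 557) (nat_lit 395)) (XT.lf (nat_lit 0) (nat_lit 5979582316) (nat_lit 608) (nat_lit 1816261270) (nat_lit 684) (nat_lit 7239465213) (nat_lit 309) (nat_lit 5) (nat_lit 317) (nat_lit 5) (nat_lit 318) (nat_lit 5) (nat_lit 609) (nat_lit 557) (nat_lit 394)))))) (XT.nd (nat_lit 390) (nat_lit 1216) (nat_lit 0) (XT.nd (nat_lit 156) (nat_lit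 912) (nat_lit 0) (XT.nd (nat_lit 78) (nat_lit 456) (nat_lit 0) (XT.lf (nat_lit 0) (nat_lit 5421329627) (nat_lit 532) (nat_lit 5135845903) (nat_lit 76) (nat_lit 9261810916) (nat_lit 204) (nat_lit 5) (nat_lit 211) (nat_lit 5) (nat_lit 205) (nat_lit 5) (nat_lit 633) (nat_lit 557) (nat_lit 370)) (XT.lf (nat_lit 0) (nat_lit 6979973691) (nat_lit 456) (nat_lit 2885495838) (nat_lit 532) (nat_lit 10190760857) (nat_lit 198) (nat_lit 5) (nat_lit 204) (nat_lit 5) (nat_lit 205) (nat_lit 5) (nat_lit 634) (nat_lit 557) (nat_lit 369))) (XT.nd (nat_lit 78) (nat_lit 912) (nat_lit 0) (XT.lf (nat_lit 0) (nat_lit 14457718048) (nat_lit 532) (nat_lit 933201806) (nat_lit 76) (nat_lit 4906115113) (nat_lit 198) (nat_lit 5) (nat_lit 205) (nat_lit 5) (nat_lit 199) (nat_lit 5) (nat_lit 635) (nat_lit 557) (nat_lit 368)) (XT.nd (nat_lit 78) (nat_lit 532) (nat_lit 0) (XT.lf (nat_lit 0) (nat_lit 11574524761) (nat_lit 380) (nat_lit 7654155390) (nat_lit 456) (nat_lit 1312238388) (nat_lit 193) (nat_lit 5) (nat_lit 198) (nat_lit 5) (nat_lit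 199) (nat_lit 5) (nat_lit 636) (nat_lit 557) (nat_lit 367)) (XT.lf (nat_lit 0) (nat_lit 3286004244) (nat_lit 532) (nat_lit 17220753581) (nat_lit 76) (nat_lit 282013541) (nat_lit 186) (nat_lit 5) (nat_lit 193) (nat_lit 5) (nat_lit 187) (nat_lit 5) (nat_lit 637) (nat_lit 557) (nat_lit 366))))) (XT.nd (nat_lit 156) (nat_lit 836) (nat_lit 0) (XT.nd (nat_lit 78) (nat_lit 380) (nat_lit 0) (XT.lf (nat_lit 0) (nat_lit 8062601636) (nat_lit 532) (nat_lit 4636456964) (nat_lit 76) (nat_lit 8340270213) (nat_lit 186) (nat_lit 5) (nat_lit 193) (nat_lit 5) (nat_lit 187) (nat_lit 5) (nat_lit 638) (nat_lit 557) (nat_lit 365)) (XT.lf (nat_lit 0) (nat_lit 8297605123) (nat_lit 380) (nat_lit 4683829691) (nat_lit 456) (nat_lit 8312528769) (nat_lit 181) (nat_lit 5) (nat_lit 186) (nat_lit 5) (nat_lit 187) (nat_lit 5) (nat_lit 639) (nat_lit 557) (nat_lit 364))) (XT.nd (nat_lit 78) (nat_lit 836) (nat_lit 0) (XT.lf (nat_lit 0) (nat_lit 18045512571) (nat_lit 456) (nat_lit 33541798) (nat_lit 76) (nat_lit 3473699569) (nat_lit 181) (nat_lit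 5) (nat_lit 187) (nat_lit 5) (nat_lit 182) (nat_lit 5) (nat_lit 640) (nat_lit 557) (nat_lit 363)) (XT.nd (nat_lit 78) (nat_lit 380) (nat_lit 0) (XT.lf (nat_lit 0) (nat_lit 1487128666) (nat_lit 456) (nat_lit 8502646957) (nat_lit 76) (nat_lit 11824538449) (nat_lit 175) (nat_lit 5) (nat_lit 181) (nat_lit 5) (nat_lit 176) (nat_lit 5) (nat_lit 641) (nat_lit 557) (nat_lit 362)) (XT.lf (nat_lit 0) (nat_lit 4873213970) (nat_lit 380) (nat_lit 1686161396) (nat_lit 456) (nat_lit 15520767595) (nat_lit 170) (nat_lit 5) (nat_lit 175) (nat_lit 5) (nat_lit 176) (nat_lit 5) (nat_lit 642) (nat_lit 557) (nat_lit 361))))))) (XT.nd (nat_lit 780) (nat_lit 0) (nat_lit 0) (XT.nd (nat_lit 390) (nat_lit 1064) (nat_lit 0) (XT.nd (nat_lit 156) (nat_lit 836) (nat_lit 0) (XT.nd (nat_lit 78) (nat_lit 380) (nat_lit 0) (XT.lf (nat_lit 0) (nat_lit 11827630260) (nat_lit 456) (nat_lit 3773370003) (nat_lit 76) (nat_lit 6748397125) (nat_lit 170) (nat_lit 5) (nat_lit 176) (nat_lit 5) (nat_lit 171) (nat_lit 5) (nat_lit 643) (nat_lit 557) (nat_lit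 360)) (XT.lf (nat_lit 0) (nat_lit 10038915073) (nat_lit 380) (nat_lit 7231901712) (nat_lit 456) (nat_lit 5351829013) (nat_lit 165) (nat_lit 5) (nat_lit 170) (nat_lit 5) (nat_lit 171) (nat_lit 5) (nat_lit 644) (nat_lit 557) (nat_lit 359))) (XT.nd (nat_lit 78) (nat_lit 456) (nat_lit 0) (XT.lf (nat_lit 0) (nat_lit 1275347969) (nat_lit 380) (nat_lit 21583021098) (nat_lit 456) (nat_lit 42280287) (nat_lit 160) (nat_lit 5) (nat_lit 165) (nat_lit 5) (nat_lit 166) (nat_lit 5) (nat_lit 645) (nat_lit 557) (nat_lit 358)) (XT.nd (nat_lit 78) (nat_lit 380) (nat_lit 0) (XT.lf (nat_lit 0) (nat_lit 5429164133) (nat_lit 456) (nat_lit 7694183981) (nat_lit 76) (nat_lit 10057643744) (nat_lit 159) (nat_lit 5) (nat_lit 165) (nat_lit 5) (nat_lit 160) (nat_lit 5) (nat_lit 646) (nat_lit 557) (nat_lit 357)) (XT.lf (nat_lit 0) (nat_lit 6591426247) (nat_lit 380) (nat_lit 4454255752) (nat_lit 456) (nat_lit 12420529617) (nat_lit 154) (nat_lit 5) (nat_lit 159) (nat_lit 5) (nat_lit 160) (nat_lit 5) (nat_lit 647) (nat_lit 557) (nat_lit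 356))))) (XT.nd (nat_lit 156) (nat_lit 760) (nat_lit 0) (XT.nd (nat_lit 78) (nat_lit 304) (nat_lit 0) (XT.lf (nat_lit 0) (nat_lit 16848448305) (nat_lit 456) (nat_lit 2528227034) (nat_lit 76) (nat_lit 4378982270) (nat_lit 154) (nat_lit 5) (nat_lit 160) (nat_lit 5) (nat_lit 155) (nat_lit 5) (nat_lit 648) (nat_lit 557) (nat_lit 355)) (XT.lf (nat_lit 0) (nat_lit 12225976518) (nat_lit 304) (nat_lit 10643752224) (nat_lit 380) (nat_lit 1179114803) (nat_lit 150) (nat_lit 5) (nat_lit 154) (nat_lit 5) (nat_lit 155) (nat_lit 5) (nat_lit 649) (nat_lit 557) (nat_lit 354))) (XT.nd (nat_lit 78) (nat_lit 304) (nat_lit 0) (XT.lf (nat_lit 0) (nat_lit 2960262220) (nat_lit 380) (nat_lit 1672013728) (nat_lit 456) (nat_lit 19714413914) (nat_lit 144) (nat_lit 5) (nat_lit 149) (nat_lit 5) (nat_lit 150) (nat_lit 5) (nat_lit 650) (nat_lit 557) (nat_lit 353)) (XT.nd (nat_lit 78) (nat_lit 304) (nat_lit 0) (XT.lf (nat_lit 0) (nat_lit 10666178846) (nat_lit 456) (nat_lit 6516671938) (nat_lit 76) (nat_lit 7465045177) (nat_lit 144) (nat_lit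 5) (nat_lit 150) (nat_lit 5) (nat_lit 145) (nat_lit 5) (nat_lit 651) (nat_lit 557) (nat_lit 352)) (XT.lf (nat_lit 0) (nat_lit 8744098202) (nat_lit 304) (nat_lit 8138267003) (nat_lit 380) (nat_lit 8071529052) (nat_lit 140) (nat_lit 5) (nat_lit 144) (nat_lit 5) (nat_lit 145) (nat_lit 5) (nat_lit 652) (nat_lit 557) (nat_lit 351)))))) (XT.nd (nat_lit 74100) (nat_lit 0) (nat_lit 30628) (XT.nd (nat_lit 73866) (nat_lit 0) (nat_lit 30552) (XT.nd (nat_lit 73788) (nat_lit 0) (nat_lit 32148) (XT.lf (nat_lit 0) (nat_lit 23267747697) (nat_lit 380) (nat_lit 884089434) (nat_lit 76) (nat_lit 1113278119) (nat_lit 140) (nat_lit 5) (nat_lit 145) (nat_lit 5) (nat_lit 141) (nat_lit 5) (nat_lit 653) (nat_lit 557) (nat_lit 350)) (XT.lf (nat_lit 0) (nat_lit 4007735921) (nat_lit 1596) (nat_lit 298211504) (nat_lit 1596) (nat_lit 298211504) (nat_lit 563) (nat_lit 3) (nat_lit 584) (nat_lit 3) (nat_lit 584) (nat_lit 5) (nat_lit 558) (nat_lit 558) (nat_lit 444))) (XT.nd (nat_lit 78) (nat_lit 1596) (nat_lit 0) (XT.lf (nat_lit 76) (nat_lit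 4026244113) (nat_lit 0) (nat_lit 4946561665) (nat_lit 1596) (nat_lit 309993536) (nat_lit 564) (nat_lit 5) (nat_lit 563) (nat_lit 3) (nat_lit 584) (nat_lit 5) (nat_lit 559) (nat_lit 558) (nat_lit 443)) (XT.nd (nat_lit 78) (nat_lit 0) (nat_lit 76) (XT.lf (nat_lit 0) (nat_lit 564252310) (nat_lit 1596) (nat_lit 624939592) (nat_lit 1672) (nat_lit 8169873690) (nat_lit 542) (nat_lit 5) (nat_lit 563) (nat_lit 3) (nat_lit 564) (nat_lit 5) (nat_lit 560) (nat_lit 558) (nat_lit 442)) (XT.lf (nat_lit 0) (nat_lit 1474031747) (nat_lit 1596) (nat_lit 5314198449) (nat_lit 1672) (nat_lit 2648143495) (nat_lit 543) (nat_lit 5) (nat_lit 564) (nat_lit 5) (nat_lit 565) (nat_lit 5) (nat_lit 561) (nat_lit 558) (nat_lit 441))))) (XT.nd (nat_lit 234) (nat_lit 0) (nat_lit 76) (XT.nd (nat_lit 78) (nat_lit 0) (nat_lit 76) (XT.lf (nat_lit 0) (nat_lit 2392422924) (nat_lit 1596) (nat_lit 562375908) (nat_lit 1672) (nat_lit 6560622232) (nat_lit 543) (nat_lit 5) (nat_lit 564) (nat_lit 5) (nat_lit 565) (nat_lit 5) (nat_lit 562) (nat_lit 558)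 (nat_lit 440)) (XT.nd (nat_lit 78) (nat_lit 0) (nat_lit 0) (XT.lf (nat_lit 0) (nat_lit 3342486103) (nat_lit 1596) (nat_lit 5272895177) (nat_lit 1672) (nat_lit 980403431) (nat_lit 544) (nat_lit 5) (nat_lit 565) (nat_lit 5) (nat_lit 566) (nat_lit 5) (nat_lit 563) (nat_lit 558) (nat_lit 439)) (XT.lf (nat_lit 0) (nat_lit 4314062355) (nat_lit 1596) (nat_lit 395987975) (nat_lit 1672) (nat_lit 4967656446) (nat_lit 544) (nat_lit 5) (nat_lit 565) (nat_lit 5) (nat_lit 566) (nat_lit 5) (nat_lit 564) (nat_lit 558) (nat_lit 438)))) (XT.nd (nat_lit 78) (nat_lit 0) (nat_lit 76) (XT.lf (nat_lit 76) (nat_lit 4627184844) (nat_lit 0) (nat_lit 687481740) (nat_lit 1672) (nat_lit 4446410123) (nat_lit 545) (nat_lit 5) (nat_lit 544) (nat_lit 5) (nat_lit 566) (nat_lit 5) (nat_lit 565) (nat_lit 558) (nat_lit 437)) (XT.nd (nat_lit 78) (nat_lit 0) (nat_lit 0) (XT.lf (nat_lit 0) (nat_lit 6340064715) (nat_lit 1596) (nat_lit 124403090) (nat_lit 1672) (nat_lit 3381551925) (nat_lit 545) (nat_lit 5) (nat_lit 566) (nat_lit 5) (nat_lit 567)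 (nat_lit 5) (nat_lit 566) (nat_lit 558) (nat_lit 436)) (XT.lf (nat_lit 76) (nat_lit 5034657447) (nat_lit 0) (nat_lit 2368879052) (nat_lit 1672) (nat_lit 2528775099) (nat_lit 546) (nat_lit 5) (nat_lit 545) (nat_lit 5) (nat_lit 567) (nat_lit 5) (nat_lit 567) (nat_lit 558) (nat_lit 435))))))))
noncomputable def xc139 : XT := (XT.nd (nat_lit 1560) (nat_lit 17328) (nat_lit 0) (XT.nd (nat_lit 780) (nat_lit 6080) (nat_lit 0) (XT.nd (nat_lit 390) (nat_lit 0) (nat_lit 76) (XT.nd (nat_lit 156) (nat_lit 1596) (nat_lit 0) (XT.nd (nat_lit 78) (nat_lit 0) (nat_lit 0) (XT.lf (nat_lit 76) (nat_lit 257448712) (nat_lit 0) (nat_lit 8225763654) (nat_lit 1672) (nat_lit 1537219523) (nat_lit 547) (nat_lit 5) (nat_lit 546) (nat_lit 5) (nat_lit 568) (nat_lit 5) (nat_lit 568) (nat_lit 558) (nat_lit 434)) (XT.lf (nat_lit 76) (nat_lit 5553775746) (nat_lit 0) (nat_lit 4060135087) (nat_lit 1672) (nat_lit 495816421) (nat_lit 547) (nat_lit 5) (nat_lit 546) (nat_lit 5) (nat_lit 568) (nat_lit 5) (nat_lit 569) (nat_lit 558) (nat_lit 433)))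 (XT.nd (nat_lit 78) (nat_lit 0) (nat_lit 0) (XT.lf (nat_lit 0) (nat_lit 546399743) (nat_lit 1672) (nat_lit 9453350539) (nat_lit 1748) (nat_lit 201237623) (nat_lit 525) (nat_lit 5) (nat_lit 547) (nat_lit 5) (nat_lit 548) (nat_lit 5) (nat_lit 570) (nat_lit 558) (nat_lit 432)) (XT.nd (nat_lit 78) (nat_lit 0) (nat_lit 0) (XT.lf (nat_lit 0) (nat_lit 1642046280) (nat_lit 1672) (nat_lit 4117489705) (nat_lit 1748) (nat_lit 4533688917) (nat_lit 525) (nat_lit 5) (nat_lit 547) (nat_lit 5) (nat_lit 548) (nat_lit 5) (nat_lit 571) (nat_lit 558) (nat_lit 431)) (XT.lf (nat_lit 76) (nat_lit 1330073479) (nat_lit 0) (nat_lit 1420084862) (nat_lit 1748) (nat_lit 7637338401) (nat_lit 526) (nat_lit 5) (nat_lit 525) (nat_lit 5) (nat_lit 548) (nat_lit 5) (nat_lit 572) (nat_lit 558) (nat_lit 430))))) (XT.nd (nat_lit 156) (nat_lit 0) (nat_lit 76) (XT.nd (nat_lit 78) (nat_lit 0) (nat_lit 0) (XT.lf (nat_lit 0) (nat_lit 3909990457) (nat_lit 1672) (nat_lit 3573170393) (nat_lit 1748) (nat_lit 2999903145) (nat_lit 526) (nat_lit 5) (nat_lit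 548) (nat_lit 5) (nat_lit 549) (nat_lit 5) (nat_lit 573) (nat_lit 558) (nat_lit 429)) (XT.lf (nat_lit 76) (nat_lit 2025407333) (nat_lit 0) (nat_lit 3072741560) (nat_lit 1748) (nat_lit 5482292218) (nat_lit 527) (nat_lit 5) (nat_lit 526) (nat_lit 5) (nat_lit 549) (nat_lit 5) (nat_lit 574) (nat_lit 558) (nat_lit 428))) (XT.nd (nat_lit 78) (nat_lit 0) (nat_lit 0) (XT.lf (nat_lit 0) (nat_lit 6326331414) (nat_lit 1672) (nat_lit 2917122874) (nat_lit 1748) (nat_lit 1435987352) (nat_lit 527) (nat_lit 5) (nat_lit 549) (nat_lit 5) (nat_lit 550) (nat_lit 5) (nat_lit 575) (nat_lit 558) (nat_lit 427)) (XT.nd (nat_lit 78) (nat_lit 0) (nat_lit 0) (XT.lf (nat_lit 76) (nat_lit 2837855213) (nat_lit 0) (nat_lit 4763199313) (nat_lit 1748) (nat_lit 3178929182) (nat_lit 528) (nat_lit 5) (nat_lit 527) (nat_lit 5) (nat_lit 550) (nat_lit 5) (nat_lit 576) (nat_lit 558) (nat_lit 426)) (XT.lf (nat_lit 76) (nat_lit 8734997132) (nat_lit 0) (nat_lit 169301167) (nat_lit 1748) (nat_lit 1978178841) (nat_lit 528) (nat_lit 5) (nat_lit 527)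 (nat_lit 5) (nat_lit 550) (nat_lit 5) (nat_lit 577) (nat_lit 558) (nat_lit 425)))))) (XT.nd (nat_lit 390) (nat_lit 4560) (nat_lit 0) (XT.nd (nat_lit 156) (nat_lit 0) (nat_lit 76) (XT.nd (nat_lit 78) (nat_lit 1748) (nat_lit 0) (XT.lf (nat_lit 76) (nat_lit 3770604791) (nat_lit 0) (nat_lit 6500608554) (nat_lit 1748) (nat_lit 715055995) (nat_lit 529) (nat_lit 5) (nat_lit 528) (nat_lit 5) (nat_lit 551) (nat_lit 5) (nat_lit 578) (nat_lit 558) (nat_lit 424)) (XT.lf (nat_lit 0) (nat_lit 565368272) (nat_lit 1748) (nat_lit 1273343901) (nat_lit 1824) (nat_lit 9253360583) (nat_lit 505) (nat_lit 5) (nat_lit 528) (nat_lit 5) (nat_lit 529) (nat_lit 5) (nat_lit 579) (nat_lit 558) (nat_lit 423))) (XT.nd (nat_lit 78) (nat_lit 0) (nat_lit 0) (XT.lf (nat_lit 0) (nat_lit 1896662942) (nat_lit 1748) (nat_lit 6384762300) (nat_lit 1824) (nat_lit 2917776705) (nat_lit 506) (nat_lit 5) (nat_lit 529) (nat_lit 5) (nat_lit 530) (nat_lit 5) (nat_lit 580) (nat_lit 558) (nat_lit 422)) (XT.nd (nat_lit 78) (nat_lit 0) (nat_lit 76) (XT.lf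 (nat_lit 0) (nat_lit 3259856687) (nat_lit 1748) (nat_lit 292014022) (nat_lit 1824) (nat_lit 7756498497) (nat_lit 506) (nat_lit 5) (nat_lit 529) (nat_lit 5) (nat_lit 530) (nat_lit 5) (nat_lit 581) (nat_lit 558) (nat_lit 421)) (XT.lf (nat_lit 0) (nat_lit 4682531289) (nat_lit 1748) (nat_lit 5439118919) (nat_lit 76) (nat_lit 1297426191) (nat_lit 507) (nat_lit 5) (nat_lit 530) (nat_lit 5) (nat_lit 508) (nat_lit 5) (nat_lit 582) (nat_lit 558) (nat_lit 420))))) (XT.nd (nat_lit 156) (nat_lit 2964) (nat_lit 0) (XT.nd (nat_lit 78) (nat_lit 0) (nat_lit 0) (XT.lf (nat_lit 0) (nat_lit 823935807) (nat_lit 1748) (nat_lit 5325601396) (nat_lit 1824) (nat_lit 5382143888) (nat_lit 484) (nat_lit 5) (nat_lit 507) (nat_lit 5) (nat_lit 508) (nat_lit 5) (nat_lit 583) (nat_lit 558) (nat_lit 419)) (XT.lf (nat_lit 0) (nat_lit 7273360737) (nat_lit 1748) (nat_lit 394266794) (nat_lit 1824) (nat_lit 3978476354) (nat_lit 484) (nat_lit 5) (nat_lit 507) (nat_lit 5) (nat_lit 508) (nat_lit 5) (nat_lit 584) (nat_lit 558) (nat_lit 418))) (XT.nd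 (nat_lit 78) (nat_lit 1140) (nat_lit 0) (XT.lf (nat_lit 0) (nat_lit 2073377827) (nat_lit 1824) (nat_lit 7171809439) (nat_lit 1900) (nat_lit 2517046594) (nat_lit 460) (nat_lit 5) (nat_lit 484) (nat_lit 5) (nat_lit 485) (nat_lit 5) (nat_lit 585) (nat_lit 558) (nat_lit 417)) (XT.nd (nat_lit 78) (nat_lit 1140) (nat_lit 0) (XT.lf (nat_lit 0) (nat_lit 8692456644) (nat_lit 1824) (nat_lit 2179528287) (nat_lit 1900) (nat_lit 1008348626) (nat_lit 460) (nat_lit 5) (nat_lit 484) (nat_lit 5) (nat_lit 485) (nat_lit 5) (nat_lit 586) (nat_lit 558) (nat_lit 416)) (XT.lf (nat_lit 0) (nat_lit 551140519) (nat_lit 1140) (nat_lit 8546961257) (nat_lit 76) (nat_lit 2902073905) (nat_lit 445) (nat_lit 5) (nat_lit 460) (nat_lit 5) (nat_lit 446) (nat_lit 5) (nat_lit 587) (nat_lit 558) (nat_lit 415))))))) (XT.nd (nat_lit 780) (nat_lit 12920) (nat_lit 0) (XT.nd (nat_lit 390) (nat_lit 1748) (nat_lit 0) (XT.nd (nat_lit 156) (nat_lit 1748) (nat_lit 0) (XT.nd (nat_lit 78) (nat_lit 912) (nat_lit 0) (XT.lf (nat_lit 0) (nat_lit 2150437926)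 (nat_lit 1140) (nat_lit 1885638443) (nat_lit 76) (nat_lit 8085763379) (nat_lit 445) (nat_lit 5) (nat_lit 460) (nat_lit 5) (nat_lit 446) (nat_lit 5) (nat_lit 588) (nat_lit 558) (nat_lit 414)) (XT.lf (nat_lit 0) (nat_lit 3807884975) (nat_lit 988) (nat_lit 7291611163) (nat_lit 76) (nat_lit 1145918477) (nat_lit 433) (nat_lit 5) (nat_lit 446) (nat_lit 5) (nat_lit 434) (nat_lit 5) (nat_lit 589) (nat_lit 558) (nat_lit 413))) (XT.nd (nat_lit 78) (nat_lit 1748) (nat_lit 0) (XT.lf (nat_lit 0) (nat_lit 5524551185) (nat_lit 988) (nat_lit 455107847) (nat_lit 76) (nat_lit 6391281321) (nat_lit 433) (nat_lit 5) (nat_lit 446) (nat_lit 5) (nat_lit 434) (nat_lit 5) (nat_lit 590) (nat_lit 558) (nat_lit 412)) (XT.nd (nat_lit 78) (nat_lit 836) (nat_lit 0) (XT.lf (nat_lit 0) (nat_lit 6592149752) (nat_lit 912) (nat_lit 713068058) (nat_lit 988) (nat_lit 5193166218) (nat_lit 421) (nat_lit 5) (nat_lit 433) (nat_lit 5) (nat_lit 434) (nat_lit 5) (nat_lit 591) (nat_lit 558) (nat_lit 411)) (XT.lf (nat_lit 0) (nat_lit 1130144550) (nat_lit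 836) (nat_lit 8019061217) (nat_lit 912) (nat_lit 3478617396) (nat_lit 410) (nat_lit 5) (nat_lit 421) (nat_lit 5) (nat_lit 422) (nat_lit 5) (nat_lit 592) (nat_lit 558) (nat_lit 410))))) (XT.nd (nat_lit 156) (nat_lit 836) (nat_lit 0) (XT.nd (nat_lit 78) (nat_lit 912) (nat_lit 0) (XT.lf (nat_lit 0) (nat_lit 8369994431) (nat_lit 836) (nat_lit 2691624567) (nat_lit 912) (nat_lit 1697601904) (nat_lit 410) (nat_lit 5) (nat_lit 421) (nat_lit 5) (nat_lit 422) (nat_lit 5) (nat_lit 593) (nat_lit 558) (nat_lit 409)) (XT.lf (nat_lit 0) (nat_lit 141533386) (nat_lit 912) (nat_lit 10025026914) (nat_lit 76) (nat_lit 2726190333) (nat_lit 398) (nat_lit 5) (nat_lit 410) (nat_lit 5) (nat_lit 399) (nat_lit 5) (nat_lit 594) (nat_lit 558) (nat_lit 408))) (XT.nd (nat_lit 78) (nat_lit 836) (nat_lit 0) (XT.lf (nat_lit 0) (nat_lit 2029770838) (nat_lit 912) (nat_lit 2740937385) (nat_lit 76) (nat_lit 8257317995) (nat_lit 398) (nat_lit 5) (nat_lit 410) (nat_lit 5) (nat_lit 399) (nat_lit 5) (nat_lit 595) (nat_lit 558) (nat_lit 407)) (XT.nd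 (nat_lit 78) (nat_lit 0) (nat_lit 0) (XT.lf (nat_lit 0) (nat_lit 3979300065) (nat_lit 912) (nat_lit 8431992478) (nat_lit 76) (nat_lit 754244908) (nat_lit 387) (nat_lit 5) (nat_lit 399) (nat_lit 5) (nat_lit 388) (nat_lit 5) (nat_lit 596) (nat_lit 558) (nat_lit 406)) (XT.lf (nat_lit 0) (nat_lit 6005885412) (nat_lit 912) (nat_lit 955009544) (nat_lit 76) (nat_lit 6344143306) (nat_lit 387) (nat_lit 5) (nat_lit 399) (nat_lit 5) (nat_lit 388) (nat_lit 5) (nat_lit 597) (nat_lit 558) (nat_lit 405)))))) (XT.nd (nat_lit 390) (nat_lit 10488) (nat_lit 0) (XT.nd (nat_lit 156) (nat_lit 836) (nat_lit 0) (XT.nd (nat_lit 78) (nat_lit 760) (nat_lit 0) (XT.lf (nat_lit 0) (nat_lit 6747722700) (nat_lit 836) (nat_lit 1357283104) (nat_lit 912) (nat_lit 5341683871) (nat_lit 376) (nat_lit 5) (nat_lit 387) (nat_lit 5) (nat_lit 388) (nat_lit 5) (nat_lit 598) (nat_lit 558) (nat_lit 404)) (XT.lf (nat_lit 0) (nat_lit 998730250) (nat_lit 760) (nat_lit 9276952782) (nat_lit 836) (nat_lit 3314900231) (nat_lit 366) (nat_lit 5) (nat_lit 376)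 (nat_lit 5) (nat_lit 377) (nat_lit 5) (nat_lit 599) (nat_lit 558) (nat_lit 403))) (XT.nd (nat_lit 78) (nat_lit 836) (nat_lit 0) (XT.lf (nat_lit 0) (nat_lit 8919724162) (nat_lit 760) (nat_lit 3612422435) (nat_lit 836) (nat_lit 1204361297) (nat_lit 366) (nat_lit 5) (nat_lit 376) (nat_lit 5) (nat_lit 377) (nat_lit 5) (nat_lit 600) (nat_lit 558) (nat_lit 402)) (XT.nd (nat_lit 78) (nat_lit 0) (nat_lit 0) (XT.lf (nat_lit 0) (nat_lit 959183401) (nat_lit 836) (nat_lit 10762776957) (nat_lit 76) (nat_lit 2162803444) (nat_lit 355) (nat_lit 5) (nat_lit 366) (nat_lit 5) (nat_lit 356) (nat_lit 5) (nat_lit 601) (nat_lit 558) (nat_lit 401)) (XT.lf (nat_lit 0) (nat_lit 3195125624) (nat_lit 836) (nat_lit 2795028733) (nat_lit 76) (nat_lit 8044766783) (nat_lit 355) (nat_lit 5) (nat_lit 366) (nat_lit 5) (nat_lit 356) (nat_lit 5) (nat_lit 602) (nat_lit 558) (nat_lit 400))))) (XT.nd (nat_lit 234) (nat_lit 9044) (nat_lit 0) (XT.nd (nat_lit 78) (nat_lit 760) (nat_lit 0) (XT.lf (nat_lit 0) (nat_lit 5390613832) (nat_lit 684) (nat_lit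 109169762) (nat_lit 760) (nat_lit 8687818670) (nat_lit 346) (nat_lit 5) (nat_lit 355) (nat_lit 5) (nat_lit 356) (nat_lit 5) (nat_lit 603) (nat_lit 558) (nat_lit 399)) (XT.nd (nat_lit 78) (nat_lit 760) (nat_lit 0) (XT.lf (nat_lit 0) (nat_lit 7896780055) (nat_lit 760) (nat_lit 615757103) (nat_lit 76) (nat_lit 5829875515) (nat_lit 346) (nat_lit 5) (nat_lit 356) (nat_lit 5) (nat_lit 347) (nat_lit 5) (nat_lit 604) (nat_lit 558) (nat_lit 398)) (XT.lf (nat_lit 0) (nat_lit 7818873291) (nat_lit 760) (nat_lit 2563671528) (nat_lit 836) (nat_lit 4116958458) (nat_lit 336) (nat_lit 5) (nat_lit 346) (nat_lit 5) (nat_lit 347) (nat_lit 5) (nat_lit 605) (nat_lit 558) (nat_lit 397)))) (XT.nd (nat_lit 78) (nat_lit 8360) (nat_lit 0) (XT.lf (nat_lit 0) (nat_lit 1759009943) (nat_lit 684) (nat_lit 11186808457) (nat_lit 760) (nat_lit 1713361967) (nat_lit 327) (nat_lit 5) (nat_lit 336) (nat_lit 5) (nat_lit 337) (nat_lit 5) (nat_lit 606) (nat_lit 558) (nat_lit 396)) (XT.nd (nat_lit 1872) (nat_lit 8284) (nat_lit 0) (XT.lf (nat_lit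 0) (nat_lit 780249517) (nat_lit 760) (nat_lit 4397453168) (nat_lit 76) (nat_lit 9643220443) (nat_lit 326) (nat_lit 5) (nat_lit 336) (nat_lit 5) (nat_lit 327) (nat_lit 5) (nat_lit 607) (nat_lit 558) (nat_lit 395)) (XT.lf (nat_lit 0) (nat_lit 12778676621) (nat_lit 532) (nat_lit 660009048) (nat_lit 76) (nat_lit 6059692173) (nat_lit 217) (nat_lit 5) (nat_lit 224) (nat_lit 5) (nat_lit 218) (nat_lit 5) (nat_lit 631) (nat_lit 558) (nat_lit 371))))))))
noncomputable def xc140 : XT := (XT.nd (nat_lit 1560) (nat_lit 304) (nat_lit 0) (XT.nd (nat_lit 780) (nat_lit 2432) (nat_lit 0) (XT.nd (nat_lit 390) (nat_lit 1672) (nat_lit 0) (XT.nd (nat_lit 156) (nat_lit 456) (nat_lit 0) (XT.nd (nat_lit 78) (nat_lit 532) (nat_lit 0) (XT.lf (nat_lit 0) (nat_lit 11287453396) (nat_lit 456) (nat_lit 5885641815) (nat_lit 532) (nat_lit 2557125936) (nat_lit 211) (nat_lit 5) (nat_lit 217) (nat_lit 5) (nat_lit 218) (nat_lit 5) (nat_lit 632) (nat_lit 558) (nat_lit 370)) (XT.lf (nat_lit 0) (nat_lit 1698540528) (nat_lit 532) (nat_lit 16437249697)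 (nat_lit 76) (nat_lit 1830052345) (nat_lit 204) (nat_lit 5) (nat_lit 211) (nat_lit 5) (nat_lit 205) (nat_lit 5) (nat_lit 633) (nat_lit 558) (nat_lit 369))) (XT.nd (nat_lit 78) (nat_lit 456) (nat_lit 0) (XT.lf (nat_lit 0) (nat_lit 6093676540) (nat_lit 532) (nat_lit 4418333985) (nat_lit 76) (nat_lit 9692056202) (nat_lit 204) (nat_lit 5) (nat_lit 211) (nat_lit 5) (nat_lit 205) (nat_lit 5) (nat_lit 634) (nat_lit 558) (nat_lit 368)) (XT.nd (nat_lit 78) (nat_lit 0) (nat_lit 0) (XT.lf (nat_lit 0) (nat_lit 7934405758) (nat_lit 456) (nat_lit 2686526655) (nat_lit 532) (nat_lit 9825238882) (nat_lit 198) (nat_lit 5) (nat_lit 204) (nat_lit 5) (nat_lit 205) (nat_lit 5) (nat_lit 635) (nat_lit 558) (nat_lit 367)) (XT.lf (nat_lit 0) (nat_lit 15295715571) (nat_lit 532) (nat_lit 143679802) (nat_lit 76) (nat_lit 5252583206) (nat_lit 198) (nat_lit 5) (nat_lit 205) (nat_lit 5) (nat_lit 199) (nat_lit 5) (nat_lit 636) (nat_lit 558) (nat_lit 366))))) (XT.nd (nat_lit 156) (nat_lit 760) (nat_lit 0) (XT.nd (nat_lit 78) (nat_lit 532)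 (nat_lit 0) (XT.lf (nat_lit 0) (nat_lit 12608884282) (nat_lit 380) (nat_lit 7547663761) (nat_lit 456) (nat_lit 784303154) (nat_lit 193) (nat_lit 5) (nat_lit 198) (nat_lit 5) (nat_lit 199) (nat_lit 5) (nat_lit 637) (nat_lit 558) (nat_lit 365)) (XT.lf (nat_lit 0) (nat_lit 3894848120) (nat_lit 532) (nat_lit 16751204921) (nat_lit 76) (nat_lit 547612220) (nat_lit 186) (nat_lit 5) (nat_lit 193) (nat_lit 5) (nat_lit 187) (nat_lit 5) (nat_lit 638) (nat_lit 558) (nat_lit 364))) (XT.nd (nat_lit 78) (nat_lit 760) (nat_lit 0) (XT.lf (nat_lit 0) (nat_lit 8756327973) (nat_lit 532) (nat_lit 3931182445) (nat_lit 76) (nat_lit 8761936802) (nat_lit 186) (nat_lit 5) (nat_lit 193) (nat_lit 5) (nat_lit 187) (nat_lit 5) (nat_lit 639) (nat_lit 558) (nat_lit 363)) (XT.nd (nat_lit 78) (nat_lit 380) (nat_lit 0) (XT.lf (nat_lit 0) (nat_lit 9256310860) (nat_lit 380) (nat_lit 4511933365) (nat_lit 456) (nat_lit 7941036699) (nat_lit 181) (nat_lit 5) (nat_lit 186) (nat_lit 5) (nat_lit 187) (nat_lit 5) (nat_lit 640) (nat_lit 558) (nat_lit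 362)) (XT.lf (nat_lit 0) (nat_lit 761650361) (nat_lit 380) (nat_lit 18168251904) (nat_lit 456) (nat_lit 3043419204) (nat_lit 176) (nat_lit 5) (nat_lit 181) (nat_lit 5) (nat_lit 182) (nat_lit 5) (nat_lit 641) (nat_lit 558) (nat_lit 361)))))) (XT.nd (nat_lit 390) (nat_lit 1140) (nat_lit 0) (XT.nd (nat_lit 156) (nat_lit 836) (nat_lit 0) (XT.nd (nat_lit 78) (nat_lit 380) (nat_lit 0) (XT.lf (nat_lit 0) (nat_lit 2033724662) (nat_lit 456) (nat_lit 7885110334) (nat_lit 76) (nat_lit 12321411029) (nat_lit 175) (nat_lit 5) (nat_lit 181) (nat_lit 5) (nat_lit 176) (nat_lit 5) (nat_lit 642) (nat_lit 558) (nat_lit 360)) (XT.lf (nat_lit 0) (nat_lit 5753086301) (nat_lit 380) (nat_lit 1449275525) (nat_lit 456) (nat_lit 15309131091) (nat_lit 170) (nat_lit 5) (nat_lit 175) (nat_lit 5) (nat_lit 176) (nat_lit 5) (nat_lit 643) (nat_lit 558) (nat_lit 359))) (XT.nd (nat_lit 78) (nat_lit 836) (nat_lit 0) (XT.lf (nat_lit 0) (nat_lit 12567669069) (nat_lit 456) (nat_lit 3073441345) (nat_lit 76) (nat_lit 7145188608) (nat_lit 170) (nat_lit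 5) (nat_lit 176) (nat_lit 5) (nat_lit 171) (nat_lit 5) (nat_lit 644) (nat_lit 558) (nat_lit 358)) (XT.nd (nat_lit 78) (nat_lit 456) (nat_lit 0) (XT.lf (nat_lit 0) (nat_lit 11009988143) (nat_lit 380) (nat_lit 7104860167) (nat_lit 456) (nat_lit 4950261835) (nat_lit 165) (nat_lit 5) (nat_lit 170) (nat_lit 5) (nat_lit 171) (nat_lit 5) (nat_lit 645) (nat_lit 558) (nat_lit 357)) (XT.lf (nat_lit 0) (nat_lit 456326663) (nat_lit 456) (nat_lit 21277484257) (nat_lit 76) (nat_lit 1614863647) (nat_lit 159) (nat_lit 5) (nat_lit 165) (nat_lit 5) (nat_lit 160) (nat_lit 5) (nat_lit 646) (nat_lit 558) (nat_lit 356))))) (XT.nd (nat_lit 156) (nat_lit 760) (nat_lit 0) (XT.nd (nat_lit 78) (nat_lit 380) (nat_lit 0) (XT.lf (nat_lit 0) (nat_lit 6026852272) (nat_lit 456) (nat_lit 7083319470) (nat_lit 76) (nat_lit 10524642529) (nat_lit 159) (nat_lit 5) (nat_lit 165) (nat_lit 5) (nat_lit 160) (nat_lit 5) (nat_lit 647) (nat_lit 558) (nat_lit 355)) (XT.lf (nat_lit 0) (nat_lit 7482971724) (nat_lit 380) (nat_lit 4268071066) (nat_lit 456)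 (nat_lit 12174789089) (nat_lit 154) (nat_lit 5) (nat_lit 159) (nat_lit 5) (nat_lit 160) (nat_lit 5) (nat_lit 648) (nat_lit 558) (nat_lit 354))) (XT.nd (nat_lit 78) (nat_lit 760) (nat_lit 0) (XT.lf (nat_lit 0) (nat_lit 17662117649) (nat_lit 456) (nat_lit 1826209529) (nat_lit 76) (nat_lit 4732894844) (nat_lit 154) (nat_lit 5) (nat_lit 160) (nat_lit 5) (nat_lit 155) (nat_lit 5) (nat_lit 649) (nat_lit 558) (nat_lit 353)) (XT.nd (nat_lit 78) (nat_lit 456) (nat_lit 0) (XT.lf (nat_lit 0) (nat_lit 13218126897) (nat_lit 304) (nat_lit 10581203846) (nat_lit 380) (nat_lit 721031081) (nat_lit 150) (nat_lit 5) (nat_lit 154) (nat_lit 5) (nat_lit 155) (nat_lit 5) (nat_lit 650) (nat_lit 558) (nat_lit 352)) (XT.lf (nat_lit 0) (nat_lit 3768469332) (nat_lit 380) (nat_lit 1427343468) (nat_lit 456) (nat_lit 19628379151) (nat_lit 144) (nat_lit 5) (nat_lit 149) (nat_lit 5) (nat_lit 150) (nat_lit 5) (nat_lit 651) (nat_lit 558) (nat_lit 351))))))) (XT.nd (nat_lit 74568) (nat_lit 0) (nat_lit 29184) (XT.nd (nat_lit 74178) (nat_lit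 0) (nat_lit 30628) (XT.nd (nat_lit 73944) (nat_lit 0) (nat_lit 30552) (XT.nd (nat_lit 78) (nat_lit 304) (nat_lit 0) (XT.lf (nat_lit 0) (nat_lit 11342930865) (nat_lit 456) (nat_lit 5905213319) (nat_lit 76) (nat_lit 7883427517) (nat_lit 144) (nat_lit 5) (nat_lit 150) (nat_lit 5) (nat_lit 145) (nat_lit 5) (nat_lit 652) (nat_lit 558) (nat_lit 350)) (XT.lf (nat_lit 0) (nat_lit 9655892012) (nat_lit 304) (nat_lit 8023246627) (nat_lit 380) (nat_lit 7764637637) (nat_lit 140) (nat_lit 5) (nat_lit 144) (nat_lit 5) (nat_lit 145) (nat_lit 5) (nat_lit 653) (nat_lit 558) (nat_lit 349))) (XT.nd (nat_lit 78) (nat_lit 0) (nat_lit 0) (XT.lf (nat_lit 0) (nat_lit 126228654) (nat_lit 0) (nat_lit 126228654) (nat_lit 1596) (nat_lit 4426750563) (nat_lit 542) (nat_lit 5) (nat_lit 542) (nat_lit 3) (nat_lit 563) (nat_lit 3) (nat_lit 559) (nat_lit 559) (nat_lit 442)) (XT.nd (nat_lit 78) (nat_lit 0) (nat_lit 0) (XT.lf (nat_lit 0) (nat_lit 1362512326) (nat_lit 1596) (nat_lit 4480461858) (nat_lit 1672) (nat_lit 3591919960) (nat_lit 542)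 (nat_lit 5) (nat_lit 563) (nat_lit 3) (nat_lit 564) (nat_lit 5) (nat_lit 560) (nat_lit 559) (nat_lit 441)) (XT.lf (nat_lit 76) (nat_lit 227477881) (nat_lit 0) (nat_lit 1991260727) (nat_lit 1672) (nat_lit 7294535410) (nat_lit 543) (nat_lit 5) (nat_lit 542) (nat_lit 5) (nat_lit 564) (nat_lit 5) (nat_lit 561) (nat_lit 559) (nat_lit 440))))) (XT.nd (nat_lit 156) (nat_lit 0) (nat_lit 76) (XT.nd (nat_lit 78) (nat_lit 0) (nat_lit 0) (XT.lf (nat_lit 0) (nat_lit 3113678613) (nat_lit 1596) (nat_lit 4526884755) (nat_lit 1672) (nat_lit 1952227745) (nat_lit 543) (nat_lit 5) (nat_lit 564) (nat_lit 5) (nat_lit 565) (nat_lit 5) (nat_lit 562) (nat_lit 559) (nat_lit 439)) (XT.lf (nat_lit 76) (nat_lit 306472150) (nat_lit 0) (nat_lit 3714383397) (nat_lit 1672) (nat_lit 5653157622) (nat_lit 544) (nat_lit 5) (nat_lit 543) (nat_lit 5) (nat_lit 565) (nat_lit 5) (nat_lit 563) (nat_lit 559) (nat_lit 438))) (XT.nd (nat_lit 78) (nat_lit 0) (nat_lit 0) (XT.lf (nat_lit 0) (nat_lit 4958193628) (nat_lit 1596) (nat_lit 4472437818) (nat_lit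 1672) (nat_lit 325989222) (nat_lit 544) (nat_lit 5) (nat_lit 565) (nat_lit 5) (nat_lit 566) (nat_lit 5) (nat_lit 564) (nat_lit 559) (nat_lit 437)) (XT.nd (nat_lit 78) (nat_lit 0) (nat_lit 0) (XT.lf (nat_lit 76) (nat_lit 490679837) (nat_lit 0) (nat_lit 5431337625) (nat_lit 1672) (nat_lit 3918709402) (nat_lit 545) (nat_lit 5) (nat_lit 544) (nat_lit 5) (nat_lit 566) (nat_lit 5) (nat_lit 565) (nat_lit 559) (nat_lit 436)) (XT.lf (nat_lit 76) (nat_lit 5602037654) (nat_lit 0) (nat_lit 1313364566) (nat_lit 1672) (nat_lit 3010908578) (nat_lit 545) (nat_lit 5) (nat_lit 544) (nat_lit 5) (nat_lit 566) (nat_lit 5) (nat_lit 566) (nat_lit 559) (nat_lit 435)))))) (XT.nd (nat_lit 390) (nat_lit 0) (nat_lit 76) (XT.nd (nat_lit 156) (nat_lit 1596) (nat_lit 0) (XT.nd (nat_lit 78) (nat_lit 0) (nat_lit 0) (XT.lf (nat_lit 76) (nat_lit 781665364) (nat_lit 0) (nat_lit 7151518801) (nat_lit 1672) (nat_lit 2080332930) (nat_lit 546) (nat_lit 5) (nat_lit 545) (nat_lit 5) (nat_lit 567) (nat_lit 5) (nat_lit 567) (nat_lit 559) (nat_lit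 434)) (XT.lf (nat_lit 76) (nat_lit 6027745531) (nat_lit 0) (nat_lit 2962246960) (nat_lit 1672) (nat_lit 1112102864) (nat_lit 546) (nat_lit 5) (nat_lit 545) (nat_lit 5) (nat_lit 567) (nat_lit 5) (nat_lit 568) (nat_lit 559) (nat_lit 433))) (XT.nd (nat_lit 78) (nat_lit 1672) (nat_lit 0) (XT.lf (nat_lit 76) (nat_lit 1181315801) (nat_lit 0) (nat_lit 8884231946) (nat_lit 1672) (nat_lit 126946445) (nat_lit 547) (nat_lit 5) (nat_lit 546) (nat_lit 5) (nat_lit 568) (nat_lit 5) (nat_lit 569) (nat_lit 559) (nat_lit 432)) (XT.nd (nat_lit 78) (nat_lit 0) (nat_lit 0) (XT.lf (nat_lit 0) (nat_lit 895133619) (nat_lit 1672) (nat_lit 3724465017) (nat_lit 1748) (nat_lit 5664414858) (nat_lit 524) (nat_lit 5) (nat_lit 546) (nat_lit 5) (nat_lit 547) (nat_lit 5) (nat_lit 570) (nat_lit 559) (nat_lit 431)) (XT.lf (nat_lit 76) (nat_lit 1677241331) (nat_lit 0) (nat_lit 251561254) (nat_lit 1748) (nat_lit 8448688028) (nat_lit 525) (nat_lit 5) (nat_lit 524) (nat_lit 5) (nat_lit 547) (nat_lit 5) (nat_lit 571) (nat_lit 559) (nat_lit 430)))))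 (XT.nd (nat_lit 156) (nat_lit 0) (nat_lit 76) (XT.nd (nat_lit 78) (nat_lit 0) (nat_lit 0) (XT.lf (nat_lit 0) (nat_lit 3017869113) (nat_lit 1672) (nat_lit 3274543843) (nat_lit 1748) (nat_lit 4179730969) (nat_lit 525) (nat_lit 5) (nat_lit 547) (nat_lit 5) (nat_lit 548) (nat_lit 5) (nat_lit 572) (nat_lit 559) (nat_lit 429)) (XT.lf (nat_lit 76) (nat_lit 2275883133) (nat_lit 0) (nat_lit 1851895413) (nat_lit 1748) (nat_lit 6440931637) (nat_lit 526) (nat_lit 5) (nat_lit 525) (nat_lit 5) (nat_lit 548) (nat_lit 5) (nat_lit 573) (nat_lit 559) (nat_lit 428))) (XT.nd (nat_lit 78) (nat_lit 0) (nat_lit 0) (XT.lf (nat_lit 0) (nat_lit 5282305796) (nat_lit 1672) (nat_lit 2714865295) (nat_lit 1748) (nat_lit 2669589371) (nat_lit 526) (nat_lit 5) (nat_lit 548) (nat_lit 5) (nat_lit 549) (nat_lit 5) (nat_lit 574) (nat_lit 559) (nat_lit 427)) (XT.nd (nat_lit 78) (nat_lit 0) (nat_lit 76) (XT.lf (nat_lit 76) (nat_lit 2989567088) (nat_lit 0) (nat_lit 3485282457) (nat_lit 1748) (nat_lit 4291624749) (nat_lit 527) (nat_lit 5) (nat_lit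 526) (nat_lit 5) (nat_lit 549) (nat_lit 5) (nat_lit 575) (nat_lit 559) (nat_lit 426)) (XT.lf (nat_lit 0) (nat_lit 7700366072) (nat_lit 1672) (nat_lit 2042615595) (nat_lit 1748) (nat_lit 1125019345) (nat_lit 527) (nat_lit 5) (nat_lit 549) (nat_lit 5) (nat_lit 550) (nat_lit 5) (nat_lit 576) (nat_lit 559) (nat_lit 425))))))))
noncomputable def xc141 : XT := (XT.nd (nat_lit 1560) (nat_lit 15580) (nat_lit 0) (XT.nd (nat_lit 780) (nat_lit 4712) (nat_lit 0) (XT.nd (nat_lit 390) (nat_lit 3420) (nat_lit 0) (XT.nd (nat_lit 156) (nat_lit 1672) (nat_lit 0) (XT.nd (nat_lit 78) (nat_lit 0) (nat_lit 0) (XT.lf (nat_lit 76) (nat_lit 3821324884) (nat_lit 0) (nat_lit 5160814654) (nat_lit 1748) (nat_lit 1988784822) (nat_lit 528) (nat_lit 5) (nat_lit 527) (nat_lit 5) (nat_lit 550) (nat_lit 5) (nat_lit 577) (nat_lit 559) (nat_lit 424)) (XT.lf (nat_lit 76) (nat_lit 9818238807) (nat_lit 0) (nat_lit 469110087) (nat_lit 1748) (nat_lit 788602277) (nat_lit 528) (nat_lit 5) (nat_lit 527) (nat_lit 5) (nat_lit 550) (nat_lit 5) (nat_lit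 578) (nat_lit 559) (nat_lit 423))) (XT.nd (nat_lit 78) (nat_lit 0) (nat_lit 0) (XT.lf (nat_lit 0) (nat_lit 473612561) (nat_lit 1748) (nat_lit 6410816540) (nat_lit 1824) (nat_lit 4297718994) (nat_lit 505) (nat_lit 5) (nat_lit 528) (nat_lit 5) (nat_lit 529) (nat_lit 5) (nat_lit 579) (nat_lit 559) (nat_lit 422)) (XT.nd (nat_lit 78) (nat_lit 0) (nat_lit 76) (XT.lf (nat_lit 0) (nat_lit 1746679586) (nat_lit 1748) (nat_lit 372903101) (nat_lit 1824) (nat_lit 9170859621) (nat_lit 505) (nat_lit 5) (nat_lit 528) (nat_lit 5) (nat_lit 529) (nat_lit 5) (nat_lit 580) (nat_lit 559) (nat_lit 421)) (XT.lf (nat_lit 0) (nat_lit 3086116743) (nat_lit 1748) (nat_lit 5567996046) (nat_lit 1824) (nat_lit 2745972370) (nat_lit 506) (nat_lit 5) (nat_lit 529) (nat_lit 5) (nat_lit 530) (nat_lit 5) (nat_lit 581) (nat_lit 559) (nat_lit 420))))) (XT.nd (nat_lit 156) (nat_lit 3496) (nat_lit 0) (XT.nd (nat_lit 78) (nat_lit 0) (nat_lit 76) (XT.lf (nat_lit 76) (nat_lit 636435307) (nat_lit 0) (nat_lit 3821692381) (nat_lit 1824) (nat_lit 7053678389)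 (nat_lit 507) (nat_lit 5) (nat_lit 506) (nat_lit 5) (nat_lit 530) (nat_lit 5) (nat_lit 582) (nat_lit 559) (nat_lit 419)) (XT.lf (nat_lit 0) (nat_lit 5887707183) (nat_lit 1748) (nat_lit 4604474530) (nat_lit 76) (nat_lit 1132978028) (nat_lit 507) (nat_lit 5) (nat_lit 530) (nat_lit 5) (nat_lit 508) (nat_lit 5) (nat_lit 583) (nat_lit 559) (nat_lit 418))) (XT.nd (nat_lit 78) (nat_lit 1824) (nat_lit 0) (XT.lf (nat_lit 0) (nat_lit 1777634536) (nat_lit 1748) (nat_lit 5590709121) (nat_lit 1824) (nat_lit 4371988389) (nat_lit 484) (nat_lit 5) (nat_lit 507) (nat_lit 5) (nat_lit 508) (nat_lit 5) (nat_lit 584) (nat_lit 559) (nat_lit 417)) (XT.nd (nat_lit 78) (nat_lit 1824) (nat_lit 0) (XT.lf (nat_lit 0) (nat_lit 8337671101) (nat_lit 1748) (nat_lit 557638108) (nat_lit 1824) (nat_lit 2962165119) (nat_lit 484) (nat_lit 5) (nat_lit 507) (nat_lit 5) (nat_lit 508) (nat_lit 5) (nat_lit 585) (nat_lit 559) (nat_lit 416)) (XT.lf (nat_lit 0) (nat_lit 3050056238) (nat_lit 1824) (nat_lit 7438380909) (nat_lit 1900) (nat_lit 1487810690)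 (nat_lit 460) (nat_lit 5) (nat_lit 484) (nat_lit 5) (nat_lit 485) (nat_lit 5) (nat_lit 586) (nat_lit 559) (nat_lit 415)))))) (XT.nd (nat_lit 390) (nat_lit 1748) (nat_lit 0) (XT.nd (nat_lit 156) (nat_lit 1824) (nat_lit 0) (XT.nd (nat_lit 78) (nat_lit 1064) (nat_lit 0) (XT.lf (nat_lit 0) (nat_lit 29501010) (nat_lit 1900) (nat_lit 2314140739) (nat_lit 76) (nat_lit 9753480185) (nat_lit 459) (nat_lit 5) (nat_lit 484) (nat_lit 5) (nat_lit 460) (nat_lit 5) (nat_lit 587) (nat_lit 559) (nat_lit 414)) (XT.lf (nat_lit 0) (nat_lit 1591529501) (nat_lit 1140) (nat_lit 7771863206) (nat_lit 76) (nat_lit 2856139065) (nat_lit 445) (nat_lit 5) (nat_lit 460) (nat_lit 5) (nat_lit 446) (nat_lit 5) (nat_lit 588) (nat_lit 559) (nat_lit 413))) (XT.nd (nat_lit 78) (nat_lit 1824) (nat_lit 0) (XT.lf (nat_lit 0) (nat_lit 3202629206) (nat_lit 1140) (nat_lit 995863686) (nat_lit 76) (nat_lit 8145541080) (nat_lit 445) (nat_lit 5) (nat_lit 460) (nat_lit 5) (nat_lit 446) (nat_lit 5) (nat_lit 589) (nat_lit 559) (nat_lit 412)) (XT.nd (nat_lit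 78) (nat_lit 912) (nat_lit 0) (XT.lf (nat_lit 0) (nat_lit 4878939150) (nat_lit 988) (nat_lit 6495612049) (nat_lit 76) (nat_lit 1095816014) (nat_lit 433) (nat_lit 5) (nat_lit 446) (nat_lit 5) (nat_lit 434) (nat_lit 5) (nat_lit 590) (nat_lit 559) (nat_lit 411)) (XT.lf (nat_lit 0) (nat_lit 465255966) (nat_lit 912) (nat_lit 6148195694) (nat_lit 988) (nat_lit 5985282679) (nat_lit 421) (nat_lit 5) (nat_lit 433) (nat_lit 5) (nat_lit 434) (nat_lit 5) (nat_lit 591) (nat_lit 559) (nat_lit 410))))) (XT.nd (nat_lit 156) (nat_lit 912) (nat_lit 0) (XT.nd (nat_lit 78) (nat_lit 836) (nat_lit 0) (XT.lf (nat_lit 0) (nat_lit 7641282040) (nat_lit 912) (nat_lit 772259210) (nat_lit 988) (nat_lit 4315510555) (nat_lit 421) (nat_lit 5) (nat_lit 433) (nat_lit 5) (nat_lit 434) (nat_lit 5) (nat_lit 592) (nat_lit 559) (nat_lit 409)) (XT.lf (nat_lit 0) (nat_lit 2083464661) (nat_lit 836) (nat_lit 8197834103) (nat_lit 912) (nat_lit 2580044251) (nat_lit 410) (nat_lit 5) (nat_lit 421) (nat_lit 5) (nat_lit 422) (nat_lit 5) (nat_lit 593)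 (nat_lit 559) (nat_lit 408))) (XT.nd (nat_lit 78) (nat_lit 912) (nat_lit 0) (XT.lf (nat_lit 0) (nat_lit 9449862183) (nat_lit 836) (nat_lit 2763488099) (nat_lit 912) (nat_lit 782391694) (nat_lit 410) (nat_lit 5) (nat_lit 421) (nat_lit 5) (nat_lit 422) (nat_lit 5) (nat_lit 594) (nat_lit 559) (nat_lit 407)) (XT.nd (nat_lit 78) (nat_lit 0) (nat_lit 0) (XT.lf (nat_lit 0) (nat_lit 1068641678) (nat_lit 912) (nat_lit 9288071352) (nat_lit 76) (nat_lit 2775355769) (nat_lit 398) (nat_lit 5) (nat_lit 410) (nat_lit 5) (nat_lit 399) (nat_lit 5) (nat_lit 595) (nat_lit 559) (nat_lit 406)) (XT.lf (nat_lit 0) (nat_lit 2976520788) (nat_lit 912) (nat_lit 1876681525) (nat_lit 76) (nat_lit 8417211050) (nat_lit 398) (nat_lit 5) (nat_lit 410) (nat_lit 5) (nat_lit 399) (nat_lit 5) (nat_lit 596) (nat_lit 559) (nat_lit 405))))))) (XT.nd (nat_lit 780) (nat_lit 10868) (nat_lit 0) (XT.nd (nat_lit 390) (nat_lit 2280) (nat_lit 0) (XT.nd (nat_lit 156) (nat_lit 1596) (nat_lit 0) (XT.nd (nat_lit 78) (nat_lit 0) (nat_lit 0) (XT.lf (nat_lit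 0) (nat_lit 4953322347) (nat_lit 912) (nat_lit 7669790164) (nat_lit 76) (nat_lit 787797661) (nat_lit 387) (nat_lit 5) (nat_lit 399) (nat_lit 5) (nat_lit 388) (nat_lit 5) (nat_lit 597) (nat_lit 559) (nat_lit 404)) (XT.lf (nat_lit 0) (nat_lit 7002901435) (nat_lit 912) (nat_lit 61519379) (nat_lit 76) (nat_lit 6489131912) (nat_lit 387) (nat_lit 5) (nat_lit 399) (nat_lit 5) (nat_lit 388) (nat_lit 5) (nat_lit 598) (nat_lit 559) (nat_lit 403))) (XT.nd (nat_lit 78) (nat_lit 760) (nat_lit 0) (XT.lf (nat_lit 0) (nat_lit 7789263626) (nat_lit 836) (nat_lit 1343432684) (nat_lit 912) (nat_lit 4565567962) (nat_lit 376) (nat_lit 5) (nat_lit 387) (nat_lit 5) (nat_lit 388) (nat_lit 5) (nat_lit 599) (nat_lit 559) (nat_lit 402)) (XT.nd (nat_lit 78) (nat_lit 0) (nat_lit 0) (XT.lf (nat_lit 0) (nat_lit 1936307510) (nat_lit 760) (nat_lit 9399725852) (nat_lit 836) (nat_lit 2509218375) (nat_lit 366) (nat_lit 5) (nat_lit 376) (nat_lit 5) (nat_lit 377) (nat_lit 5) (nat_lit 600) (nat_lit 559) (nat_lit 401)) (XT.lf (nat_lit 0) (nat_lit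 9997729091) (nat_lit 760) (nat_lit 3623135604) (nat_lit 836) (nat_lit 373566306) (nat_lit 366) (nat_lit 5) (nat_lit 376) (nat_lit 5) (nat_lit 377) (nat_lit 5) (nat_lit 601) (nat_lit 559) (nat_lit 400))))) (XT.nd (nat_lit 156) (nat_lit 1444) (nat_lit 0) (XT.nd (nat_lit 78) (nat_lit 0) (nat_lit 0) (XT.lf (nat_lit 0) (nat_lit 1811836481) (nat_lit 836) (nat_lit 10056920813) (nat_lit 76) (nat_lit 2276988617) (nat_lit 355) (nat_lit 5) (nat_lit 366) (nat_lit 5) (nat_lit 356) (nat_lit 5) (nat_lit 602) (nat_lit 559) (nat_lit 399)) (XT.lf (nat_lit 0) (nat_lit 4076155012) (nat_lit 836) (nat_lit 1947878637) (nat_lit 76) (nat_lit 8275200457) (nat_lit 355) (nat_lit 5) (nat_lit 366) (nat_lit 5) (nat_lit 356) (nat_lit 5) (nat_lit 603) (nat_lit 559) (nat_lit 398))) (XT.nd (nat_lit 78) (nat_lit 760) (nat_lit 0) (XT.lf (nat_lit 0) (nat_lit 6395535657) (nat_lit 684) (nat_lit 21173020) (nat_lit 760) (nat_lit 8038464967) (nat_lit 346) (nat_lit 5) (nat_lit 355) (nat_lit 5) (nat_lit 356) (nat_lit 5) (nat_lit 604) (nat_lit 559)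 (nat_lit 397)) (XT.nd (nat_lit 78) (nat_lit 0) (nat_lit 0) (XT.lf (nat_lit 0) (nat_lit 270281074) (nat_lit 760) (nat_lit 8577870719) (nat_lit 836) (nat_lit 5765199157) (nat_lit 336) (nat_lit 5) (nat_lit 346) (nat_lit 5) (nat_lit 347) (nat_lit 5) (nat_lit 605) (nat_lit 559) (nat_lit 396)) (XT.lf (nat_lit 0) (nat_lit 8864172393) (nat_lit 760) (nat_lit 2507952922) (nat_lit 836) (nat_lit 3401688990) (nat_lit 336) (nat_lit 5) (nat_lit 346) (nat_lit 5) (nat_lit 347) (nat_lit 5) (nat_lit 606) (nat_lit 559) (nat_lit 395)))))) (XT.nd (nat_lit 1950) (nat_lit 1824) (nat_lit 0) (XT.nd (nat_lit 1716) (nat_lit 8284) (nat_lit 0) (XT.nd (nat_lit 78) (nat_lit 76) (nat_lit 0) (XT.lf (nat_lit 0) (nat_lit 2692149401) (nat_lit 684) (nat_lit 11285694202) (nat_lit 760) (nat_lit 959018542) (nat_lit 327) (nat_lit 5) (nat_lit 336) (nat_lit 5) (nat_lit 337) (nat_lit 5) (nat_lit 607) (nat_lit 559) (nat_lit 394)) (XT.lf (nat_lit 0) (nat_lit 1558862247) (nat_lit 760) (nat_lit 3594871933) (nat_lit 76) (nat_lit 9948309145) (nat_lit 326)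 (nat_lit 5) (nat_lit 336) (nat_lit 5) (nat_lit 327) (nat_lit 5) (nat_lit 608) (nat_lit 559) (nat_lit 393))) (XT.nd (nat_lit 78) (nat_lit 456) (nat_lit 0) (XT.lf (nat_lit 0) (nat_lit 1079449100) (nat_lit 608) (nat_lit 15314474806) (nat_lit 76) (nat_lit 2792985844) (nat_lit 223) (nat_lit 5) (nat_lit 231) (nat_lit 5) (nat_lit 224) (nat_lit 5) (nat_lit 629) (nat_lit 559) (nat_lit 372)) (XT.nd (nat_lit 78) (nat_lit 456) (nat_lit 0) (XT.lf (nat_lit 0) (nat_lit 5119443906) (nat_lit 608) (nat_lit 3836332410) (nat_lit 76) (nat_lit 10457649213) (nat_lit 223) (nat_lit 5) (nat_lit 231) (nat_lit 5) (nat_lit 224) (nat_lit 5) (nat_lit 630) (nat_lit 559) (nat_lit 371)) (XT.lf (nat_lit 0) (nat_lit 7965367707) (nat_lit 456) (nat_lit 1319147104) (nat_lit 532) (nat_lit 10359071585) (nat_lit 217) (nat_lit 5) (nat_lit 223) (nat_lit 5) (nat_lit 224) (nat_lit 5) (nat_lit 631) (nat_lit 559) (nat_lit 370))))) (XT.nd (nat_lit 234) (nat_lit 836) (nat_lit 0) (XT.nd (nat_lit 78) (nat_lit 532) (nat_lit 0) (XT.lf (nat_lit 0) (nat_lit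 126213378) (nat_lit 456) (nat_lit 13468034788) (nat_lit 532) (nat_lit 6282875383) (nat_lit 211) (nat_lit 5) (nat_lit 217) (nat_lit 5) (nat_lit 218) (nat_lit 5) (nat_lit 632) (nat_lit 559) (nat_lit 369)) (XT.nd (nat_lit 78) (nat_lit 532) (nat_lit 0) (XT.lf (nat_lit 0) (nat_lit 12305721290) (nat_lit 456) (nat_lit 5764195648) (nat_lit 532) (nat_lit 2043819973) (nat_lit 211) (nat_lit 5) (nat_lit 217) (nat_lit 5) (nat_lit 218) (nat_lit 5) (nat_lit 633) (nat_lit 559) (nat_lit 368)) (XT.lf (nat_lit 0) (nat_lit 2285374399) (nat_lit 532) (nat_lit 15961848774) (nat_lit 76) (nat_lit 2106858360) (nat_lit 204) (nat_lit 5) (nat_lit 211) (nat_lit 5) (nat_lit 205) (nat_lit 5) (nat_lit 634) (nat_lit 559) (nat_lit 367)))) (XT.nd (nat_lit 78) (nat_lit 836) (nat_lit 0) (XT.lf (nat_lit 0) (nat_lit 6757572679) (nat_lit 532) (nat_lit 3718322314) (nat_lit 76) (nat_lit 10121392392) (nat_lit 204) (nat_lit 5) (nat_lit 211) (nat_lit 5) (nat_lit 205) (nat_lit 5) (nat_lit 635) (nat_lit 559) (nat_lit 366)) (XT.nd (nat_lit 78) (nat_lit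 380) (nat_lit 0) (XT.lf (nat_lit 0) (nat_lit 8876285524) (nat_lit 456) (nat_lit 2493545251) (nat_lit 532) (nat_lit 9474514525) (nat_lit 198) (nat_lit 5) (nat_lit 204) (nat_lit 5) (nat_lit 205) (nat_lit 5) (nat_lit 636) (nat_lit 559) (nat_lit 365)) (XT.lf (nat_lit 0) (nat_lit 638625479) (nat_lit 380) (nat_lit 15494681695) (nat_lit 456) (nat_lit 4961857993) (nat_lit 193) (nat_lit 5) (nat_lit 198) (nat_lit 5) (nat_lit 199) (nat_lit 5) (nat_lit 637) (nat_lit 559) (nat_lit 364))))))))
noncomputable def xc142 : XT := (XT.nd (nat_lit 75348) (nat_lit 0) (nat_lit 27664) (XT.nd (nat_lit 780) (nat_lit 1444) (nat_lit 0) (XT.nd (nat_lit 390) (nat_lit 1292) (nat_lit 0) (XT.nd (nat_lit 156) (nat_lit 760) (nat_lit 0) (XT.nd (nat_lit 78) (nat_lit 532) (nat_lit 0) (XT.lf (nat_lit 0) (nat_lit 13632754611) (nat_lit 380) (nat_lit 7449121903) (nat_lit 456) (nat_lit 267328701) (nat_lit 193) (nat_lit 5) (nat_lit 198) (nat_lit 5) (nat_lit 199) (nat_lit 5) (nat_lit 638) (nat_lit 559) (nat_lit 363)) (XT.lf (nat_lit 0) (nat_lit 4494778715)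 (nat_lit 532) (nat_lit 16303872491) (nat_lit 76) (nat_lit 808428370) (nat_lit 186) (nat_lit 5) (nat_lit 193) (nat_lit 5) (nat_lit 187) (nat_lit 5) (nat_lit 639) (nat_lit 559) (nat_lit 362))) (XT.nd (nat_lit 78) (nat_lit 760) (nat_lit 0) (XT.lf (nat_lit 0) (nat_lit 9443252212) (nat_lit 532) (nat_lit 3242789890) (nat_lit 76) (nat_lit 9182140151) (nat_lit 186) (nat_lit 5) (nat_lit 193) (nat_lit 5) (nat_lit 187) (nat_lit 5) (nat_lit 640) (nat_lit 559) (nat_lit 361)) (XT.nd (nat_lit 78) (nat_lit 380) (nat_lit 0) (XT.lf (nat_lit 0) (nat_lit 10203407122) (nat_lit 380) (nat_lit 4346911633) (nat_lit 456) (nat_lit 7582995989) (nat_lit 181) (nat_lit 5) (nat_lit 186) (nat_lit 5) (nat_lit 187) (nat_lit 5) (nat_lit 641) (nat_lit 559) (nat_lit 360)) (XT.lf (nat_lit 0) (nat_lit 1542279047) (nat_lit 380) (nat_lit 18269589706) (nat_lit 456) (nat_lit 2590834517) (nat_lit 176) (nat_lit 5) (nat_lit 181) (nat_lit 5) (nat_lit 182) (nat_lit 5) (nat_lit 642) (nat_lit 559) (nat_lit 359))))) (XT.nd (nat_lit 156) (nat_lit 836) (nat_lit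 0) (XT.nd (nat_lit 78) (nat_lit 380) (nat_lit 0) (XT.lf (nat_lit 0) (nat_lit 2571182530) (nat_lit 456) (nat_lit 7285806041) (nat_lit 76) (nat_lit 12818110117) (nat_lit 175) (nat_lit 5) (nat_lit 181) (nat_lit 5) (nat_lit 176) (nat_lit 5) (nat_lit 643) (nat_lit 559) (nat_lit 358)) (XT.lf (nat_lit 0) (nat_lit 6620174221) (nat_lit 380) (nat_lit 1218160019) (nat_lit 456) (nat_lit 15113533768) (nat_lit 170) (nat_lit 5) (nat_lit 175) (nat_lit 5) (nat_lit 176) (nat_lit 5) (nat_lit 644) (nat_lit 559) (nat_lit 357))) (XT.nd (nat_lit 78) (nat_lit 836) (nat_lit 0) (XT.lf (nat_lit 0) (nat_lit 13302957671) (nat_lit 456) (nat_lit 2389623687) (nat_lit 76) (nat_lit 7539748993) (nat_lit 170) (nat_lit 5) (nat_lit 176) (nat_lit 5) (nat_lit 171) (nat_lit 5) (nat_lit 645) (nat_lit 559) (nat_lit 356)) (XT.nd (nat_lit 78) (nat_lit 456) (nat_lit 0) (XT.lf (nat_lit 0) (nat_lit 11970571189) (nat_lit 380) (nat_lit 6985827440) (nat_lit 456) (nat_lit 4560413017) (nat_lit 165) (nat_lit 5) (nat_lit 170) (nat_lit 5) (nat_lit 171) (nat_lit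 5) (nat_lit 646) (nat_lit 559) (nat_lit 355)) (XT.lf (nat_lit 0) (nat_lit 944967761) (nat_lit 456) (nat_lit 20953280815) (nat_lit 76) (nat_lit 1907794166) (nat_lit 159) (nat_lit 5) (nat_lit 165) (nat_lit 5) (nat_lit 160) (nat_lit 5) (nat_lit 647) (nat_lit 559) (nat_lit 354)))))) (XT.nd (nat_lit 390) (nat_lit 304) (nat_lit 0) (XT.nd (nat_lit 156) (nat_lit 760) (nat_lit 0) (XT.nd (nat_lit 78) (nat_lit 380) (nat_lit 0) (XT.lf (nat_lit 0) (nat_lit 6617501636) (nat_lit 456) (nat_lit 6489933774) (nat_lit 76) (nat_lit 10990658168) (nat_lit 159) (nat_lit 5) (nat_lit 165) (nat_lit 5) (nat_lit 160) (nat_lit 5) (nat_lit 648) (nat_lit 559) (nat_lit 353)) (XT.lf (nat_lit 0) (nat_lit 8362847375) (nat_lit 380) (nat_lit 4088851749) (nat_lit 456) (nat_lit 11943322240) (nat_lit 154) (nat_lit 5) (nat_lit 159) (nat_lit 5) (nat_lit 160) (nat_lit 5) (nat_lit 649) (nat_lit 559) (nat_lit 352))) (XT.nd (nat_lit 78) (nat_lit 760) (nat_lit 0) (XT.lf (nat_lit 0) (nat_lit 18473549522) (nat_lit 456) (nat_lit 1139375351) (nat_lit 76)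 (nat_lit 5083543638) (nat_lit 154) (nat_lit 5) (nat_lit 160) (nat_lit 5) (nat_lit 155) (nat_lit 5) (nat_lit 650) (nat_lit 559) (nat_lit 351)) (XT.nd (nat_lit 78) (nat_lit 456) (nat_lit 0) (XT.lf (nat_lit 0) (nat_lit 14201088866) (nat_lit 304) (nat_lit 10528099528) (nat_lit 380) (nat_lit 272489363) (nat_lit 150) (nat_lit 5) (nat_lit 154) (nat_lit 5) (nat_lit 155) (nat_lit 5) (nat_lit 651) (nat_lit 559) (nat_lit 350)) (XT.lf (nat_lit 0) (nat_lit 4563755931) (nat_lit 380) (nat_lit 1188579173) (nat_lit 456) (nat_lit 19559275222) (nat_lit 144) (nat_lit 5) (nat_lit 149) (nat_lit 5) (nat_lit 150) (nat_lit 5) (nat_lit 652) (nat_lit 559) (nat_lit 349))))) (XT.nd (nat_lit 73944) (nat_lit 0) (nat_lit 30552) (XT.nd (nat_lit 78) (nat_lit 304) (nat_lit 0) (XT.lf (nat_lit 0) (nat_lit 12015222432) (nat_lit 456) (nat_lit 5310330219) (nat_lit 76) (nat_lit 8299728744) (nat_lit 144) (nat_lit 5) (nat_lit 150) (nat_lit 5) (nat_lit 145) (nat_lit 5) (nat_lit 653) (nat_lit 559) (nat_lit 348)) (XT.lf (nat_lit 0) (nat_lit 10557306513)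 (nat_lit 304) (nat_lit 7916712601) (nat_lit 380) (nat_lit 7469793909) (nat_lit 140) (nat_lit 5) (nat_lit 144) (nat_lit 5) (nat_lit 145) (nat_lit 5) (nat_lit 654) (nat_lit 559) (nat_lit 347))) (XT.nd (nat_lit 78) (nat_lit 0) (nat_lit 0) (XT.lf (nat_lit 0) (nat_lit 540521041) (nat_lit 0) (nat_lit 540521041) (nat_lit 1596) (nat_lit 3675224804) (nat_lit 542) (nat_lit 5) (nat_lit 542) (nat_lit 3) (nat_lit 563) (nat_lit 3) (nat_lit 560) (nat_lit 560) (nat_lit 440)) (XT.nd (nat_lit 78) (nat_lit 0) (nat_lit 0) (XT.lf (nat_lit 0) (nat_lit 2999296215) (nat_lit 1596) (nat_lit 3725038887) (nat_lit 1672) (nat_lit 2866959527) (nat_lit 542) (nat_lit 5) (nat_lit 563) (nat_lit 3) (nat_lit 564) (nat_lit 5) (nat_lit 561) (nat_lit 560) (nat_lit 439)) (XT.lf (nat_lit 76) (nat_lit 1071500225) (nat_lit 0) (nat_lit 2775037728) (nat_lit 1672) (nat_lit 5825228420) (nat_lit 543) (nat_lit 5) (nat_lit 542) (nat_lit 5) (nat_lit 564) (nat_lit 5) (nat_lit 562) (nat_lit 560) (nat_lit 438))))))) (XT.nd (nat_lit 780) (nat_lit 1444) (nat_lit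 0) (XT.nd (nat_lit 390) (nat_lit 1520) (nat_lit 0) (XT.nd (nat_lit 156) (nat_lit 0) (nat_lit 0) (XT.nd (nat_lit 78) (nat_lit 0) (nat_lit 0) (XT.lf (nat_lit 0) (nat_lit 4723593699) (nat_lit 1596) (nat_lit 3758524274) (nat_lit 1672) (nat_lit 1271473549) (nat_lit 543) (nat_lit 5) (nat_lit 564) (nat_lit 5) (nat_lit 565) (nat_lit 5) (nat_lit 563) (nat_lit 560) (nat_lit 437)) (XT.lf (nat_lit 76) (nat_lit 1165849123) (nat_lit 0) (nat_lit 4458258985) (nat_lit 1672) (nat_lit 4212828044) (nat_lit 544) (nat_lit 5) (nat_lit 543) (nat_lit 5) (nat_lit 565) (nat_lit 5) (nat_lit 564) (nat_lit 560) (nat_lit 436))) (XT.nd (nat_lit 78) (nat_lit 0) (nat_lit 76) (XT.lf (nat_lit 76) (nat_lit 6228615004) (nat_lit 0) (nat_lit 319530868) (nat_lit 1672) (nat_lit 3373692842) (nat_lit 544) (nat_lit 5) (nat_lit 543) (nat_lit 5) (nat_lit 565) (nat_lit 5) (nat_lit 565) (nat_lit 560) (nat_lit 435)) (XT.nd (nat_lit 78) (nat_lit 0) (nat_lit 0) (XT.lf (nat_lit 76) (nat_lit 1365502368) (nat_lit 0) (nat_lit 6140094956) (nat_lit 1672) (nat_lit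 2502544622) (nat_lit 545) (nat_lit 5) (nat_lit 544) (nat_lit 5) (nat_lit 566) (nat_lit 5) (nat_lit 566) (nat_lit 560) (nat_lit 434)) (XT.lf (nat_lit 76) (nat_lit 6562126381) (nat_lit 0) (nat_lit 1927995170) (nat_lit 1672) (nat_lit 1605892467) (nat_lit 545) (nat_lit 5) (nat_lit 544) (nat_lit 5) (nat_lit 566) (nat_lit 5) (nat_lit 567) (nat_lit 560) (nat_lit 433))))) (XT.nd (nat_lit 156) (nat_lit 0) (nat_lit 76) (XT.nd (nat_lit 78) (nat_lit 1672) (nat_lit 0) (XT.lf (nat_lit 76) (nat_lit 1672195667) (nat_lit 0) (nat_lit 7829833811) (nat_lit 1672) (nat_lit 683461415) (nat_lit 546) (nat_lit 5) (nat_lit 545) (nat_lit 5) (nat_lit 567) (nat_lit 5) (nat_lit 568) (nat_lit 560) (nat_lit 432)) (XT.lf (nat_lit 0) (nat_lit 272308954) (nat_lit 1672) (nat_lit 3272144466) (nat_lit 1748) (nat_lit 6731906303) (nat_lit 523) (nat_lit 5) (nat_lit 545) (nat_lit 5) (nat_lit 546) (nat_lit 5) (nat_lit 569) (nat_lit 560) (nat_lit 431))) (XT.nd (nat_lit 78) (nat_lit 0) (nat_lit 0) (XT.lf (nat_lit 0) (nat_lit 1239108528) (nat_lit 1672)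 (nat_lit 8289265206) (nat_lit 1748) (nat_lit 840561689) (nat_lit 524) (nat_lit 5) (nat_lit 546) (nat_lit 5) (nat_lit 547) (nat_lit 5) (nat_lit 570) (nat_lit 560) (nat_lit 430)) (XT.nd (nat_lit 78) (nat_lit 0) (nat_lit 0) (XT.lf (nat_lit 0) (nat_lit 2253130094) (nat_lit 1672) (nat_lit 2915330741) (nat_lit 1748) (nat_lit 5294345217) (nat_lit 524) (nat_lit 5) (nat_lit 546) (nat_lit 5) (nat_lit 547) (nat_lit 5) (nat_lit 571) (nat_lit 560) (nat_lit 429)) (XT.lf (nat_lit 76) (nat_lit 2588596421) (nat_lit 0) (nat_lit 698298996) (nat_lit 1748) (nat_lit 7271670520) (nat_lit 525) (nat_lit 5) (nat_lit 524) (nat_lit 5) (nat_lit 547) (nat_lit 5) (nat_lit 572) (nat_lit 560) (nat_lit 428)))))) (XT.nd (nat_lit 390) (nat_lit 1596) (nat_lit 0) (XT.nd (nat_lit 156) (nat_lit 0) (nat_lit 76) (XT.nd (nat_lit 78) (nat_lit 0) (nat_lit 0) (XT.lf (nat_lit 0) (nat_lit 4369058779) (nat_lit 1672) (nat_lit 2450669421) (nat_lit 1748) (nat_lit 3835959455) (nat_lit 525) (nat_lit 5) (nat_lit 547) (nat_lit 5) (nat_lit 548) (nat_lit 5) (nat_lit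 573) (nat_lit 560) (nat_lit 427)) (XT.lf (nat_lit 76) (nat_lit 3204915006) (nat_lit 0) (nat_lit 2276677317) (nat_lit 1748) (nat_lit 5272986013) (nat_lit 526) (nat_lit 5) (nat_lit 525) (nat_lit 5) (nat_lit 548) (nat_lit 5) (nat_lit 574) (nat_lit 560) (nat_lit 426))) (XT.nd (nat_lit 78) (nat_lit 0) (nat_lit 0) (XT.lf (nat_lit 0) (nat_lit 6631815358) (nat_lit 1672) (nat_lit 1875498139) (nat_lit 1748) (nat_lit 2347825605) (nat_lit 526) (nat_lit 5) (nat_lit 548) (nat_lit 5) (nat_lit 549) (nat_lit 5) (nat_lit 575) (nat_lit 560) (nat_lit 425)) (XT.nd (nat_lit 78) (nat_lit 0) (nat_lit 76) (XT.lf (nat_lit 76) (nat_lit 3937143520) (nat_lit 0) (nat_lit 3892441072) (nat_lit 1748) (nat_lit 3127636682) (nat_lit 527) (nat_lit 5) (nat_lit 526) (nat_lit 5) (nat_lit 549) (nat_lit 5) (nat_lit 576) (nat_lit 560) (nat_lit 424)) (XT.lf (nat_lit 0) (nat_lit 9053439167) (nat_lit 1672) (nat_lit 1186841863) (nat_lit 1748) (nat_lit 821022467) (nat_lit 527) (nat_lit 5) (nat_lit 549) (nat_lit 5) (nat_lit 550) (nat_lit 5) (nat_lit 577)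 (nat_lit 560) (nat_lit 423))))) (XT.nd (nat_lit 234) (nat_lit 0) (nat_lit 76) (XT.nd (nat_lit 78) (nat_lit 1748) (nat_lit 0) (XT.lf (nat_lit 76) (nat_lit 4788478569) (nat_lit 0) (nat_lit 5554641630) (nat_lit 1748) (nat_lit 823521164) (nat_lit 528) (nat_lit 5) (nat_lit 527) (nat_lit 5) (nat_lit 550) (nat_lit 5) (nat_lit 578) (nat_lit 560) (nat_lit 422)) (XT.nd (nat_lit 78) (nat_lit 0) (nat_lit 76) (XT.lf (nat_lit 0) (nat_lit 372091902) (nat_lit 1748) (nat_lit 388815888) (nat_lit 1824) (nat_lit 10513276697) (nat_lit 504) (nat_lit 5) (nat_lit 527) (nat_lit 5) (nat_lit 528) (nat_lit 5) (nat_lit 579) (nat_lit 560) (nat_lit 421)) (XT.lf (nat_lit 0) (nat_lit 1630147507) (nat_lit 1748) (nat_lit 5631280246) (nat_lit 1824) (nat_lit 4121351635) (nat_lit 505) (nat_lit 5) (nat_lit 528) (nat_lit 5) (nat_lit 529) (nat_lit 5) (nat_lit 580) (nat_lit 560) (nat_lit 420)))) (XT.nd (nat_lit 78) (nat_lit 0) (nat_lit 76) (XT.lf (nat_lit 76) (nat_lit 516364604) (nat_lit 0) (nat_lit 2393172424) (nat_lit 1824) (nat_lit 8584086614)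 (nat_lit 506) (nat_lit 5) (nat_lit 505) (nat_lit 5) (nat_lit 529) (nat_lit 5) (nat_lit 581) (nat_lit 560) (nat_lit 419)) (XT.nd (nat_lit 78) (nat_lit 0) (nat_lit 0) (XT.lf (nat_lit 0) (nat_lit 4254644674) (nat_lit 1748) (nat_lit 4771569058) (nat_lit 1824) (nat_lit 2579669337) (nat_lit 506) (nat_lit 5) (nat_lit 529) (nat_lit 5) (nat_lit 530) (nat_lit 5) (nat_lit 582) (nat_lit 560) (nat_lit 418)) (XT.lf (nat_lit 76) (nat_lit 1550978639) (nat_lit 0) (nat_lit 4087270306) (nat_lit 1824) (nat_lit 6081907725) (nat_lit 507) (nat_lit 5) (nat_lit 506) (nat_lit 5) (nat_lit 530) (nat_lit 5) (nat_lit 583) (nat_lit 560) (nat_lit 417))))))))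
noncomputable def xc143 : XT := (XT.nd (nat_lit 1560) (nat_lit 13224) (nat_lit 0) (XT.nd (nat_lit 780) (nat_lit 5016) (nat_lit 0) (XT.nd (nat_lit 390) (nat_lit 2888) (nat_lit 0) (XT.nd (nat_lit 156) (nat_lit 1900) (nat_lit 0) (XT.nd (nat_lit 78) (nat_lit 1748) (nat_lit 0) (XT.lf (nat_lit 0) (nat_lit 7073824714) (nat_lit 1748) (nat_lit 3789771665) (nat_lit 76) (nat_lit 972634236) (nat_lit 507) (nat_lit 5) (nat_lit 530) (nat_lit 5) (nat_lit 508) (nat_lit 5) (nat_lit 584) (nat_lit 560) (nat_lit 416)) (XT.lf (nat_lit 0) (nat_lit 2714013843) (nat_lit 1748) (nat_lit 5854960536) (nat_lit 1824) (nat_lit 3385035252) (nat_lit 484) (nat_lit 5) (nat_lit 507) (nat_lit 5) (nat_lit 508) (nat_lit 5) (nat_lit 585) (nat_lit 560) (nat_lit 415))) (XT.nd (nat_lit 78) (nat_lit 1900) (nat_lit 0) (XT.lf (nat_lit 0) (nat_lit 9387587874) (nat_lit 1748) (nat_lit 718239137) (nat_lit 1824) (nat_lit 1968082045) (nat_lit 484) (nat_lit 5) (nat_lit 507) (nat_lit 5) (nat_lit 508) (nat_lit 5) (nat_lit 586) (nat_lit 560) (nat_lit 414)) (XT.nd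 (nat_lit 78) (nat_lit 76) (nat_lit 0) (XT.lf (nat_lit 0) (nat_lit 4009952839) (nat_lit 1824) (nat_lit 7705502316) (nat_lit 1900) (nat_lit 479911353) (nat_lit 460) (nat_lit 5) (nat_lit 484) (nat_lit 5) (nat_lit 485) (nat_lit 5) (nat_lit 587) (nat_lit 560) (nat_lit 413)) (XT.lf (nat_lit 0) (nat_lit 1034058199) (nat_lit 1900) (nat_lit 1465752363) (nat_lit 76) (nat_lit 9819115547) (nat_lit 459) (nat_lit 5) (nat_lit 484) (nat_lit 5) (nat_lit 460) (nat_lit 5) (nat_lit 588) (nat_lit 560) (nat_lit 412))))) (XT.nd (nat_lit 156) (nat_lit 1824) (nat_lit 0) (XT.nd (nat_lit 78) (nat_lit 0) (nat_lit 0) (XT.lf (nat_lit 0) (nat_lit 2612754720) (nat_lit 1140) (nat_lit 7017998974) (nat_lit 76) (nat_lit 2813323056) (nat_lit 445) (nat_lit 5) (nat_lit 460) (nat_lit 5) (nat_lit 446) (nat_lit 5) (nat_lit 589) (nat_lit 560) (nat_lit 411)) (XT.lf (nat_lit 0) (nat_lit 4236676525) (nat_lit 1140) (nat_lit 124308905) (nat_lit 76) (nat_lit 8210472695) (nat_lit 445) (nat_lit 5) (nat_lit 460) (nat_lit 5) (nat_lit 446) (nat_lit 5) (nat_lit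 590) (nat_lit 560) (nat_lit 410))) (XT.nd (nat_lit 78) (nat_lit 912) (nat_lit 0) (XT.lf (nat_lit 0) (nat_lit 5932781366) (nat_lit 988) (nat_lit 5720265411) (nat_lit 76) (nat_lit 1047546989) (nat_lit 433) (nat_lit 5) (nat_lit 446) (nat_lit 5) (nat_lit 434) (nat_lit 5) (nat_lit 591) (nat_lit 560) (nat_lit 409)) (XT.nd (nat_lit 78) (nat_lit 0) (nat_lit 0) (XT.lf (nat_lit 0) (nat_lit 1373864314) (nat_lit 912) (nat_lit 6315208422) (nat_lit 988) (nat_lit 5142714816) (nat_lit 421) (nat_lit 5) (nat_lit 433) (nat_lit 5) (nat_lit 434) (nat_lit 5) (nat_lit 592) (nat_lit 560) (nat_lit 408)) (XT.lf (nat_lit 0) (nat_lit 8675777512) (nat_lit 912) (nat_lit 830889506) (nat_lit 988) (nat_lit 3458415358) (nat_lit 421) (nat_lit 5) (nat_lit 433) (nat_lit 5) (nat_lit 434) (nat_lit 5) (nat_lit 593) (nat_lit 560) (nat_lit 407)))))) (XT.nd (nat_lit 390) (nat_lit 2432) (nat_lit 0) (XT.nd (nat_lit 156) (nat_lit 1672) (nat_lit 0) (XT.nd (nat_lit 78) (nat_lit 76) (nat_lit 0) (XT.lf (nat_lit 0) (nat_lit 3019710291) (nat_lit 836) (nat_lit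 8379468276) (nat_lit 912) (nat_lit 1701093912) (nat_lit 410) (nat_lit 5) (nat_lit 421) (nat_lit 5) (nat_lit 422) (nat_lit 5) (nat_lit 594) (nat_lit 560) (nat_lit 406)) (XT.lf (nat_lit 0) (nat_lit 112766978) (nat_lit 912) (nat_lit 2722565031) (nat_lit 76) (nat_lit 10402371346) (nat_lit 409) (nat_lit 5) (nat_lit 421) (nat_lit 5) (nat_lit 410) (nat_lit 5) (nat_lit 595) (nat_lit 560) (nat_lit 405))) (XT.nd (nat_lit 78) (nat_lit 836) (nat_lit 0) (XT.lf (nat_lit 0) (nat_lit 1978401309) (nat_lit 912) (nat_lit 8572779241) (nat_lit 76) (nat_lit 2825712586) (nat_lit 398) (nat_lit 5) (nat_lit 410) (nat_lit 5) (nat_lit 399) (nat_lit 5) (nat_lit 596) (nat_lit 560) (nat_lit 404)) (XT.nd (nat_lit 78) (nat_lit 836) (nat_lit 0) (XT.lf (nat_lit 0) (nat_lit 3907018652) (nat_lit 912) (nat_lit 1030829334) (nat_lit 76) (nat_lit 8580505959) (nat_lit 398) (nat_lit 5) (nat_lit 410) (nat_lit 5) (nat_lit 399) (nat_lit 5) (nat_lit 597) (nat_lit 560) (nat_lit 403)) (XT.lf (nat_lit 0) (nat_lit 5912093024) (nat_lit 912) (nat_lit 6928489540)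 (nat_lit 76) (nat_lit 821304340) (nat_lit 387) (nat_lit 5) (nat_lit 399) (nat_lit 5) (nat_lit 388) (nat_lit 5) (nat_lit 598) (nat_lit 560) (nat_lit 402))))) (XT.nd (nat_lit 156) (nat_lit 1596) (nat_lit 0) (XT.nd (nat_lit 78) (nat_lit 0) (nat_lit 0) (XT.lf (nat_lit 0) (nat_lit 825226588) (nat_lit 836) (nat_lit 7165938077) (nat_lit 912) (nat_lit 5816448553) (nat_lit 376) (nat_lit 5) (nat_lit 387) (nat_lit 5) (nat_lit 388) (nat_lit 5) (nat_lit 599) (nat_lit 560) (nat_lit 401)) (XT.lf (nat_lit 0) (nat_lit 8816431513) (nat_lit 836) (nat_lit 1330897183) (nat_lit 912) (nat_lit 3808215745) (nat_lit 376) (nat_lit 5) (nat_lit 387) (nat_lit 5) (nat_lit 388) (nat_lit 5) (nat_lit 600) (nat_lit 560) (nat_lit 400))) (XT.nd (nat_lit 78) (nat_lit 836) (nat_lit 0) (XT.lf (nat_lit 0) (nat_lit 2857004686) (nat_lit 760) (nat_lit 9527391663) (nat_lit 836) (nat_lit 1721282922) (nat_lit 366) (nat_lit 5) (nat_lit 376) (nat_lit 5) (nat_lit 377) (nat_lit 5) (nat_lit 601) (nat_lit 560) (nat_lit 399)) (XT.nd (nat_lit 78) (nat_lit 760)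 (nat_lit 0) (XT.lf (nat_lit 0) (nat_lit 434869282) (nat_lit 836) (nat_lit 3198665042) (nat_lit 76) (nat_lit 10624573665) (nat_lit 365) (nat_lit 5) (nat_lit 376) (nat_lit 5) (nat_lit 366) (nat_lit 5) (nat_lit 602) (nat_lit 560) (nat_lit 398)) (XT.lf (nat_lit 0) (nat_lit 2649177990) (nat_lit 836) (nat_lit 9372715434) (nat_lit 76) (nat_lit 2390703230) (nat_lit 355) (nat_lit 5) (nat_lit 366) (nat_lit 5) (nat_lit 356) (nat_lit 5) (nat_lit 603) (nat_lit 560) (nat_lit 397))))))) (XT.nd (nat_lit 2184) (nat_lit 3192) (nat_lit 0) (XT.nd (nat_lit 1794) (nat_lit 7904) (nat_lit 0) (XT.nd (nat_lit 156) (nat_lit 1444) (nat_lit 0) (XT.nd (nat_lit 78) (nat_lit 684) (nat_lit 0) (XT.lf (nat_lit 0) (nat_lit 4943074955) (nat_lit 836) (nat_lit 1118852097) (nat_lit 76) (nat_lit 8507542545) (nat_lit 355) (nat_lit 5) (nat_lit 366) (nat_lit 5) (nat_lit 356) (nat_lit 5) (nat_lit 604) (nat_lit 560) (nat_lit 396)) (XT.lf (nat_lit 0) (nat_lit 7321060762) (nat_lit 760) (nat_lit 7343427259) (nat_lit 76) (nat_lit 64228292) (nat_lit 346)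 (nat_lit 5) (nat_lit 356) (nat_lit 5) (nat_lit 347) (nat_lit 5) (nat_lit 605) (nat_lit 560) (nat_lit 395))) (XT.nd (nat_lit 78) (nat_lit 684) (nat_lit 0) (XT.lf (nat_lit 0) (nat_lit 1147178496) (nat_lit 760) (nat_lit 8644533980) (nat_lit 836) (nat_lit 5098533889) (nat_lit 336) (nat_lit 5) (nat_lit 346) (nat_lit 5) (nat_lit 347) (nat_lit 5) (nat_lit 606) (nat_lit 560) (nat_lit 394)) (XT.nd (nat_lit 78) (nat_lit 684) (nat_lit 0) (XT.lf (nat_lit 0) (nat_lit 9895859567) (nat_lit 760) (nat_lit 2455274574) (nat_lit 836) (nat_lit 2703086250) (nat_lit 336) (nat_lit 5) (nat_lit 346) (nat_lit 5) (nat_lit 347) (nat_lit 5) (nat_lit 607) (nat_lit 560) (nat_lit 393)) (XT.lf (nat_lit 0) (nat_lit 3609082797) (nat_lit 684) (nat_lit 11391405756) (nat_lit 760) (nat_lit 220210961) (nat_lit 327) (nat_lit 5) (nat_lit 336) (nat_lit 5) (nat_lit 337) (nat_lit 5) (nat_lit 608) (nat_lit 560) (nat_lit 392))))) (XT.nd (nat_lit 156) (nat_lit 608) (nat_lit 0) (XT.nd (nat_lit 78) (nat_lit 456) (nat_lit 0) (XT.lf (nat_lit 0) (nat_lit 8387677295)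 (nat_lit 532) (nat_lit 530303216) (nat_lit 608) (nat_lit 9966092086) (nat_lit 237) (nat_lit 5) (nat_lit 244) (nat_lit 5) (nat_lit 245) (nat_lit 5) (nat_lit 627) (nat_lit 560) (nat_lit 373)) (XT.lf (nat_lit 0) (nat_lit 779406501) (nat_lit 456) (nat_lit 12108871509) (nat_lit 532) (nat_lit 6217678070) (nat_lit 231) (nat_lit 5) (nat_lit 237) (nat_lit 5) (nat_lit 238) (nat_lit 5) (nat_lit 628) (nat_lit 560) (nat_lit 372))) (XT.nd (nat_lit 78) (nat_lit 608) (nat_lit 0) (XT.lf (nat_lit 0) (nat_lit 12409136020) (nat_lit 456) (nat_lit 4595319050) (nat_lit 532) (nat_lit 2326492995) (nat_lit 231) (nat_lit 5) (nat_lit 237) (nat_lit 5) (nat_lit 238) (nat_lit 5) (nat_lit 629) (nat_lit 560) (nat_lit 371)) (XT.nd (nat_lit 78) (nat_lit 0) (nat_lit 0) (XT.lf (nat_lit 0) (nat_lit 1664655219) (nat_lit 608) (nat_lit 14827457482) (nat_lit 76) (nat_lit 3067240572) (nat_lit 223) (nat_lit 5) (nat_lit 231) (nat_lit 5) (nat_lit 224) (nat_lit 5) (nat_lit 630) (nat_lit 560) (nat_lit 370)) (XT.lf (nat_lit 0) (nat_lit 5774398605) (nat_lit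 608) (nat_lit 3135307275) (nat_lit 76) (nat_lit 10880914954) (nat_lit 223) (nat_lit 5) (nat_lit 231) (nat_lit 5) (nat_lit 224) (nat_lit 5) (nat_lit 631) (nat_lit 560) (nat_lit 369)))))) (XT.nd (nat_lit 390) (nat_lit 1748) (nat_lit 0) (XT.nd (nat_lit 156) (nat_lit 532) (nat_lit 0) (XT.nd (nat_lit 78) (nat_lit 456) (nat_lit 0) (XT.lf (nat_lit 0) (nat_lit 8897310057) (nat_lit 456) (nat_lit 1119642706) (nat_lit 532) (nat_lit 10008548947) (nat_lit 217) (nat_lit 5) (nat_lit 223) (nat_lit 5) (nat_lit 224) (nat_lit 5) (nat_lit 632) (nat_lit 560) (nat_lit 368)) (XT.lf (nat_lit 0) (nat_lit 905716887) (nat_lit 456) (nat_lit 13502925873) (nat_lit 532) (nat_lit 5855152026) (nat_lit 211) (nat_lit 5) (nat_lit 217) (nat_lit 5) (nat_lit 218) (nat_lit 5) (nat_lit 633) (nat_lit 560) (nat_lit 367))) (XT.nd (nat_lit 78) (nat_lit 532) (nat_lit 0) (XT.lf (nat_lit 0) (nat_lit 13313580071) (nat_lit 456) (nat_lit 5649607394) (nat_lit 532) (nat_lit 1542166113) (nat_lit 211) (nat_lit 5) (nat_lit 217) (nat_lit 5) (nat_lit 218) (nat_lit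 5) (nat_lit 634) (nat_lit 560) (nat_lit 366)) (XT.nd (nat_lit 78) (nat_lit 0) (nat_lit 0) (XT.lf (nat_lit 0) (nat_lit 2862476600) (nat_lit 532) (nat_lit 15508165798) (nat_lit 76) (nat_lit 2379873044) (nat_lit 204) (nat_lit 5) (nat_lit 211) (nat_lit 5) (nat_lit 205) (nat_lit 5) (nat_lit 635) (nat_lit 560) (nat_lit 365)) (XT.lf (nat_lit 0) (nat_lit 7413699342) (nat_lit 532) (nat_lit 3034924103) (nat_lit 76) (nat_lit 10550170747) (nat_lit 204) (nat_lit 5) (nat_lit 211) (nat_lit 5) (nat_lit 205) (nat_lit 5) (nat_lit 636) (nat_lit 560) (nat_lit 364))))) (XT.nd (nat_lit 234) (nat_lit 836) (nat_lit 0) (XT.nd (nat_lit 78) (nat_lit 456) (nat_lit 0) (XT.lf (nat_lit 0) (nat_lit 9806590599) (nat_lit 456) (nat_lit 2306284344) (nat_lit 532) (nat_lit 9138025256) (nat_lit 198) (nat_lit 5) (nat_lit 204) (nat_lit 5) (nat_lit 205) (nat_lit 5) (nat_lit 637) (nat_lit 560) (nat_lit 363)) (XT.nd (nat_lit 78) (nat_lit 76) (nat_lit 0) (XT.lf (nat_lit 0) (nat_lit 1407959404) (nat_lit 380) (nat_lit 15559972257) (nat_lit 456) (nat_lit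 4538878959) (nat_lit 193) (nat_lit 5) (nat_lit 198) (nat_lit 5) (nat_lit 199) (nat_lit 5) (nat_lit 638) (nat_lit 560) (nat_lit 362)) (XT.lf (nat_lit 0) (nat_lit 236162904) (nat_lit 456) (nat_lit 7120549726) (nat_lit 76) (nat_lit 14409388899) (nat_lit 192) (nat_lit 5) (nat_lit 198) (nat_lit 5) (nat_lit 193) (nat_lit 5) (nat_lit 639) (nat_lit 560) (nat_lit 361)))) (XT.nd (nat_lit 78) (nat_lit 380) (nat_lit 0) (XT.lf (nat_lit 0) (nat_lit 5086436720) (nat_lit 532) (nat_lit 15877973270) (nat_lit 76) (nat_lit 1064758324) (nat_lit 186) (nat_lit 5) (nat_lit 193) (nat_lit 5) (nat_lit 187) (nat_lit 5) (nat_lit 640) (nat_lit 560) (nat_lit 360)) (XT.nd (nat_lit 78) (nat_lit 380) (nat_lit 0) (XT.lf (nat_lit 0) (nat_lit 10124041207) (nat_lit 532) (nat_lit 2570413657) (nat_lit 76) (nat_lit 9601235294) (nat_lit 186) (nat_lit 5) (nat_lit 193) (nat_lit 5) (nat_lit 187) (nat_lit 5) (nat_lit 641) (nat_lit 560) (nat_lit 359)) (XT.lf (nat_lit 0) (nat_lit 11139857084) (nat_lit 380) (nat_lit 4188501538) (nat_lit 456) (nat_lit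 7237864824) (nat_lit 181) (nat_lit 5) (nat_lit 186) (nat_lit 5) (nat_lit 187) (nat_lit 5) (nat_lit 642) (nat_lit 560) (nat_lit 358))))))))
noncomputable def xc144 : XT := (XT.nd (nat_lit 75348) (nat_lit 0) (nat_lit 26144) (XT.nd (nat_lit 780) (nat_lit 684) (nat_lit 0) (XT.nd (nat_lit 390) (nat_lit 1216) (nat_lit 0) (XT.nd (nat_lit 156) (nat_lit 760) (nat_lit 0) (XT.nd (nat_lit 78) (nat_lit 76) (nat_lit 0) (XT.lf (nat_lit 0) (nat_lit 2308799059) (nat_lit 380) (nat_lit 18383129100) (nat_lit 456) (nat_lit 2149136145) (nat_lit 176) (nat_lit 5) (nat_lit 181) (nat_lit 5) (nat_lit 182) (nat_lit 5) (nat_lit 643) (nat_lit 560) (nat_lit 357)) (XT.lf (nat_lit 0) (nat_lit 3100098851) (nat_lit 456) (nat_lit 6703911147) (nat_lit 76) (nat_lit 13315024864) (nat_lit 175) (nat_lit 5) (nat_lit 181) (nat_lit 5) (nat_lit 176) (nat_lit 5) (nat_lit 644) (nat_lit 560) (nat_lit 356))) (XT.nd (nat_lit 78) (nat_lit 380) (nat_lit 0) (XT.lf (nat_lit 0) (nat_lit 7475401806) (nat_lit 380) (nat_lit 992522241) (nat_lit 456) (nat_lit 14933509225)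 (nat_lit 170) (nat_lit 5) (nat_lit 175) (nat_lit 5) (nat_lit 176) (nat_lit 5) (nat_lit 645) (nat_lit 560) (nat_lit 355)) (XT.nd (nat_lit 78) (nat_lit 380) (nat_lit 0) (XT.lf (nat_lit 0) (nat_lit 14034160251) (nat_lit 456) (nat_lit 1721070059) (nat_lit 76) (nat_lit 7932428453) (nat_lit 170) (nat_lit 5) (nat_lit 176) (nat_lit 5) (nat_lit 171) (nat_lit 5) (nat_lit 646) (nat_lit 560) (nat_lit 354)) (XT.lf (nat_lit 0) (nat_lit 12921615912) (nat_lit 380) (nat_lit 6874554053) (nat_lit 456) (nat_lit 4181750022) (nat_lit 165) (nat_lit 5) (nat_lit 170) (nat_lit 5) (nat_lit 171) (nat_lit 5) (nat_lit 647) (nat_lit 560) (nat_lit 353))))) (XT.nd (nat_lit 156) (nat_lit 760) (nat_lit 0) (XT.nd (nat_lit 78) (nat_lit 0) (nat_lit 0) (XT.lf (nat_lit 0) (nat_lit 1424761546) (nat_lit 456) (nat_lit 20651707132) (nat_lit 76) (nat_lit 2196462587) (nat_lit 159) (nat_lit 5) (nat_lit 165) (nat_lit 5) (nat_lit 160) (nat_lit 5) (nat_lit 648) (nat_lit 560) (nat_lit 352)) (XT.lf (nat_lit 0) (nat_lit 7201708952) (nat_lit 456) (nat_lit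 5913223332) (nat_lit 76) (nat_lit 11456071860) (nat_lit 159) (nat_lit 5) (nat_lit 165) (nat_lit 5) (nat_lit 160) (nat_lit 5) (nat_lit 649) (nat_lit 560) (nat_lit 351))) (XT.nd (nat_lit 78) (nat_lit 380) (nat_lit 0) (XT.lf (nat_lit 0) (nat_lit 9231965353) (nat_lit 380) (nat_lit 3916322037) (nat_lit 456) (nat_lit 11725669433) (nat_lit 154) (nat_lit 5) (nat_lit 159) (nat_lit 5) (nat_lit 160) (nat_lit 5) (nat_lit 650) (nat_lit 560) (nat_lit 350)) (XT.nd (nat_lit 78) (nat_lit 380) (nat_lit 0) (XT.lf (nat_lit 0) (nat_lit 19283417976) (nat_lit 456) (nat_lit 466893377) (nat_lit 76) (nat_lit 5431264970) (nat_lit 154) (nat_lit 5) (nat_lit 160) (nat_lit 5) (nat_lit 155) (nat_lit 5) (nat_lit 651) (nat_lit 560) (nat_lit 349)) (XT.lf (nat_lit 0) (nat_lit 164854961) (nat_lit 380) (nat_lit 10318251625) (nat_lit 76) (nat_lit 15009844758) (nat_lit 149) (nat_lit 5) (nat_lit 154) (nat_lit 5) (nat_lit 150) (nat_lit 5) (nat_lit 652) (nat_lit 560) (nat_lit 348)))))) (XT.nd (nat_lit 74178) (nat_lit 0) (nat_lit 30552) (XT.nd (nat_lit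 156) (nat_lit 304) (nat_lit 0) (XT.nd (nat_lit 78) (nat_lit 0) (nat_lit 0) (XT.lf (nat_lit 0) (nat_lit 5346992998) (nat_lit 380) (nat_lit 955419611) (nat_lit 456) (nat_lit 19506716482) (nat_lit 144) (nat_lit 5) (nat_lit 149) (nat_lit 5) (nat_lit 150) (nat_lit 5) (nat_lit 653) (nat_lit 560) (nat_lit 347)) (XT.lf (nat_lit 0) (nat_lit 12683663127) (nat_lit 456) (nat_lit 4731235624) (nat_lit 76) (nat_lit 8714312973) (nat_lit 144) (nat_lit 5) (nat_lit 150) (nat_lit 5) (nat_lit 145) (nat_lit 5) (nat_lit 654) (nat_lit 560) (nat_lit 346))) (XT.nd (nat_lit 73866) (nat_lit 0) (nat_lit 30552) (XT.lf (nat_lit 0) (nat_lit 11449245281) (nat_lit 304) (nat_lit 7818415790) (nat_lit 380) (nat_lit 7186532653) (nat_lit 140) (nat_lit 5) (nat_lit 144) (nat_lit 5) (nat_lit 145) (nat_lit 5) (nat_lit 655) (nat_lit 560) (nat_lit 345)) (XT.nd (nat_lit 78) (nat_lit 0) (nat_lit 0) (XT.lf (nat_lit 0) (nat_lit 947109829) (nat_lit 0) (nat_lit 947109829) (nat_lit 1596) (nat_lit 2941289114) (nat_lit 542) (nat_lit 5) (nat_lit 542) (nat_lit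 3) (nat_lit 563) (nat_lit 3) (nat_lit 561) (nat_lit 561) (nat_lit 438)) (XT.lf (nat_lit 0) (nat_lit 4606315628) (nat_lit 1596) (nat_lit 2987321087) (nat_lit 1672) (nat_lit 2158440555) (nat_lit 542) (nat_lit 5) (nat_lit 563) (nat_lit 3) (nat_lit 564) (nat_lit 5) (nat_lit 562) (nat_lit 561) (nat_lit 437))))) (XT.nd (nat_lit 156) (nat_lit 0) (nat_lit 76) (XT.nd (nat_lit 78) (nat_lit 0) (nat_lit 76) (XT.lf (nat_lit 76) (nat_lit 1899805264) (nat_lit 0) (nat_lit 3545601714) (nat_lit 1672) (nat_lit 4389255386) (nat_lit 543) (nat_lit 5) (nat_lit 542) (nat_lit 5) (nat_lit 564) (nat_lit 5) (nat_lit 563) (nat_lit 561) (nat_lit 436)) (XT.lf (nat_lit 0) (nat_lit 6305610281) (nat_lit 1596) (nat_lit 3008148646) (nat_lit 1672) (nat_lit 605054933) (nat_lit 543) (nat_lit 5) (nat_lit 564) (nat_lit 5) (nat_lit 565) (nat_lit 5) (nat_lit 564) (nat_lit 561) (nat_lit 435))) (XT.nd (nat_lit 78) (nat_lit 0) (nat_lit 0) (XT.lf (nat_lit 76) (nat_lit 2009280994) (nat_lit 0) (nat_lit 5191011171) (nat_lit 1672) (nat_lit 2804012007) (nat_lit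 544) (nat_lit 5) (nat_lit 543) (nat_lit 5) (nat_lit 565) (nat_lit 5) (nat_lit 565) (nat_lit 561) (nat_lit 434)) (XT.nd (nat_lit 78) (nat_lit 0) (nat_lit 76) (XT.lf (nat_lit 76) (nat_lit 7157221509) (nat_lit 0) (nat_lit 956889138) (nat_lit 1672) (nat_lit 1977370034) (nat_lit 544) (nat_lit 5) (nat_lit 543) (nat_lit 5) (nat_lit 565) (nat_lit 5) (nat_lit 566) (nat_lit 561) (nat_lit 433)) (XT.lf (nat_lit 76) (nat_lit 2224231997) (nat_lit 0) (nat_lit 6839723633) (nat_lit 1672) (nat_lit 1116091315) (nat_lit 545) (nat_lit 5) (nat_lit 544) (nat_lit 5) (nat_lit 566) (nat_lit 5) (nat_lit 567) (nat_lit 561) (nat_lit 432))))))) (XT.nd (nat_lit 780) (nat_lit 2964) (nat_lit 0) (XT.nd (nat_lit 390) (nat_lit 0) (nat_lit 76) (XT.nd (nat_lit 156) (nat_lit 0) (nat_lit 0) (XT.nd (nat_lit 78) (nat_lit 1596) (nat_lit 0) (XT.lf (nat_lit 76) (nat_lit 7508486146) (nat_lit 0) (nat_lit 2532071521) (nat_lit 1672) (nat_lit 229672867) (nat_lit 545) (nat_lit 5) (nat_lit 544) (nat_lit 5) (nat_lit 566) (nat_lit 5) (nat_lit 568) (nat_lit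 561) (nat_lit 431)) (XT.lf (nat_lit 0) (nat_lit 676499348) (nat_lit 1672) (nat_lit 7819890351) (nat_lit 1748) (nat_lit 1865524243) (nat_lit 523) (nat_lit 5) (nat_lit 545) (nat_lit 5) (nat_lit 546) (nat_lit 5) (nat_lit 569) (nat_lit 561) (nat_lit 430))) (XT.nd (nat_lit 78) (nat_lit 0) (nat_lit 76) (XT.lf (nat_lit 0) (nat_lit 1615487484) (nat_lit 1672) (nat_lit 2495288781) (nat_lit 1748) (nat_lit 6344270168) (nat_lit 523) (nat_lit 5) (nat_lit 545) (nat_lit 5) (nat_lit 546) (nat_lit 5) (nat_lit 570) (nat_lit 561) (nat_lit 429)) (XT.nd (nat_lit 78) (nat_lit 0) (nat_lit 0) (XT.lf (nat_lit 0) (nat_lit 2577708153) (nat_lit 1672) (nat_lit 7588752886) (nat_lit 1748) (nat_lit 383492591) (nat_lit 524) (nat_lit 5) (nat_lit 546) (nat_lit 5) (nat_lit 547) (nat_lit 5) (nat_lit 571) (nat_lit 561) (nat_lit 428)) (XT.lf (nat_lit 0) (nat_lit 3586249024) (nat_lit 1672) (nat_lit 2124325959) (nat_lit 1748) (nat_lit 4935643561) (nat_lit 524) (nat_lit 5) (nat_lit 546) (nat_lit 5) (nat_lit 547) (nat_lit 5) (nat_lit 572) (nat_lit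 561) (nat_lit 427))))) (XT.nd (nat_lit 156) (nat_lit 0) (nat_lit 76) (XT.nd (nat_lit 78) (nat_lit 0) (nat_lit 76) (XT.lf (nat_lit 76) (nat_lit 3484092171) (nat_lit 0) (nat_lit 1136819491) (nat_lit 1748) (nat_lit 6123379142) (nat_lit 525) (nat_lit 5) (nat_lit 524) (nat_lit 5) (nat_lit 547) (nat_lit 5) (nat_lit 573) (nat_lit 561) (nat_lit 426)) (XT.lf (nat_lit 0) (nat_lit 5697147647) (nat_lit 1672) (nat_lit 1644852650) (nat_lit 1748) (nat_lit 3501907658) (nat_lit 525) (nat_lit 5) (nat_lit 547) (nat_lit 5) (nat_lit 548) (nat_lit 5) (nat_lit 574) (nat_lit 561) (nat_lit 425))) (XT.nd (nat_lit 78) (nat_lit 0) (nat_lit 76) (XT.lf (nat_lit 76) (nat_lit 4118219584) (nat_lit 0) (nat_lit 2694898287) (nat_lit 1748) (nat_lit 4132036414) (nat_lit 526) (nat_lit 5) (nat_lit 525) (nat_lit 5) (nat_lit 548) (nat_lit 5) (nat_lit 575) (nat_lit 561) (nat_lit 424)) (XT.nd (nat_lit 78) (nat_lit 0) (nat_lit 0) (XT.lf (nat_lit 0) (nat_lit 7960014378) (nat_lit 1672) (nat_lit 1054045720) (nat_lit 1748) (nat_lit 2034194312) (nat_lit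 526) (nat_lit 5) (nat_lit 548) (nat_lit 5) (nat_lit 549) (nat_lit 5) (nat_lit 576) (nat_lit 561) (nat_lit 423)) (XT.lf (nat_lit 76) (nat_lit 4869197704) (nat_lit 0) (nat_lit 4294639150) (nat_lit 1748) (nat_lit 1988900909) (nat_lit 527) (nat_lit 5) (nat_lit 526) (nat_lit 5) (nat_lit 549) (nat_lit 5) (nat_lit 577) (nat_lit 561) (nat_lit 422)))))) (XT.nd (nat_lit 390) (nat_lit 1520) (nat_lit 0) (XT.nd (nat_lit 156) (nat_lit 0) (nat_lit 0) (XT.nd (nat_lit 78) (nat_lit 1748) (nat_lit 0) (XT.lf (nat_lit 0) (nat_lit 10387012538) (nat_lit 1672) (nat_lit 348769739) (nat_lit 1748) (nat_lit 523623938) (nat_lit 527) (nat_lit 5) (nat_lit 549) (nat_lit 5) (nat_lit 550) (nat_lit 5) (nat_lit 578) (nat_lit 561) (nat_lit 421)) (XT.lf (nat_lit 0) (nat_lit 314080652) (nat_lit 1748) (nat_lit 5628872079) (nat_lit 1824) (nat_lit 5424199008) (nat_lit 504) (nat_lit 5) (nat_lit 527) (nat_lit 5) (nat_lit 528) (nat_lit 5) (nat_lit 579) (nat_lit 561) (nat_lit 420))) (XT.nd (nat_lit 78) (nat_lit 0) (nat_lit 76) (XT.lf (nat_lit 76) (nat_lit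 463804585) (nat_lit 0) (nat_lit 1039383227) (nat_lit 1824) (nat_lit 9973938249) (nat_lit 505) (nat_lit 5) (nat_lit 504) (nat_lit 5) (nat_lit 528) (nat_lit 5) (nat_lit 580) (nat_lit 561) (nat_lit 419)) (XT.nd (nat_lit 78) (nat_lit 0) (nat_lit 0) (XT.lf (nat_lit 0) (nat_lit 2765271310) (nat_lit 1748) (nat_lit 4871402367) (nat_lit 1824) (nat_lit 3951643201) (nat_lit 505) (nat_lit 5) (nat_lit 528) (nat_lit 5) (nat_lit 529) (nat_lit 5) (nat_lit 581) (nat_lit 561) (nat_lit 418)) (XT.lf (nat_lit 76) (nat_lit 1393455226) (nat_lit 0) (nat_lit 2660802942) (nat_lit 1824) (nat_lit 7647440986) (nat_lit 506) (nat_lit 5) (nat_lit 505) (nat_lit 5) (nat_lit 529) (nat_lit 5) (nat_lit 582) (nat_lit 561) (nat_lit 417))))) (XT.nd (nat_lit 156) (nat_lit 1672) (nat_lit 0) (XT.nd (nat_lit 78) (nat_lit 0) (nat_lit 0) (XT.lf (nat_lit 0) (nat_lit 5403564553) (nat_lit 1748) (nat_lit 3994464003) (nat_lit 1824) (nat_lit 2418630582) (nat_lit 506) (nat_lit 5) (nat_lit 529) (nat_lit 5) (nat_lit 530) (nat_lit 5) (nat_lit 583) (nat_lit 561)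 (nat_lit 416)) (XT.lf (nat_lit 76) (nat_lit 2448794278) (nat_lit 0) (nat_lit 4350815095) (nat_lit 1824) (nat_lit 5133914745) (nat_lit 507) (nat_lit 5) (nat_lit 506) (nat_lit 5) (nat_lit 530) (nat_lit 5) (nat_lit 584) (nat_lit 561) (nat_lit 415))) (XT.nd (nat_lit 78) (nat_lit 1748) (nat_lit 0) (XT.lf (nat_lit 0) (nat_lit 8242178743) (nat_lit 1748) (nat_lit 2993986594) (nat_lit 76) (nat_lit 816189812) (nat_lit 507) (nat_lit 5) (nat_lit 530) (nat_lit 5) (nat_lit 508) (nat_lit 5) (nat_lit 585) (nat_lit 561) (nat_lit 414)) (XT.nd (nat_lit 78) (nat_lit 0) (nat_lit 0) (XT.lf (nat_lit 0) (nat_lit 3634140542) (nat_lit 1748) (nat_lit 6118577656) (nat_lit 1824) (nat_lit 2420063039) (nat_lit 484) (nat_lit 5) (nat_lit 507) (nat_lit 5) (nat_lit 508) (nat_lit 5) (nat_lit 586) (nat_lit 561) (nat_lit 413)) (XT.lf (nat_lit 0) (nat_lit 10424208672) (nat_lit 1748) (nat_lit 876248929) (nat_lit 1824) (nat_lit 995019256) (nat_lit 484) (nat_lit 5) (nat_lit 507) (nat_lit 5) (nat_lit 508) (nat_lit 5) (nat_lit 587) (nat_lit 561)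 (nat_lit 412))))))))
noncomputable def xc145 : XT := (XT.nd (nat_lit 2964) (nat_lit 6232) (nat_lit 0) (XT.nd (nat_lit 780) (nat_lit 11096) (nat_lit 0) (XT.nd (nat_lit 390) (nat_lit 2660) (nat_lit 0) (XT.nd (nat_lit 156) (nat_lit 1976) (nat_lit 0) (XT.nd (nat_lit 78) (nat_lit 0) (nat_lit 0) (XT.lf (nat_lit 0) (nat_lit 501191963) (nat_lit 1900) (nat_lit 7468815103) (nat_lit 76) (nat_lit 4449586940) (nat_lit 459) (nat_lit 5) (nat_lit 484) (nat_lit 5) (nat_lit 460) (nat_lit 5) (nat_lit 588) (nat_lit 561) (nat_lit 411)) (XT.lf (nat_lit 0) (nat_lit 2019721263) (nat_lit 1900) (nat_lit 635137392) (nat_lit 76) (nat_lit 9891089706) (nat_lit 459) (nat_lit 5) (nat_lit 484) (nat_lit 5) (nat_lit 460) (nat_lit 5) (nat_lit 589) (nat_lit 561) (nat_lit 410))) (XT.nd (nat_lit 78) (nat_lit 912) (nat_lit 0) (XT.lf (nat_lit 0) (nat_lit 3615985044) (nat_lit 1140) (nat_lit 6284366743) (nat_lit 76) (nat_lit 2773531471) (nat_lit 445) (nat_lit 5) (nat_lit 460) (nat_lit 5) (nat_lit 446) (nat_lit 5) (nat_lit 590) (nat_lit 561) (nat_lit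 409)) (XT.nd (nat_lit 78) (nat_lit 0) (nat_lit 0) (XT.lf (nat_lit 0) (nat_lit 739762138) (nat_lit 912) (nat_lit 4518779600) (nat_lit 988) (nat_lit 7545548482) (nat_lit 433) (nat_lit 5) (nat_lit 445) (nat_lit 5) (nat_lit 446) (nat_lit 5) (nat_lit 591) (nat_lit 561) (nat_lit 408)) (XT.lf (nat_lit 0) (nat_lit 6970567552) (nat_lit 988) (nat_lit 4964564147) (nat_lit 76) (nat_lit 1001037966) (nat_lit 433) (nat_lit 5) (nat_lit 446) (nat_lit 5) (nat_lit 434) (nat_lit 5) (nat_lit 592) (nat_lit 561) (nat_lit 407))))) (XT.nd (nat_lit 156) (nat_lit 1748) (nat_lit 0) (XT.nd (nat_lit 78) (nat_lit 0) (nat_lit 0) (XT.lf (nat_lit 0) (nat_lit 2265723787) (nat_lit 912) (nat_lit 6483850936) (nat_lit 988) (nat_lit 4320661849) (nat_lit 421) (nat_lit 5) (nat_lit 433) (nat_lit 5) (nat_lit 434) (nat_lit 5) (nat_lit 593) (nat_lit 561) (nat_lit 406)) (XT.lf (nat_lit 0) (nat_lit 9696726579) (nat_lit 912) (nat_lit 889015478) (nat_lit 988) (nat_lit 2620811838) (nat_lit 421) (nat_lit 5) (nat_lit 433) (nat_lit 5) (nat_lit 434) (nat_lit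 5) (nat_lit 594) (nat_lit 561) (nat_lit 405))) (XT.nd (nat_lit 78) (nat_lit 912) (nat_lit 0) (XT.lf (nat_lit 0) (nat_lit 3939943343) (nat_lit 836) (nat_lit 8564048694) (nat_lit 912) (nat_lit 840699005) (nat_lit 410) (nat_lit 5) (nat_lit 421) (nat_lit 5) (nat_lit 422) (nat_lit 5) (nat_lit 595) (nat_lit 561) (nat_lit 404)) (XT.nd (nat_lit 78) (nat_lit 836) (nat_lit 0) (XT.lf (nat_lit 0) (nat_lit 980401090) (nat_lit 912) (nat_lit 1922488306) (nat_lit 76) (nat_lit 10582212114) (nat_lit 409) (nat_lit 5) (nat_lit 421) (nat_lit 5) (nat_lit 410) (nat_lit 5) (nat_lit 596) (nat_lit 561) (nat_lit 403)) (XT.lf (nat_lit 0) (nat_lit 2871858991) (nat_lit 912) (nat_lit 7878170296) (nat_lit 76) (nat_lit 2877276532) (nat_lit 398) (nat_lit 5) (nat_lit 410) (nat_lit 5) (nat_lit 399) (nat_lit 5) (nat_lit 597) (nat_lit 561) (nat_lit 402)))))) (XT.nd (nat_lit 390) (nat_lit 8664) (nat_lit 0) (XT.nd (nat_lit 156) (nat_lit 1596) (nat_lit 0) (XT.nd (nat_lit 78) (nat_lit 836) (nat_lit 0) (XT.lf (nat_lit 0) (nat_lit 4822305747) (nat_lit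 912) (nat_lit 202363048) (nat_lit 76) (nat_lit 8747262837) (nat_lit 398) (nat_lit 5) (nat_lit 410) (nat_lit 5) (nat_lit 399) (nat_lit 5) (nat_lit 598) (nat_lit 561) (nat_lit 401)) (XT.lf (nat_lit 0) (nat_lit 6856655751) (nat_lit 912) (nat_lit 6207105056) (nat_lit 76) (nat_lit 854791870) (nat_lit 387) (nat_lit 5) (nat_lit 399) (nat_lit 5) (nat_lit 388) (nat_lit 5) (nat_lit 599) (nat_lit 561) (nat_lit 400))) (XT.nd (nat_lit 78) (nat_lit 760) (nat_lit 0) (XT.lf (nat_lit 0) (nat_lit 1696027800) (nat_lit 836) (nat_lit 7270625315) (nat_lit 912) (nat_lit 5100754409) (nat_lit 376) (nat_lit 5) (nat_lit 387) (nat_lit 5) (nat_lit 388) (nat_lit 5) (nat_lit 600) (nat_lit 561) (nat_lit 399)) (XT.nd (nat_lit 78) (nat_lit 760) (nat_lit 0) (XT.lf (nat_lit 0) (nat_lit 9830305909) (nat_lit 836) (nat_lit 1319641084) (nat_lit 912) (nat_lit 3068671123) (nat_lit 376) (nat_lit 5) (nat_lit 387) (nat_lit 5) (nat_lit 388) (nat_lit 5) (nat_lit 601) (nat_lit 561) (nat_lit 398)) (XT.lf (nat_lit 0) (nat_lit 3761867795) (nat_lit 760)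 (nat_lit 9659953428) (nat_lit 836) (nat_lit 950133974) (nat_lit 366) (nat_lit 5) (nat_lit 376) (nat_lit 5) (nat_lit 377) (nat_lit 5) (nat_lit 602) (nat_lit 561) (nat_lit 397))))) (XT.nd (nat_lit 156) (nat_lit 7828) (nat_lit 0) (XT.nd (nat_lit 78) (nat_lit 760) (nat_lit 0) (XT.lf (nat_lit 0) (nat_lit 1222987600) (nat_lit 836) (nat_lit 2421137999) (nat_lit 76) (nat_lit 10883514878) (nat_lit 365) (nat_lit 5) (nat_lit 376) (nat_lit 5) (nat_lit 366) (nat_lit 5) (nat_lit 603) (nat_lit 561) (nat_lit 396)) (XT.lf (nat_lit 0) (nat_lit 3472158455) (nat_lit 836) (nat_lit 8709204927) (nat_lit 76) (nat_lit 2504044823) (nat_lit 355) (nat_lit 5) (nat_lit 366) (nat_lit 5) (nat_lit 356) (nat_lit 5) (nat_lit 604) (nat_lit 561) (nat_lit 395))) (XT.nd (nat_lit 78) (nat_lit 7828) (nat_lit 0) (XT.lf (nat_lit 0) (nat_lit 5796835380) (nat_lit 836) (nat_lit 306949908) (nat_lit 76) (nat_lit 8741936071) (nat_lit 355) (nat_lit 5) (nat_lit 366) (nat_lit 5) (nat_lit 356) (nat_lit 5) (nat_lit 605) (nat_lit 561) (nat_lit 394)) (XT.nd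 (nat_lit 1482) (nat_lit 7144) (nat_lit 0) (XT.lf (nat_lit 0) (nat_lit 8213500942) (nat_lit 760) (nat_lit 6647097737) (nat_lit 76) (nat_lit 147732707) (nat_lit 346) (nat_lit 5) (nat_lit 356) (nat_lit 5) (nat_lit 347) (nat_lit 5) (nat_lit 606) (nat_lit 561) (nat_lit 393)) (XT.lf (nat_lit 0) (nat_lit 12915002007) (nat_lit 532) (nat_lit 3991538088) (nat_lit 608) (nat_lit 1683873893) (nat_lit 252) (nat_lit 5) (nat_lit 259) (nat_lit 5) (nat_lit 260) (nat_lit 5) (nat_lit 625) (nat_lit 561) (nat_lit 374))))))) (XT.nd (nat_lit 780) (nat_lit 3116) (nat_lit 0) (XT.nd (nat_lit 390) (nat_lit 1520) (nat_lit 0) (XT.nd (nat_lit 156) (nat_lit 988) (nat_lit 0) (XT.nd (nat_lit 78) (nat_lit 0) (nat_lit 0) (XT.lf (nat_lit 0) (nat_lit 1980621863) (nat_lit 608) (nat_lit 13348990744) (nat_lit 76) (nat_lit 3477761349) (nat_lit 244) (nat_lit 5) (nat_lit 252) (nat_lit 5) (nat_lit 245) (nat_lit 5) (nat_lit 626) (nat_lit 561) (nat_lit 373)) (XT.lf (nat_lit 0) (nat_lit 5753204745) (nat_lit 608) (nat_lit 2184075282) (nat_lit 76) (nat_lit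 11090023916) (nat_lit 244) (nat_lit 5) (nat_lit 252) (nat_lit 5) (nat_lit 245) (nat_lit 5) (nat_lit 627) (nat_lit 561) (nat_lit 372))) (XT.nd (nat_lit 78) (nat_lit 456) (nat_lit 0) (XT.lf (nat_lit 0) (nat_lit 9316411031) (nat_lit 532) (nat_lit 338014572) (nat_lit 608) (nat_lit 9596143506) (nat_lit 237) (nat_lit 5) (nat_lit 244) (nat_lit 5) (nat_lit 245) (nat_lit 5) (nat_lit 628) (nat_lit 561) (nat_lit 371)) (XT.nd (nat_lit 78) (nat_lit 0) (nat_lit 0) (XT.lf (nat_lit 0) (nat_lit 1560771067) (nat_lit 456) (nat_lit 12138678557) (nat_lit 532) (nat_lit 5777534681) (nat_lit 231) (nat_lit 5) (nat_lit 237) (nat_lit 5) (nat_lit 238) (nat_lit 5) (nat_lit 629) (nat_lit 561) (nat_lit 370)) (XT.lf (nat_lit 0) (nat_lit 13408079952) (nat_lit 456) (nat_lit 4479019174) (nat_lit 532) (nat_lit 1819594473) (nat_lit 231) (nat_lit 5) (nat_lit 237) (nat_lit 5) (nat_lit 238) (nat_lit 5) (nat_lit 630) (nat_lit 561) (nat_lit 369))))) (XT.nd (nat_lit 156) (nat_lit 912) (nat_lit 0) (XT.nd (nat_lit 78) (nat_lit 0) (nat_lit 0) (XT.lf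 (nat_lit 0) (nat_lit 2239679520) (nat_lit 608) (nat_lit 14361504883) (nat_lit 76) (nat_lit 3338499850) (nat_lit 223) (nat_lit 5) (nat_lit 231) (nat_lit 5) (nat_lit 224) (nat_lit 5) (nat_lit 631) (nat_lit 561) (nat_lit 368)) (XT.lf (nat_lit 0) (nat_lit 6420995593) (nat_lit 608) (nat_lit 2450462686) (nat_lit 76) (nat_lit 11304331750) (nat_lit 223) (nat_lit 5) (nat_lit 231) (nat_lit 5) (nat_lit 224) (nat_lit 5) (nat_lit 632) (nat_lit 561) (nat_lit 367))) (XT.nd (nat_lit 78) (nat_lit 456) (nat_lit 0) (XT.lf (nat_lit 0) (nat_lit 9817888895) (nat_lit 456) (nat_lit 924919700) (nat_lit 532) (nat_lit 9672672184) (nat_lit 217) (nat_lit 5) (nat_lit 223) (nat_lit 5) (nat_lit 224) (nat_lit 5) (nat_lit 633) (nat_lit 561) (nat_lit 366)) (XT.nd (nat_lit 78) (nat_lit 0) (nat_lit 0) (XT.lf (nat_lit 0) (nat_lit 1670639416) (nat_lit 456) (nat_lit 13547619520) (nat_lit 532) (nat_lit 5440362655) (nat_lit 211) (nat_lit 5) (nat_lit 217) (nat_lit 5) (nat_lit 218) (nat_lit 5) (nat_lit 634) (nat_lit 561) (nat_lit 365)) (XT.lf (nat_lit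 0) (nat_lit 14312016566) (nat_lit 456) (nat_lit 5541653591) (nat_lit 532) (nat_lit 1051546287) (nat_lit 211) (nat_lit 5) (nat_lit 217) (nat_lit 5) (nat_lit 218) (nat_lit 5) (nat_lit 635) (nat_lit 561) (nat_lit 364)))))) (XT.nd (nat_lit 390) (nat_lit 1672) (nat_lit 0) (XT.nd (nat_lit 156) (nat_lit 912) (nat_lit 0) (XT.nd (nat_lit 78) (nat_lit 0) (nat_lit 0) (XT.lf (nat_lit 0) (nat_lit 3430486142) (nat_lit 532) (nat_lit 15075422587) (nat_lit 76) (nat_lit 2649382766) (nat_lit 204) (nat_lit 5) (nat_lit 211) (nat_lit 5) (nat_lit 205) (nat_lit 5) (nat_lit 636) (nat_lit 561) (nat_lit 363)) (XT.lf (nat_lit 0) (nat_lit 8062718436) (nat_lit 532) (nat_lit 2367282852) (nat_lit 76) (nat_lit 10978735202) (nat_lit 204) (nat_lit 5) (nat_lit 211) (nat_lit 5) (nat_lit 205) (nat_lit 5) (nat_lit 637) (nat_lit 561) (nat_lit 362))) (XT.nd (nat_lit 78) (nat_lit 456) (nat_lit 0) (XT.lf (nat_lit 0) (nat_lit 10726270435) (nat_lit 456) (nat_lit 2124486336) (nat_lit 532) (nat_lit 8815230628) (nat_lit 198) (nat_lit 5) (nat_lit 204)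 (nat_lit 5) (nat_lit 205) (nat_lit 5) (nat_lit 638) (nat_lit 561) (nat_lit 361)) (XT.nd (nat_lit 78) (nat_lit 76) (nat_lit 0) (XT.lf (nat_lit 0) (nat_lit 2163301805) (nat_lit 380) (nat_lit 15636066865) (nat_lit 456) (nat_lit 4127718637) (nat_lit 193) (nat_lit 5) (nat_lit 198) (nat_lit 5) (nat_lit 199) (nat_lit 5) (nat_lit 639) (nat_lit 561) (nat_lit 360)) (XT.lf (nat_lit 0) (nat_lit 726528216) (nat_lit 456) (nat_lit 6543564814) (nat_lit 76) (nat_lit 14921600427) (nat_lit 192) (nat_lit 5) (nat_lit 198) (nat_lit 5) (nat_lit 193) (nat_lit 5) (nat_lit 640) (nat_lit 561) (nat_lit 359))))) (XT.nd (nat_lit 234) (nat_lit 836) (nat_lit 0) (XT.nd (nat_lit 78) (nat_lit 380) (nat_lit 0) (XT.lf (nat_lit 0) (nat_lit 5670443837) (nat_lit 532) (nat_lit 15472756235) (nat_lit 76) (nat_lit 1316889117) (nat_lit 186) (nat_lit 5) (nat_lit 193) (nat_lit 5) (nat_lit 187) (nat_lit 5) (nat_lit 641) (nat_lit 561) (nat_lit 358)) (XT.nd (nat_lit 78) (nat_lit 380) (nat_lit 0) (XT.lf (nat_lit 0) (nat_lit 10799343976) (nat_lit 532) (nat_lit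 1913217518) (nat_lit 76) (nat_lit 10019569438) (nat_lit 186) (nat_lit 5) (nat_lit 193) (nat_lit 5) (nat_lit 187) (nat_lit 5) (nat_lit 642) (nat_lit 561) (nat_lit 357)) (XT.lf (nat_lit 0) (nat_lit 12066596766) (nat_lit 380) (nat_lit 4036450416) (nat_lit 456) (nat_lit 6905122040) (nat_lit 181) (nat_lit 5) (nat_lit 186) (nat_lit 5) (nat_lit 187) (nat_lit 5) (nat_lit 643) (nat_lit 561) (nat_lit 356)))) (XT.nd (nat_lit 78) (nat_lit 456) (nat_lit 0) (XT.lf (nat_lit 0) (nat_lit 3062082337) (nat_lit 380) (nat_lit 18508719019) (nat_lit 456) (nat_lit 1717767596) (nat_lit 176) (nat_lit 5) (nat_lit 181) (nat_lit 5) (nat_lit 182) (nat_lit 5) (nat_lit 644) (nat_lit 561) (nat_lit 355)) (XT.nd (nat_lit 78) (nat_lit 380) (nat_lit 0) (XT.lf (nat_lit 0) (nat_lit 3621051876) (nat_lit 456) (nat_lit 6138632377) (nat_lit 76) (nat_lit 13812536958) (nat_lit 175) (nat_lit 5) (nat_lit 181) (nat_lit 5) (nat_lit 176) (nat_lit 5) (nat_lit 645) (nat_lit 561) (nat_lit 354)) (XT.lf (nat_lit 0) (nat_lit 8319665802) (nat_lit 380) (nat_lit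 772079551) (nat_lit 456) (nat_lit 14768612302) (nat_lit 170) (nat_lit 5) (nat_lit 175) (nat_lit 5) (nat_lit 176) (nat_lit 5) (nat_lit 646) (nat_lit 561) (nat_lit 353))))))))
noncomputable def xc146 : XT := (XT.nd (nat_lit 75426) (nat_lit 0) (nat_lit 21964) (XT.nd (nat_lit 74646) (nat_lit 0) (nat_lit 28728) (XT.nd (nat_lit 390) (nat_lit 760) (nat_lit 0) (XT.nd (nat_lit 156) (nat_lit 836) (nat_lit 0) (XT.nd (nat_lit 78) (nat_lit 380) (nat_lit 0) (XT.lf (nat_lit 0) (nat_lit 14761924796) (nat_lit 456) (nat_lit 1066961950) (nat_lit 76) (nat_lit 8323568834) (nat_lit 170) (nat_lit 5) (nat_lit 176) (nat_lit 5) (nat_lit 171) (nat_lit 5) (nat_lit 647) (nat_lit 561) (nat_lit 352)) (XT.lf (nat_lit 0) (nat_lit 13864047940) (nat_lit 380) (nat_lit 6770801443) (nat_lit 456) (nat_lit 3813759440) (nat_lit 165) (nat_lit 5) (nat_lit 170) (nat_lit 5) (nat_lit 171) (nat_lit 5) (nat_lit 648) (nat_lit 561) (nat_lit 351))) (XT.nd (nat_lit 78) (nat_lit 380) (nat_lit 0) (XT.lf (nat_lit 0) (nat_lit 1896254114) (nat_lit 456) (nat_lit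 20372085277) (nat_lit 76) (nat_lit 2481176670) (nat_lit 159) (nat_lit 5) (nat_lit 165) (nat_lit 5) (nat_lit 160) (nat_lit 5) (nat_lit 649) (nat_lit 561) (nat_lit 350)) (XT.nd (nat_lit 78) (nat_lit 380) (nat_lit 0) (XT.lf (nat_lit 0) (nat_lit 7780054246) (nat_lit 456) (nat_lit 5352413292) (nat_lit 76) (nat_lit 11921256857) (nat_lit 159) (nat_lit 5) (nat_lit 165) (nat_lit 5) (nat_lit 160) (nat_lit 5) (nat_lit 650) (nat_lit 561) (nat_lit 349)) (XT.lf (nat_lit 0) (nat_lit 10091211572) (nat_lit 380) (nat_lit 3750216772) (nat_lit 456) (nat_lit 11521390768) (nat_lit 154) (nat_lit 5) (nat_lit 159) (nat_lit 5) (nat_lit 160) (nat_lit 5) (nat_lit 651) (nat_lit 561) (nat_lit 348))))) (XT.nd (nat_lit 156) (nat_lit 380) (nat_lit 0) (XT.nd (nat_lit 78) (nat_lit 76) (nat_lit 0) (XT.lf (nat_lit 0) (nat_lit 194592186) (nat_lit 304) (nat_lit 19899053864) (nat_lit 380) (nat_lit 5583057524) (nat_lit 150) (nat_lit 5) (nat_lit 154) (nat_lit 5) (nat_lit 155) (nat_lit 5) (nat_lit 652) (nat_lit 561) (nat_lit 347)) (XT.lf (nat_lit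 0) (nat_lit 590248264) (nat_lit 380) (nat_lit 9855119850) (nat_lit 76) (nat_lit 15548987760) (nat_lit 149) (nat_lit 5) (nat_lit 154) (nat_lit 5) (nat_lit 150) (nat_lit 5) (nat_lit 653) (nat_lit 561) (nat_lit 346))) (XT.nd (nat_lit 78) (nat_lit 0) (nat_lit 0) (XT.lf (nat_lit 0) (nat_lit 6119025082) (nat_lit 380) (nat_lit 727573807) (nat_lit 456) (nat_lit 19470337697) (nat_lit 144) (nat_lit 5) (nat_lit 149) (nat_lit 5) (nat_lit 150) (nat_lit 5) (nat_lit 654) (nat_lit 561) (nat_lit 345)) (XT.nd (nat_lit 73944) (nat_lit 0) (nat_lit 30248) (XT.lf (nat_lit 0) (nat_lit 13348847583) (nat_lit 456) (nat_lit 4167170219) (nat_lit 76) (nat_lit 9127535848) (nat_lit 144) (nat_lit 5) (nat_lit 150) (nat_lit 5) (nat_lit 145) (nat_lit 5) (nat_lit 655) (nat_lit 561) (nat_lit 344)) (XT.lf (nat_lit 0) (nat_lit 1346461837) (nat_lit 0) (nat_lit 1346461837) (nat_lit 1596) (nat_lit 2224028596) (nat_lit 542) (nat_lit 5) (nat_lit 542) (nat_lit 3) (nat_lit 563) (nat_lit 3) (nat_lit 562) (nat_lit 562) (nat_lit 436)))))) (XT.nd (nat_lit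 390) (nat_lit 1520) (nat_lit 0) (XT.nd (nat_lit 156) (nat_lit 0) (nat_lit 0) (XT.nd (nat_lit 78) (nat_lit 0) (nat_lit 0) (XT.lf (nat_lit 0) (nat_lit 6185402233) (nat_lit 1596) (nat_lit 2266388368) (nat_lit 1672) (nat_lit 1465490409) (nat_lit 542) (nat_lit 5) (nat_lit 563) (nat_lit 3) (nat_lit 564) (nat_lit 5) (nat_lit 563) (nat_lit 562) (nat_lit 435)) (XT.lf (nat_lit 76) (nat_lit 2713344463) (nat_lit 0) (nat_lit 4303810204) (nat_lit 1672) (nat_lit 2984847488) (nat_lit 543) (nat_lit 5) (nat_lit 542) (nat_lit 5) (nat_lit 564) (nat_lit 5) (nat_lit 564) (nat_lit 562) (nat_lit 434))) (XT.nd (nat_lit 78) (nat_lit 0) (nat_lit 76) (XT.lf (nat_lit 76) (nat_lit 7813356327) (nat_lit 0) (nat_lit 48462343) (nat_lit 1672) (nat_lit 2226674774) (nat_lit 543) (nat_lit 5) (nat_lit 542) (nat_lit 5) (nat_lit 564) (nat_lit 5) (nat_lit 565) (nat_lit 562) (nat_lit 433)) (XT.nd (nat_lit 78) (nat_lit 0) (nat_lit 0) (XT.lf (nat_lit 76) (nat_lit 2837735442) (nat_lit 0) (nat_lit 5913427132) (nat_lit 1672) (nat_lit 1424997478) (nat_lit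 544) (nat_lit 5) (nat_lit 543) (nat_lit 5) (nat_lit 565) (nat_lit 5) (nat_lit 566) (nat_lit 562) (nat_lit 432)) (XT.lf (nat_lit 76) (nat_lit 8073178516) (nat_lit 0) (nat_lit 1582493331) (nat_lit 1672) (nat_lit 609961779) (nat_lit 544) (nat_lit 5) (nat_lit 543) (nat_lit 5) (nat_lit 565) (nat_lit 5) (nat_lit 567) (nat_lit 562) (nat_lit 431))))) (XT.nd (nat_lit 156) (nat_lit 0) (nat_lit 76) (XT.nd (nat_lit 78) (nat_lit 0) (nat_lit 0) (XT.lf (nat_lit 0) (nat_lit 239131910) (nat_lit 1672) (nat_lit 7290209384) (nat_lit 1748) (nat_lit 2827114573) (nat_lit 522) (nat_lit 5) (nat_lit 544) (nat_lit 5) (nat_lit 545) (nat_lit 5) (nat_lit 568) (nat_lit 562) (nat_lit 430)) (XT.lf (nat_lit 0) (nat_lit 1104702747) (nat_lit 1672) (nat_lit 2014153823) (nat_lit 1748) (nat_lit 7330005227) (nat_lit 522) (nat_lit 5) (nat_lit 544) (nat_lit 5) (nat_lit 545) (nat_lit 5) (nat_lit 569) (nat_lit 562) (nat_lit 429))) (XT.nd (nat_lit 78) (nat_lit 0) (nat_lit 0) (XT.lf (nat_lit 0) (nat_lit 2001531640) (nat_lit 1672) (nat_lit 7150505243)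 (nat_lit 1748) (nat_lit 1390801139) (nat_lit 523) (nat_lit 5) (nat_lit 545) (nat_lit 5) (nat_lit 546) (nat_lit 5) (nat_lit 570) (nat_lit 562) (nat_lit 428)) (XT.nd (nat_lit 78) (nat_lit 0) (nat_lit 0) (XT.lf (nat_lit 0) (nat_lit 2933583808) (nat_lit 1672) (nat_lit 1735603464) (nat_lit 1748) (nat_lit 5969161856) (nat_lit 523) (nat_lit 5) (nat_lit 545) (nat_lit 5) (nat_lit 546) (nat_lit 5) (nat_lit 571) (nat_lit 562) (nat_lit 427)) (XT.lf (nat_lit 76) (nat_lit 3827314502) (nat_lit 0) (nat_lit 65171270) (nat_lit 1748) (nat_lit 6843121576) (nat_lit 524) (nat_lit 5) (nat_lit 523) (nat_lit 5) (nat_lit 546) (nat_lit 5) (nat_lit 572) (nat_lit 562) (nat_lit 426))))))) (XT.nd (nat_lit 780) (nat_lit 5396) (nat_lit 0) (XT.nd (nat_lit 390) (nat_lit 1520) (nat_lit 0) (XT.nd (nat_lit 156) (nat_lit 0) (nat_lit 76) (XT.nd (nat_lit 78) (nat_lit 0) (nat_lit 0) (XT.lf (nat_lit 0) (nat_lit 4896013535) (nat_lit 1672) (nat_lit 1350480879) (nat_lit 1748) (nat_lit 4587808411) (nat_lit 524) (nat_lit 5) (nat_lit 546) (nat_lit 5)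 (nat_lit 547) (nat_lit 5) (nat_lit 573) (nat_lit 562) (nat_lit 425)) (XT.lf (nat_lit 76) (nat_lit 4364735012) (nat_lit 0) (nat_lit 1567624426) (nat_lit 1748) (nat_lit 5002358847) (nat_lit 525) (nat_lit 5) (nat_lit 524) (nat_lit 5) (nat_lit 547) (nat_lit 5) (nat_lit 574) (nat_lit 562) (nat_lit 424))) (XT.nd (nat_lit 78) (nat_lit 0) (nat_lit 0) (XT.lf (nat_lit 0) (nat_lit 7003620100) (nat_lit 1672) (nat_lit 856113640) (nat_lit 1748) (nat_lit 3177125563) (nat_lit 525) (nat_lit 5) (nat_lit 547) (nat_lit 5) (nat_lit 548) (nat_lit 5) (nat_lit 575) (nat_lit 562) (nat_lit 423)) (XT.nd (nat_lit 78) (nat_lit 0) (nat_lit 76) (XT.lf (nat_lit 76) (nat_lit 5016814538) (nat_lit 0) (nat_lit 3107011770) (nat_lit 1748) (nat_lit 3016667416) (nat_lit 526) (nat_lit 5) (nat_lit 525) (nat_lit 5) (nat_lit 548) (nat_lit 5) (nat_lit 576) (nat_lit 562) (nat_lit 422)) (XT.lf (nat_lit 0) (nat_lit 9268352221) (nat_lit 1672) (nat_lit 249518808) (nat_lit 1748) (nat_lit 1728292457) (nat_lit 526) (nat_lit 5) (nat_lit 548) (nat_lit 5) (nat_lit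 549) (nat_lit 5) (nat_lit 577) (nat_lit 562) (nat_lit 421))))) (XT.nd (nat_lit 156) (nat_lit 0) (nat_lit 0) (XT.nd (nat_lit 78) (nat_lit 1672) (nat_lit 0) (XT.lf (nat_lit 76) (nat_lit 5786757854) (nat_lit 0) (nat_lit 4692286312) (nat_lit 1748) (nat_lit 874037917) (nat_lit 527) (nat_lit 5) (nat_lit 526) (nat_lit 5) (nat_lit 549) (nat_lit 5) (nat_lit 578) (nat_lit 562) (nat_lit 420)) (XT.lf (nat_lit 0) (nat_lit 240115696) (nat_lit 1748) (nat_lit 10985007097) (nat_lit 1824) (nat_lit 237152323) (nat_lit 504) (nat_lit 5) (nat_lit 527) (nat_lit 5) (nat_lit 528) (nat_lit 5) (nat_lit 579) (nat_lit 562) (nat_lit 419))) (XT.nd (nat_lit 78) (nat_lit 0) (nat_lit 0) (XT.lf (nat_lit 0) (nat_lit 1419031623) (nat_lit 1748) (nat_lit 4903886863) (nat_lit 1824) (nat_lit 5249535219) (nat_lit 504) (nat_lit 5) (nat_lit 527) (nat_lit 5) (nat_lit 528) (nat_lit 5) (nat_lit 580) (nat_lit 562) (nat_lit 418)) (XT.nd (nat_lit 78) (nat_lit 0) (nat_lit 76) (XT.lf (nat_lit 76) (nat_lit 1305133053) (nat_lit 0) (nat_lit 1310647572) (nat_lit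 1824) (nat_lit 9069171021) (nat_lit 505) (nat_lit 5) (nat_lit 504) (nat_lit 5) (nat_lit 528) (nat_lit 5) (nat_lit 581) (nat_lit 562) (nat_lit 417)) (XT.lf (nat_lit 0) (nat_lit 3880285360) (nat_lit 1748) (nat_lit 4130207303) (nat_lit 1824) (nat_lit 3788331326) (nat_lit 505) (nat_lit 5) (nat_lit 528) (nat_lit 5) (nat_lit 529) (nat_lit 5) (nat_lit 582) (nat_lit 562) (nat_lit 416)))))) (XT.nd (nat_lit 390) (nat_lit 3876) (nat_lit 0) (XT.nd (nat_lit 156) (nat_lit 1596) (nat_lit 0) (XT.nd (nat_lit 78) (nat_lit 0) (nat_lit 76) (XT.lf (nat_lit 76) (nat_lit 2254430184) (nat_lit 0) (nat_lit 2925252247) (nat_lit 1824) (nat_lit 6735100146) (nat_lit 506) (nat_lit 5) (nat_lit 505) (nat_lit 5) (nat_lit 529) (nat_lit 5) (nat_lit 583) (nat_lit 562) (nat_lit 415)) (XT.lf (nat_lit 0) (nat_lit 6534153131) (nat_lit 1748) (nat_lit 3235698500) (nat_lit 1824) (nat_lit 2262627817) (nat_lit 506) (nat_lit 5) (nat_lit 529) (nat_lit 5) (nat_lit 530) (nat_lit 5) (nat_lit 584) (nat_lit 562) (nat_lit 414))) (XT.nd (nat_lit 78) (nat_lit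 1672) (nat_lit 0) (XT.lf (nat_lit 76) (nat_lit 3330907481) (nat_lit 0) (nat_lit 4612571288) (nat_lit 1824) (nat_lit 4208496986) (nat_lit 507) (nat_lit 5) (nat_lit 506) (nat_lit 5) (nat_lit 530) (nat_lit 5) (nat_lit 585) (nat_lit 562) (nat_lit 413)) (XT.nd (nat_lit 78) (nat_lit 1748) (nat_lit 0) (XT.lf (nat_lit 0) (nat_lit 9394024947) (nat_lit 1748) (nat_lit 2216130355) (nat_lit 76) (nat_lit 663446798) (nat_lit 507) (nat_lit 5) (nat_lit 530) (nat_lit 5) (nat_lit 508) (nat_lit 5) (nat_lit 586) (nat_lit 562) (nat_lit 412)) (XT.lf (nat_lit 0) (nat_lit 4539047903) (nat_lit 1748) (nat_lit 6381777650) (nat_lit 1824) (nat_lit 1475891329) (nat_lit 484) (nat_lit 5) (nat_lit 507) (nat_lit 5) (nat_lit 508) (nat_lit 5) (nat_lit 587) (nat_lit 562) (nat_lit 411))))) (XT.nd (nat_lit 156) (nat_lit 1976) (nat_lit 0) (XT.nd (nat_lit 78) (nat_lit 1900) (nat_lit 0) (XT.lf (nat_lit 0) (nat_lit 11448599267) (nat_lit 1748) (nat_lit 1031841006) (nat_lit 1824) (nat_lit 41808886) (nat_lit 484) (nat_lit 5) (nat_lit 507) (nat_lit 5)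 (nat_lit 508) (nat_lit 5) (nat_lit 588) (nat_lit 562) (nat_lit 410)) (XT.lf (nat_lit 0) (nat_lit 1457276489) (nat_lit 1900) (nat_lit 6775122760) (nat_lit 76) (nat_lit 4416609902) (nat_lit 459) (nat_lit 5) (nat_lit 484) (nat_lit 5) (nat_lit 460) (nat_lit 5) (nat_lit 589) (nat_lit 562) (nat_lit 409))) (XT.nd (nat_lit 78) (nat_lit 912) (nat_lit 0) (XT.lf (nat_lit 0) (nat_lit 181072545) (nat_lit 1064) (nat_lit 2807729262) (nat_lit 1140) (nat_lit 9789437365) (nat_lit 445) (nat_lit 5) (nat_lit 459) (nat_lit 5) (nat_lit 460) (nat_lit 5) (nat_lit 590) (nat_lit 562) (nat_lit 408)) (XT.nd (nat_lit 78) (nat_lit 912) (nat_lit 0) (XT.lf (nat_lit 0) (nat_lit 4602352448) (nat_lit 1140) (nat_lit 5570000050) (nat_lit 76) (nat_lit 2736674106) (nat_lit 445) (nat_lit 5) (nat_lit 460) (nat_lit 5) (nat_lit 446) (nat_lit 5) (nat_lit 591) (nat_lit 562) (nat_lit 407)) (XT.lf (nat_lit 0) (nat_lit 1589084737) (nat_lit 912) (nat_lit 4676171339) (nat_lit 988) (nat_lit 6776832758) (nat_lit 433) (nat_lit 5) (nat_lit 445) (nat_lit 5)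 (nat_lit 446) (nat_lit 5) (nat_lit 592) (nat_lit 562) (nat_lit 406))))))))
noncomputable def xc147 : XT := (XT.nd (nat_lit 2730) (nat_lit 5624) (nat_lit 0) (XT.nd (nat_lit 780) (nat_lit 10032) (nat_lit 0) (XT.nd (nat_lit 390) (nat_lit 2508) (nat_lit 0) (XT.nd (nat_lit 156) (nat_lit 912) (nat_lit 0) (XT.nd (nat_lit 78) (nat_lit 912) (nat_lit 0) (XT.lf (nat_lit 0) (nat_lit 7993418501) (nat_lit 988) (nat_lit 4227536156) (nat_lit 76) (nat_lit 956218316) (nat_lit 433) (nat_lit 5) (nat_lit 446) (nat_lit 5) (nat_lit 434) (nat_lit 5) (nat_lit 593) (nat_lit 562) (nat_lit 405)) (XT.lf (nat_lit 0) (nat_lit 3141855437) (nat_lit 912) (nat_lit 6654222250) (nat_lit 988) (nat_lit 3518083099) (nat_lit 421) (nat_lit 5) (nat_lit 433) (nat_lit 5) (nat_lit 434) (nat_lit 5) (nat_lit 594) (nat_lit 562) (nat_lit 404))) (XT.nd (nat_lit 78) (nat_lit 912) (nat_lit 0) (XT.lf (nat_lit 0) (nat_lit 10705187752) (nat_lit 912) (nat_lit 946692156) (nat_lit 988) (nat_lit 1801667303) (nat_lit 421) (nat_lit 5) (nat_lit 433) (nat_lit 5) (nat_lit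 434) (nat_lit 5) (nat_lit 595) (nat_lit 562) (nat_lit 403)) (XT.nd (nat_lit 78) (nat_lit 0) (nat_lit 0) (XT.lf (nat_lit 0) (nat_lit 2144012) (nat_lit 912) (nat_lit 8749502537) (nat_lit 76) (nat_lit 4843034066) (nat_lit 409) (nat_lit 5) (nat_lit 421) (nat_lit 5) (nat_lit 410) (nat_lit 5) (nat_lit 596) (nat_lit 562) (nat_lit 402)) (XT.lf (nat_lit 0) (nat_lit 1831784173) (nat_lit 912) (nat_lit 1139592412) (nat_lit 76) (nat_lit 10766744997) (nat_lit 409) (nat_lit 5) (nat_lit 421) (nat_lit 5) (nat_lit 410) (nat_lit 5) (nat_lit 597) (nat_lit 562) (nat_lit 401))))) (XT.nd (nat_lit 156) (nat_lit 836) (nat_lit 0) (XT.nd (nat_lit 78) (nat_lit 836) (nat_lit 0) (XT.lf (nat_lit 0) (nat_lit 3750028250) (nat_lit 912) (nat_lit 7203299513) (nat_lit 76) (nat_lit 2930063983) (nat_lit 398) (nat_lit 5) (nat_lit 410) (nat_lit 5) (nat_lit 399) (nat_lit 5) (nat_lit 598) (nat_lit 562) (nat_lit 400)) (XT.lf (nat_lit 0) (nat_lit 617804254) (nat_lit 836) (nat_lit 5109598096) (nat_lit 912) (nat_lit 8303750251) (nat_lit 387) (nat_lit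 5) (nat_lit 398) (nat_lit 5) (nat_lit 399) (nat_lit 5) (nat_lit 599) (nat_lit 562) (nat_lit 399))) (XT.nd (nat_lit 78) (nat_lit 836) (nat_lit 0) (XT.lf (nat_lit 0) (nat_lit 7788022686) (nat_lit 912) (nat_lit 5504685955) (nat_lit 76) (nat_lit 888286635) (nat_lit 387) (nat_lit 5) (nat_lit 399) (nat_lit 5) (nat_lit 388) (nat_lit 5) (nat_lit 600) (nat_lit 562) (nat_lit 398)) (XT.nd (nat_lit 78) (nat_lit 0) (nat_lit 0) (XT.lf (nat_lit 0) (nat_lit 2551071656) (nat_lit 836) (nat_lit 7378906407) (nat_lit 912) (nat_lit 4403054854) (nat_lit 376) (nat_lit 5) (nat_lit 387) (nat_lit 5) (nat_lit 388) (nat_lit 5) (nat_lit 601) (nat_lit 562) (nat_lit 397)) (XT.lf (nat_lit 0) (nat_lit 10831934870) (nat_lit 836) (nat_lit 1309630558) (nat_lit 912) (nat_lit 2346010582) (nat_lit 376) (nat_lit 5) (nat_lit 387) (nat_lit 5) (nat_lit 388) (nat_lit 5) (nat_lit 602) (nat_lit 562) (nat_lit 396)))))) (XT.nd (nat_lit 1560) (nat_lit 7752) (nat_lit 0) (XT.nd (nat_lit 156) (nat_lit 1444) (nat_lit 0) (XT.nd (nat_lit 78) (nat_lit 76) (nat_lit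 0) (XT.lf (nat_lit 0) (nat_lit 4651910049) (nat_lit 760) (nat_lit 9797418097) (nat_lit 836) (nat_lit 194843491) (nat_lit 366) (nat_lit 5) (nat_lit 376) (nat_lit 5) (nat_lit 377) (nat_lit 5) (nat_lit 603) (nat_lit 562) (nat_lit 395)) (XT.lf (nat_lit 0) (nat_lit 1996602419) (nat_lit 836) (nat_lit 1660736899) (nat_lit 76) (nat_lit 11145831215) (nat_lit 365) (nat_lit 5) (nat_lit 376) (nat_lit 5) (nat_lit 366) (nat_lit 5) (nat_lit 604) (nat_lit 562) (nat_lit 394))) (XT.nd (nat_lit 78) (nat_lit 684) (nat_lit 0) (XT.lf (nat_lit 0) (nat_lit 4281698610) (nat_lit 836) (nat_lit 8065468211) (nat_lit 76) (nat_lit 2617108734) (nat_lit 355) (nat_lit 5) (nat_lit 366) (nat_lit 5) (nat_lit 356) (nat_lit 5) (nat_lit 605) (nat_lit 562) (nat_lit 393)) (XT.nd (nat_lit 78) (nat_lit 0) (nat_lit 0) (XT.lf (nat_lit 0) (nat_lit 495290063) (nat_lit 684) (nat_lit 6146283056) (nat_lit 760) (nat_lit 8486448534) (nat_lit 346) (nat_lit 5) (nat_lit 355) (nat_lit 5) (nat_lit 356) (nat_lit 5) (nat_lit 606) (nat_lit 562) (nat_lit 392)) (XT.lf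 (nat_lit 0) (nat_lit 9094821100) (nat_lit 760) (nat_lit 5969584033) (nat_lit 76) (nat_lit 229714513) (nat_lit 346) (nat_lit 5) (nat_lit 356) (nat_lit 5) (nat_lit 347) (nat_lit 5) (nat_lit 607) (nat_lit 562) (nat_lit 391))))) (XT.nd (nat_lit 156) (nat_lit 1140) (nat_lit 0) (XT.nd (nat_lit 78) (nat_lit 532) (nat_lit 0) (XT.lf (nat_lit 0) (nat_lit 6643691672) (nat_lit 684) (nat_lit 867557174) (nat_lit 76) (nat_lit 10794087124) (nat_lit 266) (nat_lit 5) (nat_lit 275) (nat_lit 5) (nat_lit 267) (nat_lit 5) (nat_lit 623) (nat_lit 562) (nat_lit 375)) (XT.lf (nat_lit 0) (nat_lit 10129610264) (nat_lit 532) (nat_lit 100831715) (nat_lit 608) (nat_lit 8287069825) (nat_lit 259) (nat_lit 5) (nat_lit 266) (nat_lit 5) (nat_lit 267) (nat_lit 5) (nat_lit 624) (nat_lit 562) (nat_lit 374))) (XT.nd (nat_lit 78) (nat_lit 608) (nat_lit 0) (XT.lf (nat_lit 0) (nat_lit 2600497570) (nat_lit 532) (nat_lit 11352195433) (nat_lit 608) (nat_lit 4779963163) (nat_lit 252) (nat_lit 5) (nat_lit 259) (nat_lit 5) (nat_lit 260) (nat_lit 5) (nat_lit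 625) (nat_lit 562) (nat_lit 373)) (XT.nd (nat_lit 78) (nat_lit 608) (nat_lit 0) (XT.lf (nat_lit 0) (nat_lit 13911937598) (nat_lit 532) (nat_lit 3887084126) (nat_lit 608) (nat_lit 1152089357) (nat_lit 252) (nat_lit 5) (nat_lit 259) (nat_lit 5) (nat_lit 260) (nat_lit 5) (nat_lit 626) (nat_lit 562) (nat_lit 372)) (XT.lf (nat_lit 0) (nat_lit 2573378993) (nat_lit 608) (nat_lit 12864970761) (nat_lit 76) (nat_lit 3734085556) (nat_lit 244) (nat_lit 5) (nat_lit 252) (nat_lit 5) (nat_lit 245) (nat_lit 5) (nat_lit 627) (nat_lit 562) (nat_lit 371))))))) (XT.nd (nat_lit 780) (nat_lit 2584) (nat_lit 0) (XT.nd (nat_lit 390) (nat_lit 1444) (nat_lit 0) (XT.nd (nat_lit 156) (nat_lit 1064) (nat_lit 0) (XT.nd (nat_lit 78) (nat_lit 532) (nat_lit 0) (XT.lf (nat_lit 0) (nat_lit 6410567558) (nat_lit 608) (nat_lit 1491482476) (nat_lit 76) (nat_lit 11494931238) (nat_lit 244) (nat_lit 5) (nat_lit 252) (nat_lit 5) (nat_lit 245) (nat_lit 5) (nat_lit 628) (nat_lit 562) (nat_lit 370)) (XT.lf (nat_lit 0) (nat_lit 10234169653) (nat_lit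 532) (nat_lit 149758803) (nat_lit 608) (nat_lit 9240901420) (nat_lit 237) (nat_lit 5) (nat_lit 244) (nat_lit 5) (nat_lit 245) (nat_lit 5) (nat_lit 629) (nat_lit 562) (nat_lit 369))) (XT.nd (nat_lit 78) (nat_lit 608) (nat_lit 0) (XT.lf (nat_lit 0) (nat_lit 2328026891) (nat_lit 456) (nat_lit 12177328347) (nat_lit 532) (nat_lit 5350508530) (nat_lit 231) (nat_lit 5) (nat_lit 237) (nat_lit 5) (nat_lit 238) (nat_lit 5) (nat_lit 630) (nat_lit 562) (nat_lit 368)) (XT.nd (nat_lit 78) (nat_lit 608) (nat_lit 0) (XT.lf (nat_lit 0) (nat_lit 14397849790) (nat_lit 456) (nat_lit 4368478204) (nat_lit 532) (nat_lit 1324048278) (nat_lit 231) (nat_lit 5) (nat_lit 237) (nat_lit 5) (nat_lit 238) (nat_lit 5) (nat_lit 631) (nat_lit 562) (nat_lit 367)) (XT.lf (nat_lit 0) (nat_lit 2805168225) (nat_lit 608) (nat_lit 13915842104) (nat_lit 76) (nat_lit 3607033080) (nat_lit 223) (nat_lit 5) (nat_lit 231) (nat_lit 5) (nat_lit 224) (nat_lit 5) (nat_lit 632) (nat_lit 562) (nat_lit 366))))) (XT.nd (nat_lit 156) (nat_lit 988) (nat_lit 0)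 (XT.nd (nat_lit 78) (nat_lit 456) (nat_lit 0) (XT.lf (nat_lit 0) (nat_lit 7059900911) (nat_lit 608) (nat_lit 1780949511) (nat_lit 76) (nat_lit 11728225475) (nat_lit 223) (nat_lit 5) (nat_lit 231) (nat_lit 5) (nat_lit 224) (nat_lit 5) (nat_lit 633) (nat_lit 562) (nat_lit 365)) (XT.lf (nat_lit 0) (nat_lit 10728041980) (nat_lit 456) (nat_lit 734733108) (nat_lit 532) (nat_lit 9350893274) (nat_lit 217) (nat_lit 5) (nat_lit 223) (nat_lit 5) (nat_lit 224) (nat_lit 5) (nat_lit 634) (nat_lit 562) (nat_lit 364))) (XT.nd (nat_lit 78) (nat_lit 532) (nat_lit 0) (XT.lf (nat_lit 0) (nat_lit 2421860923) (nat_lit 456) (nat_lit 13601958233) (nat_lit 532) (nat_lit 5037931528) (nat_lit 211) (nat_lit 5) (nat_lit 217) (nat_lit 5) (nat_lit 218) (nat_lit 5) (nat_lit 635) (nat_lit 562) (nat_lit 363)) (XT.nd (nat_lit 78) (nat_lit 532) (nat_lit 0) (XT.lf (nat_lit 0) (nat_lit 15301990935) (nat_lit 456) (nat_lit 5440120312) (nat_lit 532) (nat_lit 571363114) (nat_lit 211) (nat_lit 5) (nat_lit 217) (nat_lit 5) (nat_lit 218) (nat_lit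 5) (nat_lit 636) (nat_lit 562) (nat_lit 362)) (XT.lf (nat_lit 0) (nat_lit 3990022440) (nat_lit 532) (nat_lit 14662872477) (nat_lit 76) (nat_lit 2915665559) (nat_lit 204) (nat_lit 5) (nat_lit 211) (nat_lit 5) (nat_lit 205) (nat_lit 5) (nat_lit 637) (nat_lit 562) (nat_lit 361)))))) (XT.nd (nat_lit 390) (nat_lit 1216) (nat_lit 0) (XT.nd (nat_lit 156) (nat_lit 912) (nat_lit 0) (XT.nd (nat_lit 78) (nat_lit 456) (nat_lit 0) (XT.lf (nat_lit 0) (nat_lit 8705273369) (nat_lit 532) (nat_lit 1714571095) (nat_lit 76) (nat_lit 11407422786) (nat_lit 204) (nat_lit 5) (nat_lit 211) (nat_lit 5) (nat_lit 205) (nat_lit 5) (nat_lit 638) (nat_lit 562) (nat_lit 360)) (XT.lf (nat_lit 0) (nat_lit 11636247616) (nat_lit 456) (nat_lit 1947902922) (nat_lit 532) (nat_lit 8505611429) (nat_lit 198) (nat_lit 5) (nat_lit 204) (nat_lit 5) (nat_lit 205) (nat_lit 5) (nat_lit 639) (nat_lit 562) (nat_lit 359))) (XT.nd (nat_lit 78) (nat_lit 532) (nat_lit 0) (XT.lf (nat_lit 0) (nat_lit 2905513644) (nat_lit 380) (nat_lit 15722812773) (nat_lit 456)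 (nat_lit 3727825968) (nat_lit 193) (nat_lit 5) (nat_lit 198) (nat_lit 5) (nat_lit 199) (nat_lit 5) (nat_lit 640) (nat_lit 562) (nat_lit 358)) (XT.nd (nat_lit 78) (nat_lit 456) (nat_lit 0) (XT.lf (nat_lit 0) (nat_lit 1207842763) (nat_lit 456) (nat_lit 5982975223) (nat_lit 76) (nat_lit 15435357070) (nat_lit 192) (nat_lit 5) (nat_lit 198) (nat_lit 5) (nat_lit 193) (nat_lit 5) (nat_lit 641) (nat_lit 562) (nat_lit 357)) (XT.lf (nat_lit 0) (nat_lit 6247403640) (nat_lit 532) (nat_lit 15087501152) (nat_lit 76) (nat_lit 1565098897) (nat_lit 186) (nat_lit 5) (nat_lit 193) (nat_lit 5) (nat_lit 187) (nat_lit 5) (nat_lit 642) (nat_lit 562) (nat_lit 356))))) (XT.nd (nat_lit 234) (nat_lit 456) (nat_lit 0) (XT.nd (nat_lit 78) (nat_lit 760) (nat_lit 0) (XT.lf (nat_lit 0) (nat_lit 11469792548) (nat_lit 532) (nat_lit 1270393430) (nat_lit 76) (nat_lit 10437482393) (nat_lit 186) (nat_lit 5) (nat_lit 193) (nat_lit 5) (nat_lit 187) (nat_lit 5) (nat_lit 643) (nat_lit 562) (nat_lit 355)) (XT.nd (nat_lit 78) (nat_lit 380) (nat_lit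 0) (XT.lf (nat_lit 0) (nat_lit 12984536296) (nat_lit 380) (nat_lit 3890515495) (nat_lit 456) (nat_lit 6584266310) (nat_lit 181) (nat_lit 5) (nat_lit 186) (nat_lit 5) (nat_lit 187) (nat_lit 5) (nat_lit 644) (nat_lit 562) (nat_lit 354)) (XT.lf (nat_lit 0) (nat_lit 3802973442) (nat_lit 380) (nat_lit 18646220711) (nat_lit 456) (nat_lit 1296191315) (nat_lit 176) (nat_lit 5) (nat_lit 181) (nat_lit 5) (nat_lit 182) (nat_lit 5) (nat_lit 645) (nat_lit 562) (nat_lit 353)))) (XT.nd (nat_lit 78) (nat_lit 380) (nat_lit 0) (XT.lf (nat_lit 0) (nat_lit 4134602333) (nat_lit 456) (nat_lit 5589204917) (nat_lit 76) (nat_lit 14311021065) (nat_lit 175) (nat_lit 5) (nat_lit 181) (nat_lit 5) (nat_lit 176) (nat_lit 5) (nat_lit 646) (nat_lit 562) (nat_lit 352)) (XT.nd (nat_lit 78) (nat_lit 0) (nat_lit 0) (XT.lf (nat_lit 0) (nat_lit 9153836856) (nat_lit 380) (nat_lit 556558882) (nat_lit 456) (nat_lit 14618418316) (nat_lit 170) (nat_lit 5) (nat_lit 175) (nat_lit 5) (nat_lit 176) (nat_lit 5) (nat_lit 647) (nat_lit 562) (nat_lit 351))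 (XT.lf (nat_lit 0) (nat_lit 15486883918) (nat_lit 456) (nat_lit 426508120) (nat_lit 76) (nat_lit 8713504081) (nat_lit 170) (nat_lit 5) (nat_lit 176) (nat_lit 5) (nat_lit 171) (nat_lit 5) (nat_lit 648) (nat_lit 562) (nat_lit 350))))))))
noncomputable def xc148 : XT := (XT.nd (nat_lit 75426) (nat_lit 0) (nat_lit 21964) (XT.nd (nat_lit 74646) (nat_lit 0) (nat_lit 28652) (XT.nd (nat_lit 390) (nat_lit 456) (nat_lit 0) (XT.nd (nat_lit 156) (nat_lit 684) (nat_lit 0) (XT.nd (nat_lit 78) (nat_lit 456) (nat_lit 0) (XT.lf (nat_lit 0) (nat_lit 14798768067) (nat_lit 380) (nat_lit 6674341567) (nat_lit 456) (nat_lit 3455946218) (nat_lit 165) (nat_lit 5) (nat_lit 170) (nat_lit 5) (nat_lit 171) (nat_lit 5) (nat_lit 649) (nat_lit 562) (nat_lit 349)) (XT.lf (nat_lit 0) (nat_lit 2359974407) (nat_lit 456) (nat_lit 20113767662) (nat_lit 76) (nat_lit 2762235067) (nat_lit 159) (nat_lit 5) (nat_lit 165) (nat_lit 5) (nat_lit 160) (nat_lit 5) (nat_lit 650) (nat_lit 562) (nat_lit 348))) (XT.nd (nat_lit 78) (nat_lit 684) (nat_lit 0)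 (XT.lf (nat_lit 0) (nat_lit 8353101616) (nat_lit 456) (nat_lit 4806756341) (nat_lit 76) (nat_lit 12386578919) (nat_lit 159) (nat_lit 5) (nat_lit 165) (nat_lit 5) (nat_lit 160) (nat_lit 5) (nat_lit 651) (nat_lit 562) (nat_lit 347)) (XT.nd (nat_lit 78) (nat_lit 304) (nat_lit 0) (XT.lf (nat_lit 0) (nat_lit 10941446907) (nat_lit 380) (nat_lit 3590280983) (nat_lit 456) (nat_lit 11330065360) (nat_lit 154) (nat_lit 5) (nat_lit 159) (nat_lit 5) (nat_lit 160) (nat_lit 5) (nat_lit 652) (nat_lit 562) (nat_lit 346)) (XT.lf (nat_lit 0) (nat_lit 849341674) (nat_lit 304) (nat_lit 20057262278) (nat_lit 380) (nat_lit 5275399420) (nat_lit 150) (nat_lit 5) (nat_lit 154) (nat_lit 5) (nat_lit 155) (nat_lit 5) (nat_lit 653) (nat_lit 562) (nat_lit 345))))) (XT.nd (nat_lit 156) (nat_lit 0) (nat_lit 0) (XT.nd (nat_lit 78) (nat_lit 380) (nat_lit 0) (XT.lf (nat_lit 0) (nat_lit 1007758922) (nat_lit 380) (nat_lit 9408722817) (nat_lit 76) (nat_lit 16089635054) (nat_lit 149) (nat_lit 5) (nat_lit 154) (nat_lit 5) (nat_lit 150) (nat_lit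 5) (nat_lit 654) (nat_lit 562) (nat_lit 344)) (XT.lf (nat_lit 0) (nat_lit 6880671465) (nat_lit 380) (nat_lit 504760619) (nat_lit 456) (nat_lit 19449793361) (nat_lit 144) (nat_lit 5) (nat_lit 149) (nat_lit 5) (nat_lit 150) (nat_lit 5) (nat_lit 655) (nat_lit 562) (nat_lit 343))) (XT.nd (nat_lit 73944) (nat_lit 0) (nat_lit 30248) (XT.lf (nat_lit 0) (nat_lit 14011356247) (nat_lit 456) (nat_lit 3617401245) (nat_lit 76) (nat_lit 9539744980) (nat_lit 144) (nat_lit 5) (nat_lit 150) (nat_lit 5) (nat_lit 145) (nat_lit 5) (nat_lit 656) (nat_lit 562) (nat_lit 342)) (XT.nd (nat_lit 78) (nat_lit 0) (nat_lit 0) (XT.lf (nat_lit 0) (nat_lit 1739029108) (nat_lit 0) (nat_lit 1739029108) (nat_lit 1596) (nat_lit 1522559245) (nat_lit 542) (nat_lit 5) (nat_lit 542) (nat_lit 3) (nat_lit 563) (nat_lit 3) (nat_lit 563) (nat_lit 563) (nat_lit 434)) (XT.lf (nat_lit 0) (nat_lit 7738330091) (nat_lit 1596) (nat_lit 1561351717) (nat_lit 1672) (nat_lit 787265656) (nat_lit 542) (nat_lit 5) (nat_lit 563) (nat_lit 3) (nat_lit 564) (nat_lit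 5) (nat_lit 564) (nat_lit 563) (nat_lit 433)))))) (XT.nd (nat_lit 390) (nat_lit 0) (nat_lit 76) (XT.nd (nat_lit 156) (nat_lit 1596) (nat_lit 0) (XT.nd (nat_lit 78) (nat_lit 0) (nat_lit 0) (XT.lf (nat_lit 76) (nat_lit 3513039163) (nat_lit 0) (nat_lit 5050494305) (nat_lit 1672) (nat_lit 1610295105) (nat_lit 543) (nat_lit 5) (nat_lit 542) (nat_lit 5) (nat_lit 564) (nat_lit 5) (nat_lit 565) (nat_lit 563) (nat_lit 432)) (XT.lf (nat_lit 76) (nat_lit 8700435032) (nat_lit 0) (nat_lit 697086390) (nat_lit 1672) (nat_lit 865081473) (nat_lit 543) (nat_lit 5) (nat_lit 542) (nat_lit 5) (nat_lit 564) (nat_lit 5) (nat_lit 566) (nat_lit 563) (nat_lit 431))) (XT.nd (nat_lit 78) (nat_lit 1672) (nat_lit 0) (XT.lf (nat_lit 76) (nat_lit 3652149540) (nat_lit 0) (nat_lit 6626270586) (nat_lit 1672) (nat_lit 74129138) (nat_lit 544) (nat_lit 5) (nat_lit 543) (nat_lit 5) (nat_lit 565) (nat_lit 5) (nat_lit 567) (nat_lit 563) (nat_lit 430)) (XT.nd (nat_lit 78) (nat_lit 0) (nat_lit 76) (XT.lf (nat_lit 0) (nat_lit 720584647) (nat_lit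 1672) (nat_lit 1471639628) (nat_lit 1748) (nat_lit 8252025259) (nat_lit 521) (nat_lit 5) (nat_lit 543) (nat_lit 5) (nat_lit 544) (nat_lit 5) (nat_lit 568) (nat_lit 563) (nat_lit 429)) (XT.lf (nat_lit 0) (nat_lit 1553617123) (nat_lit 1672) (nat_lit 6650420983) (nat_lit 1748) (nat_lit 2333268674) (nat_lit 522) (nat_lit 5) (nat_lit 544) (nat_lit 5) (nat_lit 545) (nat_lit 5) (nat_lit 569) (nat_lit 563) (nat_lit 428))))) (XT.nd (nat_lit 156) (nat_lit 0) (nat_lit 76) (XT.nd (nat_lit 78) (nat_lit 0) (nat_lit 76) (XT.lf (nat_lit 0) (nat_lit 2410818934) (nat_lit 1672) (nat_lit 1284248086) (nat_lit 1748) (nat_lit 6937009066) (nat_lit 522) (nat_lit 5) (nat_lit 544) (nat_lit 5) (nat_lit 545) (nat_lit 5) (nat_lit 570) (nat_lit 563) (nat_lit 427)) (XT.lf (nat_lit 0) (nat_lit 3302137346) (nat_lit 1672) (nat_lit 6499798589) (nat_lit 1748) (nat_lit 926466460) (nat_lit 523) (nat_lit 5) (nat_lit 545) (nat_lit 5) (nat_lit 546) (nat_lit 5) (nat_lit 571) (nat_lit 563) (nat_lit 426))) (XT.nd (nat_lit 78) (nat_lit 0) (nat_lit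 0) (XT.lf (nat_lit 0) (nat_lit 4228113399) (nat_lit 1672) (nat_lit 992161848) (nat_lit 1748) (nat_lit 5606044406) (nat_lit 523) (nat_lit 5) (nat_lit 545) (nat_lit 5) (nat_lit 546) (nat_lit 5) (nat_lit 572) (nat_lit 563) (nat_lit 425)) (XT.nd (nat_lit 78) (nat_lit 0) (nat_lit 76) (XT.lf (nat_lit 76) (nat_lit 4676895044) (nat_lit 0) (nat_lit 510084900) (nat_lit 1748) (nat_lit 5738928917) (nat_lit 524) (nat_lit 5) (nat_lit 523) (nat_lit 5) (nat_lit 546) (nat_lit 5) (nat_lit 573) (nat_lit 563) (nat_lit 424)) (XT.lf (nat_lit 0) (nat_lit 6183898752) (nat_lit 1672) (nat_lit 592858047) (nat_lit 1748) (nat_lit 4250356562) (nat_lit 524) (nat_lit 5) (nat_lit 546) (nat_lit 5) (nat_lit 547) (nat_lit 5) (nat_lit 574) (nat_lit 563) (nat_lit 423))))))) (XT.nd (nat_lit 780) (nat_lit 5320) (nat_lit 0) (XT.nd (nat_lit 390) (nat_lit 0) (nat_lit 0) (XT.nd (nat_lit 156) (nat_lit 1596) (nat_lit 0) (XT.nd (nat_lit 78) (nat_lit 0) (nat_lit 76) (XT.lf (nat_lit 76) (nat_lit 5231500105) (nat_lit 0) (nat_lit 1991199661) (nat_lit 1748)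 (nat_lit 3907204297) (nat_lit 525) (nat_lit 5) (nat_lit 524) (nat_lit 5) (nat_lit 547) (nat_lit 5) (nat_lit 575) (nat_lit 563) (nat_lit 422)) (XT.lf (nat_lit 0) (nat_lit 8289914629) (nat_lit 1672) (nat_lit 83504980) (nat_lit 1748) (nat_lit 2861179178) (nat_lit 525) (nat_lit 5) (nat_lit 547) (nat_lit 5) (nat_lit 548) (nat_lit 5) (nat_lit 576) (nat_lit 563) (nat_lit 421))) (XT.nd (nat_lit 78) (nat_lit 1672) (nat_lit 0) (XT.lf (nat_lit 76) (nat_lit 5901686163) (nat_lit 0) (nat_lit 3513457578) (nat_lit 1748) (nat_lit 1925511215) (nat_lit 526) (nat_lit 5) (nat_lit 525) (nat_lit 5) (nat_lit 548) (nat_lit 5) (nat_lit 577) (nat_lit 563) (nat_lit 420)) (XT.nd (nat_lit 78) (nat_lit 1748) (nat_lit 0) (XT.lf (nat_lit 76) (nat_lit 546202831) (nat_lit 0) (nat_lit 10015577890) (nat_lit 1748) (nat_lit 887074392) (nat_lit 527) (nat_lit 5) (nat_lit 526) (nat_lit 5) (nat_lit 549) (nat_lit 5) (nat_lit 578) (nat_lit 563) (nat_lit 419)) (XT.lf (nat_lit 0) (nat_lit 215423353) (nat_lit 1748) (nat_lit 4868911658) (nat_lit 1824)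 (nat_lit 6473951807) (nat_lit 503) (nat_lit 5) (nat_lit 526) (nat_lit 5) (nat_lit 527) (nat_lit 5) (nat_lit 579) (nat_lit 563) (nat_lit 418))))) (XT.nd (nat_lit 156) (nat_lit 0) (nat_lit 76) (XT.nd (nat_lit 78) (nat_lit 0) (nat_lit 76) (XT.lf (nat_lit 76) (nat_lit 1286104781) (nat_lit 0) (nat_lit 36174921) (nat_lit 1824) (nat_lit 10347627329) (nat_lit 504) (nat_lit 5) (nat_lit 503) (nat_lit 5) (nat_lit 527) (nat_lit 5) (nat_lit 580) (nat_lit 563) (nat_lit 417)) (XT.lf (nat_lit 0) (nat_lit 2503418943) (nat_lit 1748) (nat_lit 4196925522) (nat_lit 1824) (nat_lit 5082373128) (nat_lit 504) (nat_lit 5) (nat_lit 527) (nat_lit 5) (nat_lit 528) (nat_lit 5) (nat_lit 581) (nat_lit 563) (nat_lit 416))) (XT.nd (nat_lit 78) (nat_lit 0) (nat_lit 76) (XT.lf (nat_lit 76) (nat_lit 2130978483) (nat_lit 0) (nat_lit 1577610890) (nat_lit 1824) (nat_lit 8189187667) (nat_lit 505) (nat_lit 5) (nat_lit 504) (nat_lit 5) (nat_lit 528) (nat_lit 5) (nat_lit 582) (nat_lit 563) (nat_lit 415)) (XT.nd (nat_lit 78) (nat_lit 0) (nat_lit 0)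 (XT.lf (nat_lit 0) (nat_lit 4976449914) (nat_lit 1748) (nat_lit 3406753096) (nat_lit 1824) (nat_lit 3631163755) (nat_lit 505) (nat_lit 5) (nat_lit 528) (nat_lit 5) (nat_lit 529) (nat_lit 5) (nat_lit 583) (nat_lit 563) (nat_lit 414)) (XT.lf (nat_lit 76) (nat_lit 3100274125) (nat_lit 0) (nat_lit 3186788094) (nat_lit 1824) (nat_lit 5845878986) (nat_lit 506) (nat_lit 5) (nat_lit 505) (nat_lit 5) (nat_lit 529) (nat_lit 5) (nat_lit 584) (nat_lit 563) (nat_lit 413)))))) (XT.nd (nat_lit 390) (nat_lit 3800) (nat_lit 0) (XT.nd (nat_lit 156) (nat_lit 1748) (nat_lit 0) (XT.nd (nat_lit 78) (nat_lit 0) (nat_lit 0) (XT.lf (nat_lit 0) (nat_lit 7647647889) (nat_lit 1748) (nat_lit 2494323673) (nat_lit 1824) (nat_lit 2111441142) (nat_lit 506) (nat_lit 5) (nat_lit 529) (nat_lit 5) (nat_lit 530) (nat_lit 5) (nat_lit 585) (nat_lit 563) (nat_lit 412)) (XT.lf (nat_lit 76) (nat_lit 4198311211) (nat_lit 0) (nat_lit 4872777242) (nat_lit 1824) (nat_lit 3304493094) (nat_lit 507) (nat_lit 5) (nat_lit 506) (nat_lit 5) (nat_lit 530) (nat_lit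 5) (nat_lit 586) (nat_lit 563) (nat_lit 411))) (XT.nd (nat_lit 78) (nat_lit 1824) (nat_lit 0) (XT.lf (nat_lit 0) (nat_lit 10530581560) (nat_lit 1748) (nat_lit 1455247300) (nat_lit 76) (nat_lit 514213995) (nat_lit 507) (nat_lit 5) (nat_lit 530) (nat_lit 5) (nat_lit 508) (nat_lit 5) (nat_lit 587) (nat_lit 563) (nat_lit 410)) (XT.nd (nat_lit 78) (nat_lit 76) (nat_lit 0) (XT.lf (nat_lit 0) (nat_lit 5429737117) (nat_lit 1748) (nat_lit 6644773103) (nat_lit 1824) (nat_lit 551379004) (nat_lit 484) (nat_lit 5) (nat_lit 507) (nat_lit 5) (nat_lit 508) (nat_lit 5) (nat_lit 588) (nat_lit 563) (nat_lit 409)) (XT.lf (nat_lit 0) (nat_lit 880970974) (nat_lit 1824) (nat_lit 298300857) (nat_lit 76) (nat_lit 11574912280) (nat_lit 483) (nat_lit 5) (nat_lit 507) (nat_lit 5) (nat_lit 484) (nat_lit 5) (nat_lit 589) (nat_lit 563) (nat_lit 408))))) (XT.nd (nat_lit 156) (nat_lit 912) (nat_lit 0) (XT.nd (nat_lit 78) (nat_lit 1064) (nat_lit 0) (XT.lf (nat_lit 0) (nat_lit 2395746015) (nat_lit 1900) (nat_lit 6100293953) (nat_lit 76)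 (nat_lit 4387709519) (nat_lit 459) (nat_lit 5) (nat_lit 484) (nat_lit 5) (nat_lit 460) (nat_lit 5) (nat_lit 590) (nat_lit 563) (nat_lit 407)) (XT.lf (nat_lit 0) (nat_lit 989694131) (nat_lit 1064) (nat_lit 2955604422) (nat_lit 1140) (nat_lit 9070518669) (nat_lit 445) (nat_lit 5) (nat_lit 459) (nat_lit 5) (nat_lit 460) (nat_lit 5) (nat_lit 591) (nat_lit 563) (nat_lit 406))) (XT.nd (nat_lit 78) (nat_lit 912) (nat_lit 0) (XT.lf (nat_lit 0) (nat_lit 5572953613) (nat_lit 1140) (nat_lit 4873966345) (nat_lit 76) (nat_lit 2702664801) (nat_lit 445) (nat_lit 5) (nat_lit 460) (nat_lit 5) (nat_lit 446) (nat_lit 5) (nat_lit 592) (nat_lit 563) (nat_lit 405)) (XT.nd (nat_lit 78) (nat_lit 0) (nat_lit 0) (XT.lf (nat_lit 0) (nat_lit 2422988074) (nat_lit 912) (nat_lit 4834108594) (nat_lit 988) (nat_lit 6028452945) (nat_lit 433) (nat_lit 5) (nat_lit 445) (nat_lit 5) (nat_lit 446) (nat_lit 5) (nat_lit 593) (nat_lit 563) (nat_lit 404)) (XT.lf (nat_lit 0) (nat_lit 9002421433) (nat_lit 988) (nat_lit 3508242901) (nat_lit 76) (nat_lit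 913020104) (nat_lit 433) (nat_lit 5) (nat_lit 446) (nat_lit 5) (nat_lit 434) (nat_lit 5) (nat_lit 594) (nat_lit 563) (nat_lit 403))))))))
noncomputable def xc149 : XT := (XT.nd (nat_lit 2808) (nat_lit 5928) (nat_lit 0) (XT.nd (nat_lit 780) (nat_lit 9728) (nat_lit 0) (XT.nd (nat_lit 390) (nat_lit 2508) (nat_lit 0) (XT.nd (nat_lit 156) (nat_lit 1748) (nat_lit 0) (XT.nd (nat_lit 78) (nat_lit 0) (nat_lit 0) (XT.lf (nat_lit 0) (nat_lit 4003248076) (nat_lit 912) (nat_lit 6826420782) (nat_lit 988) (nat_lit 2733973416) (nat_lit 421) (nat_lit 5) (nat_lit 433) (nat_lit 5) (nat_lit 434) (nat_lit 5) (nat_lit 595) (nat_lit 563) (nat_lit 402)) (XT.lf (nat_lit 0) (nat_lit 11702189086) (nat_lit 912) (nat_lit 1003973143) (nat_lit 988) (nat_lit 999983645) (nat_lit 421) (nat_lit 5) (nat_lit 433) (nat_lit 5) (nat_lit 434) (nat_lit 5) (nat_lit 596) (nat_lit 563) (nat_lit 401))) (XT.nd (nat_lit 78) (nat_lit 836) (nat_lit 0) (XT.lf (nat_lit 0) (nat_lit 817652638) (nat_lit 912) (nat_lit 8119251744) (nat_lit 76) (nat_lit 4913314983)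 (nat_lit 409) (nat_lit 5) (nat_lit 421) (nat_lit 5) (nat_lit 410) (nat_lit 5) (nat_lit 597) (nat_lit 563) (nat_lit 400)) (XT.nd (nat_lit 78) (nat_lit 836) (nat_lit 0) (XT.lf (nat_lit 0) (nat_lit 2667896077) (nat_lit 912) (nat_lit 372932452) (nat_lit 76) (nat_lit 10956021305) (nat_lit 409) (nat_lit 5) (nat_lit 421) (nat_lit 5) (nat_lit 410) (nat_lit 5) (nat_lit 598) (nat_lit 563) (nat_lit 399)) (XT.lf (nat_lit 0) (nat_lit 4613890868) (nat_lit 912) (nat_lit 6547255748) (nat_lit 76) (nat_lit 2984091945) (nat_lit 398) (nat_lit 5) (nat_lit 410) (nat_lit 5) (nat_lit 399) (nat_lit 5) (nat_lit 599) (nat_lit 563) (nat_lit 398))))) (XT.nd (nat_lit 156) (nat_lit 1672) (nat_lit 0) (XT.nd (nat_lit 78) (nat_lit 0) (nat_lit 0) (XT.lf (nat_lit 0) (nat_lit 1425006214) (nat_lit 836) (nat_lit 5195499019) (nat_lit 912) (nat_lit 7675656403) (nat_lit 387) (nat_lit 5) (nat_lit 398) (nat_lit 5) (nat_lit 399) (nat_lit 5) (nat_lit 600) (nat_lit 563) (nat_lit 397)) (XT.lf (nat_lit 0) (nat_lit 8707175893) (nat_lit 912) (nat_lit 4820314850)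 (nat_lit 76) (nat_lit 921814504) (nat_lit 387) (nat_lit 5) (nat_lit 399) (nat_lit 5) (nat_lit 388) (nat_lit 5) (nat_lit 601) (nat_lit 563) (nat_lit 396))) (XT.nd (nat_lit 78) (nat_lit 836) (nat_lit 0) (XT.lf (nat_lit 0) (nat_lit 3391331170) (nat_lit 836) (nat_lit 7490794979) (nat_lit 912) (nat_lit 3722455202) (nat_lit 376) (nat_lit 5) (nat_lit 387) (nat_lit 5) (nat_lit 388) (nat_lit 5) (nat_lit 602) (nat_lit 563) (nat_lit 395)) (XT.nd (nat_lit 78) (nat_lit 836) (nat_lit 0) (XT.lf (nat_lit 0) (nat_lit 11822336392) (nat_lit 836) (nat_lit 1300833408) (nat_lit 912) (nat_lit 1639341824) (nat_lit 376) (nat_lit 5) (nat_lit 387) (nat_lit 5) (nat_lit 388) (nat_lit 5) (nat_lit 603) (nat_lit 563) (nat_lit 394)) (XT.lf (nat_lit 0) (nat_lit 538331906) (nat_lit 836) (nat_lit 9397851897) (nat_lit 76) (nat_lit 4986168884) (nat_lit 365) (nat_lit 5) (nat_lit 376) (nat_lit 5) (nat_lit 366) (nat_lit 5) (nat_lit 604) (nat_lit 563) (nat_lit 393)))))) (XT.nd (nat_lit 1638) (nat_lit 1672) (nat_lit 0) (XT.nd (nat_lit 1404) (nat_lit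 1140) (nat_lit 0) (XT.nd (nat_lit 1326) (nat_lit 6916) (nat_lit 0) (XT.lf (nat_lit 0) (nat_lit 2756598930) (nat_lit 836) (nat_lit 916535394) (nat_lit 76) (nat_lit 11411660218) (nat_lit 365) (nat_lit 5) (nat_lit 376) (nat_lit 5) (nat_lit 366) (nat_lit 5) (nat_lit 605) (nat_lit 563) (nat_lit 392)) (XT.lf (nat_lit 0) (nat_lit 405772382) (nat_lit 684) (nat_lit 3419204062) (nat_lit 76) (nat_lit 14411602653) (nat_lit 274) (nat_lit 5) (nat_lit 283) (nat_lit 5) (nat_lit 275) (nat_lit 5) (nat_lit 622) (nat_lit 563) (nat_lit 375))) (XT.nd (nat_lit 78) (nat_lit 532) (nat_lit 0) (XT.lf (nat_lit 0) (nat_lit 3813862373) (nat_lit 684) (nat_lit 11020668981) (nat_lit 76) (nat_lit 3612229743) (nat_lit 266) (nat_lit 5) (nat_lit 275) (nat_lit 5) (nat_lit 267) (nat_lit 5) (nat_lit 623) (nat_lit 563) (nat_lit 374)) (XT.nd (nat_lit 78) (nat_lit 532) (nat_lit 0) (XT.lf (nat_lit 0) (nat_lit 7331219814) (nat_lit 684) (nat_lit 161083466) (nat_lit 76) (nat_lit 11168021670) (nat_lit 266) (nat_lit 5) (nat_lit 275) (nat_lit 5) (nat_lit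 267) (nat_lit 5) (nat_lit 624) (nat_lit 563) (nat_lit 373)) (XT.lf (nat_lit 0) (nat_lit 10983938175) (nat_lit 608) (nat_lit 7826043599) (nat_lit 76) (nat_lit 66878349) (nat_lit 259) (nat_lit 5) (nat_lit 267) (nat_lit 5) (nat_lit 260) (nat_lit 5) (nat_lit 625) (nat_lit 563) (nat_lit 372))))) (XT.nd (nat_lit 156) (nat_lit 1140) (nat_lit 0) (XT.nd (nat_lit 78) (nat_lit 0) (nat_lit 0) (XT.lf (nat_lit 0) (nat_lit 3376660023) (nat_lit 532) (nat_lit 11398568044) (nat_lit 608) (nat_lit 4321187904) (nat_lit 252) (nat_lit 5) (nat_lit 259) (nat_lit 5) (nat_lit 260) (nat_lit 5) (nat_lit 626) (nat_lit 563) (nat_lit 371)) (XT.lf (nat_lit 0) (nat_lit 14900129783) (nat_lit 532) (nat_lit 3787697087) (nat_lit 608) (nat_lit 631626709) (nat_lit 252) (nat_lit 5) (nat_lit 259) (nat_lit 5) (nat_lit 260) (nat_lit 5) (nat_lit 627) (nat_lit 563) (nat_lit 370))) (XT.nd (nat_lit 78) (nat_lit 532) (nat_lit 0) (XT.lf (nat_lit 0) (nat_lit 3156511983) (nat_lit 608) (nat_lit 12400432617) (nat_lit 76) (nat_lit 3988283781) (nat_lit 244)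 (nat_lit 5) (nat_lit 252) (nat_lit 5) (nat_lit 245) (nat_lit 5) (nat_lit 628) (nat_lit 563) (nat_lit 369)) (XT.nd (nat_lit 78) (nat_lit 532) (nat_lit 0) (XT.lf (nat_lit 0) (nat_lit 7060019507) (nat_lit 608) (nat_lit 813628243) (nat_lit 76) (nat_lit 11900826444) (nat_lit 244) (nat_lit 5) (nat_lit 252) (nat_lit 5) (nat_lit 245) (nat_lit 5) (nat_lit 629) (nat_lit 563) (nat_lit 368)) (XT.lf (nat_lit 0) (nat_lit 11107416971) (nat_lit 608) (nat_lit 8865337432) (nat_lit 76) (nat_lit 34234411) (nat_lit 237) (nat_lit 5) (nat_lit 245) (nat_lit 5) (nat_lit 238) (nat_lit 5) (nat_lit 630) (nat_lit 563) (nat_lit 367))))))) (XT.nd (nat_lit 780) (nat_lit 2964) (nat_lit 0) (XT.nd (nat_lit 390) (nat_lit 1444) (nat_lit 0) (XT.nd (nat_lit 156) (nat_lit 1064) (nat_lit 0) (XT.nd (nat_lit 78) (nat_lit 0) (nat_lit 0) (XT.lf (nat_lit 0) (nat_lit 3082046486) (nat_lit 456) (nat_lit 12224677508) (nat_lit 532) (nat_lit 4936010775) (nat_lit 231) (nat_lit 5) (nat_lit 237) (nat_lit 5) (nat_lit 238) (nat_lit 5) (nat_lit 631) (nat_lit 563)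 (nat_lit 366)) (XT.lf (nat_lit 0) (nat_lit 15379394097) (nat_lit 456) (nat_lit 4263497370) (nat_lit 532) (nat_lit 839246964) (nat_lit 231) (nat_lit 5) (nat_lit 237) (nat_lit 5) (nat_lit 238) (nat_lit 5) (nat_lit 632) (nat_lit 563) (nat_lit 365))) (XT.nd (nat_lit 78) (nat_lit 456) (nat_lit 0) (XT.lf (nat_lit 0) (nat_lit 3361747478) (nat_lit 608) (nat_lit 13489725193) (nat_lit 76) (nat_lit 3873102261) (nat_lit 223) (nat_lit 5) (nat_lit 231) (nat_lit 5) (nat_lit 224) (nat_lit 5) (nat_lit 633) (nat_lit 563) (nat_lit 364)) (XT.nd (nat_lit 78) (nat_lit 456) (nat_lit 0) (XT.lf (nat_lit 0) (nat_lit 7691761565) (nat_lit 608) (nat_lit 1125947175) (nat_lit 76) (nat_lit 12152915985) (nat_lit 223) (nat_lit 5) (nat_lit 231) (nat_lit 5) (nat_lit 224) (nat_lit 5) (nat_lit 634) (nat_lit 563) (nat_lit 363)) (XT.lf (nat_lit 0) (nat_lit 11628680585) (nat_lit 456) (nat_lit 548846277) (nat_lit 532) (nat_lit 9042685885) (nat_lit 217) (nat_lit 5) (nat_lit 223) (nat_lit 5) (nat_lit 224) (nat_lit 5) (nat_lit 635) (nat_lit 563) (nat_lit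 362))))) (XT.nd (nat_lit 156) (nat_lit 988) (nat_lit 0) (XT.nd (nat_lit 78) (nat_lit 0) (nat_lit 0) (XT.lf (nat_lit 0) (nat_lit 3160233473) (nat_lit 456) (nat_lit 13665795094) (nat_lit 532) (nat_lit 4647303787) (nat_lit 211) (nat_lit 5) (nat_lit 217) (nat_lit 5) (nat_lit 218) (nat_lit 5) (nat_lit 636) (nat_lit 563) (nat_lit 361)) (XT.lf (nat_lit 0) (nat_lit 16284437942) (nat_lit 456) (nat_lit 5344802812) (nat_lit 532) (nat_lit 101039032) (nat_lit 211) (nat_lit 5) (nat_lit 217) (nat_lit 5) (nat_lit 218) (nat_lit 5) (nat_lit 637) (nat_lit 563) (nat_lit 360))) (XT.nd (nat_lit 78) (nat_lit 456) (nat_lit 0) (XT.lf (nat_lit 0) (nat_lit 4541686187) (nat_lit 532) (nat_lit 14269799129) (nat_lit 76) (nat_lit 3178991497) (nat_lit 204) (nat_lit 5) (nat_lit 211) (nat_lit 5) (nat_lit 205) (nat_lit 5) (nat_lit 638) (nat_lit 563) (nat_lit 359)) (XT.nd (nat_lit 78) (nat_lit 456) (nat_lit 0) (XT.lf (nat_lit 0) (nat_lit 9341989913) (nat_lit 532) (nat_lit 1075989186) (nat_lit 76) (nat_lit 11836564013) (nat_lit 204) (nat_lit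 5) (nat_lit 211) (nat_lit 5) (nat_lit 205) (nat_lit 5) (nat_lit 639) (nat_lit 563) (nat_lit 358)) (XT.lf (nat_lit 0) (nat_lit 12537419101) (nat_lit 456) (nat_lit 1776294718) (nat_lit 532) (nat_lit 8208668861) (nat_lit 198) (nat_lit 5) (nat_lit 204) (nat_lit 5) (nat_lit 205) (nat_lit 5) (nat_lit 640) (nat_lit 563) (nat_lit 357)))))) (XT.nd (nat_lit 390) (nat_lit 1672) (nat_lit 0) (XT.nd (nat_lit 156) (nat_lit 836) (nat_lit 0) (XT.nd (nat_lit 78) (nat_lit 76) (nat_lit 0) (XT.lf (nat_lit 0) (nat_lit 3635428802) (nat_lit 380) (nat_lit 15820068501) (nat_lit 456) (nat_lit 3338669453) (nat_lit 193) (nat_lit 5) (nat_lit 198) (nat_lit 5) (nat_lit 199) (nat_lit 5) (nat_lit 641) (nat_lit 563) (nat_lit 356)) (XT.lf (nat_lit 0) (nat_lit 1680657809) (nat_lit 456) (nat_lit 5438024110) (nat_lit 76) (nat_lit 15951027529) (nat_lit 192) (nat_lit 5) (nat_lit 198) (nat_lit 5) (nat_lit 193) (nat_lit 5) (nat_lit 642) (nat_lit 563) (nat_lit 355))) (XT.nd (nat_lit 78) (nat_lit 380) (nat_lit 0) (XT.lf (nat_lit 0) (nat_lit 6817902392)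 (nat_lit 532) (nat_lit 14721517412) (nat_lit 76) (nat_lit 1809657313) (nat_lit 186) (nat_lit 5) (nat_lit 193) (nat_lit 5) (nat_lit 187) (nat_lit 5) (nat_lit 643) (nat_lit 563) (nat_lit 354)) (XT.nd (nat_lit 78) (nat_lit 380) (nat_lit 0) (XT.lf (nat_lit 0) (nat_lit 12136002790) (nat_lit 532) (nat_lit 641160354) (nat_lit 76) (nat_lit 10855306980) (nat_lit 186) (nat_lit 5) (nat_lit 193) (nat_lit 5) (nat_lit 187) (nat_lit 5) (nat_lit 644) (nat_lit 563) (nat_lit 353)) (XT.lf (nat_lit 0) (nat_lit 13894561118) (nat_lit 380) (nat_lit 3750463511) (nat_lit 456) (nat_lit 6274815371) (nat_lit 181) (nat_lit 5) (nat_lit 186) (nat_lit 5) (nat_lit 187) (nat_lit 5) (nat_lit 645) (nat_lit 563) (nat_lit 352))))) (XT.nd (nat_lit 234) (nat_lit 836) (nat_lit 0) (XT.nd (nat_lit 78) (nat_lit 456) (nat_lit 0) (XT.lf (nat_lit 0) (nat_lit 4532290752) (nat_lit 380) (nat_lit 18795507402) (nat_lit 456) (nat_lit 883887889) (nat_lit 176) (nat_lit 5) (nat_lit 181) (nat_lit 5) (nat_lit 182) (nat_lit 5) (nat_lit 646) (nat_lit 563) (nat_lit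 351)) (XT.nd (nat_lit 78) (nat_lit 380) (nat_lit 0) (XT.lf (nat_lit 0) (nat_lit 4641294206) (nat_lit 456) (nat_lit 5054891257) (nat_lit 76) (nat_lit 14810845262) (nat_lit 175) (nat_lit 5) (nat_lit 181) (nat_lit 5) (nat_lit 176) (nat_lit 5) (nat_lit 647) (nat_lit 563) (nat_lit 350)) (XT.lf (nat_lit 0) (nat_lit 9978760709) (nat_lit 380) (nat_lit 345696346) (nat_lit 456) (nat_lit 14482522331) (nat_lit 170) (nat_lit 5) (nat_lit 175) (nat_lit 5) (nat_lit 176) (nat_lit 5) (nat_lit 648) (nat_lit 563) (nat_lit 349)))) (XT.nd (nat_lit 78) (nat_lit 456) (nat_lit 0) (XT.lf (nat_lit 0) (nat_lit 203728491) (nat_lit 380) (nat_lit 16007249897) (nat_lit 456) (nat_lit 8900154908) (nat_lit 165) (nat_lit 5) (nat_lit 170) (nat_lit 5) (nat_lit 171) (nat_lit 5) (nat_lit 649) (nat_lit 563) (nat_lit 348)) (XT.nd (nat_lit 78) (nat_lit 456) (nat_lit 0) (XT.lf (nat_lit 0) (nat_lit 15726653432) (nat_lit 380) (nat_lit 6584956517) (nat_lit 456) (nat_lit 3107832914) (nat_lit 165) (nat_lit 5) (nat_lit 170) (nat_lit 5) (nat_lit 171) (nat_lit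 5) (nat_lit 650) (nat_lit 563) (nat_lit 347)) (XT.lf (nat_lit 0) (nat_lit 2816434959) (nat_lit 456) (nat_lit 19876135940) (nat_lit 76) (nat_lit 3039927733) (nat_lit 159) (nat_lit 5) (nat_lit 165) (nat_lit 5) (nat_lit 160) (nat_lit 5) (nat_lit 651) (nat_lit 563) (nat_lit 346))))))))
noncomputable def xc150 : XT := (XT.nd (nat_lit 75426) (nat_lit 0) (nat_lit 20140) (XT.nd (nat_lit 74646) (nat_lit 0) (nat_lit 28652) (XT.nd (nat_lit 390) (nat_lit 0) (nat_lit 0) (XT.nd (nat_lit 156) (nat_lit 760) (nat_lit 0) (XT.nd (nat_lit 78) (nat_lit 380) (nat_lit 0) (XT.lf (nat_lit 0) (nat_lit 8921399986) (nat_lit 456) (nat_lit 4275531591) (nat_lit 76) (nat_lit 12852396737) (nat_lit 159) (nat_lit 5) (nat_lit 165) (nat_lit 5) (nat_lit 160) (nat_lit 5) (nat_lit 652) (nat_lit 563) (nat_lit 345)) (XT.lf (nat_lit 0) (nat_lit 11783508355) (nat_lit 380) (nat_lit 3436269490) (nat_lit 456) (nat_lit 11151290636) (nat_lit 154) (nat_lit 5) (nat_lit 159) (nat_lit 5) (nat_lit 160) (nat_lit 5) (nat_lit 653) (nat_lit 563) (nat_lit 344)))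 (XT.nd (nat_lit 78) (nat_lit 456) (nat_lit 0) (XT.lf (nat_lit 0) (nat_lit 1491912557) (nat_lit 304) (nat_lit 20227945525) (nat_lit 380) (nat_lit 4977870831) (nat_lit 150) (nat_lit 5) (nat_lit 154) (nat_lit 5) (nat_lit 155) (nat_lit 5) (nat_lit 654) (nat_lit 563) (nat_lit 343)) (XT.nd (nat_lit 78) (nat_lit 380) (nat_lit 0) (XT.lf (nat_lit 0) (nat_lit 1417865748) (nat_lit 380) (nat_lit 8978385709) (nat_lit 76) (nat_lit 16632177022) (nat_lit 149) (nat_lit 5) (nat_lit 154) (nat_lit 5) (nat_lit 150) (nat_lit 5) (nat_lit 655) (nat_lit 563) (nat_lit 342)) (XT.lf (nat_lit 0) (nat_lit 7632727303) (nat_lit 380) (nat_lit 286708327) (nat_lit 456) (nat_lit 19444757038) (nat_lit 144) (nat_lit 5) (nat_lit 149) (nat_lit 5) (nat_lit 150) (nat_lit 5) (nat_lit 656) (nat_lit 563) (nat_lit 341))))) (XT.nd (nat_lit 74022) (nat_lit 0) (nat_lit 28576) (XT.nd (nat_lit 73944) (nat_lit 0) (nat_lit 30248) (XT.lf (nat_lit 0) (nat_lit 14671756107) (nat_lit 456) (nat_lit 3081221417) (nat_lit 76) (nat_lit 9951280379) (nat_lit 144) (nat_lit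 5) (nat_lit 150) (nat_lit 5) (nat_lit 145) (nat_lit 5) (nat_lit 657) (nat_lit 563) (nat_lit 340)) (XT.lf (nat_lit 0) (nat_lit 2125249554) (nat_lit 0) (nat_lit 2125249554) (nat_lit 1596) (nat_lit 836026651) (nat_lit 542) (nat_lit 5) (nat_lit 542) (nat_lit 3) (nat_lit 563) (nat_lit 3) (nat_lit 564) (nat_lit 564) (nat_lit 432))) (XT.nd (nat_lit 78) (nat_lit 1672) (nat_lit 0) (XT.lf (nat_lit 0) (nat_lit 9266818158) (nat_lit 1596) (nat_lit 871351898) (nat_lit 1672) (nat_lit 122950838) (nat_lit 542) (nat_lit 5) (nat_lit 563) (nat_lit 3) (nat_lit 564) (nat_lit 5) (nat_lit 565) (nat_lit 564) (nat_lit 431)) (XT.nd (nat_lit 78) (nat_lit 1672) (nat_lit 0) (XT.lf (nat_lit 76) (nat_lit 4299781886) (nat_lit 0) (nat_lit 5786459877) (nat_lit 1672) (nat_lit 263945325) (nat_lit 543) (nat_lit 5) (nat_lit 542) (nat_lit 5) (nat_lit 564) (nat_lit 5) (nat_lit 566) (nat_lit 564) (nat_lit 430)) (XT.lf (nat_lit 0) (nat_lit 462989193) (nat_lit 1672) (nat_lit 867437598) (nat_lit 1748) (nat_lit 9110780912) (nat_lit 520) (nat_lit 5)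 (nat_lit 542) (nat_lit 5) (nat_lit 543) (nat_lit 5) (nat_lit 567) (nat_lit 564) (nat_lit 429)))))) (XT.nd (nat_lit 390) (nat_lit 0) (nat_lit 152) (XT.nd (nat_lit 156) (nat_lit 0) (nat_lit 76) (XT.nd (nat_lit 78) (nat_lit 0) (nat_lit 0) (XT.lf (nat_lit 0) (nat_lit 1233797497) (nat_lit 1672) (nat_lit 6088205912) (nat_lit 1748) (nat_lit 3211354154) (nat_lit 521) (nat_lit 5) (nat_lit 543) (nat_lit 5) (nat_lit 544) (nat_lit 5) (nat_lit 568) (nat_lit 564) (nat_lit 428)) (XT.lf (nat_lit 0) (nat_lit 2017758651) (nat_lit 1672) (nat_lit 769983317) (nat_lit 1748) (nat_lit 7839654807) (nat_lit 521) (nat_lit 5) (nat_lit 543) (nat_lit 5) (nat_lit 544) (nat_lit 5) (nat_lit 569) (nat_lit 564) (nat_lit 427))) (XT.nd (nat_lit 78) (nat_lit 0) (nat_lit 0) (XT.lf (nat_lit 0) (nat_lit 2843534694) (nat_lit 1672) (nat_lit 6028342331) (nat_lit 1748) (nat_lit 1850918101) (nat_lit 522) (nat_lit 5) (nat_lit 544) (nat_lit 5) (nat_lit 545) (nat_lit 5) (nat_lit 570) (nat_lit 564) (nat_lit 426)) (XT.nd (nat_lit 78) (nat_lit 0) (nat_lit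 76) (XT.lf (nat_lit 0) (nat_lit 3693197301) (nat_lit 1672) (nat_lit 569651605) (nat_lit 1748) (nat_lit 6557106163) (nat_lit 522) (nat_lit 5) (nat_lit 544) (nat_lit 5) (nat_lit 545) (nat_lit 5) (nat_lit 571) (nat_lit 564) (nat_lit 425)) (XT.lf (nat_lit 0) (nat_lit 4579805499) (nat_lit 1672) (nat_lit 5866898792) (nat_lit 1748) (nat_lit 471955900) (nat_lit 523) (nat_lit 5) (nat_lit 545) (nat_lit 5) (nat_lit 546) (nat_lit 5) (nat_lit 572) (nat_lit 564) (nat_lit 424))))) (XT.nd (nat_lit 156) (nat_lit 0) (nat_lit 76) (XT.nd (nat_lit 78) (nat_lit 0) (nat_lit 0) (XT.lf (nat_lit 0) (nat_lit 5500543712) (nat_lit 1672) (nat_lit 264068056) (nat_lit 1748) (nat_lit 5254400696) (nat_lit 523) (nat_lit 5) (nat_lit 545) (nat_lit 5) (nat_lit 546) (nat_lit 5) (nat_lit 573) (nat_lit 564) (nat_lit 423)) (XT.lf (nat_lit 76) (nat_lit 5513449336) (nat_lit 0) (nat_lit 946670878) (nat_lit 1748) (nat_lit 4660844086) (nat_lit 524) (nat_lit 5) (nat_lit 523) (nat_lit 5) (nat_lit 546) (nat_lit 5) (nat_lit 574) (nat_lit 564) (nat_lit 422)))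 (XT.nd (nat_lit 78) (nat_lit 0) (nat_lit 0) (XT.lf (nat_lit 76) (nat_lit 151435104) (nat_lit 0) (nat_lit 7300881998) (nat_lit 1748) (nat_lit 3772370460) (nat_lit 525) (nat_lit 5) (nat_lit 524) (nat_lit 5) (nat_lit 547) (nat_lit 5) (nat_lit 575) (nat_lit 564) (nat_lit 421)) (XT.nd (nat_lit 78) (nat_lit 0) (nat_lit 76) (XT.lf (nat_lit 76) (nat_lit 6085332715) (nat_lit 0) (nat_lit 2408015913) (nat_lit 1748) (nat_lit 2836557794) (nat_lit 525) (nat_lit 5) (nat_lit 524) (nat_lit 5) (nat_lit 547) (nat_lit 5) (nat_lit 576) (nat_lit 564) (nat_lit 420)) (XT.lf (nat_lit 76) (nat_lit 682845276) (nat_lit 0) (nat_lit 8879014054) (nat_lit 1748) (nat_lit 1875238089) (nat_lit 526) (nat_lit 5) (nat_lit 525) (nat_lit 5) (nat_lit 548) (nat_lit 5) (nat_lit 577) (nat_lit 564) (nat_lit 419))))))) (XT.nd (nat_lit 780) (nat_lit 7144) (nat_lit 0) (XT.nd (nat_lit 390) (nat_lit 0) (nat_lit 76) (XT.nd (nat_lit 156) (nat_lit 0) (nat_lit 0) (XT.nd (nat_lit 78) (nat_lit 1672) (nat_lit 0) (XT.lf (nat_lit 76) (nat_lit 6773790758) (nat_lit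 0) (nat_lit 3914662496) (nat_lit 1748) (nat_lit 857245633) (nat_lit 526) (nat_lit 5) (nat_lit 525) (nat_lit 5) (nat_lit 548) (nat_lit 5) (nat_lit 578) (nat_lit 564) (nat_lit 418)) (XT.lf (nat_lit 0) (nat_lit 180825062) (nat_lit 1748) (nat_lit 10327624068) (nat_lit 1824) (nat_lit 1147958741) (nat_lit 503) (nat_lit 5) (nat_lit 526) (nat_lit 5) (nat_lit 527) (nat_lit 5) (nat_lit 579) (nat_lit 564) (nat_lit 417))) (XT.nd (nat_lit 78) (nat_lit 0) (nat_lit 0) (XT.lf (nat_lit 0) (nat_lit 1272451545) (nat_lit 1748) (nat_lit 4194518720) (nat_lit 1824) (nat_lit 6301362842) (nat_lit 503) (nat_lit 5) (nat_lit 526) (nat_lit 5) (nat_lit 527) (nat_lit 5) (nat_lit 580) (nat_lit 564) (nat_lit 416)) (XT.nd (nat_lit 78) (nat_lit 0) (nat_lit 76) (XT.lf (nat_lit 76) (nat_lit 2078520606) (nat_lit 0) (nat_lit 307260737) (nat_lit 1824) (nat_lit 9496718931) (nat_lit 504) (nat_lit 5) (nat_lit 503) (nat_lit 5) (nat_lit 527) (nat_lit 5) (nat_lit 581) (nat_lit 564) (nat_lit 415)) (XT.lf (nat_lit 0) (nat_lit 3568487983) (nat_lit 1748)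 (nat_lit 3507085602) (nat_lit 1824) (nat_lit 4922435819) (nat_lit 504) (nat_lit 5) (nat_lit 527) (nat_lit 5) (nat_lit 528) (nat_lit 5) (nat_lit 582) (nat_lit 564) (nat_lit 414))))) (XT.nd (nat_lit 156) (nat_lit 0) (nat_lit 76) (XT.nd (nat_lit 78) (nat_lit 0) (nat_lit 76) (XT.lf (nat_lit 76) (nat_lit 2942285835) (nat_lit 0) (nat_lit 1840564843) (nat_lit 1824) (nat_lit 7332818810) (nat_lit 505) (nat_lit 5) (nat_lit 504) (nat_lit 5) (nat_lit 528) (nat_lit 5) (nat_lit 583) (nat_lit 564) (nat_lit 413)) (XT.lf (nat_lit 0) (nat_lit 6054985878) (nat_lit 1748) (nat_lit 2700130033) (nat_lit 1824) (nat_lit 3479897952) (nat_lit 505) (nat_lit 5) (nat_lit 528) (nat_lit 5) (nat_lit 529) (nat_lit 5) (nat_lit 584) (nat_lit 564) (nat_lit 412))) (XT.nd (nat_lit 78) (nat_lit 0) (nat_lit 76) (XT.lf (nat_lit 76) (nat_lit 3931940639) (nat_lit 0) (nat_lit 3445670724) (nat_lit 1824) (nat_lit 4978633587) (nat_lit 506) (nat_lit 5) (nat_lit 505) (nat_lit 5) (nat_lit 529) (nat_lit 5) (nat_lit 585) (nat_lit 564) (nat_lit 411)) (XT.nd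 (nat_lit 78) (nat_lit 0) (nat_lit 0) (XT.lf (nat_lit 0) (nat_lit 8745248765) (nat_lit 1748) (nat_lit 1769422761) (nat_lit 1824) (nat_lit 1964858708) (nat_lit 506) (nat_lit 5) (nat_lit 529) (nat_lit 5) (nat_lit 530) (nat_lit 5) (nat_lit 586) (nat_lit 564) (nat_lit 410)) (XT.lf (nat_lit 76) (nat_lit 5051967535) (nat_lit 0) (nat_lit 5131665436) (nat_lit 1824) (nat_lit 2420781119) (nat_lit 507) (nat_lit 5) (nat_lit 506) (nat_lit 5) (nat_lit 530) (nat_lit 5) (nat_lit 587) (nat_lit 564) (nat_lit 409)))))) (XT.nd (nat_lit 390) (nat_lit 2736) (nat_lit 0) (XT.nd (nat_lit 156) (nat_lit 2888) (nat_lit 0) (XT.nd (nat_lit 78) (nat_lit 1824) (nat_lit 0) (XT.lf (nat_lit 0) (nat_lit 11653031056) (nat_lit 1748) (nat_lit 710413702) (nat_lit 76) (nat_lit 368306676) (nat_lit 507) (nat_lit 5) (nat_lit 530) (nat_lit 5) (nat_lit 508) (nat_lit 5) (nat_lit 588) (nat_lit 564) (nat_lit 408)) (XT.lf (nat_lit 0) (nat_lit 349927067) (nat_lit 1824) (nat_lit 6555497012) (nat_lit 76) (nat_lit 5954903440) (nat_lit 483) (nat_lit 5) (nat_lit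 507) (nat_lit 5) (nat_lit 484) (nat_lit 5) (nat_lit 589) (nat_lit 564) (nat_lit 407))) (XT.nd (nat_lit 78) (nat_lit 1064) (nat_lit 0) (XT.lf (nat_lit 0) (nat_lit 467478523) (nat_lit 1824) (nat_lit 1321360373) (nat_lit 1900) (nat_lit 11202571607) (nat_lit 459) (nat_lit 5) (nat_lit 483) (nat_lit 5) (nat_lit 484) (nat_lit 5) (nat_lit 590) (nat_lit 564) (nat_lit 406)) (XT.nd (nat_lit 78) (nat_lit 1064) (nat_lit 0) (XT.lf (nat_lit 0) (nat_lit 3317674773) (nat_lit 1900) (nat_lit 5443434720) (nat_lit 76) (nat_lit 4362783413) (nat_lit 459) (nat_lit 5) (nat_lit 484) (nat_lit 5) (nat_lit 460) (nat_lit 5) (nat_lit 591) (nat_lit 564) (nat_lit 405)) (XT.lf (nat_lit 0) (nat_lit 1783229013) (nat_lit 1064) (nat_lit 3102875462) (nat_lit 1140) (nat_lit 8372740804) (nat_lit 445) (nat_lit 5) (nat_lit 459) (nat_lit 5) (nat_lit 460) (nat_lit 5) (nat_lit 592) (nat_lit 564) (nat_lit 404))))) (XT.nd (nat_lit 234) (nat_lit 1824) (nat_lit 0) (XT.nd (nat_lit 78) (nat_lit 912) (nat_lit 0) (XT.lf (nat_lit 0) (nat_lit 6528851474) (nat_lit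 1140) (nat_lit 4195365601) (nat_lit 76) (nat_lit 2671421302) (nat_lit 445) (nat_lit 5) (nat_lit 460) (nat_lit 5) (nat_lit 446) (nat_lit 5) (nat_lit 593) (nat_lit 564) (nat_lit 403)) (XT.nd (nat_lit 78) (nat_lit 0) (nat_lit 0) (XT.lf (nat_lit 0) (nat_lit 3242422117) (nat_lit 912) (nat_lit 4992703327) (nat_lit 988) (nat_lit 5299429089) (nat_lit 433) (nat_lit 5) (nat_lit 445) (nat_lit 5) (nat_lit 446) (nat_lit 5) (nat_lit 594) (nat_lit 564) (nat_lit 402)) (XT.lf (nat_lit 0) (nat_lit 9998631494) (nat_lit 988) (nat_lit 2805778023) (nat_lit 76) (nat_lit 871377990) (nat_lit 433) (nat_lit 5) (nat_lit 446) (nat_lit 5) (nat_lit 434) (nat_lit 5) (nat_lit 595) (nat_lit 564) (nat_lit 401)))) (XT.nd (nat_lit 78) (nat_lit 912) (nat_lit 0) (XT.lf (nat_lit 0) (nat_lit 4850859683) (nat_lit 912) (nat_lit 7000544437) (nat_lit 988) (nat_lit 1967361704) (nat_lit 421) (nat_lit 5) (nat_lit 433) (nat_lit 5) (nat_lit 434) (nat_lit 5) (nat_lit 596) (nat_lit 564) (nat_lit 400)) (XT.nd (nat_lit 78) (nat_lit 912) (nat_lit 0) (XT.lf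 (nat_lit 0) (nat_lit 12688729579) (nat_lit 912) (nat_lit 1060910683) (nat_lit 988) (nat_lit 214795885) (nat_lit 421) (nat_lit 5) (nat_lit 433) (nat_lit 5) (nat_lit 434) (nat_lit 5) (nat_lit 597) (nat_lit 564) (nat_lit 399)) (XT.lf (nat_lit 0) (nat_lit 1617805908) (nat_lit 912) (nat_lit 7507664418) (nat_lit 76) (nat_lit 4986033643) (nat_lit 409) (nat_lit 5) (nat_lit 421) (nat_lit 5) (nat_lit 410) (nat_lit 5) (nat_lit 598) (nat_lit 564) (nat_lit 398))))))))
noncomputable def xc151 : XT := (XT.nd (nat_lit 2574) (nat_lit 5928) (nat_lit 0) (XT.nd (nat_lit 1794) (nat_lit 3496) (nat_lit 0) (XT.nd (nat_lit 390) (nat_lit 7068) (nat_lit 0) (XT.nd (nat_lit 156) (nat_lit 1672) (nat_lit 0) (XT.nd (nat_lit 78) (nat_lit 0) (nat_lit 0) (XT.lf (nat_lit 0) (nat_lit 383434137) (nat_lit 836) (nat_lit 3108740955) (nat_lit 912) (nat_lit 10769150397) (nat_lit 398) (nat_lit 5) (nat_lit 409) (nat_lit 5) (nat_lit 410) (nat_lit 5) (nat_lit 599) (nat_lit 564) (nat_lit 397)) (XT.lf (nat_lit 0) (nat_lit 5464398263) (nat_lit 912) (nat_lit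 5909160345) (nat_lit 76) (nat_lit 3039378054) (nat_lit 398) (nat_lit 5) (nat_lit 410) (nat_lit 5) (nat_lit 399) (nat_lit 5) (nat_lit 600) (nat_lit 564) (nat_lit 396))) (XT.nd (nat_lit 78) (nat_lit 836) (nat_lit 0) (XT.lf (nat_lit 0) (nat_lit 2217487379) (nat_lit 836) (nat_lit 5283750561) (nat_lit 912) (nat_lit 7065839223) (nat_lit 387) (nat_lit 5) (nat_lit 398) (nat_lit 5) (nat_lit 399) (nat_lit 5) (nat_lit 601) (nat_lit 564) (nat_lit 395)) (XT.nd (nat_lit 78) (nat_lit 836) (nat_lit 0) (XT.lf (nat_lit 0) (nat_lit 9615068693) (nat_lit 912) (nat_lit 4153106361) (nat_lit 76) (nat_lit 955400868) (nat_lit 387) (nat_lit 5) (nat_lit 399) (nat_lit 5) (nat_lit 388) (nat_lit 5) (nat_lit 602) (nat_lit 564) (nat_lit 394)) (XT.lf (nat_lit 0) (nat_lit 4217748798) (nat_lit 836) (nat_lit 7606307191) (nat_lit 912) (nat_lit 3058091591) (nat_lit 376) (nat_lit 5) (nat_lit 387) (nat_lit 5) (nat_lit 388) (nat_lit 5) (nat_lit 603) (nat_lit 564) (nat_lit 393))))) (XT.nd (nat_lit 156) (nat_lit 6232) (nat_lit 0) (XT.nd (nat_lit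 78) (nat_lit 836) (nat_lit 0) (XT.lf (nat_lit 0) (nat_lit 12802499791) (nat_lit 836) (nat_lit 1293219010) (nat_lit 912) (nat_lit 947802469) (nat_lit 376) (nat_lit 5) (nat_lit 387) (nat_lit 5) (nat_lit 388) (nat_lit 5) (nat_lit 604) (nat_lit 564) (nat_lit 392)) (XT.lf (nat_lit 0) (nat_lit 1255044096) (nat_lit 836) (nat_lit 8823636148) (nat_lit 76) (nat_lit 5127963221) (nat_lit 365) (nat_lit 5) (nat_lit 376) (nat_lit 5) (nat_lit 366) (nat_lit 5) (nat_lit 605) (nat_lit 564) (nat_lit 391))) (XT.nd (nat_lit 1092) (nat_lit 6232) (nat_lit 0) (XT.lf (nat_lit 0) (nat_lit 3503834391) (nat_lit 836) (nat_lit 187637878) (nat_lit 76) (nat_lit 11681139462) (nat_lit 365) (nat_lit 5) (nat_lit 376) (nat_lit 5) (nat_lit 366) (nat_lit 5) (nat_lit 606) (nat_lit 564) (nat_lit 390)) (XT.nd (nat_lit 78) (nat_lit 0) (nat_lit 0) (XT.lf (nat_lit 0) (nat_lit 1557408489) (nat_lit 608) (nat_lit 7587757373) (nat_lit 684) (nat_lit 8818545818) (nat_lit 283) (nat_lit 5) (nat_lit 291) (nat_lit 5) (nat_lit 292) (nat_lit 5) (nat_lit 620) (nat_lit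 564) (nat_lit 376)) (XT.lf (nat_lit 0) (nat_lit 12264355091) (nat_lit 608) (nat_lit 227801174) (nat_lit 684) (nat_lit 5677501193) (nat_lit 283) (nat_lit 5) (nat_lit 291) (nat_lit 5) (nat_lit 292) (nat_lit 5) (nat_lit 621) (nat_lit 564) (nat_lit 375)))))) (XT.nd (nat_lit 390) (nat_lit 1672) (nat_lit 0) (XT.nd (nat_lit 156) (nat_lit 1140) (nat_lit 0) (XT.nd (nat_lit 78) (nat_lit 76) (nat_lit 0) (XT.lf (nat_lit 0) (nat_lit 4812307252) (nat_lit 608) (nat_lit 11165004246) (nat_lit 684) (nat_lit 2400986491) (nat_lit 275) (nat_lit 5) (nat_lit 283) (nat_lit 5) (nat_lit 284) (nat_lit 5) (nat_lit 622) (nat_lit 564) (nat_lit 374)) (XT.lf (nat_lit 0) (nat_lit 962868064) (nat_lit 684) (nat_lit 2783181606) (nat_lit 76) (nat_lit 14844256753) (nat_lit 274) (nat_lit 5) (nat_lit 283) (nat_lit 5) (nat_lit 275) (nat_lit 5) (nat_lit 623) (nat_lit 564) (nat_lit 373))) (XT.nd (nat_lit 78) (nat_lit 532) (nat_lit 0) (XT.lf (nat_lit 0) (nat_lit 4433918355) (nat_lit 684) (nat_lit 10531450154) (nat_lit 76) (nat_lit 3839428067) (nat_lit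 266) (nat_lit 5) (nat_lit 275) (nat_lit 5) (nat_lit 267) (nat_lit 5) (nat_lit 624) (nat_lit 564) (nat_lit 372)) (XT.nd (nat_lit 78) (nat_lit 0) (nat_lit 0) (XT.lf (nat_lit 0) (nat_lit 538474908) (nat_lit 532) (nat_lit 7475981844) (nat_lit 608) (nat_lit 11008318751) (nat_lit 259) (nat_lit 5) (nat_lit 266) (nat_lit 5) (nat_lit 267) (nat_lit 5) (nat_lit 625) (nat_lit 564) (nat_lit 371)) (XT.lf (nat_lit 0) (nat_lit 11731832160) (nat_lit 608) (nat_lit 7281922206) (nat_lit 76) (nat_lit 230055426) (nat_lit 259) (nat_lit 5) (nat_lit 267) (nat_lit 5) (nat_lit 260) (nat_lit 5) (nat_lit 626) (nat_lit 564) (nat_lit 370))))) (XT.nd (nat_lit 156) (nat_lit 1140) (nat_lit 0) (XT.nd (nat_lit 78) (nat_lit 0) (nat_lit 0) (XT.lf (nat_lit 0) (nat_lit 4140226000) (nat_lit 532) (nat_lit 11452883795) (nat_lit 608) (nat_lit 3874764177) (nat_lit 252) (nat_lit 5) (nat_lit 259) (nat_lit 5) (nat_lit 260) (nat_lit 5) (nat_lit 627) (nat_lit 564) (nat_lit 369)) (XT.lf (nat_lit 0) (nat_lit 15880517453) (nat_lit 532) (nat_lit 3693200430)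 (nat_lit 608) (nat_lit 121859749) (nat_lit 252) (nat_lit 5) (nat_lit 259) (nat_lit 5) (nat_lit 260) (nat_lit 5) (nat_lit 628) (nat_lit 564) (nat_lit 368))) (XT.nd (nat_lit 78) (nat_lit 532) (nat_lit 0) (XT.lf (nat_lit 0) (nat_lit 3730662417) (nat_lit 608) (nat_lit 11954633541) (nat_lit 76) (nat_lit 4240595125) (nat_lit 244) (nat_lit 5) (nat_lit 252) (nat_lit 5) (nat_lit 245) (nat_lit 5) (nat_lit 629) (nat_lit 564) (nat_lit 367)) (XT.nd (nat_lit 78) (nat_lit 532) (nat_lit 0) (XT.lf (nat_lit 0) (nat_lit 7702220088) (nat_lit 608) (nat_lit 149697153) (nat_lit 76) (nat_lit 12308005393) (nat_lit 244) (nat_lit 5) (nat_lit 252) (nat_lit 5) (nat_lit 245) (nat_lit 5) (nat_lit 630) (nat_lit 564) (nat_lit 366)) (XT.lf (nat_lit 0) (nat_lit 11826298995) (nat_lit 608) (nat_lit 8358153391) (nat_lit 76) (nat_lit 212720902) (nat_lit 237) (nat_lit 5) (nat_lit 245) (nat_lit 5) (nat_lit 238) (nat_lit 5) (nat_lit 631) (nat_lit 564) (nat_lit 365))))))) (XT.nd (nat_lit 780) (nat_lit 2964) (nat_lit 0) (XT.nd (nat_lit 390) (nat_lit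 1444) (nat_lit 0) (XT.nd (nat_lit 156) (nat_lit 1064) (nat_lit 0) (XT.nd (nat_lit 78) (nat_lit 0) (nat_lit 0) (XT.lf (nat_lit 0) (nat_lit 3823674976) (nat_lit 456) (nat_lit 12280592237) (nat_lit 532) (nat_lit 4533473854) (nat_lit 231) (nat_lit 5) (nat_lit 237) (nat_lit 5) (nat_lit 238) (nat_lit 5) (nat_lit 632) (nat_lit 564) (nat_lit 364)) (XT.lf (nat_lit 0) (nat_lit 16353636449) (nat_lit 456) (nat_lit 4163886120) (nat_lit 532) (nat_lit 364603338) (nat_lit 231) (nat_lit 5) (nat_lit 237) (nat_lit 5) (nat_lit 238) (nat_lit 5) (nat_lit 633) (nat_lit 564) (nat_lit 363))) (XT.nd (nat_lit 78) (nat_lit 456) (nat_lit 0) (XT.lf (nat_lit 0) (nat_lit 3910024227) (nat_lit 608) (nat_lit 13082439965) (nat_lit 76) (nat_lit 4136962346) (nat_lit 223) (nat_lit 5) (nat_lit 231) (nat_lit 5) (nat_lit 224) (nat_lit 5) (nat_lit 634) (nat_lit 564) (nat_lit 362)) (XT.nd (nat_lit 78) (nat_lit 456) (nat_lit 0) (XT.lf (nat_lit 0) (nat_lit 8317206404) (nat_lit 608) (nat_lit 484662460) (nat_lit 76) (nat_lit 12578717480) (nat_lit 223)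 (nat_lit 5) (nat_lit 231) (nat_lit 5) (nat_lit 224) (nat_lit 5) (nat_lit 635) (nat_lit 564) (nat_lit 361)) (XT.lf (nat_lit 0) (nat_lit 12520690726) (nat_lit 456) (nat_lit 367030532) (nat_lit 532) (nat_lit 8747544549) (nat_lit 217) (nat_lit 5) (nat_lit 223) (nat_lit 5) (nat_lit 224) (nat_lit 5) (nat_lit 636) (nat_lit 564) (nat_lit 360))))) (XT.nd (nat_lit 156) (nat_lit 912) (nat_lit 0) (XT.nd (nat_lit 78) (nat_lit 76) (nat_lit 0) (XT.lf (nat_lit 0) (nat_lit 3886582444) (nat_lit 456) (nat_lit 13738993440) (nat_lit 532) (nat_lit 4267944624) (nat_lit 211) (nat_lit 5) (nat_lit 217) (nat_lit 5) (nat_lit 218) (nat_lit 5) (nat_lit 637) (nat_lit 564) (nat_lit 359)) (XT.lf (nat_lit 0) (nat_lit 355263277) (nat_lit 532) (nat_lit 4897857906) (nat_lit 76) (nat_lit 16902620892) (nat_lit 210) (nat_lit 5) (nat_lit 217) (nat_lit 5) (nat_lit 211) (nat_lit 5) (nat_lit 638) (nat_lit 564) (nat_lit 358))) (XT.nd (nat_lit 78) (nat_lit 456) (nat_lit 0) (XT.lf (nat_lit 0) (nat_lit 5086060182) (nat_lit 532) (nat_lit 13895515375)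 (nat_lit 76) (nat_lit 3439623064) (nat_lit 204) (nat_lit 5) (nat_lit 211) (nat_lit 5) (nat_lit 205) (nat_lit 5) (nat_lit 639) (nat_lit 564) (nat_lit 357)) (XT.nd (nat_lit 78) (nat_lit 456) (nat_lit 0) (XT.lf (nat_lit 0) (nat_lit 9973477036) (nat_lit 532) (nat_lit 450764131) (nat_lit 76) (nat_lit 12266483271) (nat_lit 204) (nat_lit 5) (nat_lit 211) (nat_lit 5) (nat_lit 205) (nat_lit 5) (nat_lit 640) (nat_lit 564) (nat_lit 356)) (XT.lf (nat_lit 0) (nat_lit 13430657422) (nat_lit 456) (nat_lit 1609430894) (nat_lit 532) (nat_lit 7923923748) (nat_lit 198) (nat_lit 5) (nat_lit 204) (nat_lit 5) (nat_lit 205) (nat_lit 5) (nat_lit 641) (nat_lit 564) (nat_lit 355)))))) (XT.nd (nat_lit 390) (nat_lit 1672) (nat_lit 0) (XT.nd (nat_lit 156) (nat_lit 836) (nat_lit 0) (XT.nd (nat_lit 78) (nat_lit 76) (nat_lit 0) (XT.lf (nat_lit 0) (nat_lit 4353855261) (nat_lit 380) (nat_lit 15927703504) (nat_lit 456) (nat_lit 2959736349) (nat_lit 193) (nat_lit 5) (nat_lit 198) (nat_lit 5) (nat_lit 199) (nat_lit 5) (nat_lit 642) (nat_lit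 564) (nat_lit 354)) (XT.lf (nat_lit 0) (nat_lit 2145507212) (nat_lit 456) (nat_lit 4907981614) (nat_lit 76) (nat_lit 16468974758) (nat_lit 192) (nat_lit 5) (nat_lit 198) (nat_lit 5) (nat_lit 193) (nat_lit 5) (nat_lit 643) (nat_lit 564) (nat_lit 353))) (XT.nd (nat_lit 78) (nat_lit 380) (nat_lit 0) (XT.lf (nat_lit 0) (nat_lit 7382509843) (nat_lit 532) (nat_lit 14374142912) (nat_lit 76) (nat_lit 2050825890) (nat_lit 186) (nat_lit 5) (nat_lit 193) (nat_lit 5) (nat_lit 187) (nat_lit 5) (nat_lit 644) (nat_lit 564) (nat_lit 352)) (XT.nd (nat_lit 78) (nat_lit 380) (nat_lit 0) (XT.lf (nat_lit 0) (nat_lit 12798575201) (nat_lit 532) (nat_lit 24763122) (nat_lit 76) (nat_lit 11273369424) (nat_lit 186) (nat_lit 5) (nat_lit 193) (nat_lit 5) (nat_lit 187) (nat_lit 5) (nat_lit 645) (nat_lit 564) (nat_lit 351)) (XT.lf (nat_lit 0) (nat_lit 14797533171) (nat_lit 380) (nat_lit 3616070347) (nat_lit 456) (nat_lit 5976305271) (nat_lit 181) (nat_lit 5) (nat_lit 186) (nat_lit 5) (nat_lit 187) (nat_lit 5) (nat_lit 646) (nat_lit 564)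 (nat_lit 350))))) (XT.nd (nat_lit 234) (nat_lit 836) (nat_lit 0) (XT.nd (nat_lit 78) (nat_lit 456) (nat_lit 0) (XT.lf (nat_lit 0) (nat_lit 5250827611) (nat_lit 380) (nat_lit 18956463952) (nat_lit 456) (nat_lit 480355293) (nat_lit 176) (nat_lit 5) (nat_lit 181) (nat_lit 5) (nat_lit 182) (nat_lit 5) (nat_lit 647) (nat_lit 564) (nat_lit 349)) (XT.nd (nat_lit 78) (nat_lit 380) (nat_lit 0) (XT.lf (nat_lit 0) (nat_lit 5141655487) (nat_lit 456) (nat_lit 4534980087) (nat_lit 76) (nat_lit 15312371448) (nat_lit 175) (nat_lit 5) (nat_lit 181) (nat_lit 5) (nat_lit 176) (nat_lit 5) (nat_lit 648) (nat_lit 564) (nat_lit 348)) (XT.lf (nat_lit 0) (nat_lit 10795259333) (nat_lit 380) (nat_lit 139236846) (nat_lit 456) (nat_lit 14360538453) (nat_lit 170) (nat_lit 5) (nat_lit 175) (nat_lit 5) (nat_lit 176) (nat_lit 5) (nat_lit 649) (nat_lit 564) (nat_lit 347)))) (XT.nd (nat_lit 78) (nat_lit 456) (nat_lit 0) (XT.lf (nat_lit 0) (nat_lit 827322672) (nat_lit 380) (nat_lit 16108893051) (nat_lit 456) (nat_lit 8669106802) (nat_lit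 165) (nat_lit 5) (nat_lit 170) (nat_lit 5) (nat_lit 171) (nat_lit 5) (nat_lit 650) (nat_lit 564) (nat_lit 346)) (XT.nd (nat_lit 78) (nat_lit 456) (nat_lit 0) (XT.lf (nat_lit 0) (nat_lit 16648558669) (nat_lit 380) (nat_lit 6502438154) (nat_lit 456) (nat_lit 2768958979) (nat_lit 165) (nat_lit 5) (nat_lit 170) (nat_lit 5) (nat_lit 171) (nat_lit 5) (nat_lit 651) (nat_lit 564) (nat_lit 345)) (XT.lf (nat_lit 0) (nat_lit 3266132616) (nat_lit 456) (nat_lit 19658599956) (nat_lit 76) (nat_lit 3314536327) (nat_lit 159) (nat_lit 5) (nat_lit 165) (nat_lit 5) (nat_lit 160) (nat_lit 5) (nat_lit 652) (nat_lit 564) (nat_lit 344))))))))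
noncomputable def xc152 : XT := (XT.nd (nat_lit 75504) (nat_lit 0) (nat_lit 20140) (XT.nd (nat_lit 74724) (nat_lit 0) (nat_lit 27208) (XT.nd (nat_lit 74334) (nat_lit 0) (nat_lit 28500) (XT.nd (nat_lit 156) (nat_lit 760) (nat_lit 0) (XT.nd (nat_lit 78) (nat_lit 380) (nat_lit 0) (XT.lf (nat_lit 0) (nat_lit 9485483826) (nat_lit 456) (nat_lit 3758043494) (nat_lit 76) (nat_lit 13319062358) (nat_lit 159) (nat_lit 5) (nat_lit 165) (nat_lit 5) (nat_lit 160) (nat_lit 5) (nat_lit 653) (nat_lit 564) (nat_lit 343)) (XT.lf (nat_lit 0) (nat_lit 12618210154) (nat_lit 380) (nat_lit 3287946520) (nat_lit 456) (nat_lit 10984681663) (nat_lit 154) (nat_lit 5) (nat_lit 159) (nat_lit 5) (nat_lit 160) (nat_lit 5) (nat_lit 654) (nat_lit 564) (nat_lit 342))) (XT.nd (nat_lit 78) (nat_lit 456) (nat_lit 0) (XT.lf (nat_lit 0) (nat_lit 2123042667) (nat_lit 304) (nat_lit 20410991558) (nat_lit 380) (nat_lit 4690042072) (nat_lit 150) (nat_lit 5) (nat_lit 154) (nat_lit 5) (nat_lit 155) (nat_lit 5) (nat_lit 655) (nat_lit 564) (nat_lit 341))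 (XT.nd (nat_lit 78) (nat_lit 380) (nat_lit 0) (XT.lf (nat_lit 0) (nat_lit 1821032412) (nat_lit 380) (nat_lit 8563459418) (nat_lit 76) (nat_lit 17176997868) (nat_lit 149) (nat_lit 5) (nat_lit 154) (nat_lit 5) (nat_lit 150) (nat_lit 5) (nat_lit 656) (nat_lit 564) (nat_lit 340)) (XT.lf (nat_lit 0) (nat_lit 8375964710) (nat_lit 380) (nat_lit 73154234) (nat_lit 456) (nat_lit 19454920739) (nat_lit 144) (nat_lit 5) (nat_lit 149) (nat_lit 5) (nat_lit 150) (nat_lit 5) (nat_lit 657) (nat_lit 564) (nat_lit 339))))) (XT.nd (nat_lit 156) (nat_lit 0) (nat_lit 76) (XT.nd (nat_lit 78) (nat_lit 1748) (nat_lit 0) (XT.lf (nat_lit 0) (nat_lit 2505547571) (nat_lit 0) (nat_lit 2505547571) (nat_lit 1596) (nat_lit 163604760) (nat_lit 542) (nat_lit 5) (nat_lit 542) (nat_lit 3) (nat_lit 563) (nat_lit 3) (nat_lit 565) (nat_lit 565) (nat_lit 430)) (XT.lf (nat_lit 0) (nat_lit 331819590) (nat_lit 1748) (nat_lit 201216505) (nat_lit 1748) (nat_lit 9906698935) (nat_lit 519) (nat_lit 3) (nat_lit 542) (nat_lit 3) (nat_lit 542) (nat_lit 5)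 (nat_lit 566) (nat_lit 565) (nat_lit 429))) (XT.nd (nat_lit 78) (nat_lit 0) (nat_lit 0) (XT.lf (nat_lit 0) (nat_lit 1041953441) (nat_lit 1672) (nat_lit 5463543161) (nat_lit 1748) (nat_lit 4025492099) (nat_lit 520) (nat_lit 5) (nat_lit 542) (nat_lit 5) (nat_lit 543) (nat_lit 5) (nat_lit 567) (nat_lit 565) (nat_lit 428)) (XT.nd (nat_lit 78) (nat_lit 0) (nat_lit 76) (XT.lf (nat_lit 0) (nat_lit 1754255593) (nat_lit 1672) (nat_lit 192509720) (nat_lit 1748) (nat_lit 8677543910) (nat_lit 520) (nat_lit 5) (nat_lit 542) (nat_lit 5) (nat_lit 543) (nat_lit 5) (nat_lit 568) (nat_lit 565) (nat_lit 427)) (XT.lf (nat_lit 0) (nat_lit 2516083557) (nat_lit 1672) (nat_lit 5493216008) (nat_lit 1748) (nat_lit 2709492063) (nat_lit 521) (nat_lit 5) (nat_lit 543) (nat_lit 5) (nat_lit 544) (nat_lit 5) (nat_lit 569) (nat_lit 565) (nat_lit 426)))))) (XT.nd (nat_lit 390) (nat_lit 1444) (nat_lit 0) (XT.nd (nat_lit 156) (nat_lit 0) (nat_lit 76) (XT.nd (nat_lit 78) (nat_lit 0) (nat_lit 76) (XT.lf (nat_lit 0) (nat_lit 3291064912) (nat_lit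 1672) (nat_lit 82682961) (nat_lit 1748) (nat_lit 7441458517) (nat_lit 521) (nat_lit 5) (nat_lit 543) (nat_lit 5) (nat_lit 544) (nat_lit 5) (nat_lit 570) (nat_lit 565) (nat_lit 425)) (XT.lf (nat_lit 0) (nat_lit 4110368121) (nat_lit 1672) (nat_lit 5423143057) (nat_lit 1748) (nat_lit 1379462851) (nat_lit 522) (nat_lit 5) (nat_lit 544) (nat_lit 5) (nat_lit 545) (nat_lit 5) (nat_lit 571) (nat_lit 565) (nat_lit 424))) (XT.nd (nat_lit 78) (nat_lit 0) (nat_lit 76) (XT.lf (nat_lit 76) (nat_lit 132224928) (nat_lit 0) (nat_lit 4821932785) (nat_lit 1748) (nat_lit 6058378308) (nat_lit 523) (nat_lit 5) (nat_lit 522) (nat_lit 5) (nat_lit 545) (nat_lit 5) (nat_lit 572) (nat_lit 565) (nat_lit 423)) (XT.nd (nat_lit 78) (nat_lit 0) (nat_lit 0) (XT.lf (nat_lit 0) (nat_lit 5835978124) (nat_lit 1672) (nat_lit 5250965171) (nat_lit 1748) (nat_lit 26723844) (nat_lit 523) (nat_lit 5) (nat_lit 545) (nat_lit 5) (nat_lit 546) (nat_lit 5) (nat_lit 573) (nat_lit 565) (nat_lit 422)) (XT.lf (nat_lit 76) (nat_lit 455518511) (nat_lit 0)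 (nat_lit 6299735285) (nat_lit 1748) (nat_lit 4461171674) (nat_lit 524) (nat_lit 5) (nat_lit 523) (nat_lit 5) (nat_lit 546) (nat_lit 5) (nat_lit 574) (nat_lit 565) (nat_lit 421))))) (XT.nd (nat_lit 156) (nat_lit 1596) (nat_lit 0) (XT.nd (nat_lit 78) (nat_lit 0) (nat_lit 76) (XT.lf (nat_lit 76) (nat_lit 6337882481) (nat_lit 0) (nat_lit 1375431554) (nat_lit 1748) (nat_lit 3607517898) (nat_lit 524) (nat_lit 5) (nat_lit 523) (nat_lit 5) (nat_lit 546) (nat_lit 5) (nat_lit 575) (nat_lit 565) (nat_lit 420)) (XT.lf (nat_lit 76) (nat_lit 888976166) (nat_lit 0) (nat_lit 7816499892) (nat_lit 1748) (nat_lit 2721552587) (nat_lit 525) (nat_lit 5) (nat_lit 524) (nat_lit 5) (nat_lit 547) (nat_lit 5) (nat_lit 576) (nat_lit 565) (nat_lit 419))) (XT.nd (nat_lit 78) (nat_lit 1672) (nat_lit 0) (XT.lf (nat_lit 76) (nat_lit 6927149527) (nat_lit 0) (nat_lit 2818529421) (nat_lit 1748) (nat_lit 1789107301) (nat_lit 525) (nat_lit 5) (nat_lit 524) (nat_lit 5) (nat_lit 547) (nat_lit 5) (nat_lit 577) (nat_lit 565) (nat_lit 418)) (XT.nd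 (nat_lit 78) (nat_lit 1748) (nat_lit 0) (XT.lf (nat_lit 76) (nat_lit 1435787350) (nat_lit 0) (nat_lit 9381041165) (nat_lit 1748) (nat_lit 827668531) (nat_lit 526) (nat_lit 5) (nat_lit 525) (nat_lit 5) (nat_lit 548) (nat_lit 5) (nat_lit 578) (nat_lit 565) (nat_lit 417)) (XT.lf (nat_lit 0) (nat_lit 186923688) (nat_lit 1748) (nat_lit 4122862829) (nat_lit 1824) (nat_lit 7445877909) (nat_lit 502) (nat_lit 5) (nat_lit 525) (nat_lit 5) (nat_lit 526) (nat_lit 5) (nat_lit 579) (nat_lit 565) (nat_lit 416))))))) (XT.nd (nat_lit 780) (nat_lit 5700) (nat_lit 0) (XT.nd (nat_lit 390) (nat_lit 1444) (nat_lit 0) (XT.nd (nat_lit 156) (nat_lit 0) (nat_lit 0) (XT.nd (nat_lit 78) (nat_lit 0) (nat_lit 0) (XT.lf (nat_lit 0) (nat_lit 1216519724) (nat_lit 1748) (nat_lit 9777538147) (nat_lit 1824) (nat_lit 874772816) (nat_lit 503) (nat_lit 5) (nat_lit 526) (nat_lit 5) (nat_lit 527) (nat_lit 5) (nat_lit 580) (nat_lit 565) (nat_lit 415)) (XT.lf (nat_lit 0) (nat_lit 2309741910) (nat_lit 1748) (nat_lit 3536606739) (nat_lit 1824) (nat_lit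 6137051766) (nat_lit 503) (nat_lit 5) (nat_lit 526) (nat_lit 5) (nat_lit 527) (nat_lit 5) (nat_lit 581) (nat_lit 565) (nat_lit 414))) (XT.nd (nat_lit 78) (nat_lit 0) (nat_lit 76) (XT.lf (nat_lit 76) (nat_lit 2857013095) (nat_lit 0) (nat_lit 573269770) (nat_lit 1824) (nat_lit 8669870396) (nat_lit 504) (nat_lit 5) (nat_lit 503) (nat_lit 5) (nat_lit 527) (nat_lit 5) (nat_lit 582) (nat_lit 565) (nat_lit 413)) (XT.nd (nat_lit 78) (nat_lit 0) (nat_lit 0) (XT.lf (nat_lit 0) (nat_lit 4615444691) (nat_lit 1748) (nat_lit 2833495644) (nat_lit 1824) (nat_lit 4769457420) (nat_lit 504) (nat_lit 5) (nat_lit 527) (nat_lit 5) (nat_lit 528) (nat_lit 5) (nat_lit 583) (nat_lit 565) (nat_lit 412)) (XT.lf (nat_lit 76) (nat_lit 3739970251) (nat_lit 0) (nat_lit 2099792264) (nat_lit 1824) (nat_lit 6498936346) (nat_lit 505) (nat_lit 5) (nat_lit 504) (nat_lit 5) (nat_lit 528) (nat_lit 5) (nat_lit 584) (nat_lit 565) (nat_lit 411))))) (XT.nd (nat_lit 156) (nat_lit 1596) (nat_lit 0) (XT.nd (nat_lit 78) (nat_lit 0) (nat_lit 0) (XT.lf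 (nat_lit 0) (nat_lit 7117076527) (nat_lit 1748) (nat_lit 2009459311) (nat_lit 1824) (nat_lit 3334300718) (nat_lit 505) (nat_lit 5) (nat_lit 528) (nat_lit 5) (nat_lit 529) (nat_lit 5) (nat_lit 585) (nat_lit 565) (nat_lit 410)) (XT.lf (nat_lit 76) (nat_lit 4750353608) (nat_lit 0) (nat_lit 3702153216) (nat_lit 1824) (nat_lit 4132259528) (nat_lit 506) (nat_lit 5) (nat_lit 505) (nat_lit 5) (nat_lit 529) (nat_lit 5) (nat_lit 586) (nat_lit 565) (nat_lit 409))) (XT.nd (nat_lit 78) (nat_lit 1672) (nat_lit 0) (XT.lf (nat_lit 0) (nat_lit 9828119830) (nat_lit 1748) (nat_lit 1060109769) (nat_lit 1824) (nat_lit 1822676397) (nat_lit 506) (nat_lit 5) (nat_lit 529) (nat_lit 5) (nat_lit 530) (nat_lit 5) (nat_lit 587) (nat_lit 565) (nat_lit 408)) (XT.nd (nat_lit 78) (nat_lit 1672) (nat_lit 0) (XT.lf (nat_lit 76) (nat_lit 5892808981) (nat_lit 0) (nat_lit 5389462767) (nat_lit 1824) (nat_lit 1556276868) (nat_lit 507) (nat_lit 5) (nat_lit 506) (nat_lit 5) (nat_lit 530) (nat_lit 5) (nat_lit 588) (nat_lit 565) (nat_lit 407)) (XT.lf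 (nat_lit 0) (nat_lit 19519594) (nat_lit 1748) (nat_lit 12743128905) (nat_lit 1824) (nat_lit 206153460) (nat_lit 484) (nat_lit 5) (nat_lit 507) (nat_lit 5) (nat_lit 508) (nat_lit 5) (nat_lit 589) (nat_lit 565) (nat_lit 406)))))) (XT.nd (nat_lit 390) (nat_lit 2736) (nat_lit 0) (XT.nd (nat_lit 156) (nat_lit 1064) (nat_lit 0) (XT.nd (nat_lit 78) (nat_lit 1824) (nat_lit 0) (XT.lf (nat_lit 0) (nat_lit 1226742591) (nat_lit 1824) (nat_lit 5936004665) (nat_lit 76) (nat_lit 5937339181) (nat_lit 483) (nat_lit 5) (nat_lit 507) (nat_lit 5) (nat_lit 484) (nat_lit 5) (nat_lit 590) (nat_lit 565) (nat_lit 405)) (XT.lf (nat_lit 0) (nat_lit 1222492208) (nat_lit 1824) (nat_lit 1459726559) (nat_lit 1900) (nat_lit 10551817596) (nat_lit 459) (nat_lit 5) (nat_lit 483) (nat_lit 5) (nat_lit 484) (nat_lit 5) (nat_lit 591) (nat_lit 565) (nat_lit 404))) (XT.nd (nat_lit 78) (nat_lit 1064) (nat_lit 0) (XT.lf (nat_lit 0) (nat_lit 4224103084) (nat_lit 1900) (nat_lit 4803682584) (nat_lit 76) (nat_lit 4341734298) (nat_lit 459) (nat_lit 5)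 (nat_lit 484) (nat_lit 5) (nat_lit 460) (nat_lit 5) (nat_lit 592) (nat_lit 565) (nat_lit 403)) (XT.nd (nat_lit 78) (nat_lit 0) (nat_lit 0) (XT.lf (nat_lit 0) (nat_lit 2562589287) (nat_lit 1064) (nat_lit 3249668604) (nat_lit 1140) (nat_lit 7695147332) (nat_lit 445) (nat_lit 5) (nat_lit 459) (nat_lit 5) (nat_lit 460) (nat_lit 5) (nat_lit 593) (nat_lit 565) (nat_lit 402)) (XT.lf (nat_lit 0) (nat_lit 7471076705) (nat_lit 1140) (nat_lit 3533328977) (nat_lit 76) (nat_lit 2642865111) (nat_lit 445) (nat_lit 5) (nat_lit 460) (nat_lit 5) (nat_lit 446) (nat_lit 5) (nat_lit 594) (nat_lit 565) (nat_lit 401))))) (XT.nd (nat_lit 156) (nat_lit 1824) (nat_lit 0) (XT.nd (nat_lit 78) (nat_lit 0) (nat_lit 0) (XT.lf (nat_lit 0) (nat_lit 4048306970) (nat_lit 912) (nat_lit 5152065814) (nat_lit 988) (nat_lit 4588815485) (nat_lit 433) (nat_lit 5) (nat_lit 445) (nat_lit 5) (nat_lit 446) (nat_lit 5) (nat_lit 595) (nat_lit 565) (nat_lit 400)) (XT.lf (nat_lit 0) (nat_lit 10983073205) (nat_lit 988) (nat_lit 2119266002) (nat_lit 76)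 (nat_lit 831229121) (nat_lit 433) (nat_lit 5) (nat_lit 446) (nat_lit 5) (nat_lit 434) (nat_lit 5) (nat_lit 596) (nat_lit 565) (nat_lit 399))) (XT.nd (nat_lit 78) (nat_lit 912) (nat_lit 0) (XT.lf (nat_lit 0) (nat_lit 5685618751) (nat_lit 912) (nat_lit 7176690696) (nat_lit 988) (nat_lit 1217309494) (nat_lit 421) (nat_lit 5) (nat_lit 433) (nat_lit 5) (nat_lit 434) (nat_lit 5) (nat_lit 597) (nat_lit 565) (nat_lit 398)) (XT.nd (nat_lit 78) (nat_lit 836) (nat_lit 0) (XT.lf (nat_lit 0) (nat_lit 547552534) (nat_lit 988) (nat_lit 566328830) (nat_lit 76) (nat_lit 13114553618) (nat_lit 420) (nat_lit 5) (nat_lit 433) (nat_lit 5) (nat_lit 421) (nat_lit 5) (nat_lit 598) (nat_lit 565) (nat_lit 397)) (XT.lf (nat_lit 0) (nat_lit 2403526325) (nat_lit 912) (nat_lit 6913899636) (nat_lit 76) (nat_lit 5061198722) (nat_lit 409) (nat_lit 5) (nat_lit 421) (nat_lit 5) (nat_lit 410) (nat_lit 5) (nat_lit 599) (nat_lit 565) (nat_lit 396))))))))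
noncomputable def xc153 : XT := (XT.nd (nat_lit 2496) (nat_lit 5472) (nat_lit 0) (XT.nd (nat_lit 1716) (nat_lit 3496) (nat_lit 0) (XT.nd (nat_lit 468) (nat_lit 7068) (nat_lit 0) (XT.nd (nat_lit 156) (nat_lit 1672) (nat_lit 0) (XT.nd (nat_lit 78) (nat_lit 0) (nat_lit 0) (XT.lf (nat_lit 0) (nat_lit 1130126692) (nat_lit 836) (nat_lit 3175282585) (nat_lit 912) (nat_lit 10226233654) (nat_lit 398) (nat_lit 5) (nat_lit 409) (nat_lit 5) (nat_lit 410) (nat_lit 5) (nat_lit 600) (nat_lit 565) (nat_lit 395)) (XT.lf (nat_lit 0) (nat_lit 6302472827) (nat_lit 912) (nat_lit 5288165815) (nat_lit 76) (nat_lit 3095940577) (nat_lit 398) (nat_lit 5) (nat_lit 410) (nat_lit 5) (nat_lit 399) (nat_lit 5) (nat_lit 601) (nat_lit 565) (nat_lit 394))) (XT.nd (nat_lit 78) (nat_lit 836) (nat_lit 0) (XT.lf (nat_lit 0) (nat_lit 2996151853) (nat_lit 836) (nat_lit 5374375170) (nat_lit 912) (nat_lit 6473466745) (nat_lit 387) (nat_lit 5) (nat_lit 398) (nat_lit 5) (nat_lit 399) (nat_lit 5) (nat_lit 602) (nat_lit 565) (nat_lit 393)) (XT.nd (nat_lit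 78) (nat_lit 836) (nat_lit 0) (XT.lf (nat_lit 0) (nat_lit 10512626970) (nat_lit 912) (nat_lit 3502205795) (nat_lit 76) (nat_lit 989070663) (nat_lit 387) (nat_lit 5) (nat_lit 399) (nat_lit 5) (nat_lit 388) (nat_lit 5) (nat_lit 603) (nat_lit 565) (nat_lit 392)) (XT.lf (nat_lit 0) (nat_lit 5031237766) (nat_lit 836) (nat_lit 7725461701) (nat_lit 912) (nat_lit 2409129705) (nat_lit 376) (nat_lit 5) (nat_lit 387) (nat_lit 5) (nat_lit 388) (nat_lit 5) (nat_lit 604) (nat_lit 565) (nat_lit 391))))) (XT.nd (nat_lit 1014) (nat_lit 1216) (nat_lit 0) (XT.nd (nat_lit 936) (nat_lit 5016) (nat_lit 0) (XT.lf (nat_lit 0) (nat_lit 1958677804) (nat_lit 836) (nat_lit 8267532181) (nat_lit 76) (nat_lit 5270959779) (nat_lit 365) (nat_lit 5) (nat_lit 376) (nat_lit 5) (nat_lit 366) (nat_lit 5) (nat_lit 606) (nat_lit 565) (nat_lit 389)) (XT.lf (nat_lit 0) (nat_lit 359929996) (nat_lit 760) (nat_lit 11071720648) (nat_lit 76) (nat_lit 6267963329) (nat_lit 299) (nat_lit 5) (nat_lit 309) (nat_lit 5) (nat_lit 300) (nat_lit 5) (nat_lit 618)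 (nat_lit 565) (nat_lit 377))) (XT.nd (nat_lit 78) (nat_lit 1216) (nat_lit 0) (XT.lf (nat_lit 0) (nat_lit 3405792193) (nat_lit 760) (nat_lit 791309238) (nat_lit 76) (nat_lit 13703883901) (nat_lit 299) (nat_lit 5) (nat_lit 309) (nat_lit 5) (nat_lit 300) (nat_lit 5) (nat_lit 619) (nat_lit 565) (nat_lit 376)) (XT.nd (nat_lit 78) (nat_lit 608) (nat_lit 0) (XT.lf (nat_lit 0) (nat_lit 6590080640) (nat_lit 684) (nat_lit 8311833340) (nat_lit 76) (nat_lit 3202920303) (nat_lit 291) (nat_lit 5) (nat_lit 300) (nat_lit 5) (nat_lit 292) (nat_lit 5) (nat_lit 620) (nat_lit 565) (nat_lit 375)) (XT.lf (nat_lit 0) (nat_lit 2280133848) (nat_lit 608) (nat_lit 7598655074) (nat_lit 684) (nat_lit 8433156948) (nat_lit 283) (nat_lit 5) (nat_lit 291) (nat_lit 5) (nat_lit 292) (nat_lit 5) (nat_lit 621) (nat_lit 565) (nat_lit 374)))))) (XT.nd (nat_lit 390) (nat_lit 1672) (nat_lit 0) (XT.nd (nat_lit 156) (nat_lit 1216) (nat_lit 0) (XT.nd (nat_lit 78) (nat_lit 608) (nat_lit 0) (XT.lf (nat_lit 0) (nat_lit 13187659044) (nat_lit 608) (nat_lit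 94261662) (nat_lit 684) (nat_lit 5240306329) (nat_lit 283) (nat_lit 5) (nat_lit 291) (nat_lit 5) (nat_lit 292) (nat_lit 5) (nat_lit 622) (nat_lit 565) (nat_lit 373)) (XT.lf (nat_lit 0) (nat_lit 5591971266) (nat_lit 608) (nat_lit 11239537314) (nat_lit 684) (nat_lit 1903637699) (nat_lit 275) (nat_lit 5) (nat_lit 283) (nat_lit 5) (nat_lit 284) (nat_lit 5) (nat_lit 623) (nat_lit 565) (nat_lit 372))) (XT.nd (nat_lit 78) (nat_lit 1140) (nat_lit 0) (XT.lf (nat_lit 0) (nat_lit 1509788089) (nat_lit 684) (nat_lit 2161791664) (nat_lit 76) (nat_lit 15279955850) (nat_lit 274) (nat_lit 5) (nat_lit 283) (nat_lit 5) (nat_lit 275) (nat_lit 5) (nat_lit 624) (nat_lit 565) (nat_lit 371)) (XT.nd (nat_lit 78) (nat_lit 532) (nat_lit 0) (XT.lf (nat_lit 0) (nat_lit 5045259866) (nat_lit 684) (nat_lit 10060002834) (nat_lit 76) (nat_lit 4065153315) (nat_lit 266) (nat_lit 5) (nat_lit 275) (nat_lit 5) (nat_lit 267) (nat_lit 5) (nat_lit 625) (nat_lit 565) (nat_lit 370)) (XT.lf (nat_lit 0) (nat_lit 1226833386) (nat_lit 532) (nat_lit 7464726706)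 (nat_lit 608) (nat_lit 10701311864) (nat_lit 259) (nat_lit 5) (nat_lit 266) (nat_lit 5) (nat_lit 267) (nat_lit 5) (nat_lit 626) (nat_lit 565) (nat_lit 369))))) (XT.nd (nat_lit 156) (nat_lit 1140) (nat_lit 0) (XT.nd (nat_lit 78) (nat_lit 532) (nat_lit 0) (XT.lf (nat_lit 0) (nat_lit 12474172784) (nat_lit 608) (nat_lit 6754125178) (nat_lit 76) (nat_lit 390211618) (nat_lit 259) (nat_lit 5) (nat_lit 267) (nat_lit 5) (nat_lit 260) (nat_lit 5) (nat_lit 627) (nat_lit 565) (nat_lit 368)) (XT.lf (nat_lit 0) (nat_lit 4892035496) (nat_lit 532) (nat_lit 11515029120) (nat_lit 608) (nat_lit 3440103093) (nat_lit 252) (nat_lit 5) (nat_lit 259) (nat_lit 5) (nat_lit 260) (nat_lit 5) (nat_lit 628) (nat_lit 565) (nat_lit 367))) (XT.nd (nat_lit 78) (nat_lit 1064) (nat_lit 0) (XT.lf (nat_lit 0) (nat_lit 372862001) (nat_lit 608) (nat_lit 3228060776) (nat_lit 76) (nat_lit 16478650931) (nat_lit 251) (nat_lit 5) (nat_lit 259) (nat_lit 5) (nat_lit 252) (nat_lit 5) (nat_lit 629) (nat_lit 565) (nat_lit 366)) (XT.nd (nat_lit 78) (nat_lit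 532) (nat_lit 0) (XT.lf (nat_lit 0) (nat_lit 4296452322) (nat_lit 608) (nat_lit 11526859884) (nat_lit 76) (nat_lit 4491252537) (nat_lit 244) (nat_lit 5) (nat_lit 252) (nat_lit 5) (nat_lit 245) (nat_lit 5) (nat_lit 630) (nat_lit 565) (nat_lit 365)) (XT.lf (nat_lit 0) (nat_lit 507758768) (nat_lit 532) (nat_lit 7833348170) (nat_lit 608) (nat_lit 12212297076) (nat_lit 237) (nat_lit 5) (nat_lit 244) (nat_lit 5) (nat_lit 245) (nat_lit 5) (nat_lit 631) (nat_lit 565) (nat_lit 364))))))) (XT.nd (nat_lit 780) (nat_lit 2508) (nat_lit 0) (XT.nd (nat_lit 390) (nat_lit 1444) (nat_lit 0) (XT.nd (nat_lit 156) (nat_lit 1064) (nat_lit 0) (XT.nd (nat_lit 78) (nat_lit 456) (nat_lit 0) (XT.lf (nat_lit 0) (nat_lit 12540269885) (nat_lit 608) (nat_lit 7867405282) (nat_lit 76) (nat_lit 387872862) (nat_lit 237) (nat_lit 5) (nat_lit 245) (nat_lit 5) (nat_lit 238) (nat_lit 5) (nat_lit 632) (nat_lit 565) (nat_lit 363)) (XT.lf (nat_lit 0) (nat_lit 4553731290) (nat_lit 456) (nat_lit 12344948006) (nat_lit 532) (nat_lit 4142350619) (nat_lit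 231) (nat_lit 5) (nat_lit 237) (nat_lit 5) (nat_lit 238) (nat_lit 5) (nat_lit 633) (nat_lit 565) (nat_lit 362))) (XT.nd (nat_lit 78) (nat_lit 988) (nat_lit 0) (XT.lf (nat_lit 0) (nat_lit 99132965) (nat_lit 532) (nat_lit 3969663608) (nat_lit 76) (nat_lit 17221678444) (nat_lit 230) (nat_lit 5) (nat_lit 237) (nat_lit 5) (nat_lit 231) (nat_lit 5) (nat_lit 634) (nat_lit 565) (nat_lit 361)) (XT.nd (nat_lit 78) (nat_lit 456) (nat_lit 0) (XT.lf (nat_lit 0) (nat_lit 4450587071) (nat_lit 608) (nat_lit 12693300863) (nat_lit 76) (nat_lit 4398861569) (nat_lit 223) (nat_lit 5) (nat_lit 231) (nat_lit 5) (nat_lit 224) (nat_lit 5) (nat_lit 635) (nat_lit 565) (nat_lit 360)) (XT.lf (nat_lit 0) (nat_lit 145580964) (nat_lit 456) (nat_lit 8792211207) (nat_lit 532) (nat_lit 12861303109) (nat_lit 217) (nat_lit 5) (nat_lit 223) (nat_lit 5) (nat_lit 224) (nat_lit 5) (nat_lit 636) (nat_lit 565) (nat_lit 359))))) (XT.nd (nat_lit 156) (nat_lit 988) (nat_lit 0) (XT.nd (nat_lit 78) (nat_lit 456) (nat_lit 0) (XT.lf (nat_lit 0) (nat_lit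 13404934346) (nat_lit 456) (nat_lit 189064847) (nat_lit 532) (nat_lit 8464983854) (nat_lit 217) (nat_lit 5) (nat_lit 223) (nat_lit 5) (nat_lit 224) (nat_lit 5) (nat_lit 637) (nat_lit 565) (nat_lit 358)) (XT.lf (nat_lit 0) (nat_lit 4601707693) (nat_lit 456) (nat_lit 13821426563) (nat_lit 532) (nat_lit 3899338465) (nat_lit 211) (nat_lit 5) (nat_lit 217) (nat_lit 5) (nat_lit 218) (nat_lit 5) (nat_lit 638) (nat_lit 565) (nat_lit 357))) (XT.nd (nat_lit 78) (nat_lit 912) (nat_lit 0) (XT.lf (nat_lit 0) (nat_lit 801595226) (nat_lit 532) (nat_lit 4365065696) (nat_lit 76) (nat_lit 17423394870) (nat_lit 210) (nat_lit 5) (nat_lit 217) (nat_lit 5) (nat_lit 211) (nat_lit 5) (nat_lit 639) (nat_lit 565) (nat_lit 356)) (XT.nd (nat_lit 78) (nat_lit 456) (nat_lit 0) (XT.lf (nat_lit 0) (nat_lit 5623710136) (nat_lit 532) (nat_lit 13539362115) (nat_lit 76) (nat_lit 3697815504) (nat_lit 204) (nat_lit 5) (nat_lit 211) (nat_lit 5) (nat_lit 205) (nat_lit 5) (nat_lit 640) (nat_lit 565) (nat_lit 355)) (XT.lf (nat_lit 0) (nat_lit 164002456)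 (nat_lit 456) (nat_lit 10437390060) (nat_lit 532) (nat_lit 12534561546) (nat_lit 198) (nat_lit 5) (nat_lit 204) (nat_lit 5) (nat_lit 205) (nat_lit 5) (nat_lit 641) (nat_lit 565) (nat_lit 354)))))) (XT.nd (nat_lit 390) (nat_lit 1216) (nat_lit 0) (XT.nd (nat_lit 156) (nat_lit 912) (nat_lit 0) (XT.nd (nat_lit 78) (nat_lit 380) (nat_lit 0) (XT.lf (nat_lit 0) (nat_lit 14316811842) (nat_lit 456) (nat_lit 1447088833) (nat_lit 532) (nat_lit 7650915785) (nat_lit 198) (nat_lit 5) (nat_lit 204) (nat_lit 5) (nat_lit 205) (nat_lit 5) (nat_lit 642) (nat_lit 565) (nat_lit 353)) (XT.lf (nat_lit 0) (nat_lit 5061576236) (nat_lit 380) (nat_lit 16045597860) (nat_lit 456) (nat_lit 2590531910) (nat_lit 193) (nat_lit 5) (nat_lit 198) (nat_lit 5) (nat_lit 199) (nat_lit 5) (nat_lit 643) (nat_lit 565) (nat_lit 352))) (XT.nd (nat_lit 78) (nat_lit 836) (nat_lit 0) (XT.lf (nat_lit 0) (nat_lit 2602908174) (nat_lit 456) (nat_lit 4392143767) (nat_lit 76) (nat_lit 16989556367) (nat_lit 192) (nat_lit 5) (nat_lit 198) (nat_lit 5) (nat_lit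 193) (nat_lit 5) (nat_lit 644) (nat_lit 565) (nat_lit 351)) (XT.nd (nat_lit 78) (nat_lit 380) (nat_lit 0) (XT.lf (nat_lit 0) (nat_lit 7941779996) (nat_lit 532) (nat_lit 14044742987) (nat_lit 76) (nat_lit 2288858393) (nat_lit 186) (nat_lit 5) (nat_lit 193) (nat_lit 5) (nat_lit 187) (nat_lit 5) (nat_lit 645) (nat_lit 565) (nat_lit 350)) (XT.lf (nat_lit 0) (nat_lit 587230288) (nat_lit 380) (nat_lit 12874678082) (nat_lit 456) (nat_lit 11108572139) (nat_lit 181) (nat_lit 5) (nat_lit 186) (nat_lit 5) (nat_lit 187) (nat_lit 5) (nat_lit 646) (nat_lit 565) (nat_lit 349))))) (XT.nd (nat_lit 234) (nat_lit 760) (nat_lit 0) (XT.nd (nat_lit 78) (nat_lit 456) (nat_lit 0) (XT.lf (nat_lit 0) (nat_lit 15694292015) (nat_lit 380) (nat_lit 3487120670) (nat_lit 456) (nat_lit 5688289655) (nat_lit 181) (nat_lit 5) (nat_lit 186) (nat_lit 5) (nat_lit 187) (nat_lit 5) (nat_lit 647) (nat_lit 565) (nat_lit 348)) (XT.nd (nat_lit 78) (nat_lit 76) (nat_lit 0) (XT.lf (nat_lit 0) (nat_lit 5959353432) (nat_lit 380) (nat_lit 19128986544)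 (nat_lit 456) (nat_lit 85108156) (nat_lit 176) (nat_lit 5) (nat_lit 181) (nat_lit 5) (nat_lit 182) (nat_lit 5) (nat_lit 648) (nat_lit 565) (nat_lit 347)) (XT.lf (nat_lit 0) (nat_lit 5636198897) (nat_lit 456) (nat_lit 4028785230) (nat_lit 76) (nat_lit 15815955748) (nat_lit 175) (nat_lit 5) (nat_lit 181) (nat_lit 5) (nat_lit 176) (nat_lit 5) (nat_lit 649) (nat_lit 565) (nat_lit 346)))) (XT.nd (nat_lit 78) (nat_lit 380) (nat_lit 0) (XT.lf (nat_lit 0) (nat_lit 11541475216) (nat_lit 456) (nat_lit 14189442334) (nat_lit 76) (nat_lit 62239167) (nat_lit 170) (nat_lit 5) (nat_lit 176) (nat_lit 5) (nat_lit 171) (nat_lit 5) (nat_lit 650) (nat_lit 565) (nat_lit 345)) (XT.nd (nat_lit 78) (nat_lit 0) (nat_lit 0) (XT.lf (nat_lit 0) (nat_lit 1439332036) (nat_lit 380) (nat_lit 16221053761) (nat_lit 456) (nat_lit 8449321690) (nat_lit 165) (nat_lit 5) (nat_lit 170) (nat_lit 5) (nat_lit 171) (nat_lit 5) (nat_lit 651) (nat_lit 565) (nat_lit 344)) (XT.lf (nat_lit 0) (nat_lit 17565317009) (nat_lit 380) (nat_lit 6426587749) (nat_lit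 456) (nat_lit 2438880073) (nat_lit 165) (nat_lit 5) (nat_lit 170) (nat_lit 5) (nat_lit 171) (nat_lit 5) (nat_lit 652) (nat_lit 565) (nat_lit 343))))))))
noncomputable def xc154 : XT := (XT.nd (nat_lit 75582) (nat_lit 0) (nat_lit 18924) (XT.nd (nat_lit 74802) (nat_lit 0) (nat_lit 26828) (XT.nd (nat_lit 74412) (nat_lit 0) (nat_lit 28120) (XT.nd (nat_lit 156) (nat_lit 760) (nat_lit 0) (XT.nd (nat_lit 78) (nat_lit 0) (nat_lit 0) (XT.lf (nat_lit 0) (nat_lit 3709549230) (nat_lit 456) (nat_lit 19460596731) (nat_lit 76) (nat_lit 3586334589) (nat_lit 159) (nat_lit 5) (nat_lit 165) (nat_lit 5) (nat_lit 160) (nat_lit 5) (nat_lit 653) (nat_lit 565) (nat_lit 342)) (XT.lf (nat_lit 0) (nat_lit 10045873857) (nat_lit 456) (nat_lit 3253620810) (nat_lit 76) (nat_lit 13786921581) (nat_lit 159) (nat_lit 5) (nat_lit 165) (nat_lit 5) (nat_lit 160) (nat_lit 5) (nat_lit 654) (nat_lit 565) (nat_lit 341))) (XT.nd (nat_lit 78) (nat_lit 380) (nat_lit 0) (XT.lf (nat_lit 0) (nat_lit 13446344860) (nat_lit 380) (nat_lit 3145085344) (nat_lit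 456) (nat_lit 10829870503) (nat_lit 154) (nat_lit 5) (nat_lit 159) (nat_lit 5) (nat_lit 160) (nat_lit 5) (nat_lit 655) (nat_lit 565) (nat_lit 340)) (XT.nd (nat_lit 78) (nat_lit 76) (nat_lit 0) (XT.lf (nat_lit 0) (nat_lit 2743446483) (nat_lit 304) (nat_lit 20606300126) (nat_lit 380) (nat_lit 4411499415) (nat_lit 150) (nat_lit 5) (nat_lit 154) (nat_lit 5) (nat_lit 155) (nat_lit 5) (nat_lit 656) (nat_lit 565) (nat_lit 339)) (XT.lf (nat_lit 0) (nat_lit 2217708106) (nat_lit 380) (nat_lit 8163319527) (nat_lit 76) (nat_lit 17724476026) (nat_lit 149) (nat_lit 5) (nat_lit 154) (nat_lit 5) (nat_lit 150) (nat_lit 5) (nat_lit 657) (nat_lit 565) (nat_lit 338))))) (XT.nd (nat_lit 156) (nat_lit 0) (nat_lit 76) (XT.nd (nat_lit 78) (nat_lit 0) (nat_lit 0) (XT.lf (nat_lit 0) (nat_lit 489006687) (nat_lit 1748) (nat_lit 2388046454) (nat_lit 1748) (nat_lit 2388046454) (nat_lit 519) (nat_lit 3) (nat_lit 542) (nat_lit 3) (nat_lit 542) (nat_lit 5) (nat_lit 566) (nat_lit 566) (nat_lit 428)) (XT.lf (nat_lit 76) (nat_lit 454455605)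 (nat_lit 0) (nat_lit 1168705754) (nat_lit 1748) (nat_lit 8999591761) (nat_lit 520) (nat_lit 5) (nat_lit 519) (nat_lit 3) (nat_lit 542) (nat_lit 5) (nat_lit 567) (nat_lit 566) (nat_lit 427))) (XT.nd (nat_lit 78) (nat_lit 0) (nat_lit 0) (XT.lf (nat_lit 0) (nat_lit 2319661741) (nat_lit 1672) (nat_lit 4894111446) (nat_lit 1748) (nat_lit 3502617019) (nat_lit 520) (nat_lit 5) (nat_lit 542) (nat_lit 5) (nat_lit 543) (nat_lit 5) (nat_lit 568) (nat_lit 566) (nat_lit 426)) (XT.nd (nat_lit 78) (nat_lit 0) (nat_lit 76) (XT.lf (nat_lit 76) (nat_lit 475267995) (nat_lit 0) (nat_lit 2549383201) (nat_lit 1748) (nat_lit 7787358702) (nat_lit 521) (nat_lit 5) (nat_lit 520) (nat_lit 5) (nat_lit 543) (nat_lit 5) (nat_lit 569) (nat_lit 566) (nat_lit 425)) (XT.lf (nat_lit 0) (nat_lit 3775180804) (nat_lit 1672) (nat_lit 4914158737) (nat_lit 1748) (nat_lit 2219574662) (nat_lit 521) (nat_lit 5) (nat_lit 543) (nat_lit 5) (nat_lit 544) (nat_lit 5) (nat_lit 570) (nat_lit 566) (nat_lit 424)))))) (XT.nd (nat_lit 390) (nat_lit 1444) (nat_lit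 0) (XT.nd (nat_lit 156) (nat_lit 0) (nat_lit 76) (XT.nd (nat_lit 78) (nat_lit 0) (nat_lit 76) (XT.lf (nat_lit 76) (nat_lit 598931801) (nat_lit 0) (nat_lit 3946917165) (nat_lit 1748) (nat_lit 6461806076) (nat_lit 522) (nat_lit 5) (nat_lit 521) (nat_lit 5) (nat_lit 544) (nat_lit 5) (nat_lit 571) (nat_lit 566) (nat_lit 423)) (XT.lf (nat_lit 0) (nat_lit 5355553890) (nat_lit 1672) (nat_lit 4834022181) (nat_lit 1748) (nat_lit 918323145) (nat_lit 522) (nat_lit 5) (nat_lit 544) (nat_lit 5) (nat_lit 545) (nat_lit 5) (nat_lit 572) (nat_lit 566) (nat_lit 422))) (XT.nd (nat_lit 78) (nat_lit 0) (nat_lit 0) (XT.lf (nat_lit 76) (nat_lit 827863797) (nat_lit 0) (nat_lit 5370051357) (nat_lit 1748) (nat_lit 5011904842) (nat_lit 523) (nat_lit 5) (nat_lit 522) (nat_lit 5) (nat_lit 545) (nat_lit 5) (nat_lit 573) (nat_lit 566) (nat_lit 421)) (XT.nd (nat_lit 78) (nat_lit 0) (nat_lit 76) (XT.lf (nat_lit 76) (nat_lit 6659545172) (nat_lit 0) (nat_lit 415202877) (nat_lit 1748) (nat_lit 4238679603) (nat_lit 523) (nat_lit 5) (nat_lit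 522) (nat_lit 5) (nat_lit 545) (nat_lit 5) (nat_lit 574) (nat_lit 566) (nat_lit 420)) (XT.lf (nat_lit 76) (nat_lit 1164789821) (nat_lit 0) (nat_lit 6827521420) (nat_lit 1748) (nat_lit 3426333275) (nat_lit 524) (nat_lit 5) (nat_lit 523) (nat_lit 5) (nat_lit 546) (nat_lit 5) (nat_lit 575) (nat_lit 566) (nat_lit 419))))) (XT.nd (nat_lit 156) (nat_lit 1596) (nat_lit 0) (XT.nd (nat_lit 78) (nat_lit 0) (nat_lit 76) (XT.lf (nat_lit 76) (nat_lit 7151072424) (nat_lit 0) (nat_lit 1796853352) (nat_lit 1748) (nat_lit 2577646852) (nat_lit 524) (nat_lit 5) (nat_lit 523) (nat_lit 5) (nat_lit 546) (nat_lit 5) (nat_lit 576) (nat_lit 566) (nat_lit 418)) (XT.lf (nat_lit 76) (nat_lit 1612746040) (nat_lit 0) (nat_lit 8328078115) (nat_lit 1748) (nat_lit 1693452610) (nat_lit 525) (nat_lit 5) (nat_lit 524) (nat_lit 5) (nat_lit 547) (nat_lit 5) (nat_lit 577) (nat_lit 566) (nat_lit 417))) (XT.nd (nat_lit 78) (nat_lit 1672) (nat_lit 0) (XT.lf (nat_lit 76) (nat_lit 7757839920) (nat_lit 0) (nat_lit 3223182584) (nat_lit 1748) (nat_lit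 763584517) (nat_lit 525) (nat_lit 5) (nat_lit 524) (nat_lit 5) (nat_lit 547) (nat_lit 5) (nat_lit 578) (nat_lit 566) (nat_lit 416)) (XT.nd (nat_lit 78) (nat_lit 0) (nat_lit 0) (XT.lf (nat_lit 0) (nat_lit 196111441) (nat_lit 1748) (nat_lit 9683082701) (nat_lit 1824) (nat_lit 1977653469) (nat_lit 502) (nat_lit 5) (nat_lit 525) (nat_lit 5) (nat_lit 526) (nat_lit 5) (nat_lit 579) (nat_lit 566) (nat_lit 415)) (XT.lf (nat_lit 0) (nat_lit 1199741791) (nat_lit 1748) (nat_lit 3495202496) (nat_lit 1824) (nat_lit 7275589308) (nat_lit 502) (nat_lit 5) (nat_lit 525) (nat_lit 5) (nat_lit 526) (nat_lit 5) (nat_lit 580) (nat_lit 566) (nat_lit 414))))))) (XT.nd (nat_lit 780) (nat_lit 6460) (nat_lit 0) (XT.nd (nat_lit 390) (nat_lit 1520) (nat_lit 0) (XT.nd (nat_lit 156) (nat_lit 0) (nat_lit 0) (XT.nd (nat_lit 78) (nat_lit 0) (nat_lit 0) (XT.lf (nat_lit 0) (nat_lit 2232851427) (nat_lit 1748) (nat_lit 9245831699) (nat_lit 1824) (nat_lit 607622848) (nat_lit 503) (nat_lit 5) (nat_lit 526) (nat_lit 5) (nat_lit 527) (nat_lit 5)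 (nat_lit 581) (nat_lit 566) (nat_lit 413)) (XT.lf (nat_lit 0) (nat_lit 3328487051) (nat_lit 1748) (nat_lit 2894341608) (nat_lit 1824) (nat_lit 5980728659) (nat_lit 503) (nat_lit 5) (nat_lit 526) (nat_lit 5) (nat_lit 527) (nat_lit 5) (nat_lit 582) (nat_lit 566) (nat_lit 412))) (XT.nd (nat_lit 78) (nat_lit 0) (nat_lit 76) (XT.lf (nat_lit 76) (nat_lit 3622459851) (nat_lit 0) (nat_lit 834508155) (nat_lit 1824) (nat_lit 7865967809) (nat_lit 504) (nat_lit 5) (nat_lit 503) (nat_lit 5) (nat_lit 527) (nat_lit 5) (nat_lit 583) (nat_lit 566) (nat_lit 411)) (XT.nd (nat_lit 78) (nat_lit 0) (nat_lit 0) (XT.lf (nat_lit 0) (nat_lit 5645457302) (nat_lit 1748) (nat_lit 2175313893) (nat_lit 1824) (nat_lit 4623182674) (nat_lit 504) (nat_lit 5) (nat_lit 527) (nat_lit 5) (nat_lit 528) (nat_lit 5) (nat_lit 584) (nat_lit 566) (nat_lit 410)) (XT.lf (nat_lit 76) (nat_lit 4524918348) (nat_lit 0) (nat_lit 2355567544) (nat_lit 1824) (nat_lit 5686451751) (nat_lit 505) (nat_lit 5) (nat_lit 504) (nat_lit 5) (nat_lit 528) (nat_lit 5) (nat_lit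 585) (nat_lit 566) (nat_lit 409))))) (XT.nd (nat_lit 156) (nat_lit 1672) (nat_lit 0) (XT.nd (nat_lit 78) (nat_lit 0) (nat_lit 0) (XT.lf (nat_lit 0) (nat_lit 8163869164) (nat_lit 1748) (nat_lit 1333891748) (nat_lit 1824) (nat_lit 3194147831) (nat_lit 505) (nat_lit 5) (nat_lit 528) (nat_lit 5) (nat_lit 529) (nat_lit 5) (nat_lit 586) (nat_lit 566) (nat_lit 408)) (XT.lf (nat_lit 76) (nat_lit 5556408504) (nat_lit 0) (nat_lit 3956481822) (nat_lit 1824) (nat_lit 3305690252) (nat_lit 506) (nat_lit 5) (nat_lit 505) (nat_lit 5) (nat_lit 529) (nat_lit 5) (nat_lit 587) (nat_lit 566) (nat_lit 407))) (XT.nd (nat_lit 78) (nat_lit 1748) (nat_lit 0) (XT.lf (nat_lit 0) (nat_lit 10897390885) (nat_lit 1748) (nat_lit 365528182) (nat_lit 1824) (nat_lit 1684697508) (nat_lit 506) (nat_lit 5) (nat_lit 529) (nat_lit 5) (nat_lit 530) (nat_lit 5) (nat_lit 588) (nat_lit 566) (nat_lit 406)) (XT.nd (nat_lit 78) (nat_lit 1748) (nat_lit 0) (XT.lf (nat_lit 76) (nat_lit 6721739840) (nat_lit 0) (nat_lit 5646390837) (nat_lit 1824) (nat_lit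 709932322) (nat_lit 507) (nat_lit 5) (nat_lit 506) (nat_lit 5) (nat_lit 530) (nat_lit 5) (nat_lit 589) (nat_lit 566) (nat_lit 405)) (XT.lf (nat_lit 0) (nat_lit 645243032) (nat_lit 1824) (nat_lit 12471018162) (nat_lit 76) (nat_lit 94838586) (nat_lit 483) (nat_lit 5) (nat_lit 507) (nat_lit 5) (nat_lit 484) (nat_lit 5) (nat_lit 590) (nat_lit 566) (nat_lit 404)))))) (XT.nd (nat_lit 390) (nat_lit 3572) (nat_lit 0) (XT.nd (nat_lit 156) (nat_lit 1064) (nat_lit 0) (XT.nd (nat_lit 78) (nat_lit 1824) (nat_lit 0) (XT.lf (nat_lit 0) (nat_lit 2087318372) (nat_lit 1824) (nat_lit 5333269272) (nat_lit 76) (nat_lit 5924730401) (nat_lit 483) (nat_lit 5) (nat_lit 507) (nat_lit 5) (nat_lit 484) (nat_lit 5) (nat_lit 591) (nat_lit 566) (nat_lit 403)) (XT.lf (nat_lit 0) (nat_lit 1963651121) (nat_lit 1824) (nat_lit 1596513342) (nat_lit 1900) (nat_lit 9922018266) (nat_lit 459) (nat_lit 5) (nat_lit 483) (nat_lit 5) (nat_lit 484) (nat_lit 5) (nat_lit 592) (nat_lit 566) (nat_lit 402))) (XT.nd (nat_lit 78) (nat_lit 1064) (nat_lit 0)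 (XT.lf (nat_lit 0) (nat_lit 5116038832) (nat_lit 1900) (nat_lit 4180205265) (nat_lit 76) (nat_lit 4324469807) (nat_lit 459) (nat_lit 5) (nat_lit 484) (nat_lit 5) (nat_lit 460) (nat_lit 5) (nat_lit 593) (nat_lit 566) (nat_lit 401)) (XT.nd (nat_lit 78) (nat_lit 0) (nat_lit 0) (XT.lf (nat_lit 0) (nat_lit 3328658155) (nat_lit 1064) (nat_lit 3396107221) (nat_lit 1140) (nat_lit 7036816246) (nat_lit 445) (nat_lit 5) (nat_lit 459) (nat_lit 5) (nat_lit 460) (nat_lit 5) (nat_lit 594) (nat_lit 566) (nat_lit 400)) (XT.lf (nat_lit 0) (nat_lit 8400629152) (nat_lit 1140) (nat_lit 2887017532) (nat_lit 76) (nat_lit 2616921358) (nat_lit 445) (nat_lit 5) (nat_lit 460) (nat_lit 5) (nat_lit 446) (nat_lit 5) (nat_lit 595) (nat_lit 566) (nat_lit 399))))) (XT.nd (nat_lit 234) (nat_lit 1748) (nat_lit 0) (XT.nd (nat_lit 78) (nat_lit 912) (nat_lit 0) (XT.lf (nat_lit 0) (nat_lit 4841534173) (nat_lit 912) (nat_lit 5312304766) (nat_lit 988) (nat_lit 3895699267) (nat_lit 433) (nat_lit 5) (nat_lit 445) (nat_lit 5) (nat_lit 446) (nat_lit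 5) (nat_lit 596) (nat_lit 566) (nat_lit 398)) (XT.nd (nat_lit 78) (nat_lit 912) (nat_lit 0) (XT.lf (nat_lit 0) (nat_lit 11956741860) (nat_lit 988) (nat_lit 1447860874) (nat_lit 76) (nat_lit 792513038) (nat_lit 433) (nat_lit 5) (nat_lit 446) (nat_lit 5) (nat_lit 434) (nat_lit 5) (nat_lit 597) (nat_lit 566) (nat_lit 397)) (XT.lf (nat_lit 0) (nat_lit 6508425584) (nat_lit 912) (nat_lit 7354956699) (nat_lit 988) (nat_lit 482909583) (nat_lit 421) (nat_lit 5) (nat_lit 433) (nat_lit 5) (nat_lit 434) (nat_lit 5) (nat_lit 598) (nat_lit 566) (nat_lit 396)))) (XT.nd (nat_lit 78) (nat_lit 836) (nat_lit 0) (XT.lf (nat_lit 0) (nat_lit 129024645) (nat_lit 836) (nat_lit 1164429407) (nat_lit 912) (nat_lit 13204809366) (nat_lit 409) (nat_lit 5) (nat_lit 420) (nat_lit 5) (nat_lit 421) (nat_lit 5) (nat_lit 599) (nat_lit 566) (nat_lit 395)) (XT.nd (nat_lit 78) (nat_lit 836) (nat_lit 0) (XT.lf (nat_lit 0) (nat_lit 3175707097) (nat_lit 912) (nat_lit 6337146804) (nat_lit 76) (nat_lit 5138820627) (nat_lit 409) (nat_lit 5) (nat_lit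 421) (nat_lit 5) (nat_lit 410) (nat_lit 5) (nat_lit 600) (nat_lit 566) (nat_lit 394)) (XT.lf (nat_lit 0) (nat_lit 1863055901) (nat_lit 836) (nat_lit 3242985479) (nat_lit 912) (nat_lit 9701904280) (nat_lit 398) (nat_lit 5) (nat_lit 409) (nat_lit 5) (nat_lit 410) (nat_lit 5) (nat_lit 601) (nat_lit 566) (nat_lit 393))))))))
noncomputable def xc155 : XT := (XT.nd (nat_lit 2496) (nat_lit 5928) (nat_lit 0) (XT.nd (nat_lit 1716) (nat_lit 3496) (nat_lit 0) (XT.nd (nat_lit 1326) (nat_lit 1976) (nat_lit 0) (XT.nd (nat_lit 156) (nat_lit 5928) (nat_lit 0) (XT.nd (nat_lit 78) (nat_lit 836) (nat_lit 0) (XT.lf (nat_lit 0) (nat_lit 7129009211) (nat_lit 912) (nat_lit 4683454566) (nat_lit 76) (nat_lit 3153798413) (nat_lit 398) (nat_lit 5) (nat_lit 410) (nat_lit 5) (nat_lit 399) (nat_lit 5) (nat_lit 602) (nat_lit 566) (nat_lit 392)) (XT.lf (nat_lit 0) (nat_lit 3761875280) (nat_lit 836) (nat_lit 5467396697) (nat_lit 912) (nat_lit 5897736866) (nat_lit 387) (nat_lit 5) (nat_lit 398) (nat_lit 5) (nat_lit 399) (nat_lit 5) (nat_lit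 603) (nat_lit 566) (nat_lit 391))) (XT.nd (nat_lit 1014) (nat_lit 5928) (nat_lit 0) (XT.lf (nat_lit 0) (nat_lit 11400750427) (nat_lit 912) (nat_lit 2866787884) (nat_lit 76) (nat_lit 1022848402) (nat_lit 387) (nat_lit 5) (nat_lit 399) (nat_lit 5) (nat_lit 388) (nat_lit 5) (nat_lit 604) (nat_lit 566) (nat_lit 390)) (XT.nd (nat_lit 78) (nat_lit 0) (nat_lit 0) (XT.lf (nat_lit 0) (nat_lit 4396182087) (nat_lit 608) (nat_lit 8205992109) (nat_lit 684) (nat_lit 5038100459) (nat_lit 309) (nat_lit 5) (nat_lit 317) (nat_lit 5) (nat_lit 318) (nat_lit 5) (nat_lit 617) (nat_lit 566) (nat_lit 377)) (XT.lf (nat_lit 0) (nat_lit 14809184604) (nat_lit 608) (nat_lit 905936000) (nat_lit 684) (nat_lit 2125183552) (nat_lit 309) (nat_lit 5) (nat_lit 317) (nat_lit 5) (nat_lit 318) (nat_lit 5) (nat_lit 618) (nat_lit 566) (nat_lit 376))))) (XT.nd (nat_lit 156) (nat_lit 1216) (nat_lit 0) (XT.nd (nat_lit 78) (nat_lit 0) (nat_lit 0) (XT.lf (nat_lit 0) (nat_lit 918988774) (nat_lit 760) (nat_lit 10616304294) (nat_lit 76) (nat_lit 6507249819)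 (nat_lit 299) (nat_lit 5) (nat_lit 309) (nat_lit 5) (nat_lit 300) (nat_lit 5) (nat_lit 619) (nat_lit 566) (nat_lit 375)) (XT.lf (nat_lit 0) (nat_lit 4014947428) (nat_lit 760) (nat_lit 143556240) (nat_lit 76) (nat_lit 14089654935) (nat_lit 299) (nat_lit 5) (nat_lit 309) (nat_lit 5) (nat_lit 300) (nat_lit 5) (nat_lit 620) (nat_lit 566) (nat_lit 374))) (XT.nd (nat_lit 78) (nat_lit 608) (nat_lit 0) (XT.lf (nat_lit 0) (nat_lit 7257401434) (nat_lit 684) (nat_lit 7808945468) (nat_lit 76) (nat_lit 3389848538) (nat_lit 291) (nat_lit 5) (nat_lit 300) (nat_lit 5) (nat_lit 292) (nat_lit 5) (nat_lit 621) (nat_lit 566) (nat_lit 373)) (XT.nd (nat_lit 78) (nat_lit 0) (nat_lit 0) (XT.lf (nat_lit 0) (nat_lit 2990458928) (nat_lit 608) (nat_lit 7615240396) (nat_lit 684) (nat_lit 8061874119) (nat_lit 283) (nat_lit 5) (nat_lit 291) (nat_lit 5) (nat_lit 292) (nat_lit 5) (nat_lit 622) (nat_lit 566) (nat_lit 372)) (XT.lf (nat_lit 0) (nat_lit 14066752176) (nat_lit 684) (nat_lit 4779404983) (nat_lit 76) (nat_lit 36106387) (nat_lit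 283) (nat_lit 5) (nat_lit 292) (nat_lit 5) (nat_lit 284) (nat_lit 5) (nat_lit 623) (nat_lit 566) (nat_lit 371)))))) (XT.nd (nat_lit 390) (nat_lit 1672) (nat_lit 0) (XT.nd (nat_lit 156) (nat_lit 1140) (nat_lit 0) (XT.nd (nat_lit 78) (nat_lit 76) (nat_lit 0) (XT.lf (nat_lit 0) (nat_lit 6360690612) (nat_lit 608) (nat_lit 11321337849) (nat_lit 684) (nat_lit 1417519255) (nat_lit 275) (nat_lit 5) (nat_lit 283) (nat_lit 5) (nat_lit 284) (nat_lit 5) (nat_lit 624) (nat_lit 566) (nat_lit 370)) (XT.lf (nat_lit 0) (nat_lit 2047156729) (nat_lit 684) (nat_lit 1554264740) (nat_lit 76) (nat_lit 15718978613) (nat_lit 274) (nat_lit 5) (nat_lit 283) (nat_lit 5) (nat_lit 275) (nat_lit 5) (nat_lit 625) (nat_lit 566) (nat_lit 369))) (XT.nd (nat_lit 78) (nat_lit 532) (nat_lit 0) (XT.lf (nat_lit 0) (nat_lit 5648532559) (nat_lit 684) (nat_lit 9605612422) (nat_lit 76) (nat_lit 4289609675) (nat_lit 266) (nat_lit 5) (nat_lit 275) (nat_lit 5) (nat_lit 267) (nat_lit 5) (nat_lit 626) (nat_lit 566) (nat_lit 368)) (XT.nd (nat_lit 78) (nat_lit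 0) (nat_lit 0) (XT.lf (nat_lit 0) (nat_lit 1902647427) (nat_lit 532) (nat_lit 7459489545) (nat_lit 608) (nat_lit 10408635619) (nat_lit 259) (nat_lit 5) (nat_lit 266) (nat_lit 5) (nat_lit 267) (nat_lit 5) (nat_lit 627) (nat_lit 566) (nat_lit 367)) (XT.lf (nat_lit 0) (nat_lit 13211645455) (nat_lit 608) (nat_lit 6241922530) (nat_lit 76) (nat_lit 547530541) (nat_lit 259) (nat_lit 5) (nat_lit 267) (nat_lit 5) (nat_lit 260) (nat_lit 5) (nat_lit 628) (nat_lit 566) (nat_lit 366))))) (XT.nd (nat_lit 156) (nat_lit 1064) (nat_lit 0) (XT.nd (nat_lit 78) (nat_lit 76) (nat_lit 0) (XT.lf (nat_lit 0) (nat_lit 5632902903) (nat_lit 532) (nat_lit 11584898761) (nat_lit 608) (nat_lit 3016636443) (nat_lit 252) (nat_lit 5) (nat_lit 259) (nat_lit 5) (nat_lit 260) (nat_lit 5) (nat_lit 629) (nat_lit 566) (nat_lit 365)) (XT.lf (nat_lit 0) (nat_lit 856606025) (nat_lit 608) (nat_lit 2655853837) (nat_lit 76) (nat_lit 16959159362) (nat_lit 251) (nat_lit 5) (nat_lit 259) (nat_lit 5) (nat_lit 252) (nat_lit 5) (nat_lit 630) (nat_lit 566)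 (nat_lit 364))) (XT.nd (nat_lit 78) (nat_lit 532) (nat_lit 0) (XT.lf (nat_lit 0) (nat_lit 4854485038) (nat_lit 608) (nat_lit 11116425985) (nat_lit 76) (nat_lit 4740483114) (nat_lit 244) (nat_lit 5) (nat_lit 252) (nat_lit 5) (nat_lit 245) (nat_lit 5) (nat_lit 631) (nat_lit 566) (nat_lit 363)) (XT.nd (nat_lit 78) (nat_lit 0) (nat_lit 0) (XT.lf (nat_lit 0) (nat_lit 1154668125) (nat_lit 532) (nat_lit 7820241917) (nat_lit 608) (nat_lit 11980202995) (nat_lit 237) (nat_lit 5) (nat_lit 244) (nat_lit 5) (nat_lit 245) (nat_lit 5) (nat_lit 632) (nat_lit 566) (nat_lit 362)) (XT.lf (nat_lit 0) (nat_lit 13249980425) (nat_lit 608) (nat_lit 7392389703) (nat_lit 76) (nat_lit 559891701) (nat_lit 237) (nat_lit 5) (nat_lit 245) (nat_lit 5) (nat_lit 238) (nat_lit 5) (nat_lit 633) (nat_lit 566) (nat_lit 361))))))) (XT.nd (nat_lit 780) (nat_lit 2964) (nat_lit 0) (XT.nd (nat_lit 390) (nat_lit 1444) (nat_lit 0) (XT.nd (nat_lit 156) (nat_lit 988) (nat_lit 0) (XT.nd (nat_lit 78) (nat_lit 76) (nat_lit 0) (XT.lf (nat_lit 0) (nat_lit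 5273009313) (nat_lit 456) (nat_lit 12417629284) (nat_lit 532) (nat_lit 3762113519) (nat_lit 231) (nat_lit 5) (nat_lit 237) (nat_lit 5) (nat_lit 238) (nat_lit 5) (nat_lit 634) (nat_lit 566) (nat_lit 360)) (XT.lf (nat_lit 0) (nat_lit 549165312) (nat_lit 532) (nat_lit 3427198894) (nat_lit 76) (nat_lit 17730941359) (nat_lit 230) (nat_lit 5) (nat_lit 237) (nat_lit 5) (nat_lit 231) (nat_lit 5) (nat_lit 635) (nat_lit 566) (nat_lit 359))) (XT.nd (nat_lit 78) (nat_lit 456) (nat_lit 0) (XT.lf (nat_lit 0) (nat_lit 4984007079) (nat_lit 608) (nat_lit 12321649867) (nat_lit 76) (nat_lit 4659041777) (nat_lit 223) (nat_lit 5) (nat_lit 231) (nat_lit 5) (nat_lit 224) (nat_lit 5) (nat_lit 636) (nat_lit 566) (nat_lit 358)) (XT.nd (nat_lit 78) (nat_lit 0) (nat_lit 0) (XT.lf (nat_lit 0) (nat_lit 769894353) (nat_lit 456) (nat_lit 8786382592) (nat_lit 532) (nat_lit 12669988401) (nat_lit 217) (nat_lit 5) (nat_lit 223) (nat_lit 5) (nat_lit 224) (nat_lit 5) (nat_lit 637) (nat_lit 566) (nat_lit 357)) (XT.lf (nat_lit 0) (nat_lit 14282250454)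 (nat_lit 456) (nat_lit 14735518) (nat_lit 532) (nat_lit 8194537678) (nat_lit 217) (nat_lit 5) (nat_lit 223) (nat_lit 5) (nat_lit 224) (nat_lit 5) (nat_lit 638) (nat_lit 566) (nat_lit 356))))) (XT.nd (nat_lit 156) (nat_lit 912) (nat_lit 0) (XT.nd (nat_lit 78) (nat_lit 76) (nat_lit 0) (XT.lf (nat_lit 0) (nat_lit 5306384677) (nat_lit 456) (nat_lit 13912977406) (nat_lit 532) (nat_lit 3540988199) (nat_lit 211) (nat_lit 5) (nat_lit 217) (nat_lit 5) (nat_lit 218) (nat_lit 5) (nat_lit 639) (nat_lit 566) (nat_lit 355)) (XT.lf (nat_lit 0) (nat_lit 1239798108) (nat_lit 532) (nat_lit 3846110409) (nat_lit 76) (nat_lit 17947489026) (nat_lit 210) (nat_lit 5) (nat_lit 217) (nat_lit 5) (nat_lit 211) (nat_lit 5) (nat_lit 640) (nat_lit 566) (nat_lit 354))) (XT.nd (nat_lit 78) (nat_lit 456) (nat_lit 0) (XT.lf (nat_lit 0) (nat_lit 6155185444) (nat_lit 532) (nat_lit 13200707250) (nat_lit 76) (nat_lit 3953817160) (nat_lit 204) (nat_lit 5) (nat_lit 211) (nat_lit 5) (nat_lit 205) (nat_lit 5) (nat_lit 641) (nat_lit 566) (nat_lit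 353)) (XT.nd (nat_lit 78) (nat_lit 0) (nat_lit 0) (XT.lf (nat_lit 0) (nat_lit 772715125) (nat_lit 456) (nat_lit 10455421509) (nat_lit 532) (nat_lit 12362226857) (nat_lit 198) (nat_lit 5) (nat_lit 204) (nat_lit 5) (nat_lit 205) (nat_lit 5) (nat_lit 642) (nat_lit 566) (nat_lit 352)) (XT.lf (nat_lit 0) (nat_lit 15196709471) (nat_lit 456) (nat_lit 1289053794) (nat_lit 532) (nat_lit 7389202807) (nat_lit 198) (nat_lit 5) (nat_lit 204) (nat_lit 5) (nat_lit 205) (nat_lit 5) (nat_lit 643) (nat_lit 566) (nat_lit 351)))))) (XT.nd (nat_lit 390) (nat_lit 1672) (nat_lit 0) (XT.nd (nat_lit 156) (nat_lit 836) (nat_lit 0) (XT.nd (nat_lit 78) (nat_lit 76) (nat_lit 0) (XT.lf (nat_lit 0) (nat_lit 5759351274) (nat_lit 380) (nat_lit 16173641964) (nat_lit 456) (nat_lit 2230578644) (nat_lit 193) (nat_lit 5) (nat_lit 198) (nat_lit 5) (nat_lit 199) (nat_lit 5) (nat_lit 644) (nat_lit 566) (nat_lit 350)) (XT.lf (nat_lit 0) (nat_lit 3053361972) (nat_lit 456) (nat_lit 3889831434) (nat_lit 76) (nat_lit 17513124997) (nat_lit 192) (nat_lit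 5) (nat_lit 198) (nat_lit 5) (nat_lit 193) (nat_lit 5) (nat_lit 645) (nat_lit 566) (nat_lit 349))) (XT.nd (nat_lit 78) (nat_lit 380) (nat_lit 0) (XT.lf (nat_lit 0) (nat_lit 8496251848) (nat_lit 532) (nat_lit 13732709374) (nat_lit 76) (nat_lit 2524001175) (nat_lit 186) (nat_lit 5) (nat_lit 193) (nat_lit 5) (nat_lit 187) (nat_lit 5) (nat_lit 646) (nat_lit 566) (nat_lit 348)) (XT.nd (nat_lit 78) (nat_lit 0) (nat_lit 0) (XT.lf (nat_lit 0) (nat_lit 1188002522) (nat_lit 380) (nat_lit 12934847052) (nat_lit 456) (nat_lit 10931192874) (nat_lit 181) (nat_lit 5) (nat_lit 186) (nat_lit 5) (nat_lit 187) (nat_lit 5) (nat_lit 647) (nat_lit 566) (nat_lit 347)) (XT.lf (nat_lit 0) (nat_lit 16585655922) (nat_lit 380) (nat_lit 3363407602) (nat_lit 456) (nat_lit 5410339069) (nat_lit 181) (nat_lit 5) (nat_lit 186) (nat_lit 5) (nat_lit 187) (nat_lit 5) (nat_lit 648) (nat_lit 566) (nat_lit 346))))) (XT.nd (nat_lit 234) (nat_lit 836) (nat_lit 0) (XT.nd (nat_lit 78) (nat_lit 380) (nat_lit 0) (XT.lf (nat_lit 0) (nat_lit 298357919)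 (nat_lit 456) (nat_lit 19012622318) (nat_lit 76) (nat_lit 6358254711) (nat_lit 175) (nat_lit 5) (nat_lit 181) (nat_lit 5) (nat_lit 176) (nat_lit 5) (nat_lit 649) (nat_lit 566) (nat_lit 345)) (XT.nd (nat_lit 78) (nat_lit 380) (nat_lit 0) (XT.lf (nat_lit 0) (nat_lit 6125422587) (nat_lit 456) (nat_lit 3535644614) (nat_lit 76) (nat_lit 16321948903) (nat_lit 175) (nat_lit 5) (nat_lit 181) (nat_lit 5) (nat_lit 176) (nat_lit 5) (nat_lit 650) (nat_lit 566) (nat_lit 344)) (XT.lf (nat_lit 0) (nat_lit 12146402386) (nat_lit 456) (nat_lit 13897100487) (nat_lit 76) (nat_lit 258022698) (nat_lit 170) (nat_lit 5) (nat_lit 176) (nat_lit 5) (nat_lit 171) (nat_lit 5) (nat_lit 651) (nat_lit 566) (nat_lit 343)))) (XT.nd (nat_lit 78) (nat_lit 456) (nat_lit 0) (XT.lf (nat_lit 0) (nat_lit 2040459036) (nat_lit 380) (nat_lit 16343612907) (nat_lit 456) (nat_lit 8240408040) (nat_lit 165) (nat_lit 5) (nat_lit 170) (nat_lit 5) (nat_lit 171) (nat_lit 5) (nat_lit 652) (nat_lit 566) (nat_lit 342)) (XT.nd (nat_lit 78) (nat_lit 456) (nat_lit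 0) (XT.lf (nat_lit 0) (nat_lit 18477741349) (nat_lit 380) (nat_lit 6357215652) (nat_lit 456) (nat_lit 2117167396) (nat_lit 165) (nat_lit 5) (nat_lit 170) (nat_lit 5) (nat_lit 171) (nat_lit 5) (nat_lit 653) (nat_lit 566) (nat_lit 341)) (XT.lf (nat_lit 0) (nat_lit 4147152327) (nat_lit 456) (nat_lit 19281589496) (nat_lit 76) (nat_lit 3855588708) (nat_lit 159) (nat_lit 5) (nat_lit 165) (nat_lit 5) (nat_lit 160) (nat_lit 5) (nat_lit 654) (nat_lit 566) (nat_lit 340))))))))
noncomputable def xc156 : XT := (XT.nd (nat_lit 75582) (nat_lit 0) (nat_lit 18924) (XT.nd (nat_lit 74802) (nat_lit 0) (nat_lit 26752) (XT.nd (nat_lit 74412) (nat_lit 0) (nat_lit 28120) (XT.nd (nat_lit 156) (nat_lit 380) (nat_lit 0) (XT.nd (nat_lit 78) (nat_lit 380) (nat_lit 0) (XT.lf (nat_lit 0) (nat_lit 10603077719) (nat_lit 456) (nat_lit 2761615609) (nat_lit 76) (nat_lit 14256314352) (nat_lit 159) (nat_lit 5) (nat_lit 165) (nat_lit 5) (nat_lit 160) (nat_lit 5) (nat_lit 655) (nat_lit 566) (nat_lit 339)) (XT.lf (nat_lit 0) (nat_lit 14268684391)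 (nat_lit 380) (nat_lit 3007467916) (nat_lit 456) (nat_lit 10686505598) (nat_lit 154) (nat_lit 5) (nat_lit 159) (nat_lit 5) (nat_lit 160) (nat_lit 5) (nat_lit 656) (nat_lit 566) (nat_lit 338))) (XT.nd (nat_lit 78) (nat_lit 76) (nat_lit 0) (XT.lf (nat_lit 0) (nat_lit 3353816145) (nat_lit 304) (nat_lit 20813782469) (nat_lit 380) (nat_lit 4141844457) (nat_lit 150) (nat_lit 5) (nat_lit 154) (nat_lit 5) (nat_lit 155) (nat_lit 5) (nat_lit 657) (nat_lit 566) (nat_lit 337)) (XT.nd (nat_lit 74100) (nat_lit 0) (nat_lit 28120) (XT.lf (nat_lit 0) (nat_lit 2608328171) (nat_lit 380) (nat_lit 7777365350) (nat_lit 76) (nat_lit 18274984579) (nat_lit 149) (nat_lit 5) (nat_lit 154) (nat_lit 5) (nat_lit 150) (nat_lit 5) (nat_lit 658) (nat_lit 566) (nat_lit 336)) (XT.lf (nat_lit 0) (nat_lit 1127097973) (nat_lit 1748) (nat_lit 2115348474) (nat_lit 1748) (nat_lit 2115348474) (nat_lit 519) (nat_lit 3) (nat_lit 542) (nat_lit 3) (nat_lit 542) (nat_lit 5) (nat_lit 567) (nat_lit 567) (nat_lit 426))))) (XT.nd (nat_lit 156) (nat_lit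 0) (nat_lit 76) (XT.nd (nat_lit 78) (nat_lit 0) (nat_lit 76) (XT.lf (nat_lit 76) (nat_lit 1100245971) (nat_lit 0) (nat_lit 1791495154) (nat_lit 1748) (nat_lit 7918665427) (nat_lit 520) (nat_lit 5) (nat_lit 519) (nat_lit 3) (nat_lit 542) (nat_lit 5) (nat_lit 568) (nat_lit 567) (nat_lit 425)) (XT.lf (nat_lit 0) (nat_lit 3574118443) (nat_lit 1672) (nat_lit 4339645944) (nat_lit 1748) (nat_lit 2992714608) (nat_lit 520) (nat_lit 5) (nat_lit 542) (nat_lit 5) (nat_lit 543) (nat_lit 5) (nat_lit 569) (nat_lit 567) (nat_lit 424))) (XT.nd (nat_lit 78) (nat_lit 0) (nat_lit 76) (XT.lf (nat_lit 76) (nat_lit 1132829324) (nat_lit 0) (nat_lit 3140898454) (nat_lit 1748) (nat_lit 6730674427) (nat_lit 521) (nat_lit 5) (nat_lit 520) (nat_lit 5) (nat_lit 543) (nat_lit 5) (nat_lit 570) (nat_lit 567) (nat_lit 423)) (XT.nd (nat_lit 78) (nat_lit 0) (nat_lit 0) (XT.lf (nat_lit 0) (nat_lit 5012521767) (nat_lit 1672) (nat_lit 4350271987) (nat_lit 1748) (nat_lit 1740987262) (nat_lit 521) (nat_lit 5) (nat_lit 543) (nat_lit 5) (nat_lit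 544) (nat_lit 5) (nat_lit 571) (nat_lit 567) (nat_lit 422)) (XT.lf (nat_lit 76) (nat_lit 1268723981) (nat_lit 0) (nat_lit 4511369149) (nat_lit 1748) (nat_lit 5424775209) (nat_lit 522) (nat_lit 5) (nat_lit 521) (nat_lit 5) (nat_lit 544) (nat_lit 5) (nat_lit 572) (nat_lit 567) (nat_lit 421)))))) (XT.nd (nat_lit 390) (nat_lit 1596) (nat_lit 0) (XT.nd (nat_lit 156) (nat_lit 0) (nat_lit 0) (XT.nd (nat_lit 78) (nat_lit 0) (nat_lit 0) (XT.lf (nat_lit 0) (nat_lit 6580483505) (nat_lit 1672) (nat_lit 4260206914) (nat_lit 1748) (nat_lit 466938587) (nat_lit 522) (nat_lit 5) (nat_lit 544) (nat_lit 5) (nat_lit 545) (nat_lit 5) (nat_lit 573) (nat_lit 567) (nat_lit 420)) (XT.lf (nat_lit 76) (nat_lit 1510505627) (nat_lit 0) (nat_lit 5911593019) (nat_lit 1748) (nat_lit 3989842830) (nat_lit 523) (nat_lit 5) (nat_lit 522) (nat_lit 5) (nat_lit 545) (nat_lit 5) (nat_lit 574) (nat_lit 567) (nat_lit 419))) (XT.nd (nat_lit 78) (nat_lit 0) (nat_lit 76) (XT.lf (nat_lit 76) (nat_lit 7445760148) (nat_lit 0) (nat_lit 849135007) (nat_lit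 1748) (nat_lit 3223158971) (nat_lit 523) (nat_lit 5) (nat_lit 522) (nat_lit 5) (nat_lit 545) (nat_lit 5) (nat_lit 575) (nat_lit 567) (nat_lit 418)) (XT.nd (nat_lit 78) (nat_lit 0) (nat_lit 0) (XT.lf (nat_lit 76) (nat_lit 1861058454) (nat_lit 0) (nat_lit 7350261228) (nat_lit 1748) (nat_lit 2414446799) (nat_lit 524) (nat_lit 5) (nat_lit 523) (nat_lit 5) (nat_lit 546) (nat_lit 5) (nat_lit 576) (nat_lit 567) (nat_lit 417)) (XT.lf (nat_lit 76) (nat_lit 7953871164) (nat_lit 0) (nat_lit 2211407458) (nat_lit 1748) (nat_lit 1569971219) (nat_lit 524) (nat_lit 5) (nat_lit 523) (nat_lit 5) (nat_lit 546) (nat_lit 5) (nat_lit 577) (nat_lit 567) (nat_lit 416))))) (XT.nd (nat_lit 156) (nat_lit 0) (nat_lit 76) (XT.nd (nat_lit 78) (nat_lit 1748) (nat_lit 0) (XT.lf (nat_lit 76) (nat_lit 2323576846) (nat_lit 0) (nat_lit 8836093182) (nat_lit 1748) (nat_lit 686826632) (nat_lit 525) (nat_lit 5) (nat_lit 524) (nat_lit 5) (nat_lit 547) (nat_lit 5) (nat_lit 578) (nat_lit 567) (nat_lit 415)) (XT.lf (nat_lit 0) (nat_lit 238073092)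 (nat_lit 1748) (nat_lit 3382733884) (nat_lit 1824) (nat_lit 8338596505) (nat_lit 501) (nat_lit 5) (nat_lit 524) (nat_lit 5) (nat_lit 525) (nat_lit 5) (nat_lit 579) (nat_lit 567) (nat_lit 414))) (XT.nd (nat_lit 78) (nat_lit 0) (nat_lit 0) (XT.lf (nat_lit 0) (nat_lit 1189327424) (nat_lit 1748) (nat_lit 9180550639) (nat_lit 1824) (nat_lit 1704259324) (nat_lit 502) (nat_lit 5) (nat_lit 525) (nat_lit 5) (nat_lit 526) (nat_lit 5) (nat_lit 580) (nat_lit 567) (nat_lit 413)) (XT.nd (nat_lit 78) (nat_lit 0) (nat_lit 76) (XT.lf (nat_lit 0) (nat_lit 2193632464) (nat_lit 1748) (nat_lit 2882563687) (nat_lit 1824) (nat_lit 7114290100) (nat_lit 502) (nat_lit 5) (nat_lit 525) (nat_lit 5) (nat_lit 526) (nat_lit 5) (nat_lit 581) (nat_lit 567) (nat_lit 412)) (XT.lf (nat_lit 0) (nat_lit 3230989145) (nat_lit 1748) (nat_lit 8731731406) (nat_lit 1824) (nat_lit 346183009) (nat_lit 503) (nat_lit 5) (nat_lit 526) (nat_lit 5) (nat_lit 527) (nat_lit 5) (nat_lit 582) (nat_lit 567) (nat_lit 411))))))) (XT.nd (nat_lit 780) (nat_lit 6384)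 (nat_lit 0) (XT.nd (nat_lit 390) (nat_lit 1596) (nat_lit 0) (XT.nd (nat_lit 156) (nat_lit 0) (nat_lit 76) (XT.nd (nat_lit 78) (nat_lit 0) (nat_lit 0) (XT.lf (nat_lit 0) (nat_lit 4329841781) (nat_lit 1748) (nat_lit 2266917727) (nat_lit 1824) (nat_lit 5832115492) (nat_lit 503) (nat_lit 5) (nat_lit 526) (nat_lit 5) (nat_lit 527) (nat_lit 5) (nat_lit 583) (nat_lit 567) (nat_lit 410)) (XT.lf (nat_lit 76) (nat_lit 4375711138) (nat_lit 0) (nat_lit 1091272319) (nat_lit 1824) (nat_lit 7083936921) (nat_lit 504) (nat_lit 5) (nat_lit 503) (nat_lit 5) (nat_lit 527) (nat_lit 5) (nat_lit 584) (nat_lit 567) (nat_lit 409))) (XT.nd (nat_lit 78) (nat_lit 0) (nat_lit 0) (XT.lf (nat_lit 0) (nat_lit 6659657988) (nat_lit 1748) (nat_lit 1531727069) (nat_lit 1824) (nat_lit 4483366537) (nat_lit 504) (nat_lit 5) (nat_lit 527) (nat_lit 5) (nat_lit 528) (nat_lit 5) (nat_lit 585) (nat_lit 567) (nat_lit 408)) (XT.nd (nat_lit 78) (nat_lit 0) (nat_lit 76) (XT.lf (nat_lit 76) (nat_lit 5297989467) (nat_lit 0) (nat_lit 2608157014) (nat_lit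 1824) (nat_lit 4894314464) (nat_lit 505) (nat_lit 5) (nat_lit 504) (nat_lit 5) (nat_lit 528) (nat_lit 5) (nat_lit 586) (nat_lit 567) (nat_lit 407)) (XT.lf (nat_lit 0) (nat_lit 9196476716) (nat_lit 1748) (nat_lit 672606540) (nat_lit 1824) (nat_lit 3059223693) (nat_lit 505) (nat_lit 5) (nat_lit 528) (nat_lit 5) (nat_lit 529) (nat_lit 5) (nat_lit 587) (nat_lit 567) (nat_lit 406))))) (XT.nd (nat_lit 156) (nat_lit 1748) (nat_lit 0) (XT.nd (nat_lit 78) (nat_lit 0) (nat_lit 76) (XT.lf (nat_lit 76) (nat_lit 6350973645) (nat_lit 0) (nat_lit 4208896293) (nat_lit 1824) (nat_lit 2497895497) (nat_lit 506) (nat_lit 5) (nat_lit 505) (nat_lit 5) (nat_lit 529) (nat_lit 5) (nat_lit 588) (nat_lit 567) (nat_lit 405)) (XT.lf (nat_lit 76) (nat_lit 319338460) (nat_lit 0) (nat_lit 11636893918) (nat_lit 1824) (nat_lit 1233467362) (nat_lit 507) (nat_lit 5) (nat_lit 506) (nat_lit 5) (nat_lit 530) (nat_lit 5) (nat_lit 589) (nat_lit 567) (nat_lit 404))) (XT.nd (nat_lit 78) (nat_lit 0) (nat_lit 0) (XT.lf (nat_lit 0) (nat_lit 117701687)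 (nat_lit 1824) (nat_lit 5784174699) (nat_lit 1900) (nat_lit 7421145891) (nat_lit 482) (nat_lit 5) (nat_lit 506) (nat_lit 5) (nat_lit 507) (nat_lit 5) (nat_lit 590) (nat_lit 567) (nat_lit 403)) (XT.nd (nat_lit 78) (nat_lit 0) (nat_lit 76) (XT.lf (nat_lit 76) (nat_lit 1445536220) (nat_lit 0) (nat_lit 32470461) (nat_lit 1900) (nat_lit 11980869584) (nat_lit 483) (nat_lit 5) (nat_lit 482) (nat_lit 5) (nat_lit 507) (nat_lit 5) (nat_lit 591) (nat_lit 567) (nat_lit 402)) (XT.lf (nat_lit 0) (nat_lit 2932641180) (nat_lit 1824) (nat_lit 4746494168) (nat_lit 76) (nat_lit 5916970142) (nat_lit 483) (nat_lit 5) (nat_lit 507) (nat_lit 5) (nat_lit 484) (nat_lit 5) (nat_lit 592) (nat_lit 567) (nat_lit 401)))))) (XT.nd (nat_lit 390) (nat_lit 2660) (nat_lit 0) (XT.nd (nat_lit 156) (nat_lit 1976) (nat_lit 0) (XT.nd (nat_lit 78) (nat_lit 0) (nat_lit 0) (XT.lf (nat_lit 0) (nat_lit 2691802525) (nat_lit 1824) (nat_lit 1731857923) (nat_lit 1900) (nat_lit 9312273624) (nat_lit 459) (nat_lit 5) (nat_lit 483) (nat_lit 5) (nat_lit 484)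 (nat_lit 5) (nat_lit 593) (nat_lit 567) (nat_lit 400)) (XT.lf (nat_lit 0) (nat_lit 5994458884) (nat_lit 1900) (nat_lit 3572199441) (nat_lit 76) (nat_lit 4310902324) (nat_lit 459) (nat_lit 5) (nat_lit 484) (nat_lit 5) (nat_lit 460) (nat_lit 5) (nat_lit 594) (nat_lit 567) (nat_lit 399))) (XT.nd (nat_lit 78) (nat_lit 912) (nat_lit 0) (XT.lf (nat_lit 0) (nat_lit 4082291183) (nat_lit 1064) (nat_lit 3542311992) (nat_lit 1140) (nat_lit 6396858576) (nat_lit 445) (nat_lit 5) (nat_lit 459) (nat_lit 5) (nat_lit 460) (nat_lit 5) (nat_lit 595) (nat_lit 567) (nat_lit 398)) (XT.nd (nat_lit 78) (nat_lit 912) (nat_lit 0) (XT.lf (nat_lit 0) (nat_lit 9318479214) (nat_lit 1140) (nat_lit 2255620989) (nat_lit 76) (nat_lit 2593518672) (nat_lit 445) (nat_lit 5) (nat_lit 460) (nat_lit 5) (nat_lit 446) (nat_lit 5) (nat_lit 596) (nat_lit 567) (nat_lit 397)) (XT.lf (nat_lit 0) (nat_lit 5622967954) (nat_lit 912) (nat_lit 5473527444) (nat_lit 988) (nat_lit 3219199058) (nat_lit 433) (nat_lit 5) (nat_lit 445) (nat_lit 5) (nat_lit 446)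 (nat_lit 5) (nat_lit 597) (nat_lit 567) (nat_lit 396))))) (XT.nd (nat_lit 156) (nat_lit 1672) (nat_lit 0) (XT.nd (nat_lit 78) (nat_lit 988) (nat_lit 0) (XT.lf (nat_lit 0) (nat_lit 12920604870) (nat_lit 988) (nat_lit 790744997) (nat_lit 76) (nat_lit 755171579) (nat_lit 433) (nat_lit 5) (nat_lit 446) (nat_lit 5) (nat_lit 434) (nat_lit 5) (nat_lit 598) (nat_lit 567) (nat_lit 395)) (XT.lf (nat_lit 0) (nat_lit 233610726) (nat_lit 988) (nat_lit 7300260952) (nat_lit 76) (nat_lit 7084975175) (nat_lit 420) (nat_lit 5) (nat_lit 433) (nat_lit 5) (nat_lit 421) (nat_lit 5) (nat_lit 599) (nat_lit 567) (nat_lit 394))) (XT.nd (nat_lit 78) (nat_lit 836) (nat_lit 0) (XT.lf (nat_lit 0) (nat_lit 818222582) (nat_lit 836) (nat_lit 1211164788) (nat_lit 912) (nat_lit 12744600379) (nat_lit 409) (nat_lit 5) (nat_lit 420) (nat_lit 5) (nat_lit 421) (nat_lit 5) (nat_lit 600) (nat_lit 567) (nat_lit 393)) (XT.nd (nat_lit 78) (nat_lit 836) (nat_lit 0) (XT.lf (nat_lit 0) (nat_lit 3935213401) (nat_lit 912) (nat_lit 5776624433) (nat_lit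 76) (nat_lit 5218911467) (nat_lit 409) (nat_lit 5) (nat_lit 421) (nat_lit 5) (nat_lit 410) (nat_lit 5) (nat_lit 601) (nat_lit 567) (nat_lit 392)) (XT.lf (nat_lit 0) (nat_lit 2583060843) (nat_lit 836) (nat_lit 3311879447) (nat_lit 912) (nat_lit 9195390609) (nat_lit 398) (nat_lit 5) (nat_lit 409) (nat_lit 5) (nat_lit 410) (nat_lit 5) (nat_lit 602) (nat_lit 567) (nat_lit 391))))))))
noncomputable def xc157 : XT := (XT.nd (nat_lit 2262) (nat_lit 6156) (nat_lit 0) (XT.nd (nat_lit 1482) (nat_lit 3040) (nat_lit 0) (XT.nd (nat_lit 1092) (nat_lit 1976) (nat_lit 0) (XT.nd (nat_lit 156) (nat_lit 5320) (nat_lit 0) (XT.nd (nat_lit 78) (nat_lit 836) (nat_lit 0) (XT.lf (nat_lit 0) (nat_lit 7944875561) (nat_lit 912) (nat_lit 4094237686) (nat_lit 76) (nat_lit 3212971099) (nat_lit 398) (nat_lit 5) (nat_lit 410) (nat_lit 5) (nat_lit 399) (nat_lit 5) (nat_lit 603) (nat_lit 567) (nat_lit 390)) (XT.lf (nat_lit 0) (nat_lit 4515506086) (nat_lit 836) (nat_lit 5562840386) (nat_lit 912) (nat_lit 5337876134) (nat_lit 387) (nat_lit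 5) (nat_lit 398) (nat_lit 5) (nat_lit 399) (nat_lit 5) (nat_lit 604) (nat_lit 567) (nat_lit 389))) (XT.nd (nat_lit 780) (nat_lit 5320) (nat_lit 0) (XT.lf (nat_lit 0) (nat_lit 12280313800) (nat_lit 912) (nat_lit 2246055564) (nat_lit 76) (nat_lit 1056758202) (nat_lit 387) (nat_lit 5) (nat_lit 399) (nat_lit 5) (nat_lit 388) (nat_lit 5) (nat_lit 605) (nat_lit 567) (nat_lit 388)) (XT.nd (nat_lit 78) (nat_lit 684) (nat_lit 0) (XT.lf (nat_lit 0) (nat_lit 4526613404) (nat_lit 760) (nat_lit 7761945065) (nat_lit 76) (nat_lit 5099510207) (nat_lit 326) (nat_lit 5) (nat_lit 336) (nat_lit 5) (nat_lit 327) (nat_lit 5) (nat_lit 615) (nat_lit 567) (nat_lit 378)) (XT.lf (nat_lit 0) (nat_lit 2266179509) (nat_lit 684) (nat_lit 5100008916) (nat_lit 760) (nat_lit 10217191678) (nat_lit 317) (nat_lit 5) (nat_lit 326) (nat_lit 5) (nat_lit 327) (nat_lit 5) (nat_lit 616) (nat_lit 567) (nat_lit 377))))) (XT.nd (nat_lit 156) (nat_lit 1368) (nat_lit 0) (XT.nd (nat_lit 78) (nat_lit 608) (nat_lit 0) (XT.lf (nat_lit 0) (nat_lit 10322223554)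 (nat_lit 760) (nat_lit 5204957108) (nat_lit 76) (nat_lit 2254224081) (nat_lit 317) (nat_lit 5) (nat_lit 327) (nat_lit 5) (nat_lit 318) (nat_lit 5) (nat_lit 617) (nat_lit 567) (nat_lit 376)) (XT.lf (nat_lit 0) (nat_lit 5134623075) (nat_lit 608) (nat_lit 8262754148) (nat_lit 684) (nat_lit 4584813050) (nat_lit 309) (nat_lit 5) (nat_lit 317) (nat_lit 5) (nat_lit 318) (nat_lit 5) (nat_lit 618) (nat_lit 567) (nat_lit 375))) (XT.nd (nat_lit 78) (nat_lit 1368) (nat_lit 0) (XT.lf (nat_lit 0) (nat_lit 15743130401) (nat_lit 608) (nat_lit 818801971) (nat_lit 684) (nat_lit 1624501519) (nat_lit 309) (nat_lit 5) (nat_lit 317) (nat_lit 5) (nat_lit 318) (nat_lit 5) (nat_lit 619) (nat_lit 567) (nat_lit 374)) (XT.nd (nat_lit 78) (nat_lit 608) (nat_lit 0) (XT.lf (nat_lit 0) (nat_lit 1467799325) (nat_lit 760) (nat_lit 10178062553) (nat_lit 76) (nat_lit 6746898106) (nat_lit 299) (nat_lit 5) (nat_lit 309) (nat_lit 5) (nat_lit 300) (nat_lit 5) (nat_lit 620) (nat_lit 567) (nat_lit 373)) (XT.lf (nat_lit 0) (nat_lit 497914467) (nat_lit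 608) (nat_lit 4120594871) (nat_lit 684) (nat_lit 13984122524) (nat_lit 291) (nat_lit 5) (nat_lit 299) (nat_lit 5) (nat_lit 300) (nat_lit 5) (nat_lit 621) (nat_lit 567) (nat_lit 372)))))) (XT.nd (nat_lit 390) (nat_lit 1748) (nat_lit 0) (XT.nd (nat_lit 156) (nat_lit 684) (nat_lit 0) (XT.nd (nat_lit 78) (nat_lit 608) (nat_lit 0) (XT.lf (nat_lit 0) (nat_lit 7917273781) (nat_lit 684) (nat_lit 7321982760) (nat_lit 76) (nat_lit 3575744152) (nat_lit 291) (nat_lit 5) (nat_lit 300) (nat_lit 5) (nat_lit 292) (nat_lit 5) (nat_lit 622) (nat_lit 567) (nat_lit 371)) (XT.lf (nat_lit 0) (nat_lit 3689178530) (nat_lit 608) (nat_lit 7637414696) (nat_lit 684) (nat_lit 7704132393) (nat_lit 283) (nat_lit 5) (nat_lit 291) (nat_lit 5) (nat_lit 292) (nat_lit 5) (nat_lit 623) (nat_lit 567) (nat_lit 370))) (XT.nd (nat_lit 78) (nat_lit 684) (nat_lit 0) (XT.lf (nat_lit 0) (nat_lit 14847719385) (nat_lit 684) (nat_lit 4239439336) (nat_lit 76) (nat_lit 162734223) (nat_lit 283) (nat_lit 5) (nat_lit 292) (nat_lit 5) (nat_lit 284) (nat_lit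 5) (nat_lit 624) (nat_lit 567) (nat_lit 369)) (XT.nd (nat_lit 78) (nat_lit 76) (nat_lit 0) (XT.lf (nat_lit 0) (nat_lit 7119276897) (nat_lit 608) (nat_lit 11410326878) (nat_lit 684) (nat_lit 942033425) (nat_lit 275) (nat_lit 5) (nat_lit 283) (nat_lit 5) (nat_lit 284) (nat_lit 5) (nat_lit 625) (nat_lit 567) (nat_lit 368)) (XT.lf (nat_lit 0) (nat_lit 2575578601) (nat_lit 684) (nat_lit 959857188) (nat_lit 76) (nat_lit 16161600830) (nat_lit 274) (nat_lit 5) (nat_lit 283) (nat_lit 5) (nat_lit 275) (nat_lit 5) (nat_lit 626) (nat_lit 567) (nat_lit 367))))) (XT.nd (nat_lit 156) (nat_lit 608) (nat_lit 0) (XT.nd (nat_lit 78) (nat_lit 532) (nat_lit 0) (XT.lf (nat_lit 0) (nat_lit 6244363165) (nat_lit 684) (nat_lit 9167591579) (nat_lit 76) (nat_lit 4512996345) (nat_lit 266) (nat_lit 5) (nat_lit 275) (nat_lit 5) (nat_lit 267) (nat_lit 5) (nat_lit 627) (nat_lit 567) (nat_lit 366)) (XT.lf (nat_lit 0) (nat_lit 2566687854) (nat_lit 532) (nat_lit 7460148295) (nat_lit 608) (nat_lit 10129781724) (nat_lit 259) (nat_lit 5) (nat_lit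 266) (nat_lit 5) (nat_lit 267) (nat_lit 5) (nat_lit 628) (nat_lit 567) (nat_lit 365))) (XT.nd (nat_lit 78) (nat_lit 608) (nat_lit 0) (XT.lf (nat_lit 0) (nat_lit 13944918365) (nat_lit 608) (nat_lit 5744610699) (nat_lit 76) (nat_lit 702190004) (nat_lit 259) (nat_lit 5) (nat_lit 267) (nat_lit 5) (nat_lit 260) (nat_lit 5) (nat_lit 629) (nat_lit 567) (nat_lit 364)) (XT.nd (nat_lit 78) (nat_lit 76) (nat_lit 0) (XT.lf (nat_lit 0) (nat_lit 6363618147) (nat_lit 532) (nat_lit 11662395524) (nat_lit 608) (nat_lit 2603815854) (nat_lit 252) (nat_lit 5) (nat_lit 259) (nat_lit 5) (nat_lit 260) (nat_lit 5) (nat_lit 630) (nat_lit 567) (nat_lit 363)) (XT.lf (nat_lit 0) (nat_lit 1331530132) (nat_lit 608) (nat_lit 2096929243) (nat_lit 76) (nat_lit 17443416956) (nat_lit 251) (nat_lit 5) (nat_lit 259) (nat_lit 5) (nat_lit 252) (nat_lit 5) (nat_lit 631) (nat_lit 567) (nat_lit 362))))))) (XT.nd (nat_lit 780) (nat_lit 3040) (nat_lit 0) (XT.nd (nat_lit 390) (nat_lit 1520) (nat_lit 0) (XT.nd (nat_lit 156) (nat_lit 532) (nat_lit 0)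 (XT.nd (nat_lit 78) (nat_lit 532) (nat_lit 0) (XT.lf (nat_lit 0) (nat_lit 5405346047) (nat_lit 608) (nat_lit 10722673098) (nat_lit 76) (nat_lit 4988508392) (nat_lit 244) (nat_lit 5) (nat_lit 252) (nat_lit 5) (nat_lit 245) (nat_lit 5) (nat_lit 632) (nat_lit 567) (nat_lit 361)) (XT.lf (nat_lit 0) (nat_lit 1789789727) (nat_lit 532) (nat_lit 7813466041) (nat_lit 608) (nat_lit 11761963896) (nat_lit 237) (nat_lit 5) (nat_lit 244) (nat_lit 5) (nat_lit 245) (nat_lit 5) (nat_lit 633) (nat_lit 567) (nat_lit 360))) (XT.nd (nat_lit 78) (nat_lit 532) (nat_lit 0) (XT.lf (nat_lit 0) (nat_lit 13956065329) (nat_lit 608) (nat_lit 6932429265) (nat_lit 76) (nat_lit 728972448) (nat_lit 237) (nat_lit 5) (nat_lit 245) (nat_lit 5) (nat_lit 238) (nat_lit 5) (nat_lit 634) (nat_lit 567) (nat_lit 359)) (XT.nd (nat_lit 78) (nat_lit 76) (nat_lit 0) (XT.lf (nat_lit 0) (nat_lit 5982278992) (nat_lit 456) (nat_lit 12498529273) (nat_lit 532) (nat_lit 3392253796) (nat_lit 231) (nat_lit 5) (nat_lit 237) (nat_lit 5) (nat_lit 238) (nat_lit 5)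 (nat_lit 635) (nat_lit 567) (nat_lit 358)) (XT.lf (nat_lit 0) (nat_lit 990799991) (nat_lit 532) (nat_lit 2898032390) (nat_lit 76) (nat_lit 18243989008) (nat_lit 230) (nat_lit 5) (nat_lit 237) (nat_lit 5) (nat_lit 231) (nat_lit 5) (nat_lit 636) (nat_lit 567) (nat_lit 357))))) (XT.nd (nat_lit 156) (nat_lit 532) (nat_lit 0) (XT.nd (nat_lit 78) (nat_lit 456) (nat_lit 0) (XT.lf (nat_lit 0) (nat_lit 5510838572) (nat_lit 608) (nat_lit 11966855439) (nat_lit 76) (nat_lit 4917738737) (nat_lit 223) (nat_lit 5) (nat_lit 231) (nat_lit 5) (nat_lit 224) (nat_lit 5) (nat_lit 637) (nat_lit 567) (nat_lit 356)) (XT.lf (nat_lit 0) (nat_lit 1382564222) (nat_lit 456) (nat_lit 8787491983) (nat_lit 532) (nat_lit 12492264784) (nat_lit 217) (nat_lit 5) (nat_lit 223) (nat_lit 5) (nat_lit 224) (nat_lit 5) (nat_lit 638) (nat_lit 567) (nat_lit 355))) (XT.nd (nat_lit 78) (nat_lit 532) (nat_lit 0) (XT.lf (nat_lit 0) (nat_lit 14998306007) (nat_lit 532) (nat_lit 7780608223) (nat_lit 76) (nat_lit 154116023) (nat_lit 217) (nat_lit 5) (nat_lit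 224) (nat_lit 5) (nat_lit 218) (nat_lit 5) (nat_lit 639) (nat_lit 567) (nat_lit 354)) (XT.nd (nat_lit 78) (nat_lit 76) (nat_lit 0) (XT.lf (nat_lit 0) (nat_lit 6001365533) (nat_lit 456) (nat_lit 14013538292) (nat_lit 532) (nat_lit 3192414426) (nat_lit 211) (nat_lit 5) (nat_lit 217) (nat_lit 5) (nat_lit 218) (nat_lit 5) (nat_lit 640) (nat_lit 567) (nat_lit 353)) (XT.lf (nat_lit 0) (nat_lit 1670371633) (nat_lit 532) (nat_lit 3340317698) (nat_lit 76) (nat_lit 18475245284) (nat_lit 210) (nat_lit 5) (nat_lit 217) (nat_lit 5) (nat_lit 211) (nat_lit 5) (nat_lit 641) (nat_lit 567) (nat_lit 352)))))) (XT.nd (nat_lit 390) (nat_lit 1672) (nat_lit 0) (XT.nd (nat_lit 156) (nat_lit 456) (nat_lit 0) (XT.nd (nat_lit 78) (nat_lit 456) (nat_lit 0) (XT.lf (nat_lit 0) (nat_lit 6681019934) (nat_lit 532) (nat_lit 12878944668) (nat_lit 76) (nat_lit 4207869806) (nat_lit 204) (nat_lit 5) (nat_lit 211) (nat_lit 5) (nat_lit 205) (nat_lit 5) (nat_lit 642) (nat_lit 567) (nat_lit 351)) (XT.lf (nat_lit 0) (nat_lit 1370092360) (nat_lit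 456) (nat_lit 10481219336) (nat_lit 532) (nat_lit 12202872087) (nat_lit 198) (nat_lit 5) (nat_lit 204) (nat_lit 5) (nat_lit 205) (nat_lit 5) (nat_lit 643) (nat_lit 567) (nat_lit 350))) (XT.nd (nat_lit 78) (nat_lit 456) (nat_lit 0) (XT.lf (nat_lit 0) (nat_lit 16071156339) (nat_lit 456) (nat_lit 1135118592) (nat_lit 532) (nat_lit 7138360091) (nat_lit 198) (nat_lit 5) (nat_lit 204) (nat_lit 5) (nat_lit 205) (nat_lit 5) (nat_lit 644) (nat_lit 567) (nat_lit 349)) (XT.nd (nat_lit 78) (nat_lit 76) (nat_lit 0) (XT.lf (nat_lit 0) (nat_lit 6447917300) (nat_lit 380) (nat_lit 16311736244) (nat_lit 456) (nat_lit 1879415607) (nat_lit 193) (nat_lit 5) (nat_lit 198) (nat_lit 5) (nat_lit 199) (nat_lit 5) (nat_lit 645) (nat_lit 567) (nat_lit 348)) (XT.lf (nat_lit 0) (nat_lit 3497354657) (nat_lit 456) (nat_lit 3400389299) (nat_lit 76) (nat_lit 18040028695) (nat_lit 192) (nat_lit 5) (nat_lit 198) (nat_lit 5) (nat_lit 193) (nat_lit 5) (nat_lit 646) (nat_lit 567) (nat_lit 347))))) (XT.nd (nat_lit 234) (nat_lit 836) (nat_lit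 0) (XT.nd (nat_lit 78) (nat_lit 380) (nat_lit 0) (XT.lf (nat_lit 0) (nat_lit 9046450099) (nat_lit 532) (nat_lit 13437459223) (nat_lit 76) (nat_lit 2756493514) (nat_lit 186) (nat_lit 5) (nat_lit 193) (nat_lit 5) (nat_lit 187) (nat_lit 5) (nat_lit 647) (nat_lit 567) (nat_lit 346)) (XT.nd (nat_lit 78) (nat_lit 0) (nat_lit 0) (XT.lf (nat_lit 0) (nat_lit 1777917540) (nat_lit 380) (nat_lit 13003881757) (nat_lit 456) (nat_lit 10765781066) (nat_lit 181) (nat_lit 5) (nat_lit 186) (nat_lit 5) (nat_lit 187) (nat_lit 5) (nat_lit 648) (nat_lit 567) (nat_lit 345)) (XT.lf (nat_lit 0) (nat_lit 17472422930) (nat_lit 380) (nat_lit 3244732384) (nat_lit 456) (nat_lit 5142040295) (nat_lit 181) (nat_lit 5) (nat_lit 186) (nat_lit 5) (nat_lit 187) (nat_lit 5) (nat_lit 649) (nat_lit 567) (nat_lit 344)))) (XT.nd (nat_lit 78) (nat_lit 380) (nat_lit 0) (XT.lf (nat_lit 0) (nat_lit 673442442) (nat_lit 456) (nat_lit 18830407784) (nat_lit 76) (nat_lit 6671374746) (nat_lit 175) (nat_lit 5) (nat_lit 181) (nat_lit 5) (nat_lit 176) (nat_lit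 5) (nat_lit 650) (nat_lit 567) (nat_lit 343)) (XT.nd (nat_lit 78) (nat_lit 380) (nat_lit 0) (XT.lf (nat_lit 0) (nat_lit 6609810808) (nat_lit 456) (nat_lit 3054919291) (nat_lit 76) (nat_lit 16830696647) (nat_lit 175) (nat_lit 5) (nat_lit 181) (nat_lit 5) (nat_lit 176) (nat_lit 5) (nat_lit 651) (nat_lit 567) (nat_lit 342)) (XT.lf (nat_lit 0) (nat_lit 12748901431) (nat_lit 456) (nat_lit 13621283661) (nat_lit 76) (nat_lit 450167722) (nat_lit 170) (nat_lit 5) (nat_lit 176) (nat_lit 5) (nat_lit 171) (nat_lit 5) (nat_lit 652) (nat_lit 567) (nat_lit 341))))))))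
noncomputable def xc158 : XT := (XT.nd (nat_lit 75660) (nat_lit 0) (nat_lit 19684) (XT.nd (nat_lit 74880) (nat_lit 0) (nat_lit 26676) (XT.nd (nat_lit 390) (nat_lit 304) (nat_lit 0) (XT.nd (nat_lit 156) (nat_lit 836) (nat_lit 0) (XT.nd (nat_lit 78) (nat_lit 0) (nat_lit 0) (XT.lf (nat_lit 0) (nat_lit 2631383903) (nat_lit 380) (nat_lit 16476461781) (nat_lit 456) (nat_lit 8041990437) (nat_lit 165) (nat_lit 5) (nat_lit 170) (nat_lit 5) (nat_lit 171) (nat_lit 5) (nat_lit 653) (nat_lit 567) (nat_lit 340)) (XT.lf (nat_lit 0) (nat_lit 19386625280) (nat_lit 380) (nat_lit 6294140961) (nat_lit 456) (nat_lit 1803407054) (nat_lit 165) (nat_lit 5) (nat_lit 170) (nat_lit 5) (nat_lit 171) (nat_lit 5) (nat_lit 654) (nat_lit 567) (nat_lit 339))) (XT.nd (nat_lit 78) (nat_lit 380) (nat_lit 0) (XT.lf (nat_lit 0) (nat_lit 4579395751) (nat_lit 456) (nat_lit 19121066759) (nat_lit 76) (nat_lit 4122557678) (nat_lit 159) (nat_lit 5) (nat_lit 165) (nat_lit 5) (nat_lit 160) (nat_lit 5) (nat_lit 655) (nat_lit 567) (nat_lit 338)) (XT.nd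 (nat_lit 78) (nat_lit 380) (nat_lit 0) (XT.lf (nat_lit 0) (nat_lit 11157590624) (nat_lit 456) (nat_lit 2281402307) (nat_lit 76) (nat_lit 14727575146) (nat_lit 159) (nat_lit 5) (nat_lit 165) (nat_lit 5) (nat_lit 160) (nat_lit 5) (nat_lit 656) (nat_lit 567) (nat_lit 337)) (XT.lf (nat_lit 0) (nat_lit 15085981024) (nat_lit 380) (nat_lit 2874884543) (nat_lit 456) (nat_lit 10554251171) (nat_lit 154) (nat_lit 5) (nat_lit 159) (nat_lit 5) (nat_lit 160) (nat_lit 5) (nat_lit 657) (nat_lit 567) (nat_lit 336))))) (XT.nd (nat_lit 74256) (nat_lit 0) (nat_lit 28044) (XT.nd (nat_lit 74178) (nat_lit 0) (nat_lit 28044) (XT.lf (nat_lit 0) (nat_lit 3954822431) (nat_lit 304) (nat_lit 21033361021) (nat_lit 380) (nat_lit 3880693509) (nat_lit 150) (nat_lit 5) (nat_lit 154) (nat_lit 5) (nat_lit 155) (nat_lit 5) (nat_lit 658) (nat_lit 567) (nat_lit 335)) (XT.lf (nat_lit 0) (nat_lit 1753552997) (nat_lit 1748) (nat_lit 1849640345) (nat_lit 1748) (nat_lit 1849640345) (nat_lit 519) (nat_lit 3) (nat_lit 542) (nat_lit 3) (nat_lit 542)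 (nat_lit 5) (nat_lit 568) (nat_lit 568) (nat_lit 424))) (XT.nd (nat_lit 78) (nat_lit 0) (nat_lit 76) (XT.lf (nat_lit 76) (nat_lit 1734228258) (nat_lit 0) (nat_lit 2403464316) (nat_lit 1748) (nat_lit 6865083557) (nat_lit 520) (nat_lit 5) (nat_lit 519) (nat_lit 3) (nat_lit 542) (nat_lit 5) (nat_lit 569) (nat_lit 568) (nat_lit 423)) (XT.nd (nat_lit 78) (nat_lit 0) (nat_lit 0) (XT.lf (nat_lit 0) (nat_lit 4806753703) (nat_lit 1672) (nat_lit 3799422590) (nat_lit 1748) (nat_lit 2495134499) (nat_lit 520) (nat_lit 5) (nat_lit 542) (nat_lit 5) (nat_lit 543) (nat_lit 5) (nat_lit 570) (nat_lit 568) (nat_lit 422)) (XT.lf (nat_lit 76) (nat_lit 1778377076) (nat_lit 0) (nat_lit 3723254667) (nat_lit 1748) (nat_lit 5699936657) (nat_lit 521) (nat_lit 5) (nat_lit 520) (nat_lit 5) (nat_lit 543) (nat_lit 5) (nat_lit 571) (nat_lit 568) (nat_lit 421)))))) (XT.nd (nat_lit 390) (nat_lit 1520) (nat_lit 0) (XT.nd (nat_lit 156) (nat_lit 0) (nat_lit 76) (XT.nd (nat_lit 78) (nat_lit 0) (nat_lit 0) (XT.lf (nat_lit 0) (nat_lit 6229493989)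 (nat_lit 1672) (nat_lit 3800820366) (nat_lit 1748) (nat_lit 1273136021) (nat_lit 521) (nat_lit 5) (nat_lit 543) (nat_lit 5) (nat_lit 544) (nat_lit 5) (nat_lit 572) (nat_lit 568) (nat_lit 420)) (XT.lf (nat_lit 76) (nat_lit 1926368303) (nat_lit 0) (nat_lit 5068257086) (nat_lit 1748) (nat_lit 4412291294) (nat_lit 522) (nat_lit 5) (nat_lit 521) (nat_lit 5) (nat_lit 544) (nat_lit 5) (nat_lit 573) (nat_lit 568) (nat_lit 419))) (XT.nd (nat_lit 78) (nat_lit 0) (nat_lit 0) (XT.lf (nat_lit 0) (nat_lit 7786505456) (nat_lit 1672) (nat_lit 3700951507) (nat_lit 1748) (nat_lit 24767343) (nat_lit 522) (nat_lit 5) (nat_lit 544) (nat_lit 5) (nat_lit 545) (nat_lit 5) (nat_lit 574) (nat_lit 568) (nat_lit 418)) (XT.nd (nat_lit 78) (nat_lit 0) (nat_lit 0) (XT.lf (nat_lit 76) (nat_lit 2180935420) (nat_lit 0) (nat_lit 6447107304) (nat_lit 1748) (nat_lit 2990919859) (nat_lit 523) (nat_lit 5) (nat_lit 522) (nat_lit 5) (nat_lit 545) (nat_lit 5) (nat_lit 575) (nat_lit 568) (nat_lit 417)) (XT.lf (nat_lit 76) (nat_lit 8222341704) (nat_lit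 0) (nat_lit 1275218124) (nat_lit 1748) (nat_lit 2230053692) (nat_lit 523) (nat_lit 5) (nat_lit 522) (nat_lit 5) (nat_lit 545) (nat_lit 5) (nat_lit 576) (nat_lit 568) (nat_lit 416))))) (XT.nd (nat_lit 156) (nat_lit 1672) (nat_lit 0) (XT.nd (nat_lit 78) (nat_lit 0) (nat_lit 0) (XT.lf (nat_lit 76) (nat_lit 2545120105) (nat_lit 0) (nat_lit 7868459627) (nat_lit 1748) (nat_lit 1424276352) (nat_lit 524) (nat_lit 5) (nat_lit 523) (nat_lit 5) (nat_lit 546) (nat_lit 5) (nat_lit 577) (nat_lit 568) (nat_lit 415)) (XT.lf (nat_lit 76) (nat_lit 8747105922) (nat_lit 0) (nat_lit 2619550484) (nat_lit 1748) (nat_lit 583273209) (nat_lit 524) (nat_lit 5) (nat_lit 523) (nat_lit 5) (nat_lit 546) (nat_lit 5) (nat_lit 578) (nat_lit 568) (nat_lit 414))) (XT.nd (nat_lit 78) (nat_lit 0) (nat_lit 0) (XT.lf (nat_lit 0) (nat_lit 295599808) (nat_lit 1748) (nat_lit 9043426055) (nat_lit 1824) (nat_lit 2724690900) (nat_lit 501) (nat_lit 5) (nat_lit 524) (nat_lit 5) (nat_lit 525) (nat_lit 5) (nat_lit 579) (nat_lit 568) (nat_lit 413)) (XT.nd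 (nat_lit 78) (nat_lit 0) (nat_lit 76) (XT.lf (nat_lit 0) (nat_lit 1210457066) (nat_lit 1748) (nat_lit 2798032057) (nat_lit 1824) (nat_lit 8170689880) (nat_lit 501) (nat_lit 5) (nat_lit 524) (nat_lit 5) (nat_lit 525) (nat_lit 5) (nat_lit 580) (nat_lit 568) (nat_lit 412)) (XT.lf (nat_lit 0) (nat_lit 2163992244) (nat_lit 1748) (nat_lit 8695001987) (nat_lit 1824) (nat_lit 1437549417) (nat_lit 502) (nat_lit 5) (nat_lit 525) (nat_lit 5) (nat_lit 526) (nat_lit 5) (nat_lit 581) (nat_lit 568) (nat_lit 411))))))) (XT.nd (nat_lit 780) (nat_lit 5548) (nat_lit 0) (XT.nd (nat_lit 390) (nat_lit 1520) (nat_lit 0) (XT.nd (nat_lit 156) (nat_lit 0) (nat_lit 76) (XT.nd (nat_lit 78) (nat_lit 0) (nat_lit 76) (XT.lf (nat_lit 0) (nat_lit 3169738713) (nat_lit 1748) (nat_lit 2284176074) (nat_lit 1824) (nat_lit 6961678752) (nat_lit 502) (nat_lit 5) (nat_lit 525) (nat_lit 5) (nat_lit 526) (nat_lit 5) (nat_lit 582) (nat_lit 568) (nat_lit 410)) (XT.lf (nat_lit 0) (nat_lit 4212064799) (nat_lit 1748) (nat_lit 8234492785) (nat_lit 1824)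 (nat_lit 90138296) (nat_lit 503) (nat_lit 5) (nat_lit 526) (nat_lit 5) (nat_lit 527) (nat_lit 5) (nat_lit 583) (nat_lit 568) (nat_lit 409))) (XT.nd (nat_lit 78) (nat_lit 0) (nat_lit 0) (XT.lf (nat_lit 0) (nat_lit 5314924765) (nat_lit 1748) (nat_lit 1653556819) (nat_lit 1824) (nat_lit 5690945671) (nat_lit 503) (nat_lit 5) (nat_lit 526) (nat_lit 5) (nat_lit 527) (nat_lit 5) (nat_lit 584) (nat_lit 568) (nat_lit 408)) (XT.nd (nat_lit 78) (nat_lit 0) (nat_lit 76) (XT.lf (nat_lit 76) (nat_lit 5117591076) (nat_lit 0) (nat_lit 1343849399) (nat_lit 1824) (nat_lit 6322741529) (nat_lit 504) (nat_lit 5) (nat_lit 503) (nat_lit 5) (nat_lit 527) (nat_lit 5) (nat_lit 585) (nat_lit 568) (nat_lit 407)) (XT.lf (nat_lit 0) (nat_lit 7659144439) (nat_lit 1748) (nat_lit 901949171) (nat_lit 1824) (nat_lit 4349773785) (nat_lit 504) (nat_lit 5) (nat_lit 527) (nat_lit 5) (nat_lit 528) (nat_lit 5) (nat_lit 586) (nat_lit 568) (nat_lit 406))))) (XT.nd (nat_lit 156) (nat_lit 1672) (nat_lit 0) (XT.nd (nat_lit 78) (nat_lit 0) (nat_lit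 76) (XT.lf (nat_lit 76) (nat_lit 6060016878) (nat_lit 0) (nat_lit 2857819308) (nat_lit 1824) (nat_lit 4121510324) (nat_lit 505) (nat_lit 5) (nat_lit 504) (nat_lit 5) (nat_lit 528) (nat_lit 5) (nat_lit 587) (nat_lit 568) (nat_lit 405)) (XT.lf (nat_lit 0) (nat_lit 10215979268) (nat_lit 1748) (nat_lit 24810071) (nat_lit 1824) (nat_lit 2929320994) (nat_lit 505) (nat_lit 5) (nat_lit 528) (nat_lit 5) (nat_lit 529) (nat_lit 5) (nat_lit 588) (nat_lit 568) (nat_lit 404))) (XT.nd (nat_lit 78) (nat_lit 1748) (nat_lit 0) (XT.lf (nat_lit 76) (nat_lit 7134891397) (nat_lit 0) (nat_lit 4459630192) (nat_lit 1824) (nat_lit 1707879781) (nat_lit 506) (nat_lit 5) (nat_lit 505) (nat_lit 5) (nat_lit 529) (nat_lit 5) (nat_lit 589) (nat_lit 568) (nat_lit 403)) (XT.nd (nat_lit 78) (nat_lit 1824) (nat_lit 0) (XT.lf (nat_lit 76) (nat_lit 995786780) (nat_lit 0) (nat_lit 12010168632) (nat_lit 1824) (nat_lit 431277053) (nat_lit 507) (nat_lit 5) (nat_lit 506) (nat_lit 5) (nat_lit 530) (nat_lit 5) (nat_lit 590) (nat_lit 568) (nat_lit 402))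 (XT.lf (nat_lit 0) (nat_lit 920070665) (nat_lit 1824) (nat_lit 5232255939) (nat_lit 1900) (nat_lit 7421108432) (nat_lit 482) (nat_lit 5) (nat_lit 506) (nat_lit 5) (nat_lit 507) (nat_lit 5) (nat_lit 591) (nat_lit 568) (nat_lit 401)))))) (XT.nd (nat_lit 390) (nat_lit 2736) (nat_lit 0) (XT.nd (nat_lit 156) (nat_lit 2812) (nat_lit 0) (XT.nd (nat_lit 78) (nat_lit 0) (nat_lit 76) (XT.lf (nat_lit 76) (nat_lit 2137657079) (nat_lit 0) (nat_lit 158544113) (nat_lit 1900) (nat_lit 11416033452) (nat_lit 483) (nat_lit 5) (nat_lit 482) (nat_lit 5) (nat_lit 507) (nat_lit 5) (nat_lit 592) (nat_lit 568) (nat_lit 400)) (XT.lf (nat_lit 0) (nat_lit 3763666592) (nat_lit 1824) (nat_lit 4174910700) (nat_lit 76) (nat_lit 5913957308) (nat_lit 483) (nat_lit 5) (nat_lit 507) (nat_lit 5) (nat_lit 484) (nat_lit 5) (nat_lit 593) (nat_lit 568) (nat_lit 399))) (XT.nd (nat_lit 78) (nat_lit 1064) (nat_lit 0) (XT.lf (nat_lit 0) (nat_lit 3407766970) (nat_lit 1824) (nat_lit 1865893691) (nat_lit 1900) (nat_lit 8721716897) (nat_lit 459) (nat_lit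 5) (nat_lit 483) (nat_lit 5) (nat_lit 484) (nat_lit 5) (nat_lit 594) (nat_lit 568) (nat_lit 398)) (XT.nd (nat_lit 78) (nat_lit 1064) (nat_lit 0) (XT.lf (nat_lit 0) (nat_lit 6860310457) (nat_lit 1900) (nat_lit 2978889556) (nat_lit 76) (nat_lit 4300948823) (nat_lit 459) (nat_lit 5) (nat_lit 484) (nat_lit 5) (nat_lit 460) (nat_lit 5) (nat_lit 595) (nat_lit 568) (nat_lit 397)) (XT.lf (nat_lit 0) (nat_lit 4824317499) (nat_lit 1064) (nat_lit 3688401049) (nat_lit 1140) (nat_lit 5774417052) (nat_lit 445) (nat_lit 5) (nat_lit 459) (nat_lit 5) (nat_lit 460) (nat_lit 5) (nat_lit 596) (nat_lit 568) (nat_lit 396))))) (XT.nd (nat_lit 234) (nat_lit 1824) (nat_lit 0) (XT.nd (nat_lit 78) (nat_lit 912) (nat_lit 0) (XT.lf (nat_lit 0) (nat_lit 10225569174) (nat_lit 1140) (nat_lit 1638356541) (nat_lit 76) (nat_lit 2572589051) (nat_lit 445) (nat_lit 5) (nat_lit 460) (nat_lit 5) (nat_lit 446) (nat_lit 5) (nat_lit 597) (nat_lit 568) (nat_lit 395)) (XT.nd (nat_lit 78) (nat_lit 0) (nat_lit 0) (XT.lf (nat_lit 0) (nat_lit 6393446439)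 (nat_lit 912) (nat_lit 5635839768) (nat_lit 988) (nat_lit 2558463667) (nat_lit 433) (nat_lit 5) (nat_lit 445) (nat_lit 5) (nat_lit 446) (nat_lit 5) (nat_lit 598) (nat_lit 568) (nat_lit 394)) (XT.lf (nat_lit 0) (nat_lit 13875603061) (nat_lit 988) (nat_lit 147127856) (nat_lit 76) (nat_lit 719148789) (nat_lit 433) (nat_lit 5) (nat_lit 446) (nat_lit 5) (nat_lit 434) (nat_lit 5) (nat_lit 599) (nat_lit 568) (nat_lit 393)))) (XT.nd (nat_lit 78) (nat_lit 836) (nat_lit 0) (XT.lf (nat_lit 0) (nat_lit 930053785) (nat_lit 988) (nat_lit 6781940355) (nat_lit 76) (nat_lit 7185355359) (nat_lit 420) (nat_lit 5) (nat_lit 433) (nat_lit 5) (nat_lit 421) (nat_lit 5) (nat_lit 600) (nat_lit 568) (nat_lit 392)) (XT.nd (nat_lit 78) (nat_lit 0) (nat_lit 0) (XT.lf (nat_lit 0) (nat_lit 1494542285) (nat_lit 836) (nat_lit 1257924410) (nat_lit 912) (nat_lit 12303312866) (nat_lit 409) (nat_lit 5) (nat_lit 420) (nat_lit 5) (nat_lit 421) (nat_lit 5) (nat_lit 601) (nat_lit 568) (nat_lit 391)) (XT.lf (nat_lit 0) (nat_lit 4682883607) (nat_lit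 912) (nat_lit 5231578965) (nat_lit 76) (nat_lit 5301485032) (nat_lit 409) (nat_lit 5) (nat_lit 421) (nat_lit 5) (nat_lit 410) (nat_lit 5) (nat_lit 602) (nat_lit 568) (nat_lit 390))))))))
noncomputable def xc159 : XT := (XT.nd (nat_lit 2262) (nat_lit 5852) (nat_lit 0) (XT.nd (nat_lit 1482) (nat_lit 3572) (nat_lit 0) (XT.nd (nat_lit 1092) (nat_lit 2052) (nat_lit 0) (XT.nd (nat_lit 858) (nat_lit 4636) (nat_lit 0) (XT.nd (nat_lit 156) (nat_lit 836) (nat_lit 0) (XT.lf (nat_lit 0) (nat_lit 3290954110) (nat_lit 836) (nat_lit 3381994639) (nat_lit 912) (nat_lit 8705949943) (nat_lit 398) (nat_lit 5) (nat_lit 409) (nat_lit 5) (nat_lit 410) (nat_lit 5) (nat_lit 603) (nat_lit 568) (nat_lit 389)) (XT.lf (nat_lit 0) (nat_lit 5257866670) (nat_lit 836) (nat_lit 5660732867) (nat_lit 912) (nat_lit 4793138588) (nat_lit 387) (nat_lit 5) (nat_lit 398) (nat_lit 5) (nat_lit 399) (nat_lit 5) (nat_lit 605) (nat_lit 568) (nat_lit 387))) (XT.nd (nat_lit 78) (nat_lit 760) (nat_lit 0) (XT.lf (nat_lit 0) (nat_lit 7654666256) (nat_lit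 760) (nat_lit 9368899728) (nat_lit 836) (nat_lit 311423447) (nat_lit 336) (nat_lit 5) (nat_lit 346) (nat_lit 5) (nat_lit 347) (nat_lit 5) (nat_lit 614) (nat_lit 568) (nat_lit 378)) (XT.nd (nat_lit 78) (nat_lit 0) (nat_lit 0) (XT.lf (nat_lit 0) (nat_lit 239775214) (nat_lit 684) (nat_lit 2114711699) (nat_lit 760) (nat_lit 15174465991) (nat_lit 326) (nat_lit 5) (nat_lit 335) (nat_lit 5) (nat_lit 336) (nat_lit 5) (nat_lit 615) (nat_lit 568) (nat_lit 377)) (XT.lf (nat_lit 0) (nat_lit 5162057235) (nat_lit 760) (nat_lit 7281200566) (nat_lit 76) (nat_lit 5281646800) (nat_lit 326) (nat_lit 5) (nat_lit 336) (nat_lit 5) (nat_lit 327) (nat_lit 5) (nat_lit 616) (nat_lit 568) (nat_lit 376))))) (XT.nd (nat_lit 156) (nat_lit 1368) (nat_lit 0) (XT.nd (nat_lit 78) (nat_lit 0) (nat_lit 0) (XT.lf (nat_lit 0) (nat_lit 2943302398) (nat_lit 684) (nat_lit 5108538877) (nat_lit 760) (nat_lit 9872413163) (nat_lit 317) (nat_lit 5) (nat_lit 326) (nat_lit 5) (nat_lit 327) (nat_lit 5) (nat_lit 617) (nat_lit 568) (nat_lit 375)) (XT.lf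 (nat_lit 0) (nat_lit 11057036606) (nat_lit 760) (nat_lit 4679658511) (nat_lit 76) (nat_lit 2389744189) (nat_lit 317) (nat_lit 5) (nat_lit 327) (nat_lit 5) (nat_lit 318) (nat_lit 5) (nat_lit 618) (nat_lit 568) (nat_lit 374))) (XT.nd (nat_lit 78) (nat_lit 760) (nat_lit 0) (XT.lf (nat_lit 0) (nat_lit 5862572502) (nat_lit 608) (nat_lit 8324820261) (nat_lit 684) (nat_lit 4143974307) (nat_lit 309) (nat_lit 5) (nat_lit 317) (nat_lit 5) (nat_lit 318) (nat_lit 5) (nat_lit 619) (nat_lit 568) (nat_lit 373)) (XT.nd (nat_lit 78) (nat_lit 760) (nat_lit 0) (XT.lf (nat_lit 0) (nat_lit 16670990033) (nat_lit 608) (nat_lit 734012354) (nat_lit 684) (nat_lit 1134898408) (nat_lit 309) (nat_lit 5) (nat_lit 317) (nat_lit 5) (nat_lit 318) (nat_lit 5) (nat_lit 620) (nat_lit 568) (nat_lit 372)) (XT.lf (nat_lit 0) (nat_lit 2006988813) (nat_lit 760) (nat_lit 9756318319) (nat_lit 76) (nat_lit 6987087213) (nat_lit 299) (nat_lit 5) (nat_lit 309) (nat_lit 5) (nat_lit 300) (nat_lit 5) (nat_lit 621) (nat_lit 568) (nat_lit 371)))))) (XT.nd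 (nat_lit 390) (nat_lit 1748) (nat_lit 0) (XT.nd (nat_lit 156) (nat_lit 1216) (nat_lit 0) (XT.nd (nat_lit 78) (nat_lit 0) (nat_lit 0) (XT.lf (nat_lit 0) (nat_lit 1129064390) (nat_lit 608) (nat_lit 4085685090) (nat_lit 684) (nat_lit 13749833926) (nat_lit 291) (nat_lit 5) (nat_lit 299) (nat_lit 5) (nat_lit 300) (nat_lit 5) (nat_lit 622) (nat_lit 568) (nat_lit 370)) (XT.lf (nat_lit 0) (nat_lit 8570356202) (nat_lit 684) (nat_lit 6850254771) (nat_lit 76) (nat_lit 3760771765) (nat_lit 291) (nat_lit 5) (nat_lit 300) (nat_lit 5) (nat_lit 292) (nat_lit 5) (nat_lit 623) (nat_lit 568) (nat_lit 369))) (XT.nd (nat_lit 78) (nat_lit 608) (nat_lit 0) (XT.lf (nat_lit 0) (nat_lit 4377062852) (nat_lit 608) (nat_lit 7665085609) (nat_lit 684) (nat_lit 7359388428) (nat_lit 283) (nat_lit 5) (nat_lit 291) (nat_lit 5) (nat_lit 292) (nat_lit 5) (nat_lit 624) (nat_lit 568) (nat_lit 368)) (XT.nd (nat_lit 78) (nat_lit 608) (nat_lit 0) (XT.lf (nat_lit 0) (nat_lit 15624904612) (nat_lit 684) (nat_lit 3713353701) (nat_lit 76) (nat_lit 287005544)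 (nat_lit 283) (nat_lit 5) (nat_lit 292) (nat_lit 5) (nat_lit 284) (nat_lit 5) (nat_lit 625) (nat_lit 568) (nat_lit 367)) (XT.lf (nat_lit 0) (nat_lit 7868517946) (nat_lit 608) (nat_lit 11506432562) (nat_lit 684) (nat_lit 476602453) (nat_lit 275) (nat_lit 5) (nat_lit 283) (nat_lit 5) (nat_lit 284) (nat_lit 5) (nat_lit 626) (nat_lit 568) (nat_lit 366))))) (XT.nd (nat_lit 156) (nat_lit 1064) (nat_lit 0) (XT.nd (nat_lit 78) (nat_lit 608) (nat_lit 0) (XT.lf (nat_lit 0) (nat_lit 3095639517) (nat_lit 684) (nat_lit 377850134) (nat_lit 76) (nat_lit 16608095672) (nat_lit 274) (nat_lit 5) (nat_lit 283) (nat_lit 5) (nat_lit 275) (nat_lit 5) (nat_lit 627) (nat_lit 568) (nat_lit 365)) (XT.lf (nat_lit 0) (nat_lit 6833360342) (nat_lit 684) (nat_lit 8745279155) (nat_lit 76) (nat_lit 4735507787) (nat_lit 266) (nat_lit 5) (nat_lit 275) (nat_lit 5) (nat_lit 267) (nat_lit 5) (nat_lit 628) (nat_lit 568) (nat_lit 364))) (XT.nd (nat_lit 78) (nat_lit 532) (nat_lit 0) (XT.lf (nat_lit 0) (nat_lit 3219701233) (nat_lit 532) (nat_lit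 7466587861) (nat_lit 608) (nat_lit 9864262588) (nat_lit 259) (nat_lit 5) (nat_lit 266) (nat_lit 5) (nat_lit 267) (nat_lit 5) (nat_lit 629) (nat_lit 568) (nat_lit 363)) (XT.nd (nat_lit 78) (nat_lit 532) (nat_lit 0) (XT.lf (nat_lit 0) (nat_lit 14674643337) (nat_lit 608) (nat_lit 5261511486) (nat_lit 76) (nat_lit 854362267) (nat_lit 259) (nat_lit 5) (nat_lit 267) (nat_lit 5) (nat_lit 260) (nat_lit 5) (nat_lit 630) (nat_lit 568) (nat_lit 362)) (XT.lf (nat_lit 0) (nat_lit 7084947783) (nat_lit 532) (nat_lit 11747430043) (nat_lit 608) (nat_lit 2201111974) (nat_lit 252) (nat_lit 5) (nat_lit 259) (nat_lit 5) (nat_lit 260) (nat_lit 5) (nat_lit 631) (nat_lit 568) (nat_lit 361))))))) (XT.nd (nat_lit 780) (nat_lit 2736) (nat_lit 0) (XT.nd (nat_lit 390) (nat_lit 1520) (nat_lit 0) (XT.nd (nat_lit 156) (nat_lit 988) (nat_lit 0) (XT.nd (nat_lit 78) (nat_lit 532) (nat_lit 0) (XT.lf (nat_lit 0) (nat_lit 1798176101) (nat_lit 608) (nat_lit 1550592481) (nat_lit 76) (nat_lit 17931726285) (nat_lit 251) (nat_lit 5) (nat_lit 259)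 (nat_lit 5) (nat_lit 252) (nat_lit 5) (nat_lit 632) (nat_lit 568) (nat_lit 360)) (XT.lf (nat_lit 0) (nat_lit 5949603783) (nat_lit 608) (nat_lit 10344968345) (nat_lit 76) (nat_lit 5235544627) (nat_lit 244) (nat_lit 5) (nat_lit 252) (nat_lit 5) (nat_lit 245) (nat_lit 5) (nat_lit 633) (nat_lit 568) (nat_lit 359))) (XT.nd (nat_lit 78) (nat_lit 456) (nat_lit 0) (XT.lf (nat_lit 0) (nat_lit 2413847959) (nat_lit 532) (nat_lit 7812891152) (nat_lit 608) (nat_lit 11557138623) (nat_lit 237) (nat_lit 5) (nat_lit 244) (nat_lit 5) (nat_lit 245) (nat_lit 5) (nat_lit 634) (nat_lit 568) (nat_lit 358)) (XT.nd (nat_lit 78) (nat_lit 456) (nat_lit 0) (XT.lf (nat_lit 0) (nat_lit 14659144053) (nat_lit 608) (nat_lit 6486871553) (nat_lit 76) (nat_lit 895304023) (nat_lit 237) (nat_lit 5) (nat_lit 245) (nat_lit 5) (nat_lit 238) (nat_lit 5) (nat_lit 635) (nat_lit 568) (nat_lit 357)) (XT.lf (nat_lit 0) (nat_lit 6682287407) (nat_lit 456) (nat_lit 12587549651) (nat_lit 532) (nat_lit 3032280733) (nat_lit 231) (nat_lit 5) (nat_lit 237)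 (nat_lit 5) (nat_lit 238) (nat_lit 5) (nat_lit 636) (nat_lit 568) (nat_lit 356))))) (XT.nd (nat_lit 156) (nat_lit 912) (nat_lit 0) (XT.nd (nat_lit 78) (nat_lit 532) (nat_lit 0) (XT.lf (nat_lit 0) (nat_lit 1424544645) (nat_lit 532) (nat_lit 2381492382) (nat_lit 76) (nat_lit 18761145625) (nat_lit 230) (nat_lit 5) (nat_lit 237) (nat_lit 5) (nat_lit 231) (nat_lit 5) (nat_lit 637) (nat_lit 568) (nat_lit 355)) (XT.lf (nat_lit 0) (nat_lit 6031619888) (nat_lit 608) (nat_lit 11628311516) (nat_lit 76) (nat_lit 5175182443) (nat_lit 223) (nat_lit 5) (nat_lit 231) (nat_lit 5) (nat_lit 224) (nat_lit 5) (nat_lit 638) (nat_lit 568) (nat_lit 354))) (XT.nd (nat_lit 78) (nat_lit 456) (nat_lit 0) (XT.lf (nat_lit 0) (nat_lit 1984294689) (nat_lit 456) (nat_lit 8795404201) (nat_lit 532) (nat_lit 12327727740) (nat_lit 217) (nat_lit 5) (nat_lit 223) (nat_lit 5) (nat_lit 224) (nat_lit 5) (nat_lit 639) (nat_lit 568) (nat_lit 353)) (XT.nd (nat_lit 78) (nat_lit 456) (nat_lit 0) (XT.lf (nat_lit 0) (nat_lit 15697616514) (nat_lit 532)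 (nat_lit 7366484851) (nat_lit 76) (nat_lit 319586972) (nat_lit 217) (nat_lit 5) (nat_lit 224) (nat_lit 5) (nat_lit 218) (nat_lit 5) (nat_lit 640) (nat_lit 568) (nat_lit 352)) (XT.lf (nat_lit 0) (nat_lit 6687380120) (nat_lit 456) (nat_lit 14123010652) (nat_lit 532) (nat_lit 2853154741) (nat_lit 211) (nat_lit 5) (nat_lit 217) (nat_lit 5) (nat_lit 218) (nat_lit 5) (nat_lit 641) (nat_lit 568) (nat_lit 351)))))) (XT.nd (nat_lit 390) (nat_lit 1368) (nat_lit 0) (XT.nd (nat_lit 156) (nat_lit 836) (nat_lit 0) (XT.nd (nat_lit 78) (nat_lit 456) (nat_lit 0) (XT.lf (nat_lit 0) (nat_lit 2093799792) (nat_lit 532) (nat_lit 2847036663) (nat_lit 76) (nat_lit 19007001706) (nat_lit 210) (nat_lit 5) (nat_lit 217) (nat_lit 5) (nat_lit 211) (nat_lit 5) (nat_lit 642) (nat_lit 568) (nat_lit 350)) (XT.lf (nat_lit 0) (nat_lit 7201732587) (nat_lit 532) (nat_lit 12573493259) (nat_lit 76) (nat_lit 4460208963) (nat_lit 204) (nat_lit 5) (nat_lit 211) (nat_lit 5) (nat_lit 205) (nat_lit 5) (nat_lit 643) (nat_lit 568) (nat_lit 349))) (XT.nd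 (nat_lit 78) (nat_lit 380) (nat_lit 0) (XT.lf (nat_lit 0) (nat_lit 1956820363) (nat_lit 456) (nat_lit 10514651293) (nat_lit 532) (nat_lit 12056118967) (nat_lit 198) (nat_lit 5) (nat_lit 204) (nat_lit 5) (nat_lit 205) (nat_lit 5) (nat_lit 644) (nat_lit 568) (nat_lit 348)) (XT.nd (nat_lit 78) (nat_lit 380) (nat_lit 0) (XT.lf (nat_lit 0) (nat_lit 16940938443) (nat_lit 456) (nat_lit 985083287) (nat_lit 532) (nat_lit 6897979684) (nat_lit 198) (nat_lit 5) (nat_lit 204) (nat_lit 5) (nat_lit 205) (nat_lit 5) (nat_lit 645) (nat_lit 568) (nat_lit 347)) (XT.lf (nat_lit 0) (nat_lit 7127989642) (nat_lit 380) (nat_lit 16459790885) (nat_lit 456) (nat_lit 1536597719) (nat_lit 193) (nat_lit 5) (nat_lit 198) (nat_lit 5) (nat_lit 199) (nat_lit 5) (nat_lit 646) (nat_lit 568) (nat_lit 346))))) (XT.nd (nat_lit 234) (nat_lit 456) (nat_lit 0) (XT.nd (nat_lit 78) (nat_lit 836) (nat_lit 0) (XT.lf (nat_lit 0) (nat_lit 3935357735) (nat_lit 456) (nat_lit 2923184895) (nat_lit 76) (nat_lit 18570611274) (nat_lit 192) (nat_lit 5) (nat_lit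 198) (nat_lit 5) (nat_lit 193) (nat_lit 5) (nat_lit 647) (nat_lit 568) (nat_lit 345)) (XT.nd (nat_lit 78) (nat_lit 380) (nat_lit 0) (XT.lf (nat_lit 0) (nat_lit 9592885843) (nat_lit 532) (nat_lit 13158434150) (nat_lit 76) (nat_lit 2986567941) (nat_lit 186) (nat_lit 5) (nat_lit 193) (nat_lit 5) (nat_lit 187) (nat_lit 5) (nat_lit 648) (nat_lit 568) (nat_lit 344)) (XT.lf (nat_lit 0) (nat_lit 2357646370) (nat_lit 380) (nat_lit 13081661971) (nat_lit 456) (nat_lit 10611973594) (nat_lit 181) (nat_lit 5) (nat_lit 186) (nat_lit 5) (nat_lit 187) (nat_lit 5) (nat_lit 649) (nat_lit 568) (nat_lit 343)))) (XT.nd (nat_lit 78) (nat_lit 456) (nat_lit 0) (XT.lf (nat_lit 0) (nat_lit 18355371859) (nat_lit 380) (nat_lit 3130904070) (nat_lit 456) (nat_lit 4882995716) (nat_lit 181) (nat_lit 5) (nat_lit 186) (nat_lit 5) (nat_lit 187) (nat_lit 5) (nat_lit 650) (nat_lit 568) (nat_lit 342)) (XT.nd (nat_lit 78) (nat_lit 0) (nat_lit 0) (XT.lf (nat_lit 0) (nat_lit 1041695379) (nat_lit 456) (nat_lit 18666390238) (nat_lit 76) (nat_lit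 6983536325) (nat_lit 175) (nat_lit 5) (nat_lit 181) (nat_lit 5) (nat_lit 176) (nat_lit 5) (nat_lit 651) (nat_lit 568) (nat_lit 341)) (XT.lf (nat_lit 0) (nat_lit 7089834561) (nat_lit 456) (nat_lit 2585992479) (nat_lit 76) (nat_lit 17342540074) (nat_lit 175) (nat_lit 5) (nat_lit 181) (nat_lit 5) (nat_lit 176) (nat_lit 5) (nat_lit 652) (nat_lit 568) (nat_lit 340))))))))
noncomputable def xc160 : XT := (XT.nd (nat_lit 75738) (nat_lit 0) (nat_lit 19380) (XT.nd (nat_lit 74958) (nat_lit 0) (nat_lit 26296) (XT.nd (nat_lit 390) (nat_lit 380) (nat_lit 0) (XT.nd (nat_lit 156) (nat_lit 456) (nat_lit 0) (XT.nd (nat_lit 78) (nat_lit 380) (nat_lit 0) (XT.lf (nat_lit 0) (nat_lit 13349487877) (nat_lit 456) (nat_lit 13361453629) (nat_lit 76) (nat_lit 638894809) (nat_lit 170) (nat_lit 5) (nat_lit 176) (nat_lit 5) (nat_lit 171) (nat_lit 5) (nat_lit 653) (nat_lit 568) (nat_lit 339)) (XT.lf (nat_lit 0) (nat_lit 3212765604) (nat_lit 380) (nat_lit 16619501797) (nat_lit 456) (nat_lit 7853708981) (nat_lit 165) (nat_lit 5) (nat_lit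 170) (nat_lit 5) (nat_lit 171) (nat_lit 5) (nat_lit 654) (nat_lit 568) (nat_lit 338))) (XT.nd (nat_lit 78) (nat_lit 456) (nat_lit 0) (XT.lf (nat_lit 0) (nat_lit 20292744083) (nat_lit 380) (nat_lit 6237191212) (nat_lit 456) (nat_lit 1497199446) (nat_lit 165) (nat_lit 5) (nat_lit 170) (nat_lit 5) (nat_lit 171) (nat_lit 5) (nat_lit 655) (nat_lit 568) (nat_lit 337)) (XT.nd (nat_lit 78) (nat_lit 0) (nat_lit 0) (XT.lf (nat_lit 0) (nat_lit 5006720284) (nat_lit 456) (nat_lit 18978541413) (nat_lit 76) (nat_lit 4387493642) (nat_lit 159) (nat_lit 5) (nat_lit 165) (nat_lit 5) (nat_lit 160) (nat_lit 5) (nat_lit 656) (nat_lit 568) (nat_lit 336)) (XT.lf (nat_lit 0) (nat_lit 11709895983) (nat_lit 456) (nat_lit 1812376744) (nat_lit 76) (nat_lit 15201033325) (nat_lit 159) (nat_lit 5) (nat_lit 165) (nat_lit 5) (nat_lit 160) (nat_lit 5) (nat_lit 657) (nat_lit 568) (nat_lit 335))))) (XT.nd (nat_lit 74334) (nat_lit 0) (nat_lit 27740) (XT.nd (nat_lit 74256) (nat_lit 0) (nat_lit 27740) (XT.lf (nat_lit 0) (nat_lit 15898968375)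 (nat_lit 380) (nat_lit 2747133549) (nat_lit 456) (nat_lit 10432786656) (nat_lit 154) (nat_lit 5) (nat_lit 159) (nat_lit 5) (nat_lit 160) (nat_lit 5) (nat_lit 658) (nat_lit 568) (nat_lit 334)) (XT.lf (nat_lit 0) (nat_lit 2369086441) (nat_lit 1748) (nat_lit 1590578654) (nat_lit 1748) (nat_lit 1590578654) (nat_lit 519) (nat_lit 3) (nat_lit 542) (nat_lit 3) (nat_lit 542) (nat_lit 5) (nat_lit 569) (nat_lit 569) (nat_lit 422))) (XT.nd (nat_lit 78) (nat_lit 0) (nat_lit 76) (XT.lf (nat_lit 76) (nat_lit 2357126364) (nat_lit 0) (nat_lit 3005300672) (nat_lit 1748) (nat_lit 5837491745) (nat_lit 520) (nat_lit 5) (nat_lit 519) (nat_lit 3) (nat_lit 542) (nat_lit 5) (nat_lit 570) (nat_lit 569) (nat_lit 421)) (XT.nd (nat_lit 78) (nat_lit 0) (nat_lit 0) (XT.lf (nat_lit 0) (nat_lit 6018952686) (nat_lit 1672) (nat_lit 3272742575) (nat_lit 1748) (nat_lit 2009248646) (nat_lit 520) (nat_lit 5) (nat_lit 542) (nat_lit 5) (nat_lit 543) (nat_lit 5) (nat_lit 571) (nat_lit 569) (nat_lit 420)) (XT.lf (nat_lit 76) (nat_lit 2412648161)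 (nat_lit 0) (nat_lit 4297083700) (nat_lit 1748) (nat_lit 4693836142) (nat_lit 521) (nat_lit 5) (nat_lit 520) (nat_lit 5) (nat_lit 543) (nat_lit 5) (nat_lit 572) (nat_lit 569) (nat_lit 419)))))) (XT.nd (nat_lit 390) (nat_lit 1596) (nat_lit 0) (XT.nd (nat_lit 156) (nat_lit 0) (nat_lit 0) (XT.nd (nat_lit 78) (nat_lit 0) (nat_lit 0) (XT.lf (nat_lit 0) (nat_lit 7427441988) (nat_lit 1672) (nat_lit 3265094117) (nat_lit 1748) (nat_lit 815447082) (nat_lit 521) (nat_lit 5) (nat_lit 543) (nat_lit 5) (nat_lit 544) (nat_lit 5) (nat_lit 573) (nat_lit 569) (nat_lit 418)) (XT.lf (nat_lit 76) (nat_lit 2572613703) (nat_lit 0) (nat_lit 5618161783) (nat_lit 1748) (nat_lit 3423086697) (nat_lit 522) (nat_lit 5) (nat_lit 521) (nat_lit 5) (nat_lit 544) (nat_lit 5) (nat_lit 574) (nat_lit 569) (nat_lit 417))) (XT.nd (nat_lit 78) (nat_lit 0) (nat_lit 76) (XT.lf (nat_lit 76) (nat_lit 8563469775) (nat_lit 0) (nat_lit 414146244) (nat_lit 1748) (nat_lit 2744078809) (nat_lit 522) (nat_lit 5) (nat_lit 521) (nat_lit 5) (nat_lit 544) (nat_lit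 5) (nat_lit 575) (nat_lit 569) (nat_lit 416)) (XT.nd (nat_lit 78) (nat_lit 0) (nat_lit 0) (XT.lf (nat_lit 76) (nat_lit 2839913297) (nat_lit 0) (nat_lit 6977128290) (nat_lit 1748) (nat_lit 2013906434) (nat_lit 523) (nat_lit 5) (nat_lit 522) (nat_lit 5) (nat_lit 545) (nat_lit 5) (nat_lit 576) (nat_lit 569) (nat_lit 415)) (XT.lf (nat_lit 76) (nat_lit 8990081841) (nat_lit 0) (nat_lit 1693937035) (nat_lit 1748) (nat_lit 1258152979) (nat_lit 523) (nat_lit 5) (nat_lit 522) (nat_lit 5) (nat_lit 545) (nat_lit 5) (nat_lit 577) (nat_lit 569) (nat_lit 414))))) (XT.nd (nat_lit 156) (nat_lit 0) (nat_lit 76) (XT.nd (nat_lit 78) (nat_lit 1748) (nat_lit 0) (XT.lf (nat_lit 76) (nat_lit 3217745384) (nat_lit 0) (nat_lit 8382608111) (nat_lit 1748) (nat_lit 454627140) (nat_lit 524) (nat_lit 5) (nat_lit 523) (nat_lit 5) (nat_lit 546) (nat_lit 5) (nat_lit 578) (nat_lit 569) (nat_lit 413)) (XT.lf (nat_lit 0) (nat_lit 378593487) (nat_lit 1748) (nat_lit 2640591064) (nat_lit 1824) (nat_lit 9150446224) (nat_lit 500) (nat_lit 5) (nat_lit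 523) (nat_lit 5) (nat_lit 524) (nat_lit 5) (nat_lit 579) (nat_lit 569) (nat_lit 412))) (XT.nd (nat_lit 78) (nat_lit 0) (nat_lit 0) (XT.lf (nat_lit 0) (nat_lit 1250161325) (nat_lit 1748) (nat_lit 8584729375) (nat_lit 1824) (nat_lit 2451068487) (nat_lit 501) (nat_lit 5) (nat_lit 524) (nat_lit 5) (nat_lit 525) (nat_lit 5) (nat_lit 580) (nat_lit 569) (nat_lit 411)) (XT.nd (nat_lit 78) (nat_lit 0) (nat_lit 76) (XT.lf (nat_lit 0) (nat_lit 2164714757) (nat_lit 1748) (nat_lit 2226967992) (nat_lit 1824) (nat_lit 8012421097) (nat_lit 501) (nat_lit 5) (nat_lit 524) (nat_lit 5) (nat_lit 525) (nat_lit 5) (nat_lit 581) (nat_lit 569) (nat_lit 410)) (XT.lf (nat_lit 0) (nat_lit 3121226599) (nat_lit 1748) (nat_lit 8225726647) (nat_lit 1824) (nat_lit 1177185553) (nat_lit 502) (nat_lit 5) (nat_lit 525) (nat_lit 5) (nat_lit 526) (nat_lit 5) (nat_lit 582) (nat_lit 569) (nat_lit 409))))))) (XT.nd (nat_lit 780) (nat_lit 5548) (nat_lit 0) (XT.nd (nat_lit 390) (nat_lit 1520) (nat_lit 0) (XT.nd (nat_lit 156) (nat_lit 0) (nat_lit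 76) (XT.nd (nat_lit 78) (nat_lit 0) (nat_lit 0) (XT.lf (nat_lit 0) (nat_lit 4129167321) (nat_lit 1748) (nat_lit 1699295497) (nat_lit 1824) (nat_lit 6817466393) (nat_lit 502) (nat_lit 5) (nat_lit 525) (nat_lit 5) (nat_lit 526) (nat_lit 5) (nat_lit 583) (nat_lit 569) (nat_lit 408)) (XT.lf (nat_lit 76) (nat_lit 5015279780) (nat_lit 0) (nat_lit 162953087) (nat_lit 1824) (nat_lit 7591503962) (nat_lit 503) (nat_lit 5) (nat_lit 502) (nat_lit 5) (nat_lit 526) (nat_lit 5) (nat_lit 584) (nat_lit 569) (nat_lit 407))) (XT.nd (nat_lit 78) (nat_lit 0) (nat_lit 0) (XT.lf (nat_lit 0) (nat_lit 6284820097) (nat_lit 1748) (nat_lit 1053506788) (nat_lit 1824) (nat_lit 5556963613) (nat_lit 503) (nat_lit 5) (nat_lit 526) (nat_lit 5) (nat_lit 527) (nat_lit 5) (nat_lit 585) (nat_lit 569) (nat_lit 406)) (XT.nd (nat_lit 78) (nat_lit 0) (nat_lit 76) (XT.lf (nat_lit 76) (nat_lit 5848898794) (nat_lit 0) (nat_lit 1592517654) (nat_lit 1824) (nat_lit 5581381933) (nat_lit 504) (nat_lit 5) (nat_lit 503) (nat_lit 5) (nat_lit 527) (nat_lit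 5) (nat_lit 586) (nat_lit 569) (nat_lit 405)) (XT.lf (nat_lit 0) (nat_lit 8644981394) (nat_lit 1748) (nat_lit 285220335) (nat_lit 1824) (nat_lit 4222178638) (nat_lit 504) (nat_lit 5) (nat_lit 527) (nat_lit 5) (nat_lit 528) (nat_lit 5) (nat_lit 587) (nat_lit 569) (nat_lit 404))))) (XT.nd (nat_lit 156) (nat_lit 1672) (nat_lit 0) (XT.nd (nat_lit 78) (nat_lit 0) (nat_lit 76) (XT.lf (nat_lit 76) (nat_lit 6811808931) (nat_lit 0) (nat_lit 3104805715) (nat_lit 1824) (nat_lit 3367060071) (nat_lit 505) (nat_lit 5) (nat_lit 504) (nat_lit 5) (nat_lit 528) (nat_lit 5) (nat_lit 588) (nat_lit 569) (nat_lit 403)) (XT.lf (nat_lit 76) (nat_lit 618375341) (nat_lit 0) (nat_lit 10609065115) (nat_lit 1824) (nat_lit 2189879950) (nat_lit 506) (nat_lit 5) (nat_lit 505) (nat_lit 5) (nat_lit 529) (nat_lit 5) (nat_lit 589) (nat_lit 569) (nat_lit 402))) (XT.nd (nat_lit 78) (nat_lit 1748) (nat_lit 0) (XT.lf (nat_lit 76) (nat_lit 7908979344) (nat_lit 0) (nat_lit 4708911197) (nat_lit 1824) (nat_lit 934680950) (nat_lit 506) (nat_lit 5)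 (nat_lit 505) (nat_lit 5) (nat_lit 529) (nat_lit 5) (nat_lit 590) (nat_lit 569) (nat_lit 401)) (XT.nd (nat_lit 78) (nat_lit 0) (nat_lit 0) (XT.lf (nat_lit 0) (nat_lit 350195184) (nat_lit 1824) (nat_lit 12032906445) (nat_lit 1900) (nat_lit 1307199582) (nat_lit 482) (nat_lit 5) (nat_lit 506) (nat_lit 5) (nat_lit 507) (nat_lit 5) (nat_lit 591) (nat_lit 569) (nat_lit 400)) (XT.lf (nat_lit 0) (nat_lit 1707421468) (nat_lit 1824) (nat_lit 4695222612) (nat_lit 1900) (nat_lit 7426835122) (nat_lit 482) (nat_lit 5) (nat_lit 506) (nat_lit 5) (nat_lit 507) (nat_lit 5) (nat_lit 592) (nat_lit 569) (nat_lit 399)))))) (XT.nd (nat_lit 390) (nat_lit 2736) (nat_lit 0) (XT.nd (nat_lit 156) (nat_lit 2812) (nat_lit 0) (XT.nd (nat_lit 78) (nat_lit 0) (nat_lit 76) (XT.lf (nat_lit 76) (nat_lit 2817867097) (nat_lit 0) (nat_lit 282268862) (nat_lit 1900) (nat_lit 10871138508) (nat_lit 483) (nat_lit 5) (nat_lit 482) (nat_lit 5) (nat_lit 507) (nat_lit 5) (nat_lit 593) (nat_lit 569) (nat_lit 398)) (XT.lf (nat_lit 0) (nat_lit 4581320343)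 (nat_lit 1824) (nat_lit 3617777089) (nat_lit 76) (nat_lit 5915596473) (nat_lit 483) (nat_lit 5) (nat_lit 507) (nat_lit 5) (nat_lit 484) (nat_lit 5) (nat_lit 594) (nat_lit 569) (nat_lit 397))) (XT.nd (nat_lit 78) (nat_lit 1064) (nat_lit 0) (XT.lf (nat_lit 0) (nat_lit 4112339451) (nat_lit 1824) (nat_lit 1998750405) (nat_lit 1900) (nat_lit 8149513212) (nat_lit 459) (nat_lit 5) (nat_lit 483) (nat_lit 5) (nat_lit 484) (nat_lit 5) (nat_lit 595) (nat_lit 569) (nat_lit 396)) (XT.nd (nat_lit 78) (nat_lit 1064) (nat_lit 0) (XT.lf (nat_lit 0) (nat_lit 7714512432) (nat_lit 1900) (nat_lit 2399526677) (nat_lit 76) (nat_lit 4294530709) (nat_lit 459) (nat_lit 5) (nat_lit 484) (nat_lit 5) (nat_lit 460) (nat_lit 5) (nat_lit 596) (nat_lit 569) (nat_lit 395)) (XT.lf (nat_lit 0) (nat_lit 5555540962) (nat_lit 1064) (nat_lit 3834490116) (nat_lit 1140) (nat_lit 5168664816) (nat_lit 445) (nat_lit 5) (nat_lit 459) (nat_lit 5) (nat_lit 460) (nat_lit 5) (nat_lit 597) (nat_lit 569) (nat_lit 394))))) (XT.nd (nat_lit 156) (nat_lit 1824)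 (nat_lit 0) (XT.nd (nat_lit 78) (nat_lit 912) (nat_lit 0) (XT.lf (nat_lit 0) (nat_lit 11122814482) (nat_lit 1140) (nat_lit 1034467705) (nat_lit 76) (nat_lit 2554067751) (nat_lit 445) (nat_lit 5) (nat_lit 460) (nat_lit 5) (nat_lit 446) (nat_lit 5) (nat_lit 598) (nat_lit 569) (nat_lit 393)) (XT.lf (nat_lit 0) (nat_lit 7153782809) (nat_lit 912) (nat_lit 5799346427) (nat_lit 988) (nat_lit 1912670837) (nat_lit 433) (nat_lit 5) (nat_lit 445) (nat_lit 5) (nat_lit 446) (nat_lit 5) (nat_lit 599) (nat_lit 569) (nat_lit 392))) (XT.nd (nat_lit 78) (nat_lit 912) (nat_lit 0) (XT.lf (nat_lit 0) (nat_lit 490183927) (nat_lit 912) (nat_lit 14335650602) (nat_lit 988) (nat_lit 197389510) (nat_lit 421) (nat_lit 5) (nat_lit 433) (nat_lit 5) (nat_lit 434) (nat_lit 5) (nat_lit 600) (nat_lit 569) (nat_lit 391)) (XT.nd (nat_lit 78) (nat_lit 836) (nat_lit 0) (XT.lf (nat_lit 0) (nat_lit 1613563400) (nat_lit 988) (nat_lit 6279049927) (nat_lit 76) (nat_lit 7289347626) (nat_lit 420) (nat_lit 5) (nat_lit 433) (nat_lit 5) (nat_lit 421)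 (nat_lit 5) (nat_lit 601) (nat_lit 569) (nat_lit 390)) (XT.lf (nat_lit 0) (nat_lit 2158761516) (nat_lit 836) (nat_lit 1304744111) (nat_lit 912) (nat_lit 11880233101) (nat_lit 409) (nat_lit 5) (nat_lit 420) (nat_lit 5) (nat_lit 421) (nat_lit 5) (nat_lit 602) (nat_lit 569) (nat_lit 389))))))))
noncomputable def xc161 : XT := (XT.nd (nat_lit 2106) (nat_lit 6460) (nat_lit 0) (XT.nd (nat_lit 1326) (nat_lit 3876) (nat_lit 0) (XT.nd (nat_lit 936) (nat_lit 2204) (nat_lit 0) (XT.nd (nat_lit 702) (nat_lit 3952) (nat_lit 0) (XT.nd (nat_lit 78) (nat_lit 836) (nat_lit 0) (XT.lf (nat_lit 0) (nat_lit 5419530454) (nat_lit 912) (nat_lit 4701283634) (nat_lit 76) (nat_lit 5386556769) (nat_lit 409) (nat_lit 5) (nat_lit 421) (nat_lit 5) (nat_lit 410) (nat_lit 5) (nat_lit 603) (nat_lit 569) (nat_lit 388)) (XT.lf (nat_lit 0) (nat_lit 3987522951) (nat_lit 836) (nat_lit 3453361562) (nat_lit 912) (nat_lit 8232867407) (nat_lit 398) (nat_lit 5) (nat_lit 409) (nat_lit 5) (nat_lit 410) (nat_lit 5) (nat_lit 604) (nat_lit 569) (nat_lit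 387))) (XT.nd (nat_lit 78) (nat_lit 684) (nat_lit 0) (XT.lf (nat_lit 0) (nat_lit 9643815618) (nat_lit 836) (nat_lit 4042295898) (nat_lit 76) (nat_lit 3408379334) (nat_lit 355) (nat_lit 5) (nat_lit 366) (nat_lit 5) (nat_lit 356) (nat_lit 5) (nat_lit 612) (nat_lit 569) (nat_lit 379)) (XT.nd (nat_lit 78) (nat_lit 0) (nat_lit 0) (XT.lf (nat_lit 0) (nat_lit 5756966595) (nat_lit 684) (nat_lit 6538630544) (nat_lit 760) (nat_lit 4988170824) (nat_lit 346) (nat_lit 5) (nat_lit 355) (nat_lit 5) (nat_lit 356) (nat_lit 5) (nat_lit 613) (nat_lit 569) (nat_lit 378)) (XT.lf (nat_lit 0) (nat_lit 15025427234) (nat_lit 760) (nat_lit 1682448507) (nat_lit 76) (nat_lit 768454991) (nat_lit 346) (nat_lit 5) (nat_lit 356) (nat_lit 5) (nat_lit 347) (nat_lit 5) (nat_lit 614) (nat_lit 569) (nat_lit 377))))) (XT.nd (nat_lit 156) (nat_lit 684) (nat_lit 0) (XT.nd (nat_lit 78) (nat_lit 684) (nat_lit 0) (XT.lf (nat_lit 0) (nat_lit 226836646) (nat_lit 836) (nat_lit 9254476257) (nat_lit 76) (nat_lit 8189583896) (nat_lit 335) (nat_lit 5)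 (nat_lit 346) (nat_lit 5) (nat_lit 336) (nat_lit 5) (nat_lit 615) (nat_lit 569) (nat_lit 376)) (XT.lf (nat_lit 0) (nat_lit 857899910) (nat_lit 684) (nat_lit 2077386823) (nat_lit 760) (nat_lit 14933544343) (nat_lit 326) (nat_lit 5) (nat_lit 335) (nat_lit 5) (nat_lit 336) (nat_lit 5) (nat_lit 616) (nat_lit 569) (nat_lit 375))) (XT.nd (nat_lit 78) (nat_lit 684) (nat_lit 0) (XT.lf (nat_lit 0) (nat_lit 5789050361) (nat_lit 760) (nat_lit 6815537188) (nat_lit 76) (nat_lit 5464313943) (nat_lit 326) (nat_lit 5) (nat_lit 336) (nat_lit 5) (nat_lit 327) (nat_lit 5) (nat_lit 617) (nat_lit 569) (nat_lit 374)) (XT.nd (nat_lit 78) (nat_lit 0) (nat_lit 0) (XT.lf (nat_lit 0) (nat_lit 3609434208) (nat_lit 684) (nat_lit 5120869000) (nat_lit 760) (nat_lit 9542062169) (nat_lit 317) (nat_lit 5) (nat_lit 326) (nat_lit 5) (nat_lit 327) (nat_lit 5) (nat_lit 618) (nat_lit 569) (nat_lit 373)) (XT.lf (nat_lit 0) (nat_lit 11786028723) (nat_lit 760) (nat_lit 4168294223) (nat_lit 76) (nat_lit 2524462973) (nat_lit 317) (nat_lit 5) (nat_lit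 327) (nat_lit 5) (nat_lit 318) (nat_lit 5) (nat_lit 619) (nat_lit 569) (nat_lit 372)))))) (XT.nd (nat_lit 390) (nat_lit 1900) (nat_lit 0) (XT.nd (nat_lit 156) (nat_lit 1368) (nat_lit 0) (XT.nd (nat_lit 78) (nat_lit 0) (nat_lit 0) (XT.lf (nat_lit 0) (nat_lit 6580801427) (nat_lit 608) (nat_lit 8392134650) (nat_lit 684) (nat_lit 3714997773) (nat_lit 309) (nat_lit 5) (nat_lit 317) (nat_lit 5) (nat_lit 318) (nat_lit 5) (nat_lit 620) (nat_lit 569) (nat_lit 371)) (XT.lf (nat_lit 0) (nat_lit 17593603437) (nat_lit 608) (nat_lit 651455330) (nat_lit 684) (nat_lit 655776748) (nat_lit 309) (nat_lit 5) (nat_lit 317) (nat_lit 5) (nat_lit 318) (nat_lit 5) (nat_lit 621) (nat_lit 569) (nat_lit 370))) (XT.nd (nat_lit 78) (nat_lit 608) (nat_lit 0) (XT.lf (nat_lit 0) (nat_lit 2537164635) (nat_lit 760) (nat_lit 9350420574) (nat_lit 76) (nat_lit 7227993071) (nat_lit 299) (nat_lit 5) (nat_lit 309) (nat_lit 5) (nat_lit 300) (nat_lit 5) (nat_lit 622) (nat_lit 569) (nat_lit 369)) (XT.nd (nat_lit 78) (nat_lit 0) (nat_lit 0) (XT.lf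 (nat_lit 0) (nat_lit 1748715683) (nat_lit 608) (nat_lit 4054632856) (nat_lit 684) (nat_lit 13530817678) (nat_lit 291) (nat_lit 5) (nat_lit 299) (nat_lit 5) (nat_lit 300) (nat_lit 5) (nat_lit 623) (nat_lit 569) (nat_lit 368)) (XT.lf (nat_lit 0) (nat_lit 9217289033) (nat_lit 684) (nat_lit 6393096425) (nat_lit 76) (nat_lit 3945092092) (nat_lit 291) (nat_lit 5) (nat_lit 300) (nat_lit 5) (nat_lit 292) (nat_lit 5) (nat_lit 624) (nat_lit 569) (nat_lit 367))))) (XT.nd (nat_lit 156) (nat_lit 1292) (nat_lit 0) (XT.nd (nat_lit 78) (nat_lit 0) (nat_lit 0) (XT.lf (nat_lit 0) (nat_lit 5054858581) (nat_lit 608) (nat_lit 7698166847) (nat_lit 684) (nat_lit 7027119629) (nat_lit 283) (nat_lit 5) (nat_lit 291) (nat_lit 5) (nat_lit 292) (nat_lit 5) (nat_lit 625) (nat_lit 569) (nat_lit 366)) (XT.lf (nat_lit 0) (nat_lit 16398985594) (nat_lit 684) (nat_lit 3200467353) (nat_lit 76) (nat_lit 409063067) (nat_lit 283) (nat_lit 5) (nat_lit 292) (nat_lit 5) (nat_lit 284) (nat_lit 5) (nat_lit 626) (nat_lit 569) (nat_lit 365))) (XT.nd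 (nat_lit 78) (nat_lit 684) (nat_lit 0) (XT.lf (nat_lit 0) (nat_lit 8609178876) (nat_lit 608) (nat_lit 11609589997) (nat_lit 684) (nat_lit 20667719) (nat_lit 275) (nat_lit 5) (nat_lit 283) (nat_lit 5) (nat_lit 284) (nat_lit 5) (nat_lit 627) (nat_lit 569) (nat_lit 364)) (XT.nd (nat_lit 78) (nat_lit 0) (nat_lit 0) (XT.lf (nat_lit 0) (nat_lit 195009148) (nat_lit 608) (nat_lit 3414164290) (nat_lit 684) (nat_lit 16864990946) (nat_lit 266) (nat_lit 5) (nat_lit 274) (nat_lit 5) (nat_lit 275) (nat_lit 5) (nat_lit 628) (nat_lit 569) (nat_lit 363)) (XT.lf (nat_lit 0) (nat_lit 7416115509) (nat_lit 684) (nat_lit 8338039164) (nat_lit 76) (nat_lit 4957333971) (nat_lit 266) (nat_lit 5) (nat_lit 275) (nat_lit 5) (nat_lit 267) (nat_lit 5) (nat_lit 629) (nat_lit 569) (nat_lit 362))))))) (XT.nd (nat_lit 780) (nat_lit 3192) (nat_lit 0) (XT.nd (nat_lit 390) (nat_lit 1596) (nat_lit 0) (XT.nd (nat_lit 156) (nat_lit 1140) (nat_lit 0) (XT.nd (nat_lit 78) (nat_lit 0) (nat_lit 0) (XT.lf (nat_lit 0) (nat_lit 3862410927) (nat_lit 532)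 (nat_lit 7478699895) (nat_lit 608) (nat_lit 9611610536) (nat_lit 259) (nat_lit 5) (nat_lit 266) (nat_lit 5) (nat_lit 267) (nat_lit 5) (nat_lit 630) (nat_lit 569) (nat_lit 361)) (XT.lf (nat_lit 0) (nat_lit 15401456663) (nat_lit 608) (nat_lit 4791971025) (nat_lit 76) (nat_lit 1004214278) (nat_lit 259) (nat_lit 5) (nat_lit 267) (nat_lit 5) (nat_lit 260) (nat_lit 5) (nat_lit 631) (nat_lit 569) (nat_lit 360))) (XT.nd (nat_lit 78) (nat_lit 608) (nat_lit 0) (XT.lf (nat_lit 0) (nat_lit 7797636044) (nat_lit 532) (nat_lit 11839920559) (nat_lit 608) (nat_lit 1808013685) (nat_lit 252) (nat_lit 5) (nat_lit 259) (nat_lit 5) (nat_lit 260) (nat_lit 5) (nat_lit 632) (nat_lit 569) (nat_lit 359)) (XT.nd (nat_lit 78) (nat_lit 532) (nat_lit 0) (XT.lf (nat_lit 0) (nat_lit 2257068656) (nat_lit 608) (nat_lit 1016172432) (nat_lit 76) (nat_lit 18424387138) (nat_lit 251) (nat_lit 5) (nat_lit 259) (nat_lit 5) (nat_lit 252) (nat_lit 5) (nat_lit 633) (nat_lit 569) (nat_lit 358)) (XT.lf (nat_lit 0) (nat_lit 6487810406) (nat_lit 608)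 (nat_lit 9982703721) (nat_lit 76) (nat_lit 5481803065) (nat_lit 244) (nat_lit 5) (nat_lit 252) (nat_lit 5) (nat_lit 245) (nat_lit 5) (nat_lit 634) (nat_lit 569) (nat_lit 357))))) (XT.nd (nat_lit 156) (nat_lit 1064) (nat_lit 0) (XT.nd (nat_lit 78) (nat_lit 0) (nat_lit 0) (XT.lf (nat_lit 0) (nat_lit 3027544408) (nat_lit 532) (nat_lit 7818395218) (nat_lit 608) (nat_lit 11365305088) (nat_lit 237) (nat_lit 5) (nat_lit 244) (nat_lit 5) (nat_lit 245) (nat_lit 5) (nat_lit 635) (nat_lit 569) (nat_lit 356)) (XT.lf (nat_lit 0) (nat_lit 15359821567) (nat_lit 608) (nat_lit 6055088130) (nat_lit 76) (nat_lit 1059069510) (nat_lit 237) (nat_lit 5) (nat_lit 245) (nat_lit 5) (nat_lit 238) (nat_lit 5) (nat_lit 636) (nat_lit 569) (nat_lit 355))) (XT.nd (nat_lit 78) (nat_lit 608) (nat_lit 0) (XT.lf (nat_lit 0) (nat_lit 7373759794) (nat_lit 456) (nat_lit 12684600328) (nat_lit 532) (nat_lit 2681720907) (nat_lit 231) (nat_lit 5) (nat_lit 237) (nat_lit 5) (nat_lit 238) (nat_lit 5) (nat_lit 637) (nat_lit 569) (nat_lit 354)) (XT.nd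 (nat_lit 78) (nat_lit 532) (nat_lit 0) (XT.lf (nat_lit 0) (nat_lit 1850890839) (nat_lit 532) (nat_lit 1876930134) (nat_lit 76) (nat_lit 19282732280) (nat_lit 230) (nat_lit 5) (nat_lit 237) (nat_lit 5) (nat_lit 231) (nat_lit 5) (nat_lit 638) (nat_lit 569) (nat_lit 353)) (XT.lf (nat_lit 0) (nat_lit 6546874108) (nat_lit 608) (nat_lit 11305436540) (nat_lit 76) (nat_lit 5431597407) (nat_lit 223) (nat_lit 5) (nat_lit 231) (nat_lit 5) (nat_lit 224) (nat_lit 5) (nat_lit 639) (nat_lit 569) (nat_lit 352)))))) (XT.nd (nat_lit 390) (nat_lit 1748) (nat_lit 0) (XT.nd (nat_lit 156) (nat_lit 988) (nat_lit 0) (XT.nd (nat_lit 78) (nat_lit 0) (nat_lit 0) (XT.lf (nat_lit 0) (nat_lit 2575767572) (nat_lit 456) (nat_lit 8809992004) (nat_lit 532) (nat_lit 12175990927) (nat_lit 217) (nat_lit 5) (nat_lit 223) (nat_lit 5) (nat_lit 224) (nat_lit 5) (nat_lit 640) (nat_lit 569) (nat_lit 351)) (XT.lf (nat_lit 0) (nat_lit 16395406202) (nat_lit 532) (nat_lit 6966202537) (nat_lit 76) (nat_lit 482061591) (nat_lit 217) (nat_lit 5) (nat_lit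 224) (nat_lit 5) (nat_lit 218) (nat_lit 5) (nat_lit 641) (nat_lit 569) (nat_lit 350))) (XT.nd (nat_lit 78) (nat_lit 532) (nat_lit 0) (XT.lf (nat_lit 0) (nat_lit 7365137023) (nat_lit 456) (nat_lit 14241304768) (nat_lit 532) (nat_lit 2522763036) (nat_lit 211) (nat_lit 5) (nat_lit 217) (nat_lit 5) (nat_lit 218) (nat_lit 5) (nat_lit 642) (nat_lit 569) (nat_lit 349)) (XT.nd (nat_lit 78) (nat_lit 456) (nat_lit 0) (XT.lf (nat_lit 0) (nat_lit 2510551534) (nat_lit 532) (nat_lit 2365638884) (nat_lit 76) (nat_lit 19543092832) (nat_lit 210) (nat_lit 5) (nat_lit 217) (nat_lit 5) (nat_lit 211) (nat_lit 5) (nat_lit 643) (nat_lit 569) (nat_lit 348)) (XT.lf (nat_lit 0) (nat_lit 7717828230) (nat_lit 532) (nat_lit 12283795974) (nat_lit 76) (nat_lit 4711064200) (nat_lit 204) (nat_lit 5) (nat_lit 211) (nat_lit 5) (nat_lit 205) (nat_lit 5) (nat_lit 644) (nat_lit 569) (nat_lit 347))))) (XT.nd (nat_lit 234) (nat_lit 912) (nat_lit 0) (XT.nd (nat_lit 78) (nat_lit 380) (nat_lit 0) (XT.lf (nat_lit 0) (nat_lit 2533563610) (nat_lit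 456) (nat_lit 10555593657) (nat_lit 532) (nat_lit 11921606436) (nat_lit 198) (nat_lit 5) (nat_lit 204) (nat_lit 5) (nat_lit 205) (nat_lit 5) (nat_lit 645) (nat_lit 569) (nat_lit 346)) (XT.nd (nat_lit 78) (nat_lit 380) (nat_lit 0) (XT.lf (nat_lit 0) (nat_lit 17806822741) (nat_lit 456) (nat_lit 838754892) (nat_lit 532) (nat_lit 6667669757) (nat_lit 198) (nat_lit 5) (nat_lit 204) (nat_lit 5) (nat_lit 205) (nat_lit 5) (nat_lit 646) (nat_lit 569) (nat_lit 345)) (XT.lf (nat_lit 0) (nat_lit 7800263002) (nat_lit 380) (nat_lit 16617725568) (nat_lit 456) (nat_lit 1201695110) (nat_lit 193) (nat_lit 5) (nat_lit 198) (nat_lit 5) (nat_lit 199) (nat_lit 5) (nat_lit 647) (nat_lit 569) (nat_lit 344)))) (XT.nd (nat_lit 78) (nat_lit 836) (nat_lit 0) (XT.lf (nat_lit 0) (nat_lit 4367828811) (nat_lit 456) (nat_lit 2457607656) (nat_lit 76) (nat_lit 19105212662) (nat_lit 192) (nat_lit 5) (nat_lit 198) (nat_lit 5) (nat_lit 193) (nat_lit 5) (nat_lit 648) (nat_lit 569) (nat_lit 343)) (XT.nd (nat_lit 78) (nat_lit 380) (nat_lit 0)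 (XT.lf (nat_lit 0) (nat_lit 10136057229) (nat_lit 532) (nat_lit 12895099317) (nat_lit 76) (nat_lit 3214450546) (nat_lit 186) (nat_lit 5) (nat_lit 193) (nat_lit 5) (nat_lit 187) (nat_lit 5) (nat_lit 649) (nat_lit 569) (nat_lit 342)) (XT.lf (nat_lit 0) (nat_lit 2927838975) (nat_lit 380) (nat_lit 13168076620) (nat_lit 456) (nat_lit 10469423472) (nat_lit 181) (nat_lit 5) (nat_lit 186) (nat_lit 5) (nat_lit 187) (nat_lit 5) (nat_lit 650) (nat_lit 569) (nat_lit 341))))))))
noncomputable def xc162 : XT := (XT.nd (nat_lit 75738) (nat_lit 0) (nat_lit 21204) (XT.nd (nat_lit 74958) (nat_lit 0) (nat_lit 26296) (XT.nd (nat_lit 390) (nat_lit 836) (nat_lit 0) (XT.nd (nat_lit 156) (nat_lit 760) (nat_lit 0) (XT.nd (nat_lit 78) (nat_lit 456) (nat_lit 0) (XT.lf (nat_lit 0) (nat_lit 19235263293) (nat_lit 380) (nat_lit 3021739220) (nat_lit 456) (nat_lit 4632822695) (nat_lit 181) (nat_lit 5) (nat_lit 186) (nat_lit 5) (nat_lit 187) (nat_lit 5) (nat_lit 651) (nat_lit 569) (nat_lit 340)) (XT.lf (nat_lit 0) (nat_lit 1403536676) (nat_lit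 456) (nat_lit 18520085496) (nat_lit 76) (nat_lit 7295000673) (nat_lit 175) (nat_lit 5) (nat_lit 181) (nat_lit 5) (nat_lit 176) (nat_lit 5) (nat_lit 652) (nat_lit 569) (nat_lit 339))) (XT.nd (nat_lit 78) (nat_lit 760) (nat_lit 0) (XT.lf (nat_lit 0) (nat_lit 7565952222) (nat_lit 456) (nat_lit 2128268655) (nat_lit 76) (nat_lit 17857815995) (nat_lit 175) (nat_lit 5) (nat_lit 181) (nat_lit 5) (nat_lit 176) (nat_lit 5) (nat_lit 653) (nat_lit 569) (nat_lit 338)) (XT.nd (nat_lit 78) (nat_lit 380) (nat_lit 0) (XT.lf (nat_lit 0) (nat_lit 13948665655) (nat_lit 456) (nat_lit 13117095134) (nat_lit 76) (nat_lit 824417545) (nat_lit 170) (nat_lit 5) (nat_lit 176) (nat_lit 5) (nat_lit 171) (nat_lit 5) (nat_lit 654) (nat_lit 569) (nat_lit 337)) (XT.lf (nat_lit 0) (nat_lit 3785242776) (nat_lit 380) (nat_lit 16772644217) (nat_lit 456) (nat_lit 7675218701) (nat_lit 165) (nat_lit 5) (nat_lit 170) (nat_lit 5) (nat_lit 171) (nat_lit 5) (nat_lit 655) (nat_lit 569) (nat_lit 336))))) (XT.nd (nat_lit 156) (nat_lit 380) (nat_lit 0)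 (XT.nd (nat_lit 78) (nat_lit 456) (nat_lit 0) (XT.lf (nat_lit 0) (nat_lit 21196855690) (nat_lit 380) (nat_lit 6186202079) (nat_lit 456) (nat_lit 1198158670) (nat_lit 165) (nat_lit 5) (nat_lit 170) (nat_lit 5) (nat_lit 171) (nat_lit 5) (nat_lit 656) (nat_lit 569) (nat_lit 335)) (XT.lf (nat_lit 0) (nat_lit 5429554245) (nat_lit 456) (nat_lit 18853549879) (nat_lit 76) (nat_lit 4650642217) (nat_lit 159) (nat_lit 5) (nat_lit 165) (nat_lit 5) (nat_lit 160) (nat_lit 5) (nat_lit 657) (nat_lit 569) (nat_lit 334))) (XT.nd (nat_lit 78) (nat_lit 380) (nat_lit 0) (XT.lf (nat_lit 0) (nat_lit 12260466016) (nat_lit 456) (nat_lit 1353955297) (nat_lit 76) (nat_lit 15677013504) (nat_lit 159) (nat_lit 5) (nat_lit 165) (nat_lit 5) (nat_lit 160) (nat_lit 5) (nat_lit 658) (nat_lit 569) (nat_lit 333)) (XT.nd (nat_lit 74256) (nat_lit 0) (nat_lit 27740) (XT.lf (nat_lit 0) (nat_lit 16708362323) (nat_lit 380) (nat_lit 2624020967) (nat_lit 456) (nat_lit 10321806155) (nat_lit 154) (nat_lit 5) (nat_lit 159) (nat_lit 5) (nat_lit 160) (nat_lit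 5) (nat_lit 659) (nat_lit 569) (nat_lit 332)) (XT.lf (nat_lit 0) (nat_lit 2974390492) (nat_lit 1748) (nat_lit 1337831887) (nat_lit 1748) (nat_lit 1337831887) (nat_lit 519) (nat_lit 3) (nat_lit 542) (nat_lit 3) (nat_lit 542) (nat_lit 5) (nat_lit 570) (nat_lit 570) (nat_lit 420)))))) (XT.nd (nat_lit 390) (nat_lit 1444) (nat_lit 0) (XT.nd (nat_lit 156) (nat_lit 0) (nat_lit 76) (XT.nd (nat_lit 78) (nat_lit 0) (nat_lit 76) (XT.lf (nat_lit 76) (nat_lit 2969641383) (nat_lit 0) (nat_lit 3597670304) (nat_lit 1748) (nat_lit 4834582331) (nat_lit 520) (nat_lit 5) (nat_lit 519) (nat_lit 3) (nat_lit 542) (nat_lit 5) (nat_lit 571) (nat_lit 570) (nat_lit 419)) (XT.lf (nat_lit 0) (nat_lit 7212057526) (nat_lit 1672) (nat_lit 2758931310) (nat_lit 1748) (nat_lit 1534450397) (nat_lit 520) (nat_lit 5) (nat_lit 542) (nat_lit 5) (nat_lit 543) (nat_lit 5) (nat_lit 572) (nat_lit 570) (nat_lit 418))) (XT.nd (nat_lit 78) (nat_lit 0) (nat_lit 76) (XT.lf (nat_lit 76) (nat_lit 3036356279) (nat_lit 0) (nat_lit 4862998404) (nat_lit 1748)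 (nat_lit 3711108436) (nat_lit 521) (nat_lit 5) (nat_lit 520) (nat_lit 5) (nat_lit 543) (nat_lit 5) (nat_lit 573) (nat_lit 570) (nat_lit 417)) (XT.nd (nat_lit 78) (nat_lit 0) (nat_lit 0) (XT.lf (nat_lit 0) (nat_lit 8607669142) (nat_lit 1672) (nat_lit 2742408055) (nat_lit 1748) (nat_lit 367365732) (nat_lit 521) (nat_lit 5) (nat_lit 543) (nat_lit 5) (nat_lit 544) (nat_lit 5) (nat_lit 574) (nat_lit 570) (nat_lit 416)) (XT.lf (nat_lit 76) (nat_lit 3208185580) (nat_lit 0) (nat_lit 6161647237) (nat_lit 1748) (nat_lit 2455936721) (nat_lit 522) (nat_lit 5) (nat_lit 521) (nat_lit 5) (nat_lit 544) (nat_lit 5) (nat_lit 575) (nat_lit 570) (nat_lit 415))))) (XT.nd (nat_lit 156) (nat_lit 1596) (nat_lit 0) (XT.nd (nat_lit 78) (nat_lit 0) (nat_lit 76) (XT.lf (nat_lit 76) (nat_lit 9307405447) (nat_lit 0) (nat_lit 845098010) (nat_lit 1748) (nat_lit 1783654788) (nat_lit 522) (nat_lit 5) (nat_lit 521) (nat_lit 5) (nat_lit 544) (nat_lit 5) (nat_lit 576) (nat_lit 570) (nat_lit 414)) (XT.lf (nat_lit 76) (nat_lit 3488175586) (nat_lit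 0) (nat_lit 7502175315) (nat_lit 1748) (nat_lit 1057614184) (nat_lit 523) (nat_lit 5) (nat_lit 522) (nat_lit 5) (nat_lit 545) (nat_lit 5) (nat_lit 577) (nat_lit 570) (nat_lit 413))) (XT.nd (nat_lit 78) (nat_lit 1672) (nat_lit 0) (XT.lf (nat_lit 76) (nat_lit 9749750167) (nat_lit 0) (nat_lit 2105761324) (nat_lit 1748) (nat_lit 306286256) (nat_lit 523) (nat_lit 5) (nat_lit 522) (nat_lit 5) (nat_lit 545) (nat_lit 5) (nat_lit 578) (nat_lit 570) (nat_lit 412)) (XT.nd (nat_lit 78) (nat_lit 0) (nat_lit 0) (XT.lf (nat_lit 0) (nat_lit 489155645) (nat_lit 1748) (nat_lit 8400747253) (nat_lit 1824) (nat_lit 3387242774) (nat_lit 500) (nat_lit 5) (nat_lit 523) (nat_lit 5) (nat_lit 524) (nat_lit 5) (nat_lit 579) (nat_lit 570) (nat_lit 411)) (XT.lf (nat_lit 0) (nat_lit 1314394340) (nat_lit 1748) (nat_lit 2095146092) (nat_lit 1824) (nat_lit 8984860614) (nat_lit 500) (nat_lit 5) (nat_lit 523) (nat_lit 5) (nat_lit 524) (nat_lit 5) (nat_lit 580) (nat_lit 570) (nat_lit 410))))))) (XT.nd (nat_lit 780) (nat_lit 5168) (nat_lit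 0) (XT.nd (nat_lit 390) (nat_lit 0) (nat_lit 152) (XT.nd (nat_lit 156) (nat_lit 0) (nat_lit 76) (XT.nd (nat_lit 78) (nat_lit 0) (nat_lit 0) (XT.lf (nat_lit 0) (nat_lit 2186976855) (nat_lit 1748) (nat_lit 8141693858) (nat_lit 1824) (nat_lit 2184714779) (nat_lit 501) (nat_lit 5) (nat_lit 524) (nat_lit 5) (nat_lit 525) (nat_lit 5) (nat_lit 581) (nat_lit 570) (nat_lit 409)) (XT.lf (nat_lit 0) (nat_lit 3101942684) (nat_lit 1748) (nat_lit 1668830779) (nat_lit 1824) (nat_lit 7863478266) (nat_lit 501) (nat_lit 5) (nat_lit 524) (nat_lit 5) (nat_lit 525) (nat_lit 5) (nat_lit 582) (nat_lit 570) (nat_lit 408))) (XT.nd (nat_lit 78) (nat_lit 0) (nat_lit 0) (XT.lf (nat_lit 0) (nat_lit 4062115673) (nat_lit 1748) (nat_lit 7772041085) (nat_lit 1824) (nat_lit 922841094) (nat_lit 502) (nat_lit 5) (nat_lit 525) (nat_lit 5) (nat_lit 526) (nat_lit 5) (nat_lit 583) (nat_lit 570) (nat_lit 407)) (XT.nd (nat_lit 78) (nat_lit 0) (nat_lit 0) (XT.lf (nat_lit 0) (nat_lit 5072990414) (nat_lit 1748) (nat_lit 1127202882) (nat_lit 1824)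 (nat_lit 6681376338) (nat_lit 502) (nat_lit 5) (nat_lit 525) (nat_lit 5) (nat_lit 526) (nat_lit 5) (nat_lit 584) (nat_lit 570) (nat_lit 406)) (XT.lf (nat_lit 76) (nat_lit 5717676542) (nat_lit 0) (nat_lit 412382851) (nat_lit 1824) (nat_lit 6878054616) (nat_lit 503) (nat_lit 5) (nat_lit 502) (nat_lit 5) (nat_lit 526) (nat_lit 5) (nat_lit 585) (nat_lit 570) (nat_lit 405))))) (XT.nd (nat_lit 156) (nat_lit 0) (nat_lit 76) (XT.nd (nat_lit 78) (nat_lit 0) (nat_lit 0) (XT.lf (nat_lit 0) (nat_lit 7240578817) (nat_lit 1748) (nat_lit 466040622) (nat_lit 1824) (nat_lit 5429924327) (nat_lit 503) (nat_lit 5) (nat_lit 526) (nat_lit 5) (nat_lit 527) (nat_lit 5) (nat_lit 586) (nat_lit 570) (nat_lit 404)) (XT.lf (nat_lit 76) (nat_lit 6570409543) (nat_lit 0) (nat_lit 1837546849) (nat_lit 1824) (nat_lit 4858893436) (nat_lit 504) (nat_lit 5) (nat_lit 503) (nat_lit 5) (nat_lit 527) (nat_lit 5) (nat_lit 587) (nat_lit 570) (nat_lit 403))) (XT.nd (nat_lit 78) (nat_lit 0) (nat_lit 0) (XT.lf (nat_lit 76) (nat_lit 323436193) (nat_lit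 0) (nat_lit 9296865886) (nat_lit 1824) (nat_lit 3779028173) (nat_lit 505) (nat_lit 5) (nat_lit 504) (nat_lit 5) (nat_lit 528) (nat_lit 5) (nat_lit 588) (nat_lit 570) (nat_lit 402)) (XT.nd (nat_lit 78) (nat_lit 0) (nat_lit 76) (XT.lf (nat_lit 76) (nat_lit 7554150180) (nat_lit 0) (nat_lit 3349360518) (nat_lit 1824) (nat_lit 2630017902) (nat_lit 505) (nat_lit 5) (nat_lit 504) (nat_lit 5) (nat_lit 528) (nat_lit 5) (nat_lit 589) (nat_lit 570) (nat_lit 401)) (XT.lf (nat_lit 76) (nat_lit 1249752768) (nat_lit 0) (nat_lit 10978195830) (nat_lit 1824) (nat_lit 1442151641) (nat_lit 506) (nat_lit 5) (nat_lit 505) (nat_lit 5) (nat_lit 529) (nat_lit 5) (nat_lit 590) (nat_lit 570) (nat_lit 400)))))) (XT.nd (nat_lit 390) (nat_lit 3724) (nat_lit 0) (XT.nd (nat_lit 156) (nat_lit 0) (nat_lit 0) (XT.nd (nat_lit 78) (nat_lit 1748) (nat_lit 0) (XT.lf (nat_lit 76) (nat_lit 8674031402) (nat_lit 0) (nat_lit 4956961395) (nat_lit 1824) (nat_lit 177368777) (nat_lit 506) (nat_lit 5) (nat_lit 505) (nat_lit 5) (nat_lit 529) (nat_lit 5)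 (nat_lit 591) (nat_lit 570) (nat_lit 399)) (XT.lf (nat_lit 0) (nat_lit 1111071038) (nat_lit 1824) (nat_lit 11644468059) (nat_lit 1900) (nat_lit 1193446045) (nat_lit 482) (nat_lit 5) (nat_lit 506) (nat_lit 5) (nat_lit 507) (nat_lit 5) (nat_lit 592) (nat_lit 570) (nat_lit 398))) (XT.nd (nat_lit 78) (nat_lit 0) (nat_lit 0) (XT.lf (nat_lit 0) (nat_lit 2480660045) (nat_lit 1824) (nat_lit 4172365775) (nat_lit 1900) (nat_lit 7438217384) (nat_lit 482) (nat_lit 5) (nat_lit 506) (nat_lit 5) (nat_lit 507) (nat_lit 5) (nat_lit 593) (nat_lit 570) (nat_lit 397)) (XT.nd (nat_lit 78) (nat_lit 0) (nat_lit 76) (XT.lf (nat_lit 76) (nat_lit 3486928088) (nat_lit 0) (nat_lit 403786853) (nat_lit 1900) (nat_lit 10345370571) (nat_lit 483) (nat_lit 5) (nat_lit 482) (nat_lit 5) (nat_lit 507) (nat_lit 5) (nat_lit 594) (nat_lit 570) (nat_lit 396)) (XT.lf (nat_lit 0) (nat_lit 5386499633) (nat_lit 1824) (nat_lit 3074377320) (nat_lit 76) (nat_lit 5921797693) (nat_lit 483) (nat_lit 5) (nat_lit 507) (nat_lit 5) (nat_lit 484) (nat_lit 5)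 (nat_lit 595) (nat_lit 570) (nat_lit 395))))) (XT.nd (nat_lit 156) (nat_lit 1976) (nat_lit 0) (XT.nd (nat_lit 78) (nat_lit 0) (nat_lit 0) (XT.lf (nat_lit 0) (nat_lit 4806290529) (nat_lit 1824) (nat_lit 2130554365) (nat_lit 1900) (nat_lit 7594858318) (nat_lit 459) (nat_lit 5) (nat_lit 483) (nat_lit 5) (nat_lit 484) (nat_lit 5) (nat_lit 596) (nat_lit 570) (nat_lit 394)) (XT.lf (nat_lit 0) (nat_lit 8557956627) (nat_lit 1900) (nat_lit 1833387385) (nat_lit 76) (nat_lit 4291573678) (nat_lit 459) (nat_lit 5) (nat_lit 484) (nat_lit 5) (nat_lit 460) (nat_lit 5) (nat_lit 597) (nat_lit 570) (nat_lit 393))) (XT.nd (nat_lit 78) (nat_lit 912) (nat_lit 0) (XT.lf (nat_lit 0) (nat_lit 6276741279) (nat_lit 1064) (nat_lit 3980692650) (nat_lit 1140) (nat_lit 4578804186) (nat_lit 445) (nat_lit 5) (nat_lit 459) (nat_lit 5) (nat_lit 460) (nat_lit 5) (nat_lit 598) (nat_lit 570) (nat_lit 392)) (XT.nd (nat_lit 78) (nat_lit 912) (nat_lit 0) (XT.lf (nat_lit 0) (nat_lit 12011104995) (nat_lit 1140) (nat_lit 443223219) (nat_lit 76) (nat_lit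 2537893165) (nat_lit 445) (nat_lit 5) (nat_lit 460) (nat_lit 5) (nat_lit 446) (nat_lit 5) (nat_lit 599) (nat_lit 570) (nat_lit 391)) (XT.lf (nat_lit 0) (nat_lit 7904766424) (nat_lit 912) (nat_lit 5964150987) (nat_lit 988) (nat_lit 1281026039) (nat_lit 433) (nat_lit 5) (nat_lit 445) (nat_lit 5) (nat_lit 446) (nat_lit 5) (nat_lit 600) (nat_lit 570) (nat_lit 390))))))))
noncomputable def xc163 : XT := (XT.nd (nat_lit 2028) (nat_lit 6460) (nat_lit 0) (XT.nd (nat_lit 1248) (nat_lit 3952) (nat_lit 0) (XT.nd (nat_lit 858) (nat_lit 2280) (nat_lit 0) (XT.nd (nat_lit 156) (nat_lit 4180) (nat_lit 0) (XT.nd (nat_lit 78) (nat_lit 0) (nat_lit 0) (XT.lf (nat_lit 0) (nat_lit 453174391) (nat_lit 988) (nat_lit 14196384645) (nat_lit 76) (nat_lit 661081573) (nat_lit 420) (nat_lit 5) (nat_lit 433) (nat_lit 5) (nat_lit 421) (nat_lit 5) (nat_lit 601) (nat_lit 570) (nat_lit 389)) (XT.lf (nat_lit 0) (nat_lit 2284923998) (nat_lit 988) (nat_lit 5790896558) (nat_lit 76) (nat_lit 7396961915) (nat_lit 420) (nat_lit 5) (nat_lit 433)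 (nat_lit 5) (nat_lit 421) (nat_lit 5) (nat_lit 602) (nat_lit 570) (nat_lit 388))) (XT.nd (nat_lit 78) (nat_lit 3344) (nat_lit 0) (XT.lf (nat_lit 0) (nat_lit 2811633387) (nat_lit 836) (nat_lit 1351659074) (nat_lit 912) (nat_lit 11474675497) (nat_lit 409) (nat_lit 5) (nat_lit 420) (nat_lit 5) (nat_lit 421) (nat_lit 5) (nat_lit 603) (nat_lit 570) (nat_lit 387)) (XT.nd (nat_lit 546) (nat_lit 3344) (nat_lit 0) (XT.lf (nat_lit 0) (nat_lit 6145942185) (nat_lit 912) (nat_lit 4185037383) (nat_lit 76) (nat_lit 5474143765) (nat_lit 409) (nat_lit 5) (nat_lit 421) (nat_lit 5) (nat_lit 410) (nat_lit 5) (nat_lit 604) (nat_lit 570) (nat_lit 386)) (XT.lf (nat_lit 0) (nat_lit 5307908731) (nat_lit 836) (nat_lit 5732130584) (nat_lit 76) (nat_lit 6007014442) (nat_lit 365) (nat_lit 5) (nat_lit 376) (nat_lit 5) (nat_lit 366) (nat_lit 5) (nat_lit 611) (nat_lit 570) (nat_lit 379))))) (XT.nd (nat_lit 156) (nat_lit 1520) (nat_lit 0) (XT.nd (nat_lit 78) (nat_lit 0) (nat_lit 0) (XT.lf (nat_lit 0) (nat_lit 3962935300) (nat_lit 760)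 (nat_lit 3826843314) (nat_lit 836) (nat_lit 9445199073) (nat_lit 355) (nat_lit 5) (nat_lit 365) (nat_lit 5) (nat_lit 366) (nat_lit 5) (nat_lit 612) (nat_lit 570) (nat_lit 378)) (XT.lf (nat_lit 0) (nat_lit 10375812482) (nat_lit 836) (nat_lit 3527330822) (nat_lit 76) (nat_lit 3522426634) (nat_lit 355) (nat_lit 5) (nat_lit 366) (nat_lit 5) (nat_lit 356) (nat_lit 5) (nat_lit 613) (nat_lit 570) (nat_lit 377))) (XT.nd (nat_lit 78) (nat_lit 836) (nat_lit 0) (XT.lf (nat_lit 0) (nat_lit 6463997111) (nat_lit 684) (nat_lit 6609904481) (nat_lit 760) (nat_lit 4544866117) (nat_lit 346) (nat_lit 5) (nat_lit 355) (nat_lit 5) (nat_lit 356) (nat_lit 5) (nat_lit 614) (nat_lit 570) (nat_lit 376)) (XT.nd (nat_lit 78) (nat_lit 836) (nat_lit 0) (XT.lf (nat_lit 0) (nat_lit 15848267950) (nat_lit 760) (nat_lit 1125724446) (nat_lit 76) (nat_lit 841391089) (nat_lit 346) (nat_lit 5) (nat_lit 356) (nat_lit 5) (nat_lit 347) (nat_lit 5) (nat_lit 615) (nat_lit 570) (nat_lit 375)) (XT.lf (nat_lit 0) (nat_lit 750714498) (nat_lit 836) (nat_lit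 8846148852) (nat_lit 76) (nat_lit 8417038401) (nat_lit 335) (nat_lit 5) (nat_lit 346) (nat_lit 5) (nat_lit 336) (nat_lit 5) (nat_lit 616) (nat_lit 570) (nat_lit 374)))))) (XT.nd (nat_lit 390) (nat_lit 1976) (nat_lit 0) (XT.nd (nat_lit 156) (nat_lit 1292) (nat_lit 0) (XT.nd (nat_lit 78) (nat_lit 0) (nat_lit 0) (XT.lf (nat_lit 0) (nat_lit 1464570780) (nat_lit 684) (nat_lit 2042407156) (nat_lit 760) (nat_lit 14708944403) (nat_lit 326) (nat_lit 5) (nat_lit 335) (nat_lit 5) (nat_lit 336) (nat_lit 5) (nat_lit 617) (nat_lit 570) (nat_lit 373)) (XT.lf (nat_lit 0) (nat_lit 6408245423) (nat_lit 760) (nat_lit 6364297576) (nat_lit 76) (nat_lit 5647643096) (nat_lit 326) (nat_lit 5) (nat_lit 336) (nat_lit 5) (nat_lit 327) (nat_lit 5) (nat_lit 618) (nat_lit 570) (nat_lit 372))) (XT.nd (nat_lit 78) (nat_lit 608) (nat_lit 0) (XT.lf (nat_lit 0) (nat_lit 4265307785) (nat_lit 684) (nat_lit 5136934347) (nat_lit 760) (nat_lit 9225599242) (nat_lit 317) (nat_lit 5) (nat_lit 326) (nat_lit 5) (nat_lit 327) (nat_lit 5) (nat_lit 619)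 (nat_lit 570) (nat_lit 371)) (XT.nd (nat_lit 78) (nat_lit 608) (nat_lit 0) (XT.lf (nat_lit 0) (nat_lit 12509880194) (nat_lit 760) (nat_lit 3670193884) (nat_lit 76) (nat_lit 2658500772) (nat_lit 317) (nat_lit 5) (nat_lit 327) (nat_lit 5) (nat_lit 318) (nat_lit 5) (nat_lit 620) (nat_lit 570) (nat_lit 370)) (XT.lf (nat_lit 0) (nat_lit 7290058243) (nat_lit 608) (nat_lit 8464646686) (nat_lit 684) (nat_lit 3297317701) (nat_lit 309) (nat_lit 5) (nat_lit 317) (nat_lit 5) (nat_lit 318) (nat_lit 5) (nat_lit 621) (nat_lit 570) (nat_lit 369))))) (XT.nd (nat_lit 156) (nat_lit 1216) (nat_lit 0) (XT.nd (nat_lit 78) (nat_lit 760) (nat_lit 0) (XT.lf (nat_lit 0) (nat_lit 18511790003) (nat_lit 608) (nat_lit 571023008) (nat_lit 684) (nat_lit 186558923) (nat_lit 309) (nat_lit 5) (nat_lit 317) (nat_lit 5) (nat_lit 318) (nat_lit 5) (nat_lit 622) (nat_lit 570) (nat_lit 368)) (XT.lf (nat_lit 0) (nat_lit 3058915276) (nat_lit 760) (nat_lit 8959743373) (nat_lit 76) (nat_lit 7469788721) (nat_lit 299) (nat_lit 5) (nat_lit 309) (nat_lit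 5) (nat_lit 300) (nat_lit 5) (nat_lit 623) (nat_lit 570) (nat_lit 367))) (XT.nd (nat_lit 78) (nat_lit 608) (nat_lit 0) (XT.lf (nat_lit 0) (nat_lit 2357575046) (nat_lit 608) (nat_lit 4027338417) (nat_lit 684) (nat_lit 13326604229) (nat_lit 291) (nat_lit 5) (nat_lit 299) (nat_lit 5) (nat_lit 300) (nat_lit 5) (nat_lit 624) (nat_lit 570) (nat_lit 366)) (XT.nd (nat_lit 78) (nat_lit 608) (nat_lit 0) (XT.lf (nat_lit 0) (nat_lit 9858695279) (nat_lit 684) (nat_lit 5949867003) (nat_lit 76) (nat_lit 4128862149) (nat_lit 291) (nat_lit 5) (nat_lit 300) (nat_lit 5) (nat_lit 292) (nat_lit 5) (nat_lit 625) (nat_lit 570) (nat_lit 365)) (XT.lf (nat_lit 0) (nat_lit 5723289924) (nat_lit 608) (nat_lit 7736578017) (nat_lit 684) (nat_lit 6706823336) (nat_lit 283) (nat_lit 5) (nat_lit 291) (nat_lit 5) (nat_lit 292) (nat_lit 5) (nat_lit 626) (nat_lit 570) (nat_lit 364))))))) (XT.nd (nat_lit 780) (nat_lit 2964) (nat_lit 0) (XT.nd (nat_lit 390) (nat_lit 1672) (nat_lit 0) (XT.nd (nat_lit 156) (nat_lit 1140) (nat_lit 0) (XT.nd (nat_lit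 78) (nat_lit 684) (nat_lit 0) (XT.lf (nat_lit 0) (nat_lit 17170624371) (nat_lit 684) (nat_lit 2700123160) (nat_lit 76) (nat_lit 529044995) (nat_lit 283) (nat_lit 5) (nat_lit 292) (nat_lit 5) (nat_lit 284) (nat_lit 5) (nat_lit 627) (nat_lit 570) (nat_lit 363)) (XT.lf (nat_lit 0) (nat_lit 420719919) (nat_lit 684) (nat_lit 11296197856) (nat_lit 76) (nat_lit 8918459969) (nat_lit 274) (nat_lit 5) (nat_lit 283) (nat_lit 5) (nat_lit 275) (nat_lit 5) (nat_lit 628) (nat_lit 570) (nat_lit 362))) (XT.nd (nat_lit 78) (nat_lit 532) (nat_lit 0) (XT.lf (nat_lit 0) (nat_lit 761710314) (nat_lit 608) (nat_lit 3356167838) (nat_lit 684) (nat_lit 16757019656) (nat_lit 266) (nat_lit 5) (nat_lit 274) (nat_lit 5) (nat_lit 275) (nat_lit 5) (nat_lit 629) (nat_lit 570) (nat_lit 361)) (XT.nd (nat_lit 78) (nat_lit 532) (nat_lit 0) (XT.lf (nat_lit 0) (nat_lit 7993203640) (nat_lit 684) (nat_lit 7945259795) (nat_lit 76) (nat_lit 5178660608) (nat_lit 266) (nat_lit 5) (nat_lit 275) (nat_lit 5) (nat_lit 267) (nat_lit 5) (nat_lit 630) (nat_lit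 570) (nat_lit 360)) (XT.lf (nat_lit 0) (nat_lit 4495518113) (nat_lit 532) (nat_lit 7496382579) (nat_lit 608) (nat_lit 9371377057) (nat_lit 259) (nat_lit 5) (nat_lit 266) (nat_lit 5) (nat_lit 267) (nat_lit 5) (nat_lit 631) (nat_lit 570) (nat_lit 359))))) (XT.nd (nat_lit 156) (nat_lit 1140) (nat_lit 0) (XT.nd (nat_lit 78) (nat_lit 532) (nat_lit 0) (XT.lf (nat_lit 0) (nat_lit 16125979893) (nat_lit 608) (nat_lit 4335358801) (nat_lit 76) (nat_lit 1151907912) (nat_lit 259) (nat_lit 5) (nat_lit 267) (nat_lit 5) (nat_lit 260) (nat_lit 5) (nat_lit 632) (nat_lit 570) (nat_lit 358)) (XT.lf (nat_lit 0) (nat_lit 8502405859) (nat_lit 532) (nat_lit 11939792707) (nat_lit 608) (nat_lit 1424027354) (nat_lit 252) (nat_lit 5) (nat_lit 259) (nat_lit 5) (nat_lit 260) (nat_lit 5) (nat_lit 633) (nat_lit 570) (nat_lit 357))) (XT.nd (nat_lit 78) (nat_lit 1064) (nat_lit 0) (XT.lf (nat_lit 0) (nat_lit 2708716213) (nat_lit 608) (nat_lit 493020392) (nat_lit 76) (nat_lit 18921696801) (nat_lit 251) (nat_lit 5) (nat_lit 259) (nat_lit 5)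 (nat_lit 252) (nat_lit 5) (nat_lit 634) (nat_lit 570) (nat_lit 356)) (XT.nd (nat_lit 78) (nat_lit 532) (nat_lit 0) (XT.lf (nat_lit 0) (nat_lit 7020502550) (nat_lit 608) (nat_lit 9635295137) (nat_lit 76) (nat_lit 5727490209) (nat_lit 244) (nat_lit 5) (nat_lit 252) (nat_lit 5) (nat_lit 245) (nat_lit 5) (nat_lit 635) (nat_lit 570) (nat_lit 355)) (XT.lf (nat_lit 0) (nat_lit 3631558859) (nat_lit 532) (nat_lit 7829863317) (nat_lit 608) (nat_lit 11186059567) (nat_lit 237) (nat_lit 5) (nat_lit 244) (nat_lit 5) (nat_lit 245) (nat_lit 5) (nat_lit 636) (nat_lit 570) (nat_lit 354)))))) (XT.nd (nat_lit 390) (nat_lit 1444) (nat_lit 0) (XT.nd (nat_lit 156) (nat_lit 1064) (nat_lit 0) (XT.nd (nat_lit 78) (nat_lit 456) (nat_lit 0) (XT.lf (nat_lit 0) (nat_lit 16058689119) (nat_lit 608) (nat_lit 5636473576) (nat_lit 76) (nat_lit 1220446409) (nat_lit 237) (nat_lit 5) (nat_lit 245) (nat_lit 5) (nat_lit 238) (nat_lit 5) (nat_lit 637) (nat_lit 570) (nat_lit 353)) (XT.lf (nat_lit 0) (nat_lit 8057400540) (nat_lit 456) (nat_lit 12789599221)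 (nat_lit 532) (nat_lit 2340117494) (nat_lit 231) (nat_lit 5) (nat_lit 237) (nat_lit 5) (nat_lit 238) (nat_lit 5) (nat_lit 638) (nat_lit 570) (nat_lit 352))) (XT.nd (nat_lit 78) (nat_lit 988) (nat_lit 0) (XT.lf (nat_lit 0) (nat_lit 2270314750) (nat_lit 532) (nat_lit 1383718934) (nat_lit 76) (nat_lit 19809067186) (nat_lit 230) (nat_lit 5) (nat_lit 237) (nat_lit 5) (nat_lit 231) (nat_lit 5) (nat_lit 639) (nat_lit 570) (nat_lit 351)) (XT.nd (nat_lit 78) (nat_lit 456) (nat_lit 0) (XT.lf (nat_lit 0) (nat_lit 7057109766) (nat_lit 608) (nat_lit 10997672523) (nat_lit 76) (nat_lit 5687202937) (nat_lit 223) (nat_lit 5) (nat_lit 231) (nat_lit 5) (nat_lit 224) (nat_lit 5) (nat_lit 640) (nat_lit 570) (nat_lit 350)) (XT.lf (nat_lit 0) (nat_lit 3157643350) (nat_lit 456) (nat_lit 8831135825) (nat_lit 532) (nat_lit 12036685517) (nat_lit 217) (nat_lit 5) (nat_lit 223) (nat_lit 5) (nat_lit 224) (nat_lit 5) (nat_lit 641) (nat_lit 570) (nat_lit 349))))) (XT.nd (nat_lit 234) (nat_lit 912) (nat_lit 0) (XT.nd (nat_lit 78) (nat_lit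 532) (nat_lit 0) (XT.lf (nat_lit 0) (nat_lit 17092246811) (nat_lit 532) (nat_lit 6579179018) (nat_lit 76) (nat_lit 641724814) (nat_lit 217) (nat_lit 5) (nat_lit 224) (nat_lit 5) (nat_lit 218) (nat_lit 5) (nat_lit 642) (nat_lit 570) (nat_lit 348)) (XT.nd (nat_lit 78) (nat_lit 76) (nat_lit 0) (XT.lf (nat_lit 0) (nat_lit 8035324520) (nat_lit 456) (nat_lit 14368339537) (nat_lit 532) (nat_lit 2200808838) (nat_lit 211) (nat_lit 5) (nat_lit 217) (nat_lit 5) (nat_lit 218) (nat_lit 5) (nat_lit 643) (nat_lit 570) (nat_lit 347)) (XT.lf (nat_lit 0) (nat_lit 2921081428) (nat_lit 532) (nat_lit 1895517490) (nat_lit 76) (nat_lit 20083850010) (nat_lit 210) (nat_lit 5) (nat_lit 217) (nat_lit 5) (nat_lit 211) (nat_lit 5) (nat_lit 644) (nat_lit 570) (nat_lit 346)))) (XT.nd (nat_lit 78) (nat_lit 456) (nat_lit 0) (XT.lf (nat_lit 0) (nat_lit 8229798203) (nat_lit 532) (nat_lit 12009318924) (nat_lit 76) (nat_lit 4960659434) (nat_lit 204) (nat_lit 5) (nat_lit 211) (nat_lit 5) (nat_lit 205) (nat_lit 5) (nat_lit 645) (nat_lit 570)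 (nat_lit 345)) (XT.nd (nat_lit 78) (nat_lit 0) (nat_lit 0) (XT.lf (nat_lit 0) (nat_lit 3100965793) (nat_lit 456) (nat_lit 10603930960) (nat_lit 532) (nat_lit 11798990016) (nat_lit 198) (nat_lit 5) (nat_lit 204) (nat_lit 5) (nat_lit 205) (nat_lit 5) (nat_lit 646) (nat_lit 570) (nat_lit 344)) (XT.lf (nat_lit 0) (nat_lit 18669558128) (nat_lit 456) (nat_lit 695947078) (nat_lit 532) (nat_lit 6447053987) (nat_lit 198) (nat_lit 5) (nat_lit 204) (nat_lit 5) (nat_lit 205) (nat_lit 5) (nat_lit 647) (nat_lit 570) (nat_lit 343))))))))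
noncomputable def xc164 : XT := (XT.nd (nat_lit 75816) (nat_lit 0) (nat_lit 22800) (XT.nd (nat_lit 780) (nat_lit 456) (nat_lit 0) (XT.nd (nat_lit 390) (nat_lit 1216) (nat_lit 0) (XT.nd (nat_lit 156) (nat_lit 836) (nat_lit 0) (XT.nd (nat_lit 78) (nat_lit 76) (nat_lit 0) (XT.lf (nat_lit 0) (nat_lit 8465412406) (nat_lit 380) (nat_lit 16785469224) (nat_lit 456) (nat_lit 874292485) (nat_lit 193) (nat_lit 5) (nat_lit 198) (nat_lit 5) (nat_lit 199) (nat_lit 5) (nat_lit 648) (nat_lit 570) (nat_lit 342)) (XT.lf (nat_lit 0) (nat_lit 4795212225) (nat_lit 456) (nat_lit 2003068021) (nat_lit 76) (nat_lit 19644169244) (nat_lit 192) (nat_lit 5) (nat_lit 198) (nat_lit 5) (nat_lit 193) (nat_lit 5) (nat_lit 649) (nat_lit 570) (nat_lit 341))) (XT.nd (nat_lit 78) (nat_lit 380) (nat_lit 0) (XT.lf (nat_lit 0) (nat_lit 10676450106) (nat_lit 532) (nat_lit 12646942561) (nat_lit 76) (nat_lit 3440361285) (nat_lit 186) (nat_lit 5) (nat_lit 193) (nat_lit 5) (nat_lit 187) (nat_lit 5) (nat_lit 650) (nat_lit 570) (nat_lit 340)) (XT.nd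 (nat_lit 78) (nat_lit 0) (nat_lit 0) (XT.lf (nat_lit 0) (nat_lit 3489125163) (nat_lit 380) (nat_lit 13263023514) (nat_lit 456) (nat_lit 10337799260) (nat_lit 181) (nat_lit 5) (nat_lit 186) (nat_lit 5) (nat_lit 187) (nat_lit 5) (nat_lit 651) (nat_lit 570) (nat_lit 339)) (XT.lf (nat_lit 0) (nat_lit 20112840528) (nat_lit 380) (nat_lit 2917061614) (nat_lit 456) (nat_lit 4391152991) (nat_lit 181) (nat_lit 5) (nat_lit 186) (nat_lit 5) (nat_lit 187) (nat_lit 5) (nat_lit 652) (nat_lit 570) (nat_lit 338))))) (XT.nd (nat_lit 156) (nat_lit 760) (nat_lit 0) (XT.nd (nat_lit 78) (nat_lit 0) (nat_lit 0) (XT.lf (nat_lit 0) (nat_lit 1759373066) (nat_lit 456) (nat_lit 18391032624) (nat_lit 76) (nat_lit 7606023353) (nat_lit 175) (nat_lit 5) (nat_lit 181) (nat_lit 5) (nat_lit 176) (nat_lit 5) (nat_lit 653) (nat_lit 570) (nat_lit 337)) (XT.lf (nat_lit 0) (nat_lit 8038610145) (nat_lit 456) (nat_lit 1681172674) (nat_lit 76) (nat_lit 18376857282) (nat_lit 175) (nat_lit 5) (nat_lit 181) (nat_lit 5) (nat_lit 176) (nat_lit 5) (nat_lit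 654) (nat_lit 570) (nat_lit 336))) (XT.nd (nat_lit 78) (nat_lit 380) (nat_lit 0) (XT.lf (nat_lit 0) (nat_lit 14546927724) (nat_lit 456) (nat_lit 12887715037) (nat_lit 76) (nat_lit 1006942844) (nat_lit 170) (nat_lit 5) (nat_lit 176) (nat_lit 5) (nat_lit 171) (nat_lit 5) (nat_lit 655) (nat_lit 570) (nat_lit 335)) (XT.nd (nat_lit 78) (nat_lit 0) (nat_lit 0) (XT.lf (nat_lit 0) (nat_lit 4349434618) (nat_lit 380) (nat_lit 16935809888) (nat_lit 456) (nat_lit 7506188992) (nat_lit 165) (nat_lit 5) (nat_lit 170) (nat_lit 5) (nat_lit 171) (nat_lit 5) (nat_lit 656) (nat_lit 570) (nat_lit 334)) (XT.lf (nat_lit 0) (nat_lit 22099701614) (nat_lit 380) (nat_lit 6141017089) (nat_lit 456) (nat_lit 905911958) (nat_lit 165) (nat_lit 5) (nat_lit 170) (nat_lit 5) (nat_lit 171) (nat_lit 5) (nat_lit 657) (nat_lit 570) (nat_lit 333)))))) (XT.nd (nat_lit 74646) (nat_lit 0) (nat_lit 27436) (XT.nd (nat_lit 74412) (nat_lit 0) (nat_lit 27360) (XT.nd (nat_lit 78) (nat_lit 0) (nat_lit 0) (XT.lf (nat_lit 0) (nat_lit 5848314069) (nat_lit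 456) (nat_lit 18745651287) (nat_lit 76) (nat_lit 4912242818) (nat_lit 159) (nat_lit 5) (nat_lit 165) (nat_lit 5) (nat_lit 160) (nat_lit 5) (nat_lit 658) (nat_lit 570) (nat_lit 332)) (XT.lf (nat_lit 0) (nat_lit 12809762336) (nat_lit 456) (nat_lit 905574020) (nat_lit 76) (nat_lit 16155835888) (nat_lit 159) (nat_lit 5) (nat_lit 165) (nat_lit 5) (nat_lit 160) (nat_lit 5) (nat_lit 659) (nat_lit 570) (nat_lit 331))) (XT.nd (nat_lit 78) (nat_lit 0) (nat_lit 0) (XT.lf (nat_lit 0) (nat_lit 3570135820) (nat_lit 1748) (nat_lit 1091079932) (nat_lit 1748) (nat_lit 1091079932) (nat_lit 519) (nat_lit 3) (nat_lit 542) (nat_lit 3) (nat_lit 542) (nat_lit 5) (nat_lit 571) (nat_lit 571) (nat_lit 418)) (XT.nd (nat_lit 78) (nat_lit 0) (nat_lit 76) (XT.lf (nat_lit 76) (nat_lit 3572452600) (nat_lit 0) (nat_lit 4181218884) (nat_lit 1748) (nat_lit 3855092462) (nat_lit 520) (nat_lit 5) (nat_lit 519) (nat_lit 3) (nat_lit 542) (nat_lit 5) (nat_lit 572) (nat_lit 571) (nat_lit 417)) (XT.lf (nat_lit 0) (nat_lit 8387369214) (nat_lit 1672)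 (nat_lit 2257337430) (nat_lit 1748) (nat_lit 1070153609) (nat_lit 520) (nat_lit 5) (nat_lit 542) (nat_lit 5) (nat_lit 543) (nat_lit 5) (nat_lit 573) (nat_lit 571) (nat_lit 416))))) (XT.nd (nat_lit 156) (nat_lit 0) (nat_lit 76) (XT.nd (nat_lit 78) (nat_lit 0) (nat_lit 0) (XT.lf (nat_lit 76) (nat_lit 3650192934) (nat_lit 0) (nat_lit 5421593465) (nat_lit 1748) (nat_lit 2750532037) (nat_lit 521) (nat_lit 5) (nat_lit 520) (nat_lit 5) (nat_lit 543) (nat_lit 5) (nat_lit 574) (nat_lit 571) (nat_lit 415)) (XT.lf (nat_lit 76) (nat_lit 9699314339) (nat_lit 0) (nat_lit 72596519) (nat_lit 1748) (nat_lit 2159975386) (nat_lit 521) (nat_lit 5) (nat_lit 520) (nat_lit 5) (nat_lit 543) (nat_lit 5) (nat_lit 575) (nat_lit 571) (nat_lit 414))) (XT.nd (nat_lit 78) (nat_lit 0) (nat_lit 0) (XT.lf (nat_lit 76) (nat_lit 3833786817) (nat_lit 0) (nat_lit 6699261399) (nat_lit 1748) (nat_lit 1509657810) (nat_lit 522) (nat_lit 5) (nat_lit 521) (nat_lit 5) (nat_lit 544) (nat_lit 5) (nat_lit 576) (nat_lit 571) (nat_lit 413)) (XT.nd (nat_lit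 78) (nat_lit 0) (nat_lit 76) (XT.lf (nat_lit 76) (nat_lit 10043982503) (nat_lit 0) (nat_lit 1268256066) (nat_lit 1748) (nat_lit 843447839) (nat_lit 522) (nat_lit 5) (nat_lit 521) (nat_lit 5) (nat_lit 544) (nat_lit 5) (nat_lit 577) (nat_lit 571) (nat_lit 412)) (XT.lf (nat_lit 76) (nat_lit 4126435851) (nat_lit 0) (nat_lit 8022753673) (nat_lit 1748) (nat_lit 120894131) (nat_lit 523) (nat_lit 5) (nat_lit 522) (nat_lit 5) (nat_lit 545) (nat_lit 5) (nat_lit 578) (nat_lit 571) (nat_lit 411))))))) (XT.nd (nat_lit 780) (nat_lit 3040) (nat_lit 0) (XT.nd (nat_lit 390) (nat_lit 0) (nat_lit 228) (XT.nd (nat_lit 156) (nat_lit 0) (nat_lit 76) (XT.nd (nat_lit 78) (nat_lit 0) (nat_lit 76) (XT.lf (nat_lit 0) (nat_lit 618459542) (nat_lit 1748) (nat_lit 1888536281) (nat_lit 1824) (nat_lit 9879485197) (nat_lit 499) (nat_lit 5) (nat_lit 522) (nat_lit 5) (nat_lit 523) (nat_lit 5) (nat_lit 579) (nat_lit 571) (nat_lit 410)) (XT.lf (nat_lit 0) (nat_lit 1408967173) (nat_lit 1748) (nat_lit 7982235930) (nat_lit 1824) (nat_lit 3113228282)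 (nat_lit 500) (nat_lit 5) (nat_lit 523) (nat_lit 5) (nat_lit 524) (nat_lit 5) (nat_lit 580) (nat_lit 571) (nat_lit 409))) (XT.nd (nat_lit 78) (nat_lit 0) (nat_lit 76) (XT.lf (nat_lit 0) (nat_lit 2232866947) (nat_lit 1748) (nat_lit 1562023261) (nat_lit 1824) (nat_lit 8829499642) (nat_lit 500) (nat_lit 5) (nat_lit 523) (nat_lit 5) (nat_lit 524) (nat_lit 5) (nat_lit 581) (nat_lit 571) (nat_lit 408)) (XT.nd (nat_lit 78) (nat_lit 0) (nat_lit 0) (XT.lf (nat_lit 0) (nat_lit 3107121914) (nat_lit 1748) (nat_lit 7713668350) (nat_lit 1824) (nat_lit 1925280395) (nat_lit 501) (nat_lit 5) (nat_lit 524) (nat_lit 5) (nat_lit 525) (nat_lit 5) (nat_lit 582) (nat_lit 571) (nat_lit 407)) (XT.lf (nat_lit 0) (nat_lit 4023202636) (nat_lit 1748) (nat_lit 1122933487) (nat_lit 1824) (nat_lit 7723562852) (nat_lit 501) (nat_lit 5) (nat_lit 524) (nat_lit 5) (nat_lit 525) (nat_lit 5) (nat_lit 583) (nat_lit 571) (nat_lit 406))))) (XT.nd (nat_lit 156) (nat_lit 0) (nat_lit 0) (XT.nd (nat_lit 78) (nat_lit 0) (nat_lit 0) (XT.lf (nat_lit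 0) (nat_lit 4987710679) (nat_lit 1748) (nat_lit 7333287274) (nat_lit 1824) (nat_lit 674200481) (nat_lit 502) (nat_lit 5) (nat_lit 525) (nat_lit 5) (nat_lit 526) (nat_lit 5) (nat_lit 584) (nat_lit 571) (nat_lit 405)) (XT.lf (nat_lit 0) (nat_lit 6002246981) (nat_lit 1748) (nat_lit 567203182) (nat_lit 1824) (nat_lit 6553143635) (nat_lit 502) (nat_lit 5) (nat_lit 525) (nat_lit 5) (nat_lit 526) (nat_lit 5) (nat_lit 585) (nat_lit 571) (nat_lit 404))) (XT.nd (nat_lit 78) (nat_lit 0) (nat_lit 76) (XT.lf (nat_lit 76) (nat_lit 6410741306) (nat_lit 0) (nat_lit 657242101) (nat_lit 1824) (nat_lit 6183936137) (nat_lit 503) (nat_lit 5) (nat_lit 502) (nat_lit 5) (nat_lit 526) (nat_lit 5) (nat_lit 586) (nat_lit 571) (nat_lit 403)) (XT.nd (nat_lit 78) (nat_lit 0) (nat_lit 0) (XT.lf (nat_lit 76) (nat_lit 111000450) (nat_lit 0) (nat_lit 8072940619) (nat_lit 1824) (nat_lit 5199313258) (nat_lit 504) (nat_lit 5) (nat_lit 503) (nat_lit 5) (nat_lit 527) (nat_lit 5) (nat_lit 587) (nat_lit 571) (nat_lit 402)) (XT.lf (nat_lit 76)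 (nat_lit 7282875763) (nat_lit 0) (nat_lit 2079198634) (nat_lit 1824) (nat_lit 4154344916) (nat_lit 504) (nat_lit 5) (nat_lit 503) (nat_lit 5) (nat_lit 527) (nat_lit 5) (nat_lit 588) (nat_lit 571) (nat_lit 401)))))) (XT.nd (nat_lit 390) (nat_lit 1672) (nat_lit 0) (XT.nd (nat_lit 156) (nat_lit 1748) (nat_lit 0) (XT.nd (nat_lit 78) (nat_lit 0) (nat_lit 0) (XT.lf (nat_lit 76) (nat_lit 924125574) (nat_lit 0) (nat_lit 9661684271) (nat_lit 1824) (nat_lit 3065997589) (nat_lit 505) (nat_lit 5) (nat_lit 504) (nat_lit 5) (nat_lit 528) (nat_lit 5) (nat_lit 589) (nat_lit 571) (nat_lit 400)) (XT.lf (nat_lit 76) (nat_lit 8287802456) (nat_lit 0) (nat_lit 3591721325) (nat_lit 1824) (nat_lit 1909470076) (nat_lit 505) (nat_lit 5) (nat_lit 504) (nat_lit 5) (nat_lit 528) (nat_lit 5) (nat_lit 590) (nat_lit 571) (nat_lit 399))) (XT.nd (nat_lit 78) (nat_lit 1824) (nat_lit 0) (XT.lf (nat_lit 76) (nat_lit 1869720835) (nat_lit 0) (nat_lit 11348614623) (nat_lit 1824) (nat_lit 710204681) (nat_lit 506) (nat_lit 5) (nat_lit 505) (nat_lit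 5) (nat_lit 529) (nat_lit 5) (nat_lit 591) (nat_lit 571) (nat_lit 398)) (XT.nd (nat_lit 78) (nat_lit 0) (nat_lit 76) (XT.lf (nat_lit 0) (nat_lit 557546884) (nat_lit 1824) (nat_lit 4642709243) (nat_lit 1900) (nat_lit 8869530587) (nat_lit 481) (nat_lit 5) (nat_lit 505) (nat_lit 5) (nat_lit 506) (nat_lit 5) (nat_lit 592) (nat_lit 571) (nat_lit 397)) (XT.lf (nat_lit 0) (nat_lit 1857890643) (nat_lit 1824) (nat_lit 11272689490) (nat_lit 1900) (nat_lit 1082849828) (nat_lit 482) (nat_lit 5) (nat_lit 506) (nat_lit 5) (nat_lit 507) (nat_lit 5) (nat_lit 593) (nat_lit 571) (nat_lit 396))))) (XT.nd (nat_lit 156) (nat_lit 1748) (nat_lit 0) (XT.nd (nat_lit 78) (nat_lit 0) (nat_lit 0) (XT.lf (nat_lit 0) (nat_lit 3240663622) (nat_lit 1824) (nat_lit 3663001394) (nat_lit 1900) (nat_lit 7455153166) (nat_lit 482) (nat_lit 5) (nat_lit 506) (nat_lit 5) (nat_lit 507) (nat_lit 5) (nat_lit 594) (nat_lit 571) (nat_lit 395)) (XT.lf (nat_lit 76) (nat_lit 4145578270) (nat_lit 0) (nat_lit 523235728) (nat_lit 1900) (nat_lit 9837946275)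 (nat_lit 483) (nat_lit 5) (nat_lit 482) (nat_lit 5) (nat_lit 507) (nat_lit 5) (nat_lit 595) (nat_lit 571) (nat_lit 394))) (XT.nd (nat_lit 78) (nat_lit 1824) (nat_lit 0) (XT.lf (nat_lit 0) (nat_lit 6180074380) (nat_lit 1824) (nat_lit 2544020086) (nat_lit 76) (nat_lit 5932476334) (nat_lit 483) (nat_lit 5) (nat_lit 507) (nat_lit 5) (nat_lit 484) (nat_lit 5) (nat_lit 596) (nat_lit 571) (nat_lit 393)) (XT.nd (nat_lit 78) (nat_lit 0) (nat_lit 0) (XT.lf (nat_lit 0) (nat_lit 5490367405) (nat_lit 1824) (nat_lit 2261428573) (nat_lit 1900) (nat_lit 7056977362) (nat_lit 459) (nat_lit 5) (nat_lit 483) (nat_lit 5) (nat_lit 484) (nat_lit 5) (nat_lit 597) (nat_lit 571) (nat_lit 392)) (XT.lf (nat_lit 0) (nat_lit 9391509018) (nat_lit 1900) (nat_lit 1279772718) (nat_lit 76) (nat_lit 4292007569) (nat_lit 459) (nat_lit 5) (nat_lit 484) (nat_lit 5) (nat_lit 460) (nat_lit 5) (nat_lit 598) (nat_lit 571) (nat_lit 391))))))))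
noncomputable def xc165 : XT := (XT.nd (nat_lit 1872) (nat_lit 6992) (nat_lit 0) (XT.nd (nat_lit 1092) (nat_lit 4256) (nat_lit 0) (XT.nd (nat_lit 390) (nat_lit 4180) (nat_lit 0) (XT.nd (nat_lit 156) (nat_lit 988) (nat_lit 0) (XT.nd (nat_lit 78) (nat_lit 912) (nat_lit 0) (XT.lf (nat_lit 0) (nat_lit 6988675083) (nat_lit 1064) (nat_lit 4127119972) (nat_lit 1140) (nat_lit 4004065462) (nat_lit 445) (nat_lit 5) (nat_lit 459) (nat_lit 5) (nat_lit 460) (nat_lit 5) (nat_lit 599) (nat_lit 571) (nat_lit 390)) (XT.lf (nat_lit 0) (nat_lit 137892504) (nat_lit 912) (nat_lit 12754308948) (nat_lit 988) (nat_lit 2387009502) (nat_lit 433) (nat_lit 5) (nat_lit 445) (nat_lit 5) (nat_lit 446) (nat_lit 5) (nat_lit 600) (nat_lit 571) (nat_lit 389))) (XT.nd (nat_lit 78) (nat_lit 988) (nat_lit 0) (XT.lf (nat_lit 0) (nat_lit 8647163905) (nat_lit 912) (nat_lit 6130355991) (nat_lit 988) (nat_lit 662761309) (nat_lit 433) (nat_lit 5) (nat_lit 445) (nat_lit 5) (nat_lit 446) (nat_lit 5) (nat_lit 601) (nat_lit 571) (nat_lit 388)) (XT.nd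 (nat_lit 78) (nat_lit 0) (nat_lit 0) (XT.lf (nat_lit 0) (nat_lit 1088796046) (nat_lit 988) (nat_lit 13878611979) (nat_lit 76) (nat_lit 636879024) (nat_lit 420) (nat_lit 5) (nat_lit 433) (nat_lit 5) (nat_lit 421) (nat_lit 5) (nat_lit 602) (nat_lit 571) (nat_lit 387)) (XT.lf (nat_lit 0) (nat_lit 2944895191) (nat_lit 988) (nat_lit 5316812176) (nat_lit 76) (nat_lit 7508210780) (nat_lit 420) (nat_lit 5) (nat_lit 433) (nat_lit 5) (nat_lit 421) (nat_lit 5) (nat_lit 603) (nat_lit 571) (nat_lit 386))))) (XT.nd (nat_lit 468) (nat_lit 836) (nat_lit 0) (XT.nd (nat_lit 390) (nat_lit 2508) (nat_lit 0) (XT.lf (nat_lit 0) (nat_lit 3453887432) (nat_lit 836) (nat_lit 1398703868) (nat_lit 912) (nat_lit 11085981515) (nat_lit 409) (nat_lit 5) (nat_lit 420) (nat_lit 5) (nat_lit 421) (nat_lit 5) (nat_lit 604) (nat_lit 571) (nat_lit 385)) (XT.lf (nat_lit 0) (nat_lit 106432129) (nat_lit 836) (nat_lit 15623910452) (nat_lit 912) (nat_lit 1088446799) (nat_lit 376) (nat_lit 5) (nat_lit 387) (nat_lit 5) (nat_lit 388) (nat_lit 5) (nat_lit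 609) (nat_lit 571) (nat_lit 380))) (XT.nd (nat_lit 78) (nat_lit 760) (nat_lit 0) (XT.lf (nat_lit 0) (nat_lit 1188706507) (nat_lit 912) (nat_lit 7321545022) (nat_lit 76) (nat_lit 8491757602) (nat_lit 375) (nat_lit 5) (nat_lit 387) (nat_lit 5) (nat_lit 376) (nat_lit 5) (nat_lit 610) (nat_lit 571) (nat_lit 379)) (XT.nd (nat_lit 78) (nat_lit 0) (nat_lit 0) (XT.lf (nat_lit 0) (nat_lit 2272138673) (nat_lit 760) (nat_lit 1232304188) (nat_lit 836) (nat_lit 13684154621) (nat_lit 365) (nat_lit 5) (nat_lit 375) (nat_lit 5) (nat_lit 376) (nat_lit 5) (nat_lit 611) (nat_lit 571) (nat_lit 378)) (XT.lf (nat_lit 0) (nat_lit 5949085408) (nat_lit 836) (nat_lit 5269141475) (nat_lit 76) (nat_lit 6159039261) (nat_lit 365) (nat_lit 5) (nat_lit 376) (nat_lit 5) (nat_lit 366) (nat_lit 5) (nat_lit 612) (nat_lit 571) (nat_lit 377)))))) (XT.nd (nat_lit 390) (nat_lit 1976) (nat_lit 0) (XT.nd (nat_lit 156) (nat_lit 1520) (nat_lit 0) (XT.nd (nat_lit 78) (nat_lit 0) (nat_lit 0) (XT.lf (nat_lit 0) (nat_lit 4616025518) (nat_lit 760) (nat_lit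 3857802307) (nat_lit 836) (nat_lit 9095256581) (nat_lit 355) (nat_lit 5) (nat_lit 365) (nat_lit 5) (nat_lit 366) (nat_lit 5) (nat_lit 613) (nat_lit 571) (nat_lit 376)) (XT.lf (nat_lit 0) (nat_lit 11101514575) (nat_lit 836) (nat_lit 3025202512) (nat_lit 76) (nat_lit 3636973315) (nat_lit 355) (nat_lit 5) (nat_lit 366) (nat_lit 5) (nat_lit 356) (nat_lit 5) (nat_lit 614) (nat_lit 571) (nat_lit 375))) (XT.nd (nat_lit 78) (nat_lit 836) (nat_lit 0) (XT.lf (nat_lit 0) (nat_lit 7162184382) (nat_lit 684) (nat_lit 6684914303) (nat_lit 760) (nat_lit 4113783313) (nat_lit 346) (nat_lit 5) (nat_lit 355) (nat_lit 5) (nat_lit 356) (nat_lit 5) (nat_lit 615) (nat_lit 571) (nat_lit 374)) (XT.nd (nat_lit 78) (nat_lit 836) (nat_lit 0) (XT.lf (nat_lit 0) (nat_lit 16667282686) (nat_lit 760) (nat_lit 580790807) (nat_lit 76) (nat_lit 913550513) (nat_lit 346) (nat_lit 5) (nat_lit 356) (nat_lit 5) (nat_lit 347) (nat_lit 5) (nat_lit 616) (nat_lit 571) (nat_lit 373)) (XT.lf (nat_lit 0) (nat_lit 1264903259) (nat_lit 836) (nat_lit 8452698002)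 (nat_lit 76) (nat_lit 8646569891) (nat_lit 335) (nat_lit 5) (nat_lit 346) (nat_lit 5) (nat_lit 336) (nat_lit 5) (nat_lit 617) (nat_lit 571) (nat_lit 372))))) (XT.nd (nat_lit 156) (nat_lit 1292) (nat_lit 0) (XT.nd (nat_lit 78) (nat_lit 0) (nat_lit 0) (XT.lf (nat_lit 0) (nat_lit 2060483563) (nat_lit 684) (nat_lit 2009699549) (nat_lit 760) (nat_lit 14500171709) (nat_lit 326) (nat_lit 5) (nat_lit 335) (nat_lit 5) (nat_lit 336) (nat_lit 5) (nat_lit 618) (nat_lit 571) (nat_lit 371)) (XT.lf (nat_lit 0) (nat_lit 7020276204) (nat_lit 760) (nat_lit 5926848469) (nat_lit 76) (nat_lit 5831763658) (nat_lit 326) (nat_lit 5) (nat_lit 336) (nat_lit 5) (nat_lit 327) (nat_lit 5) (nat_lit 619) (nat_lit 571) (nat_lit 370))) (XT.nd (nat_lit 78) (nat_lit 608) (nat_lit 0) (XT.lf (nat_lit 0) (nat_lit 4911633638) (nat_lit 684) (nat_lit 5156674156) (nat_lit 760) (nat_lit 8922506297) (nat_lit 317) (nat_lit 5) (nat_lit 326) (nat_lit 5) (nat_lit 327) (nat_lit 5) (nat_lit 620) (nat_lit 571) (nat_lit 369)) (XT.nd (nat_lit 78) (nat_lit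 608) (nat_lit 0) (XT.lf (nat_lit 0) (nat_lit 13229253977) (nat_lit 760) (nat_lit 3184710581) (nat_lit 76) (nat_lit 2791975035) (nat_lit 317) (nat_lit 5) (nat_lit 327) (nat_lit 5) (nat_lit 318) (nat_lit 5) (nat_lit 621) (nat_lit 571) (nat_lit 368)) (XT.lf (nat_lit 0) (nat_lit 7991069699) (nat_lit 608) (nat_lit 8542310767) (nat_lit 684) (nat_lit 2890388211) (nat_lit 309) (nat_lit 5) (nat_lit 317) (nat_lit 5) (nat_lit 318) (nat_lit 5) (nat_lit 622) (nat_lit 571) (nat_lit 367))))))) (XT.nd (nat_lit 780) (nat_lit 3192) (nat_lit 0) (XT.nd (nat_lit 390) (nat_lit 1824) (nat_lit 0) (XT.nd (nat_lit 156) (nat_lit 1216) (nat_lit 0) (XT.nd (nat_lit 78) (nat_lit 684) (nat_lit 0) (XT.lf (nat_lit 0) (nat_lit 269729107) (nat_lit 684) (nat_lit 221072128) (nat_lit 76) (nat_lit 19154810486) (nat_lit 308) (nat_lit 5) (nat_lit 317) (nat_lit 5) (nat_lit 309) (nat_lit 5) (nat_lit 623) (nat_lit 571) (nat_lit 366)) (XT.lf (nat_lit 0) (nat_lit 3572811141) (nat_lit 760) (nat_lit 8583684865) (nat_lit 76) (nat_lit 7712644500) (nat_lit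 299) (nat_lit 5) (nat_lit 309) (nat_lit 5) (nat_lit 300) (nat_lit 5) (nat_lit 624) (nat_lit 571) (nat_lit 365))) (XT.nd (nat_lit 78) (nat_lit 608) (nat_lit 0) (XT.lf (nat_lit 0) (nat_lit 2956326940) (nat_lit 608) (nat_lit 4003706892) (nat_lit 684) (nat_lit 13136744731) (nat_lit 291) (nat_lit 5) (nat_lit 299) (nat_lit 5) (nat_lit 300) (nat_lit 5) (nat_lit 625) (nat_lit 571) (nat_lit 364)) (XT.nd (nat_lit 78) (nat_lit 608) (nat_lit 0) (XT.lf (nat_lit 0) (nat_lit 10495181434) (nat_lit 684) (nat_lit 5519949165) (nat_lit 76) (nat_lit 4312235447) (nat_lit 291) (nat_lit 5) (nat_lit 300) (nat_lit 5) (nat_lit 292) (nat_lit 5) (nat_lit 626) (nat_lit 571) (nat_lit 363)) (XT.lf (nat_lit 0) (nat_lit 6383059616) (nat_lit 608) (nat_lit 7780244442) (nat_lit 684) (nat_lit 6398016046) (nat_lit 283) (nat_lit 5) (nat_lit 291) (nat_lit 5) (nat_lit 292) (nat_lit 5) (nat_lit 627) (nat_lit 571) (nat_lit 362))))) (XT.nd (nat_lit 156) (nat_lit 1140) (nat_lit 0) (XT.nd (nat_lit 78) (nat_lit 684) (nat_lit 0) (XT.lf (nat_lit 0) (nat_lit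 17940468100) (nat_lit 684) (nat_lit 2211686620) (nat_lit 76) (nat_lit 647085204) (nat_lit 283) (nat_lit 5) (nat_lit 292) (nat_lit 5) (nat_lit 284) (nat_lit 5) (nat_lit 628) (nat_lit 571) (nat_lit 361)) (XT.lf (nat_lit 0) (nat_lit 853513894) (nat_lit 684) (nat_lit 10977592649) (nat_lit 76) (nat_lit 9208472107) (nat_lit 274) (nat_lit 5) (nat_lit 283) (nat_lit 5) (nat_lit 275) (nat_lit 5) (nat_lit 629) (nat_lit 571) (nat_lit 360))) (XT.nd (nat_lit 78) (nat_lit 532) (nat_lit 0) (XT.lf (nat_lit 0) (nat_lit 1317891257) (nat_lit 608) (nat_lit 3301915052) (nat_lit 684) (nat_lit 16664179360) (nat_lit 266) (nat_lit 5) (nat_lit 274) (nat_lit 5) (nat_lit 275) (nat_lit 5) (nat_lit 630) (nat_lit 571) (nat_lit 359)) (XT.nd (nat_lit 78) (nat_lit 532) (nat_lit 0) (XT.lf (nat_lit 0) (nat_lit 8565184035) (nat_lit 684) (nat_lit 7566352465) (nat_lit 76) (nat_lit 5399669381) (nat_lit 266) (nat_lit 5) (nat_lit 275) (nat_lit 5) (nat_lit 267) (nat_lit 5) (nat_lit 631) (nat_lit 571) (nat_lit 358)) (XT.lf (nat_lit 0) (nat_lit 5119702761)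 (nat_lit 532) (nat_lit 7519540418) (nat_lit 608) (nat_lit 9143132078) (nat_lit 259) (nat_lit 5) (nat_lit 266) (nat_lit 5) (nat_lit 267) (nat_lit 5) (nat_lit 632) (nat_lit 571) (nat_lit 357)))))) (XT.nd (nat_lit 390) (nat_lit 1520) (nat_lit 0) (XT.nd (nat_lit 156) (nat_lit 1140) (nat_lit 0) (XT.nd (nat_lit 78) (nat_lit 532) (nat_lit 0) (XT.lf (nat_lit 0) (nat_lit 16848820615) (nat_lit 608) (nat_lit 3891066703) (nat_lit 76) (nat_lit 1297600193) (nat_lit 259) (nat_lit 5) (nat_lit 267) (nat_lit 5) (nat_lit 260) (nat_lit 5) (nat_lit 633) (nat_lit 571) (nat_lit 356)) (XT.lf (nat_lit 0) (nat_lit 9199959834) (nat_lit 532) (nat_lit 12046979311) (nat_lit 608) (nat_lit 1048676100) (nat_lit 252) (nat_lit 5) (nat_lit 259) (nat_lit 5) (nat_lit 260) (nat_lit 5) (nat_lit 634) (nat_lit 571) (nat_lit 355))) (XT.nd (nat_lit 78) (nat_lit 532) (nat_lit 0) (XT.lf (nat_lit 0) (nat_lit 19749896) (nat_lit 532) (nat_lit 3133989923) (nat_lit 608) (nat_lit 19404328679) (nat_lit 244) (nat_lit 5) (nat_lit 251) (nat_lit 5) (nat_lit 252)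 (nat_lit 5) (nat_lit 635) (nat_lit 571) (nat_lit 354)) (XT.nd (nat_lit 78) (nat_lit 532) (nat_lit 0) (XT.lf (nat_lit 0) (nat_lit 7548202043) (nat_lit 608) (nat_lit 9302181491) (nat_lit 76) (nat_lit 5972808065) (nat_lit 244) (nat_lit 5) (nat_lit 252) (nat_lit 5) (nat_lit 245) (nat_lit 5) (nat_lit 636) (nat_lit 571) (nat_lit 353)) (XT.lf (nat_lit 0) (nat_lit 4226550246) (nat_lit 532) (nat_lit 7847187414) (nat_lit 608) (nat_lit 11019016031) (nat_lit 237) (nat_lit 5) (nat_lit 244) (nat_lit 5) (nat_lit 245) (nat_lit 5) (nat_lit 637) (nat_lit 571) (nat_lit 352))))) (XT.nd (nat_lit 234) (nat_lit 988) (nat_lit 0) (XT.nd (nat_lit 78) (nat_lit 532) (nat_lit 0) (XT.lf (nat_lit 0) (nat_lit 16756324955) (nat_lit 608) (nat_lit 5230444575) (nat_lit 76) (nat_lit 1379606882) (nat_lit 237) (nat_lit 5) (nat_lit 245) (nat_lit 5) (nat_lit 238) (nat_lit 5) (nat_lit 638) (nat_lit 571) (nat_lit 351)) (XT.nd (nat_lit 78) (nat_lit 76) (nat_lit 0) (XT.lf (nat_lit 0) (nat_lit 8733894140) (nat_lit 456) (nat_lit 12902472026) (nat_lit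 532) (nat_lit 2007029579) (nat_lit 231) (nat_lit 5) (nat_lit 237) (nat_lit 5) (nat_lit 238) (nat_lit 5) (nat_lit 639) (nat_lit 571) (nat_lit 350)) (XT.lf (nat_lit 0) (nat_lit 2683277845) (nat_lit 532) (nat_lit 901253171) (nat_lit 76) (nat_lit 20340466003) (nat_lit 230) (nat_lit 5) (nat_lit 237) (nat_lit 5) (nat_lit 231) (nat_lit 5) (nat_lit 640) (nat_lit 571) (nat_lit 349)))) (XT.nd (nat_lit 78) (nat_lit 456) (nat_lit 0) (XT.lf (nat_lit 0) (nat_lit 7562821527) (nat_lit 608) (nat_lit 10704484155) (nat_lit 76) (nat_lit 5942213414) (nat_lit 223) (nat_lit 5) (nat_lit 231) (nat_lit 5) (nat_lit 224) (nat_lit 5) (nat_lit 641) (nat_lit 571) (nat_lit 348)) (XT.nd (nat_lit 78) (nat_lit 0) (nat_lit 0) (XT.lf (nat_lit 0) (nat_lit 3730562103) (nat_lit 456) (nat_lit 8858723537) (nat_lit 532) (nat_lit 11909459569) (nat_lit 217) (nat_lit 5) (nat_lit 223) (nat_lit 5) (nat_lit 224) (nat_lit 5) (nat_lit 642) (nat_lit 571) (nat_lit 347)) (XT.lf (nat_lit 0) (nat_lit 17788698135) (nat_lit 532) (nat_lit 6204853747) (nat_lit 76)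 (nat_lit 798755765) (nat_lit 217) (nat_lit 5) (nat_lit 224) (nat_lit 5) (nat_lit 218) (nat_lit 5) (nat_lit 643) (nat_lit 571) (nat_lit 346))))))))
noncomputable def xc166 : XT := (XT.nd (nat_lit 75894) (nat_lit 0) (nat_lit 24472) (XT.nd (nat_lit 780) (nat_lit 1672) (nat_lit 0) (XT.nd (nat_lit 390) (nat_lit 1292) (nat_lit 0) (XT.nd (nat_lit 156) (nat_lit 912) (nat_lit 0) (XT.nd (nat_lit 78) (nat_lit 76) (nat_lit 0) (XT.lf (nat_lit 0) (nat_lit 8698611514) (nat_lit 456) (nat_lit 14504042231) (nat_lit 532) (nat_lit 1886876670) (nat_lit 211) (nat_lit 5) (nat_lit 217) (nat_lit 5) (nat_lit 218) (nat_lit 5) (nat_lit 644) (nat_lit 571) (nat_lit 345)) (XT.lf (nat_lit 0) (nat_lit 3325830300) (nat_lit 532) (nat_lit 1436086267) (nat_lit 76) (nat_lit 20629601713) (nat_lit 210) (nat_lit 5) (nat_lit 217) (nat_lit 5) (nat_lit 211) (nat_lit 5) (nat_lit 645) (nat_lit 571) (nat_lit 344))) (XT.nd (nat_lit 78) (nat_lit 456) (nat_lit 0) (XT.lf (nat_lit 0) (nat_lit 8738121011) (nat_lit 532) (nat_lit 11749550506) (nat_lit 76) (nat_lit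 5209213213) (nat_lit 204) (nat_lit 5) (nat_lit 211) (nat_lit 5) (nat_lit 205) (nat_lit 5) (nat_lit 646) (nat_lit 571) (nat_lit 343)) (XT.nd (nat_lit 78) (nat_lit 0) (nat_lit 0) (XT.lf (nat_lit 0) (nat_lit 3659650729) (nat_lit 456) (nat_lit 10659555744) (nat_lit 532) (nat_lit 11687941222) (nat_lit 198) (nat_lit 5) (nat_lit 204) (nat_lit 5) (nat_lit 205) (nat_lit 5) (nat_lit 647) (nat_lit 571) (nat_lit 342)) (XT.lf (nat_lit 0) (nat_lit 19529876369) (nat_lit 456) (nat_lit 556479907) (nat_lit 532) (nat_lit 6235770955) (nat_lit 198) (nat_lit 5) (nat_lit 204) (nat_lit 5) (nat_lit 205) (nat_lit 5) (nat_lit 648) (nat_lit 571) (nat_lit 341))))) (XT.nd (nat_lit 156) (nat_lit 836) (nat_lit 0) (XT.nd (nat_lit 78) (nat_lit 76) (nat_lit 0) (XT.lf (nat_lit 0) (nat_lit 9124094110) (nat_lit 380) (nat_lit 16962959793) (nat_lit 456) (nat_lit 553988516) (nat_lit 193) (nat_lit 5) (nat_lit 198) (nat_lit 5) (nat_lit 199) (nat_lit 5) (nat_lit 649) (nat_lit 571) (nat_lit 340)) (XT.lf (nat_lit 0) (nat_lit 5217939651) (nat_lit 456)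 (nat_lit 1558996559) (nat_lit 76) (nat_lit 20187814191) (nat_lit 192) (nat_lit 5) (nat_lit 198) (nat_lit 5) (nat_lit 193) (nat_lit 5) (nat_lit 650) (nat_lit 571) (nat_lit 339))) (XT.nd (nat_lit 78) (nat_lit 380) (nat_lit 0) (XT.lf (nat_lit 0) (nat_lit 11214538634) (nat_lit 532) (nat_lit 12413473547) (nat_lit 76) (nat_lit 3664514270) (nat_lit 186) (nat_lit 5) (nat_lit 193) (nat_lit 5) (nat_lit 187) (nat_lit 5) (nat_lit 651) (nat_lit 571) (nat_lit 338)) (XT.nd (nat_lit 78) (nat_lit 0) (nat_lit 0) (XT.lf (nat_lit 0) (nat_lit 4042115479) (nat_lit 380) (nat_lit 13366409091) (nat_lit 456) (nat_lit 10216784502) (nat_lit 181) (nat_lit 5) (nat_lit 186) (nat_lit 5) (nat_lit 187) (nat_lit 5) (nat_lit 652) (nat_lit 571) (nat_lit 337)) (XT.lf (nat_lit 0) (nat_lit 20988830489) (nat_lit 380) (nat_lit 2816701970) (nat_lit 456) (nat_lit 4157632185) (nat_lit 181) (nat_lit 5) (nat_lit 186) (nat_lit 5) (nat_lit 187) (nat_lit 5) (nat_lit 653) (nat_lit 571) (nat_lit 336)))))) (XT.nd (nat_lit 390) (nat_lit 456) (nat_lit 0) (XT.nd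 (nat_lit 156) (nat_lit 760) (nat_lit 0) (XT.nd (nat_lit 78) (nat_lit 0) (nat_lit 0) (XT.lf (nat_lit 0) (nat_lit 2109598644) (nat_lit 456) (nat_lit 18278793125) (nat_lit 76) (nat_lit 7916854572) (nat_lit 175) (nat_lit 5) (nat_lit 181) (nat_lit 5) (nat_lit 176) (nat_lit 5) (nat_lit 654) (nat_lit 571) (nat_lit 335)) (XT.lf (nat_lit 0) (nat_lit 8508243247) (nat_lit 456) (nat_lit 1244148920) (nat_lit 76) (nat_lit 18899993204) (nat_lit 175) (nat_lit 5) (nat_lit 181) (nat_lit 5) (nat_lit 176) (nat_lit 5) (nat_lit 655) (nat_lit 571) (nat_lit 334))) (XT.nd (nat_lit 78) (nat_lit 380) (nat_lit 0) (XT.lf (nat_lit 0) (nat_lit 15144756662) (nat_lit 456) (nat_lit 12672841503) (nat_lit 76) (nat_lit 1186671231) (nat_lit 170) (nat_lit 5) (nat_lit 176) (nat_lit 5) (nat_lit 171) (nat_lit 5) (nat_lit 656) (nat_lit 571) (nat_lit 333)) (XT.nd (nat_lit 78) (nat_lit 0) (nat_lit 0) (XT.lf (nat_lit 0) (nat_lit 4905941751) (nat_lit 380) (nat_lit 17108928996) (nat_lit 456) (nat_lit 7346303080) (nat_lit 165) (nat_lit 5) (nat_lit 170)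 (nat_lit 5) (nat_lit 171) (nat_lit 5) (nat_lit 657) (nat_lit 571) (nat_lit 332)) (XT.lf (nat_lit 0) (nat_lit 23002007843) (nat_lit 380) (nat_lit 6101487342) (nat_lit 456) (nat_lit 620099127) (nat_lit 165) (nat_lit 5) (nat_lit 170) (nat_lit 5) (nat_lit 171) (nat_lit 5) (nat_lit 658) (nat_lit 571) (nat_lit 331))))) (XT.nd (nat_lit 74490) (nat_lit 0) (nat_lit 27360) (XT.nd (nat_lit 74412) (nat_lit 0) (nat_lit 27360) (XT.lf (nat_lit 0) (nat_lit 6263404859) (nat_lit 456) (nat_lit 18654426683) (nat_lit 76) (nat_lit 5172528964) (nat_lit 159) (nat_lit 5) (nat_lit 165) (nat_lit 5) (nat_lit 160) (nat_lit 5) (nat_lit 659) (nat_lit 571) (nat_lit 330)) (XT.lf (nat_lit 0) (nat_lit 4156972522) (nat_lit 1748) (nat_lit 850013609) (nat_lit 1748) (nat_lit 850013609) (nat_lit 519) (nat_lit 3) (nat_lit 542) (nat_lit 3) (nat_lit 542) (nat_lit 5) (nat_lit 572) (nat_lit 572) (nat_lit 416))) (XT.nd (nat_lit 78) (nat_lit 0) (nat_lit 76) (XT.lf (nat_lit 76) (nat_lit 4166218442) (nat_lit 0) (nat_lit 4756572572) (nat_lit 1748) (nat_lit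 2897802236) (nat_lit 520) (nat_lit 5) (nat_lit 519) (nat_lit 3) (nat_lit 542) (nat_lit 5) (nat_lit 573) (nat_lit 572) (nat_lit 415)) (XT.nd (nat_lit 78) (nat_lit 0) (nat_lit 0) (XT.lf (nat_lit 0) (nat_lit 9546149410) (nat_lit 1672) (nat_lit 1767331827) (nat_lit 1748) (nat_lit 615791788) (nat_lit 520) (nat_lit 5) (nat_lit 542) (nat_lit 5) (nat_lit 543) (nat_lit 5) (nat_lit 574) (nat_lit 572) (nat_lit 414)) (XT.lf (nat_lit 76) (nat_lit 4254828405) (nat_lit 0) (nat_lit 5973446222) (nat_lit 1748) (nat_lit 1810926600) (nat_lit 521) (nat_lit 5) (nat_lit 520) (nat_lit 5) (nat_lit 543) (nat_lit 5) (nat_lit 575) (nat_lit 572) (nat_lit 413))))))) (XT.nd (nat_lit 780) (nat_lit 1292) (nat_lit 0) (XT.nd (nat_lit 390) (nat_lit 0) (nat_lit 152) (XT.nd (nat_lit 156) (nat_lit 1672) (nat_lit 0) (XT.nd (nat_lit 78) (nat_lit 0) (nat_lit 76) (XT.lf (nat_lit 76) (nat_lit 10414508089) (nat_lit 0) (nat_lit 508774811) (nat_lit 1748) (nat_lit 1228061092) (nat_lit 521) (nat_lit 5) (nat_lit 520) (nat_lit 5) (nat_lit 543) (nat_lit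 5) (nat_lit 576) (nat_lit 572) (nat_lit 412)) (XT.lf (nat_lit 76) (nat_lit 4450098776) (nat_lit 0) (nat_lit 7231536916) (nat_lit 1748) (nat_lit 583105825) (nat_lit 522) (nat_lit 5) (nat_lit 521) (nat_lit 5) (nat_lit 544) (nat_lit 5) (nat_lit 577) (nat_lit 572) (nat_lit 411))) (XT.nd (nat_lit 78) (nat_lit 0) (nat_lit 76) (XT.lf (nat_lit 0) (nat_lit 76649997) (nat_lit 1748) (nat_lit 1606937503) (nat_lit 1824) (nat_lit 10696752914) (nat_lit 498) (nat_lit 5) (nat_lit 521) (nat_lit 5) (nat_lit 522) (nat_lit 5) (nat_lit 578) (nat_lit 572) (nat_lit 410)) (XT.nd (nat_lit 78) (nat_lit 0) (nat_lit 0) (XT.lf (nat_lit 0) (nat_lit 786907386) (nat_lit 1748) (nat_lit 7747167329) (nat_lit 1824) (nat_lit 3963197951) (nat_lit 499) (nat_lit 5) (nat_lit 522) (nat_lit 5) (nat_lit 523) (nat_lit 5) (nat_lit 579) (nat_lit 572) (nat_lit 409)) (XT.lf (nat_lit 0) (nat_lit 1521615146) (nat_lit 1748) (nat_lit 1378706214) (nat_lit 1824) (nat_lit 9716018030) (nat_lit 499) (nat_lit 5) (nat_lit 522) (nat_lit 5) (nat_lit 523) (nat_lit 5)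 (nat_lit 580) (nat_lit 572) (nat_lit 408))))) (XT.nd (nat_lit 156) (nat_lit 0) (nat_lit 76) (XT.nd (nat_lit 78) (nat_lit 0) (nat_lit 0) (XT.lf (nat_lit 0) (nat_lit 2311837419) (nat_lit 1748) (nat_lit 7578129911) (nat_lit 1824) (nat_lit 2847004432) (nat_lit 500) (nat_lit 5) (nat_lit 523) (nat_lit 5) (nat_lit 524) (nat_lit 5) (nat_lit 581) (nat_lit 572) (nat_lit 407)) (XT.lf (nat_lit 0) (nat_lit 3135064386) (nat_lit 1748) (nat_lit 1040566925) (nat_lit 1824) (nat_lit 8684042168) (nat_lit 500) (nat_lit 5) (nat_lit 523) (nat_lit 5) (nat_lit 524) (nat_lit 5) (nat_lit 582) (nat_lit 572) (nat_lit 406))) (XT.nd (nat_lit 78) (nat_lit 0) (nat_lit 0) (XT.lf (nat_lit 0) (nat_lit 4011637978) (nat_lit 1748) (nat_lit 7300026122) (nat_lit 1824) (nat_lit 1672428179) (nat_lit 501) (nat_lit 5) (nat_lit 524) (nat_lit 5) (nat_lit 525) (nat_lit 5) (nat_lit 583) (nat_lit 572) (nat_lit 405)) (XT.nd (nat_lit 78) (nat_lit 0) (nat_lit 76) (XT.lf (nat_lit 0) (nat_lit 4929523185) (nat_lit 1748) (nat_lit 588612161) (nat_lit 1824) (nat_lit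 7592389184) (nat_lit 501) (nat_lit 5) (nat_lit 524) (nat_lit 5) (nat_lit 525) (nat_lit 5) (nat_lit 584) (nat_lit 572) (nat_lit 404)) (XT.lf (nat_lit 0) (nat_lit 5899030342) (nat_lit 1748) (nat_lit 6908831688) (nat_lit 1824) (nat_lit 430958775) (nat_lit 502) (nat_lit 5) (nat_lit 525) (nat_lit 5) (nat_lit 526) (nat_lit 5) (nat_lit 585) (nat_lit 572) (nat_lit 403)))))) (XT.nd (nat_lit 390) (nat_lit 1596) (nat_lit 0) (XT.nd (nat_lit 156) (nat_lit 0) (nat_lit 76) (XT.nd (nat_lit 78) (nat_lit 0) (nat_lit 0) (XT.lf (nat_lit 0) (nat_lit 6917944322) (nat_lit 1748) (nat_lit 18624372) (nat_lit 1824) (nat_lit 6432514630) (nat_lit 502) (nat_lit 5) (nat_lit 525) (nat_lit 5) (nat_lit 526) (nat_lit 5) (nat_lit 586) (nat_lit 572) (nat_lit 402)) (XT.lf (nat_lit 76) (nat_lit 7095195302) (nat_lit 0) (nat_lit 897810620) (nat_lit 1824) (nat_lit 5508230420) (nat_lit 503) (nat_lit 5) (nat_lit 502) (nat_lit 5) (nat_lit 526) (nat_lit 5) (nat_lit 587) (nat_lit 572) (nat_lit 401))) (XT.nd (nat_lit 78) (nat_lit 0) (nat_lit 0) (XT.lf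 (nat_lit 76) (nat_lit 682885193) (nat_lit 0) (nat_lit 8435282615) (nat_lit 1824) (nat_lit 4517293259) (nat_lit 504) (nat_lit 5) (nat_lit 503) (nat_lit 5) (nat_lit 527) (nat_lit 5) (nat_lit 588) (nat_lit 572) (nat_lit 400)) (XT.nd (nat_lit 78) (nat_lit 0) (nat_lit 76) (XT.lf (nat_lit 76) (nat_lit 7987028115) (nat_lit 0) (nat_lit 2317726904) (nat_lit 1824) (nat_lit 3466837438) (nat_lit 504) (nat_lit 5) (nat_lit 503) (nat_lit 5) (nat_lit 527) (nat_lit 5) (nat_lit 589) (nat_lit 572) (nat_lit 399)) (XT.lf (nat_lit 76) (nat_lit 1513754431) (nat_lit 0) (nat_lit 10026852855) (nat_lit 1824) (nat_lit 2369329125) (nat_lit 505) (nat_lit 5) (nat_lit 504) (nat_lit 5) (nat_lit 528) (nat_lit 5) (nat_lit 590) (nat_lit 572) (nat_lit 398))))) (XT.nd (nat_lit 234) (nat_lit 0) (nat_lit 76) (XT.nd (nat_lit 78) (nat_lit 1748) (nat_lit 0) (XT.lf (nat_lit 76) (nat_lit 9013505902) (nat_lit 0) (nat_lit 3832119377) (nat_lit 1824) (nat_lit 1204533580) (nat_lit 505) (nat_lit 5) (nat_lit 504) (nat_lit 5) (nat_lit 528) (nat_lit 5) (nat_lit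 591) (nat_lit 572) (nat_lit 397)) (XT.nd (nat_lit 78) (nat_lit 0) (nat_lit 0) (XT.lf (nat_lit 0) (nat_lit 6749122) (nat_lit 1824) (nat_lit 11713789501) (nat_lit 1900) (nat_lit 2472190323) (nat_lit 481) (nat_lit 5) (nat_lit 505) (nat_lit 5) (nat_lit 506) (nat_lit 5) (nat_lit 592) (nat_lit 572) (nat_lit 396)) (XT.lf (nat_lit 0) (nat_lit 1276204828) (nat_lit 1824) (nat_lit 4165462597) (nat_lit 1900) (nat_lit 8895322804) (nat_lit 481) (nat_lit 5) (nat_lit 505) (nat_lit 5) (nat_lit 506) (nat_lit 5) (nat_lit 593) (nat_lit 572) (nat_lit 395)))) (XT.nd (nat_lit 78) (nat_lit 0) (nat_lit 0) (XT.lf (nat_lit 0) (nat_lit 2591509609) (nat_lit 1824) (nat_lit 10916955342) (nat_lit 1900) (nat_lit 975263133) (nat_lit 482) (nat_lit 5) (nat_lit 506) (nat_lit 5) (nat_lit 507) (nat_lit 5) (nat_lit 594) (nat_lit 572) (nat_lit 394)) (XT.nd (nat_lit 78) (nat_lit 0) (nat_lit 0) (XT.lf (nat_lit 0) (nat_lit 3988281947) (nat_lit 1824) (nat_lit 3166469326) (nat_lit 1900) (nat_lit 7477546727) (nat_lit 482) (nat_lit 5) (nat_lit 506) (nat_lit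 5) (nat_lit 507) (nat_lit 5) (nat_lit 595) (nat_lit 572) (nat_lit 393)) (XT.lf (nat_lit 76) (nat_lit 4794533299) (nat_lit 0) (nat_lit 640748826) (nat_lit 1900) (nat_lit 9348111864) (nat_lit 483) (nat_lit 5) (nat_lit 482) (nat_lit 5) (nat_lit 507) (nat_lit 5) (nat_lit 596) (nat_lit 572) (nat_lit 392))))))))
noncomputable def xc167 : XT := (XT.nd (nat_lit 1716) (nat_lit 7448) (nat_lit 0) (XT.nd (nat_lit 936) (nat_lit 4788) (nat_lit 0) (XT.nd (nat_lit 390) (nat_lit 2660) (nat_lit 0) (XT.nd (nat_lit 156) (nat_lit 1976) (nat_lit 0) (XT.nd (nat_lit 78) (nat_lit 1824) (nat_lit 0) (XT.lf (nat_lit 0) (nat_lit 6962888435) (nat_lit 1824) (nat_lit 2026037760) (nat_lit 76) (nat_lit 5947552895) (nat_lit 483) (nat_lit 5) (nat_lit 507) (nat_lit 5) (nat_lit 484) (nat_lit 5) (nat_lit 597) (nat_lit 572) (nat_lit 391)) (XT.lf (nat_lit 0) (nat_lit 6165294962) (nat_lit 1824) (nat_lit 2391492901) (nat_lit 1900) (nat_lit 6535123713) (nat_lit 459) (nat_lit 5) (nat_lit 483) (nat_lit 5) (nat_lit 484) (nat_lit 5) (nat_lit 598) (nat_lit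 572) (nat_lit 390))) (XT.nd (nat_lit 78) (nat_lit 1976) (nat_lit 0) (XT.lf (nat_lit 0) (nat_lit 10216010920) (nat_lit 1900) (nat_lit 738007142) (nat_lit 76) (nat_lit 4295766230) (nat_lit 459) (nat_lit 5) (nat_lit 484) (nat_lit 5) (nat_lit 460) (nat_lit 5) (nat_lit 599) (nat_lit 572) (nat_lit 389)) (XT.nd (nat_lit 78) (nat_lit 912) (nat_lit 0) (XT.lf (nat_lit 0) (nat_lit 7692076977) (nat_lit 1064) (nat_lit 4273881391) (nat_lit 1140) (nat_lit 3443705780) (nat_lit 445) (nat_lit 5) (nat_lit 459) (nat_lit 5) (nat_lit 460) (nat_lit 5) (nat_lit 600) (nat_lit 572) (nat_lit 388)) (XT.lf (nat_lit 0) (nat_lit 713495601) (nat_lit 912) (nat_lit 13055397072) (nat_lit 988) (nat_lit 1803489643) (nat_lit 433) (nat_lit 5) (nat_lit 445) (nat_lit 5) (nat_lit 446) (nat_lit 5) (nat_lit 601) (nat_lit 572) (nat_lit 387))))) (XT.nd (nat_lit 156) (nat_lit 1672) (nat_lit 0) (XT.nd (nat_lit 78) (nat_lit 988) (nat_lit 0) (XT.lf (nat_lit 0) (nat_lit 9381720171) (nat_lit 912) (nat_lit 6298063056) (nat_lit 988) (nat_lit 57134133) (nat_lit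 433) (nat_lit 5) (nat_lit 445) (nat_lit 5) (nat_lit 446) (nat_lit 5) (nat_lit 602) (nat_lit 572) (nat_lit 386)) (XT.lf (nat_lit 0) (nat_lit 1712800117) (nat_lit 988) (nat_lit 13577848617) (nat_lit 76) (nat_lit 613645651) (nat_lit 420) (nat_lit 5) (nat_lit 433) (nat_lit 5) (nat_lit 421) (nat_lit 5) (nat_lit 603) (nat_lit 572) (nat_lit 385))) (XT.nd (nat_lit 234) (nat_lit 1672) (nat_lit 0) (XT.lf (nat_lit 0) (nat_lit 3594212850) (nat_lit 988) (nat_lit 4856152732) (nat_lit 76) (nat_lit 7623109355) (nat_lit 420) (nat_lit 5) (nat_lit 433) (nat_lit 5) (nat_lit 421) (nat_lit 5) (nat_lit 604) (nat_lit 572) (nat_lit 384)) (XT.nd (nat_lit 78) (nat_lit 0) (nat_lit 0) (XT.lf (nat_lit 0) (nat_lit 6016798336) (nat_lit 836) (nat_lit 3675283509) (nat_lit 912) (nat_lit 6905014315) (nat_lit 398) (nat_lit 5) (nat_lit 409) (nat_lit 5) (nat_lit 410) (nat_lit 5) (nat_lit 607) (nat_lit 572) (nat_lit 381)) (XT.lf (nat_lit 0) (nat_lit 11892833626) (nat_lit 912) (nat_lit 1354819856) (nat_lit 76) (nat_lit 3529285866) (nat_lit 398)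 (nat_lit 5) (nat_lit 410) (nat_lit 5) (nat_lit 399) (nat_lit 5) (nat_lit 608) (nat_lit 572) (nat_lit 380)))))) (XT.nd (nat_lit 390) (nat_lit 2280) (nat_lit 0) (XT.nd (nat_lit 156) (nat_lit 836) (nat_lit 0) (XT.nd (nat_lit 78) (nat_lit 836) (nat_lit 0) (XT.lf (nat_lit 0) (nat_lit 8130206981) (nat_lit 836) (nat_lit 6077371513) (nat_lit 912) (nat_lit 2751401741) (nat_lit 387) (nat_lit 5) (nat_lit 398) (nat_lit 5) (nat_lit 399) (nat_lit 5) (nat_lit 609) (nat_lit 572) (nat_lit 379)) (XT.lf (nat_lit 0) (nat_lit 672205062) (nat_lit 836) (nat_lit 15910900516) (nat_lit 912) (nat_lit 561267004) (nat_lit 376) (nat_lit 5) (nat_lit 387) (nat_lit 5) (nat_lit 388) (nat_lit 5) (nat_lit 610) (nat_lit 572) (nat_lit 378))) (XT.nd (nat_lit 78) (nat_lit 760) (nat_lit 0) (XT.lf (nat_lit 0) (nat_lit 1743607273) (nat_lit 912) (nat_lit 6908296770) (nat_lit 76) (nat_lit 8679494421) (nat_lit 375) (nat_lit 5) (nat_lit 387) (nat_lit 5) (nat_lit 376) (nat_lit 5) (nat_lit 611) (nat_lit 572) (nat_lit 377)) (XT.nd (nat_lit 78) (nat_lit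 0) (nat_lit 0) (XT.lf (nat_lit 0) (nat_lit 2873578500) (nat_lit 760) (nat_lit 1225275508) (nat_lit 836) (nat_lit 13423001215) (nat_lit 365) (nat_lit 5) (nat_lit 375) (nat_lit 5) (nat_lit 376) (nat_lit 5) (nat_lit 612) (nat_lit 572) (nat_lit 376)) (XT.lf (nat_lit 0) (nat_lit 6582310198) (nat_lit 836) (nat_lit 4819322728) (nat_lit 76) (nat_lit 6312866461) (nat_lit 365) (nat_lit 5) (nat_lit 376) (nat_lit 5) (nat_lit 366) (nat_lit 5) (nat_lit 613) (nat_lit 572) (nat_lit 375))))) (XT.nd (nat_lit 156) (nat_lit 1520) (nat_lit 0) (XT.nd (nat_lit 78) (nat_lit 0) (nat_lit 0) (XT.lf (nat_lit 0) (nat_lit 5259894962) (nat_lit 760) (nat_lit 3891150324) (nat_lit 836) (nat_lit 8759239304) (nat_lit 355) (nat_lit 5) (nat_lit 365) (nat_lit 5) (nat_lit 366) (nat_lit 5) (nat_lit 614) (nat_lit 572) (nat_lit 374)) (XT.lf (nat_lit 0) (nat_lit 11821608922) (nat_lit 836) (nat_lit 2535269301) (nat_lit 76) (nat_lit 3752098545) (nat_lit 355) (nat_lit 5) (nat_lit 366) (nat_lit 5) (nat_lit 356) (nat_lit 5) (nat_lit 615) (nat_lit 572)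 (nat_lit 373))) (XT.nd (nat_lit 78) (nat_lit 836) (nat_lit 0) (XT.lf (nat_lit 0) (nat_lit 7852244033) (nat_lit 684) (nat_lit 6763645011) (nat_lit 760) (nat_lit 3694347978) (nat_lit 346) (nat_lit 5) (nat_lit 355) (nat_lit 5) (nat_lit 356) (nat_lit 5) (nat_lit 616) (nat_lit 572) (nat_lit 372)) (XT.nd (nat_lit 78) (nat_lit 836) (nat_lit 0) (XT.lf (nat_lit 0) (nat_lit 17483182528) (nat_lit 760) (nat_lit 46993198) (nat_lit 76) (nat_lit 985004531) (nat_lit 346) (nat_lit 5) (nat_lit 356) (nat_lit 5) (nat_lit 347) (nat_lit 5) (nat_lit 617) (nat_lit 572) (nat_lit 371)) (XT.lf (nat_lit 0) (nat_lit 1769992242) (nat_lit 836) (nat_lit 8073526445) (nat_lit 76) (nat_lit 8878315901) (nat_lit 335) (nat_lit 5) (nat_lit 346) (nat_lit 5) (nat_lit 336) (nat_lit 5) (nat_lit 618) (nat_lit 572) (nat_lit 370))))))) (XT.nd (nat_lit 780) (nat_lit 3496) (nat_lit 0) (XT.nd (nat_lit 390) (nat_lit 1976) (nat_lit 0) (XT.nd (nat_lit 156) (nat_lit 1292) (nat_lit 0) (XT.nd (nat_lit 78) (nat_lit 0) (nat_lit 0) (XT.lf (nat_lit 0) (nat_lit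 2646312005) (nat_lit 684) (nat_lit 1979194049) (nat_lit 760) (nat_lit 14306753784) (nat_lit 326) (nat_lit 5) (nat_lit 335) (nat_lit 5) (nat_lit 336) (nat_lit 5) (nat_lit 619) (nat_lit 572) (nat_lit 369)) (XT.lf (nat_lit 0) (nat_lit 7625758500) (nat_lit 760) (nat_lit 5502579730) (nat_lit 76) (nat_lit 6016803102) (nat_lit 326) (nat_lit 5) (nat_lit 336) (nat_lit 5) (nat_lit 327) (nat_lit 5) (nat_lit 620) (nat_lit 572) (nat_lit 368))) (XT.nd (nat_lit 78) (nat_lit 608) (nat_lit 0) (XT.lf (nat_lit 0) (nat_lit 5549100929) (nat_lit 684) (nat_lit 5180031709) (nat_lit 760) (nat_lit 8632285786) (nat_lit 317) (nat_lit 5) (nat_lit 326) (nat_lit 5) (nat_lit 327) (nat_lit 5) (nat_lit 621) (nat_lit 572) (nat_lit 367)) (XT.nd (nat_lit 78) (nat_lit 608) (nat_lit 0) (XT.lf (nat_lit 0) (nat_lit 13944796552) (nat_lit 760) (nat_lit 2711219882) (nat_lit 76) (nat_lit 2925000472) (nat_lit 317) (nat_lit 5) (nat_lit 327) (nat_lit 5) (nat_lit 318) (nat_lit 5) (nat_lit 622) (nat_lit 572) (nat_lit 366)) (XT.lf (nat_lit 0) (nat_lit 8684541893)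 (nat_lit 608) (nat_lit 8625086191) (nat_lit 684) (nat_lit 2493682477) (nat_lit 309) (nat_lit 5) (nat_lit 317) (nat_lit 5) (nat_lit 318) (nat_lit 5) (nat_lit 623) (nat_lit 572) (nat_lit 365))))) (XT.nd (nat_lit 156) (nat_lit 1216) (nat_lit 0) (XT.nd (nat_lit 78) (nat_lit 0) (nat_lit 0) (XT.lf (nat_lit 0) (nat_lit 307592806) (nat_lit 684) (nat_lit 409285305) (nat_lit 760) (nat_lit 19312789716) (nat_lit 299) (nat_lit 5) (nat_lit 308) (nat_lit 5) (nat_lit 309) (nat_lit 5) (nat_lit 624) (nat_lit 572) (nat_lit 364)) (XT.lf (nat_lit 0) (nat_lit 4079405349) (nat_lit 760) (nat_lit 8221666352) (nat_lit 76) (nat_lit 7956728228) (nat_lit 299) (nat_lit 5) (nat_lit 309) (nat_lit 5) (nat_lit 300) (nat_lit 5) (nat_lit 625) (nat_lit 572) (nat_lit 363))) (XT.nd (nat_lit 78) (nat_lit 608) (nat_lit 0) (XT.lf (nat_lit 0) (nat_lit 3545634557) (nat_lit 608) (nat_lit 3983648107) (nat_lit 684) (nat_lit 12960810285) (nat_lit 291) (nat_lit 5) (nat_lit 299) (nat_lit 5) (nat_lit 300) (nat_lit 5) (nat_lit 626) (nat_lit 572) (nat_lit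 362)) (XT.nd (nat_lit 78) (nat_lit 608) (nat_lit 0) (XT.lf (nat_lit 0) (nat_lit 11127338282) (nat_lit 684) (nat_lit 5102748016) (nat_lit 76) (nat_lit 4495362178) (nat_lit 291) (nat_lit 5) (nat_lit 300) (nat_lit 5) (nat_lit 292) (nat_lit 5) (nat_lit 627) (nat_lit 572) (nat_lit 361)) (XT.lf (nat_lit 0) (nat_lit 7034849887) (nat_lit 608) (nat_lit 7829096990) (nat_lit 684) (nat_lit 6100232655) (nat_lit 283) (nat_lit 5) (nat_lit 291) (nat_lit 5) (nat_lit 292) (nat_lit 5) (nat_lit 628) (nat_lit 572) (nat_lit 360)))))) (XT.nd (nat_lit 390) (nat_lit 1672) (nat_lit 0) (XT.nd (nat_lit 156) (nat_lit 1140) (nat_lit 0) (XT.nd (nat_lit 78) (nat_lit 684) (nat_lit 0) (XT.lf (nat_lit 0) (nat_lit 18709149859) (nat_lit 684) (nat_lit 1734544916) (nat_lit 76) (nat_lit 763313442) (nat_lit 283) (nat_lit 5) (nat_lit 292) (nat_lit 5) (nat_lit 284) (nat_lit 5) (nat_lit 629) (nat_lit 572) (nat_lit 359)) (XT.lf (nat_lit 0) (nat_lit 1278484573) (nat_lit 684) (nat_lit 10673760069) (nat_lit 76) (nat_lit 9499949257) (nat_lit 274) (nat_lit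 5) (nat_lit 283) (nat_lit 5) (nat_lit 275) (nat_lit 5) (nat_lit 630) (nat_lit 572) (nat_lit 358))) (XT.nd (nat_lit 78) (nat_lit 532) (nat_lit 0) (XT.lf (nat_lit 0) (nat_lit 1864190196) (nat_lit 608) (nat_lit 3251290395) (nat_lit 684) (nat_lit 16586101270) (nat_lit 266) (nat_lit 5) (nat_lit 274) (nat_lit 5) (nat_lit 275) (nat_lit 5) (nat_lit 631) (nat_lit 572) (nat_lit 357)) (XT.nd (nat_lit 78) (nat_lit 532) (nat_lit 0) (XT.lf (nat_lit 0) (nat_lit 9132601058) (nat_lit 684) (nat_lit 7200750904) (nat_lit 76) (nat_lit 5620538164) (nat_lit 266) (nat_lit 5) (nat_lit 275) (nat_lit 5) (nat_lit 267) (nat_lit 5) (nat_lit 632) (nat_lit 572) (nat_lit 356)) (XT.lf (nat_lit 0) (nat_lit 5735624580) (nat_lit 532) (nat_lit 7548084039) (nat_lit 608) (nat_lit 8926463270) (nat_lit 259) (nat_lit 5) (nat_lit 266) (nat_lit 5) (nat_lit 267) (nat_lit 5) (nat_lit 633) (nat_lit 572) (nat_lit 355))))) (XT.nd (nat_lit 234) (nat_lit 532) (nat_lit 0) (XT.nd (nat_lit 78) (nat_lit 1140) (nat_lit 0) (XT.lf (nat_lit 0) (nat_lit 17570573194)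 (nat_lit 608) (nat_lit 3458508112) (nat_lit 76) (nat_lit 1441443510) (nat_lit 259) (nat_lit 5) (nat_lit 267) (nat_lit 5) (nat_lit 260) (nat_lit 5) (nat_lit 634) (nat_lit 572) (nat_lit 354)) (XT.nd (nat_lit 78) (nat_lit 608) (nat_lit 0) (XT.lf (nat_lit 0) (nat_lit 9890981193) (nat_lit 532) (nat_lit 12161420195) (nat_lit 608) (nat_lit 681499102) (nat_lit 252) (nat_lit 5) (nat_lit 259) (nat_lit 5) (nat_lit 260) (nat_lit 5) (nat_lit 635) (nat_lit 572) (nat_lit 353)) (XT.lf (nat_lit 0) (nat_lit 528904715) (nat_lit 532) (nat_lit 3066761984) (nat_lit 608) (nat_lit 19405970180) (nat_lit 244) (nat_lit 5) (nat_lit 251) (nat_lit 5) (nat_lit 252) (nat_lit 5) (nat_lit 636) (nat_lit 572) (nat_lit 352)))) (XT.nd (nat_lit 78) (nat_lit 532) (nat_lit 0) (XT.lf (nat_lit 0) (nat_lit 8071416605) (nat_lit 608) (nat_lit 8982823786) (nat_lit 76) (nat_lit 6217954397) (nat_lit 244) (nat_lit 5) (nat_lit 252) (nat_lit 5) (nat_lit 245) (nat_lit 5) (nat_lit 637) (nat_lit 572) (nat_lit 351)) (XT.nd (nat_lit 78) (nat_lit 0) (nat_lit 0)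 (XT.lf (nat_lit 0) (nat_lit 4813157577) (nat_lit 532) (nat_lit 7870266140) (nat_lit 608) (nat_lit 10863805495) (nat_lit 237) (nat_lit 5) (nat_lit 244) (nat_lit 5) (nat_lit 245) (nat_lit 5) (nat_lit 638) (nat_lit 572) (nat_lit 350)) (XT.lf (nat_lit 0) (nat_lit 17453295027) (nat_lit 608) (nat_lit 4836439017) (nat_lit 76) (nat_lit 1536717999) (nat_lit 237) (nat_lit 5) (nat_lit 245) (nat_lit 5) (nat_lit 238) (nat_lit 5) (nat_lit 639) (nat_lit 572) (nat_lit 349))))))))
noncomputable def xc168 : XT := (XT.nd (nat_lit 75972) (nat_lit 0) (nat_lit 25308) (XT.nd (nat_lit 780) (nat_lit 2508) (nat_lit 0) (XT.nd (nat_lit 390) (nat_lit 1444) (nat_lit 0) (XT.nd (nat_lit 156) (nat_lit 988) (nat_lit 0) (XT.nd (nat_lit 78) (nat_lit 76) (nat_lit 0) (XT.lf (nat_lit 0) (nat_lit 9403906114) (nat_lit 456) (nat_lit 13023152014) (nat_lit 532) (nat_lit 1682031507) (nat_lit 231) (nat_lit 5) (nat_lit 237) (nat_lit 5) (nat_lit 238) (nat_lit 5) (nat_lit 640) (nat_lit 572) (nat_lit 348)) (XT.lf (nat_lit 0) (nat_lit 3090227523) (nat_lit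 532) (nat_lit 428947457) (nat_lit 76) (nat_lit 20877242138) (nat_lit 230) (nat_lit 5) (nat_lit 237) (nat_lit 5) (nat_lit 231) (nat_lit 5) (nat_lit 641) (nat_lit 572) (nat_lit 347))) (XT.nd (nat_lit 78) (nat_lit 456) (nat_lit 0) (XT.lf (nat_lit 0) (nat_lit 8064490842) (nat_lit 608) (nat_lit 10425357941) (nat_lit 76) (nat_lit 6196838554) (nat_lit 223) (nat_lit 5) (nat_lit 231) (nat_lit 5) (nat_lit 224) (nat_lit 5) (nat_lit 642) (nat_lit 572) (nat_lit 346)) (XT.nd (nat_lit 78) (nat_lit 0) (nat_lit 0) (XT.lf (nat_lit 0) (nat_lit 4295144400) (nat_lit 456) (nat_lit 8892650214) (nat_lit 532) (nat_lit 11793977424) (nat_lit 217) (nat_lit 5) (nat_lit 223) (nat_lit 5) (nat_lit 224) (nat_lit 5) (nat_lit 643) (nat_lit 572) (nat_lit 345)) (XT.lf (nat_lit 0) (nat_lit 18485308687) (nat_lit 532) (nat_lit 5842687028) (nat_lit 76) (nat_lit 953328010) (nat_lit 217) (nat_lit 5) (nat_lit 224) (nat_lit 5) (nat_lit 218) (nat_lit 5) (nat_lit 644) (nat_lit 572) (nat_lit 344))))) (XT.nd (nat_lit 156) (nat_lit 912) (nat_lit 0) (XT.nd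 (nat_lit 78) (nat_lit 76) (nat_lit 0) (XT.lf (nat_lit 0) (nat_lit 9355648435) (nat_lit 456) (nat_lit 14648348280) (nat_lit 532) (nat_lit 1580565429) (nat_lit 211) (nat_lit 5) (nat_lit 217) (nat_lit 5) (nat_lit 218) (nat_lit 5) (nat_lit 645) (nat_lit 572) (nat_lit 343)) (XT.lf (nat_lit 0) (nat_lit 3725225840) (nat_lit 532) (nat_lit 986778800) (nat_lit 76) (nat_lit 21180673854) (nat_lit 210) (nat_lit 5) (nat_lit 217) (nat_lit 5) (nat_lit 211) (nat_lit 5) (nat_lit 646) (nat_lit 572) (nat_lit 342))) (XT.nd (nat_lit 78) (nat_lit 456) (nat_lit 0) (XT.lf (nat_lit 0) (nat_lit 9243262943) (nat_lit 532) (nat_lit 11504000574) (nat_lit 76) (nat_lit 5456938990) (nat_lit 204) (nat_lit 5) (nat_lit 211) (nat_lit 5) (nat_lit 205) (nat_lit 5) (nat_lit 647) (nat_lit 572) (nat_lit 341)) (XT.nd (nat_lit 78) (nat_lit 0) (nat_lit 0) (XT.lf (nat_lit 0) (nat_lit 4210223232) (nat_lit 456) (nat_lit 10722368317) (nat_lit 532) (nat_lit 11588146996) (nat_lit 198) (nat_lit 5) (nat_lit 204) (nat_lit 5) (nat_lit 205) (nat_lit 5) (nat_lit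 648) (nat_lit 572) (nat_lit 340)) (XT.lf (nat_lit 0) (nat_lit 20388493003) (nat_lit 456) (nat_lit 420179562) (nat_lit 532) (nat_lit 6033473579) (nat_lit 198) (nat_lit 5) (nat_lit 204) (nat_lit 5) (nat_lit 205) (nat_lit 5) (nat_lit 649) (nat_lit 572) (nat_lit 339)))))) (XT.nd (nat_lit 390) (nat_lit 1216) (nat_lit 0) (XT.nd (nat_lit 156) (nat_lit 836) (nat_lit 0) (XT.nd (nat_lit 78) (nat_lit 76) (nat_lit 0) (XT.lf (nat_lit 0) (nat_lit 9776946481) (nat_lit 380) (nat_lit 17150144003) (nat_lit 456) (nat_lit 240395257) (nat_lit 193) (nat_lit 5) (nat_lit 198) (nat_lit 5) (nat_lit 199) (nat_lit 5) (nat_lit 650) (nat_lit 572) (nat_lit 338)) (XT.lf (nat_lit 0) (nat_lit 5636430682) (nat_lit 456) (nat_lit 1124843135) (nat_lit 76) (nat_lit 20736477781) (nat_lit 192) (nat_lit 5) (nat_lit 198) (nat_lit 5) (nat_lit 193) (nat_lit 5) (nat_lit 651) (nat_lit 572) (nat_lit 337))) (XT.nd (nat_lit 78) (nat_lit 380) (nat_lit 0) (XT.lf (nat_lit 0) (nat_lit 11750785892) (nat_lit 532) (nat_lit 12194222963) (nat_lit 76) (nat_lit 3887118050)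 (nat_lit 186) (nat_lit 5) (nat_lit 193) (nat_lit 5) (nat_lit 187) (nat_lit 5) (nat_lit 652) (nat_lit 572) (nat_lit 336)) (XT.nd (nat_lit 78) (nat_lit 0) (nat_lit 0) (XT.lf (nat_lit 0) (nat_lit 4587402054) (nat_lit 380) (nat_lit 13478148179) (nat_lit 456) (nat_lit 10106077186) (nat_lit 181) (nat_lit 5) (nat_lit 186) (nat_lit 5) (nat_lit 187) (nat_lit 5) (nat_lit 653) (nat_lit 572) (nat_lit 335)) (XT.lf (nat_lit 0) (nat_lit 21863944613) (nat_lit 380) (nat_lit 2720497683) (nat_lit 456) (nat_lit 3931919136) (nat_lit 181) (nat_lit 5) (nat_lit 186) (nat_lit 5) (nat_lit 187) (nat_lit 5) (nat_lit 654) (nat_lit 572) (nat_lit 334))))) (XT.nd (nat_lit 156) (nat_lit 760) (nat_lit 0) (XT.nd (nat_lit 78) (nat_lit 0) (nat_lit 0) (XT.lf (nat_lit 0) (nat_lit 2454595419) (nat_lit 456) (nat_lit 18182950157) (nat_lit 76) (nat_lit 8227739483) (nat_lit 175) (nat_lit 5) (nat_lit 181) (nat_lit 5) (nat_lit 176) (nat_lit 5) (nat_lit 655) (nat_lit 572) (nat_lit 333)) (XT.lf (nat_lit 0) (nat_lit 8975275566) (nat_lit 456) (nat_lit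 816660495) (nat_lit 76) (nat_lit 19427549754) (nat_lit 175) (nat_lit 5) (nat_lit 181) (nat_lit 5) (nat_lit 176) (nat_lit 5) (nat_lit 656) (nat_lit 572) (nat_lit 332))) (XT.nd (nat_lit 78) (nat_lit 380) (nat_lit 0) (XT.lf (nat_lit 0) (nat_lit 15742625252) (nat_lit 456) (nat_lit 12472023214) (nat_lit 76) (nat_lit 1363797130) (nat_lit 170) (nat_lit 5) (nat_lit 176) (nat_lit 5) (nat_lit 171) (nat_lit 5) (nat_lit 657) (nat_lit 572) (nat_lit 331)) (XT.nd (nat_lit 78) (nat_lit 0) (nat_lit 0) (XT.lf (nat_lit 0) (nat_lit 5455347053) (nat_lit 380) (nat_lit 17291940822) (nat_lit 456) (nat_lit 7195257504) (nat_lit 165) (nat_lit 5) (nat_lit 170) (nat_lit 5) (nat_lit 171) (nat_lit 5) (nat_lit 658) (nat_lit 572) (nat_lit 330)) (XT.lf (nat_lit 0) (nat_lit 23904485713) (nat_lit 380) (nat_lit 6067471252) (nat_lit 456) (nat_lit 340372053) (nat_lit 165) (nat_lit 5) (nat_lit 170) (nat_lit 5) (nat_lit 171) (nat_lit 5) (nat_lit 659) (nat_lit 572) (nat_lit 329))))))) (XT.nd (nat_lit 780) (nat_lit 0) (nat_lit 152) (XT.nd (nat_lit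 390) (nat_lit 1596) (nat_lit 0) (XT.nd (nat_lit 156) (nat_lit 0) (nat_lit 76) (XT.nd (nat_lit 78) (nat_lit 0) (nat_lit 0) (XT.lf (nat_lit 0) (nat_lit 4735531029) (nat_lit 1748) (nat_lit 614334219) (nat_lit 1748) (nat_lit 614334219) (nat_lit 519) (nat_lit 3) (nat_lit 542) (nat_lit 3) (nat_lit 542) (nat_lit 5) (nat_lit 573) (nat_lit 573) (nat_lit 414)) (XT.lf (nat_lit 76) (nat_lit 4751577404) (nat_lit 0) (nat_lit 5324338885) (nat_lit 1748) (nat_lit 1961532910) (nat_lit 520) (nat_lit 5) (nat_lit 519) (nat_lit 3) (nat_lit 542) (nat_lit 5) (nat_lit 574) (nat_lit 573) (nat_lit 413))) (XT.nd (nat_lit 78) (nat_lit 0) (nat_lit 0) (XT.lf (nat_lit 0) (nat_lit 10689622198) (nat_lit 1672) (nat_lit 1288306730) (nat_lit 1748) (nat_lit 170817261) (nat_lit 520) (nat_lit 5) (nat_lit 542) (nat_lit 5) (nat_lit 543) (nat_lit 5) (nat_lit 575) (nat_lit 573) (nat_lit 412)) (XT.nd (nat_lit 78) (nat_lit 0) (nat_lit 0) (XT.lf (nat_lit 76) (nat_lit 4850912682) (nat_lit 0) (nat_lit 6519117461) (nat_lit 1748) (nat_lit 891151209) (nat_lit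 521) (nat_lit 5) (nat_lit 520) (nat_lit 5) (nat_lit 543) (nat_lit 5) (nat_lit 576) (nat_lit 573) (nat_lit 411)) (XT.lf (nat_lit 76) (nat_lit 11123766593) (nat_lit 0) (nat_lit 936795714) (nat_lit 1748) (nat_lit 315373369) (nat_lit 521) (nat_lit 5) (nat_lit 520) (nat_lit 5) (nat_lit 543) (nat_lit 5) (nat_lit 577) (nat_lit 573) (nat_lit 410))))) (XT.nd (nat_lit 156) (nat_lit 0) (nat_lit 76) (XT.nd (nat_lit 78) (nat_lit 0) (nat_lit 0) (XT.lf (nat_lit 0) (nat_lit 320565472) (nat_lit 1748) (nat_lit 7436275211) (nat_lit 1824) (nat_lit 4735065607) (nat_lit 498) (nat_lit 5) (nat_lit 521) (nat_lit 5) (nat_lit 522) (nat_lit 5) (nat_lit 578) (nat_lit 573) (nat_lit 409)) (XT.lf (nat_lit 0) (nat_lit 967921160) (nat_lit 1748) (nat_lit 1118685314) (nat_lit 1824) (nat_lit 10523490463) (nat_lit 498) (nat_lit 5) (nat_lit 521) (nat_lit 5) (nat_lit 522) (nat_lit 5) (nat_lit 579) (nat_lit 573) (nat_lit 408))) (XT.nd (nat_lit 78) (nat_lit 0) (nat_lit 0) (XT.lf (nat_lit 0) (nat_lit 1675965547) (nat_lit 1748) (nat_lit 7365247153)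 (nat_lit 1824) (nat_lit 3688484585) (nat_lit 499) (nat_lit 5) (nat_lit 522) (nat_lit 5) (nat_lit 523) (nat_lit 5) (nat_lit 580) (nat_lit 573) (nat_lit 407)) (XT.nd (nat_lit 78) (nat_lit 0) (nat_lit 76) (XT.lf (nat_lit 0) (nat_lit 2408243541) (nat_lit 1748) (nat_lit 879943552) (nat_lit 1824) (nat_lit 9563301798) (nat_lit 499) (nat_lit 5) (nat_lit 522) (nat_lit 5) (nat_lit 523) (nat_lit 5) (nat_lit 581) (nat_lit 573) (nat_lit 406)) (XT.lf (nat_lit 0) (nat_lit 3198799755) (nat_lit 1748) (nat_lit 7187832899) (nat_lit 1824) (nat_lit 2588211710) (nat_lit 500) (nat_lit 5) (nat_lit 523) (nat_lit 5) (nat_lit 524) (nat_lit 5) (nat_lit 582) (nat_lit 573) (nat_lit 405)))))) (XT.nd (nat_lit 390) (nat_lit 0) (nat_lit 152) (XT.nd (nat_lit 156) (nat_lit 0) (nat_lit 76) (XT.nd (nat_lit 78) (nat_lit 0) (nat_lit 76) (XT.lf (nat_lit 0) (nat_lit 4022006446) (nat_lit 1748) (nat_lit 530143352) (nat_lit 1824) (nat_lit 8548181041) (nat_lit 500) (nat_lit 5) (nat_lit 523) (nat_lit 5) (nat_lit 524) (nat_lit 5) (nat_lit 583) (nat_lit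 573) (nat_lit 404)) (XT.lf (nat_lit 0) (nat_lit 4901533970) (nat_lit 1748) (nat_lit 6900163904) (nat_lit 1824) (nat_lit 1425832699) (nat_lit 501) (nat_lit 5) (nat_lit 524) (nat_lit 5) (nat_lit 525) (nat_lit 5) (nat_lit 584) (nat_lit 573) (nat_lit 403))) (XT.nd (nat_lit 78) (nat_lit 0) (nat_lit 76) (XT.lf (nat_lit 0) (nat_lit 5821901131) (nat_lit 1748) (nat_lit 65224855) (nat_lit 1824) (nat_lit 7469683983) (nat_lit 501) (nat_lit 5) (nat_lit 524) (nat_lit 5) (nat_lit 525) (nat_lit 5) (nat_lit 585) (nat_lit 573) (nat_lit 402)) (XT.nd (nat_lit 78) (nat_lit 0) (nat_lit 0) (XT.lf (nat_lit 0) (nat_lit 6797062323) (nat_lit 1748) (nat_lit 6498064328) (nat_lit 1824) (nat_lit 192821208) (nat_lit 502) (nat_lit 5) (nat_lit 525) (nat_lit 5) (nat_lit 526) (nat_lit 5) (nat_lit 586) (nat_lit 573) (nat_lit 401)) (XT.lf (nat_lit 76) (nat_lit 526083201) (nat_lit 0) (nat_lit 7298391937) (nat_lit 1824) (nat_lit 5796579027) (nat_lit 503) (nat_lit 5) (nat_lit 502) (nat_lit 5) (nat_lit 526) (nat_lit 5) (nat_lit 587) (nat_lit 573)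 (nat_lit 400))))) (XT.nd (nat_lit 156) (nat_lit 0) (nat_lit 76) (XT.nd (nat_lit 78) (nat_lit 0) (nat_lit 76) (XT.lf (nat_lit 76) (nat_lit 7771738934) (nat_lit 0) (nat_lit 1134359371) (nat_lit 1824) (nat_lit 4850051661) (nat_lit 503) (nat_lit 5) (nat_lit 502) (nat_lit 5) (nat_lit 526) (nat_lit 5) (nat_lit 588) (nat_lit 573) (nat_lit 399)) (XT.lf (nat_lit 76) (nat_lit 1244086855) (nat_lit 0) (nat_lit 8797070912) (nat_lit 1824) (nat_lit 3852154442) (nat_lit 504) (nat_lit 5) (nat_lit 503) (nat_lit 5) (nat_lit 527) (nat_lit 5) (nat_lit 589) (nat_lit 573) (nat_lit 398))) (XT.nd (nat_lit 78) (nat_lit 0) (nat_lit 76) (XT.lf (nat_lit 76) (nat_lit 8683576479) (nat_lit 0) (nat_lit 2553378153) (nat_lit 1824) (nat_lit 2795502930) (nat_lit 504) (nat_lit 5) (nat_lit 503) (nat_lit 5) (nat_lit 527) (nat_lit 5) (nat_lit 590) (nat_lit 573) (nat_lit 397)) (XT.nd (nat_lit 78) (nat_lit 0) (nat_lit 0) (XT.lf (nat_lit 76) (nat_lit 2092997556) (nat_lit 0) (nat_lit 10392648369) (nat_lit 1824) (nat_lit 1688160906) (nat_lit 505) (nat_lit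 5) (nat_lit 504) (nat_lit 5) (nat_lit 528) (nat_lit 5) (nat_lit 591) (nat_lit 573) (nat_lit 396)) (XT.lf (nat_lit 76) (nat_lit 9731979977) (nat_lit 0) (nat_lit 4070779859) (nat_lit 1824) (nat_lit 514354838) (nat_lit 505) (nat_lit 5) (nat_lit 504) (nat_lit 5) (nat_lit 528) (nat_lit 5) (nat_lit 592) (nat_lit 573) (nat_lit 395))))))))
noncomputable def xc169 : XT := (XT.nd (nat_lit 1560) (nat_lit 8284) (nat_lit 0) (XT.nd (nat_lit 780) (nat_lit 4408) (nat_lit 0) (XT.nd (nat_lit 390) (nat_lit 3648) (nat_lit 0) (XT.nd (nat_lit 156) (nat_lit 0) (nat_lit 76) (XT.nd (nat_lit 78) (nat_lit 0) (nat_lit 0) (XT.lf (nat_lit 0) (nat_lit 700518424) (nat_lit 1824) (nat_lit 11389142907) (nat_lit 1900) (nat_lit 2373008253) (nat_lit 481) (nat_lit 5) (nat_lit 505) (nat_lit 5) (nat_lit 506) (nat_lit 5) (nat_lit 593) (nat_lit 573) (nat_lit 394)) (XT.lf (nat_lit 0) (nat_lit 1981762571) (nat_lit 1824) (nat_lit 3700808727) (nat_lit 1900) (nat_lit 8927517617) (nat_lit 481) (nat_lit 5) (nat_lit 505) (nat_lit 5) (nat_lit 506) (nat_lit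 5) (nat_lit 594) (nat_lit 573) (nat_lit 393))) (XT.nd (nat_lit 78) (nat_lit 0) (nat_lit 0) (XT.lf (nat_lit 0) (nat_lit 3312756519) (nat_lit 1824) (nat_lit 10576674746) (nat_lit 1900) (nat_lit 870543393) (nat_lit 482) (nat_lit 5) (nat_lit 506) (nat_lit 5) (nat_lit 507) (nat_lit 5) (nat_lit 595) (nat_lit 573) (nat_lit 392)) (XT.nd (nat_lit 78) (nat_lit 0) (nat_lit 0) (XT.lf (nat_lit 0) (nat_lit 4724338485) (nat_lit 1824) (nat_lit 2682132338) (nat_lit 1900) (nat_lit 7505308444) (nat_lit 482) (nat_lit 5) (nat_lit 506) (nat_lit 5) (nat_lit 507) (nat_lit 5) (nat_lit 596) (nat_lit 573) (nat_lit 391)) (XT.lf (nat_lit 76) (nat_lit 5434487271) (nat_lit 0) (nat_lit 756455367) (nat_lit 1900) (nat_lit 8875142021) (nat_lit 483) (nat_lit 5) (nat_lit 482) (nat_lit 5) (nat_lit 507) (nat_lit 5) (nat_lit 597) (nat_lit 573) (nat_lit 390))))) (XT.nd (nat_lit 156) (nat_lit 1976) (nat_lit 0) (XT.nd (nat_lit 78) (nat_lit 1824) (nat_lit 0) (XT.lf (nat_lit 0) (nat_lit 7735760743) (nat_lit 1824) (nat_lit 1519785421) (nat_lit 76)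 (nat_lit 5966952852) (nat_lit 483) (nat_lit 5) (nat_lit 507) (nat_lit 5) (nat_lit 484) (nat_lit 5) (nat_lit 598) (nat_lit 573) (nat_lit 389)) (XT.lf (nat_lit 0) (nat_lit 6831776764) (nat_lit 1824) (nat_lit 2520864239) (nat_lit 1900) (nat_lit 6028577824) (nat_lit 459) (nat_lit 5) (nat_lit 483) (nat_lit 5) (nat_lit 484) (nat_lit 5) (nat_lit 599) (nat_lit 573) (nat_lit 388))) (XT.nd (nat_lit 78) (nat_lit 1976) (nat_lit 0) (XT.lf (nat_lit 0) (nat_lit 11032280120) (nat_lit 1900) (nat_lit 207437575) (nat_lit 76) (nat_lit 4302787389) (nat_lit 459) (nat_lit 5) (nat_lit 484) (nat_lit 5) (nat_lit 460) (nat_lit 5) (nat_lit 600) (nat_lit 573) (nat_lit 387)) (XT.nd (nat_lit 78) (nat_lit 912) (nat_lit 0) (XT.lf (nat_lit 0) (nat_lit 8387660530) (nat_lit 1064) (nat_lit 4421084335) (nat_lit 1140) (nat_lit 2897008008) (nat_lit 445) (nat_lit 5) (nat_lit 459) (nat_lit 5) (nat_lit 460) (nat_lit 5) (nat_lit 601) (nat_lit 573) (nat_lit 386)) (XT.lf (nat_lit 0) (nat_lit 1278366482) (nat_lit 912) (nat_lit 13360720646) (nat_lit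 988) (nat_lit 1232811983) (nat_lit 433) (nat_lit 5) (nat_lit 445) (nat_lit 5) (nat_lit 446) (nat_lit 5) (nat_lit 602) (nat_lit 573) (nat_lit 385)))))) (XT.nd (nat_lit 390) (nat_lit 2584) (nat_lit 0) (XT.nd (nat_lit 156) (nat_lit 836) (nat_lit 0) (XT.nd (nat_lit 78) (nat_lit 912) (nat_lit 0) (XT.lf (nat_lit 0) (nat_lit 529536367) (nat_lit 988) (nat_lit 5934283142) (nat_lit 76) (nat_lit 9576069610) (nat_lit 432) (nat_lit 5) (nat_lit 445) (nat_lit 5) (nat_lit 433) (nat_lit 5) (nat_lit 603) (nat_lit 573) (nat_lit 384)) (XT.lf (nat_lit 0) (nat_lit 2325899016) (nat_lit 988) (nat_lit 13293527464) (nat_lit 76) (nat_lit 591344406) (nat_lit 420) (nat_lit 5) (nat_lit 433) (nat_lit 5) (nat_lit 421) (nat_lit 5) (nat_lit 604) (nat_lit 573) (nat_lit 383))) (XT.nd (nat_lit 78) (nat_lit 836) (nat_lit 0) (XT.lf (nat_lit 0) (nat_lit 4233590143) (nat_lit 988) (nat_lit 4408297233) (nat_lit 76) (nat_lit 7741675308) (nat_lit 420) (nat_lit 5) (nat_lit 433) (nat_lit 5) (nat_lit 421) (nat_lit 5) (nat_lit 605) (nat_lit 573) (nat_lit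 382)) (XT.nd (nat_lit 78) (nat_lit 0) (nat_lit 0) (XT.lf (nat_lit 0) (nat_lit 4709348415) (nat_lit 836) (nat_lit 1493318368) (nat_lit 912) (nat_lit 10356679314) (nat_lit 409) (nat_lit 5) (nat_lit 420) (nat_lit 5) (nat_lit 421) (nat_lit 5) (nat_lit 606) (nat_lit 573) (nat_lit 381)) (XT.lf (nat_lit 0) (nat_lit 8271304313) (nat_lit 912) (nat_lit 2713946358) (nat_lit 76) (nat_lit 5752191326) (nat_lit 409) (nat_lit 5) (nat_lit 421) (nat_lit 5) (nat_lit 410) (nat_lit 5) (nat_lit 607) (nat_lit 573) (nat_lit 380))))) (XT.nd (nat_lit 156) (nat_lit 1748) (nat_lit 0) (XT.nd (nat_lit 78) (nat_lit 0) (nat_lit 0) (XT.lf (nat_lit 0) (nat_lit 6675473149) (nat_lit 836) (nat_lit 3751970164) (nat_lit 912) (nat_lit 6490734322) (nat_lit 398) (nat_lit 5) (nat_lit 409) (nat_lit 5) (nat_lit 410) (nat_lit 5) (nat_lit 608) (nat_lit 573) (nat_lit 379)) (XT.lf (nat_lit 0) (nat_lit 12661571846) (nat_lit 912) (nat_lit 843465324) (nat_lit 76) (nat_lit 3596793871) (nat_lit 398) (nat_lit 5) (nat_lit 410) (nat_lit 5) (nat_lit 399) (nat_lit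 5) (nat_lit 609) (nat_lit 573) (nat_lit 378))) (XT.nd (nat_lit 78) (nat_lit 912) (nat_lit 0) (XT.lf (nat_lit 0) (nat_lit 8827719609) (nat_lit 836) (nat_lit 6187955541) (nat_lit 912) (nat_lit 2271976904) (nat_lit 387) (nat_lit 5) (nat_lit 398) (nat_lit 5) (nat_lit 399) (nat_lit 5) (nat_lit 610) (nat_lit 573) (nat_lit 377)) (XT.nd (nat_lit 78) (nat_lit 76) (nat_lit 0) (XT.lf (nat_lit 0) (nat_lit 1227406459) (nat_lit 836) (nat_lit 16204620117) (nat_lit 912) (nat_lit 44859963) (nat_lit 376) (nat_lit 5) (nat_lit 387) (nat_lit 5) (nat_lit 388) (nat_lit 5) (nat_lit 611) (nat_lit 573) (nat_lit 376)) (XT.lf (nat_lit 0) (nat_lit 2288981760) (nat_lit 912) (nat_lit 6508516576) (nat_lit 76) (nat_lit 8870290832) (nat_lit 375) (nat_lit 5) (nat_lit 387) (nat_lit 5) (nat_lit 376) (nat_lit 5) (nat_lit 612) (nat_lit 573) (nat_lit 375))))))) (XT.nd (nat_lit 780) (nat_lit 3876) (nat_lit 0) (XT.nd (nat_lit 390) (nat_lit 2204) (nat_lit 0) (XT.nd (nat_lit 156) (nat_lit 1444) (nat_lit 0) (XT.nd (nat_lit 78) (nat_lit 0) (nat_lit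 0) (XT.lf (nat_lit 0) (nat_lit 3465457080) (nat_lit 760) (nat_lit 1219336225) (nat_lit 836) (nat_lit 13177393094) (nat_lit 365) (nat_lit 5) (nat_lit 375) (nat_lit 5) (nat_lit 376) (nat_lit 5) (nat_lit 613) (nat_lit 573) (nat_lit 374)) (XT.lf (nat_lit 0) (nat_lit 7208230798) (nat_lit 836) (nat_lit 4382066760) (nat_lit 76) (nat_lit 6468580167) (nat_lit 365) (nat_lit 5) (nat_lit 376) (nat_lit 5) (nat_lit 366) (nat_lit 5) (nat_lit 614) (nat_lit 573) (nat_lit 373))) (XT.nd (nat_lit 78) (nat_lit 684) (nat_lit 0) (XT.lf (nat_lit 0) (nat_lit 5895224479) (nat_lit 760) (nat_lit 3926866421) (nat_lit 836) (nat_lit 8436613240) (nat_lit 355) (nat_lit 5) (nat_lit 365) (nat_lit 5) (nat_lit 366) (nat_lit 5) (nat_lit 615) (nat_lit 573) (nat_lit 372)) (XT.nd (nat_lit 78) (nat_lit 684) (nat_lit 0) (XT.lf (nat_lit 0) (nat_lit 12536764721) (nat_lit 836) (nat_lit 2056911575) (nat_lit 76) (nat_lit 3867880388) (nat_lit 355) (nat_lit 5) (nat_lit 366) (nat_lit 5) (nat_lit 356) (nat_lit 5) (nat_lit 616) (nat_lit 573) (nat_lit 371))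 (XT.lf (nat_lit 0) (nat_lit 8534871347) (nat_lit 684) (nat_lit 6846084791) (nat_lit 760) (nat_lit 3286005985) (nat_lit 346) (nat_lit 5) (nat_lit 355) (nat_lit 5) (nat_lit 356) (nat_lit 5) (nat_lit 617) (nat_lit 573) (nat_lit 370))))) (XT.nd (nat_lit 156) (nat_lit 1368) (nat_lit 0) (XT.nd (nat_lit 78) (nat_lit 76) (nat_lit 0) (XT.lf (nat_lit 0) (nat_lit 482631087) (nat_lit 760) (nat_lit 17817164673) (nat_lit 836) (nat_lit 576324942) (nat_lit 336) (nat_lit 5) (nat_lit 346) (nat_lit 5) (nat_lit 347) (nat_lit 5) (nat_lit 618) (nat_lit 573) (nat_lit 369)) (XT.lf (nat_lit 0) (nat_lit 2266552138) (nat_lit 836) (nat_lit 7708059723) (nat_lit 76) (nat_lit 9112412987) (nat_lit 335) (nat_lit 5) (nat_lit 346) (nat_lit 5) (nat_lit 336) (nat_lit 5) (nat_lit 619) (nat_lit 573) (nat_lit 368))) (XT.nd (nat_lit 78) (nat_lit 684) (nat_lit 0) (XT.lf (nat_lit 0) (nat_lit 3222708804) (nat_lit 684) (nat_lit 1950823787) (nat_lit 760) (nat_lit 14128239340) (nat_lit 326) (nat_lit 5) (nat_lit 335) (nat_lit 5) (nat_lit 336) (nat_lit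 5) (nat_lit 620) (nat_lit 573) (nat_lit 367)) (XT.nd (nat_lit 78) (nat_lit 684) (nat_lit 0) (XT.lf (nat_lit 0) (nat_lit 8225290943) (nat_lit 760) (nat_lit 5090903423) (nat_lit 76) (nat_lit 6202887118) (nat_lit 326) (nat_lit 5) (nat_lit 336) (nat_lit 5) (nat_lit 327) (nat_lit 5) (nat_lit 621) (nat_lit 573) (nat_lit 366)) (XT.lf (nat_lit 0) (nat_lit 6178378428) (nat_lit 684) (nat_lit 5206954209) (nat_lit 760) (nat_lit 8354459918) (nat_lit 317) (nat_lit 5) (nat_lit 326) (nat_lit 5) (nat_lit 327) (nat_lit 5) (nat_lit 622) (nat_lit 573) (nat_lit 365)))))) (XT.nd (nat_lit 390) (nat_lit 1900) (nat_lit 0) (XT.nd (nat_lit 156) (nat_lit 1368) (nat_lit 0) (XT.nd (nat_lit 78) (nat_lit 608) (nat_lit 0) (XT.lf (nat_lit 0) (nat_lit 14657138750) (nat_lit 760) (nat_lit 2249118914) (nat_lit 76) (nat_lit 3057689193) (nat_lit 317) (nat_lit 5) (nat_lit 327) (nat_lit 5) (nat_lit 318) (nat_lit 5) (nat_lit 623) (nat_lit 573) (nat_lit 364)) (XT.lf (nat_lit 0) (nat_lit 9371161219) (nat_lit 608) (nat_lit 8712937019) (nat_lit 684)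 (nat_lit 2106691942) (nat_lit 309) (nat_lit 5) (nat_lit 317) (nat_lit 5) (nat_lit 318) (nat_lit 5) (nat_lit 624) (nat_lit 573) (nat_lit 363))) (XT.nd (nat_lit 78) (nat_lit 608) (nat_lit 0) (XT.lf (nat_lit 0) (nat_lit 829010971) (nat_lit 684) (nat_lit 328231165) (nat_lit 760) (nat_lit 19264478294) (nat_lit 299) (nat_lit 5) (nat_lit 308) (nat_lit 5) (nat_lit 309) (nat_lit 5) (nat_lit 625) (nat_lit 573) (nat_lit 362)) (XT.nd (nat_lit 78) (nat_lit 608) (nat_lit 0) (XT.lf (nat_lit 0) (nat_lit 4579234502) (nat_lit 760) (nat_lit 7873131387) (nat_lit 76) (nat_lit 8202205390) (nat_lit 299) (nat_lit 5) (nat_lit 309) (nat_lit 5) (nat_lit 300) (nat_lit 5) (nat_lit 626) (nat_lit 573) (nat_lit 361)) (XT.lf (nat_lit 0) (nat_lit 4126140748) (nat_lit 608) (nat_lit 3967076429) (nat_lit 684) (nat_lit 12798391214) (nat_lit 291) (nat_lit 5) (nat_lit 299) (nat_lit 5) (nat_lit 300) (nat_lit 5) (nat_lit 627) (nat_lit 573) (nat_lit 360))))) (XT.nd (nat_lit 234) (nat_lit 1292) (nat_lit 0) (XT.nd (nat_lit 78) (nat_lit 608) (nat_lit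 0) (XT.lf (nat_lit 0) (nat_lit 11755741660) (nat_lit 684) (nat_lit 4697690200) (nat_lit 76) (nat_lit 4678389396) (nat_lit 291) (nat_lit 5) (nat_lit 300) (nat_lit 5) (nat_lit 292) (nat_lit 5) (nat_lit 628) (nat_lit 573) (nat_lit 359)) (XT.nd (nat_lit 78) (nat_lit 0) (nat_lit 0) (XT.lf (nat_lit 0) (nat_lit 7679323393) (nat_lit 608) (nat_lit 7883071913) (nat_lit 684) (nat_lit 5813025744) (nat_lit 283) (nat_lit 5) (nat_lit 291) (nat_lit 5) (nat_lit 292) (nat_lit 5) (nat_lit 629) (nat_lit 573) (nat_lit 358)) (XT.lf (nat_lit 0) (nat_lit 19477289409) (nat_lit 684) (nat_lit 1268106022) (nat_lit 76) (nat_lit 877855503) (nat_lit 283) (nat_lit 5) (nat_lit 292) (nat_lit 5) (nat_lit 284) (nat_lit 5) (nat_lit 630) (nat_lit 573) (nat_lit 357)))) (XT.nd (nat_lit 78) (nat_lit 608) (nat_lit 0) (XT.lf (nat_lit 0) (nat_lit 1696115395) (nat_lit 684) (nat_lit 10384174492) (nat_lit 76) (nat_lit 9793089061) (nat_lit 274) (nat_lit 5) (nat_lit 283) (nat_lit 5) (nat_lit 275) (nat_lit 5) (nat_lit 631) (nat_lit 573) (nat_lit 356))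 (XT.nd (nat_lit 78) (nat_lit 0) (nat_lit 0) (XT.lf (nat_lit 0) (nat_lit 2401225168) (nat_lit 608) (nat_lit 3204183409) (nat_lit 684) (nat_lit 16522435294) (nat_lit 266) (nat_lit 5) (nat_lit 274) (nat_lit 5) (nat_lit 275) (nat_lit 5) (nat_lit 632) (nat_lit 573) (nat_lit 355)) (XT.lf (nat_lit 0) (nat_lit 9695984858) (nat_lit 684) (nat_lit 6847910280) (nat_lit 76) (nat_lit 5841441233) (nat_lit 266) (nat_lit 5) (nat_lit 275) (nat_lit 5) (nat_lit 267) (nat_lit 5) (nat_lit 633) (nat_lit 573) (nat_lit 354))))))))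
noncomputable def xc170 : XT := (XT.nd (nat_lit 1560) (nat_lit 1596) (nat_lit 0) (XT.nd (nat_lit 780) (nat_lit 2812) (nat_lit 0) (XT.nd (nat_lit 390) (nat_lit 1596) (nat_lit 0) (XT.nd (nat_lit 156) (nat_lit 1140) (nat_lit 0) (XT.nd (nat_lit 78) (nat_lit 0) (nat_lit 0) (XT.lf (nat_lit 0) (nat_lit 6343923927) (nat_lit 532) (nat_lit 7581930008) (nat_lit 608) (nat_lit 8720975379) (nat_lit 259) (nat_lit 5) (nat_lit 266) (nat_lit 5) (nat_lit 267) (nat_lit 5) (nat_lit 634) (nat_lit 573) (nat_lit 353)) (XT.lf (nat_lit 0) (nat_lit 18291819496) (nat_lit 608) (nat_lit 3037117024) (nat_lit 76) (nat_lit 1583585829) (nat_lit 259) (nat_lit 5) (nat_lit 267) (nat_lit 5) (nat_lit 260) (nat_lit 5) (nat_lit 635) (nat_lit 573) (nat_lit 352))) (XT.nd (nat_lit 78) (nat_lit 608) (nat_lit 0) (XT.lf (nat_lit 0) (nat_lit 10576134691) (nat_lit 532) (nat_lit 12283061996) (nat_lit 608) (nat_lit 322050923) (nat_lit 252) (nat_lit 5) (nat_lit 259) (nat_lit 5) (nat_lit 260) (nat_lit 5) (nat_lit 636) (nat_lit 573) (nat_lit 351)) (XT.nd (nat_lit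 78) (nat_lit 0) (nat_lit 0) (XT.lf (nat_lit 0) (nat_lit 1028486866) (nat_lit 532) (nat_lit 3003233963) (nat_lit 608) (nat_lit 19422650645) (nat_lit 244) (nat_lit 5) (nat_lit 251) (nat_lit 5) (nat_lit 252) (nat_lit 5) (nat_lit 637) (nat_lit 573) (nat_lit 350)) (XT.lf (nat_lit 0) (nat_lit 8590640517) (nat_lit 608) (nat_lit 8676704277) (nat_lit 76) (nat_lit 6463122952) (nat_lit 244) (nat_lit 5) (nat_lit 252) (nat_lit 5) (nat_lit 245) (nat_lit 5) (nat_lit 638) (nat_lit 573) (nat_lit 349))))) (XT.nd (nat_lit 156) (nat_lit 1064) (nat_lit 0) (XT.nd (nat_lit 78) (nat_lit 0) (nat_lit 0) (XT.lf (nat_lit 0) (nat_lit 5392000819) (nat_lit 532) (nat_lit 7899004583) (nat_lit 608) (nat_lit 10720075398) (nat_lit 237) (nat_lit 5) (nat_lit 244) (nat_lit 5) (nat_lit 245) (nat_lit 5) (nat_lit 639) (nat_lit 573) (nat_lit 348)) (XT.lf (nat_lit 0) (nat_lit 18150153673) (nat_lit 608) (nat_lit 4453915154) (nat_lit 76) (nat_lit 1691941958) (nat_lit 237) (nat_lit 5) (nat_lit 245) (nat_lit 5) (nat_lit 238) (nat_lit 5) (nat_lit 640)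 (nat_lit 573) (nat_lit 347))) (XT.nd (nat_lit 78) (nat_lit 608) (nat_lit 0) (XT.lf (nat_lit 0) (nat_lit 10068083901) (nat_lit 456) (nat_lit 13151579824) (nat_lit 532) (nat_lit 1364712254) (nat_lit 231) (nat_lit 5) (nat_lit 237) (nat_lit 5) (nat_lit 238) (nat_lit 5) (nat_lit 641) (nat_lit 573) (nat_lit 346)) (XT.nd (nat_lit 78) (nat_lit 0) (nat_lit 0) (XT.lf (nat_lit 0) (nat_lit 34212938) (nat_lit 532) (nat_lit 3457606936) (nat_lit 608) (nat_lit 21385716220) (nat_lit 223) (nat_lit 5) (nat_lit 230) (nat_lit 5) (nat_lit 231) (nat_lit 5) (nat_lit 642) (nat_lit 573) (nat_lit 345)) (XT.lf (nat_lit 0) (nat_lit 8562586585) (nat_lit 608) (nat_lit 10159801378) (nat_lit 76) (nat_lit 6451283660) (nat_lit 223) (nat_lit 5) (nat_lit 231) (nat_lit 5) (nat_lit 224) (nat_lit 5) (nat_lit 643) (nat_lit 573) (nat_lit 344)))))) (XT.nd (nat_lit 390) (nat_lit 1368) (nat_lit 0) (XT.nd (nat_lit 156) (nat_lit 988) (nat_lit 0) (XT.nd (nat_lit 78) (nat_lit 0) (nat_lit 0) (XT.lf (nat_lit 0) (nat_lit 4851992169) (nat_lit 456) (nat_lit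 8932817911) (nat_lit 532) (nat_lit 11689919126) (nat_lit 217) (nat_lit 5) (nat_lit 223) (nat_lit 5) (nat_lit 224) (nat_lit 5) (nat_lit 644) (nat_lit 573) (nat_lit 343)) (XT.lf (nat_lit 0) (nat_lit 19182616350) (nat_lit 532) (nat_lit 5492159189) (nat_lit 76) (nat_lit 1105609806) (nat_lit 217) (nat_lit 5) (nat_lit 224) (nat_lit 5) (nat_lit 218) (nat_lit 5) (nat_lit 645) (nat_lit 573) (nat_lit 342))) (XT.nd (nat_lit 78) (nat_lit 532) (nat_lit 0) (XT.lf (nat_lit 0) (nat_lit 10007068103) (nat_lit 456) (nat_lit 14801201064) (nat_lit 532) (nat_lit 1281487796) (nat_lit 211) (nat_lit 5) (nat_lit 217) (nat_lit 5) (nat_lit 218) (nat_lit 5) (nat_lit 646) (nat_lit 573) (nat_lit 341)) (XT.nd (nat_lit 78) (nat_lit 456) (nat_lit 0) (XT.lf (nat_lit 0) (nat_lit 4119683197) (nat_lit 532) (nat_lit 547047639) (nat_lit 76) (nat_lit 21737390086) (nat_lit 210) (nat_lit 5) (nat_lit 217) (nat_lit 5) (nat_lit 211) (nat_lit 5) (nat_lit 647) (nat_lit 573) (nat_lit 340)) (XT.lf (nat_lit 0) (nat_lit 9745678675) (nat_lit 532) (nat_lit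 11272199634) (nat_lit 76) (nat_lit 5704045391) (nat_lit 204) (nat_lit 5) (nat_lit 211) (nat_lit 5) (nat_lit 205) (nat_lit 5) (nat_lit 648) (nat_lit 573) (nat_lit 339))))) (XT.nd (nat_lit 156) (nat_lit 912) (nat_lit 0) (XT.nd (nat_lit 78) (nat_lit 0) (nat_lit 0) (XT.lf (nat_lit 0) (nat_lit 4753269958) (nat_lit 456) (nat_lit 10792276523) (nat_lit 532) (nat_lit 11499309156) (nat_lit 198) (nat_lit 5) (nat_lit 204) (nat_lit 5) (nat_lit 205) (nat_lit 5) (nat_lit 649) (nat_lit 573) (nat_lit 338)) (XT.lf (nat_lit 0) (nat_lit 21246108217) (nat_lit 456) (nat_lit 286878094) (nat_lit 532) (nat_lit 5839828561) (nat_lit 198) (nat_lit 5) (nat_lit 204) (nat_lit 5) (nat_lit 205) (nat_lit 5) (nat_lit 650) (nat_lit 573) (nat_lit 337))) (XT.nd (nat_lit 78) (nat_lit 456) (nat_lit 0) (XT.lf (nat_lit 0) (nat_lit 65985503) (nat_lit 456) (nat_lit 17280548853) (nat_lit 76) (nat_lit 10358162539) (nat_lit 192) (nat_lit 5) (nat_lit 198) (nat_lit 5) (nat_lit 193) (nat_lit 5) (nat_lit 651) (nat_lit 573) (nat_lit 336)) (XT.nd (nat_lit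 78) (nat_lit 456) (nat_lit 0) (XT.lf (nat_lit 0) (nat_lit 6051093397) (nat_lit 456) (nat_lit 700076105) (nat_lit 76) (nat_lit 21290487716) (nat_lit 192) (nat_lit 5) (nat_lit 198) (nat_lit 5) (nat_lit 193) (nat_lit 5) (nat_lit 652) (nat_lit 573) (nat_lit 335)) (XT.lf (nat_lit 0) (nat_lit 12285644444) (nat_lit 532) (nat_lit 11988741742) (nat_lit 76) (nat_lit 4108375880) (nat_lit 186) (nat_lit 5) (nat_lit 193) (nat_lit 5) (nat_lit 187) (nat_lit 5) (nat_lit 653) (nat_lit 573) (nat_lit 334))))))) (XT.nd (nat_lit 75192) (nat_lit 0) (nat_lit 25232) (XT.nd (nat_lit 390) (nat_lit 380) (nat_lit 0) (XT.nd (nat_lit 156) (nat_lit 836) (nat_lit 0) (XT.nd (nat_lit 78) (nat_lit 0) (nat_lit 0) (XT.lf (nat_lit 0) (nat_lit 5125559423) (nat_lit 380) (nat_lit 13598163763) (nat_lit 456) (nat_lit 10005389228) (nat_lit 181) (nat_lit 5) (nat_lit 186) (nat_lit 5) (nat_lit 187) (nat_lit 5) (nat_lit 654) (nat_lit 573) (nat_lit 333)) (XT.lf (nat_lit 0) (nat_lit 22738879710) (nat_lit 380) (nat_lit 2628292558) (nat_lit 456) (nat_lit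 3713685458) (nat_lit 181) (nat_lit 5) (nat_lit 186) (nat_lit 5) (nat_lit 187) (nat_lit 5) (nat_lit 655) (nat_lit 573) (nat_lit 332))) (XT.nd (nat_lit 78) (nat_lit 380) (nat_lit 0) (XT.lf (nat_lit 0) (nat_lit 2794733851) (nat_lit 456) (nat_lit 18103107785) (nat_lit 76) (nat_lit 8538918475) (nat_lit 175) (nat_lit 5) (nat_lit 181) (nat_lit 5) (nat_lit 176) (nat_lit 5) (nat_lit 656) (nat_lit 573) (nat_lit 331)) (XT.nd (nat_lit 78) (nat_lit 380) (nat_lit 0) (XT.lf (nat_lit 0) (nat_lit 9440120805) (nat_lit 456) (nat_lit 398188435) (nat_lit 76) (nat_lit 19959849967) (nat_lit 175) (nat_lit 5) (nat_lit 181) (nat_lit 5) (nat_lit 176) (nat_lit 5) (nat_lit 657) (nat_lit 573) (nat_lit 330)) (XT.lf (nat_lit 0) (nat_lit 16340997034) (nat_lit 456) (nat_lit 12284828615) (nat_lit 76) (nat_lit 1538509131) (nat_lit 170) (nat_lit 5) (nat_lit 176) (nat_lit 5) (nat_lit 171) (nat_lit 5) (nat_lit 658) (nat_lit 573) (nat_lit 329))))) (XT.nd (nat_lit 74568) (nat_lit 0) (nat_lit 26904) (XT.nd (nat_lit 78) (nat_lit 0) (nat_lit 0) (XT.lf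 (nat_lit 0) (nat_lit 5998216459) (nat_lit 380) (nat_lit 17484793524) (nat_lit 456) (nat_lit 7052761618) (nat_lit 165) (nat_lit 5) (nat_lit 170) (nat_lit 5) (nat_lit 171) (nat_lit 5) (nat_lit 659) (nat_lit 573) (nat_lit 328)) (XT.lf (nat_lit 0) (nat_lit 24807832745) (nat_lit 380) (nat_lit 6038834290) (nat_lit 456) (nat_lit 66394165) (nat_lit 165) (nat_lit 5) (nat_lit 170) (nat_lit 5) (nat_lit 171) (nat_lit 5) (nat_lit 660) (nat_lit 573) (nat_lit 327))) (XT.nd (nat_lit 78) (nat_lit 0) (nat_lit 0) (XT.lf (nat_lit 0) (nat_lit 5306422979) (nat_lit 1748) (nat_lit 383753099) (nat_lit 1748) (nat_lit 383753099) (nat_lit 519) (nat_lit 3) (nat_lit 542) (nat_lit 3) (nat_lit 542) (nat_lit 5) (nat_lit 574) (nat_lit 574) (nat_lit 412)) (XT.nd (nat_lit 78) (nat_lit 0) (nat_lit 0) (XT.lf (nat_lit 76) (nat_lit 5329148931) (nat_lit 0) (nat_lit 5885107537) (nat_lit 1748) (nat_lit 1045145180) (nat_lit 520) (nat_lit 5) (nat_lit 519) (nat_lit 3) (nat_lit 542) (nat_lit 5) (nat_lit 575) (nat_lit 574) (nat_lit 411)) (XT.lf (nat_lit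 76) (nat_lit 11551895857) (nat_lit 0) (nat_lit 268825306) (nat_lit 1748) (nat_lit 552594898) (nat_lit 520) (nat_lit 5) (nat_lit 519) (nat_lit 3) (nat_lit 542) (nat_lit 5) (nat_lit 576) (nat_lit 574) (nat_lit 410)))))) (XT.nd (nat_lit 390) (nat_lit 0) (nat_lit 152) (XT.nd (nat_lit 156) (nat_lit 0) (nat_lit 76) (XT.nd (nat_lit 78) (nat_lit 0) (nat_lit 0) (XT.lf (nat_lit 0) (nat_lit 9767476) (nat_lit 1748) (nat_lit 7049319149) (nat_lit 1824) (nat_lit 5429243348) (nat_lit 497) (nat_lit 5) (nat_lit 520) (nat_lit 5) (nat_lit 521) (nat_lit 5) (nat_lit 577) (nat_lit 574) (nat_lit 409)) (XT.lf (nat_lit 0) (nat_lit 571577622) (nat_lit 1748) (nat_lit 781738379) (nat_lit 1824) (nat_lit 11252343846) (nat_lit 497) (nat_lit 5) (nat_lit 520) (nat_lit 5) (nat_lit 521) (nat_lit 5) (nat_lit 578) (nat_lit 574) (nat_lit 408))) (XT.nd (nat_lit 78) (nat_lit 0) (nat_lit 0) (XT.lf (nat_lit 0) (nat_lit 1199269098) (nat_lit 1748) (nat_lit 7074813520) (nat_lit 1824) (nat_lit 4450161518) (nat_lit 498) (nat_lit 5) (nat_lit 521) (nat_lit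 5) (nat_lit 522) (nat_lit 5) (nat_lit 579) (nat_lit 574) (nat_lit 407)) (XT.nd (nat_lit 78) (nat_lit 0) (nat_lit 76) (XT.lf (nat_lit 0) (nat_lit 1842468129) (nat_lit 1748) (nat_lit 640875496) (nat_lit 1824) (nat_lit 10361798114) (nat_lit 498) (nat_lit 5) (nat_lit 521) (nat_lit 5) (nat_lit 522) (nat_lit 5) (nat_lit 580) (nat_lit 574) (nat_lit 406)) (XT.lf (nat_lit 0) (nat_lit 2548892791) (nat_lit 1748) (nat_lit 6996535638) (nat_lit 1824) (nat_lit 3422022323) (nat_lit 499) (nat_lit 5) (nat_lit 522) (nat_lit 5) (nat_lit 523) (nat_lit 5) (nat_lit 581) (nat_lit 574) (nat_lit 405))))) (XT.nd (nat_lit 234) (nat_lit 0) (nat_lit 152) (XT.nd (nat_lit 78) (nat_lit 0) (nat_lit 76) (XT.lf (nat_lit 0) (nat_lit 3279357365) (nat_lit 1748) (nat_lit 391643935) (nat_lit 1824) (nat_lit 9421007095) (nat_lit 499) (nat_lit 5) (nat_lit 522) (nat_lit 5) (nat_lit 523) (nat_lit 5) (nat_lit 582) (nat_lit 574) (nat_lit 404)) (XT.nd (nat_lit 78) (nat_lit 0) (nat_lit 0) (XT.lf (nat_lit 0) (nat_lit 4070854940) (nat_lit 1748) (nat_lit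 6810771017) (nat_lit 1824) (nat_lit 2336503424) (nat_lit 500) (nat_lit 5) (nat_lit 523) (nat_lit 5) (nat_lit 524) (nat_lit 5) (nat_lit 583) (nat_lit 574) (nat_lit 403)) (XT.lf (nat_lit 0) (nat_lit 4894681074) (nat_lit 1748) (nat_lit 30139807) (nat_lit 1824) (nat_lit 8421622583) (nat_lit 500) (nat_lit 5) (nat_lit 523) (nat_lit 5) (nat_lit 524) (nat_lit 5) (nat_lit 584) (nat_lit 574) (nat_lit 402)))) (XT.nd (nat_lit 78) (nat_lit 0) (nat_lit 0) (XT.lf (nat_lit 0) (nat_lit 5777787671) (nat_lit 1748) (nat_lit 6513500957) (nat_lit 1824) (nat_lit 1185179760) (nat_lit 501) (nat_lit 5) (nat_lit 524) (nat_lit 5) (nat_lit 525) (nat_lit 5) (nat_lit 585) (nat_lit 574) (nat_lit 401)) (XT.nd (nat_lit 78) (nat_lit 0) (nat_lit 0) (XT.lf (nat_lit 76) (nat_lit 453800980) (nat_lit 0) (nat_lit 6250448297) (nat_lit 1824) (nat_lit 6904331301) (nat_lit 502) (nat_lit 5) (nat_lit 501) (nat_lit 5) (nat_lit 525) (nat_lit 5) (nat_lit 586) (nat_lit 574) (nat_lit 400)) (XT.lf (nat_lit 76) (nat_lit 7641995594) (nat_lit 0) (nat_lit 41035432)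 (nat_lit 1824) (nat_lit 6059628783) (nat_lit 502) (nat_lit 5) (nat_lit 501) (nat_lit 5) (nat_lit 525) (nat_lit 5) (nat_lit 587) (nat_lit 574) (nat_lit 399))))))))
noncomputable def xc171 : XT := (XT.nd (nat_lit 1560) (nat_lit 8968) (nat_lit 0) (XT.nd (nat_lit 780) (nat_lit 5396) (nat_lit 0) (XT.nd (nat_lit 390) (nat_lit 1672) (nat_lit 0) (XT.nd (nat_lit 156) (nat_lit 0) (nat_lit 76) (XT.nd (nat_lit 78) (nat_lit 0) (nat_lit 0) (XT.lf (nat_lit 76) (nat_lit 1060761458) (nat_lit 0) (nat_lit 7658666186) (nat_lit 1824) (nat_lit 5159232796) (nat_lit 503) (nat_lit 5) (nat_lit 502) (nat_lit 5) (nat_lit 526) (nat_lit 5) (nat_lit 588) (nat_lit 574) (nat_lit 398)) (XT.lf (nat_lit 76) (nat_lit 8441052726) (nat_lit 0) (nat_lit 1367150882) (nat_lit 1824) (nat_lit 4208545036) (nat_lit 503) (nat_lit 5) (nat_lit 502) (nat_lit 5) (nat_lit 526) (nat_lit 5) (nat_lit 589) (nat_lit 574) (nat_lit 397))) (XT.nd (nat_lit 78) (nat_lit 0) (nat_lit 0) (XT.lf (nat_lit 76) (nat_lit 1795250751) (nat_lit 0) (nat_lit 9158597341) (nat_lit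 1824) (nat_lit 3203049239) (nat_lit 504) (nat_lit 5) (nat_lit 503) (nat_lit 5) (nat_lit 527) (nat_lit 5) (nat_lit 590) (nat_lit 574) (nat_lit 396)) (XT.nd (nat_lit 78) (nat_lit 0) (nat_lit 76) (XT.lf (nat_lit 76) (nat_lit 9373210910) (nat_lit 0) (nat_lit 2786391805) (nat_lit 1824) (nat_lit 2139502899) (nat_lit 504) (nat_lit 5) (nat_lit 503) (nat_lit 5) (nat_lit 527) (nat_lit 5) (nat_lit 591) (nat_lit 574) (nat_lit 395)) (XT.lf (nat_lit 76) (nat_lit 2662508445) (nat_lit 0) (nat_lit 10759342605) (nat_lit 1824) (nat_lit 1021659993) (nat_lit 505) (nat_lit 5) (nat_lit 504) (nat_lit 5) (nat_lit 528) (nat_lit 5) (nat_lit 592) (nat_lit 574) (nat_lit 394))))) (XT.nd (nat_lit 156) (nat_lit 0) (nat_lit 76) (XT.nd (nat_lit 78) (nat_lit 0) (nat_lit 76) (XT.lf (nat_lit 0) (nat_lit 159768289) (nat_lit 1824) (nat_lit 4147081772) (nat_lit 1900) (nat_lit 10283084000) (nat_lit 480) (nat_lit 5) (nat_lit 504) (nat_lit 5) (nat_lit 505) (nat_lit 5) (nat_lit 593) (nat_lit 574) (nat_lit 393)) (XT.lf (nat_lit 0) (nat_lit 1381228446)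 (nat_lit 1824) (nat_lit 11079707019) (nat_lit 1900) (nat_lit 2277613865) (nat_lit 481) (nat_lit 5) (nat_lit 505) (nat_lit 5) (nat_lit 506) (nat_lit 5) (nat_lit 594) (nat_lit 574) (nat_lit 392))) (XT.nd (nat_lit 78) (nat_lit 0) (nat_lit 76) (XT.lf (nat_lit 0) (nat_lit 2675024934) (nat_lit 1824) (nat_lit 3248139857) (nat_lit 1900) (nat_lit 8966014487) (nat_lit 481) (nat_lit 5) (nat_lit 505) (nat_lit 5) (nat_lit 506) (nat_lit 5) (nat_lit 595) (nat_lit 574) (nat_lit 391)) (XT.nd (nat_lit 78) (nat_lit 0) (nat_lit 0) (XT.lf (nat_lit 0) (nat_lit 4022434100) (nat_lit 1824) (nat_lit 10251280423) (nat_lit 1900) (nat_lit 768553068) (nat_lit 482) (nat_lit 5) (nat_lit 506) (nat_lit 5) (nat_lit 507) (nat_lit 5) (nat_lit 596) (nat_lit 574) (nat_lit 390)) (XT.lf (nat_lit 0) (nat_lit 5449631579) (nat_lit 1824) (nat_lit 2209375163) (nat_lit 1900) (nat_lit 7538354619) (nat_lit 482) (nat_lit 5) (nat_lit 506) (nat_lit 5) (nat_lit 507) (nat_lit 5) (nat_lit 597) (nat_lit 574) (nat_lit 389)))))) (XT.nd (nat_lit 390) (nat_lit 2736)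 (nat_lit 0) (XT.nd (nat_lit 156) (nat_lit 2812) (nat_lit 0) (XT.nd (nat_lit 78) (nat_lit 0) (nat_lit 76) (XT.lf (nat_lit 76) (nat_lit 6066113682) (nat_lit 0) (nat_lit 870480634) (nat_lit 1900) (nat_lit 8418338748) (nat_lit 483) (nat_lit 5) (nat_lit 482) (nat_lit 5) (nat_lit 507) (nat_lit 5) (nat_lit 598) (nat_lit 574) (nat_lit 388)) (XT.lf (nat_lit 0) (nat_lit 8499486473) (nat_lit 1824) (nat_lit 1024639901) (nat_lit 76) (nat_lit 5990606498) (nat_lit 483) (nat_lit 5) (nat_lit 507) (nat_lit 5) (nat_lit 484) (nat_lit 5) (nat_lit 599) (nat_lit 574) (nat_lit 387))) (XT.nd (nat_lit 78) (nat_lit 1064) (nat_lit 0) (XT.lf (nat_lit 0) (nat_lit 7490496020) (nat_lit 1824) (nat_lit 2649656650) (nat_lit 1900) (nat_lit 5536646148) (nat_lit 459) (nat_lit 5) (nat_lit 483) (nat_lit 5) (nat_lit 484) (nat_lit 5) (nat_lit 600) (nat_lit 574) (nat_lit 386)) (XT.nd (nat_lit 78) (nat_lit 0) (nat_lit 0) (XT.lf (nat_lit 0) (nat_lit 316721424) (nat_lit 1064) (nat_lit 11526446922) (nat_lit 1140) (nat_lit 3998347469) (nat_lit 445) (nat_lit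 5) (nat_lit 459) (nat_lit 5) (nat_lit 460) (nat_lit 5) (nat_lit 601) (nat_lit 574) (nat_lit 385)) (XT.lf (nat_lit 0) (nat_lit 9076119253) (nat_lit 1064) (nat_lit 4568834470) (nat_lit 1140) (nat_lit 2363279687) (nat_lit 445) (nat_lit 5) (nat_lit 459) (nat_lit 5) (nat_lit 460) (nat_lit 5) (nat_lit 602) (nat_lit 574) (nat_lit 384))))) (XT.nd (nat_lit 156) (nat_lit 1748) (nat_lit 0) (XT.nd (nat_lit 78) (nat_lit 76) (nat_lit 0) (XT.lf (nat_lit 0) (nat_lit 1833154273) (nat_lit 912) (nat_lit 13670433745) (nat_lit 988) (nat_lit 674281512) (nat_lit 433) (nat_lit 5) (nat_lit 445) (nat_lit 5) (nat_lit 446) (nat_lit 5) (nat_lit 603) (nat_lit 574) (nat_lit 383)) (XT.lf (nat_lit 0) (nat_lit 1104380145) (nat_lit 988) (nat_lit 5526594698) (nat_lit 76) (nat_lit 9718395107) (nat_lit 432) (nat_lit 5) (nat_lit 445) (nat_lit 5) (nat_lit 433) (nat_lit 5) (nat_lit 604) (nat_lit 574) (nat_lit 382))) (XT.nd (nat_lit 78) (nat_lit 836) (nat_lit 0) (XT.lf (nat_lit 0) (nat_lit 2928782718) (nat_lit 988) (nat_lit 13025105313) (nat_lit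 76) (nat_lit 569939693) (nat_lit 420) (nat_lit 5) (nat_lit 433) (nat_lit 5) (nat_lit 421) (nat_lit 5) (nat_lit 605) (nat_lit 574) (nat_lit 381)) (XT.nd (nat_lit 78) (nat_lit 836) (nat_lit 0) (XT.lf (nat_lit 0) (nat_lit 4863718536) (nat_lit 988) (nat_lit 3972646805) (nat_lit 76) (nat_lit 7863928813) (nat_lit 420) (nat_lit 5) (nat_lit 433) (nat_lit 5) (nat_lit 421) (nat_lit 5) (nat_lit 606) (nat_lit 574) (nat_lit 380)) (XT.lf (nat_lit 0) (nat_lit 5323905596) (nat_lit 836) (nat_lit 1540954475) (nat_lit 912) (nat_lit 10014880099) (nat_lit 409) (nat_lit 5) (nat_lit 420) (nat_lit 5) (nat_lit 421) (nat_lit 5) (nat_lit 607) (nat_lit 574) (nat_lit 379))))))) (XT.nd (nat_lit 780) (nat_lit 4864) (nat_lit 0) (XT.nd (nat_lit 390) (nat_lit 1520) (nat_lit 0) (XT.nd (nat_lit 156) (nat_lit 1748) (nat_lit 0) (XT.nd (nat_lit 78) (nat_lit 836) (nat_lit 0) (XT.lf (nat_lit 0) (nat_lit 8964205476) (nat_lit 912) (nat_lit 2247364074) (nat_lit 76) (nat_lit 5850042323) (nat_lit 409) (nat_lit 5) (nat_lit 421) (nat_lit 5) (nat_lit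 410) (nat_lit 5) (nat_lit 608) (nat_lit 574) (nat_lit 378)) (XT.lf (nat_lit 0) (nat_lit 7326417105) (nat_lit 836) (nat_lit 3830067031) (nat_lit 912) (nat_lit 6089618329) (nat_lit 398) (nat_lit 5) (nat_lit 409) (nat_lit 5) (nat_lit 410) (nat_lit 5) (nat_lit 609) (nat_lit 574) (nat_lit 377))) (XT.nd (nat_lit 78) (nat_lit 1748) (nat_lit 0) (XT.lf (nat_lit 0) (nat_lit 13425070053) (nat_lit 912) (nat_lit 342792408) (nat_lit 76) (nat_lit 3665771549) (nat_lit 398) (nat_lit 5) (nat_lit 410) (nat_lit 5) (nat_lit 399) (nat_lit 5) (nat_lit 610) (nat_lit 574) (nat_lit 376)) (XT.nd (nat_lit 78) (nat_lit 912) (nat_lit 0) (XT.lf (nat_lit 0) (nat_lit 9518411340) (nat_lit 836) (nat_lit 6301176972) (nat_lit 912) (nat_lit 1803717027) (nat_lit 387) (nat_lit 5) (nat_lit 398) (nat_lit 5) (nat_lit 399) (nat_lit 5) (nat_lit 611) (nat_lit 574) (nat_lit 375)) (XT.lf (nat_lit 0) (nat_lit 455335442) (nat_lit 912) (nat_lit 16046774430) (nat_lit 76) (nat_lit 1314283804) (nat_lit 375) (nat_lit 5) (nat_lit 387) (nat_lit 5) (nat_lit 376)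 (nat_lit 5) (nat_lit 612) (nat_lit 574) (nat_lit 374))))) (XT.nd (nat_lit 156) (nat_lit 760) (nat_lit 0) (XT.nd (nat_lit 78) (nat_lit 760) (nat_lit 0) (XT.lf (nat_lit 0) (nat_lit 2825440309) (nat_lit 912) (nat_lit 6121629882) (nat_lit 76) (nat_lit 9064235021) (nat_lit 375) (nat_lit 5) (nat_lit 387) (nat_lit 5) (nat_lit 376) (nat_lit 5) (nat_lit 613) (nat_lit 574) (nat_lit 373)) (XT.lf (nat_lit 0) (nat_lit 4048421556) (nat_lit 760) (nat_lit 1214460364) (nat_lit 836) (nat_lit 12946834703) (nat_lit 365) (nat_lit 5) (nat_lit 375) (nat_lit 5) (nat_lit 376) (nat_lit 5) (nat_lit 614) (nat_lit 574) (nat_lit 372))) (XT.nd (nat_lit 78) (nat_lit 760) (nat_lit 0) (XT.lf (nat_lit 0) (nat_lit 7827476534) (nat_lit 836) (nat_lit 3956787658) (nat_lit 76) (nat_lit 6626264321) (nat_lit 365) (nat_lit 5) (nat_lit 376) (nat_lit 5) (nat_lit 366) (nat_lit 5) (nat_lit 615) (nat_lit 574) (nat_lit 371)) (XT.nd (nat_lit 78) (nat_lit 0) (nat_lit 0) (XT.lf (nat_lit 0) (nat_lit 6522674929) (nat_lit 760) (nat_lit 3964931902) (nat_lit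 836) (nat_lit 8126865257) (nat_lit 355) (nat_lit 5) (nat_lit 365) (nat_lit 5) (nat_lit 366) (nat_lit 5) (nat_lit 616) (nat_lit 574) (nat_lit 370)) (XT.lf (nat_lit 0) (nat_lit 13247634215) (nat_lit 836) (nat_lit 1589530861) (nat_lit 76) (nat_lit 3984395890) (nat_lit 355) (nat_lit 5) (nat_lit 366) (nat_lit 5) (nat_lit 356) (nat_lit 5) (nat_lit 617) (nat_lit 574) (nat_lit 369)))))) (XT.nd (nat_lit 390) (nat_lit 2660) (nat_lit 0) (XT.nd (nat_lit 156) (nat_lit 760) (nat_lit 0) (XT.nd (nat_lit 78) (nat_lit 760) (nat_lit 0) (XT.lf (nat_lit 0) (nat_lit 9210742200) (nat_lit 684) (nat_lit 6932224941) (nat_lit 760) (nat_lit 2888222691) (nat_lit 346) (nat_lit 5) (nat_lit 355) (nat_lit 5) (nat_lit 356) (nat_lit 5) (nat_lit 618) (nat_lit 574) (nat_lit 368)) (XT.lf (nat_lit 0) (nat_lit 1002857676) (nat_lit 760) (nat_lit 18112054463) (nat_lit 836) (nat_lit 129725337) (nat_lit 336) (nat_lit 5) (nat_lit 346) (nat_lit 5) (nat_lit 347) (nat_lit 5) (nat_lit 619) (nat_lit 574) (nat_lit 367))) (XT.nd (nat_lit 78) (nat_lit 684)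 (nat_lit 0) (XT.lf (nat_lit 0) (nat_lit 2755135825) (nat_lit 836) (nat_lit 7355745281) (nat_lit 76) (nat_lit 9348996857) (nat_lit 335) (nat_lit 5) (nat_lit 346) (nat_lit 5) (nat_lit 336) (nat_lit 5) (nat_lit 620) (nat_lit 574) (nat_lit 366)) (XT.nd (nat_lit 78) (nat_lit 0) (nat_lit 0) (XT.lf (nat_lit 0) (nat_lit 3790306539) (nat_lit 684) (nat_lit 1924524861) (nat_lit 760) (nat_lit 13964197515) (nat_lit 326) (nat_lit 5) (nat_lit 335) (nat_lit 5) (nat_lit 336) (nat_lit 5) (nat_lit 621) (nat_lit 574) (nat_lit 365)) (XT.lf (nat_lit 0) (nat_lit 8819455810) (nat_lit 760) (nat_lit 4691252921) (nat_lit 76) (nat_lit 6390139741) (nat_lit 326) (nat_lit 5) (nat_lit 336) (nat_lit 5) (nat_lit 327) (nat_lit 5) (nat_lit 622) (nat_lit 574) (nat_lit 364))))) (XT.nd (nat_lit 234) (nat_lit 1368) (nat_lit 0) (XT.nd (nat_lit 78) (nat_lit 608) (nat_lit 0) (XT.lf (nat_lit 0) (nat_lit 6800115432) (nat_lit 684) (nat_lit 5237392665) (nat_lit 760) (nat_lit 8088569892) (nat_lit 317) (nat_lit 5) (nat_lit 326) (nat_lit 5) (nat_lit 327)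 (nat_lit 5) (nat_lit 623) (nat_lit 574) (nat_lit 363)) (XT.nd (nat_lit 78) (nat_lit 608) (nat_lit 0) (XT.lf (nat_lit 0) (nat_lit 15366896546) (nat_lit 760) (nat_lit 1797825470) (nat_lit 76) (nat_lit 3190150851) (nat_lit 317) (nat_lit 5) (nat_lit 327) (nat_lit 5) (nat_lit 318) (nat_lit 5) (nat_lit 624) (nat_lit 574) (nat_lit 362)) (XT.lf (nat_lit 0) (nat_lit 10051595293) (nat_lit 608) (nat_lit 8805831961) (nat_lit 684) (nat_lit 1728925565) (nat_lit 309) (nat_lit 5) (nat_lit 317) (nat_lit 5) (nat_lit 318) (nat_lit 5) (nat_lit 625) (nat_lit 574) (nat_lit 361)))) (XT.nd (nat_lit 78) (nat_lit 608) (nat_lit 0) (XT.lf (nat_lit 0) (nat_lit 1340849081) (nat_lit 684) (nat_lit 249021235) (nat_lit 760) (nat_lit 19232075419) (nat_lit 299) (nat_lit 5) (nat_lit 308) (nat_lit 5) (nat_lit 309) (nat_lit 5) (nat_lit 626) (nat_lit 574) (nat_lit 360)) (XT.nd (nat_lit 78) (nat_lit 608) (nat_lit 0) (XT.lf (nat_lit 0) (nat_lit 5072819429) (nat_lit 760) (nat_lit 7537544907) (nat_lit 76) (nat_lit 8449239307) (nat_lit 299) (nat_lit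 5) (nat_lit 309) (nat_lit 5) (nat_lit 300) (nat_lit 5) (nat_lit 627) (nat_lit 574) (nat_lit 359)) (XT.lf (nat_lit 0) (nat_lit 4698468927) (nat_lit 608) (nat_lit 3953910615) (nat_lit 684) (nat_lit 12649096374) (nat_lit 291) (nat_lit 5) (nat_lit 299) (nat_lit 5) (nat_lit 300) (nat_lit 5) (nat_lit 628) (nat_lit 574) (nat_lit 358))))))))
noncomputable def xc172 : XT := (XT.nd (nat_lit 1560) (nat_lit 3420) (nat_lit 0) (XT.nd (nat_lit 780) (nat_lit 2584) (nat_lit 0) (XT.nd (nat_lit 390) (nat_lit 1672) (nat_lit 0) (XT.nd (nat_lit 156) (nat_lit 1292) (nat_lit 0) (XT.nd (nat_lit 78) (nat_lit 608) (nat_lit 0) (XT.lf (nat_lit 0) (nat_lit 12380953198) (nat_lit 684) (nat_lit 4304223035) (nat_lit 76) (nat_lit 4861461196) (nat_lit 291) (nat_lit 5) (nat_lit 300) (nat_lit 5) (nat_lit 292) (nat_lit 5) (nat_lit 629) (nat_lit 574) (nat_lit 357)) (XT.lf (nat_lit 0) (nat_lit 8317124113) (nat_lit 608) (nat_lit 7942110689) (nat_lit 684) (nat_lit 5535964879) (nat_lit 283) (nat_lit 5) (nat_lit 291) (nat_lit 5) (nat_lit 292) (nat_lit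 5) (nat_lit 630) (nat_lit 574) (nat_lit 356))) (XT.nd (nat_lit 78) (nat_lit 1292) (nat_lit 0) (XT.lf (nat_lit 0) (nat_lit 20245493937) (nat_lit 684) (nat_lit 811797830) (nat_lit 76) (nat_lit 990833405) (nat_lit 283) (nat_lit 5) (nat_lit 292) (nat_lit 5) (nat_lit 284) (nat_lit 5) (nat_lit 631) (nat_lit 574) (nat_lit 355)) (XT.nd (nat_lit 78) (nat_lit 608) (nat_lit 0) (XT.lf (nat_lit 0) (nat_lit 2106874623) (nat_lit 684) (nat_lit 10108331667) (nat_lit 76) (nat_lit 10088086577) (nat_lit 274) (nat_lit 5) (nat_lit 283) (nat_lit 5) (nat_lit 275) (nat_lit 5) (nat_lit 632) (nat_lit 574) (nat_lit 354)) (XT.lf (nat_lit 0) (nat_lit 2929594892) (nat_lit 608) (nat_lit 3160488536) (nat_lit 684) (nat_lit 16472849396) (nat_lit 266) (nat_lit 5) (nat_lit 274) (nat_lit 5) (nat_lit 275) (nat_lit 5) (nat_lit 633) (nat_lit 574) (nat_lit 353))))) (XT.nd (nat_lit 156) (nat_lit 1140) (nat_lit 0) (XT.nd (nat_lit 78) (nat_lit 532) (nat_lit 0) (XT.lf (nat_lit 0) (nat_lit 10255852055) (nat_lit 684) (nat_lit 6507306353) (nat_lit 76)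 (nat_lit 6062549475) (nat_lit 266) (nat_lit 5) (nat_lit 275) (nat_lit 5) (nat_lit 267) (nat_lit 5) (nat_lit 634) (nat_lit 574) (nat_lit 352)) (XT.lf (nat_lit 0) (nat_lit 6945222682) (nat_lit 532) (nat_lit 7621000641) (nat_lit 608) (nat_lit 8526289585) (nat_lit 259) (nat_lit 5) (nat_lit 266) (nat_lit 5) (nat_lit 267) (nat_lit 5) (nat_lit 635) (nat_lit 574) (nat_lit 351))) (XT.nd (nat_lit 78) (nat_lit 1140) (nat_lit 0) (XT.lf (nat_lit 0) (nat_lit 19013129588) (nat_lit 608) (nat_lit 2626347205) (nat_lit 76) (nat_lit 1724170896) (nat_lit 259) (nat_lit 5) (nat_lit 267) (nat_lit 5) (nat_lit 260) (nat_lit 5) (nat_lit 636) (nat_lit 574) (nat_lit 350)) (XT.nd (nat_lit 78) (nat_lit 532) (nat_lit 0) (XT.lf (nat_lit 0) (nat_lit 29704385) (nat_lit 608) (nat_lit 12381954271) (nat_lit 76) (nat_lit 11226163773) (nat_lit 251) (nat_lit 5) (nat_lit 259) (nat_lit 5) (nat_lit 252) (nat_lit 5) (nat_lit 637) (nat_lit 574) (nat_lit 349)) (XT.lf (nat_lit 0) (nat_lit 1519072037) (nat_lit 532) (nat_lit 2943283974) (nat_lit 608) (nat_lit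 19454088145) (nat_lit 244) (nat_lit 5) (nat_lit 251) (nat_lit 5) (nat_lit 252) (nat_lit 5) (nat_lit 638) (nat_lit 574) (nat_lit 348)))))) (XT.nd (nat_lit 390) (nat_lit 988) (nat_lit 0) (XT.nd (nat_lit 156) (nat_lit 1064) (nat_lit 0) (XT.nd (nat_lit 78) (nat_lit 532) (nat_lit 0) (XT.lf (nat_lit 0) (nat_lit 9106355269) (nat_lit 608) (nat_lit 8383325651) (nat_lit 76) (nat_lit 6708503699) (nat_lit 244) (nat_lit 5) (nat_lit 252) (nat_lit 5) (nat_lit 245) (nat_lit 5) (nat_lit 639) (nat_lit 574) (nat_lit 347)) (XT.lf (nat_lit 0) (nat_lit 5963681753) (nat_lit 532) (nat_lit 7933314086) (nat_lit 608) (nat_lit 10587489011) (nat_lit 237) (nat_lit 5) (nat_lit 244) (nat_lit 5) (nat_lit 245) (nat_lit 5) (nat_lit 640) (nat_lit 574) (nat_lit 346))) (XT.nd (nat_lit 78) (nat_lit 1064) (nat_lit 0) (XT.lf (nat_lit 0) (nat_lit 18847444276) (nat_lit 608) (nat_lit 4082350778) (nat_lit 76) (nat_lit 1845436313) (nat_lit 237) (nat_lit 5) (nat_lit 245) (nat_lit 5) (nat_lit 238) (nat_lit 5) (nat_lit 641) (nat_lit 574) (nat_lit 345))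 (XT.nd (nat_lit 78) (nat_lit 608) (nat_lit 0) (XT.lf (nat_lit 0) (nat_lit 10727057714) (nat_lit 456) (nat_lit 13287703280) (nat_lit 532) (nat_lit 1054674815) (nat_lit 231) (nat_lit 5) (nat_lit 237) (nat_lit 5) (nat_lit 238) (nat_lit 5) (nat_lit 642) (nat_lit 574) (nat_lit 344)) (XT.lf (nat_lit 0) (nat_lit 493907040) (nat_lit 532) (nat_lit 3397109348) (nat_lit 608) (nat_lit 21477470144) (nat_lit 223) (nat_lit 5) (nat_lit 230) (nat_lit 5) (nat_lit 231) (nat_lit 5) (nat_lit 643) (nat_lit 574) (nat_lit 343))))) (XT.nd (nat_lit 156) (nat_lit 532) (nat_lit 0) (XT.nd (nat_lit 78) (nat_lit 456) (nat_lit 0) (XT.lf (nat_lit 0) (nat_lit 9057565658) (nat_lit 608) (nat_lit 9907342156) (nat_lit 76) (nat_lit 6705749870) (nat_lit 223) (nat_lit 5) (nat_lit 231) (nat_lit 5) (nat_lit 224) (nat_lit 5) (nat_lit 644) (nat_lit 574) (nat_lit 342)) (XT.lf (nat_lit 0) (nat_lit 5401689531) (nat_lit 456) (nat_lit 8979135451) (nat_lit 532) (nat_lit 11596979862) (nat_lit 217) (nat_lit 5) (nat_lit 223) (nat_lit 5) (nat_lit 224) (nat_lit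 5) (nat_lit 645) (nat_lit 574) (nat_lit 341))) (XT.nd (nat_lit 78) (nat_lit 532) (nat_lit 0) (XT.lf (nat_lit 0) (nat_lit 19881149001) (nat_lit 532) (nat_lit 5152769791) (nat_lit 76) (nat_lit 1255764327) (nat_lit 217) (nat_lit 5) (nat_lit 224) (nat_lit 5) (nat_lit 218) (nat_lit 5) (nat_lit 646) (nat_lit 574) (nat_lit 340)) (XT.nd (nat_lit 78) (nat_lit 76) (nat_lit 0) (XT.lf (nat_lit 0) (nat_lit 10653486570) (nat_lit 456) (nat_lit 14962551707) (nat_lit 532) (nat_lit 989269666) (nat_lit 211) (nat_lit 5) (nat_lit 217) (nat_lit 5) (nat_lit 218) (nat_lit 5) (nat_lit 647) (nat_lit 574) (nat_lit 339)) (XT.lf (nat_lit 0) (nat_lit 4509605541) (nat_lit 532) (nat_lit 116363508) (nat_lit 76) (nat_lit 22300072101) (nat_lit 210) (nat_lit 5) (nat_lit 217) (nat_lit 5) (nat_lit 211) (nat_lit 5) (nat_lit 648) (nat_lit 574) (nat_lit 338))))))) (XT.nd (nat_lit 780) (nat_lit 380) (nat_lit 0) (XT.nd (nat_lit 390) (nat_lit 1672) (nat_lit 0) (XT.nd (nat_lit 156) (nat_lit 456) (nat_lit 0) (XT.nd (nat_lit 78) (nat_lit 456) (nat_lit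 0) (XT.lf (nat_lit 0) (nat_lit 10245811850) (nat_lit 532) (nat_lit 11053698075) (nat_lit 76) (nat_lit 5950736469) (nat_lit 204) (nat_lit 5) (nat_lit 211) (nat_lit 5) (nat_lit 205) (nat_lit 5) (nat_lit 649) (nat_lit 574) (nat_lit 337)) (XT.lf (nat_lit 0) (nat_lit 5289360215) (nat_lit 456) (nat_lit 10869195526) (nat_lit 532) (nat_lit 11421143879) (nat_lit 198) (nat_lit 5) (nat_lit 204) (nat_lit 5) (nat_lit 205) (nat_lit 5) (nat_lit 650) (nat_lit 574) (nat_lit 336))) (XT.nd (nat_lit 78) (nat_lit 456) (nat_lit 0) (XT.lf (nat_lit 0) (nat_lit 22103407692) (nat_lit 456) (nat_lit 156413178) (nat_lit 532) (nat_lit 5654515858) (nat_lit 198) (nat_lit 5) (nat_lit 204) (nat_lit 5) (nat_lit 205) (nat_lit 5) (nat_lit 651) (nat_lit 574) (nat_lit 335)) (XT.nd (nat_lit 78) (nat_lit 0) (nat_lit 0) (XT.lf (nat_lit 0) (nat_lit 363319038) (nat_lit 456) (nat_lit 17187665817) (nat_lit 76) (nat_lit 10701875181) (nat_lit 192) (nat_lit 5) (nat_lit 198) (nat_lit 5) (nat_lit 193) (nat_lit 5) (nat_lit 652) (nat_lit 574) (nat_lit 334))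 (XT.lf (nat_lit 0) (nat_lit 6462324897) (nat_lit 456) (nat_lit 284181535) (nat_lit 76) (nat_lit 21850169423) (nat_lit 192) (nat_lit 5) (nat_lit 198) (nat_lit 5) (nat_lit 193) (nat_lit 5) (nat_lit 653) (nat_lit 574) (nat_lit 333))))) (XT.nd (nat_lit 156) (nat_lit 836) (nat_lit 0) (XT.nd (nat_lit 78) (nat_lit 380) (nat_lit 0) (XT.lf (nat_lit 0) (nat_lit 12819556904) (nat_lit 532) (nat_lit 11796600312) (nat_lit 76) (nat_lit 4328485986) (nat_lit 186) (nat_lit 5) (nat_lit 193) (nat_lit 5) (nat_lit 187) (nat_lit 5) (nat_lit 654) (nat_lit 574) (nat_lit 332)) (XT.lf (nat_lit 0) (nat_lit 5657145321) (nat_lit 380) (nat_lit 13726386766) (nat_lit 456) (nat_lit 9914445972) (nat_lit 181) (nat_lit 5) (nat_lit 186) (nat_lit 5) (nat_lit 187) (nat_lit 5) (nat_lit 655) (nat_lit 574) (nat_lit 331))) (XT.nd (nat_lit 78) (nat_lit 836) (nat_lit 0) (XT.lf (nat_lit 0) (nat_lit 23614318784) (nat_lit 380) (nat_lit 2539936574) (nat_lit 456) (nat_lit 3502615011) (nat_lit 181) (nat_lit 5) (nat_lit 186) (nat_lit 5) (nat_lit 187) (nat_lit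 5) (nat_lit 656) (nat_lit 574) (nat_lit 330)) (XT.nd (nat_lit 78) (nat_lit 380) (nat_lit 0) (XT.lf (nat_lit 0) (nat_lit 3130373359) (nat_lit 456) (nat_lit 18038890264) (nat_lit 76) (nat_lit 8850627450) (nat_lit 175) (nat_lit 5) (nat_lit 181) (nat_lit 5) (nat_lit 176) (nat_lit 5) (nat_lit 657) (nat_lit 574) (nat_lit 329)) (XT.lf (nat_lit 0) (nat_lit 11925451) (nat_lit 380) (nat_lit 9891334837) (nat_lit 456) (nat_lit 20485366204) (nat_lit 170) (nat_lit 5) (nat_lit 175) (nat_lit 5) (nat_lit 176) (nat_lit 5) (nat_lit 658) (nat_lit 574) (nat_lit 328)))))) (XT.nd (nat_lit 74880) (nat_lit 0) (nat_lit 25232) (XT.nd (nat_lit 74646) (nat_lit 0) (nat_lit 25156) (XT.nd (nat_lit 78) (nat_lit 380) (nat_lit 0) (XT.lf (nat_lit 0) (nat_lit 16940326853) (nat_lit 456) (nat_lit 12110845196) (nat_lit 76) (nat_lit 1710990250) (nat_lit 170) (nat_lit 5) (nat_lit 176) (nat_lit 5) (nat_lit 171) (nat_lit 5) (nat_lit 659) (nat_lit 574) (nat_lit 327)) (XT.lf (nat_lit 0) (nat_lit 6535099727) (nat_lit 380) (nat_lit 17687443917) (nat_lit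 456) (nat_lit 6918537116) (nat_lit 165) (nat_lit 5) (nat_lit 170) (nat_lit 5) (nat_lit 171) (nat_lit 5) (nat_lit 660) (nat_lit 574) (nat_lit 326))) (XT.nd (nat_lit 78) (nat_lit 1748) (nat_lit 0) (XT.lf (nat_lit 0) (nat_lit 5870242067) (nat_lit 1748) (nat_lit 157991211) (nat_lit 1748) (nat_lit 157991211) (nat_lit 519) (nat_lit 3) (nat_lit 542) (nat_lit 3) (nat_lit 542) (nat_lit 5) (nat_lit 575) (nat_lit 575) (nat_lit 410)) (XT.nd (nat_lit 78) (nat_lit 1748) (nat_lit 0) (XT.lf (nat_lit 76) (nat_lit 5899534272) (nat_lit 0) (nat_lit 6439451242) (nat_lit 1748) (nat_lit 147537522) (nat_lit 520) (nat_lit 5) (nat_lit 519) (nat_lit 3) (nat_lit 542) (nat_lit 5) (nat_lit 576) (nat_lit 575) (nat_lit 409)) (XT.lf (nat_lit 0) (nat_lit 332435856) (nat_lit 1748) (nat_lit 367615092) (nat_lit 1824) (nat_lit 11902975297) (nat_lit 496) (nat_lit 5) (nat_lit 519) (nat_lit 3) (nat_lit 520) (nat_lit 5) (nat_lit 577) (nat_lit 575) (nat_lit 408))))) (XT.nd (nat_lit 156) (nat_lit 0) (nat_lit 76) (XT.nd (nat_lit 78) (nat_lit 0) (nat_lit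 0) (XT.lf (nat_lit 0) (nat_lit 881570235) (nat_lit 1748) (nat_lit 6706594237) (nat_lit 1824) (nat_lit 5132445519) (nat_lit 497) (nat_lit 5) (nat_lit 520) (nat_lit 5) (nat_lit 521) (nat_lit 5) (nat_lit 578) (nat_lit 575) (nat_lit 407)) (XT.lf (nat_lit 0) (nat_lit 1437526243) (nat_lit 1748) (nat_lit 323146387) (nat_lit 1824) (nat_lit 11079956707) (nat_lit 497) (nat_lit 5) (nat_lit 520) (nat_lit 5) (nat_lit 521) (nat_lit 5) (nat_lit 579) (nat_lit 575) (nat_lit 406))) (XT.nd (nat_lit 78) (nat_lit 0) (nat_lit 0) (XT.lf (nat_lit 0) (nat_lit 2061674623) (nat_lit 1748) (nat_lit 6725933785) (nat_lit 1824) (nat_lit 4174299887) (nat_lit 498) (nat_lit 5) (nat_lit 521) (nat_lit 5) (nat_lit 522) (nat_lit 5) (nat_lit 580) (nat_lit 575) (nat_lit 405)) (XT.nd (nat_lit 78) (nat_lit 0) (nat_lit 76) (XT.lf (nat_lit 0) (nat_lit 2701298024) (nat_lit 1748) (nat_lit 172932217) (nat_lit 1824) (nat_lit 10211323429) (nat_lit 498) (nat_lit 5) (nat_lit 521) (nat_lit 5) (nat_lit 522) (nat_lit 5) (nat_lit 581) (nat_lit 575) (nat_lit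 404)) (XT.lf (nat_lit 0) (nat_lit 3406683347) (nat_lit 1748) (nat_lit 6640487441) (nat_lit 1824) (nat_lit 3163442438) (nat_lit 499) (nat_lit 5) (nat_lit 522) (nat_lit 5) (nat_lit 523) (nat_lit 5) (nat_lit 582) (nat_lit 575) (nat_lit 403))))))))
noncomputable def xc173 : XT := (XT.nd (nat_lit 1560) (nat_lit 9044) (nat_lit 0) (XT.nd (nat_lit 780) (nat_lit 4104) (nat_lit 0) (XT.nd (nat_lit 390) (nat_lit 0) (nat_lit 152) (XT.nd (nat_lit 156) (nat_lit 0) (nat_lit 76) (XT.nd (nat_lit 78) (nat_lit 0) (nat_lit 76) (XT.lf (nat_lit 76) (nat_lit 87930239) (nat_lit 0) (nat_lit 4048578017) (nat_lit 1824) (nat_lit 9201459730) (nat_lit 500) (nat_lit 5) (nat_lit 499) (nat_lit 5) (nat_lit 523) (nat_lit 5) (nat_lit 583) (nat_lit 575) (nat_lit 402)) (XT.lf (nat_lit 0) (nat_lit 4928972528) (nat_lit 1748) (nat_lit 6446391915) (nat_lit 1824) (nat_lit 2091545180) (nat_lit 500) (nat_lit 5) (nat_lit 523) (nat_lit 5) (nat_lit 524) (nat_lit 5) (nat_lit 584) (nat_lit 575) (nat_lit 401))) (XT.nd (nat_lit 78) (nat_lit 0) (nat_lit 76)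 (XT.lf (nat_lit 76) (nat_lit 466149980) (nat_lit 0) (nat_lit 5290922338) (nat_lit 1824) (nat_lit 7840962675) (nat_lit 501) (nat_lit 5) (nat_lit 500) (nat_lit 5) (nat_lit 524) (nat_lit 5) (nat_lit 585) (nat_lit 575) (nat_lit 400)) (XT.nd (nat_lit 78) (nat_lit 0) (nat_lit 0) (XT.lf (nat_lit 0) (nat_lit 6641347098) (nat_lit 1748) (nat_lit 6139478180) (nat_lit 1824) (nat_lit 950165946) (nat_lit 501) (nat_lit 5) (nat_lit 524) (nat_lit 5) (nat_lit 525) (nat_lit 5) (nat_lit 586) (nat_lit 575) (nat_lit 399)) (XT.lf (nat_lit 76) (nat_lit 963852080) (nat_lit 0) (nat_lit 6611071780) (nat_lit 1824) (nat_lit 6291050991) (nat_lit 502) (nat_lit 5) (nat_lit 501) (nat_lit 5) (nat_lit 525) (nat_lit 5) (nat_lit 587) (nat_lit 575) (nat_lit 398))))) (XT.nd (nat_lit 156) (nat_lit 0) (nat_lit 76) (XT.nd (nat_lit 78) (nat_lit 0) (nat_lit 76) (XT.lf (nat_lit 76) (nat_lit 8285987546) (nat_lit 0) (nat_lit 272850765) (nat_lit 1824) (nat_lit 5444187107) (nat_lit 502) (nat_lit 5) (nat_lit 501) (nat_lit 5) (nat_lit 525) (nat_lit 5) (nat_lit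 588) (nat_lit 575) (nat_lit 397)) (XT.lf (nat_lit 76) (nat_lit 1585779642) (nat_lit 0) (nat_lit 8017824140) (nat_lit 1824) (nat_lit 4538390336) (nat_lit 503) (nat_lit 5) (nat_lit 502) (nat_lit 5) (nat_lit 526) (nat_lit 5) (nat_lit 589) (nat_lit 575) (nat_lit 396))) (XT.nd (nat_lit 78) (nat_lit 0) (nat_lit 76) (XT.lf (nat_lit 76) (nat_lit 9103798245) (nat_lit 0) (nat_lit 1596439617) (nat_lit 1824) (nat_lit 3582885431) (nat_lit 503) (nat_lit 5) (nat_lit 502) (nat_lit 5) (nat_lit 526) (nat_lit 5) (nat_lit 590) (nat_lit 575) (nat_lit 395)) (XT.nd (nat_lit 78) (nat_lit 0) (nat_lit 0) (XT.lf (nat_lit 76) (nat_lit 2337001747) (nat_lit 0) (nat_lit 9520147807) (nat_lit 1824) (nat_lit 2569159155) (nat_lit 504) (nat_lit 5) (nat_lit 503) (nat_lit 5) (nat_lit 527) (nat_lit 5) (nat_lit 591) (nat_lit 575) (nat_lit 394)) (XT.lf (nat_lit 76) (nat_lit 10056602560) (nat_lit 0) (nat_lit 3017000542) (nat_lit 1824) (nat_lit 1498027203) (nat_lit 504) (nat_lit 5) (nat_lit 503) (nat_lit 5) (nat_lit 527) (nat_lit 5) (nat_lit 592)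 (nat_lit 575) (nat_lit 393)))))) (XT.nd (nat_lit 390) (nat_lit 2660) (nat_lit 0) (XT.nd (nat_lit 156) (nat_lit 0) (nat_lit 76) (XT.nd (nat_lit 78) (nat_lit 1824) (nat_lit 0) (XT.lf (nat_lit 76) (nat_lit 3222920224) (nat_lit 0) (nat_lit 11127202726) (nat_lit 1824) (nat_lit 369021172) (nat_lit 505) (nat_lit 5) (nat_lit 504) (nat_lit 5) (nat_lit 528) (nat_lit 5) (nat_lit 593) (nat_lit 575) (nat_lit 392)) (XT.lf (nat_lit 0) (nat_lit 814183812) (nat_lit 1824) (nat_lit 3724112896) (nat_lit 1900) (nat_lit 10330372757) (nat_lit 480) (nat_lit 5) (nat_lit 504) (nat_lit 5) (nat_lit 505) (nat_lit 5) (nat_lit 594) (nat_lit 575) (nat_lit 391))) (XT.nd (nat_lit 78) (nat_lit 0) (nat_lit 0) (XT.lf (nat_lit 0) (nat_lit 2049663909) (nat_lit 1824) (nat_lit 10784943272) (nat_lit 1900) (nat_lit 2185858807) (nat_lit 481) (nat_lit 5) (nat_lit 505) (nat_lit 5) (nat_lit 506) (nat_lit 5) (nat_lit 595) (nat_lit 575) (nat_lit 390)) (XT.nd (nat_lit 78) (nat_lit 0) (nat_lit 76) (XT.lf (nat_lit 0) (nat_lit 3356771407) (nat_lit 1824) (nat_lit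 2806869431) (nat_lit 1900) (nat_lit 9010719741) (nat_lit 481) (nat_lit 5) (nat_lit 505) (nat_lit 5) (nat_lit 506) (nat_lit 5) (nat_lit 596) (nat_lit 575) (nat_lit 389)) (XT.lf (nat_lit 0) (nat_lit 4721320355) (nat_lit 1824) (nat_lit 9940227775) (nat_lit 1900) (nat_lit 669159429) (nat_lit 482) (nat_lit 5) (nat_lit 506) (nat_lit 5) (nat_lit 507) (nat_lit 5) (nat_lit 597) (nat_lit 575) (nat_lit 388))))) (XT.nd (nat_lit 156) (nat_lit 2812) (nat_lit 0) (XT.nd (nat_lit 78) (nat_lit 0) (nat_lit 0) (XT.lf (nat_lit 0) (nat_lit 6164935557) (nat_lit 1824) (nat_lit 1747603591) (nat_lit 1900) (nat_lit 7576607299) (nat_lit 482) (nat_lit 5) (nat_lit 506) (nat_lit 5) (nat_lit 507) (nat_lit 5) (nat_lit 598) (nat_lit 575) (nat_lit 387)) (XT.lf (nat_lit 76) (nat_lit 6690066352) (nat_lit 0) (nat_lit 982946148) (nat_lit 1900) (nat_lit 7977030290) (nat_lit 483) (nat_lit 5) (nat_lit 482) (nat_lit 5) (nat_lit 507) (nat_lit 5) (nat_lit 599) (nat_lit 575) (nat_lit 386))) (XT.nd (nat_lit 78) (nat_lit 2888) (nat_lit 0) (XT.lf (nat_lit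 0) (nat_lit 9254838097) (nat_lit 1824) (nat_lit 539998877) (nat_lit 76) (nat_lit 6018448799) (nat_lit 483) (nat_lit 5) (nat_lit 507) (nat_lit 5) (nat_lit 484) (nat_lit 5) (nat_lit 600) (nat_lit 575) (nat_lit 385)) (XT.nd (nat_lit 78) (nat_lit 1064) (nat_lit 0) (XT.lf (nat_lit 0) (nat_lit 8142116514) (nat_lit 1824) (nat_lit 2777981507) (nat_lit 1900) (nat_lit 5058660085) (nat_lit 459) (nat_lit 5) (nat_lit 483) (nat_lit 5) (nat_lit 484) (nat_lit 5) (nat_lit 601) (nat_lit 575) (nat_lit 384)) (XT.lf (nat_lit 0) (nat_lit 833551452) (nat_lit 1064) (nat_lit 11815141005) (nat_lit 1140) (nat_lit 3498247280) (nat_lit 445) (nat_lit 5) (nat_lit 459) (nat_lit 5) (nat_lit 460) (nat_lit 5) (nat_lit 602) (nat_lit 575) (nat_lit 383))))))) (XT.nd (nat_lit 780) (nat_lit 4636) (nat_lit 0) (XT.nd (nat_lit 390) (nat_lit 2508) (nat_lit 0) (XT.nd (nat_lit 156) (nat_lit 988) (nat_lit 0) (XT.nd (nat_lit 78) (nat_lit 912) (nat_lit 0) (XT.lf (nat_lit 0) (nat_lit 9758127520) (nat_lit 1064) (nat_lit 4717235811) (nat_lit 1140) (nat_lit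 1841852008) (nat_lit 445) (nat_lit 5) (nat_lit 459) (nat_lit 5) (nat_lit 460) (nat_lit 5) (nat_lit 603) (nat_lit 575) (nat_lit 382)) (XT.lf (nat_lit 0) (nat_lit 2378487544) (nat_lit 912) (nat_lit 13984690831) (nat_lit 988) (nat_lit 127226284) (nat_lit 433) (nat_lit 5) (nat_lit 445) (nat_lit 5) (nat_lit 446) (nat_lit 5) (nat_lit 604) (nat_lit 575) (nat_lit 381))) (XT.nd (nat_lit 78) (nat_lit 912) (nat_lit 0) (XT.lf (nat_lit 0) (nat_lit 1668810164) (nat_lit 988) (nat_lit 5131192234) (nat_lit 76) (nat_lit 9865477450) (nat_lit 432) (nat_lit 5) (nat_lit 445) (nat_lit 5) (nat_lit 433) (nat_lit 5) (nat_lit 605) (nat_lit 575) (nat_lit 380)) (XT.nd (nat_lit 78) (nat_lit 0) (nat_lit 0) (XT.lf (nat_lit 0) (nat_lit 3522119735) (nat_lit 988) (nat_lit 12772061956) (nat_lit 76) (nat_lit 549397309) (nat_lit 420) (nat_lit 5) (nat_lit 433) (nat_lit 5) (nat_lit 421) (nat_lit 5) (nat_lit 606) (nat_lit 575) (nat_lit 379)) (XT.lf (nat_lit 0) (nat_lit 5485268752) (nat_lit 988) (nat_lit 3548623796) (nat_lit 76) (nat_lit 7989892510)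 (nat_lit 420) (nat_lit 5) (nat_lit 433) (nat_lit 5) (nat_lit 421) (nat_lit 5) (nat_lit 607) (nat_lit 575) (nat_lit 378))))) (XT.nd (nat_lit 156) (nat_lit 1672) (nat_lit 0) (XT.nd (nat_lit 78) (nat_lit 0) (nat_lit 0) (XT.lf (nat_lit 0) (nat_lit 5930547311) (nat_lit 836) (nat_lit 1588853282) (nat_lit 912) (nat_lit 9687560629) (nat_lit 409) (nat_lit 5) (nat_lit 420) (nat_lit 5) (nat_lit 421) (nat_lit 5) (nat_lit 608) (nat_lit 575) (nat_lit 377)) (XT.lf (nat_lit 0) (nat_lit 9650482162) (nat_lit 912) (nat_lit 1791675820) (nat_lit 76) (nat_lit 5950517959) (nat_lit 409) (nat_lit 5) (nat_lit 421) (nat_lit 5) (nat_lit 410) (nat_lit 5) (nat_lit 609) (nat_lit 575) (nat_lit 376))) (XT.nd (nat_lit 78) (nat_lit 836) (nat_lit 0) (XT.lf (nat_lit 0) (nat_lit 7970287328) (nat_lit 836) (nat_lit 3909607110) (nat_lit 912) (nat_lit 5701096702) (nat_lit 398) (nat_lit 5) (nat_lit 409) (nat_lit 5) (nat_lit 410) (nat_lit 5) (nat_lit 610) (nat_lit 575) (nat_lit 375)) (XT.nd (nat_lit 78) (nat_lit 0) (nat_lit 0) (XT.lf (nat_lit 0)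 (nat_lit 149761316) (nat_lit 836) (nat_lit 14035234976) (nat_lit 912) (nat_lit 3587454683) (nat_lit 387) (nat_lit 5) (nat_lit 398) (nat_lit 5) (nat_lit 399) (nat_lit 5) (nat_lit 611) (nat_lit 575) (nat_lit 374)) (XT.lf (nat_lit 0) (nat_lit 10202952327) (nat_lit 836) (nat_lit 6417072022) (nat_lit 912) (nat_lit 1346039527) (nat_lit 387) (nat_lit 5) (nat_lit 398) (nat_lit 5) (nat_lit 399) (nat_lit 5) (nat_lit 612) (nat_lit 575) (nat_lit 373)))))) (XT.nd (nat_lit 390) (nat_lit 2204) (nat_lit 0) (XT.nd (nat_lit 156) (nat_lit 1520) (nat_lit 0) (XT.nd (nat_lit 78) (nat_lit 0) (nat_lit 0) (XT.lf (nat_lit 0) (nat_lit 945499909) (nat_lit 912) (nat_lit 15860791266) (nat_lit 76) (nat_lit 1356783571) (nat_lit 375) (nat_lit 5) (nat_lit 387) (nat_lit 5) (nat_lit 376) (nat_lit 5) (nat_lit 613) (nat_lit 575) (nat_lit 372)) (XT.lf (nat_lit 0) (nat_lit 3353574368) (nat_lit 912) (nat_lit 5747083408) (nat_lit 76) (nat_lit 9261415889) (nat_lit 375) (nat_lit 5) (nat_lit 387) (nat_lit 5) (nat_lit 376) (nat_lit 5) (nat_lit 614)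 (nat_lit 575) (nat_lit 371))) (XT.nd (nat_lit 78) (nat_lit 760) (nat_lit 0) (XT.lf (nat_lit 0) (nat_lit 4623099459) (nat_lit 760) (nat_lit 1210623288) (nat_lit 836) (nat_lit 12730851892) (nat_lit 365) (nat_lit 5) (nat_lit 375) (nat_lit 5) (nat_lit 376) (nat_lit 5) (nat_lit 615) (nat_lit 575) (nat_lit 370)) (XT.nd (nat_lit 78) (nat_lit 760) (nat_lit 0) (XT.lf (nat_lit 0) (nat_lit 8440659205) (nat_lit 836) (nat_lit 3542920300) (nat_lit 76) (nat_lit 6786002746) (nat_lit 365) (nat_lit 5) (nat_lit 376) (nat_lit 5) (nat_lit 366) (nat_lit 5) (nat_lit 616) (nat_lit 575) (nat_lit 369)) (XT.lf (nat_lit 0) (nat_lit 7142888097) (nat_lit 760) (nat_lit 4005330265) (nat_lit 836) (nat_lit 7829502285) (nat_lit 355) (nat_lit 5) (nat_lit 365) (nat_lit 5) (nat_lit 366) (nat_lit 5) (nat_lit 617) (nat_lit 575) (nat_lit 368))))) (XT.nd (nat_lit 234) (nat_lit 684) (nat_lit 0) (XT.nd (nat_lit 78) (nat_lit 1520) (nat_lit 0) (XT.lf (nat_lit 0) (nat_lit 13954853527) (nat_lit 836) (nat_lit 1132548942) (nat_lit 76) (nat_lit 4101721152)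 (nat_lit 355) (nat_lit 5) (nat_lit 366) (nat_lit 5) (nat_lit 356) (nat_lit 5) (nat_lit 618) (nat_lit 575) (nat_lit 367)) (XT.nd (nat_lit 78) (nat_lit 836) (nat_lit 0) (XT.lf (nat_lit 0) (nat_lit 9880513971) (nat_lit 684) (nat_lit 7022059804) (nat_lit 760) (nat_lit 2500482133) (nat_lit 346) (nat_lit 5) (nat_lit 355) (nat_lit 5) (nat_lit 356) (nat_lit 5) (nat_lit 619) (nat_lit 575) (nat_lit 366)) (XT.lf (nat_lit 0) (nat_lit 303976970) (nat_lit 836) (nat_lit 18109211547) (nat_lit 76) (nat_lit 1207645772) (nat_lit 335) (nat_lit 5) (nat_lit 346) (nat_lit 5) (nat_lit 336) (nat_lit 5) (nat_lit 620) (nat_lit 575) (nat_lit 365)))) (XT.nd (nat_lit 78) (nat_lit 684) (nat_lit 0) (XT.lf (nat_lit 0) (nat_lit 3236279146) (nat_lit 836) (nat_lit 7016051617) (nat_lit 76) (nat_lit 9588202486) (nat_lit 335) (nat_lit 5) (nat_lit 346) (nat_lit 5) (nat_lit 336) (nat_lit 5) (nat_lit 621) (nat_lit 575) (nat_lit 364)) (XT.nd (nat_lit 78) (nat_lit 0) (nat_lit 0) (XT.lf (nat_lit 0) (nat_lit 4349718552) (nat_lit 684) (nat_lit 1900236234)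 (nat_lit 760) (nat_lit 13814217133) (nat_lit 326) (nat_lit 5) (nat_lit 335) (nat_lit 5) (nat_lit 336) (nat_lit 5) (nat_lit 622) (nat_lit 575) (nat_lit 363)) (XT.lf (nat_lit 0) (nat_lit 9408819790) (nat_lit 760) (nat_lit 4303082044) (nat_lit 76) (nat_lit 6578683482) (nat_lit 326) (nat_lit 5) (nat_lit 336) (nat_lit 5) (nat_lit 327) (nat_lit 5) (nat_lit 623) (nat_lit 575) (nat_lit 362))))))))
noncomputable def xc174 : XT := (XT.nd (nat_lit 1560) (nat_lit 4636) (nat_lit 0) (XT.nd (nat_lit 780) (nat_lit 3268) (nat_lit 0) (XT.nd (nat_lit 390) (nat_lit 1900) (nat_lit 0) (XT.nd (nat_lit 156) (nat_lit 1368) (nat_lit 0) (XT.nd (nat_lit 78) (nat_lit 0) (nat_lit 0) (XT.lf (nat_lit 0) (nat_lit 7414942650) (nat_lit 684) (nat_lit 5271301775) (nat_lit 760) (nat_lit 7834175177) (nat_lit 317) (nat_lit 5) (nat_lit 326) (nat_lit 5) (nat_lit 327) (nat_lit 5) (nat_lit 624) (nat_lit 575) (nat_lit 361)) (XT.lf (nat_lit 0) (nat_lit 16074671828) (nat_lit 760) (nat_lit 1356777152) (nat_lit 76) (nat_lit 3322492770) (nat_lit 317) (nat_lit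 5) (nat_lit 327) (nat_lit 5) (nat_lit 318) (nat_lit 5) (nat_lit 625) (nat_lit 575) (nat_lit 360))) (XT.nd (nat_lit 78) (nat_lit 760) (nat_lit 0) (XT.lf (nat_lit 0) (nat_lit 10726493837) (nat_lit 608) (nat_lit 8903744257) (nat_lit 684) (nat_lit 1359909097) (nat_lit 309) (nat_lit 5) (nat_lit 317) (nat_lit 5) (nat_lit 318) (nat_lit 5) (nat_lit 626) (nat_lit 575) (nat_lit 359)) (XT.nd (nat_lit 78) (nat_lit 0) (nat_lit 0) (XT.lf (nat_lit 0) (nat_lit 1843692485) (nat_lit 684) (nat_lit 171557836) (nat_lit 760) (nat_lit 19215243993) (nat_lit 299) (nat_lit 5) (nat_lit 308) (nat_lit 5) (nat_lit 309) (nat_lit 5) (nat_lit 627) (nat_lit 575) (nat_lit 358)) (XT.lf (nat_lit 0) (nat_lit 5560665895) (nat_lit 760) (nat_lit 7214392395) (nat_lit 76) (nat_lit 8697991307) (nat_lit 299) (nat_lit 5) (nat_lit 309) (nat_lit 5) (nat_lit 300) (nat_lit 5) (nat_lit 628) (nat_lit 575) (nat_lit 357))))) (XT.nd (nat_lit 156) (nat_lit 1292) (nat_lit 0) (XT.nd (nat_lit 78) (nat_lit 0) (nat_lit 0) (XT.lf (nat_lit 0) (nat_lit 5263223930) (nat_lit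 608) (nat_lit 3944073657) (nat_lit 684) (nat_lit 12512552481) (nat_lit 291) (nat_lit 5) (nat_lit 299) (nat_lit 5) (nat_lit 300) (nat_lit 5) (nat_lit 629) (nat_lit 575) (nat_lit 356)) (XT.lf (nat_lit 0) (nat_lit 13003521037) (nat_lit 684) (nat_lit 3921813677) (nat_lit 76) (nat_lit 5044718883) (nat_lit 291) (nat_lit 5) (nat_lit 300) (nat_lit 5) (nat_lit 292) (nat_lit 5) (nat_lit 630) (nat_lit 575) (nat_lit 355))) (XT.nd (nat_lit 78) (nat_lit 684) (nat_lit 0) (XT.lf (nat_lit 0) (nat_lit 8948878218) (nat_lit 608) (nat_lit 8006159880) (nat_lit 684) (nat_lit 5268635945) (nat_lit 283) (nat_lit 5) (nat_lit 291) (nat_lit 5) (nat_lit 292) (nat_lit 5) (nat_lit 631) (nat_lit 575) (nat_lit 354)) (XT.nd (nat_lit 78) (nat_lit 684) (nat_lit 0) (XT.lf (nat_lit 0) (nat_lit 21014358775) (nat_lit 684) (nat_lit 365067320) (nat_lit 76) (nat_lit 1102365559) (nat_lit 283) (nat_lit 5) (nat_lit 292) (nat_lit 5) (nat_lit 284) (nat_lit 5) (nat_lit 632) (nat_lit 575) (nat_lit 353)) (XT.lf (nat_lit 0) (nat_lit 2511215998) (nat_lit 684)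 (nat_lit 9845747902) (nat_lit 76) (nat_lit 10385134482) (nat_lit 274) (nat_lit 5) (nat_lit 283) (nat_lit 5) (nat_lit 275) (nat_lit 5) (nat_lit 633) (nat_lit 575) (nat_lit 352)))))) (XT.nd (nat_lit 390) (nat_lit 1520) (nat_lit 0) (XT.nd (nat_lit 156) (nat_lit 1140) (nat_lit 0) (XT.nd (nat_lit 78) (nat_lit 0) (nat_lit 0) (XT.lf (nat_lit 0) (nat_lit 3449879620) (nat_lit 608) (nat_lit 3120104939) (nat_lit 684) (nat_lit 16437028987) (nat_lit 266) (nat_lit 5) (nat_lit 274) (nat_lit 5) (nat_lit 275) (nat_lit 5) (nat_lit 634) (nat_lit 575) (nat_lit 351)) (XT.lf (nat_lit 0) (nat_lit 10812706408) (nat_lit 684) (nat_lit 6178434668) (nat_lit 76) (nat_lit 6284030585) (nat_lit 266) (nat_lit 5) (nat_lit 275) (nat_lit 5) (nat_lit 267) (nat_lit 5) (nat_lit 635) (nat_lit 575) (nat_lit 350))) (XT.nd (nat_lit 78) (nat_lit 608) (nat_lit 0) (XT.lf (nat_lit 0) (nat_lit 7540125094) (nat_lit 532) (nat_lit 7665223839) (nat_lit 608) (nat_lit 8342042883) (nat_lit 259) (nat_lit 5) (nat_lit 266) (nat_lit 5) (nat_lit 267) (nat_lit 5)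 (nat_lit 636) (nat_lit 575) (nat_lit 349)) (XT.nd (nat_lit 78) (nat_lit 608) (nat_lit 0) (XT.lf (nat_lit 0) (nat_lit 19735062404) (nat_lit 608) (nat_lit 2225671381) (nat_lit 76) (nat_lit 1863338426) (nat_lit 259) (nat_lit 5) (nat_lit 267) (nat_lit 5) (nat_lit 260) (nat_lit 5) (nat_lit 637) (nat_lit 575) (nat_lit 348)) (XT.lf (nat_lit 0) (nat_lit 370444662) (nat_lit 608) (nat_lit 12174837379) (nat_lit 76) (nat_lit 11558479470) (nat_lit 251) (nat_lit 5) (nat_lit 259) (nat_lit 5) (nat_lit 252) (nat_lit 5) (nat_lit 638) (nat_lit 575) (nat_lit 347))))) (XT.nd (nat_lit 156) (nat_lit 988) (nat_lit 0) (XT.nd (nat_lit 78) (nat_lit 0) (nat_lit 0) (XT.lf (nat_lit 0) (nat_lit 2001217640) (nat_lit 532) (nat_lit 2886795301) (nat_lit 608) (nat_lit 19500017743) (nat_lit 244) (nat_lit 5) (nat_lit 251) (nat_lit 5) (nat_lit 252) (nat_lit 5) (nat_lit 639) (nat_lit 575) (nat_lit 346)) (XT.lf (nat_lit 0) (nat_lit 9619030184) (nat_lit 608) (nat_lit 8102210242) (nat_lit 76) (nat_lit 6954283047) (nat_lit 244) (nat_lit 5) (nat_lit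 252) (nat_lit 5) (nat_lit 245) (nat_lit 5) (nat_lit 640) (nat_lit 575) (nat_lit 345))) (XT.nd (nat_lit 78) (nat_lit 456) (nat_lit 0) (XT.lf (nat_lit 0) (nat_lit 6528784797) (nat_lit 532) (nat_lit 7973112059) (nat_lit 608) (nat_lit 10465724859) (nat_lit 237) (nat_lit 5) (nat_lit 244) (nat_lit 5) (nat_lit 245) (nat_lit 5) (nat_lit 641) (nat_lit 575) (nat_lit 344)) (XT.nd (nat_lit 78) (nat_lit 456) (nat_lit 0) (XT.lf (nat_lit 0) (nat_lit 19545699900) (nat_lit 608) (nat_lit 3721242432) (nat_lit 76) (nat_lit 1997354186) (nat_lit 237) (nat_lit 5) (nat_lit 245) (nat_lit 5) (nat_lit 238) (nat_lit 5) (nat_lit 642) (nat_lit 575) (nat_lit 343)) (XT.lf (nat_lit 0) (nat_lit 11381441366) (nat_lit 456) (nat_lit 13431477203) (nat_lit 532) (nat_lit 751535628) (nat_lit 231) (nat_lit 5) (nat_lit 237) (nat_lit 5) (nat_lit 238) (nat_lit 5) (nat_lit 643) (nat_lit 575) (nat_lit 342))))))) (XT.nd (nat_lit 780) (nat_lit 1672) (nat_lit 0) (XT.nd (nat_lit 390) (nat_lit 1444) (nat_lit 0) (XT.nd (nat_lit 156) (nat_lit 912) (nat_lit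 0) (XT.nd (nat_lit 78) (nat_lit 0) (nat_lit 0) (XT.lf (nat_lit 0) (nat_lit 944971113) (nat_lit 532) (nat_lit 3340436264) (nat_lit 608) (nat_lit 21584104899) (nat_lit 223) (nat_lit 5) (nat_lit 230) (nat_lit 5) (nat_lit 231) (nat_lit 5) (nat_lit 644) (nat_lit 575) (nat_lit 341)) (XT.lf (nat_lit 0) (nat_lit 9549873585) (nat_lit 608) (nat_lit 9667527398) (nat_lit 76) (nat_lit 6960434396) (nat_lit 223) (nat_lit 5) (nat_lit 231) (nat_lit 5) (nat_lit 224) (nat_lit 5) (nat_lit 645) (nat_lit 575) (nat_lit 340))) (XT.nd (nat_lit 78) (nat_lit 456) (nat_lit 0) (XT.lf (nat_lit 0) (nat_lit 5944803596) (nat_lit 456) (nat_lit 9031518219) (nat_lit 532) (nat_lit 11514869433) (nat_lit 217) (nat_lit 5) (nat_lit 223) (nat_lit 5) (nat_lit 224) (nat_lit 5) (nat_lit 646) (nat_lit 575) (nat_lit 339)) (XT.nd (nat_lit 78) (nat_lit 456) (nat_lit 0) (XT.lf (nat_lit 0) (nat_lit 20581425118) (nat_lit 532) (nat_lit 4824036853) (nat_lit 76) (nat_lit 1403949899) (nat_lit 217) (nat_lit 5) (nat_lit 224) (nat_lit 5) (nat_lit 218) (nat_lit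 5) (nat_lit 647) (nat_lit 575) (nat_lit 338)) (XT.lf (nat_lit 0) (nat_lit 11295503922) (nat_lit 456) (nat_lit 15132358895) (nat_lit 532) (nat_lit 703549593) (nat_lit 211) (nat_lit 5) (nat_lit 217) (nat_lit 5) (nat_lit 218) (nat_lit 5) (nat_lit 648) (nat_lit 575) (nat_lit 337))))) (XT.nd (nat_lit 156) (nat_lit 912) (nat_lit 0) (XT.nd (nat_lit 78) (nat_lit 0) (nat_lit 0) (XT.lf (nat_lit 0) (nat_lit 309849192) (nat_lit 456) (nat_lit 4587547174) (nat_lit 532) (nat_lit 22561202469) (nat_lit 204) (nat_lit 5) (nat_lit 210) (nat_lit 5) (nat_lit 211) (nat_lit 5) (nat_lit 649) (nat_lit 575) (nat_lit 336)) (XT.lf (nat_lit 0) (nat_lit 10744095639) (nat_lit 532) (nat_lit 10848065432) (nat_lit 76) (nat_lit 6197211954) (nat_lit 204) (nat_lit 5) (nat_lit 211) (nat_lit 5) (nat_lit 205) (nat_lit 5) (nat_lit 650) (nat_lit 575) (nat_lit 335))) (XT.nd (nat_lit 78) (nat_lit 456) (nat_lit 0) (XT.lf (nat_lit 0) (nat_lit 5819046743) (nat_lit 456) (nat_lit 10953047594) (nat_lit 532) (nat_lit 11353381193) (nat_lit 198) (nat_lit 5)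 (nat_lit 204) (nat_lit 5) (nat_lit 205) (nat_lit 5) (nat_lit 651) (nat_lit 575) (nat_lit 334)) (XT.nd (nat_lit 78) (nat_lit 456) (nat_lit 0) (XT.lf (nat_lit 0) (nat_lit 22961063419) (nat_lit 456) (nat_lit 28627871) (nat_lit 532) (nat_lit 5477228171) (nat_lit 198) (nat_lit 5) (nat_lit 204) (nat_lit 5) (nat_lit 205) (nat_lit 5) (nat_lit 652) (nat_lit 575) (nat_lit 333)) (XT.lf (nat_lit 0) (nat_lit 655104665) (nat_lit 456) (nat_lit 17109952377) (nat_lit 76) (nat_lit 11047159697) (nat_lit 192) (nat_lit 5) (nat_lit 198) (nat_lit 5) (nat_lit 193) (nat_lit 5) (nat_lit 653) (nat_lit 575) (nat_lit 332)))))) (XT.nd (nat_lit 390) (nat_lit 380) (nat_lit 0) (XT.nd (nat_lit 156) (nat_lit 836) (nat_lit 0) (XT.nd (nat_lit 78) (nat_lit 0) (nat_lit 0) (XT.lf (nat_lit 0) (nat_lit 124976626) (nat_lit 456) (nat_lit 6746346637) (nat_lit 532) (nat_lit 22291681157) (nat_lit 186) (nat_lit 5) (nat_lit 192) (nat_lit 5) (nat_lit 193) (nat_lit 5) (nat_lit 654) (nat_lit 575) (nat_lit 331)) (XT.lf (nat_lit 0) (nat_lit 13352956473) (nat_lit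 532) (nat_lit 11617387890) (nat_lit 76) (nat_lit 4547641816) (nat_lit 186) (nat_lit 5) (nat_lit 193) (nat_lit 5) (nat_lit 187) (nat_lit 5) (nat_lit 655) (nat_lit 575) (nat_lit 330))) (XT.nd (nat_lit 78) (nat_lit 456) (nat_lit 0) (XT.lf (nat_lit 0) (nat_lit 6182701443) (nat_lit 380) (nat_lit 13862755838) (nat_lit 456) (nat_lit 9832985719) (nat_lit 181) (nat_lit 5) (nat_lit 186) (nat_lit 5) (nat_lit 187) (nat_lit 5) (nat_lit 656) (nat_lit 575) (nat_lit 329)) (XT.nd (nat_lit 78) (nat_lit 456) (nat_lit 0) (XT.lf (nat_lit 0) (nat_lit 24490931842) (nat_lit 380) (nat_lit 2455285636) (nat_lit 456) (nat_lit 3298403415) (nat_lit 181) (nat_lit 5) (nat_lit 186) (nat_lit 5) (nat_lit 187) (nat_lit 5) (nat_lit 657) (nat_lit 575) (nat_lit 328)) (XT.lf (nat_lit 0) (nat_lit 3461862826) (nat_lit 456) (nat_lit 17989941352) (nat_lit 76) (nat_lit 9163098097) (nat_lit 175) (nat_lit 5) (nat_lit 181) (nat_lit 5) (nat_lit 176) (nat_lit 5) (nat_lit 658) (nat_lit 575) (nat_lit 327))))) (XT.nd (nat_lit 74802) (nat_lit 0) (nat_lit 24776)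 (XT.nd (nat_lit 78) (nat_lit 0) (nat_lit 0) (XT.lf (nat_lit 0) (nat_lit 419195106) (nat_lit 380) (nat_lit 9948382907) (nat_lit 456) (nat_lit 20623487155) (nat_lit 170) (nat_lit 5) (nat_lit 175) (nat_lit 5) (nat_lit 176) (nat_lit 5) (nat_lit 659) (nat_lit 575) (nat_lit 326)) (XT.nd (nat_lit 74646) (nat_lit 0) (nat_lit 24776) (XT.lf (nat_lit 0) (nat_lit 17541061378) (nat_lit 456) (nat_lit 11949678794) (nat_lit 76) (nat_lit 1881418182) (nat_lit 170) (nat_lit 5) (nat_lit 176) (nat_lit 5) (nat_lit 171) (nat_lit 5) (nat_lit 660) (nat_lit 575) (nat_lit 325)) (XT.lf (nat_lit 0) (nat_lit 62805344) (nat_lit 0) (nat_lit 62805344) (nat_lit 1748) (nat_lit 6175478667) (nat_lit 496) (nat_lit 5) (nat_lit 496) (nat_lit 3) (nat_lit 519) (nat_lit 3) (nat_lit 576) (nat_lit 576) (nat_lit 408)))) (XT.nd (nat_lit 78) (nat_lit 0) (nat_lit 0) (XT.lf (nat_lit 0) (nat_lit 722750430) (nat_lit 1748) (nat_lit 6260326032) (nat_lit 1824) (nat_lit 5735716843) (nat_lit 496) (nat_lit 5) (nat_lit 519) (nat_lit 3) (nat_lit 520) (nat_lit 5)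 (nat_lit 577) (nat_lit 576) (nat_lit 407)) (XT.nd (nat_lit 78) (nat_lit 0) (nat_lit 76) (XT.lf (nat_lit 76) (nat_lit 74465546) (nat_lit 0) (nat_lit 1119283901) (nat_lit 1824) (nat_lit 11644190659) (nat_lit 497) (nat_lit 5) (nat_lit 496) (nat_lit 5) (nat_lit 520) (nat_lit 5) (nat_lit 578) (nat_lit 576) (nat_lit 406)) (XT.lf (nat_lit 0) (nat_lit 1736963471) (nat_lit 1748) (nat_lit 6375797926) (nat_lit 1824) (nat_lit 4845453237) (nat_lit 497) (nat_lit 5) (nat_lit 520) (nat_lit 5) (nat_lit 521) (nat_lit 5) (nat_lit 579) (nat_lit 576) (nat_lit 405))))))))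
noncomputable def xc175 : XT := (XT.nd (nat_lit 1560) (nat_lit 10184) (nat_lit 0) (XT.nd (nat_lit 780) (nat_lit 1292) (nat_lit 0) (XT.nd (nat_lit 390) (nat_lit 0) (nat_lit 228) (XT.nd (nat_lit 156) (nat_lit 0) (nat_lit 76) (XT.nd (nat_lit 78) (nat_lit 0) (nat_lit 76) (XT.lf (nat_lit 76) (nat_lit 127879808) (nat_lit 0) (nat_lit 2160562369) (nat_lit 1824) (nat_lit 10792505145) (nat_lit 498) (nat_lit 5) (nat_lit 497) (nat_lit 5) (nat_lit 521) (nat_lit 5) (nat_lit 580) (nat_lit 576) (nat_lit 404)) (XT.lf (nat_lit 0) (nat_lit 2908771383) (nat_lit 1748) (nat_lit 6389118354) (nat_lit 1824) (nat_lit 3907089171) (nat_lit 498) (nat_lit 5) (nat_lit 521) (nat_lit 5) (nat_lit 522) (nat_lit 5) (nat_lit 581) (nat_lit 576) (nat_lit 403))) (XT.nd (nat_lit 78) (nat_lit 0) (nat_lit 76) (XT.lf (nat_lit 76) (nat_lit 289498221) (nat_lit 0) (nat_lit 3257767404) (nat_lit 1824) (nat_lit 9784110983) (nat_lit 499) (nat_lit 5) (nat_lit 498) (nat_lit 5) (nat_lit 522) (nat_lit 5) (nat_lit 582) (nat_lit 576) (nat_lit 402)) (XT.nd (nat_lit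 78) (nat_lit 0) (nat_lit 0) (XT.lf (nat_lit 0) (nat_lit 4250300193) (nat_lit 1748) (nat_lit 6296577746) (nat_lit 1824) (nat_lit 2912389552) (nat_lit 499) (nat_lit 5) (nat_lit 522) (nat_lit 5) (nat_lit 523) (nat_lit 5) (nat_lit 583) (nat_lit 576) (nat_lit 401)) (XT.lf (nat_lit 76) (nat_lit 563271976) (nat_lit 0) (nat_lit 4419318888) (nat_lit 1824) (nat_lit 8606822045) (nat_lit 500) (nat_lit 5) (nat_lit 499) (nat_lit 5) (nat_lit 523) (nat_lit 5) (nat_lit 584) (nat_lit 576) (nat_lit 400))))) (XT.nd (nat_lit 156) (nat_lit 0) (nat_lit 76) (XT.nd (nat_lit 78) (nat_lit 0) (nat_lit 0) (XT.lf (nat_lit 0) (nat_lit 5774092241) (nat_lit 1748) (nat_lit 6094163927) (nat_lit 1824) (nat_lit 1853014383) (nat_lit 500) (nat_lit 5) (nat_lit 523) (nat_lit 5) (nat_lit 524) (nat_lit 5) (nat_lit 585) (nat_lit 576) (nat_lit 399)) (XT.lf (nat_lit 76) (nat_lit 953463307) (nat_lit 0) (nat_lit 5653756106) (nat_lit 1824) (nat_lit 7248030619) (nat_lit 501) (nat_lit 5) (nat_lit 500) (nat_lit 5) (nat_lit 524) (nat_lit 5) (nat_lit 586)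 (nat_lit 576) (nat_lit 398))) (XT.nd (nat_lit 78) (nat_lit 0) (nat_lit 0) (XT.lf (nat_lit 0) (nat_lit 7493131819) (nat_lit 1748) (nat_lit 5777557251) (nat_lit 1824) (nat_lit 720498168) (nat_lit 501) (nat_lit 5) (nat_lit 524) (nat_lit 5) (nat_lit 525) (nat_lit 5) (nat_lit 587) (nat_lit 576) (nat_lit 397)) (XT.nd (nat_lit 78) (nat_lit 0) (nat_lit 0) (XT.lf (nat_lit 76) (nat_lit 1464650729) (nat_lit 0) (nat_lit 6969758534) (nat_lit 1824) (nat_lit 5694681568) (nat_lit 502) (nat_lit 5) (nat_lit 501) (nat_lit 5) (nat_lit 525) (nat_lit 5) (nat_lit 588) (nat_lit 576) (nat_lit 396)) (XT.lf (nat_lit 76) (nat_lit 8923787304) (nat_lit 0) (nat_lit 500332602) (nat_lit 1824) (nat_lit 4845041003) (nat_lit 502) (nat_lit 5) (nat_lit 501) (nat_lit 5) (nat_lit 525) (nat_lit 5) (nat_lit 589) (nat_lit 576) (nat_lit 395)))))) (XT.nd (nat_lit 390) (nat_lit 0) (nat_lit 0) (XT.nd (nat_lit 156) (nat_lit 1672) (nat_lit 0) (XT.nd (nat_lit 78) (nat_lit 0) (nat_lit 0) (XT.lf (nat_lit 76) (nat_lit 2101734906) (nat_lit 0) (nat_lit 8376166620)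 (nat_lit 1824) (nat_lit 3933245882) (nat_lit 503) (nat_lit 5) (nat_lit 502) (nat_lit 5) (nat_lit 526) (nat_lit 5) (nat_lit 590) (nat_lit 576) (nat_lit 394)) (XT.lf (nat_lit 76) (nat_lit 9760618986) (nat_lit 0) (nat_lit 1822472328) (nat_lit 1824) (nat_lit 2972276218) (nat_lit 503) (nat_lit 5) (nat_lit 502) (nat_lit 5) (nat_lit 526) (nat_lit 5) (nat_lit 591) (nat_lit 576) (nat_lit 393))) (XT.nd (nat_lit 78) (nat_lit 1748) (nat_lit 0) (XT.lf (nat_lit 76) (nat_lit 2869945147) (nat_lit 0) (nat_lit 9882002626) (nat_lit 1824) (nat_lit 1949693561) (nat_lit 504) (nat_lit 5) (nat_lit 503) (nat_lit 5) (nat_lit 527) (nat_lit 5) (nat_lit 592) (nat_lit 576) (nat_lit 392)) (XT.nd (nat_lit 78) (nat_lit 1748) (nat_lit 0) (XT.lf (nat_lit 76) (nat_lit 10734404577) (nat_lit 0) (nat_lit 3245430614) (nat_lit 1824) (nat_lit 870292867) (nat_lit 504) (nat_lit 5) (nat_lit 503) (nat_lit 5) (nat_lit 527) (nat_lit 5) (nat_lit 593) (nat_lit 576) (nat_lit 391)) (XT.lf (nat_lit 0) (nat_lit 266986113) (nat_lit 1824) (nat_lit 11227713831)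 (nat_lit 1900) (nat_lit 3506068804) (nat_lit 480) (nat_lit 5) (nat_lit 504) (nat_lit 5) (nat_lit 505) (nat_lit 5) (nat_lit 594) (nat_lit 576) (nat_lit 390))))) (XT.nd (nat_lit 156) (nat_lit 0) (nat_lit 76) (XT.nd (nat_lit 78) (nat_lit 0) (nat_lit 76) (XT.lf (nat_lit 0) (nat_lit 1456399973) (nat_lit 1824) (nat_lit 3312329764) (nat_lit 1900) (nat_lit 10384757102) (nat_lit 480) (nat_lit 5) (nat_lit 504) (nat_lit 5) (nat_lit 505) (nat_lit 5) (nat_lit 595) (nat_lit 576) (nat_lit 389)) (XT.lf (nat_lit 0) (nat_lit 2706584613) (nat_lit 1824) (nat_lit 10504335056) (nat_lit 1900) (nat_lit 2097600458) (nat_lit 481) (nat_lit 5) (nat_lit 505) (nat_lit 5) (nat_lit 506) (nat_lit 5) (nat_lit 596) (nat_lit 576) (nat_lit 388))) (XT.nd (nat_lit 78) (nat_lit 0) (nat_lit 76) (XT.lf (nat_lit 0) (nat_lit 4027757252) (nat_lit 1824) (nat_lit 2376431249) (nat_lit 1900) (nat_lit 9061546366) (nat_lit 481) (nat_lit 5) (nat_lit 505) (nat_lit 5) (nat_lit 506) (nat_lit 5) (nat_lit 597) (nat_lit 576) (nat_lit 387)) (XT.nd (nat_lit 78)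 (nat_lit 0) (nat_lit 0) (XT.lf (nat_lit 0) (nat_lit 5410169650) (nat_lit 1824) (nat_lit 9642994022) (nat_lit 1900) (nat_lit 572234371) (nat_lit 482) (nat_lit 5) (nat_lit 506) (nat_lit 5) (nat_lit 507) (nat_lit 5) (nat_lit 598) (nat_lit 576) (nat_lit 386)) (XT.lf (nat_lit 0) (nat_lit 6871001806) (nat_lit 1824) (nat_lit 1296243596) (nat_lit 1900) (nat_lit 7619994105) (nat_lit 482) (nat_lit 5) (nat_lit 506) (nat_lit 5) (nat_lit 507) (nat_lit 5) (nat_lit 599) (nat_lit 576) (nat_lit 385))))))) (XT.nd (nat_lit 780) (nat_lit 4788) (nat_lit 0) (XT.nd (nat_lit 390) (nat_lit 2736) (nat_lit 0) (XT.nd (nat_lit 156) (nat_lit 2812) (nat_lit 0) (XT.nd (nat_lit 78) (nat_lit 0) (nat_lit 76) (XT.lf (nat_lit 76) (nat_lit 7306980325) (nat_lit 0) (nat_lit 1093969836) (nat_lit 1900) (nat_lit 7550570094) (nat_lit 483) (nat_lit 5) (nat_lit 482) (nat_lit 5) (nat_lit 507) (nat_lit 5) (nat_lit 600) (nat_lit 576) (nat_lit 384)) (XT.lf (nat_lit 0) (nat_lit 10002566437) (nat_lit 1824) (nat_lit 65279994) (nat_lit 76) (nat_lit 6050419246)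 (nat_lit 483) (nat_lit 5) (nat_lit 507) (nat_lit 5) (nat_lit 484) (nat_lit 5) (nat_lit 601) (nat_lit 576) (nat_lit 383))) (XT.nd (nat_lit 78) (nat_lit 1064) (nat_lit 0) (XT.lf (nat_lit 0) (nat_lit 8787283501) (nat_lit 1824) (nat_lit 2905947638) (nat_lit 1900) (nat_lit 4593974977) (nat_lit 459) (nat_lit 5) (nat_lit 483) (nat_lit 5) (nat_lit 484) (nat_lit 5) (nat_lit 602) (nat_lit 576) (nat_lit 382)) (XT.nd (nat_lit 78) (nat_lit 0) (nat_lit 0) (XT.lf (nat_lit 0) (nat_lit 1340894914) (nat_lit 1064) (nat_lit 12107350346) (nat_lit 1140) (nat_lit 3010669802) (nat_lit 445) (nat_lit 5) (nat_lit 459) (nat_lit 5) (nat_lit 460) (nat_lit 5) (nat_lit 603) (nat_lit 576) (nat_lit 381)) (XT.lf (nat_lit 0) (nat_lit 10434341475) (nat_lit 1064) (nat_lit 4866390842) (nat_lit 1140) (nat_lit 1332078829) (nat_lit 445) (nat_lit 5) (nat_lit 459) (nat_lit 5) (nat_lit 460) (nat_lit 5) (nat_lit 604) (nat_lit 576) (nat_lit 380))))) (XT.nd (nat_lit 156) (nat_lit 1748) (nat_lit 0) (XT.nd (nat_lit 78) (nat_lit 0) (nat_lit 0) (XT.lf (nat_lit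 0) (nat_lit 403639409) (nat_lit 988) (nat_lit 13897298822) (nat_lit 76) (nat_lit 2508627156) (nat_lit 432) (nat_lit 5) (nat_lit 445) (nat_lit 5) (nat_lit 433) (nat_lit 5) (nat_lit 605) (nat_lit 576) (nat_lit 379)) (XT.lf (nat_lit 0) (nat_lit 2223468967) (nat_lit 988) (nat_lit 4747527768) (nat_lit 76) (nat_lit 10017337596) (nat_lit 432) (nat_lit 5) (nat_lit 445) (nat_lit 5) (nat_lit 433) (nat_lit 5) (nat_lit 606) (nat_lit 576) (nat_lit 378))) (XT.nd (nat_lit 78) (nat_lit 836) (nat_lit 0) (XT.lf (nat_lit 0) (nat_lit 4106558057) (nat_lit 988) (nat_lit 12533899328) (nat_lit 76) (nat_lit 529684392) (nat_lit 420) (nat_lit 5) (nat_lit 433) (nat_lit 5) (nat_lit 421) (nat_lit 5) (nat_lit 607) (nat_lit 576) (nat_lit 377)) (XT.nd (nat_lit 78) (nat_lit 836) (nat_lit 0) (XT.lf (nat_lit 0) (nat_lit 6098891703) (nat_lit 988) (nat_lit 3135670912) (nat_lit 76) (nat_lit 8119591475) (nat_lit 420) (nat_lit 5) (nat_lit 433) (nat_lit 5) (nat_lit 421) (nat_lit 5) (nat_lit 608) (nat_lit 576) (nat_lit 376)) (XT.lf (nat_lit 0) (nat_lit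 6529899897) (nat_lit 836) (nat_lit 1637046840) (nat_lit 912) (nat_lit 9374182784) (nat_lit 409) (nat_lit 5) (nat_lit 420) (nat_lit 5) (nat_lit 421) (nat_lit 5) (nat_lit 609) (nat_lit 576) (nat_lit 375)))))) (XT.nd (nat_lit 390) (nat_lit 2204) (nat_lit 0) (XT.nd (nat_lit 156) (nat_lit 1748) (nat_lit 0) (XT.nd (nat_lit 78) (nat_lit 836) (nat_lit 0) (XT.lf (nat_lit 0) (nat_lit 10330797242) (nat_lit 912) (nat_lit 1346314089) (nat_lit 76) (nat_lit 6053644802) (nat_lit 409) (nat_lit 5) (nat_lit 421) (nat_lit 5) (nat_lit 410) (nat_lit 5) (nat_lit 610) (nat_lit 576) (nat_lit 374)) (XT.lf (nat_lit 0) (nat_lit 8607722564) (nat_lit 836) (nat_lit 3990623876) (nat_lit 912) (nat_lit 5324620756) (nat_lit 398) (nat_lit 5) (nat_lit 409) (nat_lit 5) (nat_lit 410) (nat_lit 5) (nat_lit 611) (nat_lit 576) (nat_lit 373))) (XT.nd (nat_lit 78) (nat_lit 912) (nat_lit 0) (XT.lf (nat_lit 0) (nat_lit 637239641) (nat_lit 836) (nat_lit 14306009784) (nat_lit 912) (nat_lit 3175133344) (nat_lit 387) (nat_lit 5) (nat_lit 398) (nat_lit 5)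 (nat_lit 399) (nat_lit 5) (nat_lit 612) (nat_lit 576) (nat_lit 372)) (XT.nd (nat_lit 78) (nat_lit 912) (nat_lit 0) (XT.lf (nat_lit 0) (nat_lit 10881994803) (nat_lit 836) (nat_lit 6535678275) (nat_lit 912) (nat_lit 898381462) (nat_lit 387) (nat_lit 5) (nat_lit 398) (nat_lit 5) (nat_lit 399) (nat_lit 5) (nat_lit 613) (nat_lit 576) (nat_lit 371)) (XT.lf (nat_lit 0) (nat_lit 1426787607) (nat_lit 912) (nat_lit 15690772708) (nat_lit 76) (nat_lit 1399503720) (nat_lit 375) (nat_lit 5) (nat_lit 387) (nat_lit 5) (nat_lit 376) (nat_lit 5) (nat_lit 614) (nat_lit 576) (nat_lit 370))))) (XT.nd (nat_lit 234) (nat_lit 1444) (nat_lit 0) (XT.nd (nat_lit 78) (nat_lit 760) (nat_lit 0) (XT.lf (nat_lit 0) (nat_lit 3873957325) (nat_lit 912) (nat_lit 5384344309) (nat_lit 76) (nat_lit 9461923106) (nat_lit 375) (nat_lit 5) (nat_lit 387) (nat_lit 5) (nat_lit 376) (nat_lit 5) (nat_lit 615) (nat_lit 576) (nat_lit 369)) (XT.nd (nat_lit 78) (nat_lit 0) (nat_lit 0) (XT.lf (nat_lit 0) (nat_lit 5190099580) (nat_lit 760) (nat_lit 1207801649)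 (nat_lit 836) (nat_lit 12528991129) (nat_lit 365) (nat_lit 5) (nat_lit 375) (nat_lit 5) (nat_lit 376) (nat_lit 5) (nat_lit 616) (nat_lit 576) (nat_lit 368)) (XT.lf (nat_lit 0) (nat_lit 9048373908) (nat_lit 836) (nat_lit 3139919506) (nat_lit 76) (nat_lit 6947879221) (nat_lit 365) (nat_lit 5) (nat_lit 376) (nat_lit 5) (nat_lit 366) (nat_lit 5) (nat_lit 617) (nat_lit 576) (nat_lit 367)))) (XT.nd (nat_lit 78) (nat_lit 684) (nat_lit 0) (XT.lf (nat_lit 0) (nat_lit 7756487564) (nat_lit 760) (nat_lit 4048047139) (nat_lit 836) (nat_lit 7544050542) (nat_lit 355) (nat_lit 5) (nat_lit 365) (nat_lit 5) (nat_lit 366) (nat_lit 5) (nat_lit 618) (nat_lit 576) (nat_lit 366)) (XT.nd (nat_lit 78) (nat_lit 684) (nat_lit 0) (XT.lf (nat_lit 0) (nat_lit 14659043473) (nat_lit 836) (nat_lit 685407019) (nat_lit 76) (nat_lit 4219931416) (nat_lit 355) (nat_lit 5) (nat_lit 366) (nat_lit 5) (nat_lit 356) (nat_lit 5) (nat_lit 619) (nat_lit 576) (nat_lit 365)) (XT.lf (nat_lit 0) (nat_lit 10544826410) (nat_lit 684) (nat_lit 7115586702)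 (nat_lit 760) (nat_lit 2122286267) (nat_lit 346) (nat_lit 5) (nat_lit 355) (nat_lit 5) (nat_lit 356) (nat_lit 5) (nat_lit 620) (nat_lit 576) (nat_lit 364))))))))
noncomputable def xc176 : XT := (XT.nd (nat_lit 1560) (nat_lit 5624) (nat_lit 0) (XT.nd (nat_lit 780) (nat_lit 3572) (nat_lit 0) (XT.nd (nat_lit 390) (nat_lit 1976) (nat_lit 0) (XT.nd (nat_lit 156) (nat_lit 1368) (nat_lit 0) (XT.nd (nat_lit 78) (nat_lit 0) (nat_lit 0) (XT.lf (nat_lit 0) (nat_lit 727743376) (nat_lit 836) (nat_lit 17994132474) (nat_lit 76) (nat_lit 1283000346) (nat_lit 335) (nat_lit 5) (nat_lit 346) (nat_lit 5) (nat_lit 336) (nat_lit 5) (nat_lit 621) (nat_lit 576) (nat_lit 363)) (XT.lf (nat_lit 0) (nat_lit 3710501657) (nat_lit 836) (nat_lit 6688467450) (nat_lit 76) (nat_lit 9830164241) (nat_lit 335) (nat_lit 5) (nat_lit 346) (nat_lit 5) (nat_lit 336) (nat_lit 5) (nat_lit 622) (nat_lit 576) (nat_lit 362))) (XT.nd (nat_lit 78) (nat_lit 684) (nat_lit 0) (XT.lf (nat_lit 0) (nat_lit 4901539799) (nat_lit 684) (nat_lit 1877899623) (nat_lit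 760) (nat_lit 13677906000) (nat_lit 326) (nat_lit 5) (nat_lit 335) (nat_lit 5) (nat_lit 336) (nat_lit 5) (nat_lit 623) (nat_lit 576) (nat_lit 361)) (XT.nd (nat_lit 78) (nat_lit 684) (nat_lit 0) (XT.lf (nat_lit 0) (nat_lit 9993934732) (nat_lit 760) (nat_lit 3925864240) (nat_lit 76) (nat_lit 6768639453) (nat_lit 326) (nat_lit 5) (nat_lit 336) (nat_lit 5) (nat_lit 327) (nat_lit 5) (nat_lit 624) (nat_lit 576) (nat_lit 360)) (XT.lf (nat_lit 0) (nat_lit 8023473057) (nat_lit 684) (nat_lit 5308639822) (nat_lit 760) (nat_lit 7590852805) (nat_lit 317) (nat_lit 5) (nat_lit 326) (nat_lit 5) (nat_lit 327) (nat_lit 5) (nat_lit 625) (nat_lit 576) (nat_lit 359))))) (XT.nd (nat_lit 156) (nat_lit 1368) (nat_lit 0) (XT.nd (nat_lit 78) (nat_lit 608) (nat_lit 0) (XT.lf (nat_lit 0) (nat_lit 16781053145) (nat_lit 760) (nat_lit 925430546) (nat_lit 76) (nat_lit 3454820079) (nat_lit 317) (nat_lit 5) (nat_lit 327) (nat_lit 5) (nat_lit 318) (nat_lit 5) (nat_lit 626) (nat_lit 576) (nat_lit 358)) (XT.lf (nat_lit 0) (nat_lit 11396489532)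 (nat_lit 608) (nat_lit 9006651570) (nat_lit 684) (nat_lit 999184385) (nat_lit 309) (nat_lit 5) (nat_lit 317) (nat_lit 5) (nat_lit 318) (nat_lit 5) (nat_lit 627) (nat_lit 576) (nat_lit 357))) (XT.nd (nat_lit 78) (nat_lit 608) (nat_lit 0) (XT.lf (nat_lit 0) (nat_lit 2338108071) (nat_lit 684) (nat_lit 95746563) (nat_lit 760) (nat_lit 19213665621) (nat_lit 299) (nat_lit 5) (nat_lit 308) (nat_lit 5) (nat_lit 309) (nat_lit 5) (nat_lit 628) (nat_lit 576) (nat_lit 356)) (XT.nd (nat_lit 78) (nat_lit 608) (nat_lit 0) (XT.lf (nat_lit 0) (nat_lit 6043265293) (nat_lit 760) (nat_lit 6903179080) (nat_lit 76) (nat_lit 8948620889) (nat_lit 299) (nat_lit 5) (nat_lit 309) (nat_lit 5) (nat_lit 300) (nat_lit 5) (nat_lit 629) (nat_lit 576) (nat_lit 355)) (XT.lf (nat_lit 0) (nat_lit 5820992853) (nat_lit 608) (nat_lit 3937492644) (nat_lit 684) (nat_lit 12388403471) (nat_lit 291) (nat_lit 5) (nat_lit 299) (nat_lit 5) (nat_lit 300) (nat_lit 5) (nat_lit 630) (nat_lit 576) (nat_lit 354)))))) (XT.nd (nat_lit 390) (nat_lit 1672) (nat_lit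 0) (XT.nd (nat_lit 156) (nat_lit 1292) (nat_lit 0) (XT.nd (nat_lit 78) (nat_lit 608) (nat_lit 0) (XT.lf (nat_lit 0) (nat_lit 13623980515) (nat_lit 684) (nat_lit 3549948317) (nat_lit 76) (nat_lit 5228301133) (nat_lit 291) (nat_lit 5) (nat_lit 300) (nat_lit 5) (nat_lit 292) (nat_lit 5) (nat_lit 631) (nat_lit 576) (nat_lit 353)) (XT.lf (nat_lit 0) (nat_lit 9575194904) (nat_lit 608) (nat_lit 8075170983) (nat_lit 684) (nat_lit 5010640506) (nat_lit 283) (nat_lit 5) (nat_lit 291) (nat_lit 5) (nat_lit 292) (nat_lit 5) (nat_lit 632) (nat_lit 576) (nat_lit 352))) (XT.nd (nat_lit 78) (nat_lit 684) (nat_lit 0) (XT.lf (nat_lit 0) (nat_lit 73585332) (nat_lit 608) (nat_lit 21711360527) (nat_lit 684) (nat_lit 1139459365) (nat_lit 275) (nat_lit 5) (nat_lit 283) (nat_lit 5) (nat_lit 284) (nat_lit 5) (nat_lit 633) (nat_lit 576) (nat_lit 351)) (XT.nd (nat_lit 78) (nat_lit 608) (nat_lit 0) (XT.lf (nat_lit 0) (nat_lit 2909579382) (nat_lit 684) (nat_lit 9595959285) (nat_lit 76) (nat_lit 10684423267) (nat_lit 274) (nat_lit 5)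 (nat_lit 283) (nat_lit 5) (nat_lit 275) (nat_lit 5) (nat_lit 634) (nat_lit 576) (nat_lit 350)) (XT.lf (nat_lit 0) (nat_lit 3962641947) (nat_lit 608) (nat_lit 3082936326) (nat_lit 684) (nat_lit 16414676336) (nat_lit 266) (nat_lit 5) (nat_lit 274) (nat_lit 5) (nat_lit 275) (nat_lit 5) (nat_lit 635) (nat_lit 576) (nat_lit 349))))) (XT.nd (nat_lit 156) (nat_lit 1140) (nat_lit 0) (XT.nd (nat_lit 78) (nat_lit 532) (nat_lit 0) (XT.lf (nat_lit 0) (nat_lit 11367039460) (nat_lit 684) (nat_lit 5860809770) (nat_lit 76) (nat_lit 6506049259) (nat_lit 266) (nat_lit 5) (nat_lit 275) (nat_lit 5) (nat_lit 267) (nat_lit 5) (nat_lit 636) (nat_lit 576) (nat_lit 348)) (XT.lf (nat_lit 0) (nat_lit 8129218598) (nat_lit 532) (nat_lit 7714532915) (nat_lit 608) (nat_lit 8167887496) (nat_lit 259) (nat_lit 5) (nat_lit 266) (nat_lit 5) (nat_lit 267) (nat_lit 5) (nat_lit 637) (nat_lit 576) (nat_lit 347))) (XT.nd (nat_lit 78) (nat_lit 1140) (nat_lit 0) (XT.lf (nat_lit 0) (nat_lit 20458166406) (nat_lit 608) (nat_lit 1834580457) (nat_lit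 76) (nat_lit 2001224295) (nat_lit 259) (nat_lit 5) (nat_lit 267) (nat_lit 5) (nat_lit 260) (nat_lit 5) (nat_lit 638) (nat_lit 576) (nat_lit 346)) (XT.nd (nat_lit 78) (nat_lit 532) (nat_lit 0) (XT.lf (nat_lit 0) (nat_lit 704791454) (nat_lit 608) (nat_lit 11981236879) (nat_lit 76) (nat_lit 11893255769) (nat_lit 251) (nat_lit 5) (nat_lit 259) (nat_lit 5) (nat_lit 252) (nat_lit 5) (nat_lit 639) (nat_lit 576) (nat_lit 345)) (XT.lf (nat_lit 0) (nat_lit 2475463601) (nat_lit 532) (nat_lit 2833656205) (nat_lit 608) (nat_lit 19560190950) (nat_lit 244) (nat_lit 5) (nat_lit 251) (nat_lit 5) (nat_lit 252) (nat_lit 5) (nat_lit 640) (nat_lit 576) (nat_lit 344))))))) (XT.nd (nat_lit 780) (nat_lit 2584) (nat_lit 0) (XT.nd (nat_lit 390) (nat_lit 1444) (nat_lit 0) (XT.nd (nat_lit 156) (nat_lit 1064) (nat_lit 0) (XT.nd (nat_lit 78) (nat_lit 532) (nat_lit 0) (XT.lf (nat_lit 0) (nat_lit 10129123023) (nat_lit 608) (nat_lit 7832899274) (nat_lit 76) (nat_lit 7200644058) (nat_lit 244) (nat_lit 5) (nat_lit 252) (nat_lit 5) (nat_lit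 245) (nat_lit 5) (nat_lit 641) (nat_lit 576) (nat_lit 343)) (XT.lf (nat_lit 0) (nat_lit 7087877803) (nat_lit 532) (nat_lit 8018321793) (nat_lit 608) (nat_lit 10354476176) (nat_lit 237) (nat_lit 5) (nat_lit 244) (nat_lit 5) (nat_lit 245) (nat_lit 5) (nat_lit 642) (nat_lit 576) (nat_lit 342))) (XT.nd (nat_lit 78) (nat_lit 1064) (nat_lit 0) (XT.lf (nat_lit 0) (nat_lit 20245443903) (nat_lit 608) (nat_lit 3370104649) (nat_lit 76) (nat_lit 2147844471) (nat_lit 237) (nat_lit 5) (nat_lit 245) (nat_lit 5) (nat_lit 238) (nat_lit 5) (nat_lit 643) (nat_lit 576) (nat_lit 341)) (XT.nd (nat_lit 78) (nat_lit 608) (nat_lit 0) (XT.lf (nat_lit 0) (nat_lit 12031833071) (nat_lit 456) (nat_lit 13582863241) (nat_lit 532) (nat_lit 454924008) (nat_lit 231) (nat_lit 5) (nat_lit 237) (nat_lit 5) (nat_lit 238) (nat_lit 5) (nat_lit 644) (nat_lit 576) (nat_lit 340)) (XT.lf (nat_lit 0) (nat_lit 1387924679) (nat_lit 532) (nat_lit 3287468682) (nat_lit 608) (nat_lit 21705411519) (nat_lit 223) (nat_lit 5) (nat_lit 230) (nat_lit 5) (nat_lit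 231) (nat_lit 5) (nat_lit 645) (nat_lit 576) (nat_lit 339))))) (XT.nd (nat_lit 156) (nat_lit 988) (nat_lit 0) (XT.nd (nat_lit 78) (nat_lit 456) (nat_lit 0) (XT.lf (nat_lit 0) (nat_lit 10039945080) (nat_lit 608) (nat_lit 9439922928) (nat_lit 76) (nat_lit 7215530750) (nat_lit 223) (nat_lit 5) (nat_lit 231) (nat_lit 5) (nat_lit 224) (nat_lit 5) (nat_lit 646) (nat_lit 576) (nat_lit 338)) (XT.lf (nat_lit 0) (nat_lit 6481885246) (nat_lit 456) (nat_lit 9089887970) (nat_lit 532) (nat_lit 11443311742) (nat_lit 217) (nat_lit 5) (nat_lit 223) (nat_lit 5) (nat_lit 224) (nat_lit 5) (nat_lit 647) (nat_lit 576) (nat_lit 337))) (XT.nd (nat_lit 78) (nat_lit 988) (nat_lit 0) (XT.lf (nat_lit 0) (nat_lit 21283954367) (nat_lit 532) (nat_lit 4505496124) (nat_lit 76) (nat_lit 1550320213) (nat_lit 217) (nat_lit 5) (nat_lit 224) (nat_lit 5) (nat_lit 218) (nat_lit 5) (nat_lit 648) (nat_lit 576) (nat_lit 336)) (XT.nd (nat_lit 78) (nat_lit 532) (nat_lit 0) (XT.lf (nat_lit 0) (nat_lit 11933705063) (nat_lit 456) (nat_lit 15310588689)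 (nat_lit 532) (nat_lit 423978269) (nat_lit 211) (nat_lit 5) (nat_lit 217) (nat_lit 5) (nat_lit 218) (nat_lit 5) (nat_lit 649) (nat_lit 576) (nat_lit 335)) (XT.lf (nat_lit 0) (nat_lit 729461506) (nat_lit 456) (nat_lit 4552675919) (nat_lit 532) (nat_lit 22719886793) (nat_lit 204) (nat_lit 5) (nat_lit 210) (nat_lit 5) (nat_lit 211) (nat_lit 5) (nat_lit 650) (nat_lit 576) (nat_lit 334)))))) (XT.nd (nat_lit 390) (nat_lit 1216) (nat_lit 0) (XT.nd (nat_lit 156) (nat_lit 912) (nat_lit 0) (XT.nd (nat_lit 78) (nat_lit 456) (nat_lit 0) (XT.lf (nat_lit 0) (nat_lit 11240953284) (nat_lit 532) (nat_lit 10654889673) (nat_lit 76) (nat_lit 6443667493) (nat_lit 204) (nat_lit 5) (nat_lit 211) (nat_lit 5) (nat_lit 205) (nat_lit 5) (nat_lit 651) (nat_lit 576) (nat_lit 333)) (XT.lf (nat_lit 0) (nat_lit 6342866475) (nat_lit 456) (nat_lit 11043761909) (nat_lit 532) (nat_lit 11295764500) (nat_lit 198) (nat_lit 5) (nat_lit 204) (nat_lit 5) (nat_lit 205) (nat_lit 5) (nat_lit 652) (nat_lit 576) (nat_lit 332))) (XT.nd (nat_lit 78) (nat_lit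 912) (nat_lit 0) (XT.lf (nat_lit 0) (nat_lit 23723732264) (nat_lit 532) (nat_lit 5211668238) (nat_lit 76) (nat_lit 95362293) (nat_lit 198) (nat_lit 5) (nat_lit 205) (nat_lit 5) (nat_lit 199) (nat_lit 5) (nat_lit 653) (nat_lit 576) (nat_lit 331)) (XT.nd (nat_lit 78) (nat_lit 456) (nat_lit 0) (XT.lf (nat_lit 0) (nat_lit 941677776) (nat_lit 456) (nat_lit 17047050736) (nat_lit 76) (nat_lit 11394253422) (nat_lit 192) (nat_lit 5) (nat_lit 198) (nat_lit 5) (nat_lit 193) (nat_lit 5) (nat_lit 654) (nat_lit 576) (nat_lit 330)) (XT.lf (nat_lit 0) (nat_lit 529911711) (nat_lit 456) (nat_lit 6749559737) (nat_lit 532) (nat_lit 22461369097) (nat_lit 186) (nat_lit 5) (nat_lit 192) (nat_lit 5) (nat_lit 193) (nat_lit 5) (nat_lit 655) (nat_lit 576) (nat_lit 329))))) (XT.nd (nat_lit 156) (nat_lit 836) (nat_lit 0) (XT.nd (nat_lit 78) (nat_lit 380) (nat_lit 0) (XT.lf (nat_lit 0) (nat_lit 13886267459) (nat_lit 532) (nat_lit 11450711782) (nat_lit 76) (nat_lit 4766032282) (nat_lit 186) (nat_lit 5) (nat_lit 193) (nat_lit 5) (nat_lit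 187) (nat_lit 5) (nat_lit 656) (nat_lit 576) (nat_lit 328)) (XT.lf (nat_lit 0) (nat_lit 6702754180) (nat_lit 380) (nat_lit 14007217162) (nat_lit 456) (nat_lit 9760759261) (nat_lit 181) (nat_lit 5) (nat_lit 186) (nat_lit 5) (nat_lit 187) (nat_lit 5) (nat_lit 657) (nat_lit 576) (nat_lit 327))) (XT.nd (nat_lit 78) (nat_lit 836) (nat_lit 0) (XT.lf (nat_lit 0) (nat_lit 25369376663) (nat_lit 380) (nat_lit 2374201355) (nat_lit 456) (nat_lit 3100757590) (nat_lit 181) (nat_lit 5) (nat_lit 186) (nat_lit 5) (nat_lit 187) (nat_lit 5) (nat_lit 658) (nat_lit 576) (nat_lit 326)) (XT.nd (nat_lit 78) (nat_lit 380) (nat_lit 0) (XT.lf (nat_lit 0) (nat_lit 3789541066) (nat_lit 456) (nat_lit 17955923650) (nat_lit 76) (nat_lit 9476558155) (nat_lit 175) (nat_lit 5) (nat_lit 181) (nat_lit 5) (nat_lit 176) (nat_lit 5) (nat_lit 659) (nat_lit 576) (nat_lit 325)) (XT.lf (nat_lit 0) (nat_lit 818804639) (nat_lit 380) (nat_lit 10012038544) (nat_lit 456) (nat_lit 20774916555) (nat_lit 170) (nat_lit 5) (nat_lit 175) (nat_lit 5) (nat_lit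 176) (nat_lit 5) (nat_lit 660) (nat_lit 576) (nat_lit 324))))))))
noncomputable def xc177 : XT := (XT.nd (nat_lit 1560) (nat_lit 8740) (nat_lit 0) (XT.nd (nat_lit 780) (nat_lit 1216) (nat_lit 0) (XT.nd (nat_lit 390) (nat_lit 0) (nat_lit 152) (XT.nd (nat_lit 156) (nat_lit 0) (nat_lit 0) (XT.nd (nat_lit 78) (nat_lit 0) (nat_lit 0) (XT.lf (nat_lit 0) (nat_lit 278302297) (nat_lit 0) (nat_lit 278302297) (nat_lit 1748) (nat_lit 5861910232) (nat_lit 496) (nat_lit 5) (nat_lit 496) (nat_lit 3) (nat_lit 519) (nat_lit 3) (nat_lit 577) (nat_lit 577) (nat_lit 406)) (XT.lf (nat_lit 0) (nat_lit 1574638179) (nat_lit 1748) (nat_lit 5945869502) (nat_lit 1824) (nat_lit 5435860516) (nat_lit 496) (nat_lit 5) (nat_lit 519) (nat_lit 3) (nat_lit 520) (nat_lit 5) (nat_lit 578) (nat_lit 577) (nat_lit 405))) (XT.nd (nat_lit 78) (nat_lit 0) (nat_lit 76) (XT.lf (nat_lit 76) (nat_lit 512725389) (nat_lit 0) (nat_lit 1528747343) (nat_lit 1824) (nat_lit 11036697918) (nat_lit 497) (nat_lit 5) (nat_lit 496) (nat_lit 5) (nat_lit 520) (nat_lit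 5) (nat_lit 579) (nat_lit 577) (nat_lit 404)) (XT.nd (nat_lit 78) (nat_lit 0) (nat_lit 0) (XT.lf (nat_lit 0) (nat_lit 2576933259) (nat_lit 1748) (nat_lit 6056439417) (nat_lit 1824) (nat_lit 4567851352) (nat_lit 497) (nat_lit 5) (nat_lit 520) (nat_lit 5) (nat_lit 521) (nat_lit 5) (nat_lit 580) (nat_lit 577) (nat_lit 403)) (XT.lf (nat_lit 76) (nat_lit 574371907) (nat_lit 0) (nat_lit 2552163115) (nat_lit 1824) (nat_lit 10200135464) (nat_lit 498) (nat_lit 5) (nat_lit 497) (nat_lit 5) (nat_lit 521) (nat_lit 5) (nat_lit 581) (nat_lit 577) (nat_lit 402))))) (XT.nd (nat_lit 156) (nat_lit 0) (nat_lit 76) (XT.nd (nat_lit 78) (nat_lit 0) (nat_lit 0) (XT.lf (nat_lit 0) (nat_lit 3741517424) (nat_lit 1748) (nat_lit 6063869092) (nat_lit 1824) (nat_lit 3648152222) (nat_lit 498) (nat_lit 5) (nat_lit 521) (nat_lit 5) (nat_lit 522) (nat_lit 5) (nat_lit 582) (nat_lit 577) (nat_lit 401)) (XT.lf (nat_lit 76) (nat_lit 745339343) (nat_lit 0) (nat_lit 3635176580) (nat_lit 1824) (nat_lit 9202194729) (nat_lit 499) (nat_lit 5) (nat_lit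 498) (nat_lit 5) (nat_lit 522) (nat_lit 5) (nat_lit 583) (nat_lit 577) (nat_lit 400))) (XT.nd (nat_lit 78) (nat_lit 0) (nat_lit 0) (XT.lf (nat_lit 0) (nat_lit 5080676419) (nat_lit 1748) (nat_lit 5964301454) (nat_lit 1824) (nat_lit 2668521105) (nat_lit 499) (nat_lit 5) (nat_lit 522) (nat_lit 5) (nat_lit 523) (nat_lit 5) (nat_lit 584) (nat_lit 577) (nat_lit 399)) (XT.nd (nat_lit 78) (nat_lit 0) (nat_lit 76) (XT.lf (nat_lit 76) (nat_lit 1029730738) (nat_lit 0) (nat_lit 4786222481) (nat_lit 1824) (nat_lit 8030528191) (nat_lit 500) (nat_lit 5) (nat_lit 499) (nat_lit 5) (nat_lit 523) (nat_lit 5) (nat_lit 585) (nat_lit 577) (nat_lit 398)) (XT.lf (nat_lit 0) (nat_lit 6607125280) (nat_lit 1748) (nat_lit 5753575246) (nat_lit 1824) (nat_lit 1620599758) (nat_lit 500) (nat_lit 5) (nat_lit 523) (nat_lit 5) (nat_lit 524) (nat_lit 5) (nat_lit 586) (nat_lit 577) (nat_lit 397)))))) (XT.nd (nat_lit 390) (nat_lit 1520) (nat_lit 0) (XT.nd (nat_lit 156) (nat_lit 0) (nat_lit 76) (XT.nd (nat_lit 78) (nat_lit 0) (nat_lit 76) (XT.lf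 (nat_lit 76) (nat_lit 1431961954) (nat_lit 0) (nat_lit 6013866331) (nat_lit 1824) (nat_lit 6672353679) (nat_lit 501) (nat_lit 5) (nat_lit 500) (nat_lit 5) (nat_lit 524) (nat_lit 5) (nat_lit 587) (nat_lit 577) (nat_lit 396)) (XT.lf (nat_lit 0) (nat_lit 8334034228) (nat_lit 1748) (nat_lit 5427219803) (nat_lit 1824) (nat_lit 495893237) (nat_lit 501) (nat_lit 5) (nat_lit 524) (nat_lit 5) (nat_lit 525) (nat_lit 5) (nat_lit 588) (nat_lit 577) (nat_lit 395))) (XT.nd (nat_lit 78) (nat_lit 0) (nat_lit 0) (XT.lf (nat_lit 76) (nat_lit 1956767280) (nat_lit 0) (nat_lit 7326825098) (nat_lit 1824) (nat_lit 5114428292) (nat_lit 502) (nat_lit 5) (nat_lit 501) (nat_lit 5) (nat_lit 525) (nat_lit 5) (nat_lit 589) (nat_lit 577) (nat_lit 394)) (XT.nd (nat_lit 78) (nat_lit 0) (nat_lit 76) (XT.lf (nat_lit 76) (nat_lit 9556011615) (nat_lit 0) (nat_lit 723742581) (nat_lit 1824) (nat_lit 4261405639) (nat_lit 502) (nat_lit 5) (nat_lit 501) (nat_lit 5) (nat_lit 525) (nat_lit 5) (nat_lit 590) (nat_lit 577) (nat_lit 393)) (XT.lf (nat_lit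 76) (nat_lit 2609205659) (nat_lit 0) (nat_lit 8733987912) (nat_lit 1824) (nat_lit 3343021660) (nat_lit 503) (nat_lit 5) (nat_lit 502) (nat_lit 5) (nat_lit 526) (nat_lit 5) (nat_lit 591) (nat_lit 577) (nat_lit 392))))) (XT.nd (nat_lit 156) (nat_lit 1672) (nat_lit 0) (XT.nd (nat_lit 78) (nat_lit 0) (nat_lit 76) (XT.lf (nat_lit 76) (nat_lit 10412141224) (nat_lit 0) (nat_lit 2045488401) (nat_lit 1824) (nat_lit 2375948076) (nat_lit 503) (nat_lit 5) (nat_lit 502) (nat_lit 5) (nat_lit 526) (nat_lit 5) (nat_lit 592) (nat_lit 577) (nat_lit 391)) (XT.lf (nat_lit 76) (nat_lit 3394667546) (nat_lit 0) (nat_lit 10244436857) (nat_lit 1824) (nat_lit 1343888530) (nat_lit 504) (nat_lit 5) (nat_lit 503) (nat_lit 5) (nat_lit 527) (nat_lit 5) (nat_lit 593) (nat_lit 577) (nat_lit 390))) (XT.nd (nat_lit 78) (nat_lit 1748) (nat_lit 0) (XT.lf (nat_lit 76) (nat_lit 11407252959) (nat_lit 0) (nat_lit 3471902147) (nat_lit 1824) (nat_lit 255542938) (nat_lit 504) (nat_lit 5) (nat_lit 503) (nat_lit 5) (nat_lit 527) (nat_lit 5) (nat_lit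 594) (nat_lit 577) (nat_lit 389)) (XT.nd (nat_lit 78) (nat_lit 0) (nat_lit 0) (XT.lf (nat_lit 0) (nat_lit 885985134) (nat_lit 1824) (nat_lit 10975537333) (nat_lit 1900) (nat_lit 3426951837) (nat_lit 480) (nat_lit 5) (nat_lit 504) (nat_lit 5) (nat_lit 505) (nat_lit 5) (nat_lit 595) (nat_lit 577) (nat_lit 388)) (XT.lf (nat_lit 0) (nat_lit 2087154736) (nat_lit 1824) (nat_lit 2911193247) (nat_lit 1900) (nat_lit 10446140144) (nat_lit 480) (nat_lit 5) (nat_lit 504) (nat_lit 5) (nat_lit 505) (nat_lit 5) (nat_lit 596) (nat_lit 577) (nat_lit 387))))))) (XT.nd (nat_lit 780) (nat_lit 5092) (nat_lit 0) (XT.nd (nat_lit 390) (nat_lit 3724) (nat_lit 0) (XT.nd (nat_lit 156) (nat_lit 0) (nat_lit 76) (XT.nd (nat_lit 78) (nat_lit 0) (nat_lit 0) (XT.lf (nat_lit 0) (nat_lit 3352726518) (nat_lit 1824) (nat_lit 10237386885) (nat_lit 1900) (nat_lit 2012701713) (nat_lit 481) (nat_lit 5) (nat_lit 505) (nat_lit 5) (nat_lit 506) (nat_lit 5) (nat_lit 597) (nat_lit 577) (nat_lit 386)) (XT.lf (nat_lit 0) (nat_lit 4688714567) (nat_lit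 1824) (nat_lit 1956278627) (nat_lit 1900) (nat_lit 9118413809) (nat_lit 481) (nat_lit 5) (nat_lit 505) (nat_lit 5) (nat_lit 506) (nat_lit 5) (nat_lit 598) (nat_lit 577) (nat_lit 385))) (XT.nd (nat_lit 78) (nat_lit 0) (nat_lit 0) (XT.lf (nat_lit 0) (nat_lit 6089713766) (nat_lit 1824) (nat_lit 9359077365) (nat_lit 1900) (nat_lit 477654215) (nat_lit 482) (nat_lit 5) (nat_lit 506) (nat_lit 5) (nat_lit 507) (nat_lit 5) (nat_lit 599) (nat_lit 577) (nat_lit 384)) (XT.nd (nat_lit 78) (nat_lit 0) (nat_lit 0) (XT.lf (nat_lit 0) (nat_lit 7568559805) (nat_lit 1824) (nat_lit 854740490) (nat_lit 1900) (nat_lit 7668448063) (nat_lit 482) (nat_lit 5) (nat_lit 506) (nat_lit 5) (nat_lit 507) (nat_lit 5) (nat_lit 600) (nat_lit 577) (nat_lit 383)) (XT.lf (nat_lit 76) (nat_lit 7917472725) (nat_lit 0) (nat_lit 1203666192) (nat_lit 1900) (nat_lit 7138335820) (nat_lit 483) (nat_lit 5) (nat_lit 482) (nat_lit 5) (nat_lit 507) (nat_lit 5) (nat_lit 601) (nat_lit 577) (nat_lit 382))))) (XT.nd (nat_lit 156) (nat_lit 2052) (nat_lit 0)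 (XT.nd (nat_lit 78) (nat_lit 0) (nat_lit 0) (XT.lf (nat_lit 0) (nat_lit 405396828) (nat_lit 1824) (nat_lit 10340636951) (nat_lit 1900) (nat_lit 5683697001) (nat_lit 459) (nat_lit 5) (nat_lit 483) (nat_lit 5) (nat_lit 484) (nat_lit 5) (nat_lit 602) (nat_lit 577) (nat_lit 381)) (XT.lf (nat_lit 0) (nat_lit 9426624574) (nat_lit 1824) (nat_lit 3033661459) (nat_lit 1900) (nat_lit 4141969134) (nat_lit 459) (nat_lit 5) (nat_lit 483) (nat_lit 5) (nat_lit 484) (nat_lit 5) (nat_lit 603) (nat_lit 577) (nat_lit 380))) (XT.nd (nat_lit 78) (nat_lit 988) (nat_lit 0) (XT.lf (nat_lit 0) (nat_lit 1839331837) (nat_lit 1064) (nat_lit 12403232956) (nat_lit 1140) (nat_lit 2534990825) (nat_lit 445) (nat_lit 5) (nat_lit 459) (nat_lit 5) (nat_lit 460) (nat_lit 5) (nat_lit 604) (nat_lit 577) (nat_lit 379)) (XT.nd (nat_lit 78) (nat_lit 988) (nat_lit 0) (XT.lf (nat_lit 0) (nat_lit 11105399898) (nat_lit 1064) (nat_lit 5016400622) (nat_lit 1140) (nat_lit 833335727) (nat_lit 445) (nat_lit 5) (nat_lit 459) (nat_lit 5) (nat_lit 460) (nat_lit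 5) (nat_lit 605) (nat_lit 577) (nat_lit 378)) (XT.lf (nat_lit 0) (nat_lit 922773569) (nat_lit 988) (nat_lit 13698491553) (nat_lit 76) (nat_lit 2514241461) (nat_lit 432) (nat_lit 5) (nat_lit 445) (nat_lit 5) (nat_lit 433) (nat_lit 5) (nat_lit 606) (nat_lit 577) (nat_lit 377)))))) (XT.nd (nat_lit 390) (nat_lit 3344) (nat_lit 0) (XT.nd (nat_lit 156) (nat_lit 836) (nat_lit 0) (XT.nd (nat_lit 78) (nat_lit 912) (nat_lit 0) (XT.lf (nat_lit 0) (nat_lit 2768978907) (nat_lit 988) (nat_lit 4375073181) (nat_lit 76) (nat_lit 10173999801) (nat_lit 432) (nat_lit 5) (nat_lit 445) (nat_lit 5) (nat_lit 433) (nat_lit 5) (nat_lit 607) (nat_lit 577) (nat_lit 376)) (XT.lf (nat_lit 0) (nat_lit 4682726057) (nat_lit 988) (nat_lit 12310140687) (nat_lit 76) (nat_lit 510769369) (nat_lit 420) (nat_lit 5) (nat_lit 433) (nat_lit 5) (nat_lit 421) (nat_lit 5) (nat_lit 608) (nat_lit 577) (nat_lit 375))) (XT.nd (nat_lit 78) (nat_lit 836) (nat_lit 0) (XT.lf (nat_lit 0) (nat_lit 6705219379) (nat_lit 988) (nat_lit 2733250382) (nat_lit 76) (nat_lit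 8253053195) (nat_lit 420) (nat_lit 5) (nat_lit 433) (nat_lit 5) (nat_lit 421) (nat_lit 5) (nat_lit 609) (nat_lit 577) (nat_lit 374)) (XT.nd (nat_lit 78) (nat_lit 0) (nat_lit 0) (XT.lf (nat_lit 0) (nat_lit 7122571752) (nat_lit 836) (nat_lit 1685566797) (nat_lit 912) (nat_lit 9074229821) (nat_lit 409) (nat_lit 5) (nat_lit 420) (nat_lit 5) (nat_lit 421) (nat_lit 5) (nat_lit 610) (nat_lit 577) (nat_lit 373)) (XT.lf (nat_lit 0) (nat_lit 11005795960) (nat_lit 912) (nat_lit 910730521) (nat_lit 76) (nat_lit 6159450958) (nat_lit 409) (nat_lit 5) (nat_lit 421) (nat_lit 5) (nat_lit 410) (nat_lit 5) (nat_lit 611) (nat_lit 577) (nat_lit 372))))) (XT.nd (nat_lit 234) (nat_lit 1672) (nat_lit 0) (XT.nd (nat_lit 78) (nat_lit 836) (nat_lit 0) (XT.lf (nat_lit 0) (nat_lit 9239344036) (nat_lit 836) (nat_lit 4073151294) (nat_lit 912) (nat_lit 4959661922) (nat_lit 398) (nat_lit 5) (nat_lit 409) (nat_lit 5) (nat_lit 410) (nat_lit 5) (nat_lit 612) (nat_lit 577) (nat_lit 371)) (XT.nd (nat_lit 78) (nat_lit 0) (nat_lit 0) (XT.lf (nat_lit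 0) (nat_lit 1115654463) (nat_lit 836) (nat_lit 14582585678) (nat_lit 912) (nat_lit 2773362624) (nat_lit 387) (nat_lit 5) (nat_lit 398) (nat_lit 5) (nat_lit 399) (nat_lit 5) (nat_lit 613) (nat_lit 577) (nat_lit 370)) (XT.lf (nat_lit 0) (nat_lit 11556173943) (nat_lit 836) (nat_lit 6657034682) (nat_lit 912) (nat_lit 460198711) (nat_lit 387) (nat_lit 5) (nat_lit 398) (nat_lit 5) (nat_lit 399) (nat_lit 5) (nat_lit 614) (nat_lit 577) (nat_lit 369)))) (XT.nd (nat_lit 78) (nat_lit 760) (nat_lit 0) (XT.lf (nat_lit 0) (nat_lit 1899746369) (nat_lit 912) (nat_lit 15536273684) (nat_lit 76) (nat_lit 1442473108) (nat_lit 375) (nat_lit 5) (nat_lit 387) (nat_lit 5) (nat_lit 376) (nat_lit 5) (nat_lit 615) (nat_lit 577) (nat_lit 368)) (XT.nd (nat_lit 78) (nat_lit 760) (nat_lit 0) (XT.lf (nat_lit 0) (nat_lit 4387145305) (nat_lit 912) (nat_lit 5032899353) (nat_lit 76) (nat_lit 9665847170) (nat_lit 375) (nat_lit 5) (nat_lit 387) (nat_lit 5) (nat_lit 376) (nat_lit 5) (nat_lit 616) (nat_lit 577) (nat_lit 367)) (XT.lf (nat_lit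 0) (nat_lit 5750012808) (nat_lit 760) (nat_lit 1205973344) (nat_lit 836) (nat_lit 12340818739) (nat_lit 365) (nat_lit 5) (nat_lit 375) (nat_lit 5) (nat_lit 376) (nat_lit 5) (nat_lit 617) (nat_lit 577) (nat_lit 366))))))))
noncomputable def xc178 : XT := (XT.nd (nat_lit 1560) (nat_lit 6080) (nat_lit 0) (XT.nd (nat_lit 780) (nat_lit 3876) (nat_lit 0) (XT.nd (nat_lit 390) (nat_lit 1368) (nat_lit 0) (XT.nd (nat_lit 156) (nat_lit 1520) (nat_lit 0) (XT.nd (nat_lit 78) (nat_lit 760) (nat_lit 0) (XT.lf (nat_lit 0) (nat_lit 9651199824) (nat_lit 836) (nat_lit 2747259227) (nat_lit 76) (nat_lit 7111977540) (nat_lit 365) (nat_lit 5) (nat_lit 376) (nat_lit 5) (nat_lit 366) (nat_lit 5) (nat_lit 618) (nat_lit 577) (nat_lit 365)) (XT.lf (nat_lit 0) (nat_lit 8364079546) (nat_lit 760) (nat_lit 4093070240) (nat_lit 836) (nat_lit 7270054786) (nat_lit 355) (nat_lit 5) (nat_lit 365) (nat_lit 5) (nat_lit 366) (nat_lit 5) (nat_lit 619) (nat_lit 577) (nat_lit 364))) (XT.nd (nat_lit 78) (nat_lit 1520) (nat_lit 0) (XT.lf (nat_lit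 0) (nat_lit 15360810344) (nat_lit 836) (nat_lit 247564888) (nat_lit 76) (nat_lit 4339101133) (nat_lit 355) (nat_lit 5) (nat_lit 366) (nat_lit 5) (nat_lit 356) (nat_lit 5) (nat_lit 620) (nat_lit 577) (nat_lit 363)) (XT.nd (nat_lit 78) (nat_lit 836) (nat_lit 0) (XT.lf (nat_lit 0) (nat_lit 11204302485) (nat_lit 684) (nat_lit 7212805877) (nat_lit 760) (nat_lit 1753154225) (nat_lit 346) (nat_lit 5) (nat_lit 355) (nat_lit 5) (nat_lit 356) (nat_lit 5) (nat_lit 621) (nat_lit 577) (nat_lit 362)) (XT.lf (nat_lit 0) (nat_lit 1143765821) (nat_lit 836) (nat_lit 17895284536) (nat_lit 76) (nat_lit 1357873789) (nat_lit 335) (nat_lit 5) (nat_lit 346) (nat_lit 5) (nat_lit 336) (nat_lit 5) (nat_lit 622) (nat_lit 577) (nat_lit 361))))) (XT.nd (nat_lit 156) (nat_lit 684) (nat_lit 0) (XT.nd (nat_lit 78) (nat_lit 684) (nat_lit 0) (XT.lf (nat_lit 0) (nat_lit 4178307354) (nat_lit 836) (nat_lit 6372500928) (nat_lit 76) (nat_lit 10075015992) (nat_lit 335) (nat_lit 5) (nat_lit 346) (nat_lit 5) (nat_lit 336) (nat_lit 5) (nat_lit 623)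 (nat_lit 577) (nat_lit 360)) (XT.lf (nat_lit 0) (nat_lit 5446347677) (nat_lit 684) (nat_lit 1857459409) (nat_lit 760) (nat_lit 13554890229) (nat_lit 326) (nat_lit 5) (nat_lit 335) (nat_lit 5) (nat_lit 336) (nat_lit 5) (nat_lit 624) (nat_lit 577) (nat_lit 359))) (XT.nd (nat_lit 78) (nat_lit 684) (nat_lit 0) (XT.lf (nat_lit 0) (nat_lit 10575338366) (nat_lit 760) (nat_lit 3559091784) (nat_lit 76) (nat_lit 6960127487) (nat_lit 326) (nat_lit 5) (nat_lit 336) (nat_lit 5) (nat_lit 327) (nat_lit 5) (nat_lit 625) (nat_lit 577) (nat_lit 358)) (XT.nd (nat_lit 78) (nat_lit 0) (nat_lit 0) (XT.lf (nat_lit 0) (nat_lit 8626302721) (nat_lit 684) (nat_lit 5349368570) (nat_lit 760) (nat_lit 7358196701) (nat_lit 317) (nat_lit 5) (nat_lit 326) (nat_lit 5) (nat_lit 327) (nat_lit 5) (nat_lit 626) (nat_lit 577) (nat_lit 357)) (XT.lf (nat_lit 0) (nat_lit 17486616423) (nat_lit 760) (nat_lit 503260429) (nat_lit 76) (nat_lit 3587235832) (nat_lit 317) (nat_lit 5) (nat_lit 327) (nat_lit 5) (nat_lit 318) (nat_lit 5) (nat_lit 627) (nat_lit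 577) (nat_lit 356)))))) (XT.nd (nat_lit 390) (nat_lit 1900) (nat_lit 0) (XT.nd (nat_lit 156) (nat_lit 608) (nat_lit 0) (XT.nd (nat_lit 78) (nat_lit 760) (nat_lit 0) (XT.lf (nat_lit 0) (nat_lit 12062198849) (nat_lit 608) (nat_lit 9114535877) (nat_lit 684) (nat_lit 646308697) (nat_lit 309) (nat_lit 5) (nat_lit 317) (nat_lit 5) (nat_lit 318) (nat_lit 5) (nat_lit 628) (nat_lit 577) (nat_lit 355)) (XT.lf (nat_lit 0) (nat_lit 2824645066) (nat_lit 684) (nat_lit 21496145) (nat_lit 760) (nat_lit 19227039999) (nat_lit 299) (nat_lit 5) (nat_lit 308) (nat_lit 5) (nat_lit 309) (nat_lit 5) (nat_lit 629) (nat_lit 577) (nat_lit 354))) (XT.nd (nat_lit 78) (nat_lit 608) (nat_lit 0) (XT.lf (nat_lit 0) (nat_lit 6521095305) (nat_lit 760) (nat_lit 6603429164) (nat_lit 76) (nat_lit 9201285882) (nat_lit 299) (nat_lit 5) (nat_lit 309) (nat_lit 5) (nat_lit 300) (nat_lit 5) (nat_lit 630) (nat_lit 577) (nat_lit 353)) (XT.nd (nat_lit 78) (nat_lit 0) (nat_lit 0) (XT.lf (nat_lit 0) (nat_lit 6372345856) (nat_lit 608) (nat_lit 3934098624)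 (nat_lit 684) (nat_lit 12276309893) (nat_lit 291) (nat_lit 5) (nat_lit 299) (nat_lit 5) (nat_lit 300) (nat_lit 5) (nat_lit 631) (nat_lit 577) (nat_lit 352)) (XT.lf (nat_lit 0) (nat_lit 14242854836) (nat_lit 684) (nat_lit 3188131412) (nat_lit 76) (nat_lit 5412344157) (nat_lit 291) (nat_lit 5) (nat_lit 300) (nat_lit 5) (nat_lit 292) (nat_lit 5) (nat_lit 632) (nat_lit 577) (nat_lit 351))))) (XT.nd (nat_lit 156) (nat_lit 684) (nat_lit 0) (XT.nd (nat_lit 78) (nat_lit 608) (nat_lit 0) (XT.lf (nat_lit 0) (nat_lit 10196667201) (nat_lit 608) (nat_lit 8149100301) (nat_lit 684) (nat_lit 4761595186) (nat_lit 283) (nat_lit 5) (nat_lit 291) (nat_lit 5) (nat_lit 292) (nat_lit 5) (nat_lit 633) (nat_lit 577) (nat_lit 350)) (XT.lf (nat_lit 0) (nat_lit 508450525) (nat_lit 608) (nat_lit 22051246254) (nat_lit 684) (nat_lit 816399877) (nat_lit 275) (nat_lit 5) (nat_lit 283) (nat_lit 5) (nat_lit 284) (nat_lit 5) (nat_lit 634) (nat_lit 577) (nat_lit 349))) (XT.nd (nat_lit 78) (nat_lit 608) (nat_lit 0) (XT.lf (nat_lit 0) (nat_lit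 3302391370) (nat_lit 684) (nat_lit 9358520941) (nat_lit 76) (nat_lit 10986141427) (nat_lit 274) (nat_lit 5) (nat_lit 283) (nat_lit 5) (nat_lit 275) (nat_lit 5) (nat_lit 635) (nat_lit 577) (nat_lit 348)) (XT.nd (nat_lit 78) (nat_lit 0) (nat_lit 0) (XT.lf (nat_lit 0) (nat_lit 4468427596) (nat_lit 608) (nat_lit 3048890792) (nat_lit 684) (nat_lit 16405510010) (nat_lit 266) (nat_lit 5) (nat_lit 274) (nat_lit 5) (nat_lit 275) (nat_lit 5) (nat_lit 636) (nat_lit 577) (nat_lit 347)) (XT.lf (nat_lit 0) (nat_lit 11919331157) (nat_lit 684) (nat_lit 5553964458) (nat_lit 76) (nat_lit 6728767383) (nat_lit 266) (nat_lit 5) (nat_lit 275) (nat_lit 5) (nat_lit 267) (nat_lit 5) (nat_lit 637) (nat_lit 577) (nat_lit 346))))))) (XT.nd (nat_lit 780) (nat_lit 2812) (nat_lit 0) (XT.nd (nat_lit 390) (nat_lit 1596) (nat_lit 0) (XT.nd (nat_lit 156) (nat_lit 1140) (nat_lit 0) (XT.nd (nat_lit 78) (nat_lit 0) (nat_lit 0) (XT.lf (nat_lit 0) (nat_lit 8713074598) (nat_lit 532) (nat_lit 7768866441) (nat_lit 608) (nat_lit 8003490301) (nat_lit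 259) (nat_lit 5) (nat_lit 266) (nat_lit 5) (nat_lit 267) (nat_lit 5) (nat_lit 638) (nat_lit 577) (nat_lit 345)) (XT.lf (nat_lit 0) (nat_lit 21182980208) (nat_lit 608) (nat_lit 1452582763) (nat_lit 76) (nat_lit 2137960719) (nat_lit 259) (nat_lit 5) (nat_lit 267) (nat_lit 5) (nat_lit 260) (nat_lit 5) (nat_lit 639) (nat_lit 577) (nat_lit 344))) (XT.nd (nat_lit 78) (nat_lit 532) (nat_lit 0) (XT.lf (nat_lit 0) (nat_lit 1033129784) (nat_lit 608) (nat_lit 11800737387) (nat_lit 76) (nat_lit 12230704419) (nat_lit 251) (nat_lit 5) (nat_lit 259) (nat_lit 5) (nat_lit 252) (nat_lit 5) (nat_lit 640) (nat_lit 577) (nat_lit 343)) (XT.nd (nat_lit 78) (nat_lit 0) (nat_lit 0) (XT.lf (nat_lit 0) (nat_lit 2942333127) (nat_lit 532) (nat_lit 2783759739) (nat_lit 608) (nat_lit 19634375211) (nat_lit 244) (nat_lit 5) (nat_lit 251) (nat_lit 5) (nat_lit 252) (nat_lit 5) (nat_lit 641) (nat_lit 577) (nat_lit 342)) (XT.lf (nat_lit 0) (nat_lit 10637080566) (nat_lit 608) (nat_lit 7574952133) (nat_lit 76) (nat_lit 7447766656) (nat_lit 244)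 (nat_lit 5) (nat_lit 252) (nat_lit 5) (nat_lit 245) (nat_lit 5) (nat_lit 642) (nat_lit 577) (nat_lit 341))))) (XT.nd (nat_lit 156) (nat_lit 1064) (nat_lit 0) (XT.nd (nat_lit 78) (nat_lit 0) (nat_lit 0) (XT.lf (nat_lit 0) (nat_lit 7641512819) (nat_lit 532) (nat_lit 8068872285) (nat_lit 608) (nat_lit 10253450379) (nat_lit 237) (nat_lit 5) (nat_lit 244) (nat_lit 5) (nat_lit 245) (nat_lit 5) (nat_lit 643) (nat_lit 577) (nat_lit 340)) (XT.lf (nat_lit 0) (nat_lit 20947190541) (nat_lit 608) (nat_lit 3028469226) (nat_lit 76) (nat_lit 2297052035) (nat_lit 237) (nat_lit 5) (nat_lit 245) (nat_lit 5) (nat_lit 238) (nat_lit 5) (nat_lit 644) (nat_lit 577) (nat_lit 339))) (XT.nd (nat_lit 78) (nat_lit 608) (nat_lit 0) (XT.lf (nat_lit 0) (nat_lit 12678816212) (nat_lit 456) (nat_lit 13741829709) (nat_lit 532) (nat_lit 164481607) (nat_lit 231) (nat_lit 5) (nat_lit 237) (nat_lit 5) (nat_lit 238) (nat_lit 5) (nat_lit 645) (nat_lit 577) (nat_lit 338)) (XT.nd (nat_lit 78) (nat_lit 0) (nat_lit 0) (XT.lf (nat_lit 0) (nat_lit 1823270777)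 (nat_lit 532) (nat_lit 3238092808) (nat_lit 608) (nat_lit 21841196529) (nat_lit 223) (nat_lit 5) (nat_lit 230) (nat_lit 5) (nat_lit 231) (nat_lit 5) (nat_lit 646) (nat_lit 577) (nat_lit 337)) (XT.lf (nat_lit 0) (nat_lit 10528204596) (nat_lit 608) (nat_lit 9224112564) (nat_lit 76) (nat_lit 7471228972) (nat_lit 223) (nat_lit 5) (nat_lit 231) (nat_lit 5) (nat_lit 224) (nat_lit 5) (nat_lit 647) (nat_lit 577) (nat_lit 336)))))) (XT.nd (nat_lit 390) (nat_lit 1368) (nat_lit 0) (XT.nd (nat_lit 156) (nat_lit 988) (nat_lit 0) (XT.nd (nat_lit 78) (nat_lit 0) (nat_lit 0) (XT.lf (nat_lit 0) (nat_lit 7013469872) (nat_lit 456) (nat_lit 9154172646) (nat_lit 532) (nat_lit 11382044297) (nat_lit 217) (nat_lit 5) (nat_lit 223) (nat_lit 5) (nat_lit 224) (nat_lit 5) (nat_lit 648) (nat_lit 577) (nat_lit 335)) (XT.lf (nat_lit 0) (nat_lit 21989238171) (nat_lit 532) (nat_lit 4196700369) (nat_lit 76) (nat_lit 1695024537) (nat_lit 217) (nat_lit 5) (nat_lit 224) (nat_lit 5) (nat_lit 218) (nat_lit 5) (nat_lit 649) (nat_lit 577) (nat_lit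 334))) (XT.nd (nat_lit 78) (nat_lit 532) (nat_lit 0) (XT.lf (nat_lit 0) (nat_lit 12568660461) (nat_lit 456) (nat_lit 15497214357) (nat_lit 532) (nat_lit 150218007) (nat_lit 211) (nat_lit 5) (nat_lit 217) (nat_lit 5) (nat_lit 218) (nat_lit 5) (nat_lit 650) (nat_lit 577) (nat_lit 333)) (XT.nd (nat_lit 78) (nat_lit 0) (nat_lit 0) (XT.lf (nat_lit 0) (nat_lit 1141412644) (nat_lit 456) (nat_lit 4522024133) (nat_lit 532) (nat_lit 22893104477) (nat_lit 204) (nat_lit 5) (nat_lit 210) (nat_lit 5) (nat_lit 211) (nat_lit 5) (nat_lit 651) (nat_lit 577) (nat_lit 332)) (XT.lf (nat_lit 0) (nat_lit 11736798620) (nat_lit 532) (nat_lit 10473776522) (nat_lit 76) (nat_lit 6690294879) (nat_lit 204) (nat_lit 5) (nat_lit 211) (nat_lit 5) (nat_lit 205) (nat_lit 5) (nat_lit 652) (nat_lit 577) (nat_lit 331))))) (XT.nd (nat_lit 156) (nat_lit 912) (nat_lit 0) (XT.nd (nat_lit 78) (nat_lit 0) (nat_lit 0) (XT.lf (nat_lit 0) (nat_lit 6861341256) (nat_lit 456) (nat_lit 11141274366) (nat_lit 532) (nat_lit 11248050112) (nat_lit 198) (nat_lit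 5) (nat_lit 204) (nat_lit 5) (nat_lit 205) (nat_lit 5) (nat_lit 653) (nat_lit 577) (nat_lit 330)) (XT.lf (nat_lit 0) (nat_lit 24461986932) (nat_lit 532) (nat_lit 4927478558) (nat_lit 76) (nat_lit 216627241) (nat_lit 198) (nat_lit 5) (nat_lit 205) (nat_lit 5) (nat_lit 199) (nat_lit 5) (nat_lit 654) (nat_lit 577) (nat_lit 329))) (XT.nd (nat_lit 78) (nat_lit 456) (nat_lit 0) (XT.lf (nat_lit 0) (nat_lit 1223363137) (nat_lit 456) (nat_lit 16998621616) (nat_lit 76) (nat_lit 11743390442) (nat_lit 192) (nat_lit 5) (nat_lit 198) (nat_lit 5) (nat_lit 193) (nat_lit 5) (nat_lit 655) (nat_lit 577) (nat_lit 328)) (XT.nd (nat_lit 78) (nat_lit 0) (nat_lit 0) (XT.lf (nat_lit 0) (nat_lit 927318435) (nat_lit 456) (nat_lit 6757951708) (nat_lit 532) (nat_lit 22645173870) (nat_lit 186) (nat_lit 5) (nat_lit 192) (nat_lit 5) (nat_lit 193) (nat_lit 5) (nat_lit 656) (nat_lit 577) (nat_lit 327)) (XT.lf (nat_lit 0) (nat_lit 14419905780) (nat_lit 532) (nat_lit 11296196736) (nat_lit 76) (nat_lit 4983841999) (nat_lit 186) (nat_lit 5)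 (nat_lit 193) (nat_lit 5) (nat_lit 187) (nat_lit 5) (nat_lit 657) (nat_lit 577) (nat_lit 326))))))))
noncomputable def xc179 : XT := (XT.nd (nat_lit 76284) (nat_lit 0) (nat_lit 16112) (XT.nd (nat_lit 75504) (nat_lit 0) (nat_lit 24624) (XT.nd (nat_lit 75114) (nat_lit 0) (nat_lit 24396) (XT.nd (nat_lit 156) (nat_lit 456) (nat_lit 0) (XT.nd (nat_lit 78) (nat_lit 0) (nat_lit 0) (XT.lf (nat_lit 0) (nat_lit 7217815326) (nat_lit 380) (nat_lit 14159724257) (nat_lit 456) (nat_lit 9697529452) (nat_lit 181) (nat_lit 5) (nat_lit 186) (nat_lit 5) (nat_lit 187) (nat_lit 5) (nat_lit 658) (nat_lit 577) (nat_lit 325)) (XT.lf (nat_lit 0) (nat_lit 26250299552) (nat_lit 380) (nat_lit 2296550825) (nat_lit 456) (nat_lit 2909395296) (nat_lit 181) (nat_lit 5) (nat_lit 186) (nat_lit 5) (nat_lit 187) (nat_lit 5) (nat_lit 659) (nat_lit 577) (nat_lit 324))) (XT.nd (nat_lit 74802) (nat_lit 0) (nat_lit 24396) (XT.lf (nat_lit 0) (nat_lit 4113737292) (nat_lit 456) (nat_lit 17936517970) (nat_lit 76) (nat_lit 9791231662) (nat_lit 175) (nat_lit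 5) (nat_lit 181) (nat_lit 5) (nat_lit 176) (nat_lit 5) (nat_lit 660) (nat_lit 577) (nat_lit 323)) (XT.nd (nat_lit 78) (nat_lit 0) (nat_lit 0) (XT.lf (nat_lit 0) (nat_lit 489789955) (nat_lit 0) (nat_lit 489789955) (nat_lit 1748) (nat_lit 5559042700) (nat_lit 496) (nat_lit 5) (nat_lit 496) (nat_lit 3) (nat_lit 519) (nat_lit 3) (nat_lit 578) (nat_lit 578) (nat_lit 404)) (XT.lf (nat_lit 0) (nat_lit 2411045149) (nat_lit 1748) (nat_lit 5642196492) (nat_lit 1824) (nat_lit 5146105347) (nat_lit 496) (nat_lit 5) (nat_lit 519) (nat_lit 3) (nat_lit 520) (nat_lit 5) (nat_lit 579) (nat_lit 578) (nat_lit 403))))) (XT.nd (nat_lit 156) (nat_lit 0) (nat_lit 76) (XT.nd (nat_lit 78) (nat_lit 0) (nat_lit 76) (XT.lf (nat_lit 76) (nat_lit 942790096) (nat_lit 0) (nat_lit 1931369352) (nat_lit 1824) (nat_lit 10449688167) (nat_lit 497) (nat_lit 5) (nat_lit 496) (nat_lit 5) (nat_lit 520) (nat_lit 5) (nat_lit 580) (nat_lit 578) (nat_lit 402)) (XT.lf (nat_lit 0) (nat_lit 3402434360) (nat_lit 1748) (nat_lit 5748046419) (nat_lit 1824)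 (nat_lit 4299240146) (nat_lit 497) (nat_lit 5) (nat_lit 520) (nat_lit 5) (nat_lit 521) (nat_lit 5) (nat_lit 581) (nat_lit 578) (nat_lit 401))) (XT.nd (nat_lit 78) (nat_lit 0) (nat_lit 76) (XT.lf (nat_lit 76) (nat_lit 1012555332) (nat_lit 0) (nat_lit 2938067487) (nat_lit 1824) (nat_lit 9627302548) (nat_lit 498) (nat_lit 5) (nat_lit 497) (nat_lit 5) (nat_lit 521) (nat_lit 5) (nat_lit 582) (nat_lit 578) (nat_lit 400)) (XT.nd (nat_lit 78) (nat_lit 0) (nat_lit 0) (XT.lf (nat_lit 0) (nat_lit 4560840866) (nat_lit 1748) (nat_lit 5749706615) (nat_lit 1824) (nat_lit 3397125711) (nat_lit 498) (nat_lit 5) (nat_lit 521) (nat_lit 5) (nat_lit 522) (nat_lit 5) (nat_lit 583) (nat_lit 578) (nat_lit 399)) (XT.lf (nat_lit 76) (nat_lit 1192821253) (nat_lit 0) (nat_lit 4008008743) (nat_lit 1824) (nat_lit 8638835247) (nat_lit 499) (nat_lit 5) (nat_lit 498) (nat_lit 5) (nat_lit 522) (nat_lit 5) (nat_lit 584) (nat_lit 578) (nat_lit 398)))))) (XT.nd (nat_lit 390) (nat_lit 0) (nat_lit 152) (XT.nd (nat_lit 156) (nat_lit 0) (nat_lit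 76) (XT.nd (nat_lit 78) (nat_lit 0) (nat_lit 0) (XT.lf (nat_lit 0) (nat_lit 5898716536) (nat_lit 1748) (nat_lit 5643172405) (nat_lit 1824) (nat_lit 2431506831) (nat_lit 499) (nat_lit 5) (nat_lit 522) (nat_lit 5) (nat_lit 523) (nat_lit 5) (nat_lit 585) (nat_lit 578) (nat_lit 397)) (XT.lf (nat_lit 76) (nat_lit 1487842963) (nat_lit 0) (nat_lit 5149648983) (nat_lit 1824) (nat_lit 7471770920) (nat_lit 500) (nat_lit 5) (nat_lit 499) (nat_lit 5) (nat_lit 523) (nat_lit 5) (nat_lit 586) (nat_lit 578) (nat_lit 396))) (XT.nd (nat_lit 78) (nat_lit 0) (nat_lit 0) (XT.lf (nat_lit 0) (nat_lit 7428955593) (nat_lit 1748) (nat_lit 5424133142) (nat_lit 1824) (nat_lit 1394000879) (nat_lit 500) (nat_lit 5) (nat_lit 523) (nat_lit 5) (nat_lit 524) (nat_lit 5) (nat_lit 587) (nat_lit 578) (nat_lit 395)) (XT.nd (nat_lit 78) (nat_lit 0) (nat_lit 76) (XT.lf (nat_lit 76) (nat_lit 1902190371) (nat_lit 0) (nat_lit 6371586086) (nat_lit 1824) (nat_lit 6113146435) (nat_lit 501) (nat_lit 5) (nat_lit 500) (nat_lit 5) (nat_lit 524) (nat_lit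 5) (nat_lit 588) (nat_lit 578) (nat_lit 394)) (XT.lf (nat_lit 0) (nat_lit 9164920768) (nat_lit 1748) (nat_lit 5087966628) (nat_lit 1824) (nat_lit 276077446) (nat_lit 501) (nat_lit 5) (nat_lit 524) (nat_lit 5) (nat_lit 525) (nat_lit 5) (nat_lit 589) (nat_lit 578) (nat_lit 393))))) (XT.nd (nat_lit 156) (nat_lit 0) (nat_lit 76) (XT.nd (nat_lit 78) (nat_lit 0) (nat_lit 0) (XT.lf (nat_lit 76) (nat_lit 2440754161) (nat_lit 0) (nat_lit 7682580548) (nat_lit 1824) (nat_lit 4549524520) (nat_lit 502) (nat_lit 5) (nat_lit 501) (nat_lit 5) (nat_lit 525) (nat_lit 5) (nat_lit 590) (nat_lit 578) (nat_lit 392)) (XT.lf (nat_lit 76) (nat_lit 10183260803) (nat_lit 0) (nat_lit 943334049) (nat_lit 1824) (nat_lit 3692523617) (nat_lit 502) (nat_lit 5) (nat_lit 501) (nat_lit 5) (nat_lit 525) (nat_lit 5) (nat_lit 591) (nat_lit 578) (nat_lit 391))) (XT.nd (nat_lit 78) (nat_lit 0) (nat_lit 0) (XT.lf (nat_lit 76) (nat_lit 3108752378) (nat_lit 0) (nat_lit 9091576128) (nat_lit 1824) (nat_lit 2766966735) (nat_lit 503) (nat_lit 5) (nat_lit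 502) (nat_lit 5) (nat_lit 526) (nat_lit 5) (nat_lit 592) (nat_lit 578) (nat_lit 390)) (XT.nd (nat_lit 78) (nat_lit 0) (nat_lit 76) (XT.lf (nat_lit 76) (nat_lit 11058974838) (nat_lit 0) (nat_lit 2265720186) (nat_lit 1824) (nat_lit 1793157862) (nat_lit 503) (nat_lit 5) (nat_lit 502) (nat_lit 5) (nat_lit 526) (nat_lit 5) (nat_lit 593) (nat_lit 578) (nat_lit 389)) (XT.lf (nat_lit 76) (nat_lit 3911737652) (nat_lit 0) (nat_lit 10607720613) (nat_lit 1824) (nat_lit 751005726) (nat_lit 504) (nat_lit 5) (nat_lit 503) (nat_lit 5) (nat_lit 527) (nat_lit 5) (nat_lit 594) (nat_lit 578) (nat_lit 388))))))) (XT.nd (nat_lit 780) (nat_lit 5472) (nat_lit 0) (XT.nd (nat_lit 390) (nat_lit 1520) (nat_lit 0) (XT.nd (nat_lit 156) (nat_lit 0) (nat_lit 76) (XT.nd (nat_lit 78) (nat_lit 0) (nat_lit 76) (XT.lf (nat_lit 0) (nat_lit 342404237) (nat_lit 1824) (nat_lit 3351927475) (nat_lit 1900) (nat_lit 11731065436) (nat_lit 479) (nat_lit 5) (nat_lit 503) (nat_lit 5) (nat_lit 504) (nat_lit 5) (nat_lit 595) (nat_lit 578) (nat_lit 387))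 (XT.lf (nat_lit 0) (nat_lit 1493534997) (nat_lit 1824) (nat_lit 10736829342) (nat_lit 1900) (nat_lit 3352047638) (nat_lit 480) (nat_lit 5) (nat_lit 504) (nat_lit 5) (nat_lit 505) (nat_lit 5) (nat_lit 596) (nat_lit 578) (nat_lit 386))) (XT.nd (nat_lit 78) (nat_lit 0) (nat_lit 76) (XT.lf (nat_lit 0) (nat_lit 2707162694) (nat_lit 1824) (nat_lit 2520183055) (nat_lit 1900) (nat_lit 10514432323) (nat_lit 480) (nat_lit 5) (nat_lit 504) (nat_lit 5) (nat_lit 505) (nat_lit 5) (nat_lit 597) (nat_lit 578) (nat_lit 385)) (XT.nd (nat_lit 78) (nat_lit 0) (nat_lit 0) (XT.lf (nat_lit 0) (nat_lit 3988802783) (nat_lit 1824) (nat_lit 9983623595) (nat_lit 1900) (nat_lit 1931030762) (nat_lit 481) (nat_lit 5) (nat_lit 505) (nat_lit 5) (nat_lit 506) (nat_lit 5) (nat_lit 598) (nat_lit 578) (nat_lit 384)) (XT.lf (nat_lit 0) (nat_lit 5340353304) (nat_lit 1824) (nat_lit 1545883584) (nat_lit 1900) (nat_lit 9181247786) (nat_lit 481) (nat_lit 5) (nat_lit 505) (nat_lit 5) (nat_lit 506) (nat_lit 5) (nat_lit 599) (nat_lit 578) (nat_lit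 383))))) (XT.nd (nat_lit 156) (nat_lit 1748) (nat_lit 0) (XT.nd (nat_lit 78) (nat_lit 0) (nat_lit 0) (XT.lf (nat_lit 0) (nat_lit 6760662908) (nat_lit 1824) (nat_lit 9087996190) (nat_lit 1900) (nat_lit 385299530) (nat_lit 482) (nat_lit 5) (nat_lit 506) (nat_lit 5) (nat_lit 507) (nat_lit 5) (nat_lit 600) (nat_lit 578) (nat_lit 382)) (XT.lf (nat_lit 0) (nat_lit 8258318125) (nat_lit 1824) (nat_lit 422558121) (nat_lit 1900) (nat_lit 7721907446) (nat_lit 482) (nat_lit 5) (nat_lit 506) (nat_lit 5) (nat_lit 507) (nat_lit 5) (nat_lit 601) (nat_lit 578) (nat_lit 381))) (XT.nd (nat_lit 78) (nat_lit 1748) (nat_lit 0) (XT.lf (nat_lit 76) (nat_lit 8522143588) (nat_lit 0) (nat_lit 1312146436) (nat_lit 1900) (nat_lit 6739728376) (nat_lit 483) (nat_lit 5) (nat_lit 482) (nat_lit 5) (nat_lit 507) (nat_lit 5) (nat_lit 602) (nat_lit 578) (nat_lit 380)) (XT.nd (nat_lit 78) (nat_lit 0) (nat_lit 0) (XT.lf (nat_lit 0) (nat_lit 868010062) (nat_lit 1824) (nat_lit 10615679953) (nat_lit 1900) (nat_lit 5264150018) (nat_lit 459) (nat_lit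 5) (nat_lit 483) (nat_lit 5) (nat_lit 484) (nat_lit 5) (nat_lit 603) (nat_lit 578) (nat_lit 379)) (XT.lf (nat_lit 0) (nat_lit 10060750494) (nat_lit 1824) (nat_lit 3161227103) (nat_lit 1900) (nat_lit 3702042906) (nat_lit 459) (nat_lit 5) (nat_lit 483) (nat_lit 5) (nat_lit 484) (nat_lit 5) (nat_lit 604) (nat_lit 578) (nat_lit 378)))))) (XT.nd (nat_lit 390) (nat_lit 2508) (nat_lit 0) (XT.nd (nat_lit 156) (nat_lit 1900) (nat_lit 0) (XT.nd (nat_lit 78) (nat_lit 0) (nat_lit 0) (XT.lf (nat_lit 0) (nat_lit 2329423957) (nat_lit 1064) (nat_lit 12702946599) (nat_lit 1140) (nat_lit 2070607623) (nat_lit 445) (nat_lit 5) (nat_lit 459) (nat_lit 5) (nat_lit 460) (nat_lit 5) (nat_lit 605) (nat_lit 578) (nat_lit 377)) (XT.lf (nat_lit 0) (nat_lit 11771925036) (nat_lit 1064) (nat_lit 5167364893) (nat_lit 1140) (nat_lit 345019090) (nat_lit 445) (nat_lit 5) (nat_lit 459) (nat_lit 5) (nat_lit 460) (nat_lit 5) (nat_lit 606) (nat_lit 578) (nat_lit 376))) (XT.nd (nat_lit 78) (nat_lit 912) (nat_lit 0) (XT.lf (nat_lit 0) (nat_lit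 1432445276) (nat_lit 988) (nat_lit 13514221048) (nat_lit 76) (nat_lit 2521698303) (nat_lit 432) (nat_lit 5) (nat_lit 445) (nat_lit 5) (nat_lit 433) (nat_lit 5) (nat_lit 607) (nat_lit 578) (nat_lit 375)) (XT.nd (nat_lit 78) (nat_lit 912) (nat_lit 0) (XT.lf (nat_lit 0) (nat_lit 3305943030) (nat_lit 988) (nat_lit 4013319413) (nat_lit 76) (nat_lit 10335491574) (nat_lit 432) (nat_lit 5) (nat_lit 445) (nat_lit 5) (nat_lit 433) (nat_lit 5) (nat_lit 608) (nat_lit 578) (nat_lit 374)) (XT.lf (nat_lit 0) (nat_lit 5251233364) (nat_lit 988) (nat_lit 12100329826) (nat_lit 76) (nat_lit 492621905) (nat_lit 420) (nat_lit 5) (nat_lit 433) (nat_lit 5) (nat_lit 421) (nat_lit 5) (nat_lit 609) (nat_lit 578) (nat_lit 373))))) (XT.nd (nat_lit 234) (nat_lit 1672) (nat_lit 0) (XT.nd (nat_lit 78) (nat_lit 836) (nat_lit 0) (XT.lf (nat_lit 0) (nat_lit 7304865714) (nat_lit 988) (nat_lit 2340843159) (nat_lit 76) (nat_lit 8390307542) (nat_lit 420) (nat_lit 5) (nat_lit 433) (nat_lit 5) (nat_lit 421) (nat_lit 5) (nat_lit 610) (nat_lit 578)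 (nat_lit 372)) (XT.nd (nat_lit 78) (nat_lit 0) (nat_lit 0) (XT.lf (nat_lit 0) (nat_lit 7709154153) (nat_lit 836) (nat_lit 1734444434) (nat_lit 912) (nat_lit 8787205557) (nat_lit 409) (nat_lit 5) (nat_lit 420) (nat_lit 5) (nat_lit 421) (nat_lit 5) (nat_lit 611) (nat_lit 578) (nat_lit 371)) (XT.lf (nat_lit 0) (nat_lit 11676106778) (nat_lit 912) (nat_lit 484395103) (nat_lit 76) (nat_lit 6267966063) (nat_lit 409) (nat_lit 5) (nat_lit 421) (nat_lit 5) (nat_lit 410) (nat_lit 5) (nat_lit 612) (nat_lit 578) (nat_lit 370)))) (XT.nd (nat_lit 78) (nat_lit 836) (nat_lit 0) (XT.lf (nat_lit 0) (nat_lit 9865756274) (nat_lit 836) (nat_lit 4157223835) (nat_lit 912) (nat_lit 4605710938) (nat_lit 398) (nat_lit 5) (nat_lit 409) (nat_lit 5) (nat_lit 410) (nat_lit 5) (nat_lit 613) (nat_lit 578) (nat_lit 369)) (XT.nd (nat_lit 78) (nat_lit 0) (nat_lit 0) (XT.lf (nat_lit 0) (nat_lit 1585555046) (nat_lit 836) (nat_lit 14865063707) (nat_lit 912) (nat_lit 2381623621) (nat_lit 387) (nat_lit 5) (nat_lit 398) (nat_lit 5) (nat_lit 399)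 (nat_lit 5) (nat_lit 614) (nat_lit 578) (nat_lit 368)) (XT.lf (nat_lit 0) (nat_lit 12226108691) (nat_lit 836) (nat_lit 6781181567) (nat_lit 912) (nat_lit 30965181) (nat_lit 387) (nat_lit 5) (nat_lit 398) (nat_lit 5) (nat_lit 399) (nat_lit 5) (nat_lit 615) (nat_lit 578) (nat_lit 367))))))))
noncomputable def xc180 : XT := (XT.nd (nat_lit 1560) (nat_lit 5852) (nat_lit 0) (XT.nd (nat_lit 780) (nat_lit 3876) (nat_lit 0) (XT.nd (nat_lit 390) (nat_lit 2204) (nat_lit 0) (XT.nd (nat_lit 156) (nat_lit 1520) (nat_lit 0) (XT.nd (nat_lit 78) (nat_lit 0) (nat_lit 0) (XT.lf (nat_lit 0) (nat_lit 2364906819) (nat_lit 912) (nat_lit 15396869901) (nat_lit 76) (nat_lit 1485720218) (nat_lit 375) (nat_lit 5) (nat_lit 387) (nat_lit 5) (nat_lit 376) (nat_lit 5) (nat_lit 616) (nat_lit 578) (nat_lit 366)) (XT.lf (nat_lit 0) (nat_lit 4893677939) (nat_lit 912) (nat_lit 4692254148) (nat_lit 76) (nat_lit 9873279455) (nat_lit 375) (nat_lit 5) (nat_lit 387) (nat_lit 5) (nat_lit 376) (nat_lit 5) (nat_lit 617) (nat_lit 578) (nat_lit 365)))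 (XT.nd (nat_lit 78) (nat_lit 760) (nat_lit 0) (XT.lf (nat_lit 0) (nat_lit 6303412947) (nat_lit 760) (nat_lit 1205117476) (nat_lit 836) (nat_lit 12165920185) (nat_lit 365) (nat_lit 5) (nat_lit 375) (nat_lit 5) (nat_lit 376) (nat_lit 5) (nat_lit 618) (nat_lit 578) (nat_lit 364)) (XT.nd (nat_lit 78) (nat_lit 760) (nat_lit 0) (XT.lf (nat_lit 0) (nat_lit 10249700981) (nat_lit 836) (nat_lit 2364431757) (nat_lit 76) (nat_lit 7278381579) (nat_lit 365) (nat_lit 5) (nat_lit 376) (nat_lit 5) (nat_lit 366) (nat_lit 5) (nat_lit 619) (nat_lit 578) (nat_lit 363)) (XT.lf (nat_lit 0) (nat_lit 8966253708) (nat_lit 760) (nat_lit 4140389313) (nat_lit 836) (nat_lit 7007077597) (nat_lit 355) (nat_lit 5) (nat_lit 365) (nat_lit 5) (nat_lit 366) (nat_lit 5) (nat_lit 620) (nat_lit 578) (nat_lit 362))))) (XT.nd (nat_lit 156) (nat_lit 1520) (nat_lit 0) (XT.nd (nat_lit 78) (nat_lit 0) (nat_lit 0) (XT.lf (nat_lit 0) (nat_lit 183911875) (nat_lit 684) (nat_lit 15878028862) (nat_lit 760) (nat_lit 4276586243) (nat_lit 346) (nat_lit 5) (nat_lit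 355) (nat_lit 5) (nat_lit 356) (nat_lit 5) (nat_lit 621) (nat_lit 578) (nat_lit 361)) (XT.lf (nat_lit 0) (nat_lit 11859549190) (nat_lit 684) (nat_lit 7313720434) (nat_lit 760) (nat_lit 1392621609) (nat_lit 346) (nat_lit 5) (nat_lit 355) (nat_lit 5) (nat_lit 356) (nat_lit 5) (nat_lit 622) (nat_lit 578) (nat_lit 360))) (XT.nd (nat_lit 78) (nat_lit 684) (nat_lit 0) (XT.lf (nat_lit 0) (nat_lit 1552519239) (nat_lit 836) (nat_lit 17812272706) (nat_lit 76) (nat_lit 1432333683) (nat_lit 335) (nat_lit 5) (nat_lit 346) (nat_lit 5) (nat_lit 336) (nat_lit 5) (nat_lit 623) (nat_lit 578) (nat_lit 359)) (XT.nd (nat_lit 78) (nat_lit 684) (nat_lit 0) (XT.lf (nat_lit 0) (nat_lit 4640185366) (nat_lit 836) (nat_lit 6067678868) (nat_lit 76) (nat_lit 10322891232) (nat_lit 335) (nat_lit 5) (nat_lit 346) (nat_lit 5) (nat_lit 336) (nat_lit 5) (nat_lit 624) (nat_lit 578) (nat_lit 358)) (XT.lf (nat_lit 0) (nat_lit 5984702814) (nat_lit 684) (nat_lit 1838862531) (nat_lit 760) (nat_lit 13444813591) (nat_lit 326) (nat_lit 5) (nat_lit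 335) (nat_lit 5) (nat_lit 336) (nat_lit 5) (nat_lit 625) (nat_lit 578) (nat_lit 357)))))) (XT.nd (nat_lit 390) (nat_lit 1824) (nat_lit 0) (XT.nd (nat_lit 156) (nat_lit 1368) (nat_lit 0) (XT.nd (nat_lit 78) (nat_lit 684) (nat_lit 0) (XT.lf (nat_lit 0) (nat_lit 11153554993) (nat_lit 760) (nat_lit 3202275023) (nat_lit 76) (nat_lit 7153266259) (nat_lit 326) (nat_lit 5) (nat_lit 336) (nat_lit 5) (nat_lit 327) (nat_lit 5) (nat_lit 626) (nat_lit 578) (nat_lit 356)) (XT.lf (nat_lit 0) (nat_lit 9224011592) (nat_lit 684) (nat_lit 5393453165) (nat_lit 760) (nat_lit 7135817036) (nat_lit 317) (nat_lit 5) (nat_lit 326) (nat_lit 5) (nat_lit 327) (nat_lit 5) (nat_lit 627) (nat_lit 578) (nat_lit 355))) (XT.nd (nat_lit 78) (nat_lit 1368) (nat_lit 0) (XT.lf (nat_lit 0) (nat_lit 18191925660) (nat_lit 760) (nat_lit 89759002) (nat_lit 76) (nat_lit 3719841132) (nat_lit 317) (nat_lit 5) (nat_lit 327) (nat_lit 5) (nat_lit 318) (nat_lit 5) (nat_lit 628) (nat_lit 578) (nat_lit 354)) (XT.nd (nat_lit 78) (nat_lit 760) (nat_lit 0) (XT.lf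 (nat_lit 0) (nat_lit 12724222839) (nat_lit 608) (nat_lit 9227383376) (nat_lit 684) (nat_lit 300854079) (nat_lit 309) (nat_lit 5) (nat_lit 317) (nat_lit 5) (nat_lit 318) (nat_lit 5) (nat_lit 629) (nat_lit 578) (nat_lit 353)) (XT.lf (nat_lit 0) (nat_lit 3252887075) (nat_lit 760) (nat_lit 19204135590) (nat_lit 76) (nat_lit 50609118) (nat_lit 299) (nat_lit 5) (nat_lit 309) (nat_lit 5) (nat_lit 300) (nat_lit 5) (nat_lit 630) (nat_lit 578) (nat_lit 352))))) (XT.nd (nat_lit 156) (nat_lit 1216) (nat_lit 0) (XT.nd (nat_lit 78) (nat_lit 608) (nat_lit 0) (XT.lf (nat_lit 0) (nat_lit 6994620542) (nat_lit 760) (nat_lit 6314685081) (nat_lit 76) (nat_lit 9456142603) (nat_lit 299) (nat_lit 5) (nat_lit 309) (nat_lit 5) (nat_lit 300) (nat_lit 5) (nat_lit 631) (nat_lit 578) (nat_lit 351)) (XT.lf (nat_lit 0) (nat_lit 6917836935) (nat_lit 608) (nat_lit 3933826470) (nat_lit 684) (nat_lit 12175948309) (nat_lit 291) (nat_lit 5) (nat_lit 299) (nat_lit 5) (nat_lit 300) (nat_lit 5) (nat_lit 632) (nat_lit 578) (nat_lit 350))) (XT.nd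 (nat_lit 78) (nat_lit 1216) (nat_lit 0) (XT.lf (nat_lit 0) (nat_lit 14860655715) (nat_lit 684) (nat_lit 2835884937) (nat_lit 76) (nat_lit 5596981853) (nat_lit 291) (nat_lit 5) (nat_lit 300) (nat_lit 5) (nat_lit 292) (nat_lit 5) (nat_lit 633) (nat_lit 578) (nat_lit 349)) (XT.nd (nat_lit 78) (nat_lit 608) (nat_lit 0) (XT.lf (nat_lit 0) (nat_lit 10813872747) (nat_lit 608) (nat_lit 8227908815) (nat_lit 684) (nat_lit 4521131079) (nat_lit 283) (nat_lit 5) (nat_lit 291) (nat_lit 5) (nat_lit 292) (nat_lit 5) (nat_lit 634) (nat_lit 578) (nat_lit 348)) (XT.lf (nat_lit 0) (nat_lit 935183824) (nat_lit 608) (nat_lit 22401593090) (nat_lit 684) (nat_lit 500308924) (nat_lit 275) (nat_lit 5) (nat_lit 283) (nat_lit 5) (nat_lit 284) (nat_lit 5) (nat_lit 635) (nat_lit 578) (nat_lit 347))))))) (XT.nd (nat_lit 780) (nat_lit 2964) (nat_lit 0) (XT.nd (nat_lit 390) (nat_lit 1672) (nat_lit 0) (XT.nd (nat_lit 156) (nat_lit 532) (nat_lit 0) (XT.nd (nat_lit 78) (nat_lit 608) (nat_lit 0) (XT.lf (nat_lit 0) (nat_lit 3690065879) (nat_lit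 684) (nat_lit 9133006306) (nat_lit 76) (nat_lit 11290475651) (nat_lit 274) (nat_lit 5) (nat_lit 283) (nat_lit 5) (nat_lit 275) (nat_lit 5) (nat_lit 636) (nat_lit 578) (nat_lit 346)) (XT.lf (nat_lit 0) (nat_lit 4967766169) (nat_lit 608) (nat_lit 3017880662) (nat_lit 684) (nat_lit 16409264335) (nat_lit 266) (nat_lit 5) (nat_lit 274) (nat_lit 5) (nat_lit 275) (nat_lit 5) (nat_lit 637) (nat_lit 578) (nat_lit 345))) (XT.nd (nat_lit 78) (nat_lit 532) (nat_lit 0) (XT.lf (nat_lit 0) (nat_lit 12470050447) (nat_lit 684) (nat_lit 5257449066) (nat_lit 76) (nat_lit 6952344209) (nat_lit 266) (nat_lit 5) (nat_lit 275) (nat_lit 5) (nat_lit 267) (nat_lit 5) (nat_lit 638) (nat_lit 578) (nat_lit 344)) (XT.nd (nat_lit 78) (nat_lit 0) (nat_lit 0) (XT.lf (nat_lit 0) (nat_lit 9292249228) (nat_lit 532) (nat_lit 7828168094) (nat_lit 608) (nat_lit 7848532286) (nat_lit 259) (nat_lit 5) (nat_lit 266) (nat_lit 5) (nat_lit 267) (nat_lit 5) (nat_lit 639) (nat_lit 578) (nat_lit 343)) (XT.lf (nat_lit 0) (nat_lit 21910033194) (nat_lit 608)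 (nat_lit 1079203330) (nat_lit 76) (nat_lit 2273676429) (nat_lit 259) (nat_lit 5) (nat_lit 267) (nat_lit 5) (nat_lit 260) (nat_lit 5) (nat_lit 640) (nat_lit 578) (nat_lit 342))))) (XT.nd (nat_lit 156) (nat_lit 532) (nat_lit 0) (XT.nd (nat_lit 78) (nat_lit 532) (nat_lit 0) (XT.lf (nat_lit 0) (nat_lit 1355832462) (nat_lit 608) (nat_lit 11632941841) (nat_lit 76) (nat_lit 12571035092) (nat_lit 251) (nat_lit 5) (nat_lit 259) (nat_lit 5) (nat_lit 252) (nat_lit 5) (nat_lit 641) (nat_lit 578) (nat_lit 341)) (XT.lf (nat_lit 0) (nat_lit 3402333436) (nat_lit 532) (nat_lit 2737003570) (nat_lit 608) (nat_lit 19722353413) (nat_lit 244) (nat_lit 5) (nat_lit 251) (nat_lit 5) (nat_lit 252) (nat_lit 5) (nat_lit 642) (nat_lit 578) (nat_lit 340))) (XT.nd (nat_lit 78) (nat_lit 532) (nat_lit 0) (XT.lf (nat_lit 0) (nat_lit 11143339173) (nat_lit 608) (nat_lit 7327945673) (nat_lit 76) (nat_lit 7695827831) (nat_lit 244) (nat_lit 5) (nat_lit 252) (nat_lit 5) (nat_lit 245) (nat_lit 5) (nat_lit 643) (nat_lit 578) (nat_lit 339)) (XT.nd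 (nat_lit 78) (nat_lit 0) (nat_lit 0) (XT.lf (nat_lit 0) (nat_lit 8190226833) (nat_lit 532) (nat_lit 8124698074) (nat_lit 608) (nat_lit 10162368559) (nat_lit 237) (nat_lit 5) (nat_lit 244) (nat_lit 5) (nat_lit 245) (nat_lit 5) (nat_lit 644) (nat_lit 578) (nat_lit 338)) (XT.lf (nat_lit 0) (nat_lit 21651445540) (nat_lit 608) (nat_lit 2695884520) (nat_lit 76) (nat_lit 2445117906) (nat_lit 237) (nat_lit 5) (nat_lit 245) (nat_lit 5) (nat_lit 238) (nat_lit 5) (nat_lit 645) (nat_lit 578) (nat_lit 337)))))) (XT.nd (nat_lit 390) (nat_lit 1444) (nat_lit 0) (XT.nd (nat_lit 156) (nat_lit 456) (nat_lit 0) (XT.nd (nat_lit 78) (nat_lit 532) (nat_lit 0) (XT.lf (nat_lit 0) (nat_lit 118562471) (nat_lit 532) (nat_lit 13788993339) (nat_lit 76) (nat_lit 13203601999) (nat_lit 230) (nat_lit 5) (nat_lit 237) (nat_lit 5) (nat_lit 231) (nat_lit 5) (nat_lit 646) (nat_lit 578) (nat_lit 336)) (XT.lf (nat_lit 0) (nat_lit 2251496674) (nat_lit 532) (nat_lit 3192199871) (nat_lit 608) (nat_lit 21991281493) (nat_lit 223) (nat_lit 5) (nat_lit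 230) (nat_lit 5) (nat_lit 231) (nat_lit 5) (nat_lit 647) (nat_lit 578) (nat_lit 335))) (XT.nd (nat_lit 78) (nat_lit 456) (nat_lit 0) (XT.lf (nat_lit 0) (nat_lit 11015066856) (nat_lit 608) (nat_lit 9019697447) (nat_lit 76) (nat_lit 7727715842) (nat_lit 223) (nat_lit 5) (nat_lit 231) (nat_lit 5) (nat_lit 224) (nat_lit 5) (nat_lit 648) (nat_lit 578) (nat_lit 334)) (XT.nd (nat_lit 78) (nat_lit 0) (nat_lit 0) (XT.lf (nat_lit 0) (nat_lit 7540078103) (nat_lit 456) (nat_lit 9224306191) (nat_lit 532) (nat_lit 11330817748) (nat_lit 217) (nat_lit 5) (nat_lit 223) (nat_lit 5) (nat_lit 224) (nat_lit 5) (nat_lit 649) (nat_lit 578) (nat_lit 333)) (XT.lf (nat_lit 0) (nat_lit 22697770259) (nat_lit 532) (nat_lit 3897218693) (nat_lit 76) (nat_lit 1838207920) (nat_lit 217) (nat_lit 5) (nat_lit 224) (nat_lit 5) (nat_lit 218) (nat_lit 5) (nat_lit 650) (nat_lit 578) (nat_lit 332))))) (XT.nd (nat_lit 156) (nat_lit 456) (nat_lit 0) (XT.nd (nat_lit 78) (nat_lit 456) (nat_lit 0) (XT.lf (nat_lit 0) (nat_lit 116509394) (nat_lit 532)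 (nat_lit 15574924979) (nat_lit 76) (nat_lit 13083635649) (nat_lit 210) (nat_lit 5) (nat_lit 217) (nat_lit 5) (nat_lit 211) (nat_lit 5) (nat_lit 651) (nat_lit 578) (nat_lit 331)) (XT.lf (nat_lit 0) (nat_lit 1546172759) (nat_lit 456) (nat_lit 4495485278) (nat_lit 532) (nat_lit 23080705079) (nat_lit 204) (nat_lit 5) (nat_lit 210) (nat_lit 5) (nat_lit 211) (nat_lit 5) (nat_lit 652) (nat_lit 578) (nat_lit 330))) (XT.nd (nat_lit 78) (nat_lit 456) (nat_lit 0) (XT.lf (nat_lit 0) (nat_lit 12232036583) (nat_lit 532) (nat_lit 10304348799) (nat_lit 76) (nat_lit 6937282280) (nat_lit 204) (nat_lit 5) (nat_lit 211) (nat_lit 5) (nat_lit 205) (nat_lit 5) (nat_lit 653) (nat_lit 578) (nat_lit 329)) (XT.nd (nat_lit 78) (nat_lit 0) (nat_lit 0) (XT.lf (nat_lit 0) (nat_lit 7374978550) (nat_lit 456) (nat_lit 11245527399) (nat_lit 532) (nat_lit 11210006810) (nat_lit 198) (nat_lit 5) (nat_lit 204) (nat_lit 5) (nat_lit 205) (nat_lit 5) (nat_lit 654) (nat_lit 578) (nat_lit 328)) (XT.lf (nat_lit 0) (nat_lit 25204763794) (nat_lit 532)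 (nat_lit 4652688024) (nat_lit 76) (nat_lit 335682683) (nat_lit 198) (nat_lit 5) (nat_lit 205) (nat_lit 5) (nat_lit 199) (nat_lit 5) (nat_lit 655) (nat_lit 578) (nat_lit 327))))))))
noncomputable def xc181 : XT := (XT.nd (nat_lit 76284) (nat_lit 0) (nat_lit 17784) (XT.nd (nat_lit 75504) (nat_lit 0) (nat_lit 24472) (XT.nd (nat_lit 390) (nat_lit 456) (nat_lit 0) (XT.nd (nat_lit 156) (nat_lit 380) (nat_lit 0) (XT.nd (nat_lit 78) (nat_lit 456) (nat_lit 0) (XT.lf (nat_lit 0) (nat_lit 1500475349) (nat_lit 456) (nat_lit 16964343630) (nat_lit 76) (nat_lit 12094801842) (nat_lit 192) (nat_lit 5) (nat_lit 198) (nat_lit 5) (nat_lit 193) (nat_lit 5) (nat_lit 656) (nat_lit 578) (nat_lit 326)) (XT.lf (nat_lit 0) (nat_lit 1317653048) (nat_lit 456) (nat_lit 6771427520) (nat_lit 532) (nat_lit 22842961421) (nat_lit 186) (nat_lit 5) (nat_lit 192) (nat_lit 5) (nat_lit 193) (nat_lit 5) (nat_lit 657) (nat_lit 578) (nat_lit 325))) (XT.nd (nat_lit 78) (nat_lit 380) (nat_lit 0) (XT.lf (nat_lit 0) (nat_lit 14954279455) (nat_lit 532)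 (nat_lit 11153484298) (nat_lit 76) (nat_lit 5201251510) (nat_lit 186) (nat_lit 5) (nat_lit 193) (nat_lit 5) (nat_lit 187) (nat_lit 5) (nat_lit 658) (nat_lit 578) (nat_lit 324)) (XT.nd (nat_lit 78) (nat_lit 0) (nat_lit 0) (XT.lf (nat_lit 0) (nat_lit 7728382766) (nat_lit 380) (nat_lit 14320237803) (nat_lit 456) (nat_lit 9643070781) (nat_lit 181) (nat_lit 5) (nat_lit 186) (nat_lit 5) (nat_lit 187) (nat_lit 5) (nat_lit 659) (nat_lit 578) (nat_lit 323)) (XT.lf (nat_lit 0) (nat_lit 27134336066) (nat_lit 380) (nat_lit 2222206412) (nat_lit 456) (nat_lit 2724044712) (nat_lit 181) (nat_lit 5) (nat_lit 186) (nat_lit 5) (nat_lit 187) (nat_lit 5) (nat_lit 660) (nat_lit 578) (nat_lit 322))))) (XT.nd (nat_lit 74880) (nat_lit 0) (nat_lit 24396) (XT.nd (nat_lit 74802) (nat_lit 0) (nat_lit 24396) (XT.lf (nat_lit 0) (nat_lit 4434771558) (nat_lit 456) (nat_lit 17931422730) (nat_lit 76) (nat_lit 10107339211) (nat_lit 175) (nat_lit 5) (nat_lit 181) (nat_lit 5) (nat_lit 176) (nat_lit 5) (nat_lit 661) (nat_lit 578) (nat_lit 321))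 (XT.lf (nat_lit 0) (nat_lit 697511179) (nat_lit 0) (nat_lit 697511179) (nat_lit 1748) (nat_lit 5266431036) (nat_lit 496) (nat_lit 5) (nat_lit 496) (nat_lit 3) (nat_lit 519) (nat_lit 3) (nat_lit 579) (nat_lit 579) (nat_lit 402))) (XT.nd (nat_lit 78) (nat_lit 0) (nat_lit 0) (XT.lf (nat_lit 0) (nat_lit 3232924459) (nat_lit 1748) (nat_lit 5348859723) (nat_lit 1824) (nat_lit 4866028242) (nat_lit 496) (nat_lit 5) (nat_lit 519) (nat_lit 3) (nat_lit 520) (nat_lit 5) (nat_lit 580) (nat_lit 579) (nat_lit 401)) (XT.nd (nat_lit 78) (nat_lit 0) (nat_lit 76) (XT.lf (nat_lit 76) (nat_lit 1365154355) (nat_lit 0) (nat_lit 2327596760) (nat_lit 1824) (nat_lit 9882303895) (nat_lit 497) (nat_lit 5) (nat_lit 496) (nat_lit 5) (nat_lit 520) (nat_lit 5) (nat_lit 581) (nat_lit 579) (nat_lit 400)) (XT.lf (nat_lit 0) (nat_lit 4214391579) (nat_lit 1748) (nat_lit 5450164414) (nat_lit 1824) (nat_lit 4039234721) (nat_lit 497) (nat_lit 5) (nat_lit 520) (nat_lit 5) (nat_lit 521) (nat_lit 5) (nat_lit 582) (nat_lit 579) (nat_lit 399))))))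 (XT.nd (nat_lit 390) (nat_lit 0) (nat_lit 228) (XT.nd (nat_lit 156) (nat_lit 0) (nat_lit 76) (XT.nd (nat_lit 78) (nat_lit 0) (nat_lit 76) (XT.lf (nat_lit 76) (nat_lit 1442933299) (nat_lit 0) (nat_lit 3318686881) (nat_lit 1824) (nat_lit 9073178448) (nat_lit 498) (nat_lit 5) (nat_lit 497) (nat_lit 5) (nat_lit 521) (nat_lit 5) (nat_lit 583) (nat_lit 579) (nat_lit 398)) (XT.lf (nat_lit 0) (nat_lit 5367641203) (nat_lit 1748) (nat_lit 5446169549) (nat_lit 1824) (nat_lit 3153659580) (nat_lit 498) (nat_lit 5) (nat_lit 521) (nat_lit 5) (nat_lit 522) (nat_lit 5) (nat_lit 584) (nat_lit 579) (nat_lit 397))) (XT.nd (nat_lit 78) (nat_lit 0) (nat_lit 76) (XT.lf (nat_lit 76) (nat_lit 1632455381) (nat_lit 0) (nat_lit 4376643189) (nat_lit 1824) (nat_lit 8093231160) (nat_lit 499) (nat_lit 5) (nat_lit 498) (nat_lit 5) (nat_lit 522) (nat_lit 5) (nat_lit 585) (nat_lit 579) (nat_lit 396)) (XT.nd (nat_lit 78) (nat_lit 0) (nat_lit 0) (XT.lf (nat_lit 0) (nat_lit 6705297737) (nat_lit 1748) (nat_lit 5332722629) (nat_lit 1824) (nat_lit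 2201028263) (nat_lit 499) (nat_lit 5) (nat_lit 522) (nat_lit 5) (nat_lit 523) (nat_lit 5) (nat_lit 586) (nat_lit 579) (nat_lit 395)) (XT.lf (nat_lit 76) (nat_lit 1938128090) (nat_lit 0) (nat_lit 5509948818) (nat_lit 1824) (nat_lit 6929772434) (nat_lit 500) (nat_lit 5) (nat_lit 499) (nat_lit 5) (nat_lit 523) (nat_lit 5) (nat_lit 587) (nat_lit 579) (nat_lit 394))))) (XT.nd (nat_lit 156) (nat_lit 0) (nat_lit 76) (XT.nd (nat_lit 78) (nat_lit 0) (nat_lit 0) (XT.lf (nat_lit 0) (nat_lit 8240441094) (nat_lit 1748) (nat_lit 5105363200) (nat_lit 1824) (nat_lit 1172927730) (nat_lit 500) (nat_lit 5) (nat_lit 523) (nat_lit 5) (nat_lit 524) (nat_lit 5) (nat_lit 588) (nat_lit 579) (nat_lit 393)) (XT.lf (nat_lit 76) (nat_lit 2364675911) (nat_lit 0) (nat_lit 6727240058) (nat_lit 1824) (nat_lit 5569651658) (nat_lit 501) (nat_lit 5) (nat_lit 500) (nat_lit 5) (nat_lit 524) (nat_lit 5) (nat_lit 589) (nat_lit 579) (nat_lit 392))) (XT.nd (nat_lit 78) (nat_lit 0) (nat_lit 0) (XT.lf (nat_lit 0) (nat_lit 9986633116) (nat_lit 1748)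 (nat_lit 4759316915) (nat_lit 1824) (nat_lit 60786177) (nat_lit 501) (nat_lit 5) (nat_lit 524) (nat_lit 5) (nat_lit 525) (nat_lit 5) (nat_lit 590) (nat_lit 579) (nat_lit 391)) (XT.nd (nat_lit 78) (nat_lit 0) (nat_lit 0) (XT.lf (nat_lit 76) (nat_lit 2917146651) (nat_lit 0) (nat_lit 8037326881) (nat_lit 1824) (nat_lit 3999230565) (nat_lit 502) (nat_lit 5) (nat_lit 501) (nat_lit 5) (nat_lit 525) (nat_lit 5) (nat_lit 591) (nat_lit 579) (nat_lit 390)) (XT.lf (nat_lit 76) (nat_lit 10806119555) (nat_lit 0) (nat_lit 1159352417) (nat_lit 1824) (nat_lit 3137663849) (nat_lit 502) (nat_lit 5) (nat_lit 501) (nat_lit 5) (nat_lit 525) (nat_lit 5) (nat_lit 592) (nat_lit 579) (nat_lit 389))))))) (XT.nd (nat_lit 780) (nat_lit 5320) (nat_lit 0) (XT.nd (nat_lit 390) (nat_lit 0) (nat_lit 76) (XT.nd (nat_lit 156) (nat_lit 1748) (nat_lit 0) (XT.nd (nat_lit 78) (nat_lit 0) (nat_lit 0) (XT.lf (nat_lit 76) (nat_lit 3600918396) (nat_lit 0) (nat_lit 9449213550) (nat_lit 1824) (nat_lit 2204355898) (nat_lit 503) (nat_lit 5) (nat_lit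 502) (nat_lit 5) (nat_lit 526) (nat_lit 5) (nat_lit 593) (nat_lit 579) (nat_lit 388)) (XT.lf (nat_lit 76) (nat_lit 11701714109) (nat_lit 0) (nat_lit 2483393315) (nat_lit 1824) (nat_lit 1223187518) (nat_lit 503) (nat_lit 5) (nat_lit 502) (nat_lit 5) (nat_lit 526) (nat_lit 5) (nat_lit 594) (nat_lit 579) (nat_lit 387))) (XT.nd (nat_lit 78) (nat_lit 1824) (nat_lit 0) (XT.lf (nat_lit 76) (nat_lit 4421707079) (nat_lit 0) (nat_lit 10972119374) (nat_lit 1824) (nat_lit 170331324) (nat_lit 504) (nat_lit 5) (nat_lit 503) (nat_lit 5) (nat_lit 527) (nat_lit 5) (nat_lit 595) (nat_lit 579) (nat_lit 386)) (XT.nd (nat_lit 78) (nat_lit 0) (nat_lit 76) (XT.lf (nat_lit 0) (nat_lit 925607102) (nat_lit 1824) (nat_lit 2988002765) (nat_lit 1900) (nat_lit 11808733609) (nat_lit 479) (nat_lit 5) (nat_lit 503) (nat_lit 5) (nat_lit 504) (nat_lit 5) (nat_lit 596) (nat_lit 579) (nat_lit 385)) (XT.lf (nat_lit 0) (nat_lit 2090332034) (nat_lit 1824) (nat_lit 10511140383) (nat_lit 1900) (nat_lit 3281215431) (nat_lit 480) (nat_lit 5) (nat_lit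 504) (nat_lit 5) (nat_lit 505) (nat_lit 5) (nat_lit 597) (nat_lit 579) (nat_lit 384))))) (XT.nd (nat_lit 156) (nat_lit 0) (nat_lit 76) (XT.nd (nat_lit 78) (nat_lit 0) (nat_lit 76) (XT.lf (nat_lit 0) (nat_lit 3317116082) (nat_lit 1824) (nat_lit 2138796966) (nat_lit 1900) (nat_lit 10589551205) (nat_lit 480) (nat_lit 5) (nat_lit 504) (nat_lit 5) (nat_lit 505) (nat_lit 5) (nat_lit 598) (nat_lit 579) (nat_lit 383)) (XT.lf (nat_lit 0) (nat_lit 4615504766) (nat_lit 1824) (nat_lit 9742589582) (nat_lit 1900) (nat_lit 1852460888) (nat_lit 481) (nat_lit 5) (nat_lit 505) (nat_lit 5) (nat_lit 506) (nat_lit 5) (nat_lit 599) (nat_lit 579) (nat_lit 382))) (XT.nd (nat_lit 78) (nat_lit 0) (nat_lit 76) (XT.lf (nat_lit 0) (nat_lit 5983362260) (nat_lit 1824) (nat_lit 1144736074) (nat_lit 1900) (nat_lit 9249980106) (nat_lit 481) (nat_lit 5) (nat_lit 505) (nat_lit 5) (nat_lit 506) (nat_lit 5) (nat_lit 600) (nat_lit 579) (nat_lit 381)) (XT.nd (nat_lit 78) (nat_lit 0) (nat_lit 0) (XT.lf (nat_lit 0) (nat_lit 7423706680) (nat_lit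 1824) (nat_lit 8829288291) (nat_lit 1900) (nat_lit 295054954) (nat_lit 482) (nat_lit 5) (nat_lit 506) (nat_lit 5) (nat_lit 507) (nat_lit 5) (nat_lit 601) (nat_lit 579) (nat_lit 380)) (XT.lf (nat_lit 76) (nat_lit 832837) (nat_lit 0) (nat_lit 8940137953) (nat_lit 1900) (nat_lit 7779488198) (nat_lit 483) (nat_lit 5) (nat_lit 482) (nat_lit 5) (nat_lit 507) (nat_lit 5) (nat_lit 602) (nat_lit 579) (nat_lit 379)))))) (XT.nd (nat_lit 390) (nat_lit 2660) (nat_lit 0) (XT.nd (nat_lit 156) (nat_lit 1140) (nat_lit 0) (XT.nd (nat_lit 78) (nat_lit 1748) (nat_lit 0) (XT.lf (nat_lit 76) (nat_lit 9121576664) (nat_lit 0) (nat_lit 1419518661) (nat_lit 1900) (nat_lit 6354171002) (nat_lit 483) (nat_lit 5) (nat_lit 482) (nat_lit 5) (nat_lit 507) (nat_lit 5) (nat_lit 603) (nat_lit 579) (nat_lit 378)) (XT.lf (nat_lit 0) (nat_lit 1322226565) (nat_lit 1824) (nat_lit 10893574351) (nat_lit 1900) (nat_lit 4856917713) (nat_lit 459) (nat_lit 5) (nat_lit 483) (nat_lit 5) (nat_lit 484) (nat_lit 5) (nat_lit 604) (nat_lit 579) (nat_lit 377)))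 (XT.nd (nat_lit 78) (nat_lit 1140) (nat_lit 0) (XT.lf (nat_lit 0) (nat_lit 10690255996) (nat_lit 1824) (nat_lit 3288746546) (nat_lit 1900) (nat_lit 3273617778) (nat_lit 459) (nat_lit 5) (nat_lit 483) (nat_lit 5) (nat_lit 484) (nat_lit 5) (nat_lit 605) (nat_lit 579) (nat_lit 376)) (XT.nd (nat_lit 78) (nat_lit 76) (nat_lit 0) (XT.lf (nat_lit 0) (nat_lit 2811715515) (nat_lit 1064) (nat_lit 13006648922) (nat_lit 1140) (nat_lit 1616938059) (nat_lit 445) (nat_lit 5) (nat_lit 459) (nat_lit 5) (nat_lit 460) (nat_lit 5) (nat_lit 606) (nat_lit 579) (nat_lit 375)) (XT.lf (nat_lit 0) (nat_lit 131704477) (nat_lit 1140) (nat_lit 5186793899) (nat_lit 76) (nat_lit 12301935135) (nat_lit 444) (nat_lit 5) (nat_lit 459) (nat_lit 5) (nat_lit 445) (nat_lit 5) (nat_lit 607) (nat_lit 579) (nat_lit 374))))) (XT.nd (nat_lit 234) (nat_lit 836) (nat_lit 0) (XT.nd (nat_lit 78) (nat_lit 912) (nat_lit 0) (XT.lf (nat_lit 0) (nat_lit 1933235893) (nat_lit 988) (nat_lit 13344059164) (nat_lit 76) (nat_lit 2530967345) (nat_lit 432) (nat_lit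 5) (nat_lit 445) (nat_lit 5) (nat_lit 433) (nat_lit 5) (nat_lit 608) (nat_lit 579) (nat_lit 373)) (XT.nd (nat_lit 78) (nat_lit 912) (nat_lit 0) (XT.lf (nat_lit 0) (nat_lit 3834945921) (nat_lit 988) (nat_lit 3661775698) (nat_lit 76) (nat_lit 10501843637) (nat_lit 432) (nat_lit 5) (nat_lit 445) (nat_lit 5) (nat_lit 433) (nat_lit 5) (nat_lit 609) (nat_lit 579) (nat_lit 372)) (XT.lf (nat_lit 0) (nat_lit 5812671706) (nat_lit 988) (nat_lit 11904030314) (nat_lit 76) (nat_lit 475212855) (nat_lit 420) (nat_lit 5) (nat_lit 433) (nat_lit 5) (nat_lit 421) (nat_lit 5) (nat_lit 610) (nat_lit 579) (nat_lit 371)))) (XT.nd (nat_lit 78) (nat_lit 836) (nat_lit 0) (XT.lf (nat_lit 0) (nat_lit 7898427415) (nat_lit 988) (nat_lit 1957948152) (nat_lit 76) (nat_lit 8531386744) (nat_lit 420) (nat_lit 5) (nat_lit 433) (nat_lit 5) (nat_lit 421) (nat_lit 5) (nat_lit 611) (nat_lit 579) (nat_lit 370)) (XT.nd (nat_lit 78) (nat_lit 0) (nat_lit 0) (XT.lf (nat_lit 0) (nat_lit 8290222055) (nat_lit 836) (nat_lit 1783710698) (nat_lit 912) (nat_lit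 8512633578) (nat_lit 409) (nat_lit 5) (nat_lit 420) (nat_lit 5) (nat_lit 421) (nat_lit 5) (nat_lit 612) (nat_lit 579) (nat_lit 369)) (XT.lf (nat_lit 0) (nat_lit 12342342196) (nat_lit 912) (nat_lit 66795396) (nat_lit 76) (nat_lit 6379221276) (nat_lit 409) (nat_lit 5) (nat_lit 421) (nat_lit 5) (nat_lit 410) (nat_lit 5) (nat_lit 613) (nat_lit 579) (nat_lit 368))))))))
noncomputable def xc182 : XT := (XT.nd (nat_lit 1560) (nat_lit 6612) (nat_lit 0) (XT.nd (nat_lit 780) (nat_lit 4180) (nat_lit 0) (XT.nd (nat_lit 390) (nat_lit 2204) (nat_lit 0) (XT.nd (nat_lit 156) (nat_lit 912) (nat_lit 0) (XT.nd (nat_lit 78) (nat_lit 836) (nat_lit 0) (XT.lf (nat_lit 0) (nat_lit 10487547906) (nat_lit 836) (nat_lit 4242876497) (nat_lit 912) (nat_lit 4262277076) (nat_lit 398) (nat_lit 5) (nat_lit 409) (nat_lit 5) (nat_lit 410) (nat_lit 5) (nat_lit 614) (nat_lit 579) (nat_lit 367)) (XT.lf (nat_lit 0) (nat_lit 2047473273) (nat_lit 836) (nat_lit 15153547522) (nat_lit 912) (nat_lit 1999415403) (nat_lit 387) (nat_lit 5) (nat_lit 398)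 (nat_lit 5) (nat_lit 399) (nat_lit 5) (nat_lit 615) (nat_lit 579) (nat_lit 366))) (XT.nd (nat_lit 78) (nat_lit 836) (nat_lit 0) (XT.lf (nat_lit 0) (nat_lit 384715293) (nat_lit 912) (nat_lit 6520863695) (nat_lit 76) (nat_lit 12505105622) (nat_lit 386) (nat_lit 5) (nat_lit 398) (nat_lit 5) (nat_lit 387) (nat_lit 5) (nat_lit 616) (nat_lit 579) (nat_lit 365)) (XT.nd (nat_lit 78) (nat_lit 0) (nat_lit 0) (XT.lf (nat_lit 0) (nat_lit 2822783120) (nat_lit 912) (nat_lit 15272157110) (nat_lit 76) (nat_lit 1529273193) (nat_lit 375) (nat_lit 5) (nat_lit 387) (nat_lit 5) (nat_lit 376) (nat_lit 5) (nat_lit 617) (nat_lit 579) (nat_lit 364)) (XT.lf (nat_lit 0) (nat_lit 5394079110) (nat_lit 912) (nat_lit 4361932379) (nat_lit 76) (nat_lit 10084312269) (nat_lit 375) (nat_lit 5) (nat_lit 387) (nat_lit 5) (nat_lit 376) (nat_lit 5) (nat_lit 618) (nat_lit 579) (nat_lit 363))))) (XT.nd (nat_lit 156) (nat_lit 1444) (nat_lit 0) (XT.nd (nat_lit 78) (nat_lit 0) (nat_lit 0) (XT.lf (nat_lit 0) (nat_lit 6850857486) (nat_lit 760) (nat_lit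 1205214314) (nat_lit 836) (nat_lit 12003899364) (nat_lit 365) (nat_lit 5) (nat_lit 375) (nat_lit 5) (nat_lit 376) (nat_lit 5) (nat_lit 619) (nat_lit 579) (nat_lit 362)) (XT.lf (nat_lit 0) (nat_lit 10844426989) (nat_lit 836) (nat_lit 1990946984) (nat_lit 76) (nat_lit 7447175363) (nat_lit 365) (nat_lit 5) (nat_lit 376) (nat_lit 5) (nat_lit 366) (nat_lit 5) (nat_lit 620) (nat_lit 579) (nat_lit 361))) (XT.nd (nat_lit 78) (nat_lit 684) (nat_lit 0) (XT.lf (nat_lit 0) (nat_lit 9563583945) (nat_lit 760) (nat_lit 4189996088) (nat_lit 836) (nat_lit 6754698691) (nat_lit 355) (nat_lit 5) (nat_lit 365) (nat_lit 5) (nat_lit 366) (nat_lit 5) (nat_lit 621) (nat_lit 579) (nat_lit 360)) (XT.nd (nat_lit 78) (nat_lit 0) (nat_lit 0) (XT.lf (nat_lit 0) (nat_lit 610296638) (nat_lit 684) (nat_lit 16153097714) (nat_lit 760) (nat_lit 3974279046) (nat_lit 346) (nat_lit 5) (nat_lit 355) (nat_lit 5) (nat_lit 356) (nat_lit 5) (nat_lit 622) (nat_lit 579) (nat_lit 359)) (XT.lf (nat_lit 0) (nat_lit 12511158335) (nat_lit 684) (nat_lit 7418336288)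 (nat_lit 760) (nat_lit 1040239803) (nat_lit 346) (nat_lit 5) (nat_lit 355) (nat_lit 5) (nat_lit 356) (nat_lit 5) (nat_lit 623) (nat_lit 579) (nat_lit 358)))))) (XT.nd (nat_lit 390) (nat_lit 1976) (nat_lit 0) (XT.nd (nat_lit 156) (nat_lit 1368) (nat_lit 0) (XT.nd (nat_lit 78) (nat_lit 0) (nat_lit 0) (XT.lf (nat_lit 0) (nat_lit 1954463608) (nat_lit 836) (nat_lit 17744722005) (nat_lit 76) (nat_lit 1506445965) (nat_lit 335) (nat_lit 5) (nat_lit 346) (nat_lit 5) (nat_lit 336) (nat_lit 5) (nat_lit 624) (nat_lit 579) (nat_lit 357)) (XT.lf (nat_lit 0) (nat_lit 5096610626) (nat_lit 836) (nat_lit 5773546018) (nat_lit 76) (nat_lit 10573923182) (nat_lit 335) (nat_lit 5) (nat_lit 346) (nat_lit 5) (nat_lit 336) (nat_lit 5) (nat_lit 625) (nat_lit 579) (nat_lit 356))) (XT.nd (nat_lit 78) (nat_lit 684) (nat_lit 0) (XT.lf (nat_lit 0) (nat_lit 6517149834) (nat_lit 684) (nat_lit 1822058403) (nat_lit 760) (nat_lit 13347336888) (nat_lit 326) (nat_lit 5) (nat_lit 335) (nat_lit 5) (nat_lit 336) (nat_lit 5) (nat_lit 626) (nat_lit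 579) (nat_lit 355)) (XT.nd (nat_lit 78) (nat_lit 684) (nat_lit 0) (XT.lf (nat_lit 0) (nat_lit 11729096163) (nat_lit 760) (nat_lit 2854941634) (nat_lit 76) (nat_lit 7348173397) (nat_lit 326) (nat_lit 5) (nat_lit 336) (nat_lit 5) (nat_lit 327) (nat_lit 5) (nat_lit 627) (nat_lit 579) (nat_lit 354)) (XT.lf (nat_lit 0) (nat_lit 9817164273) (nat_lit 684) (nat_lit 5440862043) (nat_lit 760) (nat_lit 6923339607) (nat_lit 317) (nat_lit 5) (nat_lit 326) (nat_lit 5) (nat_lit 327) (nat_lit 5) (nat_lit 628) (nat_lit 579) (nat_lit 353))))) (XT.nd (nat_lit 156) (nat_lit 1292) (nat_lit 0) (XT.nd (nat_lit 78) (nat_lit 76) (nat_lit 0) (XT.lf (nat_lit 0) (nat_lit 319758535) (nat_lit 608) (nat_lit 18579851146) (nat_lit 684) (nat_lit 3535052797) (nat_lit 309) (nat_lit 5) (nat_lit 317) (nat_lit 5) (nat_lit 318) (nat_lit 5) (nat_lit 629) (nat_lit 579) (nat_lit 352)) (XT.lf (nat_lit 0) (nat_lit 37100224) (nat_lit 684) (nat_lit 9307835203) (nat_lit 76) (nat_lit 13345798722) (nat_lit 308) (nat_lit 5) (nat_lit 317) (nat_lit 5) (nat_lit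 309) (nat_lit 5) (nat_lit 630) (nat_lit 579) (nat_lit 351))) (XT.nd (nat_lit 78) (nat_lit 608) (nat_lit 0) (XT.lf (nat_lit 0) (nat_lit 3654320632) (nat_lit 760) (nat_lit 19175656864) (nat_lit 76) (nat_lit 121063461) (nat_lit 299) (nat_lit 5) (nat_lit 309) (nat_lit 5) (nat_lit 300) (nat_lit 5) (nat_lit 631) (nat_lit 579) (nat_lit 350)) (XT.nd (nat_lit 78) (nat_lit 608) (nat_lit 0) (XT.lf (nat_lit 0) (nat_lit 7464293164) (nat_lit 760) (nat_lit 6036506785) (nat_lit 76) (nat_lit 9713346004) (nat_lit 299) (nat_lit 5) (nat_lit 309) (nat_lit 5) (nat_lit 300) (nat_lit 5) (nat_lit 632) (nat_lit 579) (nat_lit 349)) (XT.lf (nat_lit 0) (nat_lit 7458004671) (nat_lit 608) (nat_lit 3936614757) (nat_lit 684) (nat_lit 12087010737) (nat_lit 291) (nat_lit 5) (nat_lit 299) (nat_lit 5) (nat_lit 300) (nat_lit 5) (nat_lit 633) (nat_lit 579) (nat_lit 348))))))) (XT.nd (nat_lit 780) (nat_lit 3040) (nat_lit 0) (XT.nd (nat_lit 390) (nat_lit 1672) (nat_lit 0) (XT.nd (nat_lit 156) (nat_lit 1292) (nat_lit 0) (XT.nd (nat_lit 78) (nat_lit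 608) (nat_lit 0) (XT.lf (nat_lit 0) (nat_lit 15477883998) (nat_lit 684) (nat_lit 2492747672) (nat_lit 76) (nat_lit 5782345955) (nat_lit 291) (nat_lit 5) (nat_lit 300) (nat_lit 5) (nat_lit 292) (nat_lit 5) (nat_lit 634) (nat_lit 579) (nat_lit 347)) (XT.lf (nat_lit 0) (nat_lit 11427374540) (nat_lit 608) (nat_lit 8311562058) (nat_lit 684) (nat_lit 4288893175) (nat_lit 283) (nat_lit 5) (nat_lit 291) (nat_lit 5) (nat_lit 292) (nat_lit 5) (nat_lit 635) (nat_lit 579) (nat_lit 346))) (XT.nd (nat_lit 78) (nat_lit 684) (nat_lit 0) (XT.lf (nat_lit 0) (nat_lit 1354276090) (nat_lit 608) (nat_lit 22762468003) (nat_lit 684) (nat_lit 190804385) (nat_lit 275) (nat_lit 5) (nat_lit 283) (nat_lit 5) (nat_lit 284) (nat_lit 5) (nat_lit 636) (nat_lit 579) (nat_lit 345)) (XT.nd (nat_lit 78) (nat_lit 608) (nat_lit 0) (XT.lf (nat_lit 0) (nat_lit 4073004723) (nat_lit 684) (nat_lit 8919006442) (nat_lit 76) (nat_lit 11597610996) (nat_lit 274) (nat_lit 5) (nat_lit 283) (nat_lit 5) (nat_lit 275) (nat_lit 5) (nat_lit 637) (nat_lit 579)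 (nat_lit 344)) (XT.lf (nat_lit 0) (nat_lit 5461171877) (nat_lit 608) (nat_lit 2989822332) (nat_lit 684) (nat_lit 16425688881) (nat_lit 266) (nat_lit 5) (nat_lit 274) (nat_lit 5) (nat_lit 275) (nat_lit 5) (nat_lit 638) (nat_lit 579) (nat_lit 343))))) (XT.nd (nat_lit 156) (nat_lit 1140) (nat_lit 0) (XT.nd (nat_lit 78) (nat_lit 532) (nat_lit 0) (XT.lf (nat_lit 0) (nat_lit 13019655866) (nat_lit 684) (nat_lit 4970830764) (nat_lit 76) (nat_lit 7176936536) (nat_lit 266) (nat_lit 5) (nat_lit 275) (nat_lit 5) (nat_lit 267) (nat_lit 5) (nat_lit 639) (nat_lit 579) (nat_lit 342)) (XT.lf (nat_lit 0) (nat_lit 9867284079) (nat_lit 532) (nat_lit 7892386516) (nat_lit 608) (nat_lit 7702708024) (nat_lit 259) (nat_lit 5) (nat_lit 266) (nat_lit 5) (nat_lit 267) (nat_lit 5) (nat_lit 640) (nat_lit 579) (nat_lit 341))) (XT.nd (nat_lit 78) (nat_lit 1140) (nat_lit 0) (XT.lf (nat_lit 0) (nat_lit 22639846104) (nat_lit 608) (nat_lit 713983198) (nat_lit 76) (nat_lit 2408496840) (nat_lit 259) (nat_lit 5) (nat_lit 267) (nat_lit 5) (nat_lit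 260) (nat_lit 5) (nat_lit 641) (nat_lit 579) (nat_lit 340)) (XT.nd (nat_lit 78) (nat_lit 532) (nat_lit 0) (XT.lf (nat_lit 0) (nat_lit 1673260609) (nat_lit 608) (nat_lit 11477470830) (nat_lit 76) (nat_lit 12914455588) (nat_lit 251) (nat_lit 5) (nat_lit 259) (nat_lit 5) (nat_lit 252) (nat_lit 5) (nat_lit 642) (nat_lit 579) (nat_lit 339)) (XT.lf (nat_lit 0) (nat_lit 3855956467) (nat_lit 532) (nat_lit 2693289812) (nat_lit 608) (nat_lit 19823923413) (nat_lit 244) (nat_lit 5) (nat_lit 251) (nat_lit 5) (nat_lit 252) (nat_lit 5) (nat_lit 643) (nat_lit 579) (nat_lit 338)))))) (XT.nd (nat_lit 390) (nat_lit 1444) (nat_lit 0) (XT.nd (nat_lit 156) (nat_lit 1064) (nat_lit 0) (XT.nd (nat_lit 78) (nat_lit 532) (nat_lit 0) (XT.lf (nat_lit 0) (nat_lit 11648325329) (nat_lit 608) (nat_lit 7091473537) (nat_lit 76) (nat_lit 7945001828) (nat_lit 244) (nat_lit 5) (nat_lit 252) (nat_lit 5) (nat_lit 245) (nat_lit 5) (nat_lit 644) (nat_lit 579) (nat_lit 337)) (XT.lf (nat_lit 0) (nat_lit 8734542477) (nat_lit 532) (nat_lit 8185739079)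 (nat_lit 608) (nat_lit 10080965000) (nat_lit 237) (nat_lit 5) (nat_lit 244) (nat_lit 5) (nat_lit 245) (nat_lit 5) (nat_lit 645) (nat_lit 579) (nat_lit 336))) (XT.nd (nat_lit 78) (nat_lit 1064) (nat_lit 0) (XT.lf (nat_lit 0) (nat_lit 22358706657) (nat_lit 608) (nat_lit 2371914772) (nat_lit 76) (nat_lit 2592179464) (nat_lit 237) (nat_lit 5) (nat_lit 245) (nat_lit 5) (nat_lit 238) (nat_lit 5) (nat_lit 646) (nat_lit 579) (nat_lit 335)) (XT.nd (nat_lit 78) (nat_lit 532) (nat_lit 0) (XT.lf (nat_lit 0) (nat_lit 394033837) (nat_lit 532) (nat_lit 13685731566) (nat_lit 76) (nat_lit 13568142614) (nat_lit 230) (nat_lit 5) (nat_lit 237) (nat_lit 5) (nat_lit 231) (nat_lit 5) (nat_lit 647) (nat_lit 579) (nat_lit 334)) (XT.lf (nat_lit 0) (nat_lit 2673074552) (nat_lit 532) (nat_lit 3149685935) (nat_lit 608) (nat_lit 22155502581) (nat_lit 223) (nat_lit 5) (nat_lit 230) (nat_lit 5) (nat_lit 231) (nat_lit 5) (nat_lit 648) (nat_lit 579) (nat_lit 333))))) (XT.nd (nat_lit 234) (nat_lit 988) (nat_lit 0) (XT.nd (nat_lit 78) (nat_lit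 456) (nat_lit 0) (XT.lf (nat_lit 0) (nat_lit 11500937367) (nat_lit 608) (nat_lit 8826295387) (nat_lit 76) (nat_lit 7985175090) (nat_lit 223) (nat_lit 5) (nat_lit 231) (nat_lit 5) (nat_lit 224) (nat_lit 5) (nat_lit 649) (nat_lit 579) (nat_lit 332)) (XT.nd (nat_lit 78) (nat_lit 0) (nat_lit 0) (XT.lf (nat_lit 0) (nat_lit 8062216490) (nat_lit 456) (nat_lit 9300228390) (nat_lit 532) (nat_lit 11289395430) (nat_lit 217) (nat_lit 5) (nat_lit 223) (nat_lit 5) (nat_lit 224) (nat_lit 5) (nat_lit 650) (nat_lit 579) (nat_lit 331)) (XT.lf (nat_lit 0) (nat_lit 23410037202) (nat_lit 532) (nat_lit 3606635882) (nat_lit 76) (nat_lit 1980011382) (nat_lit 217) (nat_lit 5) (nat_lit 224) (nat_lit 5) (nat_lit 218) (nat_lit 5) (nat_lit 651) (nat_lit 579) (nat_lit 330)))) (XT.nd (nat_lit 78) (nat_lit 456) (nat_lit 0) (XT.lf (nat_lit 0) (nat_lit 376165825) (nat_lit 532) (nat_lit 15516891364) (nat_lit 76) (nat_lit 13452357988) (nat_lit 210) (nat_lit 5) (nat_lit 217) (nat_lit 5) (nat_lit 211) (nat_lit 5) (nat_lit 652) (nat_lit 579)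 (nat_lit 329)) (XT.nd (nat_lit 78) (nat_lit 0) (nat_lit 0) (XT.lf (nat_lit 0) (nat_lit 1944197196) (nat_lit 456) (nat_lit 4472958095) (nat_lit 532) (nat_lit 23282552277) (nat_lit 204) (nat_lit 5) (nat_lit 210) (nat_lit 5) (nat_lit 211) (nat_lit 5) (nat_lit 653) (nat_lit 579) (nat_lit 328)) (XT.lf (nat_lit 0) (nat_lit 12727063696) (nat_lit 532) (nat_lit 10146245796) (nat_lit 76) (nat_lit 7184814453) (nat_lit 204) (nat_lit 5) (nat_lit 211) (nat_lit 5) (nat_lit 205) (nat_lit 5) (nat_lit 654) (nat_lit 579) (nat_lit 327))))))))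
noncomputable def xc183 : XT := (XT.nd (nat_lit 76362) (nat_lit 0) (nat_lit 17328) (XT.nd (nat_lit 75582) (nat_lit 0) (nat_lit 24016) (XT.nd (nat_lit 390) (nat_lit 380) (nat_lit 0) (XT.nd (nat_lit 156) (nat_lit 912) (nat_lit 0) (XT.nd (nat_lit 78) (nat_lit 0) (nat_lit 0) (XT.lf (nat_lit 0) (nat_lit 7884272113) (nat_lit 456) (nat_lit 11356469806) (nat_lit 532) (nat_lit 11181415420) (nat_lit 198) (nat_lit 5) (nat_lit 204) (nat_lit 5) (nat_lit 205) (nat_lit 5) (nat_lit 655) (nat_lit 579) (nat_lit 326)) (XT.lf (nat_lit 0) (nat_lit 25952551038) (nat_lit 532) (nat_lit 4386898930) (nat_lit 76) (nat_lit 452664404) (nat_lit 198) (nat_lit 5) (nat_lit 205) (nat_lit 5) (nat_lit 199) (nat_lit 5) (nat_lit 656) (nat_lit 579) (nat_lit 325))) (XT.nd (nat_lit 78) (nat_lit 456) (nat_lit 0) (XT.lf (nat_lit 0) (nat_lit 1773319293) (nat_lit 456) (nat_lit 16943912684) (nat_lit 76) (nat_lit 12448715939) (nat_lit 192) (nat_lit 5) (nat_lit 198) (nat_lit 5) (nat_lit 193) (nat_lit 5) (nat_lit 657) (nat_lit 579) (nat_lit 324)) (XT.nd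 (nat_lit 78) (nat_lit 0) (nat_lit 0) (XT.lf (nat_lit 0) (nat_lit 1701357362) (nat_lit 456) (nat_lit 6789897956) (nat_lit 532) (nat_lit 23054611186) (nat_lit 186) (nat_lit 5) (nat_lit 192) (nat_lit 5) (nat_lit 193) (nat_lit 5) (nat_lit 658) (nat_lit 579) (nat_lit 323)) (XT.lf (nat_lit 0) (nat_lit 15489789073) (nat_lit 532) (nat_lit 11022232211) (nat_lit 76) (nat_lit 5418437509) (nat_lit 186) (nat_lit 5) (nat_lit 193) (nat_lit 5) (nat_lit 187) (nat_lit 5) (nat_lit 659) (nat_lit 579) (nat_lit 322))))) (XT.nd (nat_lit 74958) (nat_lit 0) (nat_lit 23940) (XT.nd (nat_lit 78) (nat_lit 0) (nat_lit 0) (XT.lf (nat_lit 0) (nat_lit 8234941130) (nat_lit 380) (nat_lit 14488725471) (nat_lit 456) (nat_lit 9597168971) (nat_lit 181) (nat_lit 5) (nat_lit 186) (nat_lit 5) (nat_lit 187) (nat_lit 5) (nat_lit 660) (nat_lit 579) (nat_lit 321)) (XT.lf (nat_lit 0) (nat_lit 28022111717) (nat_lit 380) (nat_lit 2151045552) (nat_lit 456) (nat_lit 2544444012) (nat_lit 181) (nat_lit 5) (nat_lit 186) (nat_lit 5) (nat_lit 187) (nat_lit 5)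 (nat_lit 661) (nat_lit 579) (nat_lit 320))) (XT.nd (nat_lit 78) (nat_lit 0) (nat_lit 0) (XT.lf (nat_lit 0) (nat_lit 901701143) (nat_lit 0) (nat_lit 901701143) (nat_lit 1748) (nat_lit 4983646893) (nat_lit 496) (nat_lit 5) (nat_lit 496) (nat_lit 3) (nat_lit 519) (nat_lit 3) (nat_lit 580) (nat_lit 580) (nat_lit 400)) (XT.nd (nat_lit 78) (nat_lit 0) (nat_lit 0) (XT.lf (nat_lit 0) (nat_lit 4041199256) (nat_lit 1748) (nat_lit 5065428710) (nat_lit 1824) (nat_lit 4595221922) (nat_lit 496) (nat_lit 5) (nat_lit 519) (nat_lit 3) (nat_lit 520) (nat_lit 5) (nat_lit 581) (nat_lit 580) (nat_lit 399)) (XT.lf (nat_lit 76) (nat_lit 1780297175) (nat_lit 0) (nat_lit 2717862671) (nat_lit 1824) (nat_lit 9333719642) (nat_lit 497) (nat_lit 5) (nat_lit 496) (nat_lit 5) (nat_lit 520) (nat_lit 5) (nat_lit 582) (nat_lit 580) (nat_lit 398)))))) (XT.nd (nat_lit 390) (nat_lit 0) (nat_lit 152) (XT.nd (nat_lit 156) (nat_lit 0) (nat_lit 76) (XT.nd (nat_lit 78) (nat_lit 0) (nat_lit 0) (XT.lf (nat_lit 0) (nat_lit 5013701067) (nat_lit 1748)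 (nat_lit 5162355964) (nat_lit 1824) (nat_lit 3787464410) (nat_lit 497) (nat_lit 5) (nat_lit 520) (nat_lit 5) (nat_lit 521) (nat_lit 5) (nat_lit 583) (nat_lit 580) (nat_lit 397)) (XT.lf (nat_lit 76) (nat_lit 1865993100) (nat_lit 0) (nat_lit 3694420523) (nat_lit 1824) (nat_lit 8536965978) (nat_lit 498) (nat_lit 5) (nat_lit 497) (nat_lit 5) (nat_lit 521) (nat_lit 5) (nat_lit 584) (nat_lit 580) (nat_lit 396))) (XT.nd (nat_lit 78) (nat_lit 0) (nat_lit 0) (XT.lf (nat_lit 0) (nat_lit 6162790566) (nat_lit 1748) (nat_lit 5152813819) (nat_lit 1824) (nat_lit 2917416503) (nat_lit 498) (nat_lit 5) (nat_lit 521) (nat_lit 5) (nat_lit 522) (nat_lit 5) (nat_lit 585) (nat_lit 580) (nat_lit 395)) (XT.nd (nat_lit 78) (nat_lit 0) (nat_lit 76) (XT.lf (nat_lit 76) (nat_lit 2064737038) (nat_lit 0) (nat_lit 4741448516) (nat_lit 1824) (nat_lit 7564610592) (nat_lit 499) (nat_lit 5) (nat_lit 498) (nat_lit 5) (nat_lit 522) (nat_lit 5) (nat_lit 586) (nat_lit 580) (nat_lit 394)) (XT.lf (nat_lit 0) (nat_lit 7501271118) (nat_lit 1748)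 (nat_lit 5032501627) (nat_lit 1824) (nat_lit 1976778255) (nat_lit 499) (nat_lit 5) (nat_lit 522) (nat_lit 5) (nat_lit 523) (nat_lit 5) (nat_lit 587) (nat_lit 580) (nat_lit 393))))) (XT.nd (nat_lit 156) (nat_lit 0) (nat_lit 76) (XT.nd (nat_lit 78) (nat_lit 0) (nat_lit 76) (XT.lf (nat_lit 76) (nat_lit 2381089295) (nat_lit 0) (nat_lit 5867463110) (nat_lit 1824) (nat_lit 6403783199) (nat_lit 500) (nat_lit 5) (nat_lit 499) (nat_lit 5) (nat_lit 523) (nat_lit 5) (nat_lit 588) (nat_lit 580) (nat_lit 392)) (XT.lf (nat_lit 0) (nat_lit 9042414842) (nat_lit 1748) (nat_lit 4796808599) (nat_lit 1824) (nat_lit 957100273) (nat_lit 500) (nat_lit 5) (nat_lit 523) (nat_lit 5) (nat_lit 524) (nat_lit 5) (nat_lit 589) (nat_lit 580) (nat_lit 391))) (XT.nd (nat_lit 78) (nat_lit 0) (nat_lit 0) (XT.lf (nat_lit 76) (nat_lit 2819929571) (nat_lit 0) (nat_lit 7081144961) (nat_lit 1824) (nat_lit 5041139168) (nat_lit 501) (nat_lit 5) (nat_lit 500) (nat_lit 5) (nat_lit 524) (nat_lit 5) (nat_lit 590) (nat_lit 580) (nat_lit 390)) (XT.nd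 (nat_lit 78) (nat_lit 0) (nat_lit 76) (XT.lf (nat_lit 76) (nat_lit 10648744669) (nat_lit 0) (nat_lit 152233049) (nat_lit 1824) (nat_lit 4289562864) (nat_lit 501) (nat_lit 5) (nat_lit 500) (nat_lit 5) (nat_lit 524) (nat_lit 5) (nat_lit 591) (nat_lit 580) (nat_lit 389)) (XT.lf (nat_lit 76) (nat_lit 3386463640) (nat_lit 0) (nat_lit 8391359387) (nat_lit 1824) (nat_lit 3462832587) (nat_lit 502) (nat_lit 5) (nat_lit 501) (nat_lit 5) (nat_lit 525) (nat_lit 5) (nat_lit 592) (nat_lit 580) (nat_lit 388))))))) (XT.nd (nat_lit 780) (nat_lit 5320) (nat_lit 0) (XT.nd (nat_lit 390) (nat_lit 0) (nat_lit 76) (XT.nd (nat_lit 156) (nat_lit 1672) (nat_lit 0) (XT.nd (nat_lit 78) (nat_lit 0) (nat_lit 76) (XT.lf (nat_lit 76) (nat_lit 11425157687) (nat_lit 0) (nat_lit 1372035513) (nat_lit 1824) (nat_lit 2596120470) (nat_lit 502) (nat_lit 5) (nat_lit 501) (nat_lit 5) (nat_lit 525) (nat_lit 5) (nat_lit 593) (nat_lit 580) (nat_lit 387)) (XT.lf (nat_lit 76) (nat_lit 4086230660) (nat_lit 0) (nat_lit 9807176963) (nat_lit 1824) (nat_lit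 1654488602) (nat_lit 503) (nat_lit 5) (nat_lit 502) (nat_lit 5) (nat_lit 526) (nat_lit 5) (nat_lit 594) (nat_lit 580) (nat_lit 386))) (XT.nd (nat_lit 78) (nat_lit 1748) (nat_lit 0) (XT.lf (nat_lit 76) (nat_lit 12340938487) (nat_lit 0) (nat_lit 2698727007) (nat_lit 1824) (nat_lit 665343019) (nat_lit 503) (nat_lit 5) (nat_lit 502) (nat_lit 5) (nat_lit 526) (nat_lit 5) (nat_lit 595) (nat_lit 580) (nat_lit 385)) (XT.nd (nat_lit 78) (nat_lit 0) (nat_lit 0) (XT.lf (nat_lit 0) (nat_lit 393594359) (nat_lit 1824) (nat_lit 10941658690) (nat_lit 1900) (nat_lit 4528875526) (nat_lit 479) (nat_lit 5) (nat_lit 503) (nat_lit 5) (nat_lit 504) (nat_lit 5) (nat_lit 596) (nat_lit 580) (nat_lit 384)) (XT.lf (nat_lit 0) (nat_lit 1498093465) (nat_lit 1824) (nat_lit 2633534389) (nat_lit 1900) (nat_lit 11894049827) (nat_lit 479) (nat_lit 5) (nat_lit 503) (nat_lit 5) (nat_lit 504) (nat_lit 5) (nat_lit 597) (nat_lit 580) (nat_lit 383))))) (XT.nd (nat_lit 156) (nat_lit 0) (nat_lit 76) (XT.nd (nat_lit 78) (nat_lit 0) (nat_lit 0) (XT.lf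 (nat_lit 0) (nat_lit 2677050570) (nat_lit 1824) (nat_lit 10298039906) (nat_lit 1900) (nat_lit 3214320362) (nat_lit 480) (nat_lit 5) (nat_lit 504) (nat_lit 5) (nat_lit 505) (nat_lit 5) (nat_lit 598) (nat_lit 580) (nat_lit 382)) (XT.lf (nat_lit 0) (nat_lit 3917685753) (nat_lit 1824) (nat_lit 1766550077) (nat_lit 1900) (nat_lit 10671421271) (nat_lit 480) (nat_lit 5) (nat_lit 504) (nat_lit 5) (nat_lit 505) (nat_lit 5) (nat_lit 599) (nat_lit 580) (nat_lit 381))) (XT.nd (nat_lit 78) (nat_lit 0) (nat_lit 0) (XT.lf (nat_lit 0) (nat_lit 5233502989) (nat_lit 1824) (nat_lit 9513848058) (nat_lit 1900) (nat_lit 1776870266) (nat_lit 481) (nat_lit 5) (nat_lit 505) (nat_lit 5) (nat_lit 506) (nat_lit 5) (nat_lit 600) (nat_lit 580) (nat_lit 380)) (XT.nd (nat_lit 78) (nat_lit 0) (nat_lit 76) (XT.lf (nat_lit 0) (nat_lit 6618410022) (nat_lit 1824) (nat_lit 752343232) (nat_lit 1900) (nat_lit 9324548492) (nat_lit 481) (nat_lit 5) (nat_lit 505) (nat_lit 5) (nat_lit 506) (nat_lit 5) (nat_lit 601) (nat_lit 580) (nat_lit 379)) (XT.lf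 (nat_lit 0) (nat_lit 8079515025) (nat_lit 1824) (nat_lit 8582510136) (nat_lit 1900) (nat_lit 206809027) (nat_lit 482) (nat_lit 5) (nat_lit 506) (nat_lit 5) (nat_lit 507) (nat_lit 5) (nat_lit 602) (nat_lit 580) (nat_lit 378)))))) (XT.nd (nat_lit 390) (nat_lit 2736) (nat_lit 0) (XT.nd (nat_lit 156) (nat_lit 2812) (nat_lit 0) (XT.nd (nat_lit 78) (nat_lit 0) (nat_lit 0) (XT.lf (nat_lit 76) (nat_lit 421428126) (nat_lit 0) (nat_lit 9198479238) (nat_lit 1900) (nat_lit 7424928999) (nat_lit 483) (nat_lit 5) (nat_lit 482) (nat_lit 5) (nat_lit 507) (nat_lit 5) (nat_lit 603) (nat_lit 580) (nat_lit 377)) (XT.lf (nat_lit 76) (nat_lit 9716340188) (nat_lit 0) (nat_lit 1525887981) (nat_lit 1900) (nat_lit 5981108381) (nat_lit 483) (nat_lit 5) (nat_lit 482) (nat_lit 5) (nat_lit 507) (nat_lit 5) (nat_lit 604) (nat_lit 580) (nat_lit 376))) (XT.nd (nat_lit 78) (nat_lit 1064) (nat_lit 0) (XT.lf (nat_lit 0) (nat_lit 1768563736) (nat_lit 1824) (nat_lit 11174480055) (nat_lit 1900) (nat_lit 4461442356) (nat_lit 459) (nat_lit 5) (nat_lit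 483) (nat_lit 5) (nat_lit 484) (nat_lit 5) (nat_lit 605) (nat_lit 580) (nat_lit 375)) (XT.nd (nat_lit 78) (nat_lit 1064) (nat_lit 0) (XT.lf (nat_lit 0) (nat_lit 11315720567) (nat_lit 1824) (nat_lit 3416319729) (nat_lit 1900) (nat_lit 2856135515) (nat_lit 459) (nat_lit 5) (nat_lit 483) (nat_lit 5) (nat_lit 484) (nat_lit 5) (nat_lit 606) (nat_lit 580) (nat_lit 374)) (XT.lf (nat_lit 0) (nat_lit 3286734023) (nat_lit 1064) (nat_lit 13314497578) (nat_lit 1140) (nat_lit 1173419730) (nat_lit 445) (nat_lit 5) (nat_lit 459) (nat_lit 5) (nat_lit 460) (nat_lit 5) (nat_lit 607) (nat_lit 580) (nat_lit 373))))) (XT.nd (nat_lit 234) (nat_lit 1748) (nat_lit 0) (XT.nd (nat_lit 78) (nat_lit 912) (nat_lit 0) (XT.lf (nat_lit 0) (nat_lit 594746546) (nat_lit 1140) (nat_lit 4873812293) (nat_lit 76) (nat_lit 12495049020) (nat_lit 444) (nat_lit 5) (nat_lit 459) (nat_lit 5) (nat_lit 445) (nat_lit 5) (nat_lit 608) (nat_lit 580) (nat_lit 372)) (XT.nd (nat_lit 78) (nat_lit 0) (nat_lit 0) (XT.lf (nat_lit 0) (nat_lit 2425708484) (nat_lit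 988) (nat_lit 13187597108) (nat_lit 76) (nat_lit 2542020252) (nat_lit 432) (nat_lit 5) (nat_lit 445) (nat_lit 5) (nat_lit 433) (nat_lit 5) (nat_lit 609) (nat_lit 580) (nat_lit 371)) (XT.lf (nat_lit 0) (nat_lit 4356554519) (nat_lit 988) (nat_lit 3319968821) (nat_lit 76) (nat_lit 10673089882) (nat_lit 432) (nat_lit 5) (nat_lit 445) (nat_lit 5) (nat_lit 433) (nat_lit 5) (nat_lit 610) (nat_lit 580) (nat_lit 370)))) (XT.nd (nat_lit 78) (nat_lit 836) (nat_lit 0) (XT.lf (nat_lit 0) (nat_lit 6367615714) (nat_lit 988) (nat_lit 11720824773) (nat_lit 76) (nat_lit 458514221) (nat_lit 420) (nat_lit 5) (nat_lit 433) (nat_lit 5) (nat_lit 421) (nat_lit 5) (nat_lit 611) (nat_lit 580) (nat_lit 369)) (XT.nd (nat_lit 78) (nat_lit 836) (nat_lit 0) (XT.lf (nat_lit 0) (nat_lit 8486484762) (nat_lit 988) (nat_lit 1584081480) (nat_lit 76) (nat_lit 8676325370) (nat_lit 420) (nat_lit 5) (nat_lit 433) (nat_lit 5) (nat_lit 421) (nat_lit 5) (nat_lit 612) (nat_lit 580) (nat_lit 368)) (XT.lf (nat_lit 0) (nat_lit 8866334857) (nat_lit 836)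 (nat_lit 1833396229) (nat_lit 912) (nat_lit 8250056481) (nat_lit 409) (nat_lit 5) (nat_lit 420) (nat_lit 5) (nat_lit 421) (nat_lit 5) (nat_lit 613) (nat_lit 580) (nat_lit 367))))))))
noncomputable def xc184 : XT := (XT.nd (nat_lit 1560) (nat_lit 6764) (nat_lit 0) (XT.nd (nat_lit 780) (nat_lit 3572) (nat_lit 0) (XT.nd (nat_lit 390) (nat_lit 2204) (nat_lit 0) (XT.nd (nat_lit 156) (nat_lit 1748) (nat_lit 0) (XT.nd (nat_lit 78) (nat_lit 0) (nat_lit 0) (XT.lf (nat_lit 0) (nat_lit 347116703) (nat_lit 836) (nat_lit 12660236547) (nat_lit 912) (nat_lit 6148386281) (nat_lit 398) (nat_lit 5) (nat_lit 409) (nat_lit 5) (nat_lit 410) (nat_lit 5) (nat_lit 614) (nat_lit 580) (nat_lit 366)) (XT.lf (nat_lit 0) (nat_lit 11105292431) (nat_lit 836) (nat_lit 4330144816) (nat_lit 912) (nat_lit 3928887400) (nat_lit 398) (nat_lit 5) (nat_lit 409) (nat_lit 5) (nat_lit 410) (nat_lit 5) (nat_lit 615) (nat_lit 580) (nat_lit 365))) (XT.nd (nat_lit 78) (nat_lit 912) (nat_lit 0) (XT.lf (nat_lit 0) (nat_lit 2501924398) (nat_lit 836) (nat_lit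 15448143406) (nat_lit 912) (nat_lit 1626254258) (nat_lit 387) (nat_lit 5) (nat_lit 398) (nat_lit 5) (nat_lit 399) (nat_lit 5) (nat_lit 616) (nat_lit 580) (nat_lit 364)) (XT.nd (nat_lit 78) (nat_lit 836) (nat_lit 0) (XT.lf (nat_lit 0) (nat_lit 792145798) (nat_lit 912) (nat_lit 6240553441) (nat_lit 76) (nat_lit 12758182878) (nat_lit 386) (nat_lit 5) (nat_lit 398) (nat_lit 5) (nat_lit 387) (nat_lit 5) (nat_lit 617) (nat_lit 580) (nat_lit 363)) (XT.lf (nat_lit 0) (nat_lit 3273873696) (nat_lit 912) (nat_lit 15161750398) (nat_lit 76) (nat_lit 1573159858) (nat_lit 375) (nat_lit 5) (nat_lit 387) (nat_lit 5) (nat_lit 376) (nat_lit 5) (nat_lit 618) (nat_lit 580) (nat_lit 362))))) (XT.nd (nat_lit 156) (nat_lit 1444) (nat_lit 0) (XT.nd (nat_lit 78) (nat_lit 760) (nat_lit 0) (XT.lf (nat_lit 0) (nat_lit 5888857667) (nat_lit 912) (nat_lit 4041475091) (nat_lit 76) (nat_lit 10299038909) (nat_lit 375) (nat_lit 5) (nat_lit 387) (nat_lit 5) (nat_lit 376) (nat_lit 5) (nat_lit 619) (nat_lit 580) (nat_lit 361)) (XT.lf (nat_lit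 0) (nat_lit 7392888362) (nat_lit 760) (nat_lit 1206245251) (nat_lit 836) (nat_lit 11854377943) (nat_lit 365) (nat_lit 5) (nat_lit 375) (nat_lit 5) (nat_lit 376) (nat_lit 5) (nat_lit 620) (nat_lit 580) (nat_lit 360))) (XT.nd (nat_lit 78) (nat_lit 1444) (nat_lit 0) (XT.lf (nat_lit 0) (nat_lit 11435913749) (nat_lit 836) (nat_lit 1626331660) (nat_lit 76) (nat_lit 7618443123) (nat_lit 365) (nat_lit 5) (nat_lit 376) (nat_lit 5) (nat_lit 366) (nat_lit 5) (nat_lit 621) (nat_lit 580) (nat_lit 359)) (XT.nd (nat_lit 78) (nat_lit 684) (nat_lit 0) (XT.lf (nat_lit 0) (nat_lit 10156629136) (nat_lit 760) (nat_lit 4241884235) (nat_lit 836) (nat_lit 6512514254) (nat_lit 355) (nat_lit 5) (nat_lit 365) (nat_lit 5) (nat_lit 366) (nat_lit 5) (nat_lit 622) (nat_lit 580) (nat_lit 358)) (XT.lf (nat_lit 0) (nat_lit 1028794886) (nat_lit 684) (nat_lit 16435317948) (nat_lit 760) (nat_lit 3680985962) (nat_lit 346) (nat_lit 5) (nat_lit 355) (nat_lit 5) (nat_lit 356) (nat_lit 5) (nat_lit 623) (nat_lit 580) (nat_lit 357)))))) (XT.nd (nat_lit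 390) (nat_lit 2052) (nat_lit 0) (XT.nd (nat_lit 156) (nat_lit 684) (nat_lit 0) (XT.nd (nat_lit 78) (nat_lit 836) (nat_lit 0) (XT.lf (nat_lit 0) (nat_lit 13159707302) (nat_lit 684) (nat_lit 7526662112) (nat_lit 760) (nat_lit 695575321) (nat_lit 346) (nat_lit 5) (nat_lit 355) (nat_lit 5) (nat_lit 356) (nat_lit 5) (nat_lit 624) (nat_lit 580) (nat_lit 356)) (XT.lf (nat_lit 0) (nat_lit 2350044599) (nat_lit 836) (nat_lit 17692276811) (nat_lit 76) (nat_lit 1580275007) (nat_lit 335) (nat_lit 5) (nat_lit 346) (nat_lit 5) (nat_lit 336) (nat_lit 5) (nat_lit 625) (nat_lit 580) (nat_lit 355))) (XT.nd (nat_lit 78) (nat_lit 684) (nat_lit 0) (XT.lf (nat_lit 0) (nat_lit 5548044524) (nat_lit 836) (nat_lit 5489664356) (nat_lit 76) (nat_lit 10828244903) (nat_lit 335) (nat_lit 5) (nat_lit 346) (nat_lit 5) (nat_lit 336) (nat_lit 5) (nat_lit 626) (nat_lit 580) (nat_lit 354)) (XT.nd (nat_lit 78) (nat_lit 0) (nat_lit 0) (XT.lf (nat_lit 0) (nat_lit 7044218093) (nat_lit 684) (nat_lit 1806998823) (nat_lit 760) (nat_lit 13262137360)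 (nat_lit 326) (nat_lit 5) (nat_lit 335) (nat_lit 5) (nat_lit 336) (nat_lit 5) (nat_lit 627) (nat_lit 580) (nat_lit 353)) (XT.lf (nat_lit 0) (nat_lit 12302461313) (nat_lit 760) (nat_lit 2516635921) (nat_lit 76) (nat_lit 7544965597) (nat_lit 326) (nat_lit 5) (nat_lit 336) (nat_lit 5) (nat_lit 327) (nat_lit 5) (nat_lit 628) (nat_lit 580) (nat_lit 352))))) (XT.nd (nat_lit 156) (nat_lit 760) (nat_lit 0) (XT.nd (nat_lit 78) (nat_lit 608) (nat_lit 0) (XT.lf (nat_lit 0) (nat_lit 10406310759) (nat_lit 684) (nat_lit 5491566841) (nat_lit 760) (nat_lit 6720405236) (nat_lit 317) (nat_lit 5) (nat_lit 326) (nat_lit 5) (nat_lit 327) (nat_lit 5) (nat_lit 629) (nat_lit 580) (nat_lit 351)) (XT.lf (nat_lit 0) (nat_lit 722664110) (nat_lit 608) (nat_lit 18886010273) (nat_lit 684) (nat_lit 3268043629) (nat_lit 309) (nat_lit 5) (nat_lit 317) (nat_lit 5) (nat_lit 318) (nat_lit 5) (nat_lit 630) (nat_lit 580) (nat_lit 350))) (XT.nd (nat_lit 78) (nat_lit 684) (nat_lit 0) (XT.lf (nat_lit 0) (nat_lit 364588399) (nat_lit 684) (nat_lit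 9100898298) (nat_lit 76) (nat_lit 13672511578) (nat_lit 308) (nat_lit 5) (nat_lit 317) (nat_lit 5) (nat_lit 309) (nat_lit 5) (nat_lit 631) (nat_lit 580) (nat_lit 349)) (XT.nd (nat_lit 78) (nat_lit 0) (nat_lit 0) (XT.lf (nat_lit 0) (nat_lit 4050720977) (nat_lit 760) (nat_lit 19162628828) (nat_lit 76) (nat_lit 190230366) (nat_lit 299) (nat_lit 5) (nat_lit 309) (nat_lit 5) (nat_lit 300) (nat_lit 5) (nat_lit 632) (nat_lit 580) (nat_lit 348)) (XT.lf (nat_lit 0) (nat_lit 7930553471) (nat_lit 760) (nat_lit 5768471064) (nat_lit 76) (nat_lit 9973049822) (nat_lit 299) (nat_lit 5) (nat_lit 309) (nat_lit 5) (nat_lit 300) (nat_lit 5) (nat_lit 633) (nat_lit 580) (nat_lit 347))))))) (XT.nd (nat_lit 780) (nat_lit 3116) (nat_lit 0) (XT.nd (nat_lit 390) (nat_lit 1748) (nat_lit 0) (XT.nd (nat_lit 156) (nat_lit 1292) (nat_lit 0) (XT.nd (nat_lit 78) (nat_lit 0) (nat_lit 0) (XT.lf (nat_lit 0) (nat_lit 7993372951) (nat_lit 608) (nat_lit 3942405644) (nat_lit 684) (nat_lit 12009204107) (nat_lit 291) (nat_lit 5) (nat_lit 299) (nat_lit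 5) (nat_lit 300) (nat_lit 5) (nat_lit 634) (nat_lit 580) (nat_lit 346)) (XT.lf (nat_lit 0) (nat_lit 16095030268) (nat_lit 684) (nat_lit 2158274518) (nat_lit 76) (nat_lit 5968566177) (nat_lit 291) (nat_lit 5) (nat_lit 300) (nat_lit 5) (nat_lit 292) (nat_lit 5) (nat_lit 635) (nat_lit 580) (nat_lit 345))) (XT.nd (nat_lit 78) (nat_lit 684) (nat_lit 0) (XT.lf (nat_lit 0) (nat_lit 12037721664) (nat_lit 608) (nat_lit 8400030004) (nat_lit 684) (nat_lit 4064539814) (nat_lit 283) (nat_lit 5) (nat_lit 291) (nat_lit 5) (nat_lit 292) (nat_lit 5) (nat_lit 636) (nat_lit 580) (nat_lit 344)) (XT.nd (nat_lit 78) (nat_lit 0) (nat_lit 0) (XT.lf (nat_lit 0) (nat_lit 111008014) (nat_lit 684) (nat_lit 23022191888) (nat_lit 76) (nat_lit 1654449688) (nat_lit 274) (nat_lit 5) (nat_lit 283) (nat_lit 5) (nat_lit 275) (nat_lit 5) (nat_lit 637) (nat_lit 580) (nat_lit 343)) (XT.lf (nat_lit 0) (nat_lit 4451598157) (nat_lit 684) (nat_lit 8716129371) (nat_lit 76) (nat_lit 11907731066) (nat_lit 274) (nat_lit 5) (nat_lit 283) (nat_lit 5)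 (nat_lit 275) (nat_lit 5) (nat_lit 638) (nat_lit 580) (nat_lit 342))))) (XT.nd (nat_lit 156) (nat_lit 1140) (nat_lit 0) (XT.nd (nat_lit 78) (nat_lit 0) (nat_lit 0) (XT.lf (nat_lit 0) (nat_lit 5949144243) (nat_lit 608) (nat_lit 2964636135) (nat_lit 684) (nat_lit 16454547967) (nat_lit 266) (nat_lit 5) (nat_lit 274) (nat_lit 5) (nat_lit 275) (nat_lit 5) (nat_lit 639) (nat_lit 580) (nat_lit 341)) (XT.lf (nat_lit 0) (nat_lit 13568596089) (nat_lit 684) (nat_lit 4693692897) (nat_lit 76) (nat_lit 7402698876) (nat_lit 266) (nat_lit 5) (nat_lit 275) (nat_lit 5) (nat_lit 267) (nat_lit 5) (nat_lit 640) (nat_lit 580) (nat_lit 340))) (XT.nd (nat_lit 78) (nat_lit 608) (nat_lit 0) (XT.lf (nat_lit 0) (nat_lit 10438706911) (nat_lit 532) (nat_lit 7961475173) (nat_lit 608) (nat_lit 7565725173) (nat_lit 259) (nat_lit 5) (nat_lit 266) (nat_lit 5) (nat_lit 267) (nat_lit 5) (nat_lit 641) (nat_lit 580) (nat_lit 339)) (XT.nd (nat_lit 78) (nat_lit 608) (nat_lit 0) (XT.lf (nat_lit 0) (nat_lit 23372931614) (nat_lit 608) (nat_lit 356478743)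 (nat_lit 76) (nat_lit 2542544210) (nat_lit 259) (nat_lit 5) (nat_lit 267) (nat_lit 5) (nat_lit 260) (nat_lit 5) (nat_lit 642) (nat_lit 580) (nat_lit 338)) (XT.lf (nat_lit 0) (nat_lit 1985764169) (nat_lit 608) (nat_lit 11333961954) (nat_lit 76) (nat_lit 13261172028) (nat_lit 251) (nat_lit 5) (nat_lit 259) (nat_lit 5) (nat_lit 252) (nat_lit 5) (nat_lit 643) (nat_lit 580) (nat_lit 337)))))) (XT.nd (nat_lit 390) (nat_lit 1520) (nat_lit 0) (XT.nd (nat_lit 156) (nat_lit 1064) (nat_lit 0) (XT.nd (nat_lit 78) (nat_lit 0) (nat_lit 0) (XT.lf (nat_lit 0) (nat_lit 4303679558) (nat_lit 532) (nat_lit 2652524861) (nat_lit 608) (nat_lit 19938897586) (nat_lit 244) (nat_lit 5) (nat_lit 251) (nat_lit 5) (nat_lit 252) (nat_lit 5) (nat_lit 644) (nat_lit 580) (nat_lit 336)) (XT.lf (nat_lit 0) (nat_lit 12152456169) (nat_lit 608) (nat_lit 6865145521) (nat_lit 76) (nat_lit 8195460342) (nat_lit 244) (nat_lit 5) (nat_lit 252) (nat_lit 5) (nat_lit 245) (nat_lit 5) (nat_lit 645) (nat_lit 580) (nat_lit 335))) (XT.nd (nat_lit 78) (nat_lit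 532) (nat_lit 0) (XT.lf (nat_lit 0) (nat_lit 9274968725) (nat_lit 532) (nat_lit 8251940445) (nat_lit 608) (nat_lit 10008986713) (nat_lit 237) (nat_lit 5) (nat_lit 244) (nat_lit 5) (nat_lit 245) (nat_lit 5) (nat_lit 646) (nat_lit 580) (nat_lit 334)) (XT.nd (nat_lit 78) (nat_lit 532) (nat_lit 0) (XT.lf (nat_lit 0) (nat_lit 23069464226) (nat_lit 608) (nat_lit 2056139459) (nat_lit 76) (nat_lit 2738370611) (nat_lit 237) (nat_lit 5) (nat_lit 245) (nat_lit 5) (nat_lit 238) (nat_lit 5) (nat_lit 647) (nat_lit 580) (nat_lit 333)) (XT.lf (nat_lit 0) (nat_lit 664409819) (nat_lit 532) (nat_lit 13595123207) (nat_lit 76) (nat_lit 13936072724) (nat_lit 230) (nat_lit 5) (nat_lit 237) (nat_lit 5) (nat_lit 231) (nat_lit 5) (nat_lit 648) (nat_lit 580) (nat_lit 332))))) (XT.nd (nat_lit 156) (nat_lit 988) (nat_lit 0) (XT.nd (nat_lit 78) (nat_lit 0) (nat_lit 0) (XT.lf (nat_lit 0) (nat_lit 3088462172) (nat_lit 532) (nat_lit 3110451728) (nat_lit 608) (nat_lit 22333710150) (nat_lit 223) (nat_lit 5) (nat_lit 230) (nat_lit 5) (nat_lit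 231) (nat_lit 5) (nat_lit 649) (nat_lit 580) (nat_lit 331)) (XT.lf (nat_lit 0) (nat_lit 11986212914) (nat_lit 608) (nat_lit 8643540240) (nat_lit 76) (nat_lit 8243787599) (nat_lit 223) (nat_lit 5) (nat_lit 231) (nat_lit 5) (nat_lit 224) (nat_lit 5) (nat_lit 650) (nat_lit 580) (nat_lit 330))) (XT.nd (nat_lit 78) (nat_lit 532) (nat_lit 0) (XT.lf (nat_lit 0) (nat_lit 8580378184) (nat_lit 456) (nat_lit 9381884702) (nat_lit 532) (nat_lit 11257552935) (nat_lit 217) (nat_lit 5) (nat_lit 223) (nat_lit 5) (nat_lit 224) (nat_lit 5) (nat_lit 651) (nat_lit 580) (nat_lit 329)) (XT.nd (nat_lit 78) (nat_lit 532) (nat_lit 0) (XT.lf (nat_lit 0) (nat_lit 24126518933) (nat_lit 532) (nat_lit 3324551775) (nat_lit 76) (nat_lit 2120572109) (nat_lit 217) (nat_lit 5) (nat_lit 224) (nat_lit 5) (nat_lit 218) (nat_lit 5) (nat_lit 652) (nat_lit 580) (nat_lit 328)) (XT.lf (nat_lit 0) (nat_lit 631023093) (nat_lit 532) (nat_lit 15472046460) (nat_lit 76) (nat_lit 13824297907) (nat_lit 210) (nat_lit 5) (nat_lit 217) (nat_lit 5) (nat_lit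 211) (nat_lit 5) (nat_lit 653) (nat_lit 580) (nat_lit 327))))))))
noncomputable def xc185 : XT := (XT.nd (nat_lit 76440) (nat_lit 0) (nat_lit 18164) (XT.nd (nat_lit 75660) (nat_lit 0) (nat_lit 23940) (XT.nd (nat_lit 390) (nat_lit 836) (nat_lit 0) (XT.nd (nat_lit 156) (nat_lit 912) (nat_lit 0) (XT.nd (nat_lit 78) (nat_lit 0) (nat_lit 0) (XT.lf (nat_lit 0) (nat_lit 2335927143) (nat_lit 456) (nat_lit 4454346430) (nat_lit 532) (nat_lit 23498523483) (nat_lit 204) (nat_lit 5) (nat_lit 210) (nat_lit 5) (nat_lit 211) (nat_lit 5) (nat_lit 654) (nat_lit 580) (nat_lit 326)) (XT.lf (nat_lit 0) (nat_lit 13222268542) (nat_lit 532) (nat_lit 9999122675) (nat_lit 76) (nat_lit 7433072956) (nat_lit 204) (nat_lit 5) (nat_lit 211) (nat_lit 5) (nat_lit 205) (nat_lit 5) (nat_lit 655) (nat_lit 580) (nat_lit 325))) (XT.nd (nat_lit 78) (nat_lit 456) (nat_lit 0) (XT.lf (nat_lit 0) (nat_lit 8389702645) (nat_lit 456) (nat_lit 11474056582) (nat_lit 532) (nat_lit 11162068405) (nat_lit 198) (nat_lit 5) (nat_lit 204) (nat_lit 5) (nat_lit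 205) (nat_lit 5) (nat_lit 656) (nat_lit 580) (nat_lit 324)) (XT.nd (nat_lit 78) (nat_lit 456) (nat_lit 0) (XT.lf (nat_lit 0) (nat_lit 26705831170) (nat_lit 532) (nat_lit 4129728360) (nat_lit 76) (nat_lit 567703916) (nat_lit 198) (nat_lit 5) (nat_lit 205) (nat_lit 5) (nat_lit 199) (nat_lit 5) (nat_lit 657) (nat_lit 580) (nat_lit 323)) (XT.lf (nat_lit 0) (nat_lit 2042190560) (nat_lit 456) (nat_lit 16937041401) (nat_lit 76) (nat_lit 12805358522) (nat_lit 192) (nat_lit 5) (nat_lit 198) (nat_lit 5) (nat_lit 193) (nat_lit 5) (nat_lit 658) (nat_lit 580) (nat_lit 322))))) (XT.nd (nat_lit 156) (nat_lit 380) (nat_lit 0) (XT.nd (nat_lit 78) (nat_lit 0) (nat_lit 0) (XT.lf (nat_lit 0) (nat_lit 2078859379) (nat_lit 456) (nat_lit 6813279427) (nat_lit 532) (nat_lit 23280015728) (nat_lit 186) (nat_lit 5) (nat_lit 192) (nat_lit 5) (nat_lit 193) (nat_lit 5) (nat_lit 659) (nat_lit 580) (nat_lit 321)) (XT.lf (nat_lit 0) (nat_lit 16026828249) (nat_lit 532) (nat_lit 10902113829) (nat_lit 76) (nat_lit 5635573049) (nat_lit 186)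 (nat_lit 5) (nat_lit 193) (nat_lit 5) (nat_lit 187) (nat_lit 5) (nat_lit 660) (nat_lit 580) (nat_lit 320))) (XT.nd (nat_lit 74958) (nat_lit 0) (nat_lit 23940) (XT.lf (nat_lit 0) (nat_lit 8737962433) (nat_lit 380) (nat_lit 14665161757) (nat_lit 456) (nat_lit 9559620591) (nat_lit 181) (nat_lit 5) (nat_lit 186) (nat_lit 5) (nat_lit 187) (nat_lit 5) (nat_lit 661) (nat_lit 580) (nat_lit 319)) (XT.nd (nat_lit 78) (nat_lit 0) (nat_lit 0) (XT.lf (nat_lit 0) (nat_lit 1102587665) (nat_lit 0) (nat_lit 1102587665) (nat_lit 1748) (nat_lit 4710277960) (nat_lit 496) (nat_lit 5) (nat_lit 496) (nat_lit 3) (nat_lit 519) (nat_lit 3) (nat_lit 581) (nat_lit 581) (nat_lit 398)) (XT.lf (nat_lit 0) (nat_lit 4836764022) (nat_lit 1748) (nat_lit 4791489103) (nat_lit 1824) (nat_lit 4333294291) (nat_lit 496) (nat_lit 5) (nat_lit 519) (nat_lit 3) (nat_lit 520) (nat_lit 5) (nat_lit 582) (nat_lit 581) (nat_lit 397)))))) (XT.nd (nat_lit 390) (nat_lit 0) (nat_lit 228) (XT.nd (nat_lit 156) (nat_lit 0) (nat_lit 76) (XT.nd (nat_lit 78) (nat_lit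 0) (nat_lit 76) (XT.lf (nat_lit 76) (nat_lit 2188682561) (nat_lit 0) (nat_lit 3102587069) (nat_lit 1824) (nat_lit 8803140738) (nat_lit 497) (nat_lit 5) (nat_lit 496) (nat_lit 5) (nat_lit 520) (nat_lit 5) (nat_lit 583) (nat_lit 581) (nat_lit 396)) (XT.lf (nat_lit 0) (nat_lit 5801231583) (nat_lit 1748) (nat_lit 4884200028) (nat_lit 1824) (nat_lit 3543572208) (nat_lit 497) (nat_lit 5) (nat_lit 520) (nat_lit 5) (nat_lit 521) (nat_lit 5) (nat_lit 584) (nat_lit 581) (nat_lit 395))) (XT.nd (nat_lit 78) (nat_lit 0) (nat_lit 76) (XT.lf (nat_lit 76) (nat_lit 2282206786) (nat_lit 0) (nat_lit 4065656016) (nat_lit 1824) (nat_lit 8017897494) (nat_lit 498) (nat_lit 5) (nat_lit 497) (nat_lit 5) (nat_lit 521) (nat_lit 5) (nat_lit 585) (nat_lit 581) (nat_lit 394)) (XT.nd (nat_lit 78) (nat_lit 0) (nat_lit 0) (XT.lf (nat_lit 0) (nat_lit 6947134938) (nat_lit 1748) (nat_lit 4869211962) (nat_lit 1824) (nat_lit 2688071381) (nat_lit 498) (nat_lit 5) (nat_lit 521) (nat_lit 5) (nat_lit 522) (nat_lit 5) (nat_lit 586) (nat_lit 581)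 (nat_lit 393)) (XT.lf (nat_lit 76) (nat_lit 2490146108) (nat_lit 0) (nat_lit 5102783122) (nat_lit 1824) (nat_lit 7052229994) (nat_lit 499) (nat_lit 5) (nat_lit 498) (nat_lit 5) (nat_lit 522) (nat_lit 5) (nat_lit 587) (nat_lit 581) (nat_lit 392))))) (XT.nd (nat_lit 156) (nat_lit 0) (nat_lit 76) (XT.nd (nat_lit 78) (nat_lit 0) (nat_lit 0) (XT.lf (nat_lit 0) (nat_lit 8287462848) (nat_lit 1748) (nat_lit 4742075674) (nat_lit 1824) (nat_lit 1758460520) (nat_lit 499) (nat_lit 5) (nat_lit 522) (nat_lit 5) (nat_lit 523) (nat_lit 5) (nat_lit 588) (nat_lit 581) (nat_lit 391)) (XT.lf (nat_lit 76) (nat_lit 2817214198) (nat_lit 0) (nat_lit 6222524134) (nat_lit 1824) (nat_lit 5893080812) (nat_lit 500) (nat_lit 5) (nat_lit 499) (nat_lit 5) (nat_lit 523) (nat_lit 5) (nat_lit 589) (nat_lit 581) (nat_lit 390))) (XT.nd (nat_lit 78) (nat_lit 0) (nat_lit 0) (XT.lf (nat_lit 0) (nat_lit 9835686174) (nat_lit 1748) (nat_lit 4498029407) (nat_lit 1824) (nat_lit 746248035) (nat_lit 500) (nat_lit 5) (nat_lit 523) (nat_lit 5) (nat_lit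 524) (nat_lit 5) (nat_lit 590) (nat_lit 581) (nat_lit 389)) (XT.nd (nat_lit 78) (nat_lit 0) (nat_lit 0) (XT.lf (nat_lit 76) (nat_lit 3268446715) (nat_lit 0) (nat_lit 7433609942) (nat_lit 1824) (nat_lit 4526904739) (nat_lit 501) (nat_lit 5) (nat_lit 500) (nat_lit 5) (nat_lit 524) (nat_lit 5) (nat_lit 591) (nat_lit 581) (nat_lit 388)) (XT.lf (nat_lit 76) (nat_lit 11246149516) (nat_lit 0) (nat_lit 361985633) (nat_lit 1824) (nat_lit 3772356855) (nat_lit 501) (nat_lit 5) (nat_lit 500) (nat_lit 5) (nat_lit 524) (nat_lit 5) (nat_lit 592) (nat_lit 581) (nat_lit 387))))))) (XT.nd (nat_lit 780) (nat_lit 4484) (nat_lit 0) (XT.nd (nat_lit 390) (nat_lit 0) (nat_lit 0) (XT.nd (nat_lit 156) (nat_lit 1672) (nat_lit 0) (XT.nd (nat_lit 78) (nat_lit 0) (nat_lit 0) (XT.lf (nat_lit 76) (nat_lit 3849208344) (nat_lit 0) (nat_lit 8744967013) (nat_lit 1824) (nat_lit 2939641537) (nat_lit 502) (nat_lit 5) (nat_lit 501) (nat_lit 5) (nat_lit 525) (nat_lit 5) (nat_lit 593) (nat_lit 581) (nat_lit 386)) (XT.lf (nat_lit 76) (nat_lit 12040930872)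 (nat_lit 0) (nat_lit 1581613908) (nat_lit 1824) (nat_lit 2067211799) (nat_lit 502) (nat_lit 5) (nat_lit 501) (nat_lit 5) (nat_lit 525) (nat_lit 5) (nat_lit 594) (nat_lit 581) (nat_lit 385))) (XT.nd (nat_lit 78) (nat_lit 1748) (nat_lit 0) (XT.lf (nat_lit 76) (nat_lit 4565200465) (nat_lit 0) (nat_lit 10165737978) (nat_lit 1824) (nat_lit 1116687934) (nat_lit 503) (nat_lit 5) (nat_lit 502) (nat_lit 5) (nat_lit 526) (nat_lit 5) (nat_lit 595) (nat_lit 581) (nat_lit 384)) (XT.nd (nat_lit 78) (nat_lit 1748) (nat_lit 0) (XT.lf (nat_lit 76) (nat_lit 12977213326) (nat_lit 0) (nat_lit 2911934366) (nat_lit 1824) (nat_lit 118953370) (nat_lit 503) (nat_lit 5) (nat_lit 502) (nat_lit 5) (nat_lit 526) (nat_lit 5) (nat_lit 596) (nat_lit 581) (nat_lit 383)) (XT.lf (nat_lit 0) (nat_lit 944578228) (nat_lit 1824) (nat_lit 10754385560) (nat_lit 1900) (nat_lit 4471552591) (nat_lit 479) (nat_lit 5) (nat_lit 503) (nat_lit 5) (nat_lit 504) (nat_lit 5) (nat_lit 597) (nat_lit 581) (nat_lit 382))))) (XT.nd (nat_lit 156) (nat_lit 0) (nat_lit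 76) (XT.nd (nat_lit 78) (nat_lit 0) (nat_lit 76) (XT.lf (nat_lit 0) (nat_lit 2060518062) (nat_lit 1824) (nat_lit 2288061641) (nat_lit 1900) (nat_lit 11986930387) (nat_lit 479) (nat_lit 5) (nat_lit 503) (nat_lit 5) (nat_lit 504) (nat_lit 5) (nat_lit 598) (nat_lit 581) (nat_lit 381)) (XT.lf (nat_lit 0) (nat_lit 3254343884) (nat_lit 1824) (nat_lit 10097115579) (nat_lit 1900) (nat_lit 3151233281) (nat_lit 480) (nat_lit 5) (nat_lit 504) (nat_lit 5) (nat_lit 505) (nat_lit 5) (nat_lit 599) (nat_lit 581) (nat_lit 380))) (XT.nd (nat_lit 78) (nat_lit 0) (nat_lit 76) (XT.lf (nat_lit 0) (nat_lit 4509522118) (nat_lit 1824) (nat_lit 1402974093) (nat_lit 1900) (nat_lit 10759973727) (nat_lit 480) (nat_lit 5) (nat_lit 504) (nat_lit 5) (nat_lit 505) (nat_lit 5) (nat_lit 600) (nat_lit 581) (nat_lit 379)) (XT.nd (nat_lit 78) (nat_lit 0) (nat_lit 0) (XT.lf (nat_lit 0) (nat_lit 5843448065) (nat_lit 1824) (nat_lit 9296980349) (nat_lit 1900) (nat_lit 1704141774) (nat_lit 481) (nat_lit 5) (nat_lit 505) (nat_lit 5) (nat_lit 506)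 (nat_lit 5) (nat_lit 601) (nat_lit 581) (nat_lit 378)) (XT.lf (nat_lit 0) (nat_lit 7246145886) (nat_lit 1824) (nat_lit 368228655) (nat_lit 1900) (nat_lit 9404896426) (nat_lit 481) (nat_lit 5) (nat_lit 505) (nat_lit 5) (nat_lit 506) (nat_lit 5) (nat_lit 602) (nat_lit 581) (nat_lit 377)))))) (XT.nd (nat_lit 390) (nat_lit 2964) (nat_lit 0) (XT.nd (nat_lit 156) (nat_lit 1748) (nat_lit 0) (XT.nd (nat_lit 78) (nat_lit 0) (nat_lit 0) (XT.lf (nat_lit 0) (nat_lit 8728739131) (nat_lit 1824) (nat_lit 8347236156) (nat_lit 1900) (nat_lit 120454025) (nat_lit 482) (nat_lit 5) (nat_lit 506) (nat_lit 5) (nat_lit 507) (nat_lit 5) (nat_lit 603) (nat_lit 581) (nat_lit 376)) (XT.lf (nat_lit 76) (nat_lit 834103739) (nat_lit 0) (nat_lit 9458898771) (nat_lit 1900) (nat_lit 7083088323) (nat_lit 483) (nat_lit 5) (nat_lit 482) (nat_lit 5) (nat_lit 507) (nat_lit 5) (nat_lit 604) (nat_lit 581) (nat_lit 375))) (XT.nd (nat_lit 78) (nat_lit 1748) (nat_lit 0) (XT.lf (nat_lit 76) (nat_lit 10306987630) (nat_lit 0) (nat_lit 1631356670) (nat_lit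 1900) (nat_lit 5620005787) (nat_lit 483) (nat_lit 5) (nat_lit 482) (nat_lit 5) (nat_lit 507) (nat_lit 5) (nat_lit 605) (nat_lit 581) (nat_lit 374)) (XT.nd (nat_lit 78) (nat_lit 0) (nat_lit 0) (XT.lf (nat_lit 0) (nat_lit 2207522708) (nat_lit 1824) (nat_lit 11458556177) (nat_lit 1900) (nat_lit 4077186283) (nat_lit 459) (nat_lit 5) (nat_lit 483) (nat_lit 5) (nat_lit 484) (nat_lit 5) (nat_lit 606) (nat_lit 581) (nat_lit 373)) (XT.lf (nat_lit 0) (nat_lit 11937709191) (nat_lit 1824) (nat_lit 3544044674) (nat_lit 1900) (nat_lit 2449057323) (nat_lit 459) (nat_lit 5) (nat_lit 483) (nat_lit 5) (nat_lit 484) (nat_lit 5) (nat_lit 607) (nat_lit 581) (nat_lit 372))))) (XT.nd (nat_lit 234) (nat_lit 912) (nat_lit 0) (XT.nd (nat_lit 78) (nat_lit 988) (nat_lit 0) (XT.lf (nat_lit 0) (nat_lit 3754991000) (nat_lit 1064) (nat_lit 13626650349) (nat_lit 1140) (nat_lit 739509144) (nat_lit 445) (nat_lit 5) (nat_lit 459) (nat_lit 5) (nat_lit 460) (nat_lit 5) (nat_lit 608) (nat_lit 581) (nat_lit 371)) (XT.nd (nat_lit 78) (nat_lit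 912) (nat_lit 0) (XT.lf (nat_lit 0) (nat_lit 1049171253) (nat_lit 1140) (nat_lit 4570752704) (nat_lit 76) (nat_lit 12694080319) (nat_lit 444) (nat_lit 5) (nat_lit 459) (nat_lit 5) (nat_lit 445) (nat_lit 5) (nat_lit 609) (nat_lit 581) (nat_lit 370)) (XT.lf (nat_lit 0) (nat_lit 2910408613) (nat_lit 988) (nat_lit 13044444746) (nat_lit 76) (nat_lit 2554830630) (nat_lit 432) (nat_lit 5) (nat_lit 445) (nat_lit 5) (nat_lit 433) (nat_lit 5) (nat_lit 610) (nat_lit 581) (nat_lit 369)))) (XT.nd (nat_lit 78) (nat_lit 912) (nat_lit 0) (XT.lf (nat_lit 0) (nat_lit 4871318904) (nat_lit 988) (nat_lit 2987442409) (nat_lit 76) (nat_lit 10849267339) (nat_lit 432) (nat_lit 5) (nat_lit 445) (nat_lit 5) (nat_lit 433) (nat_lit 5) (nat_lit 611) (nat_lit 581) (nat_lit 368)) (XT.nd (nat_lit 78) (nat_lit 0) (nat_lit 0) (XT.lf (nat_lit 0) (nat_lit 6916623714) (nat_lit 988) (nat_lit 11550314175) (nat_lit 76) (nat_lit 442499105) (nat_lit 420) (nat_lit 5) (nat_lit 433) (nat_lit 5) (nat_lit 421) (nat_lit 5) (nat_lit 612) (nat_lit 581)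 (nat_lit 367)) (XT.lf (nat_lit 0) (nat_lit 9069602383) (nat_lit 988) (nat_lit 1218775763) (nat_lit 76) (nat_lit 8825160308) (nat_lit 420) (nat_lit 5) (nat_lit 433) (nat_lit 5) (nat_lit 421) (nat_lit 5) (nat_lit 613) (nat_lit 581) (nat_lit 366))))))))
noncomputable def xc186 : XT := (XT.nd (nat_lit 1560) (nat_lit 6764) (nat_lit 0) (XT.nd (nat_lit 780) (nat_lit 4256) (nat_lit 0) (XT.nd (nat_lit 390) (nat_lit 2356) (nat_lit 0) (XT.nd (nat_lit 156) (nat_lit 912) (nat_lit 0) (XT.nd (nat_lit 78) (nat_lit 836) (nat_lit 0) (XT.lf (nat_lit 0) (nat_lit 9438037141) (nat_lit 836) (nat_lit 1883531395) (nat_lit 912) (nat_lit 7999035151) (nat_lit 409) (nat_lit 5) (nat_lit 420) (nat_lit 5) (nat_lit 421) (nat_lit 5) (nat_lit 614) (nat_lit 581) (nat_lit 365)) (XT.lf (nat_lit 0) (nat_lit 754052730) (nat_lit 836) (nat_lit 12915804796) (nat_lit 912) (nat_lit 5860927323) (nat_lit 398) (nat_lit 5) (nat_lit 409) (nat_lit 5) (nat_lit 410) (nat_lit 5) (nat_lit 615) (nat_lit 581) (nat_lit 364))) (XT.nd (nat_lit 78) (nat_lit 912)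 (nat_lit 0) (XT.lf (nat_lit 0) (nat_lit 11719548958) (nat_lit 836) (nat_lit 4419064887) (nat_lit 912) (nat_lit 3605086046) (nat_lit 398) (nat_lit 5) (nat_lit 409) (nat_lit 5) (nat_lit 410) (nat_lit 5) (nat_lit 616) (nat_lit 581) (nat_lit 363)) (XT.nd (nat_lit 78) (nat_lit 76) (nat_lit 0) (XT.lf (nat_lit 0) (nat_lit 2949407772) (nat_lit 836) (nat_lit 15748960304) (nat_lit 912) (nat_lit 1261672987) (nat_lit 387) (nat_lit 5) (nat_lit 398) (nat_lit 5) (nat_lit 399) (nat_lit 5) (nat_lit 617) (nat_lit 581) (nat_lit 362)) (XT.lf (nat_lit 0) (nat_lit 1192202670) (nat_lit 912) (nat_lit 5970586031) (nat_lit 76) (nat_lit 13016206151) (nat_lit 386) (nat_lit 5) (nat_lit 398) (nat_lit 5) (nat_lit 387) (nat_lit 5) (nat_lit 618) (nat_lit 581) (nat_lit 361))))) (XT.nd (nat_lit 156) (nat_lit 1520) (nat_lit 0) (XT.nd (nat_lit 78) (nat_lit 0) (nat_lit 0) (XT.lf (nat_lit 0) (nat_lit 3718661930) (nat_lit 912) (nat_lit 15065283507) (nat_lit 76) (nat_lit 1617407755) (nat_lit 375) (nat_lit 5) (nat_lit 387) (nat_lit 5) (nat_lit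 376) (nat_lit 5) (nat_lit 619) (nat_lit 581) (nat_lit 360)) (XT.lf (nat_lit 0) (nat_lit 6378508114) (nat_lit 912) (nat_lit 3730439987) (nat_lit 76) (nat_lit 10517553706) (nat_lit 375) (nat_lit 5) (nat_lit 387) (nat_lit 5) (nat_lit 376) (nat_lit 5) (nat_lit 620) (nat_lit 581) (nat_lit 359))) (XT.nd (nat_lit 78) (nat_lit 760) (nat_lit 0) (XT.lf (nat_lit 0) (nat_lit 7930032678) (nat_lit 760) (nat_lit 1208192774) (nat_lit 836) (nat_lit 11716994713) (nat_lit 365) (nat_lit 5) (nat_lit 375) (nat_lit 5) (nat_lit 376) (nat_lit 5) (nat_lit 621) (nat_lit 581) (nat_lit 358)) (XT.nd (nat_lit 78) (nat_lit 760) (nat_lit 0) (XT.lf (nat_lit 0) (nat_lit 12024684139) (nat_lit 836) (nat_lit 1270128704) (nat_lit 76) (nat_lit 7792269360) (nat_lit 365) (nat_lit 5) (nat_lit 376) (nat_lit 5) (nat_lit 366) (nat_lit 5) (nat_lit 622) (nat_lit 581) (nat_lit 357)) (XT.lf (nat_lit 0) (nat_lit 10745933876) (nat_lit 760) (nat_lit 4296049318) (nat_lit 836) (nat_lit 6280136310) (nat_lit 355) (nat_lit 5) (nat_lit 365) (nat_lit 5) (nat_lit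 366) (nat_lit 5) (nat_lit 623) (nat_lit 581) (nat_lit 356)))))) (XT.nd (nat_lit 390) (nat_lit 2052) (nat_lit 0) (XT.nd (nat_lit 156) (nat_lit 1520) (nat_lit 0) (XT.nd (nat_lit 78) (nat_lit 0) (nat_lit 0) (XT.lf (nat_lit 0) (nat_lit 1439886273) (nat_lit 684) (nat_lit 16724768520) (nat_lit 760) (nat_lit 3396302467) (nat_lit 346) (nat_lit 5) (nat_lit 355) (nat_lit 5) (nat_lit 356) (nat_lit 5) (nat_lit 624) (nat_lit 581) (nat_lit 355)) (XT.lf (nat_lit 0) (nat_lit 13805759771) (nat_lit 684) (nat_lit 7638709289) (nat_lit 760) (nat_lit 358209166) (nat_lit 346) (nat_lit 5) (nat_lit 355) (nat_lit 5) (nat_lit 356) (nat_lit 5) (nat_lit 625) (nat_lit 581) (nat_lit 354))) (XT.nd (nat_lit 78) (nat_lit 684) (nat_lit 0) (XT.lf (nat_lit 0) (nat_lit 2739694202) (nat_lit 836) (nat_lit 17654600207) (nat_lit 76) (nat_lit 1653883701) (nat_lit 335) (nat_lit 5) (nat_lit 346) (nat_lit 5) (nat_lit 336) (nat_lit 5) (nat_lit 626) (nat_lit 581) (nat_lit 353)) (XT.nd (nat_lit 78) (nat_lit 684) (nat_lit 0) (XT.lf (nat_lit 0) (nat_lit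 5994935524) (nat_lit 836) (nat_lit 5215612408) (nat_lit 76) (nat_lit 11085989403) (nat_lit 335) (nat_lit 5) (nat_lit 346) (nat_lit 5) (nat_lit 336) (nat_lit 5) (nat_lit 627) (nat_lit 581) (nat_lit 352)) (XT.lf (nat_lit 0) (nat_lit 7566422393) (nat_lit 684) (nat_lit 1793637888) (nat_lit 760) (nat_lit 13188908111) (nat_lit 326) (nat_lit 5) (nat_lit 335) (nat_lit 5) (nat_lit 336) (nat_lit 5) (nat_lit 628) (nat_lit 581) (nat_lit 351))))) (XT.nd (nat_lit 156) (nat_lit 1368) (nat_lit 0) (XT.nd (nat_lit 78) (nat_lit 684) (nat_lit 0) (XT.lf (nat_lit 0) (nat_lit 12874138401) (nat_lit 760) (nat_lit 2186918134) (nat_lit 76) (nat_lit 7743758730) (nat_lit 326) (nat_lit 5) (nat_lit 336) (nat_lit 5) (nat_lit 327) (nat_lit 5) (nat_lit 629) (nat_lit 581) (nat_lit 350)) (XT.lf (nat_lit 0) (nat_lit 10991987147) (nat_lit 684) (nat_lit 5545542313) (nat_lit 760) (nat_lit 6526669200) (nat_lit 317) (nat_lit 5) (nat_lit 326) (nat_lit 5) (nat_lit 327) (nat_lit 5) (nat_lit 630) (nat_lit 581) (nat_lit 349))) (XT.nd (nat_lit 78) (nat_lit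 760) (nat_lit 0) (XT.lf (nat_lit 0) (nat_lit 1118230815) (nat_lit 608) (nat_lit 19200833616) (nat_lit 684) (nat_lit 3008807977) (nat_lit 309) (nat_lit 5) (nat_lit 317) (nat_lit 5) (nat_lit 318) (nat_lit 5) (nat_lit 631) (nat_lit 581) (nat_lit 348)) (XT.nd (nat_lit 78) (nat_lit 684) (nat_lit 0) (XT.lf (nat_lit 0) (nat_lit 685938385) (nat_lit 684) (nat_lit 8905086959) (nat_lit 76) (nat_lit 14003436705) (nat_lit 308) (nat_lit 5) (nat_lit 317) (nat_lit 5) (nat_lit 309) (nat_lit 5) (nat_lit 632) (nat_lit 581) (nat_lit 347)) (XT.lf (nat_lit 0) (nat_lit 4442494654) (nat_lit 760) (nat_lit 19164738408) (nat_lit 76) (nat_lit 258188795) (nat_lit 299) (nat_lit 5) (nat_lit 309) (nat_lit 5) (nat_lit 300) (nat_lit 5) (nat_lit 633) (nat_lit 581) (nat_lit 346))))))) (XT.nd (nat_lit 780) (nat_lit 3724) (nat_lit 0) (XT.nd (nat_lit 390) (nat_lit 1140) (nat_lit 0) (XT.nd (nat_lit 156) (nat_lit 1292) (nat_lit 0) (XT.nd (nat_lit 78) (nat_lit 608) (nat_lit 0) (XT.lf (nat_lit 0) (nat_lit 8393830479) (nat_lit 760) (nat_lit 5510170881)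 (nat_lit 76) (nat_lit 10235406722) (nat_lit 299) (nat_lit 5) (nat_lit 309) (nat_lit 5) (nat_lit 300) (nat_lit 5) (nat_lit 634) (nat_lit 581) (nat_lit 345)) (XT.lf (nat_lit 0) (nat_lit 8524451662) (nat_lit 608) (nat_lit 3951144752) (nat_lit 684) (nat_lit 11942249737) (nat_lit 291) (nat_lit 5) (nat_lit 299) (nat_lit 5) (nat_lit 300) (nat_lit 5) (nat_lit 635) (nat_lit 581) (nat_lit 344))) (XT.nd (nat_lit 78) (nat_lit 1292) (nat_lit 0) (XT.lf (nat_lit 0) (nat_lit 16712575424) (nat_lit 684) (nat_lit 1832035829) (nat_lit 76) (nat_lit 6155770356) (nat_lit 291) (nat_lit 5) (nat_lit 300) (nat_lit 5) (nat_lit 292) (nat_lit 5) (nat_lit 636) (nat_lit 581) (nat_lit 343)) (XT.nd (nat_lit 78) (nat_lit 684) (nat_lit 0) (XT.lf (nat_lit 0) (nat_lit 12645449986) (nat_lit 608) (nat_lit 8493286952) (nat_lit 684) (nat_lit 3847742160) (nat_lit 283) (nat_lit 5) (nat_lit 291) (nat_lit 5) (nat_lit 292) (nat_lit 5) (nat_lit 637) (nat_lit 581) (nat_lit 342)) (XT.lf (nat_lit 0) (nat_lit 404535370) (nat_lit 684) (nat_lit 23108854158)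 (nat_lit 76) (nat_lit 1764173829) (nat_lit 274) (nat_lit 5) (nat_lit 283) (nat_lit 5) (nat_lit 275) (nat_lit 5) (nat_lit 638) (nat_lit 581) (nat_lit 341))))) (XT.nd (nat_lit 156) (nat_lit 532) (nat_lit 0) (XT.nd (nat_lit 78) (nat_lit 608) (nat_lit 0) (XT.lf (nat_lit 0) (nat_lit 4826225409) (nat_lit 684) (nat_lit 8523999441) (nat_lit 76) (nat_lit 12221018185) (nat_lit 274) (nat_lit 5) (nat_lit 283) (nat_lit 5) (nat_lit 275) (nat_lit 5) (nat_lit 639) (nat_lit 581) (nat_lit 340)) (XT.lf (nat_lit 0) (nat_lit 6432168774) (nat_lit 608) (nat_lit 2942246194) (nat_lit 684) (nat_lit 16495620191) (nat_lit 266) (nat_lit 5) (nat_lit 274) (nat_lit 5) (nat_lit 275) (nat_lit 5) (nat_lit 640) (nat_lit 581) (nat_lit 339))) (XT.nd (nat_lit 78) (nat_lit 532) (nat_lit 0) (XT.lf (nat_lit 0) (nat_lit 14117310481) (nat_lit 684) (nat_lit 4425634343) (nat_lit 76) (nat_lit 7629783619) (nat_lit 266) (nat_lit 5) (nat_lit 275) (nat_lit 5) (nat_lit 267) (nat_lit 5) (nat_lit 641) (nat_lit 581) (nat_lit 338)) (XT.nd (nat_lit 78) (nat_lit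 0) (nat_lit 0) (XT.lf (nat_lit 0) (nat_lit 11007032327) (nat_lit 532) (nat_lit 8035392227) (nat_lit 608) (nat_lit 7437303987) (nat_lit 259) (nat_lit 5) (nat_lit 266) (nat_lit 5) (nat_lit 267) (nat_lit 5) (nat_lit 642) (nat_lit 581) (nat_lit 337)) (XT.lf (nat_lit 0) (nat_lit 24109794887) (nat_lit 608) (nat_lit 6261028) (nat_lit 76) (nat_lit 2675937802) (nat_lit 259) (nat_lit 5) (nat_lit 267) (nat_lit 5) (nat_lit 260) (nat_lit 5) (nat_lit 643) (nat_lit 581) (nat_lit 336)))))) (XT.nd (nat_lit 390) (nat_lit 2052) (nat_lit 0) (XT.nd (nat_lit 156) (nat_lit 532) (nat_lit 0) (XT.nd (nat_lit 78) (nat_lit 532) (nat_lit 0) (XT.lf (nat_lit 0) (nat_lit 2293682402) (nat_lit 608) (nat_lit 11202069209) (nat_lit 76) (nat_lit 13611389057) (nat_lit 251) (nat_lit 5) (nat_lit 259) (nat_lit 5) (nat_lit 252) (nat_lit 5) (nat_lit 644) (nat_lit 581) (nat_lit 335)) (XT.lf (nat_lit 0) (nat_lit 4745966108) (nat_lit 532) (nat_lit 2614619239) (nat_lit 608) (nat_lit 20067102398) (nat_lit 244) (nat_lit 5) (nat_lit 251) (nat_lit 5) (nat_lit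 252) (nat_lit 5) (nat_lit 645) (nat_lit 581) (nat_lit 334))) (XT.nd (nat_lit 78) (nat_lit 532) (nat_lit 0) (XT.lf (nat_lit 0) (nat_lit 12656139985) (nat_lit 608) (nat_lit 6648586949) (nat_lit 76) (nat_lit 8447372700) (nat_lit 244) (nat_lit 5) (nat_lit 252) (nat_lit 5) (nat_lit 245) (nat_lit 5) (nat_lit 646) (nat_lit 581) (nat_lit 333)) (XT.nd (nat_lit 78) (nat_lit 0) (nat_lit 0) (XT.lf (nat_lit 0) (nat_lit 9812001546) (nat_lit 532) (nat_lit 8323252404) (nat_lit 608) (nat_lit 9946192988) (nat_lit 237) (nat_lit 5) (nat_lit 244) (nat_lit 5) (nat_lit 245) (nat_lit 5) (nat_lit 647) (nat_lit 581) (nat_lit 332)) (XT.lf (nat_lit 0) (nat_lit 23784201681) (nat_lit 608) (nat_lit 1748152667) (nat_lit 76) (nat_lit 2883821950) (nat_lit 237) (nat_lit 5) (nat_lit 245) (nat_lit 5) (nat_lit 238) (nat_lit 5) (nat_lit 648) (nat_lit 581) (nat_lit 331))))) (XT.nd (nat_lit 234) (nat_lit 988) (nat_lit 0) (XT.nd (nat_lit 78) (nat_lit 532) (nat_lit 0) (XT.lf (nat_lit 0) (nat_lit 930000309) (nat_lit 532) (nat_lit 13516849786) (nat_lit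 76) (nat_lit 14307611612) (nat_lit 230) (nat_lit 5) (nat_lit 237) (nat_lit 5) (nat_lit 231) (nat_lit 5) (nat_lit 649) (nat_lit 581) (nat_lit 330)) (XT.nd (nat_lit 78) (nat_lit 0) (nat_lit 0) (XT.lf (nat_lit 0) (nat_lit 3498103512) (nat_lit 532) (nat_lit 3074402473) (nat_lit 608) (nat_lit 22525768357) (nat_lit 223) (nat_lit 5) (nat_lit 230) (nat_lit 5) (nat_lit 231) (nat_lit 5) (nat_lit 650) (nat_lit 581) (nat_lit 329)) (XT.lf (nat_lit 0) (nat_lit 12471282039) (nat_lit 608) (nat_lit 8471081311) (nat_lit 76) (nat_lit 8503731601) (nat_lit 223) (nat_lit 5) (nat_lit 231) (nat_lit 5) (nat_lit 224) (nat_lit 5) (nat_lit 651) (nat_lit 581) (nat_lit 328)))) (XT.nd (nat_lit 78) (nat_lit 532) (nat_lit 0) (XT.lf (nat_lit 0) (nat_lit 9095043575) (nat_lit 456) (nat_lit 9469226111) (nat_lit 532) (nat_lit 11235077692) (nat_lit 217) (nat_lit 5) (nat_lit 223) (nat_lit 5) (nat_lit 224) (nat_lit 5) (nat_lit 652) (nat_lit 581) (nat_lit 327)) (XT.nd (nat_lit 78) (nat_lit 532) (nat_lit 0) (XT.lf (nat_lit 0) (nat_lit 24847689245)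 (nat_lit 532) (nat_lit 3050580656) (nat_lit 76) (nat_lit 2260023631) (nat_lit 217) (nat_lit 5) (nat_lit 224) (nat_lit 5) (nat_lit 218) (nat_lit 5) (nat_lit 653) (nat_lit 581) (nat_lit 326)) (XT.lf (nat_lit 0) (nat_lit 881373228) (nat_lit 532) (nat_lit 15440096836) (nat_lit 76) (nat_lit 14199681173) (nat_lit 210) (nat_lit 5) (nat_lit 217) (nat_lit 5) (nat_lit 211) (nat_lit 5) (nat_lit 654) (nat_lit 581) (nat_lit 325))))))))
noncomputable def xc187 : XT := (XT.nd (nat_lit 76518) (nat_lit 0) (nat_lit 16948) (XT.nd (nat_lit 75738) (nat_lit 0) (nat_lit 23636) (XT.nd (nat_lit 390) (nat_lit 456) (nat_lit 0) (XT.nd (nat_lit 156) (nat_lit 912) (nat_lit 0) (XT.nd (nat_lit 78) (nat_lit 0) (nat_lit 0) (XT.lf (nat_lit 0) (nat_lit 2721790249) (nat_lit 456) (nat_lit 4439559053) (nat_lit 532) (nat_lit 23728509486) (nat_lit 204) (nat_lit 5) (nat_lit 210) (nat_lit 5) (nat_lit 211) (nat_lit 5) (nat_lit 655) (nat_lit 581) (nat_lit 324)) (XT.lf (nat_lit 0) (nat_lit 13718032226) (nat_lit 532) (nat_lit 9862649883) (nat_lit 76)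 (nat_lit 7682236351) (nat_lit 204) (nat_lit 5) (nat_lit 211) (nat_lit 5) (nat_lit 205) (nat_lit 5) (nat_lit 656) (nat_lit 581) (nat_lit 323))) (XT.nd (nat_lit 78) (nat_lit 456) (nat_lit 0) (XT.lf (nat_lit 0) (nat_lit 8891738423) (nat_lit 456) (nat_lit 11598248768) (nat_lit 532) (nat_lit 11151769477) (nat_lit 198) (nat_lit 5) (nat_lit 204) (nat_lit 5) (nat_lit 205) (nat_lit 5) (nat_lit 657) (nat_lit 581) (nat_lit 322)) (XT.nd (nat_lit 78) (nat_lit 456) (nat_lit 0) (XT.lf (nat_lit 0) (nat_lit 27465081504) (nat_lit 532) (nat_lit 3880807598) (nat_lit 76) (nat_lit 680928643) (nat_lit 198) (nat_lit 5) (nat_lit 205) (nat_lit 5) (nat_lit 199) (nat_lit 5) (nat_lit 658) (nat_lit 581) (nat_lit 321)) (XT.lf (nat_lit 0) (nat_lit 2307375855) (nat_lit 456) (nat_lit 16943458568) (nat_lit 76) (nat_lit 13164953065) (nat_lit 192) (nat_lit 5) (nat_lit 198) (nat_lit 5) (nat_lit 193) (nat_lit 5) (nat_lit 659) (nat_lit 581) (nat_lit 320))))) (XT.nd (nat_lit 75114) (nat_lit 0) (nat_lit 23560) (XT.nd (nat_lit 78) (nat_lit 0) (nat_lit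 0) (XT.lf (nat_lit 0) (nat_lit 2450573887) (nat_lit 456) (nat_lit 6841493797) (nat_lit 532) (nat_lit 23519080401) (nat_lit 186) (nat_lit 5) (nat_lit 192) (nat_lit 5) (nat_lit 193) (nat_lit 5) (nat_lit 660) (nat_lit 581) (nat_lit 319)) (XT.lf (nat_lit 0) (nat_lit 16565784072) (nat_lit 532) (nat_lit 10792817556) (nat_lit 76) (nat_lit 5852827752) (nat_lit 186) (nat_lit 5) (nat_lit 193) (nat_lit 5) (nat_lit 187) (nat_lit 5) (nat_lit 661) (nat_lit 581) (nat_lit 318))) (XT.nd (nat_lit 78) (nat_lit 0) (nat_lit 0) (XT.lf (nat_lit 0) (nat_lit 1300391531) (nat_lit 0) (nat_lit 1300391531) (nat_lit 1748) (nat_lit 4445927318) (nat_lit 496) (nat_lit 5) (nat_lit 496) (nat_lit 3) (nat_lit 519) (nat_lit 3) (nat_lit 582) (nat_lit 582) (nat_lit 396)) (XT.nd (nat_lit 78) (nat_lit 0) (nat_lit 0) (XT.lf (nat_lit 0) (nat_lit 5620485827) (nat_lit 1748) (nat_lit 4526642049) (nat_lit 1824) (nat_lit 4079867838) (nat_lit 496) (nat_lit 5) (nat_lit 519) (nat_lit 3) (nat_lit 520) (nat_lit 5) (nat_lit 583) (nat_lit 582) (nat_lit 395))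 (XT.lf (nat_lit 76) (nat_lit 2590760175) (nat_lit 0) (nat_lit 3482177395) (nat_lit 1824) (nat_lit 8289802075) (nat_lit 497) (nat_lit 5) (nat_lit 496) (nat_lit 5) (nat_lit 520) (nat_lit 5) (nat_lit 584) (nat_lit 582) (nat_lit 394)))))) (XT.nd (nat_lit 390) (nat_lit 0) (nat_lit 152) (XT.nd (nat_lit 156) (nat_lit 0) (nat_lit 76) (XT.nd (nat_lit 78) (nat_lit 0) (nat_lit 0) (XT.lf (nat_lit 0) (nat_lit 6577825702) (nat_lit 1748) (nat_lit 4615291319) (nat_lit 1824) (nat_lit 3307214232) (nat_lit 497) (nat_lit 5) (nat_lit 520) (nat_lit 5) (nat_lit 521) (nat_lit 5) (nat_lit 585) (nat_lit 582) (nat_lit 393)) (XT.lf (nat_lit 76) (nat_lit 2692031837) (nat_lit 0) (nat_lit 4432769869) (nat_lit 1824) (nat_lit 7515233717) (nat_lit 498) (nat_lit 5) (nat_lit 497) (nat_lit 5) (nat_lit 521) (nat_lit 5) (nat_lit 586) (nat_lit 582) (nat_lit 392))) (XT.nd (nat_lit 78) (nat_lit 0) (nat_lit 0) (XT.lf (nat_lit 0) (nat_lit 7721495323) (nat_lit 1748) (nat_lit 4594952474) (nat_lit 1824) (nat_lit 2465310843) (nat_lit 498) (nat_lit 5)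 (nat_lit 521) (nat_lit 5) (nat_lit 522) (nat_lit 5) (nat_lit 587) (nat_lit 582) (nat_lit 391)) (XT.nd (nat_lit 78) (nat_lit 0) (nat_lit 76) (XT.lf (nat_lit 76) (nat_lit 2909147732) (nat_lit 0) (nat_lit 5460995681) (nat_lit 1824) (nat_lit 6555373009) (nat_lit 499) (nat_lit 5) (nat_lit 498) (nat_lit 5) (nat_lit 522) (nat_lit 5) (nat_lit 588) (nat_lit 582) (nat_lit 390)) (XT.lf (nat_lit 0) (nat_lit 9064675300) (nat_lit 1748) (nat_lit 4461027159) (nat_lit 1824) (nat_lit 1545789188) (nat_lit 499) (nat_lit 5) (nat_lit 522) (nat_lit 5) (nat_lit 523) (nat_lit 5) (nat_lit 589) (nat_lit 582) (nat_lit 389))))) (XT.nd (nat_lit 156) (nat_lit 0) (nat_lit 76) (XT.nd (nat_lit 78) (nat_lit 0) (nat_lit 76) (XT.lf (nat_lit 76) (nat_lit 3246975550) (nat_lit 0) (nat_lit 6575455740) (nat_lit 1824) (nat_lit 5396968908) (nat_lit 500) (nat_lit 5) (nat_lit 499) (nat_lit 5) (nat_lit 523) (nat_lit 5) (nat_lit 590) (nat_lit 582) (nat_lit 388)) (XT.lf (nat_lit 0) (nat_lit 10621041800) (nat_lit 1748) (nat_lit 4208601909) (nat_lit 1824)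 (nat_lit 540109708) (nat_lit 500) (nat_lit 5) (nat_lit 523) (nat_lit 5) (nat_lit 524) (nat_lit 5) (nat_lit 591) (nat_lit 582) (nat_lit 387))) (XT.nd (nat_lit 78) (nat_lit 0) (nat_lit 0) (XT.lf (nat_lit 76) (nat_lit 3710707761) (nat_lit 0) (nat_lit 7784936967) (nat_lit 1824) (nat_lit 4026269044) (nat_lit 501) (nat_lit 5) (nat_lit 500) (nat_lit 5) (nat_lit 524) (nat_lit 5) (nat_lit 592) (nat_lit 582) (nat_lit 386)) (XT.nd (nat_lit 78) (nat_lit 0) (nat_lit 76) (XT.lf (nat_lit 76) (nat_lit 11840574576) (nat_lit 0) (nat_lit 567906548) (nat_lit 1824) (nat_lit 3268221844) (nat_lit 501) (nat_lit 5) (nat_lit 500) (nat_lit 5) (nat_lit 524) (nat_lit 5) (nat_lit 593) (nat_lit 582) (nat_lit 385)) (XT.lf (nat_lit 76) (nat_lit 4305869013) (nat_lit 0) (nat_lit 9098432711) (nat_lit 1824) (nat_lit 2428992132) (nat_lit 502) (nat_lit 5) (nat_lit 501) (nat_lit 5) (nat_lit 525) (nat_lit 5) (nat_lit 594) (nat_lit 582) (nat_lit 384))))))) (XT.nd (nat_lit 780) (nat_lit 5244) (nat_lit 0) (XT.nd (nat_lit 390) (nat_lit 0) (nat_lit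 152) (XT.nd (nat_lit 156) (nat_lit 1748) (nat_lit 0) (XT.nd (nat_lit 78) (nat_lit 0) (nat_lit 76) (XT.lf (nat_lit 76) (nat_lit 12653981354) (nat_lit 0) (nat_lit 1788311243) (nat_lit 1824) (nat_lit 1550279333) (nat_lit 502) (nat_lit 5) (nat_lit 501) (nat_lit 5) (nat_lit 525) (nat_lit 5) (nat_lit 595) (nat_lit 582) (nat_lit 383)) (XT.lf (nat_lit 76) (nat_lit 5038324150) (nat_lit 0) (nat_lit 10525163345) (nat_lit 1824) (nat_lit 590299625) (nat_lit 503) (nat_lit 5) (nat_lit 502) (nat_lit 5) (nat_lit 526) (nat_lit 5) (nat_lit 596) (nat_lit 582) (nat_lit 382))) (XT.nd (nat_lit 78) (nat_lit 0) (nat_lit 76) (XT.lf (nat_lit 0) (nat_lit 411166191) (nat_lit 1824) (nat_lit 2709297336) (nat_lit 1900) (nat_lit 13197165276) (nat_lit 478) (nat_lit 5) (nat_lit 502) (nat_lit 5) (nat_lit 503) (nat_lit 5) (nat_lit 597) (nat_lit 582) (nat_lit 381)) (XT.nd (nat_lit 78) (nat_lit 0) (nat_lit 0) (XT.lf (nat_lit 0) (nat_lit 1485492075) (nat_lit 1824) (nat_lit 10579136569) (nat_lit 1900) (nat_lit 4418826353) (nat_lit 479) (nat_lit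 5) (nat_lit 503) (nat_lit 5) (nat_lit 504) (nat_lit 5) (nat_lit 598) (nat_lit 582) (nat_lit 380)) (XT.lf (nat_lit 0) (nat_lit 2613514974) (nat_lit 1824) (nat_lit 1951139833) (nat_lit 1900) (nat_lit 12087299102) (nat_lit 479) (nat_lit 5) (nat_lit 503) (nat_lit 5) (nat_lit 504) (nat_lit 5) (nat_lit 599) (nat_lit 582) (nat_lit 379))))) (XT.nd (nat_lit 156) (nat_lit 0) (nat_lit 76) (XT.nd (nat_lit 78) (nat_lit 0) (nat_lit 0) (XT.lf (nat_lit 0) (nat_lit 3822845125) (nat_lit 1824) (nat_lit 9907972610) (nat_lit 1900) (nat_lit 3091830526) (nat_lit 480) (nat_lit 5) (nat_lit 504) (nat_lit 5) (nat_lit 505) (nat_lit 5) (nat_lit 600) (nat_lit 582) (nat_lit 378)) (XT.lf (nat_lit 0) (nat_lit 5093256053) (nat_lit 1824) (nat_lit 1047616633) (nat_lit 1900) (nat_lit 10855146319) (nat_lit 480) (nat_lit 5) (nat_lit 504) (nat_lit 5) (nat_lit 505) (nat_lit 5) (nat_lit 601) (nat_lit 582) (nat_lit 377))) (XT.nd (nat_lit 78) (nat_lit 0) (nat_lit 0) (XT.lf (nat_lit 0) (nat_lit 6445971598) (nat_lit 1824) (nat_lit 9091585209) (nat_lit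 1900) (nat_lit 1634162809) (nat_lit 481) (nat_lit 5) (nat_lit 505) (nat_lit 5) (nat_lit 506) (nat_lit 5) (nat_lit 602) (nat_lit 582) (nat_lit 376)) (XT.nd (nat_lit 78) (nat_lit 0) (nat_lit 76) (XT.lf (nat_lit 76) (nat_lit 8175511) (nat_lit 0) (nat_lit 7859078306) (nat_lit 1900) (nat_lit 9482850551) (nat_lit 482) (nat_lit 5) (nat_lit 481) (nat_lit 5) (nat_lit 506) (nat_lit 5) (nat_lit 603) (nat_lit 582) (nat_lit 375)) (XT.lf (nat_lit 0) (nat_lit 9372012305) (nat_lit 1824) (nat_lit 8123058058) (nat_lit 1900) (nat_lit 35885806) (nat_lit 482) (nat_lit 5) (nat_lit 506) (nat_lit 5) (nat_lit 507) (nat_lit 5) (nat_lit 604) (nat_lit 582) (nat_lit 374)))))) (XT.nd (nat_lit 390) (nat_lit 2736) (nat_lit 0) (XT.nd (nat_lit 156) (nat_lit 2812) (nat_lit 0) (XT.nd (nat_lit 78) (nat_lit 0) (nat_lit 0) (XT.lf (nat_lit 76) (nat_lit 1239335458) (nat_lit 0) (nat_lit 9721558050) (nat_lit 1900) (nat_lit 6753451304) (nat_lit 483) (nat_lit 5) (nat_lit 482) (nat_lit 5) (nat_lit 507) (nat_lit 5) (nat_lit 605) (nat_lit 582) (nat_lit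 373)) (XT.lf (nat_lit 76) (nat_lit 10894058407) (nat_lit 0) (nat_lit 1736024297) (nat_lit 1900) (nat_lit 5270348270) (nat_lit 483) (nat_lit 5) (nat_lit 482) (nat_lit 5) (nat_lit 507) (nat_lit 5) (nat_lit 606) (nat_lit 582) (nat_lit 372))) (XT.nd (nat_lit 78) (nat_lit 1064) (nat_lit 0) (XT.lf (nat_lit 0) (nat_lit 2639589056) (nat_lit 1824) (nat_lit 11745961174) (nat_lit 1900) (nat_lit 3703631084) (nat_lit 459) (nat_lit 5) (nat_lit 483) (nat_lit 5) (nat_lit 484) (nat_lit 5) (nat_lit 607) (nat_lit 582) (nat_lit 371)) (XT.nd (nat_lit 78) (nat_lit 1064) (nat_lit 0) (XT.lf (nat_lit 0) (nat_lit 12556773075) (nat_lit 1824) (nat_lit 3672017599) (nat_lit 1900) (nat_lit 2051863054) (nat_lit 459) (nat_lit 5) (nat_lit 483) (nat_lit 5) (nat_lit 484) (nat_lit 5) (nat_lit 608) (nat_lit 582) (nat_lit 370)) (XT.lf (nat_lit 0) (nat_lit 4216982685) (nat_lit 1064) (nat_lit 13943265266) (nat_lit 1140) (nat_lit 314680931) (nat_lit 445) (nat_lit 5) (nat_lit 459) (nat_lit 5) (nat_lit 460) (nat_lit 5) (nat_lit 609) (nat_lit 582)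 (nat_lit 369))))) (XT.nd (nat_lit 234) (nat_lit 1748) (nat_lit 0) (XT.nd (nat_lit 78) (nat_lit 912) (nat_lit 0) (XT.lf (nat_lit 0) (nat_lit 1495500484) (nat_lit 1140) (nat_lit 4277185217) (nat_lit 76) (nat_lit 12899067575) (nat_lit 444) (nat_lit 5) (nat_lit 459) (nat_lit 5) (nat_lit 445) (nat_lit 5) (nat_lit 610) (nat_lit 582) (nat_lit 368)) (XT.nd (nat_lit 78) (nat_lit 0) (nat_lit 0) (XT.lf (nat_lit 0) (nat_lit 3387865113) (nat_lit 988) (nat_lit 12914229926) (nat_lit 76) (nat_lit 2569373967) (nat_lit 432) (nat_lit 5) (nat_lit 445) (nat_lit 5) (nat_lit 433) (nat_lit 5) (nat_lit 611) (nat_lit 582) (nat_lit 367)) (XT.lf (nat_lit 0) (nat_lit 5379773054) (nat_lit 988) (nat_lit 2663756242) (nat_lit 76) (nat_lit 11030416142) (nat_lit 432) (nat_lit 5) (nat_lit 445) (nat_lit 5) (nat_lit 433) (nat_lit 5) (nat_lit 612) (nat_lit 582) (nat_lit 366)))) (XT.nd (nat_lit 78) (nat_lit 836) (nat_lit 0) (XT.lf (nat_lit 0) (nat_lit 7460238469) (nat_lit 988) (nat_lit 11392117178) (nat_lit 76) (nat_lit 427141666) (nat_lit 420)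 (nat_lit 5) (nat_lit 433) (nat_lit 5) (nat_lit 421) (nat_lit 5) (nat_lit 613) (nat_lit 582) (nat_lit 365)) (XT.nd (nat_lit 78) (nat_lit 836) (nat_lit 0) (XT.lf (nat_lit 0) (nat_lit 9648330001) (nat_lit 988) (nat_lit 861579435) (nat_lit 76) (nat_lit 8977930749) (nat_lit 420) (nat_lit 5) (nat_lit 433) (nat_lit 5) (nat_lit 421) (nat_lit 5) (nat_lit 614) (nat_lit 582) (nat_lit 364)) (XT.lf (nat_lit 0) (nat_lit 10005859387) (nat_lit 836) (nat_lit 1934146315) (nat_lit 912) (nat_lit 7759148053) (nat_lit 409) (nat_lit 5) (nat_lit 420) (nat_lit 5) (nat_lit 421) (nat_lit 5) (nat_lit 615) (nat_lit 582) (nat_lit 363))))))))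
noncomputable def xc188 : XT := (XT.nd (nat_lit 1560) (nat_lit 6764) (nat_lit 0) (XT.nd (nat_lit 780) (nat_lit 3572) (nat_lit 0) (XT.nd (nat_lit 390) (nat_lit 2204) (nat_lit 0) (XT.nd (nat_lit 156) (nat_lit 1748) (nat_lit 0) (XT.nd (nat_lit 78) (nat_lit 0) (nat_lit 0) (XT.lf (nat_lit 0) (nat_lit 1153595234) (nat_lit 836) (nat_lit 13176392633) (nat_lit 912) (nat_lit 5583656554) (nat_lit 398) (nat_lit 5) (nat_lit 409) (nat_lit 5) (nat_lit 410) (nat_lit 5) (nat_lit 616) (nat_lit 582) (nat_lit 362)) (XT.lf (nat_lit 0) (nat_lit 12330862927) (nat_lit 836) (nat_lit 4509673382) (nat_lit 912) (nat_lit 3290433537) (nat_lit 398) (nat_lit 5) (nat_lit 409) (nat_lit 5) (nat_lit 410) (nat_lit 5) (nat_lit 617) (nat_lit 582) (nat_lit 361))) (XT.nd (nat_lit 78) (nat_lit 912) (nat_lit 0) (XT.lf (nat_lit 0) (nat_lit 3390407544) (nat_lit 836) (nat_lit 16056109859) (nat_lit 912) (nat_lit 905220214) (nat_lit 387) (nat_lit 5) (nat_lit 398) (nat_lit 5) (nat_lit 399) (nat_lit 5) (nat_lit 618) (nat_lit 582) (nat_lit 360)) (XT.nd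 (nat_lit 78) (nat_lit 836) (nat_lit 0) (XT.lf (nat_lit 0) (nat_lit 1585341183) (nat_lit 912) (nat_lit 5710549003) (nat_lit 76) (nat_lit 13279278847) (nat_lit 386) (nat_lit 5) (nat_lit 398) (nat_lit 5) (nat_lit 387) (nat_lit 5) (nat_lit 619) (nat_lit 582) (nat_lit 359)) (XT.lf (nat_lit 0) (nat_lit 4157616829) (nat_lit 912) (nat_lit 14982408191) (nat_lit 76) (nat_lit 1662044165) (nat_lit 375) (nat_lit 5) (nat_lit 387) (nat_lit 5) (nat_lit 376) (nat_lit 5) (nat_lit 620) (nat_lit 582) (nat_lit 358))))) (XT.nd (nat_lit 156) (nat_lit 1444) (nat_lit 0) (XT.nd (nat_lit 78) (nat_lit 760) (nat_lit 0) (XT.lf (nat_lit 0) (nat_lit 6863511277) (nat_lit 912) (nat_lit 3428400761) (nat_lit 76) (nat_lit 10739952089) (nat_lit 375) (nat_lit 5) (nat_lit 387) (nat_lit 5) (nat_lit 376) (nat_lit 5) (nat_lit 621) (nat_lit 582) (nat_lit 357)) (XT.lf (nat_lit 0) (nat_lit 8462803410) (nat_lit 760) (nat_lit 1211040422) (nat_lit 836) (nat_lit 11591404976) (nat_lit 365) (nat_lit 5) (nat_lit 375) (nat_lit 5) (nat_lit 376) (nat_lit 5)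 (nat_lit 622) (nat_lit 582) (nat_lit 356))) (XT.nd (nat_lit 78) (nat_lit 1444) (nat_lit 0) (XT.lf (nat_lit 0) (nat_lit 12611248674) (nat_lit 836) (nat_lit 921896533) (nat_lit 76) (nat_lit 7968738906) (nat_lit 365) (nat_lit 5) (nat_lit 376) (nat_lit 5) (nat_lit 366) (nat_lit 5) (nat_lit 623) (nat_lit 582) (nat_lit 355)) (XT.nd (nat_lit 78) (nat_lit 684) (nat_lit 0) (XT.lf (nat_lit 0) (nat_lit 11332029175) (nat_lit 760) (nat_lit 4352488757) (nat_lit 836) (nat_lit 6057192102) (nat_lit 355) (nat_lit 5) (nat_lit 365) (nat_lit 5) (nat_lit 366) (nat_lit 5) (nat_lit 624) (nat_lit 582) (nat_lit 354)) (XT.lf (nat_lit 0) (nat_lit 1844035296) (nat_lit 684) (nat_lit 17021532455) (nat_lit 760) (nat_lit 3119838652) (nat_lit 346) (nat_lit 5) (nat_lit 355) (nat_lit 5) (nat_lit 356) (nat_lit 5) (nat_lit 625) (nat_lit 582) (nat_lit 353)))))) (XT.nd (nat_lit 390) (nat_lit 2052) (nat_lit 0) (XT.nd (nat_lit 156) (nat_lit 684) (nat_lit 0) (XT.nd (nat_lit 78) (nat_lit 836) (nat_lit 0) (XT.lf (nat_lit 0) (nat_lit 14449866434) (nat_lit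 684) (nat_lit 7754491871) (nat_lit 760) (nat_lit 27736227) (nat_lit 346) (nat_lit 5) (nat_lit 355) (nat_lit 5) (nat_lit 356) (nat_lit 5) (nat_lit 626) (nat_lit 582) (nat_lit 352)) (XT.lf (nat_lit 0) (nat_lit 3123831331) (nat_lit 836) (nat_lit 17631373354) (nat_lit 76) (nat_lit 1727333534) (nat_lit 335) (nat_lit 5) (nat_lit 346) (nat_lit 5) (nat_lit 336) (nat_lit 5) (nat_lit 627) (nat_lit 582) (nat_lit 351))) (XT.nd (nat_lit 78) (nat_lit 684) (nat_lit 0) (XT.lf (nat_lit 0) (nat_lit 6437719768) (nat_lit 836) (nat_lit 4950984600) (nat_lit 76) (nat_lit 11347289739) (nat_lit 335) (nat_lit 5) (nat_lit 346) (nat_lit 5) (nat_lit 336) (nat_lit 5) (nat_lit 628) (nat_lit 582) (nat_lit 350)) (XT.nd (nat_lit 78) (nat_lit 0) (nat_lit 0) (XT.lf (nat_lit 0) (nat_lit 8084263660) (nat_lit 684) (nat_lit 1781931915) (nat_lit 760) (nat_lit 13127357556) (nat_lit 326) (nat_lit 5) (nat_lit 335) (nat_lit 5) (nat_lit 336) (nat_lit 5) (nat_lit 629) (nat_lit 582) (nat_lit 349)) (XT.lf (nat_lit 0) (nat_lit 13444604504) (nat_lit 760)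 (nat_lit 1865363815) (nat_lit 76) (nat_lit 7944667951) (nat_lit 326) (nat_lit 5) (nat_lit 336) (nat_lit 5) (nat_lit 327) (nat_lit 5) (nat_lit 630) (nat_lit 582) (nat_lit 348))))) (XT.nd (nat_lit 156) (nat_lit 760) (nat_lit 0) (XT.nd (nat_lit 78) (nat_lit 608) (nat_lit 0) (XT.lf (nat_lit 0) (nat_lit 11574716330) (nat_lit 684) (nat_lit 5602766245) (nat_lit 760) (nat_lit 6341800681) (nat_lit 317) (nat_lit 5) (nat_lit 326) (nat_lit 5) (nat_lit 327) (nat_lit 5) (nat_lit 631) (nat_lit 582) (nat_lit 347)) (XT.lf (nat_lit 0) (nat_lit 1506909754) (nat_lit 608) (nat_lit 19524395788) (nat_lit 684) (nat_lit 2756992091) (nat_lit 309) (nat_lit 5) (nat_lit 317) (nat_lit 5) (nat_lit 318) (nat_lit 5) (nat_lit 632) (nat_lit 582) (nat_lit 346))) (XT.nd (nat_lit 78) (nat_lit 684) (nat_lit 0) (XT.lf (nat_lit 0) (nat_lit 1001520108) (nat_lit 684) (nat_lit 8720030966) (nat_lit 76) (nat_lit 14338748515) (nat_lit 308) (nat_lit 5) (nat_lit 317) (nat_lit 5) (nat_lit 309) (nat_lit 5) (nat_lit 633) (nat_lit 582) (nat_lit 345)) (XT.nd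 (nat_lit 78) (nat_lit 0) (nat_lit 0) (XT.lf (nat_lit 0) (nat_lit 4830036645) (nat_lit 760) (nat_lit 19181690426) (nat_lit 76) (nat_lit 325015222) (nat_lit 299) (nat_lit 5) (nat_lit 309) (nat_lit 5) (nat_lit 300) (nat_lit 5) (nat_lit 634) (nat_lit 582) (nat_lit 344)) (XT.lf (nat_lit 0) (nat_lit 8854542479) (nat_lit 760) (nat_lit 5261214740) (nat_lit 76) (nat_lit 10500568435) (nat_lit 299) (nat_lit 5) (nat_lit 309) (nat_lit 5) (nat_lit 300) (nat_lit 5) (nat_lit 635) (nat_lit 582) (nat_lit 343))))))) (XT.nd (nat_lit 780) (nat_lit 3116) (nat_lit 0) (XT.nd (nat_lit 390) (nat_lit 1748) (nat_lit 0) (XT.nd (nat_lit 156) (nat_lit 1292) (nat_lit 0) (XT.nd (nat_lit 78) (nat_lit 0) (nat_lit 0) (XT.lf (nat_lit 0) (nat_lit 9051737362) (nat_lit 608) (nat_lit 3962781060) (nat_lit 684) (nat_lit 11885882841) (nat_lit 291) (nat_lit 5) (nat_lit 299) (nat_lit 5) (nat_lit 300) (nat_lit 5) (nat_lit 636) (nat_lit 582) (nat_lit 342)) (XT.lf (nat_lit 0) (nat_lit 17330991244) (nat_lit 684) (nat_lit 1513616781) (nat_lit 76) (nat_lit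 6344084586) (nat_lit 291) (nat_lit 5) (nat_lit 300) (nat_lit 5) (nat_lit 292) (nat_lit 5) (nat_lit 637) (nat_lit 582) (nat_lit 341))) (XT.nd (nat_lit 78) (nat_lit 684) (nat_lit 0) (XT.lf (nat_lit 0) (nat_lit 13251082831) (nat_lit 608) (nat_lit 8591311426) (nat_lit 684) (nat_lit 3638183690) (nat_lit 283) (nat_lit 5) (nat_lit 291) (nat_lit 5) (nat_lit 292) (nat_lit 5) (nat_lit 638) (nat_lit 582) (nat_lit 340)) (XT.nd (nat_lit 78) (nat_lit 0) (nat_lit 0) (XT.lf (nat_lit 0) (nat_lit 692621459) (nat_lit 684) (nat_lit 23211764067) (nat_lit 76) (nat_lit 1873116617) (nat_lit 274) (nat_lit 5) (nat_lit 283) (nat_lit 5) (nat_lit 275) (nat_lit 5) (nat_lit 639) (nat_lit 582) (nat_lit 339)) (XT.lf (nat_lit 0) (nat_lit 5197255194) (nat_lit 684) (nat_lit 8342256710) (nat_lit 76) (nat_lit 12537653560) (nat_lit 274) (nat_lit 5) (nat_lit 283) (nat_lit 5) (nat_lit 275) (nat_lit 5) (nat_lit 640) (nat_lit 582) (nat_lit 338))))) (XT.nd (nat_lit 156) (nat_lit 1140) (nat_lit 0) (XT.nd (nat_lit 78) (nat_lit 0) (nat_lit 0) (XT.lf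 (nat_lit 0) (nat_lit 6910717614) (nat_lit 608) (nat_lit 2922580291) (nat_lit 684) (nat_lit 16548697979) (nat_lit 266) (nat_lit 5) (nat_lit 274) (nat_lit 5) (nat_lit 275) (nat_lit 5) (nat_lit 641) (nat_lit 582) (nat_lit 337)) (XT.lf (nat_lit 0) (nat_lit 14666229615) (nat_lit 684) (nat_lit 4166268894) (nat_lit 76) (nat_lit 7858341197) (nat_lit 266) (nat_lit 5) (nat_lit 275) (nat_lit 5) (nat_lit 267) (nat_lit 5) (nat_lit 642) (nat_lit 582) (nat_lit 336))) (XT.nd (nat_lit 78) (nat_lit 608) (nat_lit 0) (XT.lf (nat_lit 0) (nat_lit 11572762438) (nat_lit 532) (nat_lit 8114100407) (nat_lit 608) (nat_lit 7317176854) (nat_lit 259) (nat_lit 5) (nat_lit 266) (nat_lit 5) (nat_lit 267) (nat_lit 5) (nat_lit 643) (nat_lit 582) (nat_lit 335)) (XT.nd (nat_lit 78) (nat_lit 76) (nat_lit 0) (XT.lf (nat_lit 0) (nat_lit 341564489) (nat_lit 532) (nat_lit 24511587288) (nat_lit 608) (nat_lit 2469447206) (nat_lit 252) (nat_lit 5) (nat_lit 259) (nat_lit 5) (nat_lit 260) (nat_lit 5) (nat_lit 644) (nat_lit 582) (nat_lit 334)) (XT.lf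 (nat_lit 0) (nat_lit 2597344352) (nat_lit 608) (nat_lit 11081462396) (nat_lit 76) (nat_lit 13965310022) (nat_lit 251) (nat_lit 5) (nat_lit 259) (nat_lit 5) (nat_lit 252) (nat_lit 5) (nat_lit 645) (nat_lit 582) (nat_lit 333)))))) (XT.nd (nat_lit 390) (nat_lit 1520) (nat_lit 0) (XT.nd (nat_lit 156) (nat_lit 1064) (nat_lit 0) (XT.nd (nat_lit 78) (nat_lit 0) (nat_lit 0) (XT.lf (nat_lit 0) (nat_lit 5183266205) (nat_lit 532) (nat_lit 2579487441) (nat_lit 608) (nat_lit 20208377990) (nat_lit 244) (nat_lit 5) (nat_lit 251) (nat_lit 5) (nat_lit 252) (nat_lit 5) (nat_lit 646) (nat_lit 582) (nat_lit 332)) (XT.lf (nat_lit 0) (nat_lit 13159776714) (nat_lit 608) (nat_lit 6441438077) (nat_lit 76) (nat_lit 8700906035) (nat_lit 244) (nat_lit 5) (nat_lit 252) (nat_lit 5) (nat_lit 245) (nat_lit 5) (nat_lit 647) (nat_lit 582) (nat_lit 331))) (XT.nd (nat_lit 78) (nat_lit 532) (nat_lit 0) (XT.lf (nat_lit 0) (nat_lit 10346124551) (nat_lit 532) (nat_lit 8399630130) (nat_lit 608) (nat_lit 9892354968) (nat_lit 237) (nat_lit 5) (nat_lit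 244) (nat_lit 5) (nat_lit 245) (nat_lit 5) (nat_lit 648) (nat_lit 582) (nat_lit 330)) (XT.nd (nat_lit 78) (nat_lit 532) (nat_lit 0) (XT.lf (nat_lit 0) (nat_lit 24503396066) (nat_lit 608) (nat_lit 1447562489) (nat_lit 76) (nat_lit 3028660949) (nat_lit 237) (nat_lit 5) (nat_lit 245) (nat_lit 5) (nat_lit 238) (nat_lit 5) (nat_lit 649) (nat_lit 582) (nat_lit 329)) (XT.lf (nat_lit 0) (nat_lit 1191105403) (nat_lit 532) (nat_lit 13450608653) (nat_lit 76) (nat_lit 14682977063) (nat_lit 230) (nat_lit 5) (nat_lit 237) (nat_lit 5) (nat_lit 231) (nat_lit 5) (nat_lit 650) (nat_lit 582) (nat_lit 328))))) (XT.nd (nat_lit 156) (nat_lit 988) (nat_lit 0) (XT.nd (nat_lit 78) (nat_lit 0) (nat_lit 0) (XT.lf (nat_lit 0) (nat_lit 3902429381) (nat_lit 532) (nat_lit 3041447721) (nat_lit 608) (nat_lit 22731554777) (nat_lit 223) (nat_lit 5) (nat_lit 230) (nat_lit 5) (nat_lit 231) (nat_lit 5) (nat_lit 651) (nat_lit 582) (nat_lit 327)) (XT.lf (nat_lit 0) (nat_lit 12956525506) (nat_lit 608) (nat_lit 8308582778) (nat_lit 76) (nat_lit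 8765182867) (nat_lit 223) (nat_lit 5) (nat_lit 231) (nat_lit 5) (nat_lit 224) (nat_lit 5) (nat_lit 652) (nat_lit 582) (nat_lit 326))) (XT.nd (nat_lit 78) (nat_lit 532) (nat_lit 0) (XT.lf (nat_lit 0) (nat_lit 9606680920) (nat_lit 456) (nat_lit 9562208974) (nat_lit 532) (nat_lit 11221768575) (nat_lit 217) (nat_lit 5) (nat_lit 223) (nat_lit 5) (nat_lit 224) (nat_lit 5) (nat_lit 653) (nat_lit 582) (nat_lit 325)) (XT.nd (nat_lit 78) (nat_lit 532) (nat_lit 0) (XT.lf (nat_lit 0) (nat_lit 25574016284) (nat_lit 532) (nat_lit 2784350675) (nat_lit 76) (nat_lit 2398495999) (nat_lit 217) (nat_lit 5) (nat_lit 224) (nat_lit 5) (nat_lit 218) (nat_lit 5) (nat_lit 654) (nat_lit 582) (nat_lit 324)) (XT.lf (nat_lit 0) (nat_lit 1127499032) (nat_lit 532) (nat_lit 15420764830) (nat_lit 76) (nat_lit 14578731801) (nat_lit 210) (nat_lit 5) (nat_lit 217) (nat_lit 5) (nat_lit 211) (nat_lit 5) (nat_lit 655) (nat_lit 582) (nat_lit 323))))))))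
noncomputable def xc189 : XT := (XT.nd (nat_lit 76596) (nat_lit 0) (nat_lit 16112) (XT.nd (nat_lit 75816) (nat_lit 0) (nat_lit 23636) (XT.nd (nat_lit 390) (nat_lit 456) (nat_lit 0) (XT.nd (nat_lit 156) (nat_lit 912) (nat_lit 0) (XT.nd (nat_lit 78) (nat_lit 0) (nat_lit 0) (XT.lf (nat_lit 0) (nat_lit 3102201220) (nat_lit 456) (nat_lit 4428509495) (nat_lit 532) (nat_lit 23972414099) (nat_lit 204) (nat_lit 5) (nat_lit 210) (nat_lit 5) (nat_lit 211) (nat_lit 5) (nat_lit 656) (nat_lit 582) (nat_lit 322)) (XT.lf (nat_lit 0) (nat_lit 14214728811) (nat_lit 532) (nat_lit 9736512602) (nat_lit 76) (nat_lit 7932480402) (nat_lit 204) (nat_lit 5) (nat_lit 211) (nat_lit 5) (nat_lit 205) (nat_lit 5) (nat_lit 657) (nat_lit 582) (nat_lit 321))) (XT.nd (nat_lit 78) (nat_lit 456) (nat_lit 0) (XT.lf (nat_lit 0) (nat_lit 9390835902) (nat_lit 456) (nat_lit 11729013296) (nat_lit 532) (nat_lit 11150333226) (nat_lit 198) (nat_lit 5) (nat_lit 204) (nat_lit 5) (nat_lit 205) (nat_lit 5) (nat_lit 658) (nat_lit 582) (nat_lit 320)) (XT.nd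 (nat_lit 78) (nat_lit 456) (nat_lit 0) (XT.lf (nat_lit 0) (nat_lit 28230774627) (nat_lit 532) (nat_lit 3639781565) (nat_lit 76) (nat_lit 792462104) (nat_lit 198) (nat_lit 5) (nat_lit 205) (nat_lit 5) (nat_lit 199) (nat_lit 5) (nat_lit 659) (nat_lit 582) (nat_lit 319)) (XT.lf (nat_lit 0) (nat_lit 2569153404) (nat_lit 456) (nat_lit 16962908611) (nat_lit 76) (nat_lit 13527720959) (nat_lit 192) (nat_lit 5) (nat_lit 198) (nat_lit 5) (nat_lit 193) (nat_lit 5) (nat_lit 660) (nat_lit 582) (nat_lit 318))))) (XT.nd (nat_lit 75192) (nat_lit 0) (nat_lit 23560) (XT.nd (nat_lit 75114) (nat_lit 0) (nat_lit 23560) (XT.lf (nat_lit 0) (nat_lit 2816903052) (nat_lit 456) (nat_lit 6874468214) (nat_lit 532) (nat_lit 23771723023) (nat_lit 186) (nat_lit 5) (nat_lit 192) (nat_lit 5) (nat_lit 193) (nat_lit 5) (nat_lit 661) (nat_lit 582) (nat_lit 317)) (XT.lf (nat_lit 0) (nat_lit 1495326807) (nat_lit 0) (nat_lit 1495326807) (nat_lit 1748) (nat_lit 4190212838) (nat_lit 496) (nat_lit 5) (nat_lit 496) (nat_lit 3) (nat_lit 519) (nat_lit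 3) (nat_lit 583) (nat_lit 583) (nat_lit 394))) (XT.nd (nat_lit 78) (nat_lit 0) (nat_lit 0) (XT.lf (nat_lit 0) (nat_lit 6393205544) (nat_lit 1748) (nat_lit 4270503574) (nat_lit 1824) (nat_lit 3834579056) (nat_lit 496) (nat_lit 5) (nat_lit 519) (nat_lit 3) (nat_lit 520) (nat_lit 5) (nat_lit 584) (nat_lit 583) (nat_lit 393)) (XT.nd (nat_lit 78) (nat_lit 0) (nat_lit 76) (XT.lf (nat_lit 76) (nat_lit 2986965962) (nat_lit 0) (nat_lit 3857029118) (nat_lit 1824) (nat_lit 7792966938) (nat_lit 497) (nat_lit 5) (nat_lit 496) (nat_lit 5) (nat_lit 520) (nat_lit 5) (nat_lit 585) (nat_lit 583) (nat_lit 392)) (XT.lf (nat_lit 0) (nat_lit 7344300984) (nat_lit 1748) (nat_lit 4355239678) (nat_lit 1824) (nat_lit 3078059188) (nat_lit 497) (nat_lit 5) (nat_lit 520) (nat_lit 5) (nat_lit 521) (nat_lit 5) (nat_lit 586) (nat_lit 583) (nat_lit 391)))))) (XT.nd (nat_lit 390) (nat_lit 0) (nat_lit 228) (XT.nd (nat_lit 156) (nat_lit 0) (nat_lit 76) (XT.nd (nat_lit 78) (nat_lit 0) (nat_lit 76) (XT.lf (nat_lit 76) (nat_lit 3095911801) (nat_lit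 0) (nat_lit 4796128009) (nat_lit 1824) (nat_lit 7028262608) (nat_lit 498) (nat_lit 5) (nat_lit 497) (nat_lit 5) (nat_lit 521) (nat_lit 5) (nat_lit 587) (nat_lit 583) (nat_lit 390)) (XT.lf (nat_lit 0) (nat_lit 8486668873) (nat_lit 1748) (nat_lit 4329639176) (nat_lit 1824) (nat_lit 2248832779) (nat_lit 498) (nat_lit 5) (nat_lit 521) (nat_lit 5) (nat_lit 522) (nat_lit 5) (nat_lit 588) (nat_lit 583) (nat_lit 389))) (XT.nd (nat_lit 78) (nat_lit 0) (nat_lit 76) (XT.lf (nat_lit 76) (nat_lit 3322192954) (nat_lit 0) (nat_lit 5816425607) (nat_lit 1824) (nat_lit 6073349380) (nat_lit 499) (nat_lit 5) (nat_lit 498) (nat_lit 5) (nat_lit 522) (nat_lit 5) (nat_lit 589) (nat_lit 583) (nat_lit 388)) (XT.nd (nat_lit 78) (nat_lit 0) (nat_lit 0) (XT.lf (nat_lit 0) (nat_lit 9833688140) (nat_lit 1748) (nat_lit 4188953941) (nat_lit 1824) (nat_lit 1338488380) (nat_lit 499) (nat_lit 5) (nat_lit 522) (nat_lit 5) (nat_lit 523) (nat_lit 5) (nat_lit 590) (nat_lit 583) (nat_lit 387)) (XT.lf (nat_lit 76) (nat_lit 3670831889) (nat_lit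 0) (nat_lit 6926573779) (nat_lit 1824) (nat_lit 4914776107) (nat_lit 500) (nat_lit 5) (nat_lit 499) (nat_lit 5) (nat_lit 523) (nat_lit 5) (nat_lit 591) (nat_lit 583) (nat_lit 386))))) (XT.nd (nat_lit 156) (nat_lit 0) (nat_lit 0) (XT.nd (nat_lit 78) (nat_lit 0) (nat_lit 0) (XT.lf (nat_lit 0) (nat_lit 11399246856) (nat_lit 1748) (nat_lit 3928117964) (nat_lit 1824) (nat_lit 338432772) (nat_lit 500) (nat_lit 5) (nat_lit 523) (nat_lit 5) (nat_lit 524) (nat_lit 5) (nat_lit 592) (nat_lit 583) (nat_lit 385)) (XT.lf (nat_lit 76) (nat_lit 4147178847) (nat_lit 0) (nat_lit 8135421199) (nat_lit 1824) (nat_lit 3538576633) (nat_lit 501) (nat_lit 5) (nat_lit 500) (nat_lit 5) (nat_lit 524) (nat_lit 5) (nat_lit 593) (nat_lit 583) (nat_lit 384))) (XT.nd (nat_lit 78) (nat_lit 0) (nat_lit 76) (XT.lf (nat_lit 76) (nat_lit 12432539922) (nat_lit 0) (nat_lit 770230849) (nat_lit 1824) (nat_lit 2776510015) (nat_lit 501) (nat_lit 5) (nat_lit 500) (nat_lit 5) (nat_lit 524) (nat_lit 5) (nat_lit 594) (nat_lit 583) (nat_lit 383)) (XT.nd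 (nat_lit 78) (nat_lit 0) (nat_lit 0) (XT.lf (nat_lit 76) (nat_lit 4756919593) (nat_lit 0) (nat_lit 9452033774) (nat_lit 1824) (nat_lit 1930241875) (nat_lit 502) (nat_lit 5) (nat_lit 501) (nat_lit 5) (nat_lit 525) (nat_lit 5) (nat_lit 595) (nat_lit 583) (nat_lit 382)) (XT.lf (nat_lit 76) (nat_lit 13264838628) (nat_lit 0) (nat_lit 1992344535) (nat_lit 1824) (nat_lit 1044686783) (nat_lit 502) (nat_lit 5) (nat_lit 501) (nat_lit 5) (nat_lit 525) (nat_lit 5) (nat_lit 596) (nat_lit 583) (nat_lit 381))))))) (XT.nd (nat_lit 780) (nat_lit 6080) (nat_lit 0) (XT.nd (nat_lit 390) (nat_lit 0) (nat_lit 152) (XT.nd (nat_lit 156) (nat_lit 0) (nat_lit 76) (XT.nd (nat_lit 78) (nat_lit 1824) (nat_lit 0) (XT.lf (nat_lit 76) (nat_lit 5506083786) (nat_lit 0) (nat_lit 10885715254) (nat_lit 1824) (nat_lit 74691096) (nat_lit 503) (nat_lit 5) (nat_lit 502) (nat_lit 5) (nat_lit 526) (nat_lit 5) (nat_lit 597) (nat_lit 583) (nat_lit 380)) (XT.lf (nat_lit 0) (nat_lit 929681069) (nat_lit 1824) (nat_lit 2396873915) (nat_lit 1900) (nat_lit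 13307189911) (nat_lit 478) (nat_lit 5) (nat_lit 502) (nat_lit 5) (nat_lit 503) (nat_lit 5) (nat_lit 598) (nat_lit 583) (nat_lit 379))) (XT.nd (nat_lit 78) (nat_lit 0) (nat_lit 0) (XT.lf (nat_lit 0) (nat_lit 2016953437) (nat_lit 1824) (nat_lit 10415539848) (nat_lit 1900) (nat_lit 4370565730) (nat_lit 479) (nat_lit 5) (nat_lit 503) (nat_lit 5) (nat_lit 504) (nat_lit 5) (nat_lit 599) (nat_lit 583) (nat_lit 378)) (XT.nd (nat_lit 78) (nat_lit 0) (nat_lit 76) (XT.lf (nat_lit 0) (nat_lit 3157698529) (nat_lit 1824) (nat_lit 1622339637) (nat_lit 1900) (nat_lit 12195087094) (nat_lit 479) (nat_lit 5) (nat_lit 503) (nat_lit 5) (nat_lit 504) (nat_lit 5) (nat_lit 600) (nat_lit 583) (nat_lit 377)) (XT.lf (nat_lit 0) (nat_lit 4383168197) (nat_lit 1824) (nat_lit 9730233100) (nat_lit 1900) (nat_lit 3035993722) (nat_lit 480) (nat_lit 5) (nat_lit 504) (nat_lit 5) (nat_lit 505) (nat_lit 5) (nat_lit 601) (nat_lit 583) (nat_lit 376))))) (XT.nd (nat_lit 156) (nat_lit 0) (nat_lit 76) (XT.nd (nat_lit 78) (nat_lit 0) (nat_lit 76)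 (XT.lf (nat_lit 0) (nat_lit 5669499771) (nat_lit 1824) (nat_lit 700040571) (nat_lit 1900) (nat_lit 10956883152) (nat_lit 480) (nat_lit 5) (nat_lit 504) (nat_lit 5) (nat_lit 505) (nat_lit 5) (nat_lit 602) (nat_lit 583) (nat_lit 375)) (XT.lf (nat_lit 0) (nat_lit 7041687043) (nat_lit 1824) (nat_lit 8897278172) (nat_lit 1900) (nat_lit 1566825111) (nat_lit 481) (nat_lit 5) (nat_lit 505) (nat_lit 5) (nat_lit 506) (nat_lit 5) (nat_lit 603) (nat_lit 583) (nat_lit 374))) (XT.nd (nat_lit 78) (nat_lit 0) (nat_lit 0) (XT.lf (nat_lit 76) (nat_lit 382003166) (nat_lit 0) (nat_lit 8102664953) (nat_lit 1900) (nat_lit 9203209734) (nat_lit 482) (nat_lit 5) (nat_lit 481) (nat_lit 5) (nat_lit 506) (nat_lit 5) (nat_lit 604) (nat_lit 583) (nat_lit 373)) (XT.nd (nat_lit 78) (nat_lit 0) (nat_lit 76) (XT.lf (nat_lit 76) (nat_lit 9962639098) (nat_lit 0) (nat_lit 47620899) (nat_lit 1900) (nat_lit 7862272460) (nat_lit 482) (nat_lit 5) (nat_lit 481) (nat_lit 5) (nat_lit 506) (nat_lit 5) (nat_lit 605) (nat_lit 583) (nat_lit 372)) (XT.lf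 (nat_lit 76) (nat_lit 1637583956) (nat_lit 0) (nat_lit 9986617145) (nat_lit 1900) (nat_lit 6435522651) (nat_lit 483) (nat_lit 5) (nat_lit 482) (nat_lit 5) (nat_lit 507) (nat_lit 5) (nat_lit 606) (nat_lit 583) (nat_lit 371)))))) (XT.nd (nat_lit 390) (nat_lit 3496) (nat_lit 0) (XT.nd (nat_lit 156) (nat_lit 1140) (nat_lit 0) (XT.nd (nat_lit 78) (nat_lit 1748) (nat_lit 0) (XT.lf (nat_lit 76) (nat_lit 11478078584) (nat_lit 0) (nat_lit 1839987856) (nat_lit 1900) (nat_lit 4931639864) (nat_lit 483) (nat_lit 5) (nat_lit 482) (nat_lit 5) (nat_lit 507) (nat_lit 5) (nat_lit 607) (nat_lit 583) (nat_lit 370)) (XT.lf (nat_lit 0) (nat_lit 3065233485) (nat_lit 1824) (nat_lit 12036852978) (nat_lit 1900) (nat_lit 3340276828) (nat_lit 459) (nat_lit 5) (nat_lit 483) (nat_lit 5) (nat_lit 484) (nat_lit 5) (nat_lit 608) (nat_lit 583) (nat_lit 369))) (XT.nd (nat_lit 78) (nat_lit 1140) (nat_lit 0) (XT.lf (nat_lit 0) (nat_lit 13173450348) (nat_lit 1824) (nat_lit 3800333030) (nat_lit 1900) (nat_lit 1664050434) (nat_lit 459) (nat_lit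 5) (nat_lit 483) (nat_lit 5) (nat_lit 484) (nat_lit 5) (nat_lit 609) (nat_lit 583) (nat_lit 368)) (XT.nd (nat_lit 78) (nat_lit 0) (nat_lit 0) (XT.lf (nat_lit 0) (nat_lit 100240781) (nat_lit 1140) (nat_lit 14163587278) (nat_lit 76) (nat_lit 4572277271) (nat_lit 444) (nat_lit 5) (nat_lit 459) (nat_lit 5) (nat_lit 445) (nat_lit 5) (nat_lit 610) (nat_lit 583) (nat_lit 367)) (XT.lf (nat_lit 0) (nat_lit 1934239604) (nat_lit 1140) (nat_lit 3992695721) (nat_lit 76) (nat_lit 13110053204) (nat_lit 444) (nat_lit 5) (nat_lit 459) (nat_lit 5) (nat_lit 445) (nat_lit 5) (nat_lit 611) (nat_lit 583) (nat_lit 366))))) (XT.nd (nat_lit 234) (nat_lit 1672) (nat_lit 0) (XT.nd (nat_lit 78) (nat_lit 912) (nat_lit 0) (XT.lf (nat_lit 0) (nat_lit 3858590820) (nat_lit 988) (nat_lit 12796597844) (nat_lit 76) (nat_lit 2585627580) (nat_lit 432) (nat_lit 5) (nat_lit 445) (nat_lit 5) (nat_lit 433) (nat_lit 5) (nat_lit 612) (nat_lit 583) (nat_lit 365)) (XT.nd (nat_lit 78) (nat_lit 912) (nat_lit 0) (XT.lf (nat_lit 0) (nat_lit 5882435578)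 (nat_lit 988) (nat_lit 2348485602) (nat_lit 76) (nat_lit 11216579498) (nat_lit 432) (nat_lit 5) (nat_lit 445) (nat_lit 5) (nat_lit 433) (nat_lit 5) (nat_lit 613) (nat_lit 583) (nat_lit 364)) (XT.lf (nat_lit 0) (nat_lit 7998987914) (nat_lit 988) (nat_lit 11245869479) (nat_lit 76) (nat_lit 412417083) (nat_lit 420) (nat_lit 5) (nat_lit 433) (nat_lit 5) (nat_lit 421) (nat_lit 5) (nat_lit 614) (nat_lit 583) (nat_lit 363)))) (XT.nd (nat_lit 78) (nat_lit 1672) (nat_lit 0) (XT.lf (nat_lit 0) (nat_lit 10223203146) (nat_lit 988) (nat_lit 512056079) (nat_lit 76) (nat_lit 9134678171) (nat_lit 420) (nat_lit 5) (nat_lit 433) (nat_lit 5) (nat_lit 421) (nat_lit 5) (nat_lit 615) (nat_lit 583) (nat_lit 362)) (XT.nd (nat_lit 78) (nat_lit 836) (nat_lit 0) (XT.lf (nat_lit 0) (nat_lit 10570318657) (nat_lit 836) (nat_lit 1985270891) (nat_lit 912) (nat_lit 7529990567) (nat_lit 409) (nat_lit 5) (nat_lit 420) (nat_lit 5) (nat_lit 421) (nat_lit 5) (nat_lit 616) (nat_lit 583) (nat_lit 361)) (XT.lf (nat_lit 0) (nat_lit 1546199482)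 (nat_lit 836) (nat_lit 13442104011) (nat_lit 912) (nat_lit 5316158871) (nat_lit 398) (nat_lit 5) (nat_lit 409) (nat_lit 5) (nat_lit 410) (nat_lit 5) (nat_lit 617) (nat_lit 583) (nat_lit 360))))))))
noncomputable def xc190 : XT := (XT.nd (nat_lit 1560) (nat_lit 6612) (nat_lit 0) (XT.nd (nat_lit 780) (nat_lit 4104) (nat_lit 0) (XT.nd (nat_lit 390) (nat_lit 2280) (nat_lit 0) (XT.nd (nat_lit 156) (nat_lit 912) (nat_lit 0) (XT.nd (nat_lit 78) (nat_lit 836) (nat_lit 0) (XT.lf (nat_lit 0) (nat_lit 12939766797) (nat_lit 836) (nat_lit 4602007561) (nat_lit 912) (nat_lit 2984506115) (nat_lit 398) (nat_lit 5) (nat_lit 409) (nat_lit 5) (nat_lit 410) (nat_lit 5) (nat_lit 618) (nat_lit 583) (nat_lit 359)) (XT.lf (nat_lit 0) (nat_lit 3825393335) (nat_lit 836) (nat_lit 16369706440) (nat_lit 912) (nat_lit 556459728) (nat_lit 387) (nat_lit 5) (nat_lit 398) (nat_lit 5) (nat_lit 399) (nat_lit 5) (nat_lit 619) (nat_lit 583) (nat_lit 358))) (XT.nd (nat_lit 78) (nat_lit 836) (nat_lit 0) (XT.lf (nat_lit 0) (nat_lit 1972002312)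 (nat_lit 912) (nat_lit 5460045692) (nat_lit 76) (nat_lit 13547506266) (nat_lit 386) (nat_lit 5) (nat_lit 398) (nat_lit 5) (nat_lit 387) (nat_lit 5) (nat_lit 620) (nat_lit 583) (nat_lit 357)) (XT.nd (nat_lit 78) (nat_lit 0) (nat_lit 0) (XT.lf (nat_lit 0) (nat_lit 4591193675) (nat_lit 912) (nat_lit 14912793585) (nat_lit 76) (nat_lit 1707096135) (nat_lit 375) (nat_lit 5) (nat_lit 387) (nat_lit 5) (nat_lit 376) (nat_lit 5) (nat_lit 621) (nat_lit 583) (nat_lit 356)) (XT.lf (nat_lit 0) (nat_lit 7344334944) (nat_lit 912) (nat_lit 3134946452) (nat_lit 76) (nat_lit 10966330627) (nat_lit 375) (nat_lit 5) (nat_lit 387) (nat_lit 5) (nat_lit 376) (nat_lit 5) (nat_lit 622) (nat_lit 583) (nat_lit 355))))) (XT.nd (nat_lit 156) (nat_lit 1520) (nat_lit 0) (XT.nd (nat_lit 78) (nat_lit 0) (nat_lit 0) (XT.lf (nat_lit 0) (nat_lit 8991700076) (nat_lit 760) (nat_lit 1214772757) (nat_lit 836) (nat_lit 11477279951) (nat_lit 365) (nat_lit 5) (nat_lit 375) (nat_lit 5) (nat_lit 376) (nat_lit 5) (nat_lit 623) (nat_lit 583) (nat_lit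 354)) (XT.lf (nat_lit 0) (nat_lit 13196106147) (nat_lit 836) (nat_lit 581208411) (nat_lit 76) (nat_lit 8147936981) (nat_lit 365) (nat_lit 5) (nat_lit 376) (nat_lit 5) (nat_lit 366) (nat_lit 5) (nat_lit 624) (nat_lit 583) (nat_lit 353))) (XT.nd (nat_lit 78) (nat_lit 760) (nat_lit 0) (XT.lf (nat_lit 0) (nat_lit 11915433140) (nat_lit 760) (nat_lit 4411201789) (nat_lit 836) (nat_lit 5843323513) (nat_lit 355) (nat_lit 5) (nat_lit 365) (nat_lit 5) (nat_lit 366) (nat_lit 5) (nat_lit 625) (nat_lit 583) (nat_lit 352)) (XT.nd (nat_lit 78) (nat_lit 76) (nat_lit 0) (XT.lf (nat_lit 0) (nat_lit 2241691951) (nat_lit 684) (nat_lit 17325696825) (nat_lit 760) (nat_lit 2851218640) (nat_lit 346) (nat_lit 5) (nat_lit 355) (nat_lit 5) (nat_lit 356) (nat_lit 5) (nat_lit 626) (nat_lit 583) (nat_lit 351)) (XT.lf (nat_lit 0) (nat_lit 292350128) (nat_lit 760) (nat_lit 7579714581) (nat_lit 76) (nat_lit 14798253721) (nat_lit 345) (nat_lit 5) (nat_lit 355) (nat_lit 5) (nat_lit 346) (nat_lit 5) (nat_lit 627) (nat_lit 583) (nat_lit 350))))))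 (XT.nd (nat_lit 390) (nat_lit 1976) (nat_lit 0) (XT.nd (nat_lit 156) (nat_lit 1368) (nat_lit 0) (XT.nd (nat_lit 78) (nat_lit 0) (nat_lit 0) (XT.lf (nat_lit 0) (nat_lit 3502862402) (nat_lit 836) (nat_lit 17622294883) (nat_lit 76) (nat_lit 1800684663) (nat_lit 335) (nat_lit 5) (nat_lit 346) (nat_lit 5) (nat_lit 336) (nat_lit 5) (nat_lit 628) (nat_lit 583) (nat_lit 349)) (XT.lf (nat_lit 0) (nat_lit 6876821658) (nat_lit 836) (nat_lit 4695390627) (nat_lit 76) (nat_lit 11612279120) (nat_lit 335) (nat_lit 5) (nat_lit 346) (nat_lit 5) (nat_lit 336) (nat_lit 5) (nat_lit 629) (nat_lit 583) (nat_lit 348))) (XT.nd (nat_lit 78) (nat_lit 684) (nat_lit 0) (XT.lf (nat_lit 0) (nat_lit 8598229613) (nat_lit 684) (nat_lit 1771839363) (nat_lit 760) (nat_lit 13077208901) (nat_lit 326) (nat_lit 5) (nat_lit 335) (nat_lit 5) (nat_lit 336) (nat_lit 5) (nat_lit 630) (nat_lit 583) (nat_lit 347)) (XT.nd (nat_lit 78) (nat_lit 684) (nat_lit 0) (XT.lf (nat_lit 0) (nat_lit 14014326404) (nat_lit 760) (nat_lit 1551563171) (nat_lit 76) (nat_lit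 8147807798) (nat_lit 326) (nat_lit 5) (nat_lit 336) (nat_lit 5) (nat_lit 327) (nat_lit 5) (nat_lit 631) (nat_lit 583) (nat_lit 346)) (XT.lf (nat_lit 0) (nat_lit 12155008657) (nat_lit 684) (nat_lit 5663219384) (nat_lit 760) (nat_lit 6165482232) (nat_lit 317) (nat_lit 5) (nat_lit 326) (nat_lit 5) (nat_lit 327) (nat_lit 5) (nat_lit 632) (nat_lit 583) (nat_lit 345))))) (XT.nd (nat_lit 156) (nat_lit 1292) (nat_lit 0) (XT.nd (nat_lit 78) (nat_lit 76) (nat_lit 0) (XT.lf (nat_lit 0) (nat_lit 1889137841) (nat_lit 608) (nat_lit 19856776725) (nat_lit 684) (nat_lit 2512254918) (nat_lit 309) (nat_lit 5) (nat_lit 317) (nat_lit 5) (nat_lit 318) (nat_lit 5) (nat_lit 633) (nat_lit 583) (nat_lit 344)) (XT.lf (nat_lit 0) (nat_lit 1311691758) (nat_lit 684) (nat_lit 8545375710) (nat_lit 76) (nat_lit 14678621405) (nat_lit 308) (nat_lit 5) (nat_lit 317) (nat_lit 5) (nat_lit 309) (nat_lit 5) (nat_lit 634) (nat_lit 583) (nat_lit 343))) (XT.nd (nat_lit 78) (nat_lit 608) (nat_lit 0) (XT.lf (nat_lit 0) (nat_lit 5213730897) (nat_lit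 760) (nat_lit 19213207020) (nat_lit 76) (nat_lit 390783741) (nat_lit 299) (nat_lit 5) (nat_lit 309) (nat_lit 5) (nat_lit 300) (nat_lit 5) (nat_lit 635) (nat_lit 583) (nat_lit 342)) (XT.nd (nat_lit 78) (nat_lit 608) (nat_lit 0) (XT.lf (nat_lit 0) (nat_lit 9313097563) (nat_lit 760) (nat_lit 5021226080) (nat_lit 76) (nat_lit 10768685897) (nat_lit 299) (nat_lit 5) (nat_lit 309) (nat_lit 5) (nat_lit 300) (nat_lit 5) (nat_lit 636) (nat_lit 583) (nat_lit 341)) (XT.lf (nat_lit 0) (nat_lit 9575713927) (nat_lit 608) (nat_lit 3977266797) (nat_lit 684) (nat_lit 11839852044) (nat_lit 291) (nat_lit 5) (nat_lit 299) (nat_lit 5) (nat_lit 300) (nat_lit 5) (nat_lit 637) (nat_lit 583) (nat_lit 340))))))) (XT.nd (nat_lit 780) (nat_lit 3040) (nat_lit 0) (XT.nd (nat_lit 390) (nat_lit 1672) (nat_lit 0) (XT.nd (nat_lit 156) (nat_lit 1292) (nat_lit 0) (XT.nd (nat_lit 78) (nat_lit 608) (nat_lit 0) (XT.lf (nat_lit 0) (nat_lit 17950740935) (nat_lit 684) (nat_lit 1202616756) (nat_lit 76) (nat_lit 6533633352) (nat_lit 291) (nat_lit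 5) (nat_lit 300) (nat_lit 5) (nat_lit 292) (nat_lit 5) (nat_lit 638) (nat_lit 583) (nat_lit 339)) (XT.lf (nat_lit 0) (nat_lit 13855131635) (nat_lit 608) (nat_lit 8694086073) (nat_lit 684) (nat_lit 3435559712) (nat_lit 283) (nat_lit 5) (nat_lit 291) (nat_lit 5) (nat_lit 292) (nat_lit 5) (nat_lit 639) (nat_lit 583) (nat_lit 338))) (XT.nd (nat_lit 78) (nat_lit 608) (nat_lit 0) (XT.lf (nat_lit 0) (nat_lit 975596709) (nat_lit 684) (nat_lit 23330682956) (nat_lit 76) (nat_lit 1981377980) (nat_lit 274) (nat_lit 5) (nat_lit 283) (nat_lit 5) (nat_lit 275) (nat_lit 5) (nat_lit 640) (nat_lit 583) (nat_lit 337)) (XT.nd (nat_lit 78) (nat_lit 608) (nat_lit 0) (XT.lf (nat_lit 0) (nat_lit 5565046200) (nat_lit 684) (nat_lit 8170556362) (nat_lit 76) (nat_lit 12857817445) (nat_lit 274) (nat_lit 5) (nat_lit 283) (nat_lit 5) (nat_lit 275) (nat_lit 5) (nat_lit 641) (nat_lit 583) (nat_lit 336)) (XT.lf (nat_lit 0) (nat_lit 7385250176) (nat_lit 608) (nat_lit 2905569741) (nat_lit 684) (nat_lit 16613587147) (nat_lit 266) (nat_lit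 5) (nat_lit 274) (nat_lit 5) (nat_lit 275) (nat_lit 5) (nat_lit 642) (nat_lit 583) (nat_lit 335))))) (XT.nd (nat_lit 156) (nat_lit 1140) (nat_lit 0) (XT.nd (nat_lit 78) (nat_lit 532) (nat_lit 0) (XT.lf (nat_lit 0) (nat_lit 15215775780) (nat_lit 684) (nat_lit 3915224668) (nat_lit 76) (nat_lit 8088520232) (nat_lit 266) (nat_lit 5) (nat_lit 275) (nat_lit 5) (nat_lit 267) (nat_lit 5) (nat_lit 643) (nat_lit 583) (nat_lit 334)) (XT.lf (nat_lit 0) (nat_lit 12136387491) (nat_lit 532) (nat_lit 8197566898) (nat_lit 608) (nat_lit 7205087854) (nat_lit 259) (nat_lit 5) (nat_lit 266) (nat_lit 5) (nat_lit 267) (nat_lit 5) (nat_lit 644) (nat_lit 583) (nat_lit 333))) (XT.nd (nat_lit 78) (nat_lit 608) (nat_lit 0) (XT.lf (nat_lit 0) (nat_lit 682916740) (nat_lit 532) (nat_lit 24918358249) (nat_lit 608) (nat_lit 2262743824) (nat_lit 252) (nat_lit 5) (nat_lit 259) (nat_lit 5) (nat_lit 260) (nat_lit 5) (nat_lit 645) (nat_lit 583) (nat_lit 332)) (XT.nd (nat_lit 78) (nat_lit 532) (nat_lit 0) (XT.lf (nat_lit 0) (nat_lit 2897069307)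 (nat_lit 608) (nat_lit 10971826556) (nat_lit 76) (nat_lit 14323137160) (nat_lit 251) (nat_lit 5) (nat_lit 259) (nat_lit 5) (nat_lit 252) (nat_lit 5) (nat_lit 646) (nat_lit 583) (nat_lit 331)) (XT.lf (nat_lit 0) (nat_lit 5616017241) (nat_lit 532) (nat_lit 2547047795) (nat_lit 608) (nat_lit 20362577792) (nat_lit 244) (nat_lit 5) (nat_lit 251) (nat_lit 5) (nat_lit 252) (nat_lit 5) (nat_lit 647) (nat_lit 583) (nat_lit 330)))))) (XT.nd (nat_lit 390) (nat_lit 1444) (nat_lit 0) (XT.nd (nat_lit 156) (nat_lit 1064) (nat_lit 0) (XT.nd (nat_lit 78) (nat_lit 532) (nat_lit 0) (XT.lf (nat_lit 0) (nat_lit 13663758417) (nat_lit 608) (nat_lit 6243353527) (nat_lit 76) (nat_lit 8956225464) (nat_lit 244) (nat_lit 5) (nat_lit 252) (nat_lit 5) (nat_lit 245) (nat_lit 5) (nat_lit 648) (nat_lit 583) (nat_lit 329)) (XT.lf (nat_lit 0) (nat_lit 10877809609) (nat_lit 532) (nat_lit 8481033610) (nat_lit 608) (nat_lit 9847255239) (nat_lit 237) (nat_lit 5) (nat_lit 244) (nat_lit 5) (nat_lit 245) (nat_lit 5) (nat_lit 649) (nat_lit 583)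 (nat_lit 328))) (XT.nd (nat_lit 78) (nat_lit 1064) (nat_lit 0) (XT.lf (nat_lit 0) (nat_lit 25227518535) (nat_lit 608) (nat_lit 1153990449) (nat_lit 76) (nat_lit 3173012100) (nat_lit 237) (nat_lit 5) (nat_lit 245) (nat_lit 5) (nat_lit 238) (nat_lit 5) (nat_lit 650) (nat_lit 583) (nat_lit 327)) (XT.nd (nat_lit 78) (nat_lit 532) (nat_lit 0) (XT.lf (nat_lit 0) (nat_lit 1448015831) (nat_lit 532) (nat_lit 13396112437) (nat_lit 76) (nat_lit 15062385566) (nat_lit 230) (nat_lit 5) (nat_lit 237) (nat_lit 5) (nat_lit 231) (nat_lit 5) (nat_lit 651) (nat_lit 583) (nat_lit 326)) (XT.lf (nat_lit 0) (nat_lit 4301858013) (nat_lit 532) (nat_lit 3011501203) (nat_lit 608) (nat_lit 22950960049) (nat_lit 223) (nat_lit 5) (nat_lit 230) (nat_lit 5) (nat_lit 231) (nat_lit 5) (nat_lit 652) (nat_lit 583) (nat_lit 325))))) (XT.nd (nat_lit 234) (nat_lit 988) (nat_lit 0) (XT.nd (nat_lit 78) (nat_lit 456) (nat_lit 0) (XT.lf (nat_lit 0) (nat_lit 13442316749) (nat_lit 608) (nat_lit 8155723138) (nat_lit 76) (nat_lit 9028314893) (nat_lit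 223) (nat_lit 5) (nat_lit 231) (nat_lit 5) (nat_lit 224) (nat_lit 5) (nat_lit 653) (nat_lit 583) (nat_lit 324)) (XT.nd (nat_lit 78) (nat_lit 0) (nat_lit 0) (XT.lf (nat_lit 0) (nat_lit 10115746944) (nat_lit 456) (nat_lit 9660794889) (nat_lit 532) (nat_lit 11217435520) (nat_lit 217) (nat_lit 5) (nat_lit 223) (nat_lit 5) (nat_lit 224) (nat_lit 5) (nat_lit 654) (nat_lit 583) (nat_lit 323)) (XT.lf (nat_lit 0) (nat_lit 26305963020) (nat_lit 532) (nat_lit 2525503284) (nat_lit 76) (nat_lit 2536115954) (nat_lit 217) (nat_lit 5) (nat_lit 224) (nat_lit 5) (nat_lit 218) (nat_lit 5) (nat_lit 655) (nat_lit 583) (nat_lit 322)))) (XT.nd (nat_lit 78) (nat_lit 456) (nat_lit 0) (XT.lf (nat_lit 0) (nat_lit 1369674483) (nat_lit 532) (nat_lit 15413788025) (nat_lit 76) (nat_lit 14961672263) (nat_lit 210) (nat_lit 5) (nat_lit 217) (nat_lit 5) (nat_lit 211) (nat_lit 5) (nat_lit 656) (nat_lit 583) (nat_lit 321)) (XT.nd (nat_lit 78) (nat_lit 0) (nat_lit 0) (XT.lf (nat_lit 0) (nat_lit 3477562398) (nat_lit 456) (nat_lit 4421115884)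 (nat_lit 532) (nat_lit 24230153829) (nat_lit 204) (nat_lit 5) (nat_lit 210) (nat_lit 5) (nat_lit 211) (nat_lit 5) (nat_lit 657) (nat_lit 583) (nat_lit 320)) (XT.lf (nat_lit 0) (nat_lit 14712725752) (nat_lit 532) (nat_lit 9620410214) (nat_lit 76) (nat_lit 8183978264) (nat_lit 204) (nat_lit 5) (nat_lit 211) (nat_lit 5) (nat_lit 205) (nat_lit 5) (nat_lit 658) (nat_lit 583) (nat_lit 319))))))))
noncomputable def xc191 : XT := (XT.nd (nat_lit 76674) (nat_lit 0) (nat_lit 14744) (XT.nd (nat_lit 75894) (nat_lit 0) (nat_lit 21736) (XT.nd (nat_lit 75504) (nat_lit 0) (nat_lit 23104) (XT.nd (nat_lit 156) (nat_lit 456) (nat_lit 0) (XT.nd (nat_lit 78) (nat_lit 0) (nat_lit 0) (XT.lf (nat_lit 0) (nat_lit 9887440308) (nat_lit 456) (nat_lit 11866322850) (nat_lit 532) (nat_lit 11157584757) (nat_lit 198) (nat_lit 5) (nat_lit 204) (nat_lit 5) (nat_lit 205) (nat_lit 5) (nat_lit 659) (nat_lit 583) (nat_lit 318)) (XT.lf (nat_lit 0) (nat_lit 29003378868) (nat_lit 532) (nat_lit 3406308276) (nat_lit 76) (nat_lit 902424080) (nat_lit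 198) (nat_lit 5) (nat_lit 205) (nat_lit 5) (nat_lit 199) (nat_lit 5) (nat_lit 660) (nat_lit 583) (nat_lit 317))) (XT.nd (nat_lit 75192) (nat_lit 0) (nat_lit 23104) (XT.lf (nat_lit 0) (nat_lit 2827793326) (nat_lit 456) (nat_lit 16995151089) (nat_lit 76) (nat_lit 13893881715) (nat_lit 192) (nat_lit 5) (nat_lit 198) (nat_lit 5) (nat_lit 193) (nat_lit 5) (nat_lit 661) (nat_lit 583) (nat_lit 316)) (XT.nd (nat_lit 78) (nat_lit 0) (nat_lit 0) (XT.lf (nat_lit 0) (nat_lit 1687601129) (nat_lit 0) (nat_lit 1687601129) (nat_lit 1748) (nat_lit 3942766588) (nat_lit 496) (nat_lit 5) (nat_lit 496) (nat_lit 3) (nat_lit 519) (nat_lit 3) (nat_lit 584) (nat_lit 584) (nat_lit 392)) (XT.lf (nat_lit 0) (nat_lit 7155739014) (nat_lit 1748) (nat_lit 4022704000) (nat_lit 1824) (nat_lit 3597077885) (nat_lit 496) (nat_lit 5) (nat_lit 519) (nat_lit 3) (nat_lit 520) (nat_lit 5) (nat_lit 585) (nat_lit 584) (nat_lit 391))))) (XT.nd (nat_lit 156) (nat_lit 0) (nat_lit 76) (XT.nd (nat_lit 78) (nat_lit 0) (nat_lit 76) (XT.lf (nat_lit 76) (nat_lit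 3377722758) (nat_lit 0) (nat_lit 4227526269) (nat_lit 1824) (nat_lit 7311925875) (nat_lit 497) (nat_lit 5) (nat_lit 496) (nat_lit 5) (nat_lit 520) (nat_lit 5) (nat_lit 586) (nat_lit 584) (nat_lit 390)) (XT.lf (nat_lit 0) (nat_lit 8101451103) (nat_lit 1748) (nat_lit 4103669474) (nat_lit 1824) (nat_lit 2855787877) (nat_lit 497) (nat_lit 5) (nat_lit 520) (nat_lit 5) (nat_lit 521) (nat_lit 5) (nat_lit 587) (nat_lit 584) (nat_lit 389))) (XT.nd (nat_lit 78) (nat_lit 0) (nat_lit 76) (XT.lf (nat_lit 76) (nat_lit 3494276910) (nat_lit 0) (nat_lit 5156086268) (nat_lit 1824) (nat_lit 6556298271) (nat_lit 498) (nat_lit 5) (nat_lit 497) (nat_lit 5) (nat_lit 521) (nat_lit 5) (nat_lit 588) (nat_lit 584) (nat_lit 388)) (XT.nd (nat_lit 78) (nat_lit 0) (nat_lit 0) (XT.lf (nat_lit 0) (nat_lit 9243429974) (nat_lit 1748) (nat_lit 4072890603) (nat_lit 1824) (nat_lit 2038345882) (nat_lit 498) (nat_lit 5) (nat_lit 521) (nat_lit 5) (nat_lit 522) (nat_lit 5) (nat_lit 589) (nat_lit 584) (nat_lit 387)) (XT.lf (nat_lit 76) (nat_lit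 3729719345) (nat_lit 0) (nat_lit 6169403497) (nat_lit 1824) (nat_lit 5605493905) (nat_lit 499) (nat_lit 5) (nat_lit 498) (nat_lit 5) (nat_lit 522) (nat_lit 5) (nat_lit 590) (nat_lit 584) (nat_lit 386)))))) (XT.nd (nat_lit 390) (nat_lit 1596) (nat_lit 0) (XT.nd (nat_lit 156) (nat_lit 0) (nat_lit 76) (XT.nd (nat_lit 78) (nat_lit 0) (nat_lit 0) (XT.lf (nat_lit 0) (nat_lit 10595259378) (nat_lit 1748) (nat_lit 3925468737) (nat_lit 1824) (nat_lit 1136291796) (nat_lit 499) (nat_lit 5) (nat_lit 522) (nat_lit 5) (nat_lit 523) (nat_lit 5) (nat_lit 591) (nat_lit 584) (nat_lit 385)) (XT.lf (nat_lit 76) (nat_lit 4089228177) (nat_lit 0) (nat_lit 7276186495) (nat_lit 1824) (nat_lit 4445855000) (nat_lit 500) (nat_lit 5) (nat_lit 499) (nat_lit 5) (nat_lit 523) (nat_lit 5) (nat_lit 592) (nat_lit 584) (nat_lit 384))) (XT.nd (nat_lit 78) (nat_lit 0) (nat_lit 0) (XT.lf (nat_lit 0) (nat_lit 12171045922) (nat_lit 1748) (nat_lit 3656184375) (nat_lit 1824) (nat_lit 140973121) (nat_lit 500) (nat_lit 5) (nat_lit 523) (nat_lit 5)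 (nat_lit 524) (nat_lit 5) (nat_lit 593) (nat_lit 584) (nat_lit 383)) (XT.nd (nat_lit 78) (nat_lit 0) (nat_lit 0) (XT.lf (nat_lit 76) (nat_lit 4578312477) (nat_lit 0) (nat_lit 8485351358) (nat_lit 1824) (nat_lit 3063194963) (nat_lit 501) (nat_lit 5) (nat_lit 500) (nat_lit 5) (nat_lit 524) (nat_lit 5) (nat_lit 594) (nat_lit 584) (nat_lit 382)) (XT.lf (nat_lit 76) (nat_lit 13022553517) (nat_lit 0) (nat_lit 969186186) (nat_lit 1824) (nat_lit 2296595899) (nat_lit 501) (nat_lit 5) (nat_lit 500) (nat_lit 5) (nat_lit 524) (nat_lit 5) (nat_lit 595) (nat_lit 584) (nat_lit 381))))) (XT.nd (nat_lit 156) (nat_lit 1748) (nat_lit 0) (XT.nd (nat_lit 78) (nat_lit 0) (nat_lit 0) (XT.lf (nat_lit 76) (nat_lit 5202820384) (nat_lit 0) (nat_lit 9806042162) (nat_lit 1824) (nat_lit 1442770108) (nat_lit 502) (nat_lit 5) (nat_lit 501) (nat_lit 5) (nat_lit 525) (nat_lit 5) (nat_lit 596) (nat_lit 584) (nat_lit 380)) (XT.lf (nat_lit 76) (nat_lit 13874020106) (nat_lit 0) (nat_lit 2193924477) (nat_lit 1824) (nat_lit 549819141) (nat_lit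 502) (nat_lit 5) (nat_lit 501) (nat_lit 5) (nat_lit 525) (nat_lit 5) (nat_lit 597) (nat_lit 584) (nat_lit 379))) (XT.nd (nat_lit 78) (nat_lit 0) (nat_lit 0) (XT.lf (nat_lit 0) (nat_lit 425100098) (nat_lit 1824) (nat_lit 10819698886) (nat_lit 1900) (nat_lit 5540995080) (nat_lit 478) (nat_lit 5) (nat_lit 502) (nat_lit 5) (nat_lit 503) (nat_lit 5) (nat_lit 598) (nat_lit 584) (nat_lit 378)) (XT.nd (nat_lit 78) (nat_lit 0) (nat_lit 76) (XT.lf (nat_lit 0) (nat_lit 1438751002) (nat_lit 1824) (nat_lit 2092437915) (nat_lit 1900) (nat_lit 13425391888) (nat_lit 478) (nat_lit 5) (nat_lit 502) (nat_lit 5) (nat_lit 503) (nat_lit 5) (nat_lit 599) (nat_lit 584) (nat_lit 377)) (XT.lf (nat_lit 0) (nat_lit 2539560403) (nat_lit 1824) (nat_lit 10263239868) (nat_lit 1900) (nat_lit 4326645682) (nat_lit 479) (nat_lit 5) (nat_lit 503) (nat_lit 5) (nat_lit 504) (nat_lit 5) (nat_lit 600) (nat_lit 584) (nat_lit 376))))))) (XT.nd (nat_lit 780) (nat_lit 5548) (nat_lit 0) (XT.nd (nat_lit 390) (nat_lit 1520) (nat_lit 0) (XT.nd (nat_lit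 156) (nat_lit 0) (nat_lit 76) (XT.nd (nat_lit 78) (nat_lit 0) (nat_lit 76) (XT.lf (nat_lit 0) (nat_lit 3693664163) (nat_lit 1824) (nat_lit 1301246453) (nat_lit 1900) (nat_lit 12310232598) (nat_lit 479) (nat_lit 5) (nat_lit 503) (nat_lit 5) (nat_lit 504) (nat_lit 5) (nat_lit 601) (nat_lit 584) (nat_lit 375)) (XT.lf (nat_lit 0) (nat_lit 4935908617) (nat_lit 1824) (nat_lit 9563535414) (nat_lit 1900) (nat_lit 2983609583) (nat_lit 480) (nat_lit 5) (nat_lit 504) (nat_lit 5) (nat_lit 505) (nat_lit 5) (nat_lit 602) (nat_lit 584) (nat_lit 374))) (XT.nd (nat_lit 78) (nat_lit 0) (nat_lit 76) (XT.lf (nat_lit 0) (nat_lit 6238847665) (nat_lit 1824) (nat_lit 359823395) (nat_lit 1900) (nat_lit 11065134528) (nat_lit 480) (nat_lit 5) (nat_lit 504) (nat_lit 5) (nat_lit 505) (nat_lit 5) (nat_lit 603) (nat_lit 584) (nat_lit 373)) (XT.nd (nat_lit 78) (nat_lit 0) (nat_lit 0) (XT.lf (nat_lit 0) (nat_lit 7631190539) (nat_lit 1824) (nat_lit 8713690919) (nat_lit 1900) (nat_lit 1502024595) (nat_lit 481) (nat_lit 5) (nat_lit 505) (nat_lit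 5) (nat_lit 506) (nat_lit 5) (nat_lit 604) (nat_lit 584) (nat_lit 372)) (XT.lf (nat_lit 76) (nat_lit 748797539) (nat_lit 0) (nat_lit 8347768118) (nat_lit 1900) (nat_lit 8936199507) (nat_lit 482) (nat_lit 5) (nat_lit 481) (nat_lit 5) (nat_lit 506) (nat_lit 5) (nat_lit 605) (nat_lit 584) (nat_lit 371))))) (XT.nd (nat_lit 156) (nat_lit 1672) (nat_lit 0) (XT.nd (nat_lit 78) (nat_lit 0) (nat_lit 76) (XT.lf (nat_lit 76) (nat_lit 10514003949) (nat_lit 0) (nat_lit 129994755) (nat_lit 1900) (nat_lit 7577288084) (nat_lit 482) (nat_lit 5) (nat_lit 481) (nat_lit 5) (nat_lit 506) (nat_lit 5) (nat_lit 606) (nat_lit 584) (nat_lit 370)) (XT.lf (nat_lit 76) (nat_lit 2029295448) (nat_lit 0) (nat_lit 10254234854) (nat_lit 1900) (nat_lit 6128825877) (nat_lit 483) (nat_lit 5) (nat_lit 482) (nat_lit 5) (nat_lit 507) (nat_lit 5) (nat_lit 607) (nat_lit 584) (nat_lit 369))) (XT.nd (nat_lit 78) (nat_lit 1748) (nat_lit 0) (XT.lf (nat_lit 76) (nat_lit 12059561540) (nat_lit 0) (nat_lit 1943341894) (nat_lit 1900) (nat_lit 4603402830)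 (nat_lit 483) (nat_lit 5) (nat_lit 482) (nat_lit 5) (nat_lit 507) (nat_lit 5) (nat_lit 608) (nat_lit 584) (nat_lit 368)) (XT.nd (nat_lit 78) (nat_lit 0) (nat_lit 0) (XT.lf (nat_lit 0) (nat_lit 3484912480) (nat_lit 1824) (nat_lit 12331389134) (nat_lit 1900) (nat_lit 2986641305) (nat_lit 459) (nat_lit 5) (nat_lit 483) (nat_lit 5) (nat_lit 484) (nat_lit 5) (nat_lit 609) (nat_lit 584) (nat_lit 367)) (XT.lf (nat_lit 0) (nat_lit 13788266733) (nat_lit 1824) (nat_lit 3929083904) (nat_lit 1900) (nat_lit 1285134326) (nat_lit 459) (nat_lit 5) (nat_lit 483) (nat_lit 5) (nat_lit 484) (nat_lit 5) (nat_lit 610) (nat_lit 584) (nat_lit 366)))))) (XT.nd (nat_lit 390) (nat_lit 2584) (nat_lit 0) (XT.nd (nat_lit 156) (nat_lit 1824) (nat_lit 0) (XT.nd (nat_lit 78) (nat_lit 0) (nat_lit 0) (XT.lf (nat_lit 0) (nat_lit 503058449) (nat_lit 1140) (nat_lit 14084081377) (nat_lit 76) (nat_lit 4617648578) (nat_lit 444) (nat_lit 5) (nat_lit 459) (nat_lit 5) (nat_lit 445) (nat_lit 5) (nat_lit 611) (nat_lit 584) (nat_lit 365)) (XT.lf (nat_lit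 0) (nat_lit 2365878174) (nat_lit 1140) (nat_lit 3716885276) (nat_lit 76) (nat_lit 13327083446) (nat_lit 444) (nat_lit 5) (nat_lit 459) (nat_lit 5) (nat_lit 445) (nat_lit 5) (nat_lit 612) (nat_lit 584) (nat_lit 364))) (XT.nd (nat_lit 78) (nat_lit 912) (nat_lit 0) (XT.lf (nat_lit 0) (nat_lit 4323083286) (nat_lit 988) (nat_lit 12691210423) (nat_lit 76) (nat_lit 2603570556) (nat_lit 432) (nat_lit 5) (nat_lit 445) (nat_lit 5) (nat_lit 433) (nat_lit 5) (nat_lit 613) (nat_lit 584) (nat_lit 363)) (XT.nd (nat_lit 78) (nat_lit 912) (nat_lit 0) (XT.lf (nat_lit 0) (nat_lit 6379810417) (nat_lit 988) (nat_lit 2041220630) (nat_lit 76) (nat_lit 11407803660) (nat_lit 432) (nat_lit 5) (nat_lit 445) (nat_lit 5) (nat_lit 433) (nat_lit 5) (nat_lit 614) (nat_lit 584) (nat_lit 362)) (XT.lf (nat_lit 0) (nat_lit 8533385854) (nat_lit 988) (nat_lit 11111223198) (nat_lit 76) (nat_lit 398301509) (nat_lit 420) (nat_lit 5) (nat_lit 433) (nat_lit 5) (nat_lit 421) (nat_lit 5) (nat_lit 615) (nat_lit 584) (nat_lit 361))))) (XT.nd (nat_lit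 234) (nat_lit 912) (nat_lit 0) (XT.nd (nat_lit 78) (nat_lit 1672) (nat_lit 0) (XT.lf (nat_lit 0) (nat_lit 10794743857) (nat_lit 988) (nat_lit 169783798) (nat_lit 76) (nat_lit 9295446327) (nat_lit 420) (nat_lit 5) (nat_lit 433) (nat_lit 5) (nat_lit 421) (nat_lit 5) (nat_lit 616) (nat_lit 584) (nat_lit 360)) (XT.nd (nat_lit 78) (nat_lit 836) (nat_lit 0) (XT.lf (nat_lit 0) (nat_lit 11131919266) (nat_lit 836) (nat_lit 2036934834) (nat_lit 912) (nat_lit 7311174339) (nat_lit 409) (nat_lit 5) (nat_lit 420) (nat_lit 5) (nat_lit 421) (nat_lit 5) (nat_lit 617) (nat_lit 584) (nat_lit 359)) (XT.lf (nat_lit 0) (nat_lit 1932306423) (nat_lit 836) (nat_lit 13713044829) (nat_lit 912) (nat_lit 5058034898) (nat_lit 398) (nat_lit 5) (nat_lit 409) (nat_lit 5) (nat_lit 410) (nat_lit 5) (nat_lit 618) (nat_lit 584) (nat_lit 358)))) (XT.nd (nat_lit 78) (nat_lit 912) (nat_lit 0) (XT.lf (nat_lit 0) (nat_lit 13546780713) (nat_lit 836) (nat_lit 4696105298) (nat_lit 912) (nat_lit 2686895110) (nat_lit 398) (nat_lit 5) (nat_lit 409) (nat_lit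 5) (nat_lit 410) (nat_lit 5) (nat_lit 619) (nat_lit 584) (nat_lit 357)) (XT.nd (nat_lit 78) (nat_lit 76) (nat_lit 0) (XT.lf (nat_lit 0) (nat_lit 4254820886) (nat_lit 836) (nat_lit 16689867181) (nat_lit 912) (nat_lit 214969842) (nat_lit 387) (nat_lit 5) (nat_lit 398) (nat_lit 5) (nat_lit 399) (nat_lit 5) (nat_lit 620) (nat_lit 584) (nat_lit 356)) (XT.lf (nat_lit 0) (nat_lit 2352613356) (nat_lit 912) (nat_lit 5218694615) (nat_lit 76) (nat_lit 13820995648) (nat_lit 386) (nat_lit 5) (nat_lit 398) (nat_lit 5) (nat_lit 387) (nat_lit 5) (nat_lit 621) (nat_lit 584) (nat_lit 355))))))))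
noncomputable def xc192 : XT := (XT.nd (nat_lit 1560) (nat_lit 5776) (nat_lit 0) (XT.nd (nat_lit 780) (nat_lit 3952) (nat_lit 0) (XT.nd (nat_lit 390) (nat_lit 2204) (nat_lit 0) (XT.nd (nat_lit 156) (nat_lit 1520) (nat_lit 0) (XT.nd (nat_lit 78) (nat_lit 0) (nat_lit 0) (XT.lf (nat_lit 0) (nat_lit 5019834648) (nat_lit 912) (nat_lit 14856125610) (nat_lit 76) (nat_lit 1752590505) (nat_lit 375) (nat_lit 5) (nat_lit 387) (nat_lit 5) (nat_lit 376) (nat_lit 5) (nat_lit 622) (nat_lit 584) (nat_lit 354)) (XT.lf (nat_lit 0) (nat_lit 7821434485) (nat_lit 912) (nat_lit 2849680825) (nat_lit 76) (nat_lit 11196787090) (nat_lit 375) (nat_lit 5) (nat_lit 387) (nat_lit 5) (nat_lit 376) (nat_lit 5) (nat_lit 623) (nat_lit 584) (nat_lit 353))) (XT.nd (nat_lit 78) (nat_lit 760) (nat_lit 0) (XT.lf (nat_lit 0) (nat_lit 9517209393) (nat_lit 760) (nat_lit 1219375331) (nat_lit 836) (nat_lit 11374306206) (nat_lit 365) (nat_lit 5) (nat_lit 375) (nat_lit 5) (nat_lit 376) (nat_lit 5) (nat_lit 624) (nat_lit 584) (nat_lit 352)) (XT.nd (nat_lit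 78) (nat_lit 760) (nat_lit 0) (XT.lf (nat_lit 0) (nat_lit 13779744244) (nat_lit 836) (nat_lit 247651829) (nat_lit 76) (nat_lit 8329949255) (nat_lit 365) (nat_lit 5) (nat_lit 376) (nat_lit 5) (nat_lit 366) (nat_lit 5) (nat_lit 625) (nat_lit 584) (nat_lit 351)) (XT.lf (nat_lit 0) (nat_lit 12496651627) (nat_lit 760) (nat_lit 4472189432) (nat_lit 836) (nat_lit 5638186493) (nat_lit 355) (nat_lit 5) (nat_lit 365) (nat_lit 5) (nat_lit 366) (nat_lit 5) (nat_lit 626) (nat_lit 584) (nat_lit 350))))) (XT.nd (nat_lit 156) (nat_lit 1444) (nat_lit 0) (XT.nd (nat_lit 78) (nat_lit 76) (nat_lit 0) (XT.lf (nat_lit 0) (nat_lit 2633292369) (nat_lit 684) (nat_lit 17637352747) (nat_lit 760) (nat_lit 2590080012) (nat_lit 346) (nat_lit 5) (nat_lit 355) (nat_lit 5) (nat_lit 356) (nat_lit 5) (nat_lit 627) (nat_lit 584) (nat_lit 349)) (XT.lf (nat_lit 0) (nat_lit 606030695) (nat_lit 760) (nat_lit 7387235059) (nat_lit 76) (nat_lit 15124286741) (nat_lit 345) (nat_lit 5) (nat_lit 355) (nat_lit 5) (nat_lit 346) (nat_lit 5) (nat_lit 628)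 (nat_lit 584) (nat_lit 348))) (XT.nd (nat_lit 78) (nat_lit 684) (nat_lit 0) (XT.lf (nat_lit 0) (nat_lit 3877181899) (nat_lit 836) (nat_lit 17627080325) (nat_lit 76) (nat_lit 1873995990) (nat_lit 335) (nat_lit 5) (nat_lit 346) (nat_lit 5) (nat_lit 336) (nat_lit 5) (nat_lit 629) (nat_lit 584) (nat_lit 347)) (XT.nd (nat_lit 78) (nat_lit 684) (nat_lit 0) (XT.lf (nat_lit 0) (nat_lit 7312654414) (nat_lit 836) (nat_lit 4448454856) (nat_lit 76) (nat_lit 11881091011) (nat_lit 335) (nat_lit 5) (nat_lit 346) (nat_lit 5) (nat_lit 336) (nat_lit 5) (nat_lit 630) (nat_lit 584) (nat_lit 346)) (XT.lf (nat_lit 0) (nat_lit 9108795398) (nat_lit 684) (nat_lit 1763320757) (nat_lit 760) (nat_lit 13038199632) (nat_lit 326) (nat_lit 5) (nat_lit 335) (nat_lit 5) (nat_lit 336) (nat_lit 5) (nat_lit 631) (nat_lit 584) (nat_lit 345)))))) (XT.nd (nat_lit 390) (nat_lit 1900) (nat_lit 0) (XT.nd (nat_lit 156) (nat_lit 1368) (nat_lit 0) (XT.nd (nat_lit 78) (nat_lit 684) (nat_lit 0) (XT.lf (nat_lit 0) (nat_lit 14583761155) (nat_lit 760) (nat_lit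 1245120461) (nat_lit 76) (nat_lit 8353292297) (nat_lit 326) (nat_lit 5) (nat_lit 336) (nat_lit 5) (nat_lit 327) (nat_lit 5) (nat_lit 632) (nat_lit 584) (nat_lit 344)) (XT.lf (nat_lit 0) (nat_lit 12733362579) (nat_lit 684) (nat_lit 5726885361) (nat_lit 760) (nat_lit 5997409271) (nat_lit 317) (nat_lit 5) (nat_lit 326) (nat_lit 5) (nat_lit 327) (nat_lit 5) (nat_lit 633) (nat_lit 584) (nat_lit 343))) (XT.nd (nat_lit 78) (nat_lit 760) (nat_lit 0) (XT.lf (nat_lit 0) (nat_lit 2265338411) (nat_lit 608) (nat_lit 20198061645) (nat_lit 684) (nat_lit 2274267592) (nat_lit 309) (nat_lit 5) (nat_lit 317) (nat_lit 5) (nat_lit 318) (nat_lit 5) (nat_lit 634) (nat_lit 584) (nat_lit 342)) (XT.nd (nat_lit 78) (nat_lit 684) (nat_lit 0) (XT.lf (nat_lit 0) (nat_lit 1616800304) (nat_lit 684) (nat_lit 8380781615) (nat_lit 76) (nat_lit 15023229896) (nat_lit 308) (nat_lit 5) (nat_lit 317) (nat_lit 5) (nat_lit 309) (nat_lit 5) (nat_lit 635) (nat_lit 584) (nat_lit 341)) (XT.lf (nat_lit 0) (nat_lit 5593950843) (nat_lit 760) (nat_lit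 19259027087) (nat_lit 76) (nat_lit 455566173) (nat_lit 299) (nat_lit 5) (nat_lit 309) (nat_lit 5) (nat_lit 300) (nat_lit 5) (nat_lit 636) (nat_lit 584) (nat_lit 340))))) (XT.nd (nat_lit 156) (nat_lit 1292) (nat_lit 0) (XT.nd (nat_lit 78) (nat_lit 608) (nat_lit 0) (XT.lf (nat_lit 0) (nat_lit 9769894149) (nat_lit 760) (nat_lit 4789842686) (nat_lit 76) (nat_lit 11039909377) (nat_lit 299) (nat_lit 5) (nat_lit 309) (nat_lit 5) (nat_lit 300) (nat_lit 5) (nat_lit 637) (nat_lit 584) (nat_lit 339)) (XT.lf (nat_lit 0) (nat_lit 10096853174) (nat_lit 608) (nat_lit 3994557343) (nat_lit 684) (nat_lit 11803918929) (nat_lit 291) (nat_lit 5) (nat_lit 299) (nat_lit 5) (nat_lit 300) (nat_lit 5) (nat_lit 638) (nat_lit 584) (nat_lit 338))) (XT.nd (nat_lit 78) (nat_lit 1292) (nat_lit 0) (XT.lf (nat_lit 0) (nat_lit 18572279653) (nat_lit 684) (nat_lit 898648752) (nat_lit 76) (nat_lit 6724539653) (nat_lit 291) (nat_lit 5) (nat_lit 300) (nat_lit 5) (nat_lit 292) (nat_lit 5) (nat_lit 639) (nat_lit 584) (nat_lit 337)) (XT.nd (nat_lit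 78) (nat_lit 684) (nat_lit 0) (XT.lf (nat_lit 0) (nat_lit 14458096579) (nat_lit 608) (nat_lit 8801597571) (nat_lit 684) (nat_lit 3239576893) (nat_lit 283) (nat_lit 5) (nat_lit 291) (nat_lit 5) (nat_lit 292) (nat_lit 5) (nat_lit 640) (nat_lit 584) (nat_lit 336)) (XT.lf (nat_lit 0) (nat_lit 1253781096) (nat_lit 684) (nat_lit 23465389280) (nat_lit 76) (nat_lit 2089055357) (nat_lit 274) (nat_lit 5) (nat_lit 283) (nat_lit 5) (nat_lit 275) (nat_lit 5) (nat_lit 641) (nat_lit 584) (nat_lit 335))))))) (XT.nd (nat_lit 780) (nat_lit 2964) (nat_lit 0) (XT.nd (nat_lit 390) (nat_lit 1140) (nat_lit 0) (XT.nd (nat_lit 156) (nat_lit 1064) (nat_lit 0) (XT.nd (nat_lit 78) (nat_lit 608) (nat_lit 0) (XT.lf (nat_lit 0) (nat_lit 5929947568) (nat_lit 684) (nat_lit 8008568140) (nat_lit 76) (nat_lit 13181689302) (nat_lit 274) (nat_lit 5) (nat_lit 283) (nat_lit 5) (nat_lit 275) (nat_lit 5) (nat_lit 642) (nat_lit 584) (nat_lit 334)) (XT.lf (nat_lit 0) (nat_lit 7856213743) (nat_lit 608) (nat_lit 2891149267) (nat_lit 684) (nat_lit 16690106496)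 (nat_lit 266) (nat_lit 5) (nat_lit 274) (nat_lit 5) (nat_lit 275) (nat_lit 5) (nat_lit 643) (nat_lit 584) (nat_lit 333))) (XT.nd (nat_lit 78) (nat_lit 1064) (nat_lit 0) (XT.lf (nat_lit 0) (nat_lit 15766363473) (nat_lit 684) (nat_lit 3672143536) (nat_lit 76) (nat_lit 8320467696) (nat_lit 266) (nat_lit 5) (nat_lit 275) (nat_lit 5) (nat_lit 267) (nat_lit 5) (nat_lit 644) (nat_lit 584) (nat_lit 332)) (XT.nd (nat_lit 78) (nat_lit 532) (nat_lit 0) (XT.lf (nat_lit 0) (nat_lit 12698386486) (nat_lit 532) (nat_lit 8285763222) (nat_lit 608) (nat_lit 7100792324) (nat_lit 259) (nat_lit 5) (nat_lit 266) (nat_lit 5) (nat_lit 267) (nat_lit 5) (nat_lit 645) (nat_lit 584) (nat_lit 331)) (XT.lf (nat_lit 0) (nat_lit 1018106179) (nat_lit 532) (nat_lit 25336505514) (nat_lit 608) (nat_lit 2061850752) (nat_lit 252) (nat_lit 5) (nat_lit 259) (nat_lit 5) (nat_lit 260) (nat_lit 5) (nat_lit 646) (nat_lit 584) (nat_lit 330))))) (XT.nd (nat_lit 156) (nat_lit 532) (nat_lit 0) (XT.nd (nat_lit 78) (nat_lit 532) (nat_lit 0) (XT.lf (nat_lit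 0) (nat_lit 3193167236) (nat_lit 608) (nat_lit 10872861426) (nat_lit 76) (nat_lit 14685071777) (nat_lit 251) (nat_lit 5) (nat_lit 259) (nat_lit 5) (nat_lit 252) (nat_lit 5) (nat_lit 647) (nat_lit 584) (nat_lit 329)) (XT.lf (nat_lit 0) (nat_lit 6044644499) (nat_lit 532) (nat_lit 2517222319) (nat_lit 608) (nat_lit 20529568142) (nat_lit 244) (nat_lit 5) (nat_lit 251) (nat_lit 5) (nat_lit 252) (nat_lit 5) (nat_lit 648) (nat_lit 584) (nat_lit 328))) (XT.nd (nat_lit 78) (nat_lit 532) (nat_lit 0) (XT.lf (nat_lit 0) (nat_lit 14168469733) (nat_lit 608) (nat_lit 6054001727) (nat_lit 76) (nat_lit 9213494253) (nat_lit 244) (nat_lit 5) (nat_lit 252) (nat_lit 5) (nat_lit 245) (nat_lit 5) (nat_lit 649) (nat_lit 584) (nat_lit 327)) (XT.nd (nat_lit 78) (nat_lit 0) (nat_lit 0) (XT.lf (nat_lit 0) (nat_lit 11407517442) (nat_lit 532) (nat_lit 8567427522) (nat_lit 608) (nat_lit 9810687438) (nat_lit 237) (nat_lit 5) (nat_lit 244) (nat_lit 5) (nat_lit 245) (nat_lit 5) (nat_lit 650) (nat_lit 584) (nat_lit 326)) (XT.lf (nat_lit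 0) (nat_lit 25957034830) (nat_lit 608) (nat_lit 867070940) (nat_lit 76) (nat_lit 3316997074) (nat_lit 237) (nat_lit 5) (nat_lit 245) (nat_lit 5) (nat_lit 238) (nat_lit 5) (nat_lit 651) (nat_lit 584) (nat_lit 325)))))) (XT.nd (nat_lit 390) (nat_lit 1444) (nat_lit 0) (XT.nd (nat_lit 156) (nat_lit 456) (nat_lit 0) (XT.nd (nat_lit 78) (nat_lit 532) (nat_lit 0) (XT.lf (nat_lit 0) (nat_lit 1701013364) (nat_lit 532) (nat_lit 13353088521) (nat_lit 76) (nat_lit 15446052502) (nat_lit 230) (nat_lit 5) (nat_lit 237) (nat_lit 5) (nat_lit 231) (nat_lit 5) (nat_lit 652) (nat_lit 584) (nat_lit 324)) (XT.lf (nat_lit 0) (nat_lit 4696795639) (nat_lit 532) (nat_lit 2984480678) (nat_lit 608) (nat_lit 23183887532) (nat_lit 223) (nat_lit 5) (nat_lit 230) (nat_lit 5) (nat_lit 231) (nat_lit 5) (nat_lit 653) (nat_lit 584) (nat_lit 323))) (XT.nd (nat_lit 78) (nat_lit 456) (nat_lit 0) (XT.lf (nat_lit 0) (nat_lit 13929022304) (nat_lit 608) (nat_lit 8012194680) (nat_lit 76) (nat_lit 9293299076) (nat_lit 223) (nat_lit 5) (nat_lit 231)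 (nat_lit 5) (nat_lit 224) (nat_lit 5) (nat_lit 654) (nat_lit 584) (nat_lit 322)) (XT.nd (nat_lit 78) (nat_lit 0) (nat_lit 0) (XT.lf (nat_lit 0) (nat_lit 10622687416) (nat_lit 456) (nat_lit 9764950555) (nat_lit 532) (nat_lit 11221899161) (nat_lit 217) (nat_lit 5) (nat_lit 223) (nat_lit 5) (nat_lit 224) (nat_lit 5) (nat_lit 655) (nat_lit 584) (nat_lit 321)) (XT.lf (nat_lit 0) (nat_lit 27043987712) (nat_lit 532) (nat_lit 2273692700) (nat_lit 76) (nat_lit 2673007087) (nat_lit 217) (nat_lit 5) (nat_lit 224) (nat_lit 5) (nat_lit 218) (nat_lit 5) (nat_lit 656) (nat_lit 584) (nat_lit 320))))) (XT.nd (nat_lit 156) (nat_lit 456) (nat_lit 0) (XT.nd (nat_lit 78) (nat_lit 456) (nat_lit 0) (XT.lf (nat_lit 0) (nat_lit 1608165119) (nat_lit 532) (nat_lit 15418918744) (nat_lit 76) (nat_lit 15348723687) (nat_lit 210) (nat_lit 5) (nat_lit 217) (nat_lit 5) (nat_lit 211) (nat_lit 5) (nat_lit 657) (nat_lit 584) (nat_lit 319)) (XT.lf (nat_lit 0) (nat_lit 3848264312) (nat_lit 456) (nat_lit 4417300791) (nat_lit 532) (nat_lit 24501657567)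 (nat_lit 204) (nat_lit 5) (nat_lit 210) (nat_lit 5) (nat_lit 211) (nat_lit 5) (nat_lit 658) (nat_lit 584) (nat_lit 318))) (XT.nd (nat_lit 78) (nat_lit 456) (nat_lit 0) (XT.lf (nat_lit 0) (nat_lit 15212384309) (nat_lit 532) (nat_lit 9514055789) (nat_lit 76) (nat_lit 8436900672) (nat_lit 204) (nat_lit 5) (nat_lit 211) (nat_lit 5) (nat_lit 205) (nat_lit 5) (nat_lit 659) (nat_lit 584) (nat_lit 317)) (XT.nd (nat_lit 78) (nat_lit 0) (nat_lit 0) (XT.lf (nat_lit 0) (nat_lit 10381986200) (nat_lit 456) (nat_lit 12010155737) (nat_lit 532) (nat_lit 11173359353) (nat_lit 198) (nat_lit 5) (nat_lit 204) (nat_lit 5) (nat_lit 205) (nat_lit 5) (nat_lit 660) (nat_lit 584) (nat_lit 316)) (XT.lf (nat_lit 0) (nat_lit 29783358737) (nat_lit 532) (nat_lit 3180058317) (nat_lit 76) (nat_lit 1010930783) (nat_lit 198) (nat_lit 5) (nat_lit 205) (nat_lit 5) (nat_lit 199) (nat_lit 5) (nat_lit 661) (nat_lit 584) (nat_lit 315))))))))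
noncomputable def xc193 : XT := (XT.nd (nat_lit 1560) (nat_lit 8588) (nat_lit 0) (XT.nd (nat_lit 780) (nat_lit 1368) (nat_lit 0) (XT.nd (nat_lit 390) (nat_lit 0) (nat_lit 152) (XT.nd (nat_lit 156) (nat_lit 0) (nat_lit 0) (XT.nd (nat_lit 78) (nat_lit 0) (nat_lit 0) (XT.lf (nat_lit 0) (nat_lit 1877415999) (nat_lit 0) (nat_lit 1877415999) (nat_lit 1748) (nat_lit 3703234275) (nat_lit 496) (nat_lit 5) (nat_lit 496) (nat_lit 3) (nat_lit 519) (nat_lit 3) (nat_lit 585) (nat_lit 585) (nat_lit 390)) (XT.lf (nat_lit 0) (nat_lit 7908878168) (nat_lit 1748) (nat_lit 3782887370) (nat_lit 1824) (nat_lit 3367027178) (nat_lit 496) (nat_lit 5) (nat_lit 519) (nat_lit 3) (nat_lit 520) (nat_lit 5) (nat_lit 586) (nat_lit 585) (nat_lit 389))) (XT.nd (nat_lit 78) (nat_lit 0) (nat_lit 76) (XT.lf (nat_lit 76) (nat_lit 3763440879) (nat_lit 0) (nat_lit 4594041971) (nat_lit 1824) (nat_lit 6845995610) (nat_lit 497) (nat_lit 5) (nat_lit 496) (nat_lit 5) (nat_lit 520) (nat_lit 5) (nat_lit 587) (nat_lit 585) (nat_lit 388)) (XT.nd (nat_lit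 78) (nat_lit 0) (nat_lit 0) (XT.lf (nat_lit 0) (nat_lit 8850046926) (nat_lit 1748) (nat_lit 3860219028) (nat_lit 1824) (nat_lit 2640092701) (nat_lit 497) (nat_lit 5) (nat_lit 520) (nat_lit 5) (nat_lit 521) (nat_lit 5) (nat_lit 588) (nat_lit 585) (nat_lit 387)) (XT.lf (nat_lit 76) (nat_lit 3887544679) (nat_lit 0) (nat_lit 5512990866) (nat_lit 1824) (nat_lit 6098679918) (nat_lit 498) (nat_lit 5) (nat_lit 497) (nat_lit 5) (nat_lit 521) (nat_lit 5) (nat_lit 589) (nat_lit 585) (nat_lit 386))))) (XT.nd (nat_lit 156) (nat_lit 0) (nat_lit 76) (XT.nd (nat_lit 78) (nat_lit 0) (nat_lit 0) (XT.lf (nat_lit 0) (nat_lit 9992531295) (nat_lit 1748) (nat_lit 3824339421) (nat_lit 1824) (nat_lit 1833569208) (nat_lit 498) (nat_lit 5) (nat_lit 521) (nat_lit 5) (nat_lit 522) (nat_lit 5) (nat_lit 590) (nat_lit 585) (nat_lit 385)) (XT.lf (nat_lit 76) (nat_lit 4132151614) (nat_lit 0) (nat_lit 6520251561) (nat_lit 1824) (nat_lit 5151165431) (nat_lit 499) (nat_lit 5) (nat_lit 498) (nat_lit 5) (nat_lit 522) (nat_lit 5) (nat_lit 591)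 (nat_lit 585) (nat_lit 384))) (XT.nd (nat_lit 78) (nat_lit 0) (nat_lit 0) (XT.lf (nat_lit 0) (nat_lit 11350126384) (nat_lit 1748) (nat_lit 3670198524) (nat_lit 1824) (nat_lit 938942323) (nat_lit 499) (nat_lit 5) (nat_lit 522) (nat_lit 5) (nat_lit 523) (nat_lit 5) (nat_lit 592) (nat_lit 585) (nat_lit 383)) (XT.nd (nat_lit 78) (nat_lit 0) (nat_lit 0) (XT.lf (nat_lit 76) (nat_lit 4502596410) (nat_lit 0) (nat_lit 7624594925) (nat_lit 1824) (nat_lit 3989581185) (nat_lit 500) (nat_lit 5) (nat_lit 499) (nat_lit 5) (nat_lit 523) (nat_lit 5) (nat_lit 593) (nat_lit 585) (nat_lit 382)) (XT.lf (nat_lit 76) (nat_lit 12884306378) (nat_lit 0) (nat_lit 53203056) (nat_lit 1824) (nat_lit 3339564674) (nat_lit 500) (nat_lit 5) (nat_lit 499) (nat_lit 5) (nat_lit 523) (nat_lit 5) (nat_lit 594) (nat_lit 585) (nat_lit 381)))))) (XT.nd (nat_lit 390) (nat_lit 0) (nat_lit 0) (XT.nd (nat_lit 156) (nat_lit 1672) (nat_lit 0) (XT.nd (nat_lit 78) (nat_lit 0) (nat_lit 0) (XT.lf (nat_lit 76) (nat_lit 5004548136) (nat_lit 0) (nat_lit 8835010071)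 (nat_lit 1824) (nat_lit 2599513454) (nat_lit 501) (nat_lit 5) (nat_lit 500) (nat_lit 5) (nat_lit 524) (nat_lit 5) (nat_lit 595) (nat_lit 585) (nat_lit 380)) (XT.lf (nat_lit 76) (nat_lit 13611111852) (nat_lit 0) (nat_lit 1164993132) (nat_lit 1824) (nat_lit 1827875456) (nat_lit 501) (nat_lit 5) (nat_lit 500) (nat_lit 5) (nat_lit 524) (nat_lit 5) (nat_lit 596) (nat_lit 585) (nat_lit 379))) (XT.nd (nat_lit 78) (nat_lit 1748) (nat_lit 0) (XT.lf (nat_lit 76) (nat_lit 5644018659) (nat_lit 0) (nat_lit 10160724821) (nat_lit 1824) (nat_lit 965977101) (nat_lit 502) (nat_lit 5) (nat_lit 501) (nat_lit 5) (nat_lit 525) (nat_lit 5) (nat_lit 597) (nat_lit 585) (nat_lit 378)) (XT.nd (nat_lit 78) (nat_lit 1748) (nat_lit 0) (XT.lf (nat_lit 76) (nat_lit 14482031751) (nat_lit 0) (nat_lit 2393255727) (nat_lit 1824) (nat_lit 65081790) (nat_lit 502) (nat_lit 5) (nat_lit 501) (nat_lit 5) (nat_lit 525) (nat_lit 5) (nat_lit 598) (nat_lit 585) (nat_lit 377)) (XT.lf (nat_lit 0) (nat_lit 914461228) (nat_lit 1824) (nat_lit 10690628669)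 (nat_lit 1900) (nat_lit 5506773981) (nat_lit 478) (nat_lit 5) (nat_lit 502) (nat_lit 5) (nat_lit 503) (nat_lit 5) (nat_lit 599) (nat_lit 585) (nat_lit 376))))) (XT.nd (nat_lit 156) (nat_lit 0) (nat_lit 76) (XT.nd (nat_lit 78) (nat_lit 0) (nat_lit 76) (XT.lf (nat_lit 0) (nat_lit 1938956540) (nat_lit 1824) (nat_lit 1795596286) (nat_lit 1900) (nat_lit 13551702666) (nat_lit 478) (nat_lit 5) (nat_lit 502) (nat_lit 5) (nat_lit 503) (nat_lit 5) (nat_lit 600) (nat_lit 585) (nat_lit 375)) (XT.lf (nat_lit 0) (nat_lit 3053892458) (nat_lit 1824) (nat_lit 10121896845) (nat_lit 1900) (nat_lit 4286946990) (nat_lit 479) (nat_lit 5) (nat_lit 503) (nat_lit 5) (nat_lit 504) (nat_lit 5) (nat_lit 601) (nat_lit 585) (nat_lit 374))) (XT.nd (nat_lit 78) (nat_lit 0) (nat_lit 76) (XT.lf (nat_lit 0) (nat_lit 4221989257) (nat_lit 1824) (nat_lit 987459793) (nat_lit 1900) (nat_lit 12432680774) (nat_lit 479) (nat_lit 5) (nat_lit 503) (nat_lit 5) (nat_lit 504) (nat_lit 5) (nat_lit 602) (nat_lit 585) (nat_lit 373)) (XT.nd (nat_lit 78)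 (nat_lit 0) (nat_lit 0) (XT.lf (nat_lit 0) (nat_lit 5481644337) (nat_lit 1824) (nat_lit 9407533586) (nat_lit 1900) (nat_lit 2934569729) (nat_lit 480) (nat_lit 5) (nat_lit 504) (nat_lit 5) (nat_lit 505) (nat_lit 5) (nat_lit 603) (nat_lit 585) (nat_lit 372)) (XT.lf (nat_lit 0) (nat_lit 6801877116) (nat_lit 1824) (nat_lit 26556591) (nat_lit 1900) (nat_lit 11179856782) (nat_lit 480) (nat_lit 5) (nat_lit 504) (nat_lit 5) (nat_lit 505) (nat_lit 5) (nat_lit 604) (nat_lit 585) (nat_lit 371))))))) (XT.nd (nat_lit 780) (nat_lit 5092) (nat_lit 0) (XT.nd (nat_lit 390) (nat_lit 3724) (nat_lit 0) (XT.nd (nat_lit 156) (nat_lit 0) (nat_lit 0) (XT.nd (nat_lit 78) (nat_lit 0) (nat_lit 0) (XT.lf (nat_lit 0) (nat_lit 8215061711) (nat_lit 1824) (nat_lit 8540470682) (nat_lit 1900) (nat_lit 1439661186) (nat_lit 481) (nat_lit 5) (nat_lit 505) (nat_lit 5) (nat_lit 506) (nat_lit 5) (nat_lit 605) (nat_lit 585) (nat_lit 370)) (XT.lf (nat_lit 76) (nat_lit 1108981401) (nat_lit 0) (nat_lit 8594548419) (nat_lit 1900) (nat_lit 8681364845)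 (nat_lit 482) (nat_lit 5) (nat_lit 481) (nat_lit 5) (nat_lit 506) (nat_lit 5) (nat_lit 606) (nat_lit 585) (nat_lit 369))) (XT.nd (nat_lit 78) (nat_lit 0) (nat_lit 76) (XT.lf (nat_lit 76) (nat_lit 11062723157) (nat_lit 0) (nat_lit 210854393) (nat_lit 1900) (nat_lit 7303776344) (nat_lit 482) (nat_lit 5) (nat_lit 481) (nat_lit 5) (nat_lit 506) (nat_lit 5) (nat_lit 607) (nat_lit 585) (nat_lit 368)) (XT.nd (nat_lit 78) (nat_lit 0) (nat_lit 0) (XT.lf (nat_lit 76) (nat_lit 2414902322) (nat_lit 0) (nat_lit 10524568846) (nat_lit 1900) (nat_lit 5832902560) (nat_lit 483) (nat_lit 5) (nat_lit 482) (nat_lit 5) (nat_lit 507) (nat_lit 5) (nat_lit 608) (nat_lit 585) (nat_lit 367)) (XT.lf (nat_lit 76) (nat_lit 12639008619) (nat_lit 0) (nat_lit 2046178628) (nat_lit 1900) (nat_lit 4285176932) (nat_lit 483) (nat_lit 5) (nat_lit 482) (nat_lit 5) (nat_lit 507) (nat_lit 5) (nat_lit 609) (nat_lit 585) (nat_lit 366))))) (XT.nd (nat_lit 156) (nat_lit 2052) (nat_lit 0) (XT.nd (nat_lit 78) (nat_lit 0) (nat_lit 0) (XT.lf (nat_lit 0)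 (nat_lit 3899068942) (nat_lit 1824) (nat_lit 12629726929) (nat_lit 1900) (nat_lit 2642259311) (nat_lit 459) (nat_lit 5) (nat_lit 483) (nat_lit 5) (nat_lit 484) (nat_lit 5) (nat_lit 610) (nat_lit 585) (nat_lit 365)) (XT.lf (nat_lit 0) (nat_lit 14401736198) (nat_lit 1824) (nat_lit 4058361672) (nat_lit 1900) (nat_lit 914646012) (nat_lit 459) (nat_lit 5) (nat_lit 483) (nat_lit 5) (nat_lit 484) (nat_lit 5) (nat_lit 611) (nat_lit 585) (nat_lit 364))) (XT.nd (nat_lit 78) (nat_lit 912) (nat_lit 0) (XT.lf (nat_lit 0) (nat_lit 898368420) (nat_lit 1140) (nat_lit 14017072456) (nat_lit 76) (nat_lit 4665716431) (nat_lit 444) (nat_lit 5) (nat_lit 459) (nat_lit 5) (nat_lit 445) (nat_lit 5) (nat_lit 612) (nat_lit 585) (nat_lit 363)) (XT.nd (nat_lit 78) (nat_lit 912) (nat_lit 0) (XT.lf (nat_lit 0) (nat_lit 2790890641) (nat_lit 1140) (nat_lit 3449369502) (nat_lit 76) (nat_lit 13550208331) (nat_lit 444) (nat_lit 5) (nat_lit 459) (nat_lit 5) (nat_lit 445) (nat_lit 5) (nat_lit 613) (nat_lit 585) (nat_lit 362)) (XT.lf (nat_lit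 0) (nat_lit 4781825469) (nat_lit 988) (nat_lit 12597745726) (nat_lit 76) (nat_lit 2623183705) (nat_lit 432) (nat_lit 5) (nat_lit 445) (nat_lit 5) (nat_lit 433) (nat_lit 5) (nat_lit 614) (nat_lit 585) (nat_lit 361)))))) (XT.nd (nat_lit 390) (nat_lit 2508) (nat_lit 0) (XT.nd (nat_lit 156) (nat_lit 1672) (nat_lit 0) (XT.nd (nat_lit 78) (nat_lit 912) (nat_lit 0) (XT.lf (nat_lit 0) (nat_lit 6872387525) (nat_lit 988) (nat_lit 1741565723) (nat_lit 76) (nat_lit 11604137908) (nat_lit 432) (nat_lit 5) (nat_lit 445) (nat_lit 5) (nat_lit 433) (nat_lit 5) (nat_lit 615) (nat_lit 585) (nat_lit 360)) (XT.lf (nat_lit 0) (nat_lit 9063932638) (nat_lit 988) (nat_lit 10987846287) (nat_lit 76) (nat_lit 384772042) (nat_lit 420) (nat_lit 5) (nat_lit 433) (nat_lit 5) (nat_lit 421) (nat_lit 5) (nat_lit 616) (nat_lit 585) (nat_lit 359))) (XT.nd (nat_lit 78) (nat_lit 836) (nat_lit 0) (XT.lf (nat_lit 0) (nat_lit 167846742) (nat_lit 836) (nat_lit 11196704378) (nat_lit 912) (nat_lit 9293524267) (nat_lit 409) (nat_lit 5) (nat_lit 420)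 (nat_lit 5) (nat_lit 421) (nat_lit 5) (nat_lit 617) (nat_lit 585) (nat_lit 358)) (XT.nd (nat_lit 78) (nat_lit 836) (nat_lit 0) (XT.lf (nat_lit 0) (nat_lit 11691153418) (nat_lit 836) (nat_lit 2089167691) (nat_lit 912) (nat_lit 7102326661) (nat_lit 409) (nat_lit 5) (nat_lit 420) (nat_lit 5) (nat_lit 421) (nat_lit 5) (nat_lit 618) (nat_lit 585) (nat_lit 357)) (XT.lf (nat_lit 0) (nat_lit 2312343317) (nat_lit 836) (nat_lit 13989322966) (nat_lit 912) (nat_lit 4808900374) (nat_lit 398) (nat_lit 5) (nat_lit 409) (nat_lit 5) (nat_lit 410) (nat_lit 5) (nat_lit 619) (nat_lit 585) (nat_lit 356))))) (XT.nd (nat_lit 234) (nat_lit 1596) (nat_lit 0) (XT.nd (nat_lit 78) (nat_lit 912) (nat_lit 0) (XT.lf (nat_lit 0) (nat_lit 14152413156) (nat_lit 836) (nat_lit 4792005090) (nat_lit 912) (nat_lit 2397206323) (nat_lit 398) (nat_lit 5) (nat_lit 409) (nat_lit 5) (nat_lit 410) (nat_lit 5) (nat_lit 620) (nat_lit 585) (nat_lit 355)) (XT.nd (nat_lit 78) (nat_lit 0) (nat_lit 0) (XT.lf (nat_lit 0) (nat_lit 118087885) (nat_lit 912) (nat_lit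 16897831700) (nat_lit 76) (nat_lit 4560252369) (nat_lit 386) (nat_lit 5) (nat_lit 398) (nat_lit 5) (nat_lit 387) (nat_lit 5) (nat_lit 621) (nat_lit 585) (nat_lit 354)) (XT.lf (nat_lit 0) (nat_lit 2727588535) (nat_lit 912) (nat_lit 4986128877) (nat_lit 76) (nat_lit 14099856215) (nat_lit 386) (nat_lit 5) (nat_lit 398) (nat_lit 5) (nat_lit 387) (nat_lit 5) (nat_lit 622) (nat_lit 585) (nat_lit 353)))) (XT.nd (nat_lit 78) (nat_lit 760) (nat_lit 0) (XT.lf (nat_lit 0) (nat_lit 5443969422) (nat_lit 912) (nat_lit 14812106401) (nat_lit 76) (nat_lit 1798553933) (nat_lit 375) (nat_lit 5) (nat_lit 387) (nat_lit 5) (nat_lit 376) (nat_lit 5) (nat_lit 623) (nat_lit 585) (nat_lit 352)) (XT.nd (nat_lit 78) (nat_lit 760) (nat_lit 0) (XT.lf (nat_lit 0) (nat_lit 8295253450) (nat_lit 912) (nat_lit 2572221774) (nat_lit 76) (nat_lit 11431420497) (nat_lit 375) (nat_lit 5) (nat_lit 387) (nat_lit 5) (nat_lit 376) (nat_lit 5) (nat_lit 624) (nat_lit 585) (nat_lit 351)) (XT.lf (nat_lit 0) (nat_lit 10039805902) (nat_lit 760) (nat_lit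 1224834655) (nat_lit 836) (nat_lit 11282185118) (nat_lit 365) (nat_lit 5) (nat_lit 375) (nat_lit 5) (nat_lit 376) (nat_lit 5) (nat_lit 625) (nat_lit 585) (nat_lit 350))))))))
noncomputable def xc194 : XT := (XT.nd (nat_lit 1560) (nat_lit 5168) (nat_lit 0) (XT.nd (nat_lit 780) (nat_lit 3268) (nat_lit 0) (XT.nd (nat_lit 390) (nat_lit 1976) (nat_lit 0) (XT.nd (nat_lit 156) (nat_lit 1520) (nat_lit 0) (XT.nd (nat_lit 78) (nat_lit 0) (nat_lit 0) (XT.lf (nat_lit 0) (nat_lit 80224250) (nat_lit 760) (nat_lit 14282936761) (nat_lit 836) (nat_lit 8435158522) (nat_lit 355) (nat_lit 5) (nat_lit 365) (nat_lit 5) (nat_lit 366) (nat_lit 5) (nat_lit 626) (nat_lit 585) (nat_lit 349)) (XT.lf (nat_lit 0) (nat_lit 13076178878) (nat_lit 760) (nat_lit 4535454450) (nat_lit 836) (nat_lit 5441450520) (nat_lit 355) (nat_lit 5) (nat_lit 365) (nat_lit 5) (nat_lit 366) (nat_lit 5) (nat_lit 627) (nat_lit 585) (nat_lit 348))) (XT.nd (nat_lit 78) (nat_lit 836) (nat_lit 0) (XT.lf (nat_lit 0) (nat_lit 3019259427) (nat_lit 684) (nat_lit 17956595366)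 (nat_lit 760) (nat_lit 2336073268) (nat_lit 346) (nat_lit 5) (nat_lit 355) (nat_lit 5) (nat_lit 356) (nat_lit 5) (nat_lit 628) (nat_lit 585) (nat_lit 347)) (XT.nd (nat_lit 78) (nat_lit 760) (nat_lit 0) (XT.lf (nat_lit 0) (nat_lit 914031321) (nat_lit 760) (nat_lit 7204266752) (nat_lit 76) (nat_lit 15455672845) (nat_lit 345) (nat_lit 5) (nat_lit 355) (nat_lit 5) (nat_lit 346) (nat_lit 5) (nat_lit 629) (nat_lit 585) (nat_lit 346)) (XT.lf (nat_lit 0) (nat_lit 4247172913) (nat_lit 836) (nat_lit 17645461555) (nat_lit 76) (nat_lit 1947325231) (nat_lit 335) (nat_lit 5) (nat_lit 346) (nat_lit 5) (nat_lit 336) (nat_lit 5) (nat_lit 630) (nat_lit 585) (nat_lit 345))))) (XT.nd (nat_lit 156) (nat_lit 1292) (nat_lit 0) (XT.nd (nat_lit 78) (nat_lit 684) (nat_lit 0) (XT.lf (nat_lit 0) (nat_lit 7745620616) (nat_lit 836) (nat_lit 4209815741) (nat_lit 76) (nat_lit 12153859224) (nat_lit 335) (nat_lit 5) (nat_lit 346) (nat_lit 5) (nat_lit 336) (nat_lit 5) (nat_lit 631) (nat_lit 585) (nat_lit 344)) (XT.lf (nat_lit 0) (nat_lit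 9616424201) (nat_lit 684) (nat_lit 1756338621) (nat_lit 760) (nat_lit 13010081034) (nat_lit 326) (nat_lit 5) (nat_lit 335) (nat_lit 5) (nat_lit 336) (nat_lit 5) (nat_lit 632) (nat_lit 585) (nat_lit 343))) (XT.nd (nat_lit 78) (nat_lit 1292) (nat_lit 0) (XT.lf (nat_lit 0) (nat_lit 15153356622) (nat_lit 760) (nat_lit 945653424) (nat_lit 76) (nat_lit 8561235059) (nat_lit 326) (nat_lit 5) (nat_lit 336) (nat_lit 5) (nat_lit 327) (nat_lit 5) (nat_lit 633) (nat_lit 585) (nat_lit 342)) (XT.nd (nat_lit 78) (nat_lit 608) (nat_lit 0) (XT.lf (nat_lit 0) (nat_lit 13310265269) (nat_lit 684) (nat_lit 5793750625) (nat_lit 760) (nat_lit 5837289593) (nat_lit 317) (nat_lit 5) (nat_lit 326) (nat_lit 5) (nat_lit 327) (nat_lit 5) (nat_lit 634) (nat_lit 585) (nat_lit 341)) (XT.lf (nat_lit 0) (nat_lit 2635921815) (nat_lit 608) (nat_lit 20548341012) (nat_lit 684) (nat_lit 2042712936) (nat_lit 309) (nat_lit 5) (nat_lit 317) (nat_lit 5) (nat_lit 318) (nat_lit 5) (nat_lit 635) (nat_lit 585) (nat_lit 340)))))) (XT.nd (nat_lit 390) (nat_lit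 1900) (nat_lit 0) (XT.nd (nat_lit 156) (nat_lit 608) (nat_lit 0) (XT.nd (nat_lit 78) (nat_lit 684) (nat_lit 0) (XT.lf (nat_lit 0) (nat_lit 1917181975) (nat_lit 684) (nat_lit 8225923573) (nat_lit 76) (nat_lit 15372748764) (nat_lit 308) (nat_lit 5) (nat_lit 317) (nat_lit 5) (nat_lit 309) (nat_lit 5) (nat_lit 636) (nat_lit 585) (nat_lit 339)) (XT.lf (nat_lit 0) (nat_lit 5971059894) (nat_lit 760) (nat_lit 19318905751) (nat_lit 76) (nat_lit 519432166) (nat_lit 299) (nat_lit 5) (nat_lit 309) (nat_lit 5) (nat_lit 300) (nat_lit 5) (nat_lit 637) (nat_lit 585) (nat_lit 338))) (XT.nd (nat_lit 78) (nat_lit 608) (nat_lit 0) (XT.lf (nat_lit 0) (nat_lit 10225321478) (nat_lit 760) (nat_lit 4566716130) (nat_lit 76) (nat_lit 11314388613) (nat_lit 299) (nat_lit 5) (nat_lit 309) (nat_lit 5) (nat_lit 300) (nat_lit 5) (nat_lit 638) (nat_lit 585) (nat_lit 337)) (XT.nd (nat_lit 78) (nat_lit 0) (nat_lit 0) (XT.lf (nat_lit 0) (nat_lit 10615615466) (nat_lit 608) (nat_lit 4014611130) (nat_lit 684) (nat_lit 11777857596) (nat_lit 291)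 (nat_lit 5) (nat_lit 299) (nat_lit 5) (nat_lit 300) (nat_lit 5) (nat_lit 639) (nat_lit 585) (nat_lit 336)) (XT.lf (nat_lit 0) (nat_lit 19196055023) (nat_lit 684) (nat_lit 601338817) (nat_lit 76) (nat_lit 6916925135) (nat_lit 291) (nat_lit 5) (nat_lit 300) (nat_lit 5) (nat_lit 292) (nat_lit 5) (nat_lit 640) (nat_lit 585) (nat_lit 335))))) (XT.nd (nat_lit 156) (nat_lit 608) (nat_lit 0) (XT.nd (nat_lit 78) (nat_lit 684) (nat_lit 0) (XT.lf (nat_lit 0) (nat_lit 15060467191) (nat_lit 608) (nat_lit 8913836535) (nat_lit 684) (nat_lit 3049952808) (nat_lit 283) (nat_lit 5) (nat_lit 291) (nat_lit 5) (nat_lit 292) (nat_lit 5) (nat_lit 641) (nat_lit 585) (nat_lit 334)) (XT.lf (nat_lit 0) (nat_lit 1527484604) (nat_lit 684) (nat_lit 23615678096) (nat_lit 76) (nat_lit 2196243825) (nat_lit 274) (nat_lit 5) (nat_lit 283) (nat_lit 5) (nat_lit 275) (nat_lit 5) (nat_lit 642) (nat_lit 585) (nat_lit 333))) (XT.nd (nat_lit 78) (nat_lit 608) (nat_lit 0) (XT.lf (nat_lit 0) (nat_lit 6292299349) (nat_lit 684) (nat_lit 7855975808)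 (nat_lit 76) (nat_lit 13509447951) (nat_lit 274) (nat_lit 5) (nat_lit 283) (nat_lit 5) (nat_lit 275) (nat_lit 5) (nat_lit 643) (nat_lit 585) (nat_lit 332)) (XT.nd (nat_lit 78) (nat_lit 0) (nat_lit 0) (XT.lf (nat_lit 0) (nat_lit 8324044057) (nat_lit 608) (nat_lit 2879256885) (nat_lit 684) (nat_lit 16778087409) (nat_lit 266) (nat_lit 5) (nat_lit 274) (nat_lit 5) (nat_lit 275) (nat_lit 5) (nat_lit 644) (nat_lit 585) (nat_lit 331)) (XT.lf (nat_lit 0) (nat_lit 16318399870) (nat_lit 684) (nat_lit 3436680578) (nat_lit 76) (nat_lit 8554329047) (nat_lit 266) (nat_lit 5) (nat_lit 275) (nat_lit 5) (nat_lit 267) (nat_lit 5) (nat_lit 645) (nat_lit 585) (nat_lit 330))))))) (XT.nd (nat_lit 780) (nat_lit 1900) (nat_lit 0) (XT.nd (nat_lit 390) (nat_lit 1596) (nat_lit 0) (XT.nd (nat_lit 156) (nat_lit 608) (nat_lit 0) (XT.nd (nat_lit 78) (nat_lit 532) (nat_lit 0) (XT.lf (nat_lit 0) (nat_lit 13259227770) (nat_lit 532) (nat_lit 8378665132) (nat_lit 608) (nat_lit 7004056453) (nat_lit 259) (nat_lit 5) (nat_lit 266) (nat_lit 5)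 (nat_lit 267) (nat_lit 5) (nat_lit 646) (nat_lit 585) (nat_lit 329)) (XT.lf (nat_lit 0) (nat_lit 1347513963) (nat_lit 532) (nat_lit 25766130760) (nat_lit 608) (nat_lit 1866498043) (nat_lit 252) (nat_lit 5) (nat_lit 259) (nat_lit 5) (nat_lit 260) (nat_lit 5) (nat_lit 647) (nat_lit 585) (nat_lit 328))) (XT.nd (nat_lit 78) (nat_lit 532) (nat_lit 0) (XT.lf (nat_lit 0) (nat_lit 3485939216) (nat_lit 608) (nat_lit 10784280919) (nat_lit 76) (nat_lit 15051314422) (nat_lit 251) (nat_lit 5) (nat_lit 259) (nat_lit 5) (nat_lit 252) (nat_lit 5) (nat_lit 648) (nat_lit 585) (nat_lit 327)) (XT.nd (nat_lit 78) (nat_lit 0) (nat_lit 0) (XT.lf (nat_lit 0) (nat_lit 6469561719) (nat_lit 532) (nat_lit 2489936593) (nat_lit 608) (nat_lit 20709227935) (nat_lit 244) (nat_lit 5) (nat_lit 251) (nat_lit 5) (nat_lit 252) (nat_lit 5) (nat_lit 649) (nat_lit 585) (nat_lit 326)) (XT.lf (nat_lit 0) (nat_lit 14674288328) (nat_lit 608) (nat_lit 5873064394) (nat_lit 76) (nat_lit 9472873980) (nat_lit 244) (nat_lit 5) (nat_lit 252) (nat_lit 5)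 (nat_lit 245) (nat_lit 5) (nat_lit 650) (nat_lit 585) (nat_lit 325))))) (XT.nd (nat_lit 156) (nat_lit 1064) (nat_lit 0) (XT.nd (nat_lit 78) (nat_lit 0) (nat_lit 0) (XT.lf (nat_lit 0) (nat_lit 11935698203) (nat_lit 532) (nat_lit 8658781108) (nat_lit 608) (nat_lit 9782455871) (nat_lit 237) (nat_lit 5) (nat_lit 244) (nat_lit 5) (nat_lit 245) (nat_lit 5) (nat_lit 651) (nat_lit 585) (nat_lit 324)) (XT.lf (nat_lit 0) (nat_lit 26692405751) (nat_lit 608) (nat_lit 586450693) (nat_lit 76) (nat_lit 3460734874) (nat_lit 237) (nat_lit 5) (nat_lit 245) (nat_lit 5) (nat_lit 238) (nat_lit 5) (nat_lit 652) (nat_lit 585) (nat_lit 323))) (XT.nd (nat_lit 78) (nat_lit 532) (nat_lit 0) (XT.lf (nat_lit 0) (nat_lit 1950371209) (nat_lit 532) (nat_lit 13321278546) (nat_lit 76) (nat_lit 15834192337) (nat_lit 230) (nat_lit 5) (nat_lit 237) (nat_lit 5) (nat_lit 231) (nat_lit 5) (nat_lit 653) (nat_lit 585) (nat_lit 322)) (XT.nd (nat_lit 78) (nat_lit 0) (nat_lit 0) (XT.lf (nat_lit 0) (nat_lit 5087637037) (nat_lit 532) (nat_lit 2960307787)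 (nat_lit 608) (nat_lit 23430252982) (nat_lit 223) (nat_lit 5) (nat_lit 230) (nat_lit 5) (nat_lit 231) (nat_lit 5) (nat_lit 654) (nat_lit 585) (nat_lit 321)) (XT.lf (nat_lit 0) (nat_lit 14417002232) (nat_lit 608) (nat_lit 7877702971) (nat_lit 76) (nat_lit 9560304893) (nat_lit 223) (nat_lit 5) (nat_lit 231) (nat_lit 5) (nat_lit 224) (nat_lit 5) (nat_lit 655) (nat_lit 585) (nat_lit 320)))))) (XT.nd (nat_lit 390) (nat_lit 456) (nat_lit 0) (XT.nd (nat_lit 156) (nat_lit 988) (nat_lit 0) (XT.nd (nat_lit 78) (nat_lit 0) (nat_lit 0) (XT.lf (nat_lit 0) (nat_lit 11127937717) (nat_lit 456) (nat_lit 9874647652) (nat_lit 532) (nat_lit 11234990480) (nat_lit 217) (nat_lit 5) (nat_lit 223) (nat_lit 5) (nat_lit 224) (nat_lit 5) (nat_lit 656) (nat_lit 585) (nat_lit 319)) (XT.lf (nat_lit 0) (nat_lit 27788544351) (nat_lit 532) (nat_lit 2028585384) (nat_lit 76) (nat_lit 2809290003) (nat_lit 217) (nat_lit 5) (nat_lit 224) (nat_lit 5) (nat_lit 218) (nat_lit 5) (nat_lit 657) (nat_lit 585) (nat_lit 318))) (XT.nd (nat_lit 78) (nat_lit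 456) (nat_lit 0) (XT.lf (nat_lit 0) (nat_lit 1843228408) (nat_lit 532) (nat_lit 15435923569) (nat_lit 76) (nat_lit 15740106061) (nat_lit 210) (nat_lit 5) (nat_lit 217) (nat_lit 5) (nat_lit 211) (nat_lit 5) (nat_lit 658) (nat_lit 585) (nat_lit 317)) (XT.nd (nat_lit 78) (nat_lit 0) (nat_lit 0) (XT.lf (nat_lit 0) (nat_lit 4214686217) (nat_lit 456) (nat_lit 4416991088) (nat_lit 532) (nat_lit 24786866287) (nat_lit 204) (nat_lit 5) (nat_lit 210) (nat_lit 5) (nat_lit 211) (nat_lit 5) (nat_lit 659) (nat_lit 585) (nat_lit 316)) (XT.lf (nat_lit 0) (nat_lit 15714059948) (nat_lit 532) (nat_lit 9417175592) (nat_lit 76) (nat_lit 8691416120) (nat_lit 204) (nat_lit 5) (nat_lit 211) (nat_lit 5) (nat_lit 205) (nat_lit 5) (nat_lit 660) (nat_lit 585) (nat_lit 315))))) (XT.nd (nat_lit 75426) (nat_lit 0) (nat_lit 22648) (XT.nd (nat_lit 75348) (nat_lit 0) (nat_lit 22648) (XT.lf (nat_lit 0) (nat_lit 10874898018) (nat_lit 456) (nat_lit 12160495750) (nat_lit 532) (nat_lit 11197502146) (nat_lit 198) (nat_lit 5) (nat_lit 204) (nat_lit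 5) (nat_lit 205) (nat_lit 5) (nat_lit 661) (nat_lit 585) (nat_lit 314)) (XT.lf (nat_lit 0) (nat_lit 2064967055) (nat_lit 0) (nat_lit 2064967055) (nat_lit 1748) (nat_lit 3471274695) (nat_lit 496) (nat_lit 5) (nat_lit 496) (nat_lit 3) (nat_lit 519) (nat_lit 3) (nat_lit 586) (nat_lit 586) (nat_lit 388))) (XT.nd (nat_lit 78) (nat_lit 0) (nat_lit 0) (XT.lf (nat_lit 0) (nat_lit 8653392116) (nat_lit 1748) (nat_lit 3550710911) (nat_lit 1824) (nat_lit 3144102185) (nat_lit 496) (nat_lit 5) (nat_lit 519) (nat_lit 3) (nat_lit 520) (nat_lit 5) (nat_lit 587) (nat_lit 586) (nat_lit 387)) (XT.nd (nat_lit 78) (nat_lit 0) (nat_lit 76) (XT.lf (nat_lit 76) (nat_lit 4144518679) (nat_lit 0) (nat_lit 4956938935) (nat_lit 1824) (nat_lit 6394517999) (nat_lit 497) (nat_lit 5) (nat_lit 496) (nat_lit 5) (nat_lit 520) (nat_lit 5) (nat_lit 588) (nat_lit 586) (nat_lit 386)) (XT.lf (nat_lit 0) (nat_lit 9590837561) (nat_lit 1748) (nat_lit 3624540061) (nat_lit 1824) (nat_lit 2430677202) (nat_lit 497) (nat_lit 5) (nat_lit 520) (nat_lit 5)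 (nat_lit 521) (nat_lit 5) (nat_lit 589) (nat_lit 586) (nat_lit 385))))))))
noncomputable def xc195 : XT := (XT.nd (nat_lit 1560) (nat_lit 10032) (nat_lit 0) (XT.nd (nat_lit 780) (nat_lit 0) (nat_lit 76) (XT.nd (nat_lit 390) (nat_lit 1520) (nat_lit 0) (XT.nd (nat_lit 156) (nat_lit 0) (nat_lit 76) (XT.nd (nat_lit 78) (nat_lit 0) (nat_lit 76) (XT.lf (nat_lit 76) (nat_lit 4276120477) (nat_lit 0) (nat_lit 5867178856) (nat_lit 1824) (nat_lit 5654770857) (nat_lit 498) (nat_lit 5) (nat_lit 497) (nat_lit 5) (nat_lit 521) (nat_lit 5) (nat_lit 590) (nat_lit 586) (nat_lit 384)) (XT.lf (nat_lit 0) (nat_lit 10734704798) (nat_lit 1748) (nat_lit 3583631867) (nat_lit 1824) (nat_lit 1634231757) (nat_lit 498) (nat_lit 5) (nat_lit 521) (nat_lit 5) (nat_lit 522) (nat_lit 5) (nat_lit 591) (nat_lit 586) (nat_lit 383))) (XT.nd (nat_lit 78) (nat_lit 0) (nat_lit 76) (XT.lf (nat_lit 76) (nat_lit 4529902183) (nat_lit 0) (nat_lit 6869284037) (nat_lit 1824) (nat_lit 4709745879) (nat_lit 499) (nat_lit 5) (nat_lit 498) (nat_lit 5) (nat_lit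 522) (nat_lit 5) (nat_lit 592) (nat_lit 586) (nat_lit 382)) (XT.nd (nat_lit 78) (nat_lit 0) (nat_lit 0) (XT.lf (nat_lit 0) (nat_lit 12099006860) (nat_lit 1748) (nat_lit 3422783974) (nat_lit 1824) (nat_lit 746191653) (nat_lit 499) (nat_lit 5) (nat_lit 522) (nat_lit 5) (nat_lit 523) (nat_lit 5) (nat_lit 593) (nat_lit 586) (nat_lit 381)) (XT.lf (nat_lit 76) (nat_lit 4911356210) (nat_lit 0) (nat_lit 7972093262) (nat_lit 1824) (nat_lit 3545352321) (nat_lit 500) (nat_lit 5) (nat_lit 499) (nat_lit 5) (nat_lit 523) (nat_lit 5) (nat_lit 594) (nat_lit 586) (nat_lit 380))))) (XT.nd (nat_lit 156) (nat_lit 1672) (nat_lit 0) (XT.nd (nat_lit 78) (nat_lit 0) (nat_lit 76) (XT.lf (nat_lit 76) (nat_lit 13454451203) (nat_lit 0) (nat_lit 245449900) (nat_lit 1824) (nat_lit 2892610391) (nat_lit 500) (nat_lit 5) (nat_lit 499) (nat_lit 5) (nat_lit 523) (nat_lit 5) (nat_lit 595) (nat_lit 586) (nat_lit 379)) (XT.lf (nat_lit 76) (nat_lit 5426312887) (nat_lit 0) (nat_lit 9184674216) (nat_lit 1824) (nat_lit 2146942585) (nat_lit 501)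 (nat_lit 5) (nat_lit 500) (nat_lit 5) (nat_lit 524) (nat_lit 5) (nat_lit 596) (nat_lit 586) (nat_lit 378))) (XT.nd (nat_lit 78) (nat_lit 1748) (nat_lit 0) (XT.lf (nat_lit 76) (nat_lit 14198700547) (nat_lit 0) (nat_lit 1357865488) (nat_lit 1824) (nat_lit 1369765183) (nat_lit 501) (nat_lit 5) (nat_lit 500) (nat_lit 5) (nat_lit 524) (nat_lit 5) (nat_lit 597) (nat_lit 586) (nat_lit 377)) (XT.nd (nat_lit 78) (nat_lit 1824) (nat_lit 0) (XT.lf (nat_lit 76) (nat_lit 6080949271) (nat_lit 0) (nat_lit 10516343984) (nat_lit 1824) (nat_lit 499283178) (nat_lit 502) (nat_lit 5) (nat_lit 501) (nat_lit 5) (nat_lit 525) (nat_lit 5) (nat_lit 598) (nat_lit 586) (nat_lit 376)) (XT.lf (nat_lit 0) (nat_lit 404721822) (nat_lit 1824) (nat_lit 2183099463) (nat_lit 1900) (nat_lit 14681930978) (nat_lit 477) (nat_lit 5) (nat_lit 501) (nat_lit 5) (nat_lit 502) (nat_lit 5) (nat_lit 599) (nat_lit 586) (nat_lit 375)))))) (XT.nd (nat_lit 390) (nat_lit 0) (nat_lit 152) (XT.nd (nat_lit 156) (nat_lit 0) (nat_lit 76) (XT.nd (nat_lit 78) (nat_lit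 0) (nat_lit 0) (XT.lf (nat_lit 0) (nat_lit 1394937236) (nat_lit 1824) (nat_lit 10572391843) (nat_lit 1900) (nat_lit 5477500578) (nat_lit 478) (nat_lit 5) (nat_lit 502) (nat_lit 5) (nat_lit 503) (nat_lit 5) (nat_lit 600) (nat_lit 586) (nat_lit 374)) (XT.lf (nat_lit 0) (nat_lit 2430859967) (nat_lit 1824) (nat_lit 1505969586) (nat_lit 1900) (nat_lit 13686061345) (nat_lit 478) (nat_lit 5) (nat_lit 502) (nat_lit 5) (nat_lit 503) (nat_lit 5) (nat_lit 601) (nat_lit 586) (nat_lit 373))) (XT.nd (nat_lit 78) (nat_lit 0) (nat_lit 0) (XT.lf (nat_lit 0) (nat_lit 3560511298) (nat_lit 1824) (nat_lit 9991186165) (nat_lit 1900) (nat_lit 4251356051) (nat_lit 479) (nat_lit 5) (nat_lit 503) (nat_lit 5) (nat_lit 504) (nat_lit 5) (nat_lit 602) (nat_lit 586) (nat_lit 372)) (XT.nd (nat_lit 78) (nat_lit 0) (nat_lit 76) (XT.lf (nat_lit 0) (nat_lit 4743233936) (nat_lit 1824) (nat_lit 680592698) (nat_lit 1900) (nat_lit 12562383528) (nat_lit 479) (nat_lit 5) (nat_lit 503) (nat_lit 5) (nat_lit 504) (nat_lit 5) (nat_lit 603) (nat_lit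 586) (nat_lit 371)) (XT.lf (nat_lit 0) (nat_lit 6020936535) (nat_lit 1824) (nat_lit 9261896736) (nat_lit 1900) (nat_lit 2888770499) (nat_lit 480) (nat_lit 5) (nat_lit 504) (nat_lit 5) (nat_lit 505) (nat_lit 5) (nat_lit 604) (nat_lit 586) (nat_lit 370))))) (XT.nd (nat_lit 156) (nat_lit 0) (nat_lit 76) (XT.nd (nat_lit 78) (nat_lit 0) (nat_lit 76) (XT.lf (nat_lit 76) (nat_lit 304143845) (nat_lit 0) (nat_lit 7056980135) (nat_lit 1900) (nat_lit 10998842987) (nat_lit 481) (nat_lit 5) (nat_lit 480) (nat_lit 5) (nat_lit 505) (nat_lit 5) (nat_lit 605) (nat_lit 586) (nat_lit 369)) (XT.lf (nat_lit 0) (nat_lit 8793864446) (nat_lit 1824) (nat_lit 8377279657) (nat_lit 1900) (nat_lit 1379638665) (nat_lit 481) (nat_lit 5) (nat_lit 505) (nat_lit 5) (nat_lit 506) (nat_lit 5) (nat_lit 606) (nat_lit 586) (nat_lit 368))) (XT.nd (nat_lit 78) (nat_lit 0) (nat_lit 0) (XT.lf (nat_lit 76) (nat_lit 1462964096) (nat_lit 0) (nat_lit 8843164627) (nat_lit 1900) (nat_lit 8438269101) (nat_lit 482) (nat_lit 5) (nat_lit 481) (nat_lit 5)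 (nat_lit 506) (nat_lit 5) (nat_lit 607) (nat_lit 586) (nat_lit 367)) (XT.nd (nat_lit 78) (nat_lit 0) (nat_lit 76) (XT.lf (nat_lit 76) (nat_lit 11609274744) (nat_lit 0) (nat_lit 290292304) (nat_lit 1900) (nat_lit 7041299870) (nat_lit 482) (nat_lit 5) (nat_lit 481) (nat_lit 5) (nat_lit 506) (nat_lit 5) (nat_lit 608) (nat_lit 586) (nat_lit 366)) (XT.lf (nat_lit 76) (nat_lit 2794823749) (nat_lit 0) (nat_lit 10797775808) (nat_lit 1900) (nat_lit 5547311636) (nat_lit 483) (nat_lit 5) (nat_lit 482) (nat_lit 5) (nat_lit 507) (nat_lit 5) (nat_lit 609) (nat_lit 586) (nat_lit 365))))))) (XT.nd (nat_lit 780) (nat_lit 4864) (nat_lit 0) (XT.nd (nat_lit 390) (nat_lit 2660) (nat_lit 0) (XT.nd (nat_lit 156) (nat_lit 1140) (nat_lit 0) (XT.nd (nat_lit 78) (nat_lit 1748) (nat_lit 0) (XT.lf (nat_lit 76) (nat_lit 13216909753) (nat_lit 0) (nat_lit 2148588068) (nat_lit 1900) (nat_lit 3976518730) (nat_lit 483) (nat_lit 5) (nat_lit 482) (nat_lit 5) (nat_lit 507) (nat_lit 5) (nat_lit 610) (nat_lit 586) (nat_lit 364)) (XT.lf (nat_lit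 0) (nat_lit 4308132802) (nat_lit 1824) (nat_lit 12932023517) (nat_lit 1900) (nat_lit 2306681947) (nat_lit 459) (nat_lit 5) (nat_lit 483) (nat_lit 5) (nat_lit 484) (nat_lit 5) (nat_lit 611) (nat_lit 586) (nat_lit 363))) (XT.nd (nat_lit 78) (nat_lit 1140) (nat_lit 0) (XT.lf (nat_lit 0) (nat_lit 15014361589) (nat_lit 1824) (nat_lit 4188256405) (nat_lit 1900) (nat_lit 552132511) (nat_lit 459) (nat_lit 5) (nat_lit 483) (nat_lit 5) (nat_lit 484) (nat_lit 5) (nat_lit 612) (nat_lit 586) (nat_lit 362)) (XT.nd (nat_lit 78) (nat_lit 0) (nat_lit 0) (XT.lf (nat_lit 0) (nat_lit 1286624909) (nat_lit 1140) (nat_lit 13962263435) (nat_lit 76) (nat_lit 4716465285) (nat_lit 444) (nat_lit 5) (nat_lit 459) (nat_lit 5) (nat_lit 445) (nat_lit 5) (nat_lit 613) (nat_lit 586) (nat_lit 361)) (XT.lf (nat_lit 0) (nat_lit 3209737003) (nat_lit 1140) (nat_lit 3189778000) (nat_lit 76) (nat_lit 13779481641) (nat_lit 444) (nat_lit 5) (nat_lit 459) (nat_lit 5) (nat_lit 445) (nat_lit 5) (nat_lit 614) (nat_lit 586) (nat_lit 360))))) (XT.nd (nat_lit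 156) (nat_lit 1748) (nat_lit 0) (XT.nd (nat_lit 78) (nat_lit 0) (nat_lit 0) (XT.lf (nat_lit 0) (nat_lit 5235286389) (nat_lit 988) (nat_lit 12515897386) (nat_lit 76) (nat_lit 2644449511) (nat_lit 432) (nat_lit 5) (nat_lit 445) (nat_lit 5) (nat_lit 433) (nat_lit 5) (nat_lit 615) (nat_lit 586) (nat_lit 359)) (XT.lf (nat_lit 0) (nat_lit 7360643521) (nat_lit 988) (nat_lit 1449138945) (nat_lit 76) (nat_lit 11805634521) (nat_lit 432) (nat_lit 5) (nat_lit 445) (nat_lit 5) (nat_lit 433) (nat_lit 5) (nat_lit 616) (nat_lit 586) (nat_lit 358))) (XT.nd (nat_lit 78) (nat_lit 836) (nat_lit 0) (XT.lf (nat_lit 0) (nat_lit 9591115815) (nat_lit 988) (nat_lit 10875421960) (nat_lit 76) (nat_lit 371806683) (nat_lit 420) (nat_lit 5) (nat_lit 433) (nat_lit 5) (nat_lit 421) (nat_lit 5) (nat_lit 617) (nat_lit 586) (nat_lit 357)) (XT.nd (nat_lit 78) (nat_lit 0) (nat_lit 0) (XT.lf (nat_lit 0) (nat_lit 501199527) (nat_lit 836) (nat_lit 11431907251) (nat_lit 912) (nat_lit 9131285768) (nat_lit 409) (nat_lit 5) (nat_lit 420) (nat_lit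 5) (nat_lit 421) (nat_lit 5) (nat_lit 618) (nat_lit 586) (nat_lit 356)) (XT.lf (nat_lit 0) (nat_lit 12248501829) (nat_lit 836) (nat_lit 2141998874) (nat_lit 912) (nat_lit 6903089877) (nat_lit 409) (nat_lit 5) (nat_lit 420) (nat_lit 5) (nat_lit 421) (nat_lit 5) (nat_lit 619) (nat_lit 586) (nat_lit 355)))))) (XT.nd (nat_lit 390) (nat_lit 2280) (nat_lit 0) (XT.nd (nat_lit 156) (nat_lit 1748) (nat_lit 0) (XT.nd (nat_lit 78) (nat_lit 0) (nat_lit 0) (XT.lf (nat_lit 0) (nat_lit 2686724329) (nat_lit 836) (nat_lit 14271048334) (nat_lit 912) (nat_lit 4568385549) (nat_lit 398) (nat_lit 5) (nat_lit 409) (nat_lit 5) (nat_lit 410) (nat_lit 5) (nat_lit 620) (nat_lit 586) (nat_lit 354)) (XT.lf (nat_lit 0) (nat_lit 14757161562) (nat_lit 836) (nat_lit 4889746083) (nat_lit 912) (nat_lit 2115059437) (nat_lit 398) (nat_lit 5) (nat_lit 409) (nat_lit 5) (nat_lit 410) (nat_lit 5) (nat_lit 621) (nat_lit 586) (nat_lit 353))) (XT.nd (nat_lit 78) (nat_lit 836) (nat_lit 0) (XT.lf (nat_lit 0) (nat_lit 441942694) (nat_lit 912) (nat_lit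 16905455364) (nat_lit 76) (nat_lit 4653850215) (nat_lit 386) (nat_lit 5) (nat_lit 398) (nat_lit 5) (nat_lit 387) (nat_lit 5) (nat_lit 622) (nat_lit 586) (nat_lit 352)) (XT.nd (nat_lit 78) (nat_lit 836) (nat_lit 0) (XT.lf (nat_lit 0) (nat_lit 3097329571) (nat_lit 912) (nat_lit 4761995601) (nat_lit 76) (nat_lit 14384199220) (nat_lit 386) (nat_lit 5) (nat_lit 398) (nat_lit 5) (nat_lit 387) (nat_lit 5) (nat_lit 623) (nat_lit 586) (nat_lit 351)) (XT.lf (nat_lit 0) (nat_lit 5864015747) (nat_lit 912) (nat_lit 14780453756) (nat_lit 76) (nat_lit 1845012919) (nat_lit 375) (nat_lit 5) (nat_lit 387) (nat_lit 5) (nat_lit 376) (nat_lit 5) (nat_lit 624) (nat_lit 586) (nat_lit 350))))) (XT.nd (nat_lit 234) (nat_lit 760) (nat_lit 0) (XT.nd (nat_lit 78) (nat_lit 1520) (nat_lit 0) (XT.lf (nat_lit 0) (nat_lit 8766224143) (nat_lit 912) (nat_lit 2302200746) (nat_lit 76) (nat_lit 11670331168) (nat_lit 375) (nat_lit 5) (nat_lit 387) (nat_lit 5) (nat_lit 376) (nat_lit 5) (nat_lit 625) (nat_lit 586) (nat_lit 349)) (XT.nd (nat_lit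 78) (nat_lit 760) (nat_lit 0) (XT.lf (nat_lit 0) (nat_lit 10559952579) (nat_lit 760) (nat_lit 1231138171) (nat_lit 836) (nat_lit 11200632346) (nat_lit 365) (nat_lit 5) (nat_lit 375) (nat_lit 5) (nat_lit 376) (nat_lit 5) (nat_lit 626) (nat_lit 586) (nat_lit 348)) (XT.lf (nat_lit 0) (nat_lit 404960321) (nat_lit 760) (nat_lit 14542930035) (nat_lit 836) (nat_lit 8300430611) (nat_lit 355) (nat_lit 5) (nat_lit 365) (nat_lit 5) (nat_lit 366) (nat_lit 5) (nat_lit 627) (nat_lit 586) (nat_lit 347)))) (XT.nd (nat_lit 78) (nat_lit 760) (nat_lit 0) (XT.lf (nat_lit 0) (nat_lit 13654498128) (nat_lit 760) (nat_lit 4601001322) (nat_lit 836) (nat_lit 5252798079) (nat_lit 355) (nat_lit 5) (nat_lit 365) (nat_lit 5) (nat_lit 366) (nat_lit 5) (nat_lit 628) (nat_lit 586) (nat_lit 346)) (XT.nd (nat_lit 78) (nat_lit 76) (nat_lit 0) (XT.lf (nat_lit 0) (nat_lit 3400003333) (nat_lit 684) (nat_lit 18283523856) (nat_lit 760) (nat_lit 2088861301) (nat_lit 346) (nat_lit 5) (nat_lit 355) (nat_lit 5) (nat_lit 356) (nat_lit 5) (nat_lit 629)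 (nat_lit 586) (nat_lit 345)) (XT.lf (nat_lit 0) (nat_lit 1216702578) (nat_lit 760) (nat_lit 7030481067) (nat_lit 76) (nat_lit 15792564436) (nat_lit 345) (nat_lit 5) (nat_lit 355) (nat_lit 5) (nat_lit 346) (nat_lit 5) (nat_lit 630) (nat_lit 586) (nat_lit 344))))))))
noncomputable def xc196 : XT := (XT.nd (nat_lit 1560) (nat_lit 3040) (nat_lit 0) (XT.nd (nat_lit 780) (nat_lit 3572) (nat_lit 0) (XT.nd (nat_lit 390) (nat_lit 1976) (nat_lit 0) (XT.nd (nat_lit 156) (nat_lit 1368) (nat_lit 0) (XT.nd (nat_lit 78) (nat_lit 0) (nat_lit 0) (XT.lf (nat_lit 0) (nat_lit 4613207659) (nat_lit 836) (nat_lit 17677186264) (nat_lit 76) (nat_lit 2020728984) (nat_lit 335) (nat_lit 5) (nat_lit 346) (nat_lit 5) (nat_lit 336) (nat_lit 5) (nat_lit 631) (nat_lit 586) (nat_lit 343)) (XT.lf (nat_lit 0) (nat_lit 8176112722) (nat_lit 836) (nat_lit 3979125269) (nat_lit 76) (nat_lit 12430718025) (nat_lit 335) (nat_lit 5) (nat_lit 346) (nat_lit 5) (nat_lit 336) (nat_lit 5) (nat_lit 632) (nat_lit 586) (nat_lit 342))) (XT.nd (nat_lit 78)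 (nat_lit 684) (nat_lit 0) (XT.lf (nat_lit 0) (nat_lit 10121567847) (nat_lit 684) (nat_lit 1750857405) (nat_lit 760) (nat_lit 12992617728) (nat_lit 326) (nat_lit 5) (nat_lit 335) (nat_lit 5) (nat_lit 336) (nat_lit 5) (nat_lit 633) (nat_lit 586) (nat_lit 341)) (XT.nd (nat_lit 78) (nat_lit 684) (nat_lit 0) (XT.lf (nat_lit 0) (nat_lit 15723552018) (nat_lit 760) (nat_lit 652792706) (nat_lit 76) (nat_lit 8771749375) (nat_lit 326) (nat_lit 5) (nat_lit 336) (nat_lit 5) (nat_lit 327) (nat_lit 5) (nat_lit 634) (nat_lit 586) (nat_lit 340)) (XT.lf (nat_lit 0) (nat_lit 13886193217) (nat_lit 684) (nat_lit 5863804373) (nat_lit 760) (nat_lit 5684842897) (nat_lit 317) (nat_lit 5) (nat_lit 326) (nat_lit 5) (nat_lit 327) (nat_lit 5) (nat_lit 635) (nat_lit 586) (nat_lit 339))))) (XT.nd (nat_lit 156) (nat_lit 1292) (nat_lit 0) (XT.nd (nat_lit 78) (nat_lit 76) (nat_lit 0) (XT.lf (nat_lit 0) (nat_lit 3001285999) (nat_lit 608) (nat_lit 20907710498) (nat_lit 684) (nat_lit 1817284987) (nat_lit 309) (nat_lit 5) (nat_lit 317) (nat_lit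 5) (nat_lit 318) (nat_lit 5) (nat_lit 636) (nat_lit 586) (nat_lit 338)) (XT.lf (nat_lit 0) (nat_lit 2213162740) (nat_lit 684) (nat_lit 8080490417) (nat_lit 76) (nat_lit 15727353172) (nat_lit 308) (nat_lit 5) (nat_lit 317) (nat_lit 5) (nat_lit 309) (nat_lit 5) (nat_lit 637) (nat_lit 586) (nat_lit 337))) (XT.nd (nat_lit 78) (nat_lit 608) (nat_lit 0) (XT.lf (nat_lit 0) (nat_lit 6345411921) (nat_lit 760) (nat_lit 19392613857) (nat_lit 76) (nat_lit 582449288) (nat_lit 299) (nat_lit 5) (nat_lit 309) (nat_lit 5) (nat_lit 300) (nat_lit 5) (nat_lit 638) (nat_lit 586) (nat_lit 336)) (XT.nd (nat_lit 78) (nat_lit 608) (nat_lit 0) (XT.lf (nat_lit 0) (nat_lit 10679760093) (nat_lit 760) (nat_lit 4351511228) (nat_lit 76) (nat_lit 11592272933) (nat_lit 299) (nat_lit 5) (nat_lit 309) (nat_lit 5) (nat_lit 300) (nat_lit 5) (nat_lit 639) (nat_lit 586) (nat_lit 335)) (XT.lf (nat_lit 0) (nat_lit 11132450295) (nat_lit 608) (nat_lit 4037389549) (nat_lit 684) (nat_lit 11761454242) (nat_lit 291) (nat_lit 5) (nat_lit 299) (nat_lit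 5) (nat_lit 300) (nat_lit 5) (nat_lit 640) (nat_lit 586) (nat_lit 334)))))) (XT.nd (nat_lit 390) (nat_lit 1672) (nat_lit 0) (XT.nd (nat_lit 156) (nat_lit 1292) (nat_lit 0) (XT.nd (nat_lit 78) (nat_lit 608) (nat_lit 0) (XT.lf (nat_lit 0) (nat_lit 19822507628) (nat_lit 684) (nat_lit 310325503) (nat_lit 76) (nat_lit 7110910206) (nat_lit 291) (nat_lit 5) (nat_lit 300) (nat_lit 5) (nat_lit 292) (nat_lit 5) (nat_lit 641) (nat_lit 586) (nat_lit 333)) (XT.lf (nat_lit 0) (nat_lit 15662722940) (nat_lit 608) (nat_lit 9030797438) (nat_lit 684) (nat_lit 2866415511) (nat_lit 283) (nat_lit 5) (nat_lit 291) (nat_lit 5) (nat_lit 292) (nat_lit 5) (nat_lit 642) (nat_lit 586) (nat_lit 332))) (XT.nd (nat_lit 78) (nat_lit 608) (nat_lit 0) (XT.lf (nat_lit 0) (nat_lit 1797007658) (nat_lit 684) (nat_lit 23781360584) (nat_lit 76) (nat_lit 2303036214) (nat_lit 274) (nat_lit 5) (nat_lit 283) (nat_lit 5) (nat_lit 275) (nat_lit 5) (nat_lit 643) (nat_lit 586) (nat_lit 331)) (XT.nd (nat_lit 78) (nat_lit 608) (nat_lit 0) (XT.lf (nat_lit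 0) (nat_lit 6652432946) (nat_lit 684) (nat_lit 7712476624) (nat_lit 76) (nat_lit 13841271726) (nat_lit 274) (nat_lit 5) (nat_lit 283) (nat_lit 5) (nat_lit 275) (nat_lit 5) (nat_lit 644) (nat_lit 586) (nat_lit 330)) (XT.lf (nat_lit 0) (nat_lit 8789165884) (nat_lit 608) (nat_lit 2869833789) (nat_lit 684) (nat_lit 16877373478) (nat_lit 266) (nat_lit 5) (nat_lit 274) (nat_lit 5) (nat_lit 275) (nat_lit 5) (nat_lit 645) (nat_lit 586) (nat_lit 329))))) (XT.nd (nat_lit 156) (nat_lit 1140) (nat_lit 0) (XT.nd (nat_lit 78) (nat_lit 532) (nat_lit 0) (XT.lf (nat_lit 0) (nat_lit 16872285291) (nat_lit 684) (nat_lit 3208503550) (nat_lit 76) (nat_lit 8790248383) (nat_lit 266) (nat_lit 5) (nat_lit 275) (nat_lit 5) (nat_lit 267) (nat_lit 5) (nat_lit 646) (nat_lit 586) (nat_lit 328)) (XT.lf (nat_lit 0) (nat_lit 13819369605) (nat_lit 532) (nat_lit 8476252511) (nat_lit 608) (nat_lit 6914656884) (nat_lit 259) (nat_lit 5) (nat_lit 266) (nat_lit 5) (nat_lit 267) (nat_lit 5) (nat_lit 647) (nat_lit 586) (nat_lit 327))) (XT.nd (nat_lit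 78) (nat_lit 608) (nat_lit 0) (XT.lf (nat_lit 0) (nat_lit 1671509282) (nat_lit 532) (nat_lit 26207342587) (nat_lit 608) (nat_lit 1676425347) (nat_lit 252) (nat_lit 5) (nat_lit 259) (nat_lit 5) (nat_lit 260) (nat_lit 5) (nat_lit 648) (nat_lit 586) (nat_lit 326)) (XT.nd (nat_lit 78) (nat_lit 532) (nat_lit 0) (XT.lf (nat_lit 0) (nat_lit 3775677833) (nat_lit 608) (nat_lit 10705812619) (nat_lit 76) (nat_lit 15422065056) (nat_lit 251) (nat_lit 5) (nat_lit 259) (nat_lit 5) (nat_lit 252) (nat_lit 5) (nat_lit 649) (nat_lit 586) (nat_lit 325)) (XT.lf (nat_lit 0) (nat_lit 6891171648) (nat_lit 532) (nat_lit 2465119627) (nat_lit 608) (nat_lit 20901448278) (nat_lit 244) (nat_lit 5) (nat_lit 251) (nat_lit 5) (nat_lit 252) (nat_lit 5) (nat_lit 650) (nat_lit 586) (nat_lit 324))))))) (XT.nd (nat_lit 780) (nat_lit 0) (nat_lit 0) (XT.nd (nat_lit 390) (nat_lit 1444) (nat_lit 0) (XT.nd (nat_lit 156) (nat_lit 1064) (nat_lit 0) (XT.nd (nat_lit 78) (nat_lit 532) (nat_lit 0) (XT.lf (nat_lit 0) (nat_lit 15181585321) (nat_lit 608)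 (nat_lit 5700236016) (nat_lit 76) (nat_lit 9734524694) (nat_lit 244) (nat_lit 5) (nat_lit 252) (nat_lit 5) (nat_lit 245) (nat_lit 5) (nat_lit 651) (nat_lit 586) (nat_lit 323)) (XT.lf (nat_lit 0) (nat_lit 12462792032) (nat_lit 532) (nat_lit 8755068068) (nat_lit 608) (nat_lit 9762375158) (nat_lit 237) (nat_lit 5) (nat_lit 244) (nat_lit 5) (nat_lit 245) (nat_lit 5) (nat_lit 652) (nat_lit 586) (nat_lit 322))) (XT.nd (nat_lit 78) (nat_lit 1064) (nat_lit 0) (XT.lf (nat_lit 0) (nat_lit 27434087606) (nat_lit 608) (nat_lit 311788255) (nat_lit 76) (nat_lit 3604341977) (nat_lit 237) (nat_lit 5) (nat_lit 245) (nat_lit 5) (nat_lit 238) (nat_lit 5) (nat_lit 653) (nat_lit 586) (nat_lit 321)) (XT.nd (nat_lit 78) (nat_lit 532) (nat_lit 0) (XT.lf (nat_lit 0) (nat_lit 2196354391) (nat_lit 532) (nat_lit 13300437925) (nat_lit 76) (nat_lit 16227018808) (nat_lit 230) (nat_lit 5) (nat_lit 237) (nat_lit 5) (nat_lit 231) (nat_lit 5) (nat_lit 654) (nat_lit 586) (nat_lit 320)) (XT.lf (nat_lit 0) (nat_lit 5474766060) (nat_lit 532)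 (nat_lit 2938907921) (nat_lit 608) (nat_lit 23689984242) (nat_lit 223) (nat_lit 5) (nat_lit 230) (nat_lit 5) (nat_lit 231) (nat_lit 5) (nat_lit 655) (nat_lit 586) (nat_lit 319))))) (XT.nd (nat_lit 156) (nat_lit 988) (nat_lit 0) (XT.nd (nat_lit 78) (nat_lit 456) (nat_lit 0) (XT.lf (nat_lit 0) (nat_lit 14906610520) (nat_lit 608) (nat_lit 7751966371) (nat_lit 76) (nat_lit 9829500069) (nat_lit 223) (nat_lit 5) (nat_lit 231) (nat_lit 5) (nat_lit 224) (nat_lit 5) (nat_lit 656) (nat_lit 586) (nat_lit 318)) (XT.lf (nat_lit 0) (nat_lit 11631923376) (nat_lit 456) (nat_lit 9989862718) (nat_lit 532) (nat_lit 11256550474) (nat_lit 217) (nat_lit 5) (nat_lit 223) (nat_lit 5) (nat_lit 224) (nat_lit 5) (nat_lit 657) (nat_lit 586) (nat_lit 317))) (XT.nd (nat_lit 78) (nat_lit 988) (nat_lit 0) (XT.lf (nat_lit 0) (nat_lit 28540083102) (nat_lit 532) (nat_lit 1789859542) (nat_lit 76) (nat_lit 2945082467) (nat_lit 217) (nat_lit 5) (nat_lit 224) (nat_lit 5) (nat_lit 218) (nat_lit 5) (nat_lit 658) (nat_lit 586) (nat_lit 316)) (XT.nd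 (nat_lit 78) (nat_lit 456) (nat_lit 0) (XT.lf (nat_lit 0) (nat_lit 2075114109) (nat_lit 532) (nat_lit 15464582880) (nat_lit 76) (nat_lit 16136038421) (nat_lit 210) (nat_lit 5) (nat_lit 217) (nat_lit 5) (nat_lit 211) (nat_lit 5) (nat_lit 659) (nat_lit 586) (nat_lit 315)) (XT.lf (nat_lit 0) (nat_lit 4577196607) (nat_lit 456) (nat_lit 4420117800) (nat_lit 532) (nat_lit 25085732764) (nat_lit 204) (nat_lit 5) (nat_lit 210) (nat_lit 5) (nat_lit 211) (nat_lit 5) (nat_lit 660) (nat_lit 586) (nat_lit 314)))))) (XT.nd (nat_lit 75738) (nat_lit 0) (nat_lit 22268) (XT.nd (nat_lit 75504) (nat_lit 0) (nat_lit 22192) (XT.nd (nat_lit 75426) (nat_lit 0) (nat_lit 22192) (XT.lf (nat_lit 0) (nat_lit 16218102731) (nat_lit 532) (nat_lit 9329508615) (nat_lit 76) (nat_lit 8947691035) (nat_lit 204) (nat_lit 5) (nat_lit 211) (nat_lit 5) (nat_lit 205) (nat_lit 5) (nat_lit 661) (nat_lit 586) (nat_lit 313)) (XT.lf (nat_lit 0) (nat_lit 2250444344) (nat_lit 0) (nat_lit 2250444344) (nat_lit 1748) (nat_lit 3246559219) (nat_lit 496) (nat_lit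 5) (nat_lit 496) (nat_lit 3) (nat_lit 519) (nat_lit 3) (nat_lit 587) (nat_lit 587) (nat_lit 386))) (XT.nd (nat_lit 78) (nat_lit 0) (nat_lit 0) (XT.lf (nat_lit 0) (nat_lit 9390028186) (nat_lit 1748) (nat_lit 3325844499) (nat_lit 1824) (nat_lit 2927990057) (nat_lit 496) (nat_lit 5) (nat_lit 519) (nat_lit 3) (nat_lit 520) (nat_lit 5) (nat_lit 588) (nat_lit 587) (nat_lit 385)) (XT.nd (nat_lit 78) (nat_lit 0) (nat_lit 76) (XT.lf (nat_lit 76) (nat_lit 4521343099) (nat_lit 0) (nat_lit 5316569952) (nat_lit 1824) (nat_lit 5956859029) (nat_lit 497) (nat_lit 5) (nat_lit 496) (nat_lit 5) (nat_lit 520) (nat_lit 5) (nat_lit 589) (nat_lit 587) (nat_lit 384)) (XT.lf (nat_lit 0) (nat_lit 10324551368) (nat_lit 1748) (nat_lit 3396297156) (nat_lit 1824) (nat_lit 2227255613) (nat_lit 497) (nat_lit 5) (nat_lit 520) (nat_lit 5) (nat_lit 521) (nat_lit 5) (nat_lit 590) (nat_lit 587) (nat_lit 383))))) (XT.nd (nat_lit 156) (nat_lit 0) (nat_lit 76) (XT.nd (nat_lit 78) (nat_lit 0) (nat_lit 76) (XT.lf (nat_lit 76) (nat_lit 4660398081)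 (nat_lit 0) (nat_lit 6218978579) (nat_lit 1824) (nat_lit 5223957529) (nat_lit 498) (nat_lit 5) (nat_lit 497) (nat_lit 5) (nat_lit 521) (nat_lit 5) (nat_lit 591) (nat_lit 587) (nat_lit 382)) (XT.lf (nat_lit 0) (nat_lit 11470662712) (nat_lit 1748) (nat_lit 3350427205) (nat_lit 1824) (nat_lit 1440072068) (nat_lit 498) (nat_lit 5) (nat_lit 521) (nat_lit 5) (nat_lit 522) (nat_lit 5) (nat_lit 592) (nat_lit 587) (nat_lit 381))) (XT.nd (nat_lit 78) (nat_lit 0) (nat_lit 76) (XT.lf (nat_lit 76) (nat_lit 4923371755) (nat_lit 0) (nat_lit 7216807592) (nat_lit 1824) (nat_lit 4280639315) (nat_lit 499) (nat_lit 5) (nat_lit 498) (nat_lit 5) (nat_lit 522) (nat_lit 5) (nat_lit 593) (nat_lit 587) (nat_lit 380)) (XT.nd (nat_lit 78) (nat_lit 0) (nat_lit 0) (XT.lf (nat_lit 0) (nat_lit 12842599790) (nat_lit 1748) (nat_lit 3182878908) (nat_lit 1824) (nat_lit 557799918) (nat_lit 499) (nat_lit 5) (nat_lit 522) (nat_lit 5) (nat_lit 523) (nat_lit 5) (nat_lit 594) (nat_lit 587) (nat_lit 379)) (XT.lf (nat_lit 76) (nat_lit 5315915391)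 (nat_lit 0) (nat_lit 8318969229) (nat_lit 1824) (nat_lit 3112587234) (nat_lit 500) (nat_lit 5) (nat_lit 499) (nat_lit 5) (nat_lit 523) (nat_lit 5) (nat_lit 595) (nat_lit 587) (nat_lit 378))))))))
noncomputable def xc197 : XT := (XT.nd (nat_lit 1560) (nat_lit 9652) (nat_lit 0) (XT.nd (nat_lit 780) (nat_lit 2508) (nat_lit 0) (XT.nd (nat_lit 390) (nat_lit 0) (nat_lit 76) (XT.nd (nat_lit 156) (nat_lit 1672) (nat_lit 0) (XT.nd (nat_lit 78) (nat_lit 0) (nat_lit 76) (XT.lf (nat_lit 76) (nat_lit 14023865773) (nat_lit 0) (nat_lit 434117821) (nat_lit 1824) (nat_lit 2456666390) (nat_lit 500) (nat_lit 5) (nat_lit 499) (nat_lit 5) (nat_lit 523) (nat_lit 5) (nat_lit 596) (nat_lit 587) (nat_lit 377)) (XT.lf (nat_lit 76) (nat_lit 5844021947) (nat_lit 0) (nat_lit 9534615243) (nat_lit 1824) (nat_lit 1704913023) (nat_lit 501) (nat_lit 5) (nat_lit 500) (nat_lit 5) (nat_lit 524) (nat_lit 5) (nat_lit 597) (nat_lit 587) (nat_lit 376))) (XT.nd (nat_lit 78) (nat_lit 1748) (nat_lit 0) (XT.lf (nat_lit 76) (nat_lit 14785794953) (nat_lit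 0) (nat_lit 1548010584) (nat_lit 1824) (nat_lit 921701257) (nat_lit 501) (nat_lit 5) (nat_lit 500) (nat_lit 5) (nat_lit 524) (nat_lit 5) (nat_lit 598) (nat_lit 587) (nat_lit 375)) (XT.nd (nat_lit 78) (nat_lit 1824) (nat_lit 0) (XT.lf (nat_lit 76) (nat_lit 6514035228) (nat_lit 0) (nat_lit 10873157472) (nat_lit 1824) (nat_lit 42127872) (nat_lit 502) (nat_lit 5) (nat_lit 501) (nat_lit 5) (nat_lit 525) (nat_lit 5) (nat_lit 599) (nat_lit 587) (nat_lit 374)) (XT.lf (nat_lit 0) (nat_lit 864791094) (nat_lit 1824) (nat_lit 1915367949) (nat_lit 1900) (nat_lit 14825921550) (nat_lit 477) (nat_lit 5) (nat_lit 501) (nat_lit 5) (nat_lit 502) (nat_lit 5) (nat_lit 600) (nat_lit 587) (nat_lit 373))))) (XT.nd (nat_lit 156) (nat_lit 0) (nat_lit 76) (XT.nd (nat_lit 78) (nat_lit 0) (nat_lit 0) (XT.lf (nat_lit 0) (nat_lit 1867075487) (nat_lit 1824) (nat_lit 10464684164) (nat_lit 1900) (nat_lit 5453055125) (nat_lit 478) (nat_lit 5) (nat_lit 502) (nat_lit 5) (nat_lit 503) (nat_lit 5) (nat_lit 601) (nat_lit 587) (nat_lit 372)) (XT.lf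 (nat_lit 0) (nat_lit 2915006095) (nat_lit 1824) (nat_lit 1223191413) (nat_lit 1900) (nat_lit 13828414469) (nat_lit 478) (nat_lit 5) (nat_lit 502) (nat_lit 5) (nat_lit 503) (nat_lit 5) (nat_lit 602) (nat_lit 587) (nat_lit 371))) (XT.nd (nat_lit 78) (nat_lit 0) (nat_lit 0) (XT.lf (nat_lit 0) (nat_lit 4059961615) (nat_lit 1824) (nat_lit 9870797839) (nat_lit 1900) (nat_lit 4219764680) (nat_lit 479) (nat_lit 5) (nat_lit 503) (nat_lit 5) (nat_lit 504) (nat_lit 5) (nat_lit 603) (nat_lit 587) (nat_lit 370)) (XT.nd (nat_lit 78) (nat_lit 0) (nat_lit 76) (XT.lf (nat_lit 0) (nat_lit 5257941841) (nat_lit 1824) (nat_lit 380271170) (nat_lit 1900) (nat_lit 12699299344) (nat_lit 479) (nat_lit 5) (nat_lit 503) (nat_lit 5) (nat_lit 504) (nat_lit 5) (nat_lit 604) (nat_lit 587) (nat_lit 369)) (XT.lf (nat_lit 0) (nat_lit 6554330382) (nat_lit 1824) (nat_lit 9126308526) (nat_lit 1900) (nat_lit 2846112783) (nat_lit 480) (nat_lit 5) (nat_lit 504) (nat_lit 5) (nat_lit 505) (nat_lit 5) (nat_lit 605) (nat_lit 587) (nat_lit 368))))))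 (XT.nd (nat_lit 390) (nat_lit 2736) (nat_lit 0) (XT.nd (nat_lit 156) (nat_lit 0) (nat_lit 76) (XT.nd (nat_lit 78) (nat_lit 0) (nat_lit 76) (XT.lf (nat_lit 76) (nat_lit 628942168) (nat_lit 0) (nat_lit 7286351169) (nat_lit 1900) (nat_lit 10803709862) (nat_lit 481) (nat_lit 5) (nat_lit 480) (nat_lit 5) (nat_lit 505) (nat_lit 5) (nat_lit 606) (nat_lit 587) (nat_lit 367)) (XT.lf (nat_lit 0) (nat_lit 9368147637) (nat_lit 1824) (nat_lit 8223794456) (nat_lit 1900) (nat_lit 1321864517) (nat_lit 481) (nat_lit 5) (nat_lit 505) (nat_lit 5) (nat_lit 506) (nat_lit 5) (nat_lit 607) (nat_lit 587) (nat_lit 366))) (XT.nd (nat_lit 78) (nat_lit 0) (nat_lit 0) (XT.lf (nat_lit 76) (nat_lit 1811142127) (nat_lit 0) (nat_lit 9093773824) (nat_lit 1900) (nat_lit 8206493305) (nat_lit 482) (nat_lit 5) (nat_lit 481) (nat_lit 5) (nat_lit 506) (nat_lit 5) (nat_lit 608) (nat_lit 587) (nat_lit 365)) (XT.nd (nat_lit 78) (nat_lit 0) (nat_lit 76) (XT.lf (nat_lit 76) (nat_lit 12154125680) (nat_lit 0) (nat_lit 368398056) (nat_lit 1900) (nat_lit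 6789438438) (nat_lit 482) (nat_lit 5) (nat_lit 481) (nat_lit 5) (nat_lit 506) (nat_lit 5) (nat_lit 609) (nat_lit 587) (nat_lit 364)) (XT.lf (nat_lit 76) (nat_lit 3169466264) (nat_lit 0) (nat_lit 11074011586) (nat_lit 1900) (nat_lit 5271628712) (nat_lit 483) (nat_lit 5) (nat_lit 482) (nat_lit 5) (nat_lit 507) (nat_lit 5) (nat_lit 610) (nat_lit 587) (nat_lit 363))))) (XT.nd (nat_lit 156) (nat_lit 1140) (nat_lit 0) (XT.nd (nat_lit 78) (nat_lit 1748) (nat_lit 0) (XT.lf (nat_lit 76) (nat_lit 13793744066) (nat_lit 0) (nat_lit 2250658126) (nat_lit 1900) (nat_lit 3677000911) (nat_lit 483) (nat_lit 5) (nat_lit 482) (nat_lit 5) (nat_lit 507) (nat_lit 5) (nat_lit 611) (nat_lit 587) (nat_lit 362)) (XT.lf (nat_lit 0) (nat_lit 4712521603) (nat_lit 1824) (nat_lit 13238436046) (nat_lit 1900) (nat_lit 1979475958) (nat_lit 459) (nat_lit 5) (nat_lit 483) (nat_lit 5) (nat_lit 484) (nat_lit 5) (nat_lit 612) (nat_lit 587) (nat_lit 361))) (XT.nd (nat_lit 78) (nat_lit 1140) (nat_lit 0) (XT.lf (nat_lit 0) (nat_lit 15626635237)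 (nat_lit 1824) (nat_lit 4318856885) (nat_lit 1900) (nat_lit 197155918) (nat_lit 459) (nat_lit 5) (nat_lit 483) (nat_lit 5) (nat_lit 484) (nat_lit 5) (nat_lit 613) (nat_lit 587) (nat_lit 360)) (XT.nd (nat_lit 78) (nat_lit 0) (nat_lit 0) (XT.lf (nat_lit 0) (nat_lit 1668267750) (nat_lit 1140) (nat_lit 13919372535) (nat_lit 76) (nat_lit 4769881986) (nat_lit 444) (nat_lit 5) (nat_lit 459) (nat_lit 5) (nat_lit 445) (nat_lit 5) (nat_lit 614) (nat_lit 587) (nat_lit 359)) (XT.lf (nat_lit 0) (nat_lit 3622863452) (nat_lit 1140) (nat_lit 2937753787) (nat_lit 76) (nat_lit 14014960877) (nat_lit 444) (nat_lit 5) (nat_lit 459) (nat_lit 5) (nat_lit 445) (nat_lit 5) (nat_lit 615) (nat_lit 587) (nat_lit 358))))))) (XT.nd (nat_lit 780) (nat_lit 4408) (nat_lit 0) (XT.nd (nat_lit 390) (nat_lit 2584) (nat_lit 0) (XT.nd (nat_lit 156) (nat_lit 1748) (nat_lit 0) (XT.nd (nat_lit 78) (nat_lit 0) (nat_lit 0) (XT.lf (nat_lit 0) (nat_lit 5683921770) (nat_lit 988) (nat_lit 12445374066) (nat_lit 76) (nat_lit 2667352085) (nat_lit 432) (nat_lit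 5) (nat_lit 445) (nat_lit 5) (nat_lit 433) (nat_lit 5) (nat_lit 616) (nat_lit 587) (nat_lit 357)) (XT.lf (nat_lit 0) (nat_lit 7845042326) (nat_lit 988) (nat_lit 1163571461) (nat_lit 76) (nat_lit 12012348764) (nat_lit 432) (nat_lit 5) (nat_lit 445) (nat_lit 5) (nat_lit 433) (nat_lit 5) (nat_lit 617) (nat_lit 587) (nat_lit 356))) (XT.nd (nat_lit 78) (nat_lit 836) (nat_lit 0) (XT.lf (nat_lit 0) (nat_lit 10115410762) (nat_lit 988) (nat_lit 10773648149) (nat_lit 76) (nat_lit 359384300) (nat_lit 420) (nat_lit 5) (nat_lit 433) (nat_lit 5) (nat_lit 421) (nat_lit 5) (nat_lit 618) (nat_lit 587) (nat_lit 355)) (XT.nd (nat_lit 78) (nat_lit 0) (nat_lit 0) (XT.lf (nat_lit 0) (nat_lit 828405226) (nat_lit 836) (nat_lit 11671376601) (nat_lit 912) (nat_lit 8979319995) (nat_lit 409) (nat_lit 5) (nat_lit 420) (nat_lit 5) (nat_lit 421) (nat_lit 5) (nat_lit 619) (nat_lit 587) (nat_lit 354)) (XT.lf (nat_lit 0) (nat_lit 12804434325) (nat_lit 836) (nat_lit 2195457679) (nat_lit 912) (nat_lit 6713120803) (nat_lit 409) (nat_lit 5)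 (nat_lit 420) (nat_lit 5) (nat_lit 421) (nat_lit 5) (nat_lit 620) (nat_lit 587) (nat_lit 353))))) (XT.nd (nat_lit 156) (nat_lit 1748) (nat_lit 0) (XT.nd (nat_lit 78) (nat_lit 0) (nat_lit 0) (XT.lf (nat_lit 0) (nat_lit 3055851112) (nat_lit 836) (nat_lit 14558332919) (nat_lit 912) (nat_lit 4336134621) (nat_lit 398) (nat_lit 5) (nat_lit 409) (nat_lit 5) (nat_lit 410) (nat_lit 5) (nat_lit 621) (nat_lit 587) (nat_lit 352)) (XT.lf (nat_lit 0) (nat_lit 15361512927) (nat_lit 836) (nat_lit 4989368081) (nat_lit 912) (nat_lit 1840087450) (nat_lit 398) (nat_lit 5) (nat_lit 409) (nat_lit 5) (nat_lit 410) (nat_lit 5) (nat_lit 622) (nat_lit 587) (nat_lit 351))) (XT.nd (nat_lit 78) (nat_lit 836) (nat_lit 0) (XT.lf (nat_lit 0) (nat_lit 759790631) (nat_lit 912) (nat_lit 16926058733) (nat_lit 76) (nat_lit 4749227102) (nat_lit 386) (nat_lit 5) (nat_lit 398) (nat_lit 5) (nat_lit 387) (nat_lit 5) (nat_lit 623) (nat_lit 587) (nat_lit 350)) (XT.nd (nat_lit 78) (nat_lit 836) (nat_lit 0) (XT.lf (nat_lit 0) (nat_lit 3462226244) (nat_lit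 912) (nat_lit 4545955378) (nat_lit 76) (nat_lit 14674137991) (nat_lit 386) (nat_lit 5) (nat_lit 398) (nat_lit 5) (nat_lit 387) (nat_lit 5) (nat_lit 624) (nat_lit 587) (nat_lit 349)) (XT.lf (nat_lit 0) (nat_lit 6280380007) (nat_lit 912) (nat_lit 14760900613) (nat_lit 76) (nat_lit 1891993826) (nat_lit 375) (nat_lit 5) (nat_lit 387) (nat_lit 5) (nat_lit 376) (nat_lit 5) (nat_lit 625) (nat_lit 587) (nat_lit 348)))))) (XT.nd (nat_lit 390) (nat_lit 2204) (nat_lit 0) (XT.nd (nat_lit 156) (nat_lit 1444) (nat_lit 0) (XT.nd (nat_lit 78) (nat_lit 760) (nat_lit 0) (XT.lf (nat_lit 0) (nat_lit 9234768180) (nat_lit 912) (nat_lit 2039262194) (nat_lit 76) (nat_lit 11913620780) (nat_lit 375) (nat_lit 5) (nat_lit 387) (nat_lit 5) (nat_lit 376) (nat_lit 5) (nat_lit 626) (nat_lit 587) (nat_lit 347)) (XT.lf (nat_lit 0) (nat_lit 11078101418) (nat_lit 760) (nat_lit 1238274219) (nat_lit 836) (nat_lit 11129377332) (nat_lit 365) (nat_lit 5) (nat_lit 375) (nat_lit 5) (nat_lit 376) (nat_lit 5) (nat_lit 627) (nat_lit 587) (nat_lit 346)))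 (XT.nd (nat_lit 78) (nat_lit 684) (nat_lit 0) (XT.lf (nat_lit 0) (nat_lit 723643520) (nat_lit 760) (nat_lit 14809119795) (nat_lit 836) (nat_lit 8174790741) (nat_lit 355) (nat_lit 5) (nat_lit 365) (nat_lit 5) (nat_lit 366) (nat_lit 5) (nat_lit 628) (nat_lit 587) (nat_lit 345)) (XT.nd (nat_lit 78) (nat_lit 684) (nat_lit 0) (XT.lf (nat_lit 0) (nat_lit 14232082201) (nat_lit 760) (nat_lit 4668836211) (nat_lit 836) (nat_lit 5071924156) (nat_lit 355) (nat_lit 5) (nat_lit 365) (nat_lit 5) (nat_lit 366) (nat_lit 5) (nat_lit 629) (nat_lit 587) (nat_lit 344)) (XT.lf (nat_lit 0) (nat_lit 3775922198) (nat_lit 684) (nat_lit 18618241413) (nat_lit 760) (nat_lit 1848118888) (nat_lit 346) (nat_lit 5) (nat_lit 355) (nat_lit 5) (nat_lit 356) (nat_lit 5) (nat_lit 630) (nat_lit 587) (nat_lit 343))))) (XT.nd (nat_lit 234) (nat_lit 1368) (nat_lit 0) (XT.nd (nat_lit 78) (nat_lit 760) (nat_lit 0) (XT.lf (nat_lit 0) (nat_lit 1514384025) (nat_lit 760) (nat_lit 6865562989) (nat_lit 76) (nat_lit 16135115199) (nat_lit 345) (nat_lit 5)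 (nat_lit 355) (nat_lit 5) (nat_lit 346) (nat_lit 5) (nat_lit 631) (nat_lit 587) (nat_lit 342)) (XT.nd (nat_lit 78) (nat_lit 0) (nat_lit 0) (XT.lf (nat_lit 0) (nat_lit 4975647983) (nat_lit 836) (nat_lit 17722017454) (nat_lit 76) (nat_lit 2094262796) (nat_lit 335) (nat_lit 5) (nat_lit 346) (nat_lit 5) (nat_lit 336) (nat_lit 5) (nat_lit 632) (nat_lit 587) (nat_lit 341)) (XT.lf (nat_lit 0) (nat_lit 8604513575) (nat_lit 836) (nat_lit 3756048426) (nat_lit 76) (nat_lit 12711802221) (nat_lit 335) (nat_lit 5) (nat_lit 346) (nat_lit 5) (nat_lit 336) (nat_lit 5) (nat_lit 633) (nat_lit 587) (nat_lit 340)))) (XT.nd (nat_lit 78) (nat_lit 684) (nat_lit 0) (XT.lf (nat_lit 0) (nat_lit 10624667372) (nat_lit 684) (nat_lit 1746843422) (nat_lit 760) (nat_lit 12985587223) (nat_lit 326) (nat_lit 5) (nat_lit 335) (nat_lit 5) (nat_lit 336) (nat_lit 5) (nat_lit 634) (nat_lit 587) (nat_lit 339)) (XT.nd (nat_lit 78) (nat_lit 684) (nat_lit 0) (XT.lf (nat_lit 0) (nat_lit 16294778405) (nat_lit 760) (nat_lit 366181330) (nat_lit 76) (nat_lit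 8984948314) (nat_lit 326) (nat_lit 5) (nat_lit 336) (nat_lit 5) (nat_lit 327) (nat_lit 5) (nat_lit 635) (nat_lit 587) (nat_lit 338)) (XT.lf (nat_lit 0) (nat_lit 14461612816) (nat_lit 684) (nat_lit 5937038492) (nat_lit 760) (nat_lit 5539800340) (nat_lit 317) (nat_lit 5) (nat_lit 326) (nat_lit 5) (nat_lit 327) (nat_lit 5) (nat_lit 636) (nat_lit 587) (nat_lit 337))))))))
noncomputable def xc198 : XT := (XT.nd (nat_lit 1560) (nat_lit 1444) (nat_lit 0) (XT.nd (nat_lit 780) (nat_lit 3268) (nat_lit 0) (XT.nd (nat_lit 390) (nat_lit 1900) (nat_lit 0) (XT.nd (nat_lit 156) (nat_lit 1292) (nat_lit 0) (XT.nd (nat_lit 78) (nat_lit 76) (nat_lit 0) (XT.lf (nat_lit 0) (nat_lit 3361817052) (nat_lit 608) (nat_lit 21276270961) (nat_lit 684) (nat_lit 1597688543) (nat_lit 309) (nat_lit 5) (nat_lit 317) (nat_lit 5) (nat_lit 318) (nat_lit 5) (nat_lit 637) (nat_lit 587) (nat_lit 336)) (XT.lf (nat_lit 0) (nat_lit 2505058757) (nat_lit 684) (nat_lit 7944184397) (nat_lit 76) (nat_lit 16087218799) (nat_lit 308) (nat_lit 5) (nat_lit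 317) (nat_lit 5) (nat_lit 309) (nat_lit 5) (nat_lit 638) (nat_lit 587) (nat_lit 335))) (XT.nd (nat_lit 78) (nat_lit 608) (nat_lit 0) (XT.lf (nat_lit 0) (nat_lit 6717351714) (nat_lit 760) (nat_lit 19479937482) (nat_lit 76) (nat_lit 644683124) (nat_lit 299) (nat_lit 5) (nat_lit 309) (nat_lit 5) (nat_lit 300) (nat_lit 5) (nat_lit 639) (nat_lit 587) (nat_lit 334)) (XT.nd (nat_lit 78) (nat_lit 608) (nat_lit 0) (XT.lf (nat_lit 0) (nat_lit 11133582309) (nat_lit 760) (nat_lit 4143905519) (nat_lit 76) (nat_lit 11873711382) (nat_lit 299) (nat_lit 5) (nat_lit 309) (nat_lit 5) (nat_lit 300) (nat_lit 5) (nat_lit 640) (nat_lit 587) (nat_lit 333)) (XT.lf (nat_lit 0) (nat_lit 11647796840) (nat_lit 608) (nat_lit 4062856868) (nat_lit 684) (nat_lit 11754506753) (nat_lit 291) (nat_lit 5) (nat_lit 299) (nat_lit 5) (nat_lit 300) (nat_lit 5) (nat_lit 641) (nat_lit 587) (nat_lit 332))))) (XT.nd (nat_lit 156) (nat_lit 1292) (nat_lit 0) (XT.nd (nat_lit 78) (nat_lit 608) (nat_lit 0) (XT.lf (nat_lit 0) (nat_lit 20452071491) (nat_lit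 684) (nat_lit 25259339) (nat_lit 76) (nat_lit 7306614154) (nat_lit 291) (nat_lit 5) (nat_lit 300) (nat_lit 5) (nat_lit 292) (nat_lit 5) (nat_lit 642) (nat_lit 587) (nat_lit 331)) (XT.lf (nat_lit 0) (nat_lit 16265333805) (nat_lit 608) (nat_lit 9152478527) (nat_lit 684) (nat_lit 2688703112) (nat_lit 283) (nat_lit 5) (nat_lit 291) (nat_lit 5) (nat_lit 292) (nat_lit 5) (nat_lit 643) (nat_lit 587) (nat_lit 330))) (XT.nd (nat_lit 78) (nat_lit 608) (nat_lit 0) (XT.lf (nat_lit 0) (nat_lit 2062641547) (nat_lit 684) (nat_lit 23962263580) (nat_lit 76) (nat_lit 2409523229) (nat_lit 274) (nat_lit 5) (nat_lit 283) (nat_lit 5) (nat_lit 275) (nat_lit 5) (nat_lit 644) (nat_lit 587) (nat_lit 329)) (XT.nd (nat_lit 78) (nat_lit 608) (nat_lit 0) (XT.lf (nat_lit 0) (nat_lit 7010671542) (nat_lit 684) (nat_lit 7577780847) (nat_lit 76) (nat_lit 14177338622) (nat_lit 274) (nat_lit 5) (nat_lit 283) (nat_lit 5) (nat_lit 275) (nat_lit 5) (nat_lit 645) (nat_lit 587) (nat_lit 328)) (XT.lf (nat_lit 0) (nat_lit 9251993555) (nat_lit 608)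 (nat_lit 2862824241) (nat_lit 684) (nat_lit 16987820141) (nat_lit 266) (nat_lit 5) (nat_lit 274) (nat_lit 5) (nat_lit 275) (nat_lit 5) (nat_lit 646) (nat_lit 587) (nat_lit 327)))))) (XT.nd (nat_lit 390) (nat_lit 1596) (nat_lit 0) (XT.nd (nat_lit 156) (nat_lit 1140) (nat_lit 0) (XT.nd (nat_lit 78) (nat_lit 532) (nat_lit 0) (XT.lf (nat_lit 0) (nat_lit 17428413643) (nat_lit 684) (nat_lit 2987292383) (nat_lit 76) (nat_lit 9028368570) (nat_lit 266) (nat_lit 5) (nat_lit 275) (nat_lit 5) (nat_lit 267) (nat_lit 5) (nat_lit 647) (nat_lit 587) (nat_lit 326)) (XT.lf (nat_lit 0) (nat_lit 14379260727) (nat_lit 532) (nat_lit 8578509276) (nat_lit 608) (nat_lit 6832380339) (nat_lit 259) (nat_lit 5) (nat_lit 266) (nat_lit 5) (nat_lit 267) (nat_lit 5) (nat_lit 648) (nat_lit 587) (nat_lit 325))) (XT.nd (nat_lit 78) (nat_lit 608) (nat_lit 0) (XT.lf (nat_lit 0) (nat_lit 1990449887) (nat_lit 532) (nat_lit 26660256463) (nat_lit 608) (nat_lit 1491381519) (nat_lit 252) (nat_lit 5) (nat_lit 259) (nat_lit 5) (nat_lit 260) (nat_lit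 5) (nat_lit 649) (nat_lit 587) (nat_lit 324)) (XT.nd (nat_lit 78) (nat_lit 532) (nat_lit 0) (XT.lf (nat_lit 0) (nat_lit 4062667585) (nat_lit 608) (nat_lit 10637197309) (nat_lit 76) (nat_lit 15797523221) (nat_lit 251) (nat_lit 5) (nat_lit 259) (nat_lit 5) (nat_lit 252) (nat_lit 5) (nat_lit 650) (nat_lit 587) (nat_lit 323)) (XT.lf (nat_lit 0) (nat_lit 7309866567) (nat_lit 532) (nat_lit 2442703740) (nat_lit 608) (nat_lit 21106132169) (nat_lit 244) (nat_lit 5) (nat_lit 251) (nat_lit 5) (nat_lit 252) (nat_lit 5) (nat_lit 651) (nat_lit 587) (nat_lit 322))))) (XT.nd (nat_lit 156) (nat_lit 1064) (nat_lit 0) (XT.nd (nat_lit 78) (nat_lit 532) (nat_lit 0) (XT.lf (nat_lit 0) (nat_lit 15690725704) (nat_lit 608) (nat_lit 5535223372) (nat_lit 76) (nat_lit 9998605072) (nat_lit 244) (nat_lit 5) (nat_lit 252) (nat_lit 5) (nat_lit 245) (nat_lit 5) (nat_lit 652) (nat_lit 587) (nat_lit 321)) (XT.lf (nat_lit 0) (nat_lit 12989229597) (nat_lit 532) (nat_lit 8856266447) (nat_lit 608) (nat_lit 9750269883) (nat_lit 237) (nat_lit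 5) (nat_lit 244) (nat_lit 5) (nat_lit 245) (nat_lit 5) (nat_lit 653) (nat_lit 587) (nat_lit 320))) (XT.nd (nat_lit 78) (nat_lit 1064) (nat_lit 0) (XT.lf (nat_lit 0) (nat_lit 28182532661) (nat_lit 608) (nat_lit 42753498) (nat_lit 76) (nat_lit 3747932474) (nat_lit 237) (nat_lit 5) (nat_lit 245) (nat_lit 5) (nat_lit 238) (nat_lit 5) (nat_lit 654) (nat_lit 587) (nat_lit 319)) (XT.nd (nat_lit 78) (nat_lit 532) (nat_lit 0) (XT.lf (nat_lit 0) (nat_lit 2439220115) (nat_lit 532) (nat_lit 13290335388) (nat_lit 76) (nat_lit 16624745097) (nat_lit 230) (nat_lit 5) (nat_lit 237) (nat_lit 5) (nat_lit 231) (nat_lit 5) (nat_lit 655) (nat_lit 587) (nat_lit 318)) (XT.lf (nat_lit 0) (nat_lit 5858556155) (nat_lit 532) (nat_lit 2920210088) (nat_lit 608) (nat_lit 23963020952) (nat_lit 223) (nat_lit 5) (nat_lit 230) (nat_lit 5) (nat_lit 231) (nat_lit 5) (nat_lit 656) (nat_lit 587) (nat_lit 317))))))) (XT.nd (nat_lit 76284) (nat_lit 0) (nat_lit 20748) (XT.nd (nat_lit 75894) (nat_lit 0) (nat_lit 22192) (XT.nd (nat_lit 156) (nat_lit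 988) (nat_lit 0) (XT.nd (nat_lit 78) (nat_lit 456) (nat_lit 0) (XT.lf (nat_lit 0) (nat_lit 15398195484) (nat_lit 608) (nat_lit 7634715560) (nat_lit 76) (nat_lit 10101050736) (nat_lit 223) (nat_lit 5) (nat_lit 231) (nat_lit 5) (nat_lit 224) (nat_lit 5) (nat_lit 657) (nat_lit 587) (nat_lit 316)) (XT.lf (nat_lit 0) (nat_lit 12135060600) (nat_lit 456) (nat_lit 10110577036) (nat_lit 532) (nat_lit 11286429834) (nat_lit 217) (nat_lit 5) (nat_lit 223) (nat_lit 5) (nat_lit 224) (nat_lit 5) (nat_lit 658) (nat_lit 587) (nat_lit 315))) (XT.nd (nat_lit 78) (nat_lit 988) (nat_lit 0) (XT.lf (nat_lit 0) (nat_lit 29299050723) (nat_lit 532) (nat_lit 1557204648) (nat_lit 76) (nat_lit 3080499558) (nat_lit 217) (nat_lit 5) (nat_lit 224) (nat_lit 5) (nat_lit 218) (nat_lit 5) (nat_lit 659) (nat_lit 587) (nat_lit 314)) (XT.nd (nat_lit 78) (nat_lit 456) (nat_lit 0) (XT.lf (nat_lit 0) (nat_lit 2304064615) (nat_lit 532) (nat_lit 15504690416) (nat_lit 76) (nat_lit 16536739041) (nat_lit 210) (nat_lit 5) (nat_lit 217) (nat_lit 5) (nat_lit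 211) (nat_lit 5) (nat_lit 660) (nat_lit 587) (nat_lit 313)) (XT.lf (nat_lit 0) (nat_lit 4936153713) (nat_lit 456) (nat_lit 4426615976) (nat_lit 532) (nat_lit 25398221305) (nat_lit 204) (nat_lit 5) (nat_lit 210) (nat_lit 5) (nat_lit 211) (nat_lit 5) (nat_lit 661) (nat_lit 587) (nat_lit 312))))) (XT.nd (nat_lit 156) (nat_lit 0) (nat_lit 76) (XT.nd (nat_lit 78) (nat_lit 0) (nat_lit 0) (XT.lf (nat_lit 0) (nat_lit 10119512936) (nat_lit 1748) (nat_lit 3107970165) (nat_lit 1824) (nat_lit 2718389369) (nat_lit 496) (nat_lit 5) (nat_lit 519) (nat_lit 3) (nat_lit 520) (nat_lit 5) (nat_lit 589) (nat_lit 588) (nat_lit 383)) (XT.lf (nat_lit 76) (nat_lit 4894290190) (nat_lit 0) (nat_lit 5673278359) (nat_lit 1824) (nat_lit 5532407849) (nat_lit 497) (nat_lit 5) (nat_lit 496) (nat_lit 5) (nat_lit 520) (nat_lit 5) (nat_lit 590) (nat_lit 588) (nat_lit 382))) (XT.nd (nat_lit 78) (nat_lit 0) (nat_lit 0) (XT.lf (nat_lit 0) (nat_lit 11051896927) (nat_lit 1748) (nat_lit 3175167250) (nat_lit 1824) (nat_lit 2029552424) (nat_lit 497)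 (nat_lit 5) (nat_lit 520) (nat_lit 5) (nat_lit 521) (nat_lit 5) (nat_lit 591) (nat_lit 588) (nat_lit 381)) (XT.nd (nat_lit 78) (nat_lit 0) (nat_lit 76) (XT.lf (nat_lit 76) (nat_lit 5040760209) (nat_lit 0) (nat_lit 6568710078) (nat_lit 1824) (nat_lit 4805648573) (nat_lit 498) (nat_lit 5) (nat_lit 497) (nat_lit 5) (nat_lit 521) (nat_lit 5) (nat_lit 592) (nat_lit 588) (nat_lit 380)) (XT.lf (nat_lit 0) (nat_lit 12201098476) (nat_lit 1748) (nat_lit 3124397207) (nat_lit 1824) (nat_lit 1250837827) (nat_lit 498) (nat_lit 5) (nat_lit 521) (nat_lit 5) (nat_lit 522) (nat_lit 5) (nat_lit 593) (nat_lit 588) (nat_lit 379)))))) (XT.nd (nat_lit 390) (nat_lit 1596) (nat_lit 0) (XT.nd (nat_lit 156) (nat_lit 0) (nat_lit 76) (XT.nd (nat_lit 78) (nat_lit 0) (nat_lit 76) (XT.lf (nat_lit 76) (nat_lit 5312949847) (nat_lit 0) (nat_lit 7563121709) (nat_lit 1824) (nat_lit 3863271055) (nat_lit 499) (nat_lit 5) (nat_lit 498) (nat_lit 5) (nat_lit 522) (nat_lit 5) (nat_lit 594) (nat_lit 588) (nat_lit 378)) (XT.lf (nat_lit 0) (nat_lit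 13581586342) (nat_lit 1748) (nat_lit 2950149764) (nat_lit 1824) (nat_lit 373535341) (nat_lit 499) (nat_lit 5) (nat_lit 522) (nat_lit 5) (nat_lit 523) (nat_lit 5) (nat_lit 595) (nat_lit 588) (nat_lit 377))) (XT.nd (nat_lit 78) (nat_lit 0) (nat_lit 0) (XT.lf (nat_lit 76) (nat_lit 5716670508) (nat_lit 0) (nat_lit 8665504421) (nat_lit 1824) (nat_lit 2690725048) (nat_lit 500) (nat_lit 5) (nat_lit 499) (nat_lit 5) (nat_lit 523) (nat_lit 5) (nat_lit 596) (nat_lit 588) (nat_lit 376)) (XT.nd (nat_lit 78) (nat_lit 0) (nat_lit 76) (XT.lf (nat_lit 76) (nat_lit 14593006627) (nat_lit 0) (nat_lit 619423518) (nat_lit 1824) (nat_lit 2031178217) (nat_lit 500) (nat_lit 5) (nat_lit 499) (nat_lit 5) (nat_lit 523) (nat_lit 5) (nat_lit 597) (nat_lit 588) (nat_lit 375)) (XT.lf (nat_lit 76) (nat_lit 6258079244) (nat_lit 0) (nat_lit 9885099496) (nat_lit 1824) (nat_lit 1272874784) (nat_lit 501) (nat_lit 5) (nat_lit 500) (nat_lit 5) (nat_lit 524) (nat_lit 5) (nat_lit 598) (nat_lit 588) (nat_lit 374))))) (XT.nd (nat_lit 234) (nat_lit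 0) (nat_lit 76) (XT.nd (nat_lit 78) (nat_lit 1748) (nat_lit 0) (XT.lf (nat_lit 76) (nat_lit 15372860713) (nat_lit 0) (nat_lit 1735629568) (nat_lit 1824) (nat_lit 483138714) (nat_lit 501) (nat_lit 5) (nat_lit 500) (nat_lit 5) (nat_lit 524) (nat_lit 5) (nat_lit 599) (nat_lit 588) (nat_lit 373)) (XT.nd (nat_lit 78) (nat_lit 0) (nat_lit 0) (XT.lf (nat_lit 0) (nat_lit 400705718) (nat_lit 1824) (nat_lit 10828024311) (nat_lit 1900) (nat_lit 6540293598) (nat_lit 477) (nat_lit 5) (nat_lit 501) (nat_lit 5) (nat_lit 502) (nat_lit 5) (nat_lit 600) (nat_lit 588) (nat_lit 372)) (XT.lf (nat_lit 0) (nat_lit 1316511018) (nat_lit 1824) (nat_lit 1654373595) (nat_lit 1900) (nat_lit 14978602950) (nat_lit 477) (nat_lit 5) (nat_lit 501) (nat_lit 5) (nat_lit 502) (nat_lit 5) (nat_lit 601) (nat_lit 588) (nat_lit 371)))) (XT.nd (nat_lit 78) (nat_lit 0) (nat_lit 0) (XT.lf (nat_lit 0) (nat_lit 2331406142) (nat_lit 1824) (nat_lit 10367215529) (nat_lit 1900) (nat_lit 5433323969) (nat_lit 478) (nat_lit 5) (nat_lit 502) (nat_lit 5) (nat_lit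 503) (nat_lit 5) (nat_lit 602) (nat_lit 588) (nat_lit 370)) (XT.nd (nat_lit 78) (nat_lit 0) (nat_lit 76) (XT.lf (nat_lit 0) (nat_lit 3391923026) (nat_lit 1824) (nat_lit 946907870) (nat_lit 1900) (nat_lit 13978715839) (nat_lit 478) (nat_lit 5) (nat_lit 502) (nat_lit 5) (nat_lit 503) (nat_lit 5) (nat_lit 603) (nat_lit 588) (nat_lit 369)) (XT.lf (nat_lit 0) (nat_lit 4552771854) (nat_lit 1824) (nat_lit 9760435970) (nat_lit 1900) (nat_lit 4192069920) (nat_lit 479) (nat_lit 5) (nat_lit 503) (nat_lit 5) (nat_lit 504) (nat_lit 5) (nat_lit 604) (nat_lit 588) (nat_lit 368))))))))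
noncomputable def xc199 : XT := (XT.nd (nat_lit 1560) (nat_lit 8512) (nat_lit 0) (XT.nd (nat_lit 780) (nat_lit 5472) (nat_lit 0) (XT.nd (nat_lit 390) (nat_lit 1596) (nat_lit 0) (XT.nd (nat_lit 156) (nat_lit 0) (nat_lit 76) (XT.nd (nat_lit 78) (nat_lit 0) (nat_lit 76) (XT.lf (nat_lit 0) (nat_lit 5766640881) (nat_lit 1824) (nat_lit 86133627) (nat_lit 1900) (nat_lit 12843393121) (nat_lit 479) (nat_lit 5) (nat_lit 503) (nat_lit 5) (nat_lit 504) (nat_lit 5) (nat_lit 605) (nat_lit 588) (nat_lit 367)) (XT.lf (nat_lit 0) (nat_lit 7082355779) (nat_lit 1824) (nat_lit 9000466622) (nat_lit 1900) (nat_lit 2806501853) (nat_lit 480) (nat_lit 5) (nat_lit 504) (nat_lit 5) (nat_lit 505) (nat_lit 5) (nat_lit 606) (nat_lit 588) (nat_lit 366))) (XT.nd (nat_lit 78) (nat_lit 0) (nat_lit 76) (XT.lf (nat_lit 76) (nat_lit 947860349) (nat_lit 0) (nat_lit 7516883489) (nat_lit 1900) (nat_lit 10620793302) (nat_lit 481) (nat_lit 5) (nat_lit 480) (nat_lit 5) (nat_lit 505) (nat_lit 5) (nat_lit 607) (nat_lit 588) (nat_lit 365)) (XT.nd (nat_lit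 78) (nat_lit 0) (nat_lit 0) (XT.lf (nat_lit 0) (nat_lit 9938445905) (nat_lit 1824) (nat_lit 8079705568) (nat_lit 1900) (nat_lit 1266249787) (nat_lit 481) (nat_lit 5) (nat_lit 505) (nat_lit 5) (nat_lit 506) (nat_lit 5) (nat_lit 608) (nat_lit 588) (nat_lit 364)) (XT.lf (nat_lit 76) (nat_lit 2153899716) (nat_lit 0) (nat_lit 9346531561) (nat_lit 1900) (nat_lit 7985635496) (nat_lit 482) (nat_lit 5) (nat_lit 481) (nat_lit 5) (nat_lit 506) (nat_lit 5) (nat_lit 609) (nat_lit 588) (nat_lit 363))))) (XT.nd (nat_lit 156) (nat_lit 1748) (nat_lit 0) (XT.nd (nat_lit 78) (nat_lit 0) (nat_lit 76) (XT.lf (nat_lit 76) (nat_lit 12697732454) (nat_lit 0) (nat_lit 445258430) (nat_lit 1900) (nat_lit 6547788310) (nat_lit 482) (nat_lit 5) (nat_lit 481) (nat_lit 5) (nat_lit 506) (nat_lit 5) (nat_lit 610) (nat_lit 588) (nat_lit 362)) (XT.lf (nat_lit 76) (nat_lit 3539224333) (nat_lit 0) (nat_lit 11353431324) (nat_lit 1900) (nat_lit 5005445410) (nat_lit 483) (nat_lit 5) (nat_lit 482) (nat_lit 5) (nat_lit 507) (nat_lit 5) (nat_lit 611)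 (nat_lit 588) (nat_lit 361))) (XT.nd (nat_lit 78) (nat_lit 1824) (nat_lit 0) (XT.lf (nat_lit 76) (nat_lit 14369980461) (nat_lit 0) (nat_lit 2352474726) (nat_lit 1900) (nat_lit 3386211639) (nat_lit 483) (nat_lit 5) (nat_lit 482) (nat_lit 5) (nat_lit 507) (nat_lit 5) (nat_lit 612) (nat_lit 588) (nat_lit 360)) (XT.nd (nat_lit 78) (nat_lit 76) (nat_lit 0) (XT.lf (nat_lit 0) (nat_lit 5112641071) (nat_lit 1824) (nat_lit 13549121778) (nat_lit 1900) (nat_lit 1660223081) (nat_lit 459) (nat_lit 5) (nat_lit 483) (nat_lit 5) (nat_lit 484) (nat_lit 5) (nat_lit 613) (nat_lit 588) (nat_lit 359)) (XT.lf (nat_lit 0) (nat_lit 148730681) (nat_lit 1900) (nat_lit 4300521958) (nat_lit 76) (nat_lit 16089310803) (nat_lit 458) (nat_lit 5) (nat_lit 483) (nat_lit 5) (nat_lit 459) (nat_lit 5) (nat_lit 614) (nat_lit 588) (nat_lit 358)))))) (XT.nd (nat_lit 390) (nat_lit 2584) (nat_lit 0) (XT.nd (nat_lit 156) (nat_lit 1824) (nat_lit 0) (XT.nd (nat_lit 78) (nat_lit 0) (nat_lit 0) (XT.lf (nat_lit 0) (nat_lit 2043723016) (nat_lit 1140)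 (nat_lit 13888132758) (nat_lit 76) (nat_lit 4825955707) (nat_lit 444) (nat_lit 5) (nat_lit 459) (nat_lit 5) (nat_lit 445) (nat_lit 5) (nat_lit 615) (nat_lit 588) (nat_lit 357)) (XT.lf (nat_lit 0) (nat_lit 4030702987) (nat_lit 1140) (nat_lit 2692952757) (nat_lit 76) (nat_lit 14256707233) (nat_lit 444) (nat_lit 5) (nat_lit 459) (nat_lit 5) (nat_lit 445) (nat_lit 5) (nat_lit 616) (nat_lit 588) (nat_lit 356))) (XT.nd (nat_lit 78) (nat_lit 912) (nat_lit 0) (XT.lf (nat_lit 0) (nat_lit 6128174651) (nat_lit 988) (nat_lit 12385898937) (nat_lit 76) (nat_lit 2691877119) (nat_lit 432) (nat_lit 5) (nat_lit 445) (nat_lit 5) (nat_lit 433) (nat_lit 5) (nat_lit 617) (nat_lit 588) (nat_lit 355)) (XT.nd (nat_lit 78) (nat_lit 912) (nat_lit 0) (XT.lf (nat_lit 0) (nat_lit 8326035765) (nat_lit 988) (nat_lit 884506999) (nat_lit 76) (nat_lit 12224338869) (nat_lit 432) (nat_lit 5) (nat_lit 445) (nat_lit 5) (nat_lit 433) (nat_lit 5) (nat_lit 618) (nat_lit 588) (nat_lit 354)) (XT.lf (nat_lit 0) (nat_lit 10637281290) (nat_lit 988)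 (nat_lit 10682236982) (nat_lit 76) (nat_lit 347484600) (nat_lit 420) (nat_lit 5) (nat_lit 433) (nat_lit 5) (nat_lit 421) (nat_lit 5) (nat_lit 619) (nat_lit 588) (nat_lit 353))))) (XT.nd (nat_lit 156) (nat_lit 1748) (nat_lit 0) (XT.nd (nat_lit 78) (nat_lit 0) (nat_lit 0) (XT.lf (nat_lit 0) (nat_lit 1149838486) (nat_lit 836) (nat_lit 11915214748) (nat_lit 912) (nat_lit 8837307502) (nat_lit 409) (nat_lit 5) (nat_lit 420) (nat_lit 5) (nat_lit 421) (nat_lit 5) (nat_lit 620) (nat_lit 588) (nat_lit 352)) (XT.lf (nat_lit 0) (nat_lit 13359410419) (nat_lit 836) (nat_lit 2249573318) (nat_lit 912) (nat_lit 6532090187) (nat_lit 409) (nat_lit 5) (nat_lit 420) (nat_lit 5) (nat_lit 421) (nat_lit 5) (nat_lit 621) (nat_lit 588) (nat_lit 351))) (XT.nd (nat_lit 78) (nat_lit 912) (nat_lit 0) (XT.lf (nat_lit 0) (nat_lit 3420113364) (nat_lit 836) (nat_lit 14851290829) (nat_lit 912) (nat_lit 4111805180) (nat_lit 398) (nat_lit 5) (nat_lit 409) (nat_lit 5) (nat_lit 410) (nat_lit 5) (nat_lit 622) (nat_lit 588) (nat_lit 350)) (XT.nd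 (nat_lit 78) (nat_lit 912) (nat_lit 0) (XT.lf (nat_lit 0) (nat_lit 15965944391) (nat_lit 836) (nat_lit 5090911572) (nat_lit 912) (nat_lit 1571936128) (nat_lit 398) (nat_lit 5) (nat_lit 409) (nat_lit 5) (nat_lit 410) (nat_lit 5) (nat_lit 623) (nat_lit 588) (nat_lit 349)) (XT.lf (nat_lit 0) (nat_lit 1071996328) (nat_lit 912) (nat_lit 16959403303) (nat_lit 76) (nat_lit 4846422220) (nat_lit 386) (nat_lit 5) (nat_lit 398) (nat_lit 5) (nat_lit 387) (nat_lit 5) (nat_lit 624) (nat_lit 588) (nat_lit 348))))))) (XT.nd (nat_lit 780) (nat_lit 4636) (nat_lit 0) (XT.nd (nat_lit 390) (nat_lit 1520) (nat_lit 0) (XT.nd (nat_lit 156) (nat_lit 1520) (nat_lit 0) (XT.nd (nat_lit 78) (nat_lit 836) (nat_lit 0) (XT.lf (nat_lit 0) (nat_lit 3822656930) (nat_lit 912) (nat_lit 4337681736) (nat_lit 76) (nat_lit 14969787982) (nat_lit 386) (nat_lit 5) (nat_lit 398) (nat_lit 5) (nat_lit 387) (nat_lit 5) (nat_lit 625) (nat_lit 588) (nat_lit 347)) (XT.lf (nat_lit 0) (nat_lit 6693457759) (nat_lit 912) (nat_lit 14753194539) (nat_lit 76) (nat_lit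 1939522907) (nat_lit 375) (nat_lit 5) (nat_lit 387) (nat_lit 5) (nat_lit 376) (nat_lit 5) (nat_lit 626) (nat_lit 588) (nat_lit 346))) (XT.nd (nat_lit 78) (nat_lit 1520) (nat_lit 0) (XT.lf (nat_lit 0) (nat_lit 9701297026) (nat_lit 912) (nat_lit 1783063040) (nat_lit 76) (nat_lit 12161392416) (nat_lit 375) (nat_lit 5) (nat_lit 387) (nat_lit 5) (nat_lit 376) (nat_lit 5) (nat_lit 627) (nat_lit 588) (nat_lit 345)) (XT.nd (nat_lit 78) (nat_lit 760) (nat_lit 0) (XT.lf (nat_lit 0) (nat_lit 11594694000) (nat_lit 760) (nat_lit 1246232019) (nat_lit 836) (nat_lit 11068162820) (nat_lit 365) (nat_lit 5) (nat_lit 375) (nat_lit 5) (nat_lit 376) (nat_lit 5) (nat_lit 628) (nat_lit 588) (nat_lit 344)) (XT.lf (nat_lit 0) (nat_lit 1036640029) (nat_lit 760) (nat_lit 15081591272) (nat_lit 836) (nat_lit 8057963140) (nat_lit 355) (nat_lit 5) (nat_lit 365) (nat_lit 5) (nat_lit 366) (nat_lit 5) (nat_lit 629) (nat_lit 588) (nat_lit 343))))) (XT.nd (nat_lit 156) (nat_lit 836) (nat_lit 0) (XT.nd (nat_lit 78) (nat_lit 684) (nat_lit 0)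 (XT.lf (nat_lit 0) (nat_lit 14809394078) (nat_lit 760) (nat_lit 4738966936) (nat_lit 836) (nat_lit 4898535760) (nat_lit 355) (nat_lit 5) (nat_lit 365) (nat_lit 5) (nat_lit 366) (nat_lit 5) (nat_lit 630) (nat_lit 588) (nat_lit 342)) (XT.lf (nat_lit 0) (nat_lit 4147402579) (nat_lit 684) (nat_lit 18960855262) (nat_lit 760) (nat_lit 1613532208) (nat_lit 346) (nat_lit 5) (nat_lit 355) (nat_lit 5) (nat_lit 356) (nat_lit 5) (nat_lit 631) (nat_lit 588) (nat_lit 341))) (XT.nd (nat_lit 78) (nat_lit 760) (nat_lit 0) (XT.lf (nat_lit 0) (nat_lit 1807404689) (nat_lit 760) (nat_lit 6709210561) (nat_lit 76) (nat_lit 16483480204) (nat_lit 345) (nat_lit 5) (nat_lit 355) (nat_lit 5) (nat_lit 346) (nat_lit 5) (nat_lit 632) (nat_lit 588) (nat_lit 340)) (XT.nd (nat_lit 78) (nat_lit 0) (nat_lit 0) (XT.lf (nat_lit 0) (nat_lit 5334845843) (nat_lit 836) (nat_lit 17779732952) (nat_lit 76) (nat_lit 2167981223) (nat_lit 335) (nat_lit 5) (nat_lit 346) (nat_lit 5) (nat_lit 336) (nat_lit 5) (nat_lit 633) (nat_lit 588) (nat_lit 339)) (XT.lf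 (nat_lit 0) (nat_lit 9031196886) (nat_lit 836) (nat_lit 3540262678) (nat_lit 76) (nat_lit 12997247257) (nat_lit 335) (nat_lit 5) (nat_lit 346) (nat_lit 5) (nat_lit 336) (nat_lit 5) (nat_lit 634) (nat_lit 588) (nat_lit 338)))))) (XT.nd (nat_lit 390) (nat_lit 2584) (nat_lit 0) (XT.nd (nat_lit 156) (nat_lit 1368) (nat_lit 0) (XT.nd (nat_lit 78) (nat_lit 0) (nat_lit 0) (XT.lf (nat_lit 0) (nat_lit 11126153577) (nat_lit 684) (nat_lit 1744264786) (nat_lit 760) (nat_lit 12988779494) (nat_lit 326) (nat_lit 5) (nat_lit 335) (nat_lit 5) (nat_lit 336) (nat_lit 5) (nat_lit 635) (nat_lit 588) (nat_lit 337)) (XT.lf (nat_lit 0) (nat_lit 16867459196) (nat_lit 760) (nat_lit 85474171) (nat_lit 76) (nat_lit 9200944812) (nat_lit 326) (nat_lit 5) (nat_lit 336) (nat_lit 5) (nat_lit 327) (nat_lit 5) (nat_lit 636) (nat_lit 588) (nat_lit 336))) (XT.nd (nat_lit 78) (nat_lit 684) (nat_lit 0) (XT.lf (nat_lit 0) (nat_lit 15036980919) (nat_lit 684) (nat_lit 6013447496) (nat_lit 760) (nat_lit 5401904099) (nat_lit 317) (nat_lit 5) (nat_lit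 326) (nat_lit 5) (nat_lit 327) (nat_lit 5) (nat_lit 637) (nat_lit 588) (nat_lit 335)) (XT.nd (nat_lit 78) (nat_lit 76) (nat_lit 0) (XT.lf (nat_lit 0) (nat_lit 3717889737) (nat_lit 608) (nat_lit 21654128419) (nat_lit 684) (nat_lit 1383638715) (nat_lit 309) (nat_lit 5) (nat_lit 317) (nat_lit 5) (nat_lit 318) (nat_lit 5) (nat_lit 638) (nat_lit 588) (nat_lit 334)) (XT.lf (nat_lit 0) (nat_lit 2793176812) (nat_lit 684) (nat_lit 7816720691) (nat_lit 76) (nat_lit 16452521963) (nat_lit 308) (nat_lit 5) (nat_lit 317) (nat_lit 5) (nat_lit 309) (nat_lit 5) (nat_lit 639) (nat_lit 588) (nat_lit 333))))) (XT.nd (nat_lit 234) (nat_lit 1292) (nat_lit 0) (XT.nd (nat_lit 78) (nat_lit 608) (nat_lit 0) (XT.lf (nat_lit 0) (nat_lit 7087215429) (nat_lit 760) (nat_lit 19580677474) (nat_lit 76) (nat_lit 706197366) (nat_lit 299) (nat_lit 5) (nat_lit 309) (nat_lit 5) (nat_lit 300) (nat_lit 5) (nat_lit 640) (nat_lit 588) (nat_lit 332)) (XT.nd (nat_lit 78) (nat_lit 608) (nat_lit 0) (XT.lf (nat_lit 0) (nat_lit 11587152661) (nat_lit 760)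 (nat_lit 3943588769) (nat_lit 76) (nat_lit 12158852845) (nat_lit 299) (nat_lit 5) (nat_lit 309) (nat_lit 5) (nat_lit 300) (nat_lit 5) (nat_lit 641) (nat_lit 588) (nat_lit 331)) (XT.lf (nat_lit 0) (nat_lit 12162084514) (nat_lit 608) (nat_lit 4090980142) (nat_lit 684) (nat_lit 11756824327) (nat_lit 291) (nat_lit 5) (nat_lit 299) (nat_lit 5) (nat_lit 300) (nat_lit 5) (nat_lit 642) (nat_lit 588) (nat_lit 330)))) (XT.nd (nat_lit 78) (nat_lit 684) (nat_lit 0) (XT.lf (nat_lit 0) (nat_lit 257575828) (nat_lit 608) (nat_lit 20829271066) (nat_lit 684) (nat_lit 7248251789) (nat_lit 283) (nat_lit 5) (nat_lit 291) (nat_lit 5) (nat_lit 292) (nat_lit 5) (nat_lit 643) (nat_lit 588) (nat_lit 329)) (XT.nd (nat_lit 78) (nat_lit 684) (nat_lit 0) (XT.lf (nat_lit 0) (nat_lit 16868760826) (nat_lit 608) (nat_lit 9278881750) (nat_lit 684) (nat_lit 2516563382) (nat_lit 283) (nat_lit 5) (nat_lit 291) (nat_lit 5) (nat_lit 292) (nat_lit 5) (nat_lit 644) (nat_lit 588) (nat_lit 328)) (XT.lf (nat_lit 0) (nat_lit 2324668826) (nat_lit 684)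 (nat_lit 24158229137) (nat_lit 76) (nat_lit 2515793558) (nat_lit 274) (nat_lit 5) (nat_lit 283) (nat_lit 5) (nat_lit 275) (nat_lit 5) (nat_lit 645) (nat_lit 588) (nat_lit 327))))))))
noncomputable def xc200 : XT := (XT.nd (nat_lit 77142) (nat_lit 0) (nat_lit 20292) (XT.nd (nat_lit 780) (nat_lit 1596) (nat_lit 0) (XT.nd (nat_lit 390) (nat_lit 1596) (nat_lit 0) (XT.nd (nat_lit 156) (nat_lit 1064) (nat_lit 0) (XT.nd (nat_lit 78) (nat_lit 608) (nat_lit 0) (XT.lf (nat_lit 0) (nat_lit 7367330510) (nat_lit 684) (nat_lit 7451611253) (nat_lit 76) (nat_lit 14517826438) (nat_lit 274) (nat_lit 5) (nat_lit 283) (nat_lit 5) (nat_lit 275) (nat_lit 5) (nat_lit 646) (nat_lit 588) (nat_lit 326)) (XT.lf (nat_lit 0) (nat_lit 9712931498) (nat_lit 608) (nat_lit 2858175475) (nat_lit 684) (nat_lit 17109294338) (nat_lit 266) (nat_lit 5) (nat_lit 274) (nat_lit 5) (nat_lit 275) (nat_lit 5) (nat_lit 647) (nat_lit 588) (nat_lit 325))) (XT.nd (nat_lit 78) (nat_lit 1064) (nat_lit 0) (XT.lf (nat_lit 0) (nat_lit 17987172847) (nat_lit 684)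 (nat_lit 2772738695) (nat_lit 76) (nat_lit 9268831385) (nat_lit 266) (nat_lit 5) (nat_lit 275) (nat_lit 5) (nat_lit 267) (nat_lit 5) (nat_lit 648) (nat_lit 588) (nat_lit 324)) (XT.nd (nat_lit 78) (nat_lit 532) (nat_lit 0) (XT.lf (nat_lit 0) (nat_lit 14939340875) (nat_lit 532) (nat_lit 8685423286) (nat_lit 608) (nat_lit 6757023253) (nat_lit 259) (nat_lit 5) (nat_lit 266) (nat_lit 5) (nat_lit 267) (nat_lit 5) (nat_lit 649) (nat_lit 588) (nat_lit 323)) (XT.lf (nat_lit 0) (nat_lit 2304682587) (nat_lit 532) (nat_lit 27124994679) (nat_lit 608) (nat_lit 1311124245) (nat_lit 252) (nat_lit 5) (nat_lit 259) (nat_lit 5) (nat_lit 260) (nat_lit 5) (nat_lit 650) (nat_lit 588) (nat_lit 322))))) (XT.nd (nat_lit 156) (nat_lit 988) (nat_lit 0) (XT.nd (nat_lit 78) (nat_lit 532) (nat_lit 0) (XT.lf (nat_lit 0) (nat_lit 4347185253) (nat_lit 608) (nat_lit 10578188504) (nat_lit 76) (nat_lit 16177888203) (nat_lit 251) (nat_lit 5) (nat_lit 259) (nat_lit 5) (nat_lit 252) (nat_lit 5) (nat_lit 651) (nat_lit 588) (nat_lit 321)) (XT.lf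 (nat_lit 0) (nat_lit 7726028803) (nat_lit 532) (nat_lit 2422624444) (nat_lit 608) (nat_lit 21323194188) (nat_lit 244) (nat_lit 5) (nat_lit 251) (nat_lit 5) (nat_lit 252) (nat_lit 5) (nat_lit 652) (nat_lit 588) (nat_lit 320))) (XT.nd (nat_lit 78) (nat_lit 988) (nat_lit 0) (XT.lf (nat_lit 0) (nat_lit 16202068742) (nat_lit 608) (nat_lit 5377745059) (nat_lit 76) (nat_lit 10265272564) (nat_lit 244) (nat_lit 5) (nat_lit 252) (nat_lit 5) (nat_lit 245) (nat_lit 5) (nat_lit 653) (nat_lit 588) (nat_lit 319)) (XT.nd (nat_lit 78) (nat_lit 456) (nat_lit 0) (XT.lf (nat_lit 0) (nat_lit 13515432608) (nat_lit 532) (nat_lit 8962358537) (nat_lit 608) (nat_lit 9745974263) (nat_lit 237) (nat_lit 5) (nat_lit 244) (nat_lit 5) (nat_lit 245) (nat_lit 5) (nat_lit 654) (nat_lit 588) (nat_lit 318)) (XT.lf (nat_lit 0) (nat_lit 223909477) (nat_lit 456) (nat_lit 28715733856) (nat_lit 532) (nat_lit 3669162499) (nat_lit 231) (nat_lit 5) (nat_lit 237) (nat_lit 5) (nat_lit 238) (nat_lit 5) (nat_lit 655) (nat_lit 588) (nat_lit 317)))))) (XT.nd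 (nat_lit 390) (nat_lit 532) (nat_lit 0) (XT.nd (nat_lit 156) (nat_lit 456) (nat_lit 0) (XT.nd (nat_lit 78) (nat_lit 532) (nat_lit 0) (XT.lf (nat_lit 0) (nat_lit 2679218124) (nat_lit 532) (nat_lit 13290752538) (nat_lit 76) (nat_lit 17027584013) (nat_lit 230) (nat_lit 5) (nat_lit 237) (nat_lit 5) (nat_lit 231) (nat_lit 5) (nat_lit 656) (nat_lit 588) (nat_lit 316)) (XT.lf (nat_lit 0) (nat_lit 6239370852) (nat_lit 532) (nat_lit 2904146786) (nat_lit 608) (nat_lit 24249314267) (nat_lit 223) (nat_lit 5) (nat_lit 230) (nat_lit 5) (nat_lit 231) (nat_lit 5) (nat_lit 657) (nat_lit 588) (nat_lit 315))) (XT.nd (nat_lit 78) (nat_lit 456) (nat_lit 0) (XT.lf (nat_lit 0) (nat_lit 15892100140) (nat_lit 608) (nat_lit 7525693091) (nat_lit 76) (nat_lit 10375121604) (nat_lit 223) (nat_lit 5) (nat_lit 231) (nat_lit 5) (nat_lit 224) (nat_lit 5) (nat_lit 658) (nat_lit 588) (nat_lit 314)) (XT.nd (nat_lit 78) (nat_lit 0) (nat_lit 0) (XT.lf (nat_lit 0) (nat_lit 12637756771) (nat_lit 456) (nat_lit 10236776527) (nat_lit 532) (nat_lit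 11324488641) (nat_lit 217) (nat_lit 5) (nat_lit 223) (nat_lit 5) (nat_lit 224) (nat_lit 5) (nat_lit 659) (nat_lit 588) (nat_lit 313)) (XT.lf (nat_lit 0) (nat_lit 30065890983) (nat_lit 532) (nat_lit 1330320977) (nat_lit 76) (nat_lit 3215653802) (nat_lit 217) (nat_lit 5) (nat_lit 224) (nat_lit 5) (nat_lit 218) (nat_lit 5) (nat_lit 660) (nat_lit 588) (nat_lit 312))))) (XT.nd (nat_lit 75738) (nat_lit 0) (nat_lit 21736) (XT.nd (nat_lit 75660) (nat_lit 0) (nat_lit 21736) (XT.lf (nat_lit 0) (nat_lit 2530315289) (nat_lit 532) (nat_lit 15556052851) (nat_lit 76) (nat_lit 16942425622) (nat_lit 210) (nat_lit 5) (nat_lit 217) (nat_lit 5) (nat_lit 211) (nat_lit 5) (nat_lit 661) (nat_lit 588) (nat_lit 311)) (XT.lf (nat_lit 0) (nat_lit 10842553124) (nat_lit 1748) (nat_lit 2896781601) (nat_lit 1824) (nat_lit 2515009667) (nat_lit 496) (nat_lit 5) (nat_lit 519) (nat_lit 3) (nat_lit 520) (nat_lit 5) (nat_lit 590) (nat_lit 589) (nat_lit 381))) (XT.nd (nat_lit 78) (nat_lit 0) (nat_lit 76) (XT.lf (nat_lit 76) (nat_lit 5263725619)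 (nat_lit 0) (nat_lit 6027398489) (nat_lit 1824) (nat_lit 5120575844) (nat_lit 497) (nat_lit 5) (nat_lit 496) (nat_lit 5) (nat_lit 520) (nat_lit 5) (nat_lit 591) (nat_lit 589) (nat_lit 380)) (XT.nd (nat_lit 78) (nat_lit 0) (nat_lit 0) (XT.lf (nat_lit 0) (nat_lit 11773563982) (nat_lit 1748) (nat_lit 2960839136) (nat_lit 1824) (nat_lit 1837301967) (nat_lit 497) (nat_lit 5) (nat_lit 520) (nat_lit 5) (nat_lit 521) (nat_lit 5) (nat_lit 592) (nat_lit 589) (nat_lit 379)) (XT.lf (nat_lit 76) (nat_lit 5417579034) (nat_lit 0) (nat_lit 6916685517) (nat_lit 1824) (nat_lit 4399273937) (nat_lit 498) (nat_lit 5) (nat_lit 497) (nat_lit 5) (nat_lit 521) (nat_lit 5) (nat_lit 593) (nat_lit 589) (nat_lit 378))))))) (XT.nd (nat_lit 780) (nat_lit 0) (nat_lit 76) (XT.nd (nat_lit 390) (nat_lit 1596) (nat_lit 0) (XT.nd (nat_lit 156) (nat_lit 0) (nat_lit 76) (XT.nd (nat_lit 78) (nat_lit 0) (nat_lit 0) (XT.lf (nat_lit 0) (nat_lit 12926687640) (nat_lit 1748) (nat_lit 2905225653) (nat_lit 1824) (nat_lit 1066285492) (nat_lit 498) (nat_lit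 5) (nat_lit 521) (nat_lit 5) (nat_lit 522) (nat_lit 5) (nat_lit 594) (nat_lit 589) (nat_lit 377)) (XT.lf (nat_lit 76) (nat_lit 5699015319) (nat_lit 0) (nat_lit 7908519058) (nat_lit 1824) (nat_lit 3457086796) (nat_lit 499) (nat_lit 5) (nat_lit 498) (nat_lit 5) (nat_lit 522) (nat_lit 5) (nat_lit 595) (nat_lit 589) (nat_lit 376))) (XT.nd (nat_lit 78) (nat_lit 0) (nat_lit 0) (XT.lf (nat_lit 0) (nat_lit 14316630752) (nat_lit 1748) (nat_lit 2724275095) (nat_lit 1824) (nat_lit 193173890) (nat_lit 499) (nat_lit 5) (nat_lit 522) (nat_lit 5) (nat_lit 523) (nat_lit 5) (nat_lit 596) (nat_lit 589) (nat_lit 375)) (XT.nd (nat_lit 78) (nat_lit 0) (nat_lit 0) (XT.lf (nat_lit 76) (nat_lit 6114007387) (nat_lit 0) (nat_lit 9011974647) (nat_lit 1824) (nat_lit 2279224352) (nat_lit 500) (nat_lit 5) (nat_lit 499) (nat_lit 5) (nat_lit 523) (nat_lit 5) (nat_lit 597) (nat_lit 589) (nat_lit 374)) (XT.lf (nat_lit 76) (nat_lit 15162321142) (nat_lit 0) (nat_lit 801576829) (nat_lit 1824) (nat_lit 1615610412) (nat_lit 500) (nat_lit 5)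 (nat_lit 499) (nat_lit 5) (nat_lit 523) (nat_lit 5) (nat_lit 598) (nat_lit 589) (nat_lit 373))))) (XT.nd (nat_lit 156) (nat_lit 1748) (nat_lit 0) (XT.nd (nat_lit 78) (nat_lit 0) (nat_lit 0) (XT.lf (nat_lit 76) (nat_lit 6668877947) (nat_lit 0) (nat_lit 10236388517) (nat_lit 1824) (nat_lit 850296428) (nat_lit 501) (nat_lit 5) (nat_lit 500) (nat_lit 5) (nat_lit 524) (nat_lit 5) (nat_lit 599) (nat_lit 589) (nat_lit 372)) (XT.lf (nat_lit 76) (nat_lit 15960354318) (nat_lit 0) (nat_lit 1920917681) (nat_lit 1824) (nat_lit 53550654) (nat_lit 501) (nat_lit 5) (nat_lit 500) (nat_lit 5) (nat_lit 524) (nat_lit 5) (nat_lit 600) (nat_lit 589) (nat_lit 371))) (XT.nd (nat_lit 78) (nat_lit 0) (nat_lit 0) (XT.lf (nat_lit 0) (nat_lit 834625815) (nat_lit 1824) (nat_lit 10751151744) (nat_lit 1900) (nat_lit 6530082773) (nat_lit 477) (nat_lit 5) (nat_lit 501) (nat_lit 5) (nat_lit 502) (nat_lit 5) (nat_lit 601) (nat_lit 589) (nat_lit 370)) (XT.nd (nat_lit 78) (nat_lit 0) (nat_lit 76) (XT.lf (nat_lit 0) (nat_lit 1760396122) (nat_lit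 1824) (nat_lit 1399781603) (nat_lit 1900) (nat_lit 15139923345) (nat_lit 477) (nat_lit 5) (nat_lit 501) (nat_lit 5) (nat_lit 502) (nat_lit 5) (nat_lit 602) (nat_lit 589) (nat_lit 369)) (XT.lf (nat_lit 0) (nat_lit 2788442901) (nat_lit 1824) (nat_lit 10279709476) (nat_lit 1900) (nat_lit 5418199351) (nat_lit 478) (nat_lit 5) (nat_lit 502) (nat_lit 5) (nat_lit 503) (nat_lit 5) (nat_lit 603) (nat_lit 589) (nat_lit 368)))))) (XT.nd (nat_lit 390) (nat_lit 0) (nat_lit 228) (XT.nd (nat_lit 156) (nat_lit 0) (nat_lit 76) (XT.nd (nat_lit 78) (nat_lit 0) (nat_lit 76) (XT.lf (nat_lit 0) (nat_lit 3862122894) (nat_lit 1824) (nat_lit 676777043) (nat_lit 1900) (nat_lit 14136926335) (nat_lit 478) (nat_lit 5) (nat_lit 502) (nat_lit 5) (nat_lit 503) (nat_lit 5) (nat_lit 604) (nat_lit 589) (nat_lit 367)) (XT.lf (nat_lit 0) (nat_lit 5039454941) (nat_lit 1824) (nat_lit 9659818252) (nat_lit 1900) (nat_lit 4168173858) (nat_lit 479) (nat_lit 5) (nat_lit 503) (nat_lit 5) (nat_lit 504) (nat_lit 5) (nat_lit 605) (nat_lit 589) (nat_lit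 366))) (XT.nd (nat_lit 78) (nat_lit 0) (nat_lit 76) (XT.lf (nat_lit 76) (nat_lit 204856347) (nat_lit 0) (nat_lit 6066317659) (nat_lit 1900) (nat_lit 12791109739) (nat_lit 480) (nat_lit 5) (nat_lit 479) (nat_lit 5) (nat_lit 504) (nat_lit 5) (nat_lit 606) (nat_lit 589) (nat_lit 365)) (XT.nd (nat_lit 78) (nat_lit 0) (nat_lit 0) (XT.lf (nat_lit 0) (nat_lit 7605528067) (nat_lit 1824) (nat_lit 8884082188) (nat_lit 1900) (nat_lit 2769847205) (nat_lit 480) (nat_lit 5) (nat_lit 504) (nat_lit 5) (nat_lit 505) (nat_lit 5) (nat_lit 607) (nat_lit 589) (nat_lit 364)) (XT.lf (nat_lit 76) (nat_lit 1261261363) (nat_lit 0) (nat_lit 7748733362) (nat_lit 1900) (nat_lit 10449711709) (nat_lit 481) (nat_lit 5) (nat_lit 480) (nat_lit 5) (nat_lit 505) (nat_lit 5) (nat_lit 608) (nat_lit 589) (nat_lit 363))))) (XT.nd (nat_lit 156) (nat_lit 0) (nat_lit 0) (XT.nd (nat_lit 78) (nat_lit 0) (nat_lit 0) (XT.lf (nat_lit 0) (nat_lit 10505280294) (nat_lit 1824) (nat_lit 7944716849) (nat_lit 1900) (nat_lit 1212708943) (nat_lit 481) (nat_lit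 5) (nat_lit 505) (nat_lit 5) (nat_lit 506) (nat_lit 5) (nat_lit 609) (nat_lit 589) (nat_lit 362)) (XT.lf (nat_lit 76) (nat_lit 2491609338) (nat_lit 0) (nat_lit 9601592009) (nat_lit 1900) (nat_lit 7775310071) (nat_lit 482) (nat_lit 5) (nat_lit 481) (nat_lit 5) (nat_lit 506) (nat_lit 5) (nat_lit 610) (nat_lit 589) (nat_lit 361))) (XT.nd (nat_lit 78) (nat_lit 0) (nat_lit 76) (XT.lf (nat_lit 76) (nat_lit 13240541640) (nat_lit 0) (nat_lit 520957536) (nat_lit 1900) (nat_lit 6315961591) (nat_lit 482) (nat_lit 5) (nat_lit 481) (nat_lit 5) (nat_lit 506) (nat_lit 5) (nat_lit 611) (nat_lit 589) (nat_lit 360)) (XT.nd (nat_lit 78) (nat_lit 0) (nat_lit 0) (XT.lf (nat_lit 76) (nat_lit 3904480892) (nat_lit 0) (nat_lit 11636189595) (nat_lit 1900) (nat_lit 4748368739) (nat_lit 483) (nat_lit 5) (nat_lit 482) (nat_lit 5) (nat_lit 507) (nat_lit 5) (nat_lit 612) (nat_lit 589) (nat_lit 359)) (XT.lf (nat_lit 76) (nat_lit 14946078179) (nat_lit 0) (nat_lit 2454121911) (nat_lit 1900) (nat_lit 3103753932) (nat_lit 483) (nat_lit 5)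 (nat_lit 482) (nat_lit 5) (nat_lit 507) (nat_lit 5) (nat_lit 613) (nat_lit 589) (nat_lit 358))))))))
noncomputable def xc201 : XT := (XT.nd (nat_lit 1560) (nat_lit 7676) (nat_lit 0) (XT.nd (nat_lit 780) (nat_lit 4028) (nat_lit 0) (XT.nd (nat_lit 390) (nat_lit 2584) (nat_lit 0) (XT.nd (nat_lit 156) (nat_lit 1976) (nat_lit 0) (XT.nd (nat_lit 78) (nat_lit 76) (nat_lit 0) (XT.lf (nat_lit 0) (nat_lit 5508885660) (nat_lit 1824) (nat_lit 13864238212) (nat_lit 1900) (nat_lit 1348519435) (nat_lit 459) (nat_lit 5) (nat_lit 483) (nat_lit 5) (nat_lit 484) (nat_lit 5) (nat_lit 614) (nat_lit 589) (nat_lit 357)) (XT.lf (nat_lit 0) (nat_lit 485415664) (nat_lit 1900) (nat_lit 4093851281) (nat_lit 76) (nat_lit 16363374501) (nat_lit 458) (nat_lit 5) (nat_lit 483) (nat_lit 5) (nat_lit 459) (nat_lit 5) (nat_lit 615) (nat_lit 589) (nat_lit 356))) (XT.nd (nat_lit 78) (nat_lit 912) (nat_lit 0) (XT.lf (nat_lit 0) (nat_lit 2413403619) (nat_lit 1140) (nat_lit 13868291387) (nat_lit 76) (nat_lit 4884677898) (nat_lit 444) (nat_lit 5)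 (nat_lit 459) (nat_lit 5) (nat_lit 445) (nat_lit 5) (nat_lit 616) (nat_lit 589) (nat_lit 355)) (XT.nd (nat_lit 78) (nat_lit 912) (nat_lit 0) (XT.lf (nat_lit 0) (nat_lit 4433676010) (nat_lit 1140) (nat_lit 2455043159) (nat_lit 76) (nat_lit 14504785570) (nat_lit 444) (nat_lit 5) (nat_lit 459) (nat_lit 5) (nat_lit 445) (nat_lit 5) (nat_lit 617) (nat_lit 589) (nat_lit 354)) (XT.lf (nat_lit 0) (nat_lit 6568475980) (nat_lit 988) (nat_lit 12337209179) (nat_lit 76) (nat_lit 2718011847) (nat_lit 432) (nat_lit 5) (nat_lit 445) (nat_lit 5) (nat_lit 433) (nat_lit 5) (nat_lit 618) (nat_lit 589) (nat_lit 353))))) (XT.nd (nat_lit 156) (nat_lit 1672) (nat_lit 0) (XT.nd (nat_lit 78) (nat_lit 912) (nat_lit 0) (XT.lf (nat_lit 0) (nat_lit 8804064164) (nat_lit 988) (nat_lit 611601318) (nat_lit 76) (nat_lit 12441666025) (nat_lit 432) (nat_lit 5) (nat_lit 445) (nat_lit 5) (nat_lit 433) (nat_lit 5) (nat_lit 619) (nat_lit 589) (nat_lit 352)) (XT.lf (nat_lit 0) (nat_lit 11157180234) (nat_lit 988) (nat_lit 10600914275) (nat_lit 76)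 (nat_lit 336088092) (nat_lit 420) (nat_lit 5) (nat_lit 433) (nat_lit 5) (nat_lit 421) (nat_lit 5) (nat_lit 620) (nat_lit 589) (nat_lit 351))) (XT.nd (nat_lit 78) (nat_lit 836) (nat_lit 0) (XT.lf (nat_lit 0) (nat_lit 1465862127) (nat_lit 836) (nat_lit 12163525402) (nat_lit 912) (nat_lit 8704942836) (nat_lit 409) (nat_lit 5) (nat_lit 420) (nat_lit 5) (nat_lit 421) (nat_lit 5) (nat_lit 621) (nat_lit 589) (nat_lit 350)) (XT.nd (nat_lit 78) (nat_lit 836) (nat_lit 0) (XT.lf (nat_lit 0) (nat_lit 13913879873) (nat_lit 836) (nat_lit 2304374940) (nat_lit 912) (nat_lit 6359682171) (nat_lit 409) (nat_lit 5) (nat_lit 420) (nat_lit 5) (nat_lit 421) (nat_lit 5) (nat_lit 622) (nat_lit 589) (nat_lit 349)) (XT.lf (nat_lit 0) (nat_lit 3779889362) (nat_lit 836) (nat_lit 15150038341) (nat_lit 912) (nat_lit 3895067684) (nat_lit 398) (nat_lit 5) (nat_lit 409) (nat_lit 5) (nat_lit 410) (nat_lit 5) (nat_lit 623) (nat_lit 589) (nat_lit 348)))))) (XT.nd (nat_lit 390) (nat_lit 2280) (nat_lit 0) (XT.nd (nat_lit 156) (nat_lit 836) (nat_lit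 0) (XT.nd (nat_lit 78) (nat_lit 912) (nat_lit 0) (XT.lf (nat_lit 0) (nat_lit 16570923799) (nat_lit 836) (nat_lit 5194417740) (nat_lit 912) (nat_lit 1310263478) (nat_lit 398) (nat_lit 5) (nat_lit 409) (nat_lit 5) (nat_lit 410) (nat_lit 5) (nat_lit 624) (nat_lit 589) (nat_lit 347)) (XT.lf (nat_lit 0) (nat_lit 1378912883) (nat_lit 912) (nat_lit 17005265145) (nat_lit 76) (nat_lit 4945475400) (nat_lit 386) (nat_lit 5) (nat_lit 398) (nat_lit 5) (nat_lit 387) (nat_lit 5) (nat_lit 625) (nat_lit 589) (nat_lit 346))) (XT.nd (nat_lit 78) (nat_lit 836) (nat_lit 0) (XT.lf (nat_lit 0) (nat_lit 4178989117) (nat_lit 912) (nat_lit 4136860641) (nat_lit 76) (nat_lit 15271266817) (nat_lit 386) (nat_lit 5) (nat_lit 398) (nat_lit 5) (nat_lit 387) (nat_lit 5) (nat_lit 626) (nat_lit 589) (nat_lit 345)) (XT.nd (nat_lit 78) (nat_lit 0) (nat_lit 0) (XT.lf (nat_lit 0) (nat_lit 7103634249) (nat_lit 912) (nat_lit 14757097256) (nat_lit 76) (nat_lit 1987626326) (nat_lit 375) (nat_lit 5) (nat_lit 387) (nat_lit 5) (nat_lit 376) (nat_lit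 5) (nat_lit 627) (nat_lit 589) (nat_lit 344)) (XT.lf (nat_lit 0) (nat_lit 10166212510) (nat_lit 912) (nat_lit 1533272169) (nat_lit 76) (nat_lit 12413750618) (nat_lit 375) (nat_lit 5) (nat_lit 387) (nat_lit 5) (nat_lit 376) (nat_lit 5) (nat_lit 628) (nat_lit 589) (nat_lit 343))))) (XT.nd (nat_lit 156) (nat_lit 760) (nat_lit 0) (XT.nd (nat_lit 78) (nat_lit 760) (nat_lit 0) (XT.lf (nat_lit 0) (nat_lit 12110162037) (nat_lit 760) (nat_lit 1255001638) (nat_lit 836) (nat_lit 11016744398) (nat_lit 365) (nat_lit 5) (nat_lit 375) (nat_lit 5) (nat_lit 376) (nat_lit 5) (nat_lit 629) (nat_lit 589) (nat_lit 342)) (XT.lf (nat_lit 0) (nat_lit 1344304430) (nat_lit 760) (nat_lit 15360432903) (nat_lit 836) (nat_lit 7949684286) (nat_lit 355) (nat_lit 5) (nat_lit 365) (nat_lit 5) (nat_lit 366) (nat_lit 5) (nat_lit 630) (nat_lit 589) (nat_lit 341))) (XT.nd (nat_lit 78) (nat_lit 760) (nat_lit 0) (XT.lf (nat_lit 0) (nat_lit 15386887451) (nat_lit 760) (nat_lit 4811402946) (nat_lit 836) (nat_lit 4732351460) (nat_lit 355) (nat_lit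 5) (nat_lit 365) (nat_lit 5) (nat_lit 366) (nat_lit 5) (nat_lit 631) (nat_lit 589) (nat_lit 340)) (XT.nd (nat_lit 78) (nat_lit 76) (nat_lit 0) (XT.lf (nat_lit 0) (nat_lit 4514820004) (nat_lit 684) (nat_lit 19311476654) (nat_lit 760) (nat_lit 1384798375) (nat_lit 346) (nat_lit 5) (nat_lit 355) (nat_lit 5) (nat_lit 356) (nat_lit 5) (nat_lit 632) (nat_lit 589) (nat_lit 339)) (XT.lf (nat_lit 0) (nat_lit 2096083524) (nat_lit 760) (nat_lit 6561134404) (nat_lit 76) (nat_lit 16837815996) (nat_lit 345) (nat_lit 5) (nat_lit 355) (nat_lit 5) (nat_lit 346) (nat_lit 5) (nat_lit 633) (nat_lit 589) (nat_lit 338))))))) (XT.nd (nat_lit 780) (nat_lit 3572) (nat_lit 0) (XT.nd (nat_lit 390) (nat_lit 1976) (nat_lit 0) (XT.nd (nat_lit 156) (nat_lit 1368) (nat_lit 0) (XT.nd (nat_lit 78) (nat_lit 0) (nat_lit 0) (XT.lf (nat_lit 0) (nat_lit 5691143779) (nat_lit 836) (nat_lit 17850124947) (nat_lit 76) (nat_lit 2241937898) (nat_lit 335) (nat_lit 5) (nat_lit 346) (nat_lit 5) (nat_lit 336) (nat_lit 5) (nat_lit 634) (nat_lit 589) (nat_lit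 337)) (XT.lf (nat_lit 0) (nat_lit 9456527705) (nat_lit 836) (nat_lit 3331457477) (nat_lit 76) (nat_lit 13287189310) (nat_lit 335) (nat_lit 5) (nat_lit 346) (nat_lit 5) (nat_lit 336) (nat_lit 5) (nat_lit 635) (nat_lit 589) (nat_lit 336))) (XT.nd (nat_lit 78) (nat_lit 684) (nat_lit 0) (XT.lf (nat_lit 0) (nat_lit 11626447561) (nat_lit 684) (nat_lit 1743091350) (nat_lit 760) (nat_lit 13001996575) (nat_lit 326) (nat_lit 5) (nat_lit 335) (nat_lit 5) (nat_lit 336) (nat_lit 5) (nat_lit 636) (nat_lit 589) (nat_lit 335)) (XT.nd (nat_lit 78) (nat_lit 0) (nat_lit 0) (XT.lf (nat_lit 0) (nat_lit 192183060) (nat_lit 684) (nat_lit 17251075352) (nat_lit 760) (nat_lit 9228916481) (nat_lit 317) (nat_lit 5) (nat_lit 326) (nat_lit 5) (nat_lit 327) (nat_lit 5) (nat_lit 637) (nat_lit 589) (nat_lit 334)) (XT.lf (nat_lit 0) (nat_lit 15612745381) (nat_lit 684) (nat_lit 6093028475) (nat_lit 760) (nat_lit 5270906956) (nat_lit 317) (nat_lit 5) (nat_lit 326) (nat_lit 5) (nat_lit 327) (nat_lit 5) (nat_lit 638) (nat_lit 589) (nat_lit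 333))))) (XT.nd (nat_lit 156) (nat_lit 1292) (nat_lit 0) (XT.nd (nat_lit 78) (nat_lit 76) (nat_lit 0) (XT.lf (nat_lit 0) (nat_lit 4069868009) (nat_lit 608) (nat_lit 22041394031) (nat_lit 684) (nat_lit 1174860510) (nat_lit 309) (nat_lit 5) (nat_lit 317) (nat_lit 5) (nat_lit 318) (nat_lit 5) (nat_lit 639) (nat_lit 589) (nat_lit 332)) (XT.lf (nat_lit 0) (nat_lit 3077814742) (nat_lit 684) (nat_lit 7697826929) (nat_lit 76) (nat_lit 16823439749) (nat_lit 308) (nat_lit 5) (nat_lit 317) (nat_lit 5) (nat_lit 309) (nat_lit 5) (nat_lit 640) (nat_lit 589) (nat_lit 331))) (XT.nd (nat_lit 78) (nat_lit 608) (nat_lit 0) (XT.lf (nat_lit 0) (nat_lit 7455331018) (nat_lit 760) (nat_lit 19694649003) (nat_lit 76) (nat_lit 767053896) (nat_lit 299) (nat_lit 5) (nat_lit 309) (nat_lit 5) (nat_lit 300) (nat_lit 5) (nat_lit 641) (nat_lit 589) (nat_lit 330)) (XT.nd (nat_lit 78) (nat_lit 608) (nat_lit 0) (XT.lf (nat_lit 0) (nat_lit 12040828343) (nat_lit 760) (nat_lit 3750262485) (nat_lit 76) (nat_lit 12447846159) (nat_lit 299) (nat_lit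 5) (nat_lit 309) (nat_lit 5) (nat_lit 300) (nat_lit 5) (nat_lit 642) (nat_lit 589) (nat_lit 329)) (XT.lf (nat_lit 0) (nat_lit 12675733486) (nat_lit 608) (nat_lit 4121729134) (nat_lit 684) (nat_lit 11768227094) (nat_lit 291) (nat_lit 5) (nat_lit 299) (nat_lit 5) (nat_lit 300) (nat_lit 5) (nat_lit 643) (nat_lit 589) (nat_lit 328)))))) (XT.nd (nat_lit 390) (nat_lit 1672) (nat_lit 0) (XT.nd (nat_lit 156) (nat_lit 1292) (nat_lit 0) (XT.nd (nat_lit 78) (nat_lit 0) (nat_lit 0) (XT.lf (nat_lit 0) (nat_lit 535394349) (nat_lit 608) (nat_lit 21190320853) (nat_lit 684) (nat_lit 7171732715) (nat_lit 283) (nat_lit 5) (nat_lit 291) (nat_lit 5) (nat_lit 292) (nat_lit 5) (nat_lit 644) (nat_lit 589) (nat_lit 327)) (XT.lf (nat_lit 0) (nat_lit 17473456635) (nat_lit 608) (nat_lit 9410012685) (nat_lit 684) (nat_lit 2349753366) (nat_lit 283) (nat_lit 5) (nat_lit 291) (nat_lit 5) (nat_lit 292) (nat_lit 5) (nat_lit 645) (nat_lit 589) (nat_lit 326))) (XT.nd (nat_lit 78) (nat_lit 608) (nat_lit 0) (XT.lf (nat_lit 0) (nat_lit 2583363709)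 (nat_lit 684) (nat_lit 24369114101) (nat_lit 76) (nat_lit 2621933982) (nat_lit 274) (nat_lit 5) (nat_lit 283) (nat_lit 5) (nat_lit 275) (nat_lit 5) (nat_lit 646) (nat_lit 589) (nat_lit 325)) (XT.nd (nat_lit 78) (nat_lit 608) (nat_lit 0) (XT.lf (nat_lit 0) (nat_lit 7722717813) (nat_lit 684) (nat_lit 7333702676) (nat_lit 76) (nat_lit 14862912920) (nat_lit 274) (nat_lit 5) (nat_lit 283) (nat_lit 5) (nat_lit 275) (nat_lit 5) (nat_lit 647) (nat_lit 589) (nat_lit 324)) (XT.lf (nat_lit 0) (nat_lit 10172374740) (nat_lit 608) (nat_lit 2855837590) (nat_lit 684) (nat_lit 17241674183) (nat_lit 266) (nat_lit 5) (nat_lit 274) (nat_lit 5) (nat_lit 275) (nat_lit 5) (nat_lit 648) (nat_lit 589) (nat_lit 323))))) (XT.nd (nat_lit 234) (nat_lit 608) (nat_lit 0) (XT.nd (nat_lit 78) (nat_lit 1064) (nat_lit 0) (XT.lf (nat_lit 0) (nat_lit 18548945265) (nat_lit 684) (nat_lit 2564545318) (nat_lit 76) (nat_lit 9511777644) (nat_lit 266) (nat_lit 5) (nat_lit 275) (nat_lit 5) (nat_lit 267) (nat_lit 5) (nat_lit 649) (nat_lit 589) (nat_lit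 322)) (XT.nd (nat_lit 78) (nat_lit 532) (nat_lit 0) (XT.lf (nat_lit 0) (nat_lit 15500041316) (nat_lit 532) (nat_lit 8796986255) (nat_lit 608) (nat_lit 6688391426) (nat_lit 259) (nat_lit 5) (nat_lit 266) (nat_lit 5) (nat_lit 267) (nat_lit 5) (nat_lit 650) (nat_lit 589) (nat_lit 321)) (XT.lf (nat_lit 0) (nat_lit 2614543734) (nat_lit 532) (nat_lit 27601686314) (nat_lit 608) (nat_lit 1135419679) (nat_lit 252) (nat_lit 5) (nat_lit 259) (nat_lit 5) (nat_lit 260) (nat_lit 5) (nat_lit 651) (nat_lit 589) (nat_lit 320)))) (XT.nd (nat_lit 78) (nat_lit 532) (nat_lit 0) (XT.lf (nat_lit 0) (nat_lit 4629500274) (nat_lit 608) (nat_lit 10528552013) (nat_lit 76) (nat_lit 16563359191) (nat_lit 251) (nat_lit 5) (nat_lit 259) (nat_lit 5) (nat_lit 252) (nat_lit 5) (nat_lit 652) (nat_lit 589) (nat_lit 319)) (XT.nd (nat_lit 78) (nat_lit 0) (nat_lit 0) (XT.lf (nat_lit 0) (nat_lit 8140031218) (nat_lit 532) (nat_lit 2404820328) (nat_lit 608) (nat_lit 21552560200) (nat_lit 244) (nat_lit 5) (nat_lit 251) (nat_lit 5) (nat_lit 252) (nat_lit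 5) (nat_lit 653) (nat_lit 589) (nat_lit 318)) (XT.lf (nat_lit 0) (nat_lit 16715968367) (nat_lit 608) (nat_lit 5227531045) (nat_lit 76) (nat_lit 10534683542) (nat_lit 244) (nat_lit 5) (nat_lit 252) (nat_lit 5) (nat_lit 245) (nat_lit 5) (nat_lit 654) (nat_lit 589) (nat_lit 317))))))))
noncomputable def xc202 : XT := (XT.nd (nat_lit 77142) (nat_lit 0) (nat_lit 14592) (XT.nd (nat_lit 76362) (nat_lit 0) (nat_lit 19684) (XT.nd (nat_lit 390) (nat_lit 456) (nat_lit 0) (XT.nd (nat_lit 156) (nat_lit 608) (nat_lit 0) (XT.nd (nat_lit 78) (nat_lit 456) (nat_lit 0) (XT.lf (nat_lit 0) (nat_lit 14041814328) (nat_lit 532) (nat_lit 9073330776) (nat_lit 608) (nat_lit 9749331833) (nat_lit 237) (nat_lit 5) (nat_lit 244) (nat_lit 5) (nat_lit 245) (nat_lit 5) (nat_lit 655) (nat_lit 589) (nat_lit 316)) (XT.lf (nat_lit 0) (nat_lit 486074691) (nat_lit 456) (nat_lit 29218584998) (nat_lit 532) (nat_lit 3552590126) (nat_lit 231) (nat_lit 5) (nat_lit 237) (nat_lit 5) (nat_lit 238) (nat_lit 5) (nat_lit 656) (nat_lit 589) (nat_lit 315)))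 (XT.nd (nat_lit 78) (nat_lit 532) (nat_lit 0) (XT.lf (nat_lit 0) (nat_lit 2916591036) (nat_lit 532) (nat_lit 13301483432) (nat_lit 76) (nat_lit 17435748164) (nat_lit 230) (nat_lit 5) (nat_lit 237) (nat_lit 5) (nat_lit 231) (nat_lit 5) (nat_lit 657) (nat_lit 589) (nat_lit 314)) (XT.nd (nat_lit 78) (nat_lit 0) (nat_lit 0) (XT.lf (nat_lit 0) (nat_lit 6617564241) (nat_lit 532) (nat_lit 2890653881) (nat_lit 608) (nat_lit 24548826595) (nat_lit 223) (nat_lit 5) (nat_lit 230) (nat_lit 5) (nat_lit 231) (nat_lit 5) (nat_lit 658) (nat_lit 589) (nat_lit 313)) (XT.lf (nat_lit 0) (nat_lit 16388662584) (nat_lit 608) (nat_lit 7424652954) (nat_lit 76) (nat_lit 10651876104) (nat_lit 223) (nat_lit 5) (nat_lit 231) (nat_lit 5) (nat_lit 224) (nat_lit 5) (nat_lit 659) (nat_lit 589) (nat_lit 312))))) (XT.nd (nat_lit 75738) (nat_lit 0) (nat_lit 21204) (XT.nd (nat_lit 78) (nat_lit 0) (nat_lit 0) (XT.lf (nat_lit 0) (nat_lit 13140410945) (nat_lit 456) (nat_lit 10368451648) (nat_lit 532) (nat_lit 11370596071) (nat_lit 217) (nat_lit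 5) (nat_lit 223) (nat_lit 5) (nat_lit 224) (nat_lit 5) (nat_lit 660) (nat_lit 589) (nat_lit 311)) (XT.lf (nat_lit 0) (nat_lit 30841045063) (nat_lit 532) (nat_lit 1108919166) (nat_lit 76) (nat_lit 3350655318) (nat_lit 217) (nat_lit 5) (nat_lit 224) (nat_lit 5) (nat_lit 218) (nat_lit 5) (nat_lit 661) (nat_lit 589) (nat_lit 310))) (XT.nd (nat_lit 78) (nat_lit 0) (nat_lit 0) (XT.lf (nat_lit 0) (nat_lit 2796255480) (nat_lit 0) (nat_lit 2796255480) (nat_lit 1748) (nat_lit 2612769277) (nat_lit 496) (nat_lit 5) (nat_lit 496) (nat_lit 3) (nat_lit 519) (nat_lit 3) (nat_lit 590) (nat_lit 590) (nat_lit 380)) (XT.nd (nat_lit 78) (nat_lit 0) (nat_lit 0) (XT.lf (nat_lit 0) (nat_lit 11559836645) (nat_lit 1748) (nat_lit 2691983702) (nat_lit 1824) (nat_lit 2317571020) (nat_lit 496) (nat_lit 5) (nat_lit 519) (nat_lit 3) (nat_lit 520) (nat_lit 5) (nat_lit 591) (nat_lit 590) (nat_lit 379)) (XT.lf (nat_lit 76) (nat_lit 5630005153) (nat_lit 0) (nat_lit 6379256111) (nat_lit 1824) (nat_lit 4720795741) (nat_lit 497) (nat_lit 5)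 (nat_lit 496) (nat_lit 5) (nat_lit 520) (nat_lit 5) (nat_lit 592) (nat_lit 590) (nat_lit 378)))))) (XT.nd (nat_lit 390) (nat_lit 1596) (nat_lit 0) (XT.nd (nat_lit 156) (nat_lit 0) (nat_lit 76) (XT.nd (nat_lit 78) (nat_lit 0) (nat_lit 0) (XT.lf (nat_lit 0) (nat_lit 12490224339) (nat_lit 1748) (nat_lit 2753012994) (nat_lit 1824) (nat_lit 1650248021) (nat_lit 497) (nat_lit 5) (nat_lit 520) (nat_lit 5) (nat_lit 521) (nat_lit 5) (nat_lit 593) (nat_lit 590) (nat_lit 377)) (XT.lf (nat_lit 76) (nat_lit 5791216678) (nat_lit 0) (nat_lit 7263209574) (nat_lit 1824) (nat_lit 4004284016) (nat_lit 498) (nat_lit 5) (nat_lit 497) (nat_lit 5) (nat_lit 521) (nat_lit 5) (nat_lit 594) (nat_lit 590) (nat_lit 376))) (XT.nd (nat_lit 78) (nat_lit 0) (nat_lit 0) (XT.lf (nat_lit 0) (nat_lit 13648088747) (nat_lit 1748) (nat_lit 2692607849) (nat_lit 1824) (nat_lit 886179934) (nat_lit 498) (nat_lit 5) (nat_lit 521) (nat_lit 5) (nat_lit 522) (nat_lit 5) (nat_lit 595) (nat_lit 590) (nat_lit 375)) (XT.nd (nat_lit 78) (nat_lit 0) (nat_lit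 76) (XT.lf (nat_lit 76) (nat_lit 6081936875) (nat_lit 0) (nat_lit 8253285859) (nat_lit 1824) (nat_lit 3061551793) (nat_lit 499) (nat_lit 5) (nat_lit 498) (nat_lit 5) (nat_lit 522) (nat_lit 5) (nat_lit 596) (nat_lit 590) (nat_lit 374)) (XT.lf (nat_lit 0) (nat_lit 15048381172) (nat_lit 1748) (nat_lit 2504945079) (nat_lit 1824) (nat_lit 16498963) (nat_lit 499) (nat_lit 5) (nat_lit 522) (nat_lit 5) (nat_lit 523) (nat_lit 5) (nat_lit 597) (nat_lit 590) (nat_lit 373))))) (XT.nd (nat_lit 156) (nat_lit 1748) (nat_lit 0) (XT.nd (nat_lit 78) (nat_lit 0) (nat_lit 0) (XT.lf (nat_lit 76) (nat_lit 6508301635) (nat_lit 0) (nat_lit 9358650258) (nat_lit 1824) (nat_lit 1877562399) (nat_lit 500) (nat_lit 5) (nat_lit 499) (nat_lit 5) (nat_lit 523) (nat_lit 5) (nat_lit 598) (nat_lit 590) (nat_lit 372)) (XT.lf (nat_lit 76) (nat_lit 15732248054) (nat_lit 0) (nat_lit 980781030) (nat_lit 1824) (nat_lit 1209445718) (nat_lit 500) (nat_lit 5) (nat_lit 499) (nat_lit 5) (nat_lit 523) (nat_lit 5) (nat_lit 599) (nat_lit 590) (nat_lit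 371))) (XT.nd (nat_lit 78) (nat_lit 1824) (nat_lit 0) (XT.lf (nat_lit 76) (nat_lit 7076800987) (nat_lit 0) (nat_lit 10588739348) (nat_lit 1824) (nat_lit 436664284) (nat_lit 501) (nat_lit 5) (nat_lit 500) (nat_lit 5) (nat_lit 524) (nat_lit 5) (nat_lit 600) (nat_lit 590) (nat_lit 370)) (XT.nd (nat_lit 78) (nat_lit 0) (nat_lit 76) (XT.lf (nat_lit 0) (nat_lit 362751742) (nat_lit 1824) (nat_lit 1738878527) (nat_lit 1900) (nat_lit 16183537643) (nat_lit 476) (nat_lit 5) (nat_lit 500) (nat_lit 5) (nat_lit 501) (nat_lit 5) (nat_lit 601) (nat_lit 590) (nat_lit 369)) (XT.lf (nat_lit 0) (nat_lit 1260685865) (nat_lit 1824) (nat_lit 10684136090) (nat_lit 1900) (nat_lit 6525143581) (nat_lit 477) (nat_lit 5) (nat_lit 501) (nat_lit 5) (nat_lit 502) (nat_lit 5) (nat_lit 602) (nat_lit 590) (nat_lit 368))))))) (XT.nd (nat_lit 780) (nat_lit 5168) (nat_lit 0) (XT.nd (nat_lit 390) (nat_lit 0) (nat_lit 228) (XT.nd (nat_lit 156) (nat_lit 0) (nat_lit 76) (XT.nd (nat_lit 78) (nat_lit 0) (nat_lit 76) (XT.lf (nat_lit 0) (nat_lit 2196944764)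 (nat_lit 1824) (nat_lit 1151268716) (nat_lit 1900) (nat_lit 15309838628) (nat_lit 477) (nat_lit 5) (nat_lit 501) (nat_lit 5) (nat_lit 502) (nat_lit 5) (nat_lit 603) (nat_lit 590) (nat_lit 367)) (XT.lf (nat_lit 0) (nat_lit 3238683727) (nat_lit 1824) (nat_lit 10201902701) (nat_lit 1900) (nat_lit 5407579200) (nat_lit 478) (nat_lit 5) (nat_lit 502) (nat_lit 5) (nat_lit 503) (nat_lit 5) (nat_lit 604) (nat_lit 590) (nat_lit 366))) (XT.nd (nat_lit 78) (nat_lit 0) (nat_lit 76) (XT.lf (nat_lit 0) (nat_lit 4326102576) (nat_lit 1824) (nat_lit 412468501) (nat_lit 1900) (nat_lit 14303013745) (nat_lit 478) (nat_lit 5) (nat_lit 502) (nat_lit 5) (nat_lit 503) (nat_lit 5) (nat_lit 605) (nat_lit 590) (nat_lit 365)) (XT.nd (nat_lit 78) (nat_lit 0) (nat_lit 0) (XT.lf (nat_lit 0) (nat_lit 5520508985) (nat_lit 1824) (nat_lit 9568675480) (nat_lit 1900) (nat_lit 4147983452) (nat_lit 479) (nat_lit 5) (nat_lit 503) (nat_lit 5) (nat_lit 504) (nat_lit 5) (nat_lit 606) (nat_lit 590) (nat_lit 364)) (XT.lf (nat_lit 76) (nat_lit 491421958)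 (nat_lit 0) (nat_lit 6279818271) (nat_lit 1900) (nat_lit 12664774007) (nat_lit 480) (nat_lit 5) (nat_lit 479) (nat_lit 5) (nat_lit 504) (nat_lit 5) (nat_lit 607) (nat_lit 590) (nat_lit 363))))) (XT.nd (nat_lit 156) (nat_lit 0) (nat_lit 76) (XT.nd (nat_lit 78) (nat_lit 0) (nat_lit 0) (XT.lf (nat_lit 0) (nat_lit 8124348713) (nat_lit 1824) (nat_lit 8776879397) (nat_lit 1900) (nat_lit 2736062407) (nat_lit 480) (nat_lit 5) (nat_lit 504) (nat_lit 5) (nat_lit 505) (nat_lit 5) (nat_lit 608) (nat_lit 590) (nat_lit 362)) (XT.lf (nat_lit 76) (nat_lit 1569496786) (nat_lit 0) (nat_lit 7982055015) (nat_lit 1900) (nat_lit 10290100157) (nat_lit 481) (nat_lit 5) (nat_lit 480) (nat_lit 5) (nat_lit 505) (nat_lit 5) (nat_lit 609) (nat_lit 590) (nat_lit 361))) (XT.nd (nat_lit 78) (nat_lit 0) (nat_lit 0) (XT.lf (nat_lit 0) (nat_lit 11069158939) (nat_lit 1824) (nat_lit 7818545028) (nat_lit 1900) (nat_lit 1161159739) (nat_lit 481) (nat_lit 5) (nat_lit 505) (nat_lit 5) (nat_lit 506) (nat_lit 5) (nat_lit 610) (nat_lit 590) (nat_lit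 360)) (XT.nd (nat_lit 78) (nat_lit 0) (nat_lit 0) (XT.lf (nat_lit 76) (nat_lit 2824632248) (nat_lit 0) (nat_lit 9859108102) (nat_lit 1900) (nat_lit 7575147170) (nat_lit 482) (nat_lit 5) (nat_lit 481) (nat_lit 5) (nat_lit 506) (nat_lit 5) (nat_lit 611) (nat_lit 590) (nat_lit 359)) (XT.lf (nat_lit 76) (nat_lit 13782990437) (nat_lit 0) (nat_lit 595576935) (nat_lit 1900) (nat_lit 6093585624) (nat_lit 482) (nat_lit 5) (nat_lit 481) (nat_lit 5) (nat_lit 506) (nat_lit 5) (nat_lit 612) (nat_lit 590) (nat_lit 358)))))) (XT.nd (nat_lit 390) (nat_lit 2660) (nat_lit 0) (XT.nd (nat_lit 156) (nat_lit 2888) (nat_lit 0) (XT.nd (nat_lit 78) (nat_lit 0) (nat_lit 0) (XT.lf (nat_lit 76) (nat_lit 4265607872) (nat_lit 0) (nat_lit 11922440535) (nat_lit 1900) (nat_lit 4500020487) (nat_lit 483) (nat_lit 5) (nat_lit 482) (nat_lit 5) (nat_lit 507) (nat_lit 5) (nat_lit 613) (nat_lit 590) (nat_lit 357)) (XT.lf (nat_lit 76) (nat_lit 15522487353) (nat_lit 0) (nat_lit 2555681945) (nat_lit 1900) (nat_lit 2829245063) (nat_lit 483) (nat_lit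 5) (nat_lit 482) (nat_lit 5) (nat_lit 507) (nat_lit 5) (nat_lit 614) (nat_lit 590) (nat_lit 356))) (XT.nd (nat_lit 78) (nat_lit 1140) (nat_lit 0) (XT.lf (nat_lit 0) (nat_lit 5901639083) (nat_lit 1824) (nat_lit 14183943197) (nat_lit 1900) (nat_lit 1043974917) (nat_lit 459) (nat_lit 5) (nat_lit 483) (nat_lit 5) (nat_lit 484) (nat_lit 5) (nat_lit 615) (nat_lit 590) (nat_lit 355)) (XT.nd (nat_lit 78) (nat_lit 1064) (nat_lit 0) (XT.lf (nat_lit 0) (nat_lit 815875966) (nat_lit 1900) (nat_lit 3894412355) (nat_lit 76) (nat_lit 16644772597) (nat_lit 458) (nat_lit 5) (nat_lit 483) (nat_lit 5) (nat_lit 459) (nat_lit 5) (nat_lit 616) (nat_lit 590) (nat_lit 354)) (XT.lf (nat_lit 0) (nat_lit 2777709891) (nat_lit 1140) (nat_lit 13859609516) (nat_lit 76) (nat_lit 4946042234) (nat_lit 444) (nat_lit 5) (nat_lit 459) (nat_lit 5) (nat_lit 445) (nat_lit 5) (nat_lit 617) (nat_lit 590) (nat_lit 353))))) (XT.nd (nat_lit 234) (nat_lit 1748) (nat_lit 0) (XT.nd (nat_lit 78) (nat_lit 912) (nat_lit 0) (XT.lf (nat_lit 0) (nat_lit 4832190902)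 (nat_lit 1140) (nat_lit 2223705102) (nat_lit 76) (nat_lit 14759264397) (nat_lit 444) (nat_lit 5) (nat_lit 459) (nat_lit 5) (nat_lit 445) (nat_lit 5) (nat_lit 618) (nat_lit 590) (nat_lit 352)) (XT.nd (nat_lit 78) (nat_lit 0) (nat_lit 0) (XT.lf (nat_lit 0) (nat_lit 7005245189) (nat_lit 988) (nat_lit 12299055499) (nat_lit 76) (nat_lit 2745745004) (nat_lit 432) (nat_lit 5) (nat_lit 445) (nat_lit 5) (nat_lit 433) (nat_lit 5) (nat_lit 619) (nat_lit 590) (nat_lit 351)) (XT.lf (nat_lit 0) (nat_lit 9279556907) (nat_lit 988) (nat_lit 344521713) (nat_lit 76) (nat_lit 12664394365) (nat_lit 432) (nat_lit 5) (nat_lit 445) (nat_lit 5) (nat_lit 433) (nat_lit 5) (nat_lit 620) (nat_lit 590) (nat_lit 350)))) (XT.nd (nat_lit 78) (nat_lit 836) (nat_lit 0) (XT.lf (nat_lit 0) (nat_lit 11675550020) (nat_lit 988) (nat_lit 10529419061) (nat_lit 76) (nat_lit 325176060) (nat_lit 420) (nat_lit 5) (nat_lit 433) (nat_lit 5) (nat_lit 421) (nat_lit 5) (nat_lit 621) (nat_lit 590) (nat_lit 349)) (XT.nd (nat_lit 78) (nat_lit 0) (nat_lit 0)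 (XT.lf (nat_lit 0) (nat_lit 1776827649) (nat_lit 836) (nat_lit 12416413710) (nat_lit 912) (nat_lit 8581934026) (nat_lit 409) (nat_lit 5) (nat_lit 420) (nat_lit 5) (nat_lit 421) (nat_lit 5) (nat_lit 622) (nat_lit 590) (nat_lit 348)) (XT.lf (nat_lit 0) (nat_lit 14468283235) (nat_lit 836) (nat_lit 2359891655) (nat_lit 912) (nat_lit 6195593789) (nat_lit 409) (nat_lit 5) (nat_lit 420) (nat_lit 5) (nat_lit 421) (nat_lit 5) (nat_lit 623) (nat_lit 590) (nat_lit 347))))))))
noncomputable def xc203 : XT := (XT.nd (nat_lit 1560) (nat_lit 6232) (nat_lit 0) (XT.nd (nat_lit 780) (nat_lit 3572) (nat_lit 0) (XT.nd (nat_lit 390) (nat_lit 2204) (nat_lit 0) (XT.nd (nat_lit 156) (nat_lit 1748) (nat_lit 0) (XT.nd (nat_lit 78) (nat_lit 0) (nat_lit 0) (XT.lf (nat_lit 0) (nat_lit 4135546483) (nat_lit 836) (nat_lit 15454693947) (nat_lit 912) (nat_lit 3685604947) (nat_lit 398) (nat_lit 5) (nat_lit 409) (nat_lit 5) (nat_lit 410) (nat_lit 5) (nat_lit 624) (nat_lit 590) (nat_lit 346)) (XT.lf (nat_lit 0) (nat_lit 17176910249) (nat_lit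 836) (nat_lit 5299928487) (nat_lit 912) (nat_lit 1054739247) (nat_lit 398) (nat_lit 5) (nat_lit 409) (nat_lit 5) (nat_lit 410) (nat_lit 5) (nat_lit 625) (nat_lit 590) (nat_lit 345))) (XT.nd (nat_lit 78) (nat_lit 836) (nat_lit 0) (XT.lf (nat_lit 0) (nat_lit 1680882364) (nat_lit 912) (nat_lit 17063434439) (nat_lit 76) (nat_lit 5046427138) (nat_lit 386) (nat_lit 5) (nat_lit 398) (nat_lit 5) (nat_lit 387) (nat_lit 5) (nat_lit 626) (nat_lit 590) (nat_lit 344)) (XT.nd (nat_lit 78) (nat_lit 836) (nat_lit 0) (XT.lf (nat_lit 0) (nat_lit 4531579902) (nat_lit 912) (nat_lit 3943190002) (nat_lit 76) (nat_lit 15578694339) (nat_lit 386) (nat_lit 5) (nat_lit 398) (nat_lit 5) (nat_lit 387) (nat_lit 5) (nat_lit 627) (nat_lit 590) (nat_lit 343)) (XT.lf (nat_lit 0) (nat_lit 7511284918) (nat_lit 912) (nat_lit 14772384170) (nat_lit 76) (nat_lit 2036330180) (nat_lit 375) (nat_lit 5) (nat_lit 387) (nat_lit 5) (nat_lit 376) (nat_lit 5) (nat_lit 628) (nat_lit 590) (nat_lit 342))))) (XT.nd (nat_lit 156) (nat_lit 1444) (nat_lit 0)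 (XT.nd (nat_lit 78) (nat_lit 760) (nat_lit 0) (XT.lf (nat_lit 0) (nat_lit 10629907333) (nat_lit 912) (nat_lit 1289569935) (nat_lit 76) (nat_lit 12670801442) (nat_lit 375) (nat_lit 5) (nat_lit 387) (nat_lit 5) (nat_lit 376) (nat_lit 5) (nat_lit 629) (nat_lit 590) (nat_lit 341)) (XT.lf (nat_lit 0) (nat_lit 12624927904) (nat_lit 760) (nat_lit 1264573969) (nat_lit 836) (nat_lit 10974890053) (nat_lit 365) (nat_lit 5) (nat_lit 375) (nat_lit 5) (nat_lit 376) (nat_lit 5) (nat_lit 630) (nat_lit 590) (nat_lit 340))) (XT.nd (nat_lit 78) (nat_lit 684) (nat_lit 0) (XT.lf (nat_lit 0) (nat_lit 1646980216) (nat_lit 760) (nat_lit 15645736337) (nat_lit 836) (nat_lit 7849702466) (nat_lit 355) (nat_lit 5) (nat_lit 365) (nat_lit 5) (nat_lit 366) (nat_lit 5) (nat_lit 631) (nat_lit 590) (nat_lit 339)) (XT.nd (nat_lit 78) (nat_lit 684) (nat_lit 0) (XT.lf (nat_lit 0) (nat_lit 15965007257) (nat_lit 760) (nat_lit 4886155295) (nat_lit 836) (nat_lit 4573100934) (nat_lit 355) (nat_lit 5) (nat_lit 365) (nat_lit 5) (nat_lit 366) (nat_lit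 5) (nat_lit 632) (nat_lit 590) (nat_lit 338)) (XT.lf (nat_lit 0) (nat_lit 4878539485) (nat_lit 684) (nat_lit 19670220880) (nat_lit 760) (nat_lit 1161624988) (nat_lit 346) (nat_lit 5) (nat_lit 355) (nat_lit 5) (nat_lit 356) (nat_lit 5) (nat_lit 633) (nat_lit 590) (nat_lit 337)))))) (XT.nd (nat_lit 390) (nat_lit 1368) (nat_lit 0) (XT.nd (nat_lit 156) (nat_lit 1368) (nat_lit 0) (XT.nd (nat_lit 78) (nat_lit 760) (nat_lit 0) (XT.lf (nat_lit 0) (nat_lit 2380729859) (nat_lit 760) (nat_lit 6421057238) (nat_lit 76) (nat_lit 17198280685) (nat_lit 345) (nat_lit 5) (nat_lit 355) (nat_lit 5) (nat_lit 346) (nat_lit 5) (nat_lit 634) (nat_lit 590) (nat_lit 336)) (XT.lf (nat_lit 0) (nat_lit 6044875362) (nat_lit 836) (nat_lit 17932999549) (nat_lit 76) (nat_lit 2316185586) (nat_lit 335) (nat_lit 5) (nat_lit 346) (nat_lit 5) (nat_lit 336) (nat_lit 5) (nat_lit 635) (nat_lit 590) (nat_lit 335))) (XT.nd (nat_lit 78) (nat_lit 1368) (nat_lit 0) (XT.lf (nat_lit 0) (nat_lit 9880862874) (nat_lit 836) (nat_lit 3129333787) (nat_lit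 76) (nat_lit 13581765381) (nat_lit 335) (nat_lit 5) (nat_lit 346) (nat_lit 5) (nat_lit 336) (nat_lit 5) (nat_lit 636) (nat_lit 590) (nat_lit 334)) (XT.nd (nat_lit 78) (nat_lit 684) (nat_lit 0) (XT.lf (nat_lit 0) (nat_lit 12125961241) (nat_lit 684) (nat_lit 1743294650) (nat_lit 760) (nat_lit 13025052164) (nat_lit 326) (nat_lit 5) (nat_lit 335) (nat_lit 5) (nat_lit 336) (nat_lit 5) (nat_lit 637) (nat_lit 590) (nat_lit 333)) (XT.lf (nat_lit 0) (nat_lit 465658920) (nat_lit 684) (nat_lit 17556206691) (nat_lit 760) (nat_lit 9179146551) (nat_lit 317) (nat_lit 5) (nat_lit 326) (nat_lit 5) (nat_lit 327) (nat_lit 5) (nat_lit 638) (nat_lit 590) (nat_lit 332))))) (XT.nd (nat_lit 156) (nat_lit 760) (nat_lit 0) (XT.nd (nat_lit 78) (nat_lit 608) (nat_lit 0) (XT.lf (nat_lit 0) (nat_lit 16189345582) (nat_lit 684) (nat_lit 6175781036) (nat_lit 760) (nat_lit 5146571899) (nat_lit 317) (nat_lit 5) (nat_lit 326) (nat_lit 5) (nat_lit 327) (nat_lit 5) (nat_lit 639) (nat_lit 590) (nat_lit 331)) (XT.lf (nat_lit 0) (nat_lit 4418105505)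 (nat_lit 608) (nat_lit 22438184084) (nat_lit 684) (nat_lit 971088420) (nat_lit 309) (nat_lit 5) (nat_lit 317) (nat_lit 5) (nat_lit 318) (nat_lit 5) (nat_lit 640) (nat_lit 590) (nat_lit 330))) (XT.nd (nat_lit 78) (nat_lit 684) (nat_lit 0) (XT.lf (nat_lit 0) (nat_lit 3359261843) (nat_lit 684) (nat_lit 7587242738) (nat_lit 76) (nat_lit 17200150131) (nat_lit 308) (nat_lit 5) (nat_lit 317) (nat_lit 5) (nat_lit 309) (nat_lit 5) (nat_lit 641) (nat_lit 590) (nat_lit 329)) (XT.nd (nat_lit 78) (nat_lit 0) (nat_lit 0) (XT.lf (nat_lit 0) (nat_lit 7822018646) (nat_lit 760) (nat_lit 19821681140) (nat_lit 76) (nat_lit 827312874) (nat_lit 299) (nat_lit 5) (nat_lit 309) (nat_lit 5) (nat_lit 300) (nat_lit 5) (nat_lit 642) (nat_lit 590) (nat_lit 328)) (XT.lf (nat_lit 0) (nat_lit 12494959623) (nat_lit 760) (nat_lit 3563639458) (nat_lit 76) (nat_lit 12740840239) (nat_lit 299) (nat_lit 5) (nat_lit 309) (nat_lit 5) (nat_lit 300) (nat_lit 5) (nat_lit 643) (nat_lit 590) (nat_lit 327))))))) (XT.nd (nat_lit 780) (nat_lit 2584) (nat_lit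 0) (XT.nd (nat_lit 390) (nat_lit 1748) (nat_lit 0) (XT.nd (nat_lit 156) (nat_lit 684) (nat_lit 0) (XT.nd (nat_lit 78) (nat_lit 608) (nat_lit 0) (XT.lf (nat_lit 0) (nat_lit 13189155194) (nat_lit 608) (nat_lit 4155076239) (nat_lit 684) (nat_lit 11788545769) (nat_lit 291) (nat_lit 5) (nat_lit 299) (nat_lit 5) (nat_lit 300) (nat_lit 5) (nat_lit 644) (nat_lit 590) (nat_lit 326)) (XT.lf (nat_lit 0) (nat_lit 808181248) (nat_lit 608) (nat_lit 21560748152) (nat_lit 684) (nat_lit 7102283757) (nat_lit 283) (nat_lit 5) (nat_lit 291) (nat_lit 5) (nat_lit 292) (nat_lit 5) (nat_lit 645) (nat_lit 590) (nat_lit 325))) (XT.nd (nat_lit 78) (nat_lit 684) (nat_lit 0) (XT.lf (nat_lit 0) (nat_lit 18079865976) (nat_lit 608) (nat_lit 9545880470) (nat_lit 684) (nat_lit 2188039009) (nat_lit 283) (nat_lit 5) (nat_lit 291) (nat_lit 5) (nat_lit 292) (nat_lit 5) (nat_lit 646) (nat_lit 590) (nat_lit 324)) (XT.nd (nat_lit 78) (nat_lit 0) (nat_lit 0) (XT.lf (nat_lit 0) (nat_lit 2838992447) (nat_lit 684) (nat_lit 24594789714) (nat_lit 76)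 (nat_lit 2728029478) (nat_lit 274) (nat_lit 5) (nat_lit 283) (nat_lit 5) (nat_lit 275) (nat_lit 5) (nat_lit 647) (nat_lit 590) (nat_lit 323)) (XT.lf (nat_lit 0) (nat_lit 8077134389) (nat_lit 684) (nat_lit 7223801564) (nat_lit 76) (nat_lit 15212775901) (nat_lit 274) (nat_lit 5) (nat_lit 283) (nat_lit 5) (nat_lit 275) (nat_lit 5) (nat_lit 648) (nat_lit 590) (nat_lit 322))))) (XT.nd (nat_lit 156) (nat_lit 1140) (nat_lit 0) (XT.nd (nat_lit 78) (nat_lit 0) (nat_lit 0) (XT.lf (nat_lit 0) (nat_lit 10630709407) (nat_lit 608) (nat_lit 2855763458) (nat_lit 684) (nat_lit 17384848649) (nat_lit 266) (nat_lit 5) (nat_lit 274) (nat_lit 5) (nat_lit 275) (nat_lit 5) (nat_lit 649) (nat_lit 590) (nat_lit 321)) (XT.lf (nat_lit 0) (nat_lit 19114108101) (nat_lit 684) (nat_lit 2362425852) (nat_lit 76) (nat_lit 9757347328) (nat_lit 266) (nat_lit 5) (nat_lit 275) (nat_lit 5) (nat_lit 267) (nat_lit 5) (nat_lit 650) (nat_lit 590) (nat_lit 320))) (XT.nd (nat_lit 78) (nat_lit 608) (nat_lit 0) (XT.lf (nat_lit 0) (nat_lit 16061785341)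 (nat_lit 532) (nat_lit 8913193668) (nat_lit 608) (nat_lit 6626299689) (nat_lit 259) (nat_lit 5) (nat_lit 266) (nat_lit 5) (nat_lit 267) (nat_lit 5) (nat_lit 651) (nat_lit 590) (nat_lit 319)) (XT.nd (nat_lit 78) (nat_lit 76) (nat_lit 0) (XT.lf (nat_lit 0) (nat_lit 2920359690) (nat_lit 532) (nat_lit 28090467196) (nat_lit 608) (nat_lit 964042094) (nat_lit 252) (nat_lit 5) (nat_lit 259) (nat_lit 5) (nat_lit 260) (nat_lit 5) (nat_lit 652) (nat_lit 590) (nat_lit 318)) (XT.lf (nat_lit 0) (nat_lit 4909875089) (nat_lit 608) (nat_lit 10488065516) (nat_lit 76) (nat_lit 16954135432) (nat_lit 251) (nat_lit 5) (nat_lit 259) (nat_lit 5) (nat_lit 252) (nat_lit 5) (nat_lit 653) (nat_lit 590) (nat_lit 317)))))) (XT.nd (nat_lit 390) (nat_lit 988) (nat_lit 0) (XT.nd (nat_lit 156) (nat_lit 1064) (nat_lit 0) (XT.nd (nat_lit 78) (nat_lit 0) (nat_lit 0) (XT.lf (nat_lit 0) (nat_lit 8552237684) (nat_lit 532) (nat_lit 2389232955) (nat_lit 608) (nat_lit 21794167083) (nat_lit 244) (nat_lit 5) (nat_lit 251) (nat_lit 5) (nat_lit 252)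 (nat_lit 5) (nat_lit 654) (nat_lit 590) (nat_lit 316)) (XT.lf (nat_lit 0) (nat_lit 17232773557) (nat_lit 608) (nat_lit 5084322231) (nat_lit 76) (nat_lit 10806993444) (nat_lit 244) (nat_lit 5) (nat_lit 252) (nat_lit 5) (nat_lit 245) (nat_lit 5) (nat_lit 655) (nat_lit 590) (nat_lit 315))) (XT.nd (nat_lit 78) (nat_lit 532) (nat_lit 0) (XT.lf (nat_lit 0) (nat_lit 14568780053) (nat_lit 532) (nat_lit 9189173659) (nat_lit 608) (nat_lit 9760195136) (nat_lit 237) (nat_lit 5) (nat_lit 244) (nat_lit 5) (nat_lit 245) (nat_lit 5) (nat_lit 656) (nat_lit 590) (nat_lit 314)) (XT.nd (nat_lit 78) (nat_lit 76) (nat_lit 0) (XT.lf (nat_lit 0) (nat_lit 743476909) (nat_lit 456) (nat_lit 29734268178) (nat_lit 532) (nat_lit 3441062515) (nat_lit 231) (nat_lit 5) (nat_lit 237) (nat_lit 5) (nat_lit 238) (nat_lit 5) (nat_lit 657) (nat_lit 590) (nat_lit 313)) (XT.lf (nat_lit 0) (nat_lit 3151574672) (nat_lit 532) (nat_lit 13322334172) (nat_lit 76) (nat_lit 17849450124) (nat_lit 230) (nat_lit 5) (nat_lit 237) (nat_lit 5) (nat_lit 231)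 (nat_lit 5) (nat_lit 658) (nat_lit 590) (nat_lit 312))))) (XT.nd (nat_lit 75894) (nat_lit 0) (nat_lit 21204) (XT.nd (nat_lit 78) (nat_lit 456) (nat_lit 0) (XT.lf (nat_lit 0) (nat_lit 6993481435) (nat_lit 532) (nat_lit 2879670496) (nat_lit 608) (nat_lit 24861531351) (nat_lit 223) (nat_lit 5) (nat_lit 230) (nat_lit 5) (nat_lit 231) (nat_lit 5) (nat_lit 659) (nat_lit 590) (nat_lit 311)) (XT.nd (nat_lit 78) (nat_lit 456) (nat_lit 0) (XT.lf (nat_lit 0) (nat_lit 16888216344) (nat_lit 608) (nat_lit 7331360162) (nat_lit 76) (nat_lit 10931476553) (nat_lit 223) (nat_lit 5) (nat_lit 231) (nat_lit 5) (nat_lit 224) (nat_lit 5) (nat_lit 660) (nat_lit 590) (nat_lit 310)) (XT.lf (nat_lit 0) (nat_lit 13643414318) (nat_lit 456) (nat_lit 10505597296) (nat_lit 532) (nat_lit 11424630116) (nat_lit 217) (nat_lit 5) (nat_lit 223) (nat_lit 5) (nat_lit 224) (nat_lit 5) (nat_lit 661) (nat_lit 590) (nat_lit 309)))) (XT.nd (nat_lit 78) (nat_lit 0) (nat_lit 0) (XT.lf (nat_lit 0) (nat_lit 2975235080) (nat_lit 0) (nat_lit 2975235080)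 (nat_lit 1748) (nat_lit 2413978177) (nat_lit 496) (nat_lit 5) (nat_lit 496) (nat_lit 3) (nat_lit 519) (nat_lit 3) (nat_lit 591) (nat_lit 591) (nat_lit 378)) (XT.nd (nat_lit 78) (nat_lit 0) (nat_lit 0) (XT.lf (nat_lit 0) (nat_lit 12272033434) (nat_lit 1748) (nat_lit 2493292107) (nat_lit 1824) (nat_lit 2125803601) (nat_lit 496) (nat_lit 5) (nat_lit 519) (nat_lit 3) (nat_lit 520) (nat_lit 5) (nat_lit 592) (nat_lit 591) (nat_lit 377)) (XT.lf (nat_lit 76) (nat_lit 5993475135) (nat_lit 0) (nat_lit 6729168851) (nat_lit 1824) (nat_lit 4332520748) (nat_lit 497) (nat_lit 5) (nat_lit 496) (nat_lit 5) (nat_lit 520) (nat_lit 5) (nat_lit 593) (nat_lit 591) (nat_lit 376))))))))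
noncomputable def xc204 : XT := (XT.nd (nat_lit 1560) (nat_lit 9196) (nat_lit 0) (XT.nd (nat_lit 780) (nat_lit 0) (nat_lit 76) (XT.nd (nat_lit 390) (nat_lit 1596) (nat_lit 0) (XT.nd (nat_lit 156) (nat_lit 0) (nat_lit 76) (XT.nd (nat_lit 78) (nat_lit 0) (nat_lit 0) (XT.lf (nat_lit 0) (nat_lit 13202532745) (nat_lit 1748) (nat_lit 2551399931) (nat_lit 1824) (nat_lit 1468143422) (nat_lit 497) (nat_lit 5) (nat_lit 520) (nat_lit 5) (nat_lit 521) (nat_lit 5) (nat_lit 594) (nat_lit 591) (nat_lit 375)) (XT.lf (nat_lit 76) (nat_lit 6162025693) (nat_lit 0) (nat_lit 7608579828) (nat_lit 1824) (nat_lit 3620148819) (nat_lit 498) (nat_lit 5) (nat_lit 497) (nat_lit 5) (nat_lit 521) (nat_lit 5) (nat_lit 595) (nat_lit 591) (nat_lit 374))) (XT.nd (nat_lit 78) (nat_lit 0) (nat_lit 0) (XT.lf (nat_lit 0) (nat_lit 14365944172) (nat_lit 1748) (nat_lit 2486250167) (nat_lit 1824) (nat_lit 710294086) (nat_lit 498) (nat_lit 5) (nat_lit 521) (nat_lit 5) (nat_lit 522) (nat_lit 5) (nat_lit 596) (nat_lit 591) (nat_lit 373)) (XT.nd (nat_lit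 78) (nat_lit 0) (nat_lit 0) (XT.lf (nat_lit 76) (nat_lit 6462073545) (nat_lit 0) (nat_lit 8597702229) (nat_lit 1824) (nat_lit 2676150053) (nat_lit 499) (nat_lit 5) (nat_lit 498) (nat_lit 5) (nat_lit 522) (nat_lit 5) (nat_lit 597) (nat_lit 591) (nat_lit 372)) (XT.lf (nat_lit 76) (nat_lit 15619720014) (nat_lit 0) (nat_lit 158781383) (nat_lit 1824) (nat_lit 2134110584) (nat_lit 499) (nat_lit 5) (nat_lit 498) (nat_lit 5) (nat_lit 522) (nat_lit 5) (nat_lit 598) (nat_lit 591) (nat_lit 371))))) (XT.nd (nat_lit 156) (nat_lit 1748) (nat_lit 0) (XT.nd (nat_lit 78) (nat_lit 0) (nat_lit 0) (XT.lf (nat_lit 76) (nat_lit 6899919128) (nat_lit 0) (nat_lit 9705796464) (nat_lit 1824) (nat_lit 1485234331) (nat_lit 500) (nat_lit 5) (nat_lit 499) (nat_lit 5) (nat_lit 523) (nat_lit 5) (nat_lit 599) (nat_lit 591) (nat_lit 370)) (XT.lf (nat_lit 76) (nat_lit 16303217977) (nat_lit 0) (nat_lit 1157233122) (nat_lit 1824) (nat_lit 812184322) (nat_lit 500) (nat_lit 5) (nat_lit 499) (nat_lit 5) (nat_lit 523) (nat_lit 5) (nat_lit 600)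 (nat_lit 591) (nat_lit 369))) (XT.nd (nat_lit 78) (nat_lit 1824) (nat_lit 0) (XT.lf (nat_lit 76) (nat_lit 7482221552) (nat_lit 0) (nat_lit 10942404811) (nat_lit 1824) (nat_lit 31481698) (nat_lit 501) (nat_lit 5) (nat_lit 500) (nat_lit 5) (nat_lit 524) (nat_lit 5) (nat_lit 601) (nat_lit 591) (nat_lit 368)) (XT.nd (nat_lit 78) (nat_lit 0) (nat_lit 76) (XT.lf (nat_lit 0) (nat_lit 770484512) (nat_lit 1824) (nat_lit 1509599452) (nat_lit 1900) (nat_lit 16362753582) (nat_lit 476) (nat_lit 5) (nat_lit 500) (nat_lit 5) (nat_lit 501) (nat_lit 5) (nat_lit 602) (nat_lit 591) (nat_lit 367)) (XT.lf (nat_lit 0) (nat_lit 1679370875) (nat_lit 1824) (nat_lit 10626732028) (nat_lit 1900) (nat_lit 6525368821) (nat_lit 477) (nat_lit 5) (nat_lit 501) (nat_lit 5) (nat_lit 502) (nat_lit 5) (nat_lit 603) (nat_lit 591) (nat_lit 366)))))) (XT.nd (nat_lit 390) (nat_lit 0) (nat_lit 228) (XT.nd (nat_lit 156) (nat_lit 0) (nat_lit 76) (XT.nd (nat_lit 78) (nat_lit 0) (nat_lit 76) (XT.lf (nat_lit 0) (nat_lit 2626639829) (nat_lit 1824) (nat_lit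 908522734) (nat_lit 1900) (nat_lit 15488312233) (nat_lit 477) (nat_lit 5) (nat_lit 501) (nat_lit 5) (nat_lit 502) (nat_lit 5) (nat_lit 604) (nat_lit 591) (nat_lit 365)) (XT.lf (nat_lit 0) (nat_lit 3682611543) (nat_lit 1824) (nat_lit 10133544595) (nat_lit 1900) (nat_lit 5401366944) (nat_lit 478) (nat_lit 5) (nat_lit 502) (nat_lit 5) (nat_lit 503) (nat_lit 5) (nat_lit 605) (nat_lit 591) (nat_lit 364))) (XT.nd (nat_lit 78) (nat_lit 0) (nat_lit 76) (XT.lf (nat_lit 0) (nat_lit 4784344374) (nat_lit 1824) (nat_lit 153662812) (nat_lit 1900) (nat_lit 14476952609) (nat_lit 478) (nat_lit 5) (nat_lit 502) (nat_lit 5) (nat_lit 503) (nat_lit 5) (nat_lit 606) (nat_lit 591) (nat_lit 363)) (XT.nd (nat_lit 78) (nat_lit 0) (nat_lit 0) (XT.lf (nat_lit 0) (nat_lit 5996417960) (nat_lit 1824) (nat_lit 9486751089) (nat_lit 1900) (nat_lit 4131410362) (nat_lit 479) (nat_lit 5) (nat_lit 503) (nat_lit 5) (nat_lit 504) (nat_lit 5) (nat_lit 607) (nat_lit 591) (nat_lit 362)) (XT.lf (nat_lit 76) (nat_lit 772750286) (nat_lit 0) (nat_lit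 6494009656) (nat_lit 1900) (nat_lit 12550751219) (nat_lit 480) (nat_lit 5) (nat_lit 479) (nat_lit 5) (nat_lit 504) (nat_lit 5) (nat_lit 608) (nat_lit 591) (nat_lit 361))))) (XT.nd (nat_lit 156) (nat_lit 0) (nat_lit 76) (XT.nd (nat_lit 78) (nat_lit 0) (nat_lit 0) (XT.lf (nat_lit 0) (nat_lit 8639305973) (nat_lit 1824) (nat_lit 8678594959) (nat_lit 1900) (nat_lit 2705064949) (nat_lit 480) (nat_lit 5) (nat_lit 504) (nat_lit 5) (nat_lit 505) (nat_lit 5) (nat_lit 609) (nat_lit 591) (nat_lit 360)) (XT.lf (nat_lit 76) (nat_lit 1872907287) (nat_lit 0) (nat_lit 8217000792) (nat_lit 1900) (nat_lit 10141609786) (nat_lit 481) (nat_lit 5) (nat_lit 480) (nat_lit 5) (nat_lit 505) (nat_lit 5) (nat_lit 610) (nat_lit 591) (nat_lit 359))) (XT.nd (nat_lit 78) (nat_lit 0) (nat_lit 0) (XT.lf (nat_lit 0) (nat_lit 11630577720) (nat_lit 1824) (nat_lit 7700919237) (nat_lit 1900) (nat_lit 1111523089) (nat_lit 481) (nat_lit 5) (nat_lit 505) (nat_lit 5) (nat_lit 506) (nat_lit 5) (nat_lit 611) (nat_lit 591) (nat_lit 358)) (XT.nd (nat_lit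 78) (nat_lit 0) (nat_lit 0) (XT.lf (nat_lit 76) (nat_lit 3153318974) (nat_lit 0) (nat_lit 10119231683) (nat_lit 1900) (nat_lit 7384792075) (nat_lit 482) (nat_lit 5) (nat_lit 481) (nat_lit 5) (nat_lit 506) (nat_lit 5) (nat_lit 612) (nat_lit 591) (nat_lit 357)) (XT.lf (nat_lit 76) (nat_lit 14325507189) (nat_lit 0) (nat_lit 669195747) (nat_lit 1900) (nat_lit 5880302397) (nat_lit 482) (nat_lit 5) (nat_lit 481) (nat_lit 5) (nat_lit 506) (nat_lit 5) (nat_lit 613) (nat_lit 591) (nat_lit 356))))))) (XT.nd (nat_lit 780) (nat_lit 4104) (nat_lit 0) (XT.nd (nat_lit 390) (nat_lit 2660) (nat_lit 0) (XT.nd (nat_lit 156) (nat_lit 2888) (nat_lit 0) (XT.nd (nat_lit 78) (nat_lit 0) (nat_lit 0) (XT.lf (nat_lit 76) (nat_lit 4622966706) (nat_lit 0) (nat_lit 12212337969) (nat_lit 1900) (nat_lit 4260036634) (nat_lit 483) (nat_lit 5) (nat_lit 482) (nat_lit 5) (nat_lit 507) (nat_lit 5) (nat_lit 614) (nat_lit 591) (nat_lit 355)) (XT.lf (nat_lit 76) (nat_lit 16099649528) (nat_lit 0) (nat_lit 2657235411) (nat_lit 1900) (nat_lit 2562315981)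 (nat_lit 483) (nat_lit 5) (nat_lit 482) (nat_lit 5) (nat_lit 507) (nat_lit 5) (nat_lit 615) (nat_lit 591) (nat_lit 354))) (XT.nd (nat_lit 78) (nat_lit 1140) (nat_lit 0) (XT.lf (nat_lit 0) (nat_lit 6291274815) (nat_lit 1824) (nat_lit 14508395053) (nat_lit 1900) (nat_lit 746212637) (nat_lit 459) (nat_lit 5) (nat_lit 483) (nat_lit 5) (nat_lit 484) (nat_lit 5) (nat_lit 616) (nat_lit 591) (nat_lit 353)) (XT.nd (nat_lit 78) (nat_lit 1064) (nat_lit 0) (XT.lf (nat_lit 0) (nat_lit 1140490283) (nat_lit 1900) (nat_lit 3701908492) (nat_lit 76) (nat_lit 16933579820) (nat_lit 458) (nat_lit 5) (nat_lit 483) (nat_lit 5) (nat_lit 459) (nat_lit 5) (nat_lit 617) (nat_lit 591) (nat_lit 352)) (XT.lf (nat_lit 0) (nat_lit 3137030139) (nat_lit 1140) (nat_lit 13861861588) (nat_lit 76) (nat_lit 5010044564) (nat_lit 444) (nat_lit 5) (nat_lit 459) (nat_lit 5) (nat_lit 445) (nat_lit 5) (nat_lit 618) (nat_lit 591) (nat_lit 351))))) (XT.nd (nat_lit 156) (nat_lit 1748) (nat_lit 0) (XT.nd (nat_lit 78) (nat_lit 912) (nat_lit 0) (XT.lf (nat_lit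 0) (nat_lit 5226644574) (nat_lit 1140) (nat_lit 1998630069) (nat_lit 76) (nat_lit 15020215847) (nat_lit 444) (nat_lit 5) (nat_lit 459) (nat_lit 5) (nat_lit 445) (nat_lit 5) (nat_lit 619) (nat_lit 591) (nat_lit 350)) (XT.lf (nat_lit 0) (nat_lit 7438890740) (nat_lit 988) (nat_lit 12271201677) (nat_lit 76) (nat_lit 2775066786) (nat_lit 432) (nat_lit 5) (nat_lit 445) (nat_lit 5) (nat_lit 433) (nat_lit 5) (nat_lit 620) (nat_lit 591) (nat_lit 349))) (XT.nd (nat_lit 78) (nat_lit 1748) (nat_lit 0) (XT.lf (nat_lit 0) (nat_lit 9752932993) (nat_lit 988) (nat_lit 82946528) (nat_lit 76) (nat_lit 12892590960) (nat_lit 432) (nat_lit 5) (nat_lit 445) (nat_lit 5) (nat_lit 433) (nat_lit 5) (nat_lit 621) (nat_lit 591) (nat_lit 348)) (XT.nd (nat_lit 78) (nat_lit 836) (nat_lit 0) (XT.lf (nat_lit 0) (nat_lit 12192823209) (nat_lit 988) (nat_lit 10467503116) (nat_lit 76) (nat_lit 314730528) (nat_lit 420) (nat_lit 5) (nat_lit 433) (nat_lit 5) (nat_lit 421) (nat_lit 5) (nat_lit 622) (nat_lit 591) (nat_lit 347)) (XT.lf (nat_lit 0)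 (nat_lit 2083075737) (nat_lit 836) (nat_lit 12673986313) (nat_lit 912) (nat_lit 8468002093) (nat_lit 409) (nat_lit 5) (nat_lit 420) (nat_lit 5) (nat_lit 421) (nat_lit 5) (nat_lit 623) (nat_lit 591) (nat_lit 346)))))) (XT.nd (nat_lit 390) (nat_lit 2356) (nat_lit 0) (XT.nd (nat_lit 156) (nat_lit 912) (nat_lit 0) (XT.nd (nat_lit 78) (nat_lit 836) (nat_lit 0) (XT.lf (nat_lit 0) (nat_lit 15023052365) (nat_lit 836) (nat_lit 2416152555) (nat_lit 912) (nat_lit 6039534475) (nat_lit 409) (nat_lit 5) (nat_lit 420) (nat_lit 5) (nat_lit 421) (nat_lit 5) (nat_lit 624) (nat_lit 591) (nat_lit 345)) (XT.lf (nat_lit 0) (nat_lit 4487441701) (nat_lit 836) (nat_lit 15765378407) (nat_lit 912) (nat_lit 3483111654) (nat_lit 398) (nat_lit 5) (nat_lit 409) (nat_lit 5) (nat_lit 410) (nat_lit 5) (nat_lit 625) (nat_lit 591) (nat_lit 344))) (XT.nd (nat_lit 78) (nat_lit 912) (nat_lit 0) (XT.lf (nat_lit 0) (nat_lit 17784354619) (nat_lit 836) (nat_lit 5407486449) (nat_lit 912) (nat_lit 805044432) (nat_lit 398) (nat_lit 5) (nat_lit 409)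 (nat_lit 5) (nat_lit 410) (nat_lit 5) (nat_lit 626) (nat_lit 591) (nat_lit 343)) (XT.nd (nat_lit 78) (nat_lit 0) (nat_lit 0) (XT.lf (nat_lit 0) (nat_lit 1978236289) (nat_lit 912) (nat_lit 17133715037) (nat_lit 76) (nat_lit 5149318609) (nat_lit 386) (nat_lit 5) (nat_lit 398) (nat_lit 5) (nat_lit 387) (nat_lit 5) (nat_lit 627) (nat_lit 591) (nat_lit 342)) (XT.lf (nat_lit 0) (nat_lit 4880776478) (nat_lit 912) (nat_lit 3756379203) (nat_lit 76) (nat_lit 15892192665) (nat_lit 386) (nat_lit 5) (nat_lit 398) (nat_lit 5) (nat_lit 387) (nat_lit 5) (nat_lit 628) (nat_lit 591) (nat_lit 341))))) (XT.nd (nat_lit 156) (nat_lit 1520) (nat_lit 0) (XT.nd (nat_lit 78) (nat_lit 0) (nat_lit 0) (XT.lf (nat_lit 0) (nat_lit 7916775884) (nat_lit 912) (nat_lit 14798843934) (nat_lit 76) (nat_lit 2085660520) (nat_lit 375) (nat_lit 5) (nat_lit 387) (nat_lit 5) (nat_lit 376) (nat_lit 5) (nat_lit 629) (nat_lit 591) (nat_lit 340)) (XT.lf (nat_lit 0) (nat_lit 11092765546) (nat_lit 912) (nat_lit 1051647687) (nat_lit 76) (nat_lit 12932652506)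 (nat_lit 375) (nat_lit 5) (nat_lit 387) (nat_lit 5) (nat_lit 376) (nat_lit 5) (nat_lit 630) (nat_lit 591) (nat_lit 339))) (XT.nd (nat_lit 78) (nat_lit 760) (nat_lit 0) (XT.lf (nat_lit 0) (nat_lit 13139405151) (nat_lit 760) (nat_lit 1274940706) (nat_lit 836) (nat_lit 10942379749) (nat_lit 365) (nat_lit 5) (nat_lit 375) (nat_lit 5) (nat_lit 376) (nat_lit 5) (nat_lit 631) (nat_lit 591) (nat_lit 338)) (XT.nd (nat_lit 78) (nat_lit 0) (nat_lit 0) (XT.lf (nat_lit 0) (nat_lit 1945000268) (nat_lit 760) (nat_lit 15937596446) (nat_lit 836) (nat_lit 7757777344) (nat_lit 355) (nat_lit 5) (nat_lit 365) (nat_lit 5) (nat_lit 366) (nat_lit 5) (nat_lit 632) (nat_lit 591) (nat_lit 337)) (XT.lf (nat_lit 0) (nat_lit 16544190193) (nat_lit 760) (nat_lit 4963236619) (nat_lit 836) (nat_lit 4420524549) (nat_lit 355) (nat_lit 5) (nat_lit 365) (nat_lit 5) (nat_lit 366) (nat_lit 5) (nat_lit 633) (nat_lit 591) (nat_lit 336))))))))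
noncomputable def xc205 : XT := (XT.nd (nat_lit 1560) (nat_lit 2204) (nat_lit 0) (XT.nd (nat_lit 780) (nat_lit 3572) (nat_lit 0) (XT.nd (nat_lit 390) (nat_lit 2052) (nat_lit 0) (XT.nd (nat_lit 156) (nat_lit 1444) (nat_lit 0) (XT.nd (nat_lit 78) (nat_lit 76) (nat_lit 0) (XT.lf (nat_lit 0) (nat_lit 5238916005) (nat_lit 684) (nat_lit 20037207279) (nat_lit 760) (nat_lit 943729696) (nat_lit 346) (nat_lit 5) (nat_lit 355) (nat_lit 5) (nat_lit 356) (nat_lit 5) (nat_lit 634) (nat_lit 591) (nat_lit 335)) (XT.lf (nat_lit 0) (nat_lit 2661643826) (nat_lit 760) (nat_lit 6288713432) (nat_lit 76) (nat_lit 17565034043) (nat_lit 345) (nat_lit 5) (nat_lit 355) (nat_lit 5) (nat_lit 346) (nat_lit 5) (nat_lit 635) (nat_lit 591) (nat_lit 334))) (XT.nd (nat_lit 78) (nat_lit 684) (nat_lit 0) (XT.lf (nat_lit 0) (nat_lit 6396365629) (nat_lit 836) (nat_lit 18028176364) (nat_lit 76) (nat_lit 2390776243) (nat_lit 335) (nat_lit 5) (nat_lit 346) (nat_lit 5) (nat_lit 336) (nat_lit 5) (nat_lit 636) (nat_lit 591) (nat_lit 333)) (XT.nd (nat_lit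 78) (nat_lit 684) (nat_lit 0) (XT.lf (nat_lit 0) (nat_lit 10304551465) (nat_lit 836) (nat_lit 2933603623) (nat_lit 76) (nat_lit 13881113380) (nat_lit 335) (nat_lit 5) (nat_lit 346) (nat_lit 5) (nat_lit 336) (nat_lit 5) (nat_lit 637) (nat_lit 591) (nat_lit 332)) (XT.lf (nat_lit 0) (nat_lit 12625097852) (nat_lit 684) (nat_lit 1744847849) (nat_lit 760) (nat_lit 13057771257) (nat_lit 326) (nat_lit 5) (nat_lit 335) (nat_lit 5) (nat_lit 336) (nat_lit 5) (nat_lit 638) (nat_lit 591) (nat_lit 331))))) (XT.nd (nat_lit 156) (nat_lit 1368) (nat_lit 0) (XT.nd (nat_lit 78) (nat_lit 0) (nat_lit 0) (XT.lf (nat_lit 0) (nat_lit 734134151) (nat_lit 684) (nat_lit 17868989641) (nat_lit 760) (nat_lit 9137481251) (nat_lit 317) (nat_lit 5) (nat_lit 326) (nat_lit 5) (nat_lit 327) (nat_lit 5) (nat_lit 639) (nat_lit 591) (nat_lit 330)) (XT.lf (nat_lit 0) (nat_lit 16767212937) (nat_lit 684) (nat_lit 6261707261) (nat_lit 760) (nat_lit 5028671738) (nat_lit 317) (nat_lit 5) (nat_lit 326) (nat_lit 5) (nat_lit 327) (nat_lit 5) (nat_lit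 640) (nat_lit 591) (nat_lit 329))) (XT.nd (nat_lit 78) (nat_lit 760) (nat_lit 0) (XT.lf (nat_lit 0) (nat_lit 4762946023) (nat_lit 608) (nat_lit 22844619980) (nat_lit 684) (nat_lit 772066033) (nat_lit 309) (nat_lit 5) (nat_lit 317) (nat_lit 5) (nat_lit 318) (nat_lit 5) (nat_lit 641) (nat_lit 591) (nat_lit 328)) (XT.nd (nat_lit 78) (nat_lit 684) (nat_lit 0) (XT.lf (nat_lit 0) (nat_lit 3637799258) (nat_lit 684) (nat_lit 7484719302) (nat_lit 76) (nat_lit 17582832091) (nat_lit 308) (nat_lit 5) (nat_lit 317) (nat_lit 5) (nat_lit 309) (nat_lit 5) (nat_lit 642) (nat_lit 591) (nat_lit 327)) (XT.lf (nat_lit 0) (nat_lit 8187591091) (nat_lit 760) (nat_lit 19961616452) (nat_lit 76) (nat_lit 887032814) (nat_lit 299) (nat_lit 5) (nat_lit 309) (nat_lit 5) (nat_lit 300) (nat_lit 5) (nat_lit 643) (nat_lit 591) (nat_lit 326)))))) (XT.nd (nat_lit 390) (nat_lit 1672) (nat_lit 0) (XT.nd (nat_lit 156) (nat_lit 1292) (nat_lit 0) (XT.nd (nat_lit 78) (nat_lit 608) (nat_lit 0) (XT.lf (nat_lit 0) (nat_lit 12949890259) (nat_lit 760)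 (nat_lit 3383443315) (nat_lit 76) (nat_lit 13037984184) (nat_lit 299) (nat_lit 5) (nat_lit 309) (nat_lit 5) (nat_lit 300) (nat_lit 5) (nat_lit 644) (nat_lit 591) (nat_lit 325)) (XT.lf (nat_lit 0) (nat_lit 13702752829) (nat_lit 608) (nat_lit 4190996413) (nat_lit 684) (nat_lit 11817621312) (nat_lit 291) (nat_lit 5) (nat_lit 299) (nat_lit 5) (nat_lit 300) (nat_lit 5) (nat_lit 645) (nat_lit 591) (nat_lit 324))) (XT.nd (nat_lit 78) (nat_lit 684) (nat_lit 0) (XT.lf (nat_lit 0) (nat_lit 1076247038) (nat_lit 608) (nat_lit 21940656773) (nat_lit 684) (nat_lit 7039712351) (nat_lit 283) (nat_lit 5) (nat_lit 291) (nat_lit 5) (nat_lit 292) (nat_lit 5) (nat_lit 646) (nat_lit 591) (nat_lit 323)) (XT.nd (nat_lit 78) (nat_lit 684) (nat_lit 0) (XT.lf (nat_lit 0) (nat_lit 18688426202) (nat_lit 608) (nat_lit 9686497744) (nat_lit 684) (nat_lit 2031194808) (nat_lit 283) (nat_lit 5) (nat_lit 291) (nat_lit 5) (nat_lit 292) (nat_lit 5) (nat_lit 647) (nat_lit 591) (nat_lit 322)) (XT.lf (nat_lit 0) (nat_lit 3091813688) (nat_lit 684)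 (nat_lit 24835141228) (nat_lit 76) (nat_lit 2834163325) (nat_lit 274) (nat_lit 5) (nat_lit 283) (nat_lit 5) (nat_lit 275) (nat_lit 5) (nat_lit 648) (nat_lit 591) (nat_lit 321))))) (XT.nd (nat_lit 156) (nat_lit 1064) (nat_lit 0) (XT.nd (nat_lit 78) (nat_lit 608) (nat_lit 0) (XT.lf (nat_lit 0) (nat_lit 8430874519) (nat_lit 684) (nat_lit 7121665555) (nat_lit 76) (nat_lit 15567593436) (nat_lit 274) (nat_lit 5) (nat_lit 283) (nat_lit 5) (nat_lit 275) (nat_lit 5) (nat_lit 649) (nat_lit 591) (nat_lit 320)) (XT.lf (nat_lit 0) (nat_lit 11088313186) (nat_lit 608) (nat_lit 2857908636) (nat_lit 684) (nat_lit 17538717271) (nat_lit 266) (nat_lit 5) (nat_lit 274) (nat_lit 5) (nat_lit 275) (nat_lit 5) (nat_lit 650) (nat_lit 591) (nat_lit 319))) (XT.nd (nat_lit 78) (nat_lit 1064) (nat_lit 0) (XT.lf (nat_lit 0) (nat_lit 19683033795) (nat_lit 684) (nat_lit 2166104231) (nat_lit 76) (nat_lit 10005679715) (nat_lit 266) (nat_lit 5) (nat_lit 275) (nat_lit 5) (nat_lit 267) (nat_lit 5) (nat_lit 651) (nat_lit 591) (nat_lit 318))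 (XT.nd (nat_lit 78) (nat_lit 532) (nat_lit 0) (XT.lf (nat_lit 0) (nat_lit 16624988751) (nat_lit 532) (nat_lit 9034044708) (nat_lit 608) (nat_lit 6570571583) (nat_lit 259) (nat_lit 5) (nat_lit 266) (nat_lit 5) (nat_lit 267) (nat_lit 5) (nat_lit 652) (nat_lit 591) (nat_lit 317)) (XT.lf (nat_lit 0) (nat_lit 3222447278) (nat_lit 532) (nat_lit 28591479880) (nat_lit 608) (nat_lit 796773553) (nat_lit 252) (nat_lit 5) (nat_lit 259) (nat_lit 5) (nat_lit 260) (nat_lit 5) (nat_lit 653) (nat_lit 591) (nat_lit 316))))))) (XT.nd (nat_lit 76518) (nat_lit 0) (nat_lit 19228) (XT.nd (nat_lit 390) (nat_lit 608) (nat_lit 0) (XT.nd (nat_lit 156) (nat_lit 988) (nat_lit 0) (XT.nd (nat_lit 78) (nat_lit 532) (nat_lit 0) (XT.lf (nat_lit 0) (nat_lit 5188565487) (nat_lit 608) (nat_lit 10456518160) (nat_lit 76) (nat_lit 17350416389) (nat_lit 251) (nat_lit 5) (nat_lit 259) (nat_lit 5) (nat_lit 252) (nat_lit 5) (nat_lit 654) (nat_lit 591) (nat_lit 315)) (XT.lf (nat_lit 0) (nat_lit 8963003547) (nat_lit 532) (nat_lit 2375806753) (nat_lit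 608) (nat_lit 22047962458) (nat_lit 244) (nat_lit 5) (nat_lit 251) (nat_lit 5) (nat_lit 252) (nat_lit 5) (nat_lit 655) (nat_lit 591) (nat_lit 314))) (XT.nd (nat_lit 78) (nat_lit 988) (nat_lit 0) (XT.lf (nat_lit 0) (nat_lit 17752828705) (nat_lit 608) (nat_lit 4947870042) (nat_lit 76) (nat_lit 11082356910) (nat_lit 244) (nat_lit 5) (nat_lit 252) (nat_lit 5) (nat_lit 245) (nat_lit 5) (nat_lit 656) (nat_lit 591) (nat_lit 313)) (XT.nd (nat_lit 78) (nat_lit 456) (nat_lit 0) (XT.lf (nat_lit 0) (nat_lit 15096727586) (nat_lit 532) (nat_lit 9309881649) (nat_lit 608) (nat_lit 9778425439) (nat_lit 237) (nat_lit 5) (nat_lit 244) (nat_lit 5) (nat_lit 245) (nat_lit 5) (nat_lit 657) (nat_lit 591) (nat_lit 312)) (XT.lf (nat_lit 0) (nat_lit 996409426) (nat_lit 456) (nat_lit 30262932281) (nat_lit 532) (nat_lit 3334394132) (nat_lit 231) (nat_lit 5) (nat_lit 237) (nat_lit 5) (nat_lit 238) (nat_lit 5) (nat_lit 658) (nat_lit 591) (nat_lit 311))))) (XT.nd (nat_lit 156) (nat_lit 0) (nat_lit 0) (XT.nd (nat_lit 78) (nat_lit 532)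 (nat_lit 0) (XT.lf (nat_lit 0) (nat_lit 3384398377) (nat_lit 532) (nat_lit 13353122523) (nat_lit 76) (nat_lit 18268902598) (nat_lit 230) (nat_lit 5) (nat_lit 237) (nat_lit 5) (nat_lit 231) (nat_lit 5) (nat_lit 659) (nat_lit 591) (nat_lit 310)) (XT.lf (nat_lit 0) (nat_lit 7367459012) (nat_lit 532) (nat_lit 2871138893) (nat_lit 608) (nat_lit 25187412711) (nat_lit 223) (nat_lit 5) (nat_lit 230) (nat_lit 5) (nat_lit 231) (nat_lit 5) (nat_lit 660) (nat_lit 591) (nat_lit 309))) (XT.nd (nat_lit 75816) (nat_lit 0) (nat_lit 20748) (XT.lf (nat_lit 0) (nat_lit 17391090733) (nat_lit 608) (nat_lit 7245590354) (nat_lit 76) (nat_lit 11214084291) (nat_lit 223) (nat_lit 5) (nat_lit 231) (nat_lit 5) (nat_lit 224) (nat_lit 5) (nat_lit 661) (nat_lit 591) (nat_lit 308)) (XT.nd (nat_lit 78) (nat_lit 0) (nat_lit 0) (XT.lf (nat_lit 0) (nat_lit 3153015916) (nat_lit 0) (nat_lit 3153015916) (nat_lit 1748) (nat_lit 2220959696) (nat_lit 496) (nat_lit 5) (nat_lit 496) (nat_lit 3) (nat_lit 519) (nat_lit 3) (nat_lit 592) (nat_lit 592)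 (nat_lit 376)) (XT.lf (nat_lit 0) (nat_lit 12979796340) (nat_lit 1748) (nat_lit 2300432778) (nat_lit 1824) (nat_lit 1939447278) (nat_lit 496) (nat_lit 5) (nat_lit 519) (nat_lit 3) (nat_lit 520) (nat_lit 5) (nat_lit 593) (nat_lit 592) (nat_lit 375)))))) (XT.nd (nat_lit 390) (nat_lit 1520) (nat_lit 0) (XT.nd (nat_lit 156) (nat_lit 0) (nat_lit 76) (XT.nd (nat_lit 78) (nat_lit 0) (nat_lit 76) (XT.lf (nat_lit 76) (nat_lit 6354472933) (nat_lit 0) (nat_lit 7077446593) (nat_lit 1824) (nat_lit 3955223731) (nat_lit 497) (nat_lit 5) (nat_lit 496) (nat_lit 5) (nat_lit 520) (nat_lit 5) (nat_lit 594) (nat_lit 592) (nat_lit 374)) (XT.lf (nat_lit 0) (nat_lit 13911127728) (nat_lit 1748) (nat_lit 2355721546) (nat_lit 1824) (nat_lit 1290749697) (nat_lit 497) (nat_lit 5) (nat_lit 520) (nat_lit 5) (nat_lit 521) (nat_lit 5) (nat_lit 595) (nat_lit 592) (nat_lit 373))) (XT.nd (nat_lit 78) (nat_lit 0) (nat_lit 76) (XT.lf (nat_lit 76) (nat_lit 6530349524) (nat_lit 0) (nat_lit 7953087125) (nat_lit 1824) (nat_lit 3246357180) (nat_lit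 498) (nat_lit 5) (nat_lit 497) (nat_lit 5) (nat_lit 521) (nat_lit 5) (nat_lit 596) (nat_lit 592) (nat_lit 372)) (XT.nd (nat_lit 78) (nat_lit 0) (nat_lit 0) (XT.lf (nat_lit 0) (nat_lit 15080880943) (nat_lit 1748) (nat_lit 2285869596) (nat_lit 1824) (nat_lit 538408612) (nat_lit 498) (nat_lit 5) (nat_lit 521) (nat_lit 5) (nat_lit 522) (nat_lit 5) (nat_lit 597) (nat_lit 592) (nat_lit 371)) (XT.lf (nat_lit 76) (nat_lit 6839775158) (nat_lit 0) (nat_lit 8942042522) (nat_lit 1824) (nat_lit 2300383574) (nat_lit 499) (nat_lit 5) (nat_lit 498) (nat_lit 5) (nat_lit 522) (nat_lit 5) (nat_lit 598) (nat_lit 592) (nat_lit 370))))) (XT.nd (nat_lit 234) (nat_lit 1672) (nat_lit 0) (XT.nd (nat_lit 78) (nat_lit 0) (nat_lit 76) (XT.lf (nat_lit 76) (nat_lit 16175702790) (nat_lit 0) (nat_lit 330963136) (nat_lit 1824) (nat_lit 1755920756) (nat_lit 499) (nat_lit 5) (nat_lit 498) (nat_lit 5) (nat_lit 522) (nat_lit 5) (nat_lit 599) (nat_lit 592) (nat_lit 369)) (XT.nd (nat_lit 78) (nat_lit 0) (nat_lit 0) (XT.lf (nat_lit 76) (nat_lit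 7289216493) (nat_lit 0) (nat_lit 10053673640) (nat_lit 1824) (nat_lit 1101752439) (nat_lit 500) (nat_lit 5) (nat_lit 499) (nat_lit 5) (nat_lit 523) (nat_lit 5) (nat_lit 600) (nat_lit 592) (nat_lit 368)) (XT.lf (nat_lit 76) (nat_lit 16875653887) (nat_lit 0) (nat_lit 1331124105) (nat_lit 1824) (nat_lit 423343128) (nat_lit 500) (nat_lit 5) (nat_lit 499) (nat_lit 5) (nat_lit 523) (nat_lit 5) (nat_lit 601) (nat_lit 592) (nat_lit 367)))) (XT.nd (nat_lit 78) (nat_lit 0) (nat_lit 0) (XT.lf (nat_lit 0) (nat_lit 360935044) (nat_lit 1824) (nat_lit 10934276687) (nat_lit 1900) (nat_lit 7522146460) (nat_lit 476) (nat_lit 5) (nat_lit 500) (nat_lit 5) (nat_lit 501) (nat_lit 5) (nat_lit 602) (nat_lit 592) (nat_lit 366)) (XT.nd (nat_lit 78) (nat_lit 0) (nat_lit 76) (XT.lf (nat_lit 0) (nat_lit 1170820900) (nat_lit 1824) (nat_lit 1285988437) (nat_lit 1900) (nat_lit 16551163196) (nat_lit 476) (nat_lit 5) (nat_lit 500) (nat_lit 5) (nat_lit 501) (nat_lit 5) (nat_lit 603) (nat_lit 592) (nat_lit 365)) (XT.lf (nat_lit 0) (nat_lit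 2091150616) (nat_lit 1824) (nat_lit 10578706516) (nat_lit 1900) (nat_lit 6530657406) (nat_lit 477) (nat_lit 5) (nat_lit 501) (nat_lit 5) (nat_lit 502) (nat_lit 5) (nat_lit 604) (nat_lit 592) (nat_lit 364))))))))
noncomputable def xc206 : XT := (XT.nd (nat_lit 1560) (nat_lit 8360) (nat_lit 0) (XT.nd (nat_lit 780) (nat_lit 5168) (nat_lit 0) (XT.nd (nat_lit 390) (nat_lit 0) (nat_lit 228) (XT.nd (nat_lit 156) (nat_lit 0) (nat_lit 76) (XT.nd (nat_lit 78) (nat_lit 0) (nat_lit 76) (XT.lf (nat_lit 0) (nat_lit 3049949414) (nat_lit 1824) (nat_lit 671242058) (nat_lit 1900) (nat_lit 15675314956) (nat_lit 477) (nat_lit 5) (nat_lit 501) (nat_lit 5) (nat_lit 502) (nat_lit 5) (nat_lit 605) (nat_lit 592) (nat_lit 363)) (XT.lf (nat_lit 0) (nat_lit 4120694898) (nat_lit 1824) (nat_lit 10074396802) (nat_lit 1900) (nat_lit 5399471331) (nat_lit 478) (nat_lit 5) (nat_lit 502) (nat_lit 5) (nat_lit 503) (nat_lit 5) (nat_lit 606) (nat_lit 592) (nat_lit 362))) (XT.nd (nat_lit 78) (nat_lit 0) (nat_lit 76) (XT.lf (nat_lit 76) (nat_lit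 101277184) (nat_lit 0) (nat_lit 5136697051) (nat_lit 1900) (nat_lit 14558104435) (nat_lit 479) (nat_lit 5) (nat_lit 478) (nat_lit 5) (nat_lit 503) (nat_lit 5) (nat_lit 607) (nat_lit 592) (nat_lit 361)) (XT.nd (nat_lit 78) (nat_lit 0) (nat_lit 0) (XT.lf (nat_lit 0) (nat_lit 6467652350) (nat_lit 1824) (nat_lit 9413800700) (nat_lit 1900) (nat_lit 4118370787) (nat_lit 479) (nat_lit 5) (nat_lit 503) (nat_lit 5) (nat_lit 504) (nat_lit 5) (nat_lit 608) (nat_lit 592) (nat_lit 360)) (XT.lf (nat_lit 76) (nat_lit 1049162509) (nat_lit 0) (nat_lit 6709044617) (nat_lit 1900) (nat_lit 12448711391) (nat_lit 480) (nat_lit 5) (nat_lit 479) (nat_lit 5) (nat_lit 504) (nat_lit 5) (nat_lit 609) (nat_lit 592) (nat_lit 359))))) (XT.nd (nat_lit 156) (nat_lit 0) (nat_lit 76) (XT.nd (nat_lit 78) (nat_lit 0) (nat_lit 0) (XT.lf (nat_lit 0) (nat_lit 9150875527) (nat_lit 1824) (nat_lit 8588977676) (nat_lit 1900) (nat_lit 2676776103) (nat_lit 480) (nat_lit 5) (nat_lit 504) (nat_lit 5) (nat_lit 505) (nat_lit 5) (nat_lit 610) (nat_lit 592)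 (nat_lit 358)) (XT.lf (nat_lit 76) (nat_lit 2171823107) (nat_lit 0) (nat_lit 8453721312) (nat_lit 1900) (nat_lit 10003907212) (nat_lit 481) (nat_lit 5) (nat_lit 480) (nat_lit 5) (nat_lit 505) (nat_lit 5) (nat_lit 611) (nat_lit 592) (nat_lit 357))) (XT.nd (nat_lit 78) (nat_lit 0) (nat_lit 0) (XT.lf (nat_lit 0) (nat_lit 12190020879) (nat_lit 1824) (nat_lit 7591580555) (nat_lit 1900) (nat_lit 1063722942) (nat_lit 481) (nat_lit 5) (nat_lit 505) (nat_lit 5) (nat_lit 506) (nat_lit 5) (nat_lit 612) (nat_lit 592) (nat_lit 356)) (XT.nd (nat_lit 78) (nat_lit 0) (nat_lit 0) (XT.lf (nat_lit 76) (nat_lit 3478009808) (nat_lit 0) (nat_lit 10382113644) (nat_lit 1900) (nat_lit 7203904642) (nat_lit 482) (nat_lit 5) (nat_lit 481) (nat_lit 5) (nat_lit 506) (nat_lit 5) (nat_lit 613) (nat_lit 592) (nat_lit 355)) (XT.lf (nat_lit 76) (nat_lit 14868511895) (nat_lit 0) (nat_lit 741890768) (nat_lit 1900) (nat_lit 5675767980) (nat_lit 482) (nat_lit 5) (nat_lit 481) (nat_lit 5) (nat_lit 506) (nat_lit 5) (nat_lit 614) (nat_lit 592)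 (nat_lit 354)))))) (XT.nd (nat_lit 390) (nat_lit 2660) (nat_lit 0) (XT.nd (nat_lit 156) (nat_lit 2888) (nat_lit 0) (XT.nd (nat_lit 78) (nat_lit 0) (nat_lit 0) (XT.lf (nat_lit 76) (nat_lit 4976908812) (nat_lit 0) (nat_lit 12506035539) (nat_lit 1900) (nat_lit 4028066794) (nat_lit 483) (nat_lit 5) (nat_lit 482) (nat_lit 5) (nat_lit 507) (nat_lit 5) (nat_lit 615) (nat_lit 592) (nat_lit 353)) (XT.lf (nat_lit 76) (nat_lit 16677998178) (nat_lit 0) (nat_lit 2758861306) (nat_lit 1900) (nat_lit 2302610759) (nat_lit 483) (nat_lit 5) (nat_lit 482) (nat_lit 5) (nat_lit 507) (nat_lit 5) (nat_lit 616) (nat_lit 592) (nat_lit 352))) (XT.nd (nat_lit 78) (nat_lit 1140) (nat_lit 0) (XT.lf (nat_lit 0) (nat_lit 6678156588) (nat_lit 1824) (nat_lit 14837752681) (nat_lit 1900) (nat_lit 454868361) (nat_lit 459) (nat_lit 5) (nat_lit 483) (nat_lit 5) (nat_lit 484) (nat_lit 5) (nat_lit 617) (nat_lit 592) (nat_lit 351)) (XT.nd (nat_lit 78) (nat_lit 1064) (nat_lit 0) (XT.lf (nat_lit 0) (nat_lit 1459625346) (nat_lit 1900) (nat_lit 3516054207)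 (nat_lit 76) (nat_lit 17229875186) (nat_lit 458) (nat_lit 5) (nat_lit 483) (nat_lit 5) (nat_lit 459) (nat_lit 5) (nat_lit 618) (nat_lit 592) (nat_lit 350)) (XT.lf (nat_lit 0) (nat_lit 3491741187) (nat_lit 1140) (nat_lit 13874834962) (nat_lit 76) (nat_lit 5076682869) (nat_lit 444) (nat_lit 5) (nat_lit 459) (nat_lit 5) (nat_lit 445) (nat_lit 5) (nat_lit 619) (nat_lit 592) (nat_lit 349))))) (XT.nd (nat_lit 156) (nat_lit 1748) (nat_lit 0) (XT.nd (nat_lit 78) (nat_lit 912) (nat_lit 0) (XT.lf (nat_lit 0) (nat_lit 5617422999) (nat_lit 1140) (nat_lit 1779520456) (nat_lit 76) (nat_lit 15287715668) (nat_lit 444) (nat_lit 5) (nat_lit 459) (nat_lit 5) (nat_lit 445) (nat_lit 5) (nat_lit 620) (nat_lit 592) (nat_lit 348)) (XT.lf (nat_lit 0) (nat_lit 7869810661) (nat_lit 988) (nat_lit 12253424122) (nat_lit 76) (nat_lit 2805968816) (nat_lit 432) (nat_lit 5) (nat_lit 445) (nat_lit 5) (nat_lit 433) (nat_lit 5) (nat_lit 621) (nat_lit 592) (nat_lit 347))) (XT.nd (nat_lit 78) (nat_lit 836) (nat_lit 0) (XT.lf (nat_lit 0) (nat_lit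 175740178) (nat_lit 912) (nat_lit 10050002405) (nat_lit 988) (nat_lit 12951726656) (nat_lit 420) (nat_lit 5) (nat_lit 432) (nat_lit 5) (nat_lit 433) (nat_lit 5) (nat_lit 622) (nat_lit 592) (nat_lit 346)) (XT.nd (nat_lit 78) (nat_lit 836) (nat_lit 0) (XT.lf (nat_lit 0) (nat_lit 12709423030) (nat_lit 988) (nat_lit 10414930528) (nat_lit 76) (nat_lit 304734238) (nat_lit 420) (nat_lit 5) (nat_lit 433) (nat_lit 5) (nat_lit 421) (nat_lit 5) (nat_lit 623) (nat_lit 592) (nat_lit 345)) (XT.lf (nat_lit 0) (nat_lit 2384936727) (nat_lit 836) (nat_lit 12936351399) (nat_lit 912) (nat_lit 8362880576) (nat_lit 409) (nat_lit 5) (nat_lit 420) (nat_lit 5) (nat_lit 421) (nat_lit 5) (nat_lit 624) (nat_lit 592) (nat_lit 344))))))) (XT.nd (nat_lit 780) (nat_lit 4256) (nat_lit 0) (XT.nd (nat_lit 390) (nat_lit 2356) (nat_lit 0) (XT.nd (nat_lit 156) (nat_lit 912) (nat_lit 0) (XT.nd (nat_lit 78) (nat_lit 836) (nat_lit 0) (XT.lf (nat_lit 0) (nat_lit 15578610937) (nat_lit 836) (nat_lit 2473186744) (nat_lit 912) (nat_lit 5891225597)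 (nat_lit 409) (nat_lit 5) (nat_lit 420) (nat_lit 5) (nat_lit 421) (nat_lit 5) (nat_lit 625) (nat_lit 592) (nat_lit 343)) (XT.lf (nat_lit 0) (nat_lit 4835922069) (nat_lit 836) (nat_lit 16082214791) (nat_lit 912) (nat_lit 3287293886) (nat_lit 398) (nat_lit 5) (nat_lit 409) (nat_lit 5) (nat_lit 410) (nat_lit 5) (nat_lit 626) (nat_lit 592) (nat_lit 342))) (XT.nd (nat_lit 78) (nat_lit 912) (nat_lit 0) (XT.lf (nat_lit 0) (nat_lit 18393700079) (nat_lit 836) (nat_lit 5517135018) (nat_lit 912) (nat_lit 560870810) (nat_lit 398) (nat_lit 5) (nat_lit 409) (nat_lit 5) (nat_lit 410) (nat_lit 5) (nat_lit 627) (nat_lit 592) (nat_lit 341)) (XT.nd (nat_lit 78) (nat_lit 0) (nat_lit 0) (XT.lf (nat_lit 0) (nat_lit 2271296091) (nat_lit 912) (nat_lit 17215924044) (nat_lit 76) (nat_lit 5254191686) (nat_lit 386) (nat_lit 5) (nat_lit 398) (nat_lit 5) (nat_lit 387) (nat_lit 5) (nat_lit 628) (nat_lit 592) (nat_lit 340)) (XT.lf (nat_lit 0) (nat_lit 5226916593) (nat_lit 912) (nat_lit 3576148657) (nat_lit 76) (nat_lit 16211886229) (nat_lit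 386) (nat_lit 5) (nat_lit 398) (nat_lit 5) (nat_lit 387) (nat_lit 5) (nat_lit 629) (nat_lit 592) (nat_lit 339))))) (XT.nd (nat_lit 156) (nat_lit 1520) (nat_lit 0) (XT.nd (nat_lit 78) (nat_lit 0) (nat_lit 0) (XT.lf (nat_lit 0) (nat_lit 8320464408) (nat_lit 912) (nat_lit 14836278022) (nat_lit 76) (nat_lit 2135643373) (nat_lit 375) (nat_lit 5) (nat_lit 387) (nat_lit 5) (nat_lit 376) (nat_lit 5) (nat_lit 630) (nat_lit 592) (nat_lit 338)) (XT.lf (nat_lit 0) (nat_lit 11555163020) (nat_lit 912) (nat_lit 819207317) (nat_lit 76) (nat_lit 13199413050) (nat_lit 375) (nat_lit 5) (nat_lit 387) (nat_lit 5) (nat_lit 376) (nat_lit 5) (nat_lit 631) (nat_lit 592) (nat_lit 337))) (XT.nd (nat_lit 78) (nat_lit 760) (nat_lit 0) (XT.lf (nat_lit 0) (nat_lit 13653998990) (nat_lit 760) (nat_lit 1286094323) (nat_lit 836) (nat_lit 10919005020) (nat_lit 365) (nat_lit 5) (nat_lit 375) (nat_lit 5) (nat_lit 376) (nat_lit 5) (nat_lit 632) (nat_lit 592) (nat_lit 336)) (XT.nd (nat_lit 78) (nat_lit 0) (nat_lit 0) (XT.lf (nat_lit 0) (nat_lit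 2238687324) (nat_lit 760) (nat_lit 16236111334) (nat_lit 836) (nat_lit 7673679555) (nat_lit 355) (nat_lit 5) (nat_lit 365) (nat_lit 5) (nat_lit 366) (nat_lit 5) (nat_lit 633) (nat_lit 592) (nat_lit 335)) (XT.lf (nat_lit 0) (nat_lit 17124865223) (nat_lit 760) (nat_lit 5042661115) (nat_lit 836) (nat_lit 4274372946) (nat_lit 355) (nat_lit 5) (nat_lit 365) (nat_lit 5) (nat_lit 366) (nat_lit 5) (nat_lit 634) (nat_lit 592) (nat_lit 334)))))) (XT.nd (nat_lit 390) (nat_lit 2052) (nat_lit 0) (XT.nd (nat_lit 156) (nat_lit 1444) (nat_lit 0) (XT.nd (nat_lit 78) (nat_lit 76) (nat_lit 0) (XT.lf (nat_lit 0) (nat_lit 5596294988) (nat_lit 684) (nat_lit 20412559249) (nat_lit 760) (nat_lit 730839784) (nat_lit 346) (nat_lit 5) (nat_lit 355) (nat_lit 5) (nat_lit 356) (nat_lit 5) (nat_lit 635) (nat_lit 592) (nat_lit 333)) (XT.lf (nat_lit 0) (nat_lit 2939116774) (nat_lit 760) (nat_lit 6163848572) (nat_lit 76) (nat_lit 17938237592) (nat_lit 345) (nat_lit 5) (nat_lit 355) (nat_lit 5) (nat_lit 346) (nat_lit 5) (nat_lit 636) (nat_lit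 592) (nat_lit 332))) (XT.nd (nat_lit 78) (nat_lit 684) (nat_lit 0) (XT.lf (nat_lit 0) (nat_lit 6745931504) (nat_lit 836) (nat_lit 18135488088) (nat_lit 76) (nat_lit 2465761074) (nat_lit 335) (nat_lit 5) (nat_lit 346) (nat_lit 5) (nat_lit 336) (nat_lit 5) (nat_lit 637) (nat_lit 592) (nat_lit 331)) (XT.nd (nat_lit 78) (nat_lit 684) (nat_lit 0) (XT.lf (nat_lit 0) (nat_lit 10727935202) (nat_lit 836) (nat_lit 2743989613) (nat_lit 76) (nat_lit 14185372221) (nat_lit 335) (nat_lit 5) (nat_lit 346) (nat_lit 5) (nat_lit 336) (nat_lit 5) (nat_lit 638) (nat_lit 592) (nat_lit 330)) (XT.lf (nat_lit 0) (nat_lit 13124252430) (nat_lit 684) (nat_lit 1747725684) (nat_lit 760) (nat_lit 13099989782) (nat_lit 326) (nat_lit 5) (nat_lit 335) (nat_lit 5) (nat_lit 336) (nat_lit 5) (nat_lit 639) (nat_lit 592) (nat_lit 329))))) (XT.nd (nat_lit 234) (nat_lit 760) (nat_lit 0) (XT.nd (nat_lit 78) (nat_lit 608) (nat_lit 0) (XT.lf (nat_lit 0) (nat_lit 997915308) (nat_lit 684) (nat_lit 18189517084) (nat_lit 760) (nat_lit 9103729308) (nat_lit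 317) (nat_lit 5) (nat_lit 326) (nat_lit 5) (nat_lit 327) (nat_lit 5) (nat_lit 640) (nat_lit 592) (nat_lit 328)) (XT.nd (nat_lit 78) (nat_lit 608) (nat_lit 0) (XT.lf (nat_lit 0) (nat_lit 17346771386) (nat_lit 684) (nat_lit 6350811652) (nat_lit 760) (nat_lit 4916988733) (nat_lit 317) (nat_lit 5) (nat_lit 326) (nat_lit 5) (nat_lit 327) (nat_lit 5) (nat_lit 641) (nat_lit 592) (nat_lit 327)) (XT.lf (nat_lit 0) (nat_lit 5104723982) (nat_lit 608) (nat_lit 23260828234) (nat_lit 684) (nat_lit 577545650) (nat_lit 309) (nat_lit 5) (nat_lit 317) (nat_lit 5) (nat_lit 318) (nat_lit 5) (nat_lit 642) (nat_lit 592) (nat_lit 326)))) (XT.nd (nat_lit 78) (nat_lit 684) (nat_lit 0) (XT.lf (nat_lit 0) (nat_lit 3913700358) (nat_lit 684) (nat_lit 7390018944) (nat_lit 76) (nat_lit 17971665739) (nat_lit 308) (nat_lit 5) (nat_lit 317) (nat_lit 5) (nat_lit 309) (nat_lit 5) (nat_lit 643) (nat_lit 592) (nat_lit 325)) (XT.nd (nat_lit 78) (nat_lit 0) (nat_lit 0) (XT.lf (nat_lit 0) (nat_lit 8552354132) (nat_lit 760) (nat_lit 20114310613)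 (nat_lit 76) (nat_lit 946270667) (nat_lit 299) (nat_lit 5) (nat_lit 309) (nat_lit 5) (nat_lit 300) (nat_lit 5) (nat_lit 644) (nat_lit 592) (nat_lit 324)) (XT.lf (nat_lit 0) (nat_lit 13405957887) (nat_lit 760) (nat_lit 3209408094) (nat_lit 76) (nat_lit 13339427393) (nat_lit 299) (nat_lit 5) (nat_lit 309) (nat_lit 5) (nat_lit 300) (nat_lit 5) (nat_lit 645) (nat_lit 592) (nat_lit 323))))))))
noncomputable def xc207 : XT := (XT.nd (nat_lit 77376) (nat_lit 0) (nat_lit 19228) (XT.nd (nat_lit 780) (nat_lit 2128) (nat_lit 0) (XT.nd (nat_lit 390) (nat_lit 1748) (nat_lit 0) (XT.nd (nat_lit 156) (nat_lit 684) (nat_lit 0) (XT.nd (nat_lit 78) (nat_lit 608) (nat_lit 0) (XT.lf (nat_lit 0) (nat_lit 14216921814) (nat_lit 608) (nat_lit 4229467100) (nat_lit 684) (nat_lit 11855304598) (nat_lit 291) (nat_lit 5) (nat_lit 299) (nat_lit 5) (nat_lit 300) (nat_lit 5) (nat_lit 646) (nat_lit 592) (nat_lit 322)) (XT.lf (nat_lit 0) (nat_lit 1339892476) (nat_lit 608) (nat_lit 22330155855) (nat_lit 684) (nat_lit 6983835047) (nat_lit 283)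 (nat_lit 5) (nat_lit 291) (nat_lit 5) (nat_lit 292) (nat_lit 5) (nat_lit 647) (nat_lit 592) (nat_lit 321))) (XT.nd (nat_lit 78) (nat_lit 684) (nat_lit 0) (XT.lf (nat_lit 0) (nat_lit 19299567763) (nat_lit 608) (nat_lit 9831880587) (nat_lit 684) (nat_lit 1879003458) (nat_lit 283) (nat_lit 5) (nat_lit 291) (nat_lit 5) (nat_lit 292) (nat_lit 5) (nat_lit 648) (nat_lit 592) (nat_lit 320)) (XT.nd (nat_lit 78) (nat_lit 0) (nat_lit 0) (XT.lf (nat_lit 0) (nat_lit 3342078827) (nat_lit 684) (nat_lit 25090067543) (nat_lit 76) (nat_lit 2940417197) (nat_lit 274) (nat_lit 5) (nat_lit 283) (nat_lit 5) (nat_lit 275) (nat_lit 5) (nat_lit 649) (nat_lit 592) (nat_lit 319)) (XT.lf (nat_lit 0) (nat_lit 8784226192) (nat_lit 684) (nat_lit 7027063073) (nat_lit 76) (nat_lit 15927543937) (nat_lit 274) (nat_lit 5) (nat_lit 283) (nat_lit 5) (nat_lit 275) (nat_lit 5) (nat_lit 650) (nat_lit 592) (nat_lit 318))))) (XT.nd (nat_lit 156) (nat_lit 1140) (nat_lit 0) (XT.nd (nat_lit 78) (nat_lit 0) (nat_lit 0) (XT.lf (nat_lit 0) (nat_lit 11545555797)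 (nat_lit 608) (nat_lit 2862231273) (nat_lit 684) (nat_lit 17703189855) (nat_lit 266) (nat_lit 5) (nat_lit 274) (nat_lit 5) (nat_lit 275) (nat_lit 5) (nat_lit 651) (nat_lit 592) (nat_lit 317)) (XT.lf (nat_lit 0) (nat_lit 20256090408) (nat_lit 684) (nat_lit 1975314303) (nat_lit 76) (nat_lit 10256913494) (nat_lit 266) (nat_lit 5) (nat_lit 275) (nat_lit 5) (nat_lit 267) (nat_lit 5) (nat_lit 652) (nat_lit 592) (nat_lit 316))) (XT.nd (nat_lit 78) (nat_lit 608) (nat_lit 0) (XT.lf (nat_lit 0) (nat_lit 17190060328) (nat_lit 532) (nat_lit 9159542179) (nat_lit 608) (nat_lit 6521039050) (nat_lit 259) (nat_lit 5) (nat_lit 266) (nat_lit 5) (nat_lit 267) (nat_lit 5) (nat_lit 653) (nat_lit 592) (nat_lit 315)) (XT.nd (nat_lit 78) (nat_lit 76) (nat_lit 0) (XT.lf (nat_lit 0) (nat_lit 3521114211) (nat_lit 532) (nat_lit 29104873627) (nat_lit 608) (nat_lit 633403581) (nat_lit 252) (nat_lit 5) (nat_lit 259) (nat_lit 5) (nat_lit 260) (nat_lit 5) (nat_lit 654) (nat_lit 592) (nat_lit 314)) (XT.lf (nat_lit 0) (nat_lit 5465820934)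 (nat_lit 608) (nat_lit 10433710167) (nat_lit 76) (nat_lit 17752401888) (nat_lit 251) (nat_lit 5) (nat_lit 259) (nat_lit 5) (nat_lit 252) (nat_lit 5) (nat_lit 655) (nat_lit 592) (nat_lit 313)))))) (XT.nd (nat_lit 390) (nat_lit 532) (nat_lit 0) (XT.nd (nat_lit 156) (nat_lit 1064) (nat_lit 0) (XT.nd (nat_lit 78) (nat_lit 0) (nat_lit 0) (XT.lf (nat_lit 0) (nat_lit 9372676065) (nat_lit 532) (nat_lit 2364488919) (nat_lit 608) (nat_lit 22313904438) (nat_lit 244) (nat_lit 5) (nat_lit 251) (nat_lit 5) (nat_lit 252) (nat_lit 5) (nat_lit 656) (nat_lit 592) (nat_lit 312)) (XT.lf (nat_lit 0) (nat_lit 18276473972) (nat_lit 608) (nat_lit 4817936022) (nat_lit 76) (nat_lit 11360927921) (nat_lit 244) (nat_lit 5) (nat_lit 252) (nat_lit 5) (nat_lit 245) (nat_lit 5) (nat_lit 657) (nat_lit 592) (nat_lit 311))) (XT.nd (nat_lit 78) (nat_lit 532) (nat_lit 0) (XT.lf (nat_lit 0) (nat_lit 15626047694) (nat_lit 532) (nat_lit 9435453096) (nat_lit 608) (nat_lit 9803892449) (nat_lit 237) (nat_lit 5) (nat_lit 244) (nat_lit 5) (nat_lit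 245) (nat_lit 5) (nat_lit 658) (nat_lit 592) (nat_lit 310)) (XT.nd (nat_lit 78) (nat_lit 76) (nat_lit 0) (XT.lf (nat_lit 0) (nat_lit 1245156318) (nat_lit 456) (nat_lit 30804733351) (nat_lit 532) (nat_lit 3232406858) (nat_lit 231) (nat_lit 5) (nat_lit 237) (nat_lit 5) (nat_lit 238) (nat_lit 5) (nat_lit 659) (nat_lit 592) (nat_lit 309)) (XT.lf (nat_lit 0) (nat_lit 3615285316) (nat_lit 532) (nat_lit 13393677542) (nat_lit 76) (nat_lit 18694318589) (nat_lit 230) (nat_lit 5) (nat_lit 237) (nat_lit 5) (nat_lit 231) (nat_lit 5) (nat_lit 660) (nat_lit 592) (nat_lit 308))))) (XT.nd (nat_lit 75972) (nat_lit 0) (nat_lit 20748) (XT.nd (nat_lit 75894) (nat_lit 0) (nat_lit 20748) (XT.lf (nat_lit 0) (nat_lit 7739825444) (nat_lit 532) (nat_lit 2865004373) (nat_lit 608) (nat_lit 25526465400) (nat_lit 223) (nat_lit 5) (nat_lit 230) (nat_lit 5) (nat_lit 231) (nat_lit 5) (nat_lit 661) (nat_lit 592) (nat_lit 307)) (XT.lf (nat_lit 0) (nat_lit 3329759562) (nat_lit 0) (nat_lit 3329759562) (nat_lit 1748) (nat_lit 2033450743) (nat_lit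 496) (nat_lit 5) (nat_lit 496) (nat_lit 3) (nat_lit 519) (nat_lit 3) (nat_lit 593) (nat_lit 593) (nat_lit 374))) (XT.nd (nat_lit 78) (nat_lit 0) (nat_lit 0) (XT.lf (nat_lit 0) (nat_lit 13683761968) (nat_lit 1748) (nat_lit 2113141576) (nat_lit 1824) (nat_lit 1758251223) (nat_lit 496) (nat_lit 5) (nat_lit 519) (nat_lit 3) (nat_lit 520) (nat_lit 5) (nat_lit 594) (nat_lit 593) (nat_lit 373)) (XT.nd (nat_lit 78) (nat_lit 0) (nat_lit 76) (XT.lf (nat_lit 76) (nat_lit 6713327381) (nat_lit 0) (nat_lit 7424391877) (nat_lit 1824) (nat_lit 3588396419) (nat_lit 497) (nat_lit 5) (nat_lit 496) (nat_lit 5) (nat_lit 520) (nat_lit 5) (nat_lit 595) (nat_lit 593) (nat_lit 372)) (XT.lf (nat_lit 0) (nat_lit 14616632413) (nat_lit 1748) (nat_lit 2165709502) (nat_lit 1824) (nat_lit 1117836709) (nat_lit 497) (nat_lit 5) (nat_lit 520) (nat_lit 5) (nat_lit 521) (nat_lit 5) (nat_lit 596) (nat_lit 593) (nat_lit 371))))))) (XT.nd (nat_lit 780) (nat_lit 0) (nat_lit 152) (XT.nd (nat_lit 390) (nat_lit 1596) (nat_lit 0) (XT.nd (nat_lit 156)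 (nat_lit 0) (nat_lit 76) (XT.nd (nat_lit 78) (nat_lit 0) (nat_lit 76) (XT.lf (nat_lit 76) (nat_lit 6896522946) (nat_lit 0) (nat_lit 8297015938) (nat_lit 1824) (nat_lit 2882415990) (nat_lit 498) (nat_lit 5) (nat_lit 497) (nat_lit 5) (nat_lit 521) (nat_lit 5) (nat_lit 597) (nat_lit 593) (nat_lit 370)) (XT.lf (nat_lit 0) (nat_lit 15793511526) (nat_lit 1748) (nat_lit 2091193318) (nat_lit 1824) (nat_lit 370311582) (nat_lit 498) (nat_lit 5) (nat_lit 521) (nat_lit 5) (nat_lit 522) (nat_lit 5) (nat_lit 598) (nat_lit 593) (nat_lit 369))) (XT.nd (nat_lit 78) (nat_lit 0) (nat_lit 0) (XT.lf (nat_lit 76) (nat_lit 7215382794) (nat_lit 0) (nat_lit 9286575652) (nat_lit 1824) (nat_lit 1933771599) (nat_lit 499) (nat_lit 5) (nat_lit 498) (nat_lit 5) (nat_lit 522) (nat_lit 5) (nat_lit 599) (nat_lit 593) (nat_lit 368)) (XT.nd (nat_lit 78) (nat_lit 0) (nat_lit 76) (XT.lf (nat_lit 76) (nat_lit 16733346387) (nat_lit 0) (nat_lit 500025811) (nat_lit 1824) (nat_lit 1386510106) (nat_lit 499) (nat_lit 5) (nat_lit 498) (nat_lit 5) (nat_lit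 522) (nat_lit 5) (nat_lit 600) (nat_lit 593) (nat_lit 367)) (XT.lf (nat_lit 76) (nat_lit 7676541559) (nat_lit 0) (nat_lit 10402537622) (nat_lit 1824) (nat_lit 726645448) (nat_lit 500) (nat_lit 5) (nat_lit 499) (nat_lit 5) (nat_lit 523) (nat_lit 5) (nat_lit 601) (nat_lit 593) (nat_lit 366))))) (XT.nd (nat_lit 156) (nat_lit 0) (nat_lit 0) (XT.nd (nat_lit 78) (nat_lit 1748) (nat_lit 0) (XT.lf (nat_lit 76) (nat_lit 17449971608) (nat_lit 0) (nat_lit 1502639244) (nat_lit 1824) (nat_lit 42455049) (nat_lit 500) (nat_lit 5) (nat_lit 499) (nat_lit 5) (nat_lit 523) (nat_lit 5) (nat_lit 602) (nat_lit 593) (nat_lit 365)) (XT.lf (nat_lit 0) (nat_lit 745532860) (nat_lit 1824) (nat_lit 10904135746) (nat_lit 1900) (nat_lit 7536466392) (nat_lit 476) (nat_lit 5) (nat_lit 500) (nat_lit 5) (nat_lit 501) (nat_lit 5) (nat_lit 603) (nat_lit 593) (nat_lit 364))) (XT.nd (nat_lit 78) (nat_lit 0) (nat_lit 76) (XT.lf (nat_lit 0) (nat_lit 1564216843) (nat_lit 1824) (nat_lit 1067760681) (nat_lit 1900) (nat_lit 16748732541) (nat_lit 476)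 (nat_lit 5) (nat_lit 500) (nat_lit 5) (nat_lit 501) (nat_lit 5) (nat_lit 604) (nat_lit 593) (nat_lit 363)) (XT.nd (nat_lit 78) (nat_lit 0) (nat_lit 0) (XT.lf (nat_lit 0) (nat_lit 2496480283) (nat_lit 1824) (nat_lit 10539838361) (nat_lit 1900) (nat_lit 6540914161) (nat_lit 477) (nat_lit 5) (nat_lit 501) (nat_lit 5) (nat_lit 502) (nat_lit 5) (nat_lit 605) (nat_lit 593) (nat_lit 362)) (XT.lf (nat_lit 0) (nat_lit 3467327475) (nat_lit 1824) (nat_lit 439135248) (nat_lit 1900) (nat_lit 15870824791) (nat_lit 477) (nat_lit 5) (nat_lit 501) (nat_lit 5) (nat_lit 502) (nat_lit 5) (nat_lit 606) (nat_lit 593) (nat_lit 361)))))) (XT.nd (nat_lit 390) (nat_lit 0) (nat_lit 152) (XT.nd (nat_lit 156) (nat_lit 0) (nat_lit 76) (XT.nd (nat_lit 78) (nat_lit 0) (nat_lit 0) (XT.lf (nat_lit 0) (nat_lit 4553388615) (nat_lit 1824) (nat_lit 10024232791) (nat_lit 1900) (nat_lit 5401806248) (nat_lit 478) (nat_lit 5) (nat_lit 502) (nat_lit 5) (nat_lit 503) (nat_lit 5) (nat_lit 607) (nat_lit 593) (nat_lit 360)) (XT.lf (nat_lit 76) (nat_lit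 353299069) (nat_lit 0) (nat_lit 5334469381) (nat_lit 1900) (nat_lit 14497310472) (nat_lit 479) (nat_lit 5) (nat_lit 478) (nat_lit 5) (nat_lit 503) (nat_lit 5) (nat_lit 608) (nat_lit 593) (nat_lit 359))) (XT.nd (nat_lit 78) (nat_lit 0) (nat_lit 0) (XT.lf (nat_lit 0) (nat_lit 6934669786) (nat_lit 1824) (nat_lit 9349591698) (nat_lit 1900) (nat_lit 4108785318) (nat_lit 479) (nat_lit 5) (nat_lit 503) (nat_lit 5) (nat_lit 504) (nat_lit 5) (nat_lit 609) (nat_lit 593) (nat_lit 358)) (XT.nd (nat_lit 78) (nat_lit 0) (nat_lit 76) (XT.lf (nat_lit 76) (nat_lit 1320969689) (nat_lit 0) (nat_lit 6925073613) (nat_lit 1900) (nat_lit 12358340316) (nat_lit 480) (nat_lit 5) (nat_lit 479) (nat_lit 5) (nat_lit 504) (nat_lit 5) (nat_lit 610) (nat_lit 593) (nat_lit 357)) (XT.lf (nat_lit 0) (nat_lit 9659521099) (nat_lit 1824) (nat_lit 8507788003) (nat_lit 1900) (nat_lit 2651120791) (nat_lit 480) (nat_lit 5) (nat_lit 504) (nat_lit 5) (nat_lit 505) (nat_lit 5) (nat_lit 611) (nat_lit 593) (nat_lit 356))))) (XT.nd (nat_lit 234) (nat_lit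 0) (nat_lit 76) (XT.nd (nat_lit 78) (nat_lit 0) (nat_lit 76) (XT.lf (nat_lit 76) (nat_lit 2466564524) (nat_lit 0) (nat_lit 8692365620) (nat_lit 1900) (nat_lit 9876673967) (nat_lit 481) (nat_lit 5) (nat_lit 480) (nat_lit 5) (nat_lit 505) (nat_lit 5) (nat_lit 612) (nat_lit 593) (nat_lit 355)) (XT.nd (nat_lit 78) (nat_lit 0) (nat_lit 0) (XT.lf (nat_lit 0) (nat_lit 12747961631) (nat_lit 1824) (nat_lit 7490281576) (nat_lit 1900) (nat_lit 1017686166) (nat_lit 481) (nat_lit 5) (nat_lit 505) (nat_lit 5) (nat_lit 506) (nat_lit 5) (nat_lit 613) (nat_lit 593) (nat_lit 354)) (XT.lf (nat_lit 76) (nat_lit 3799035261) (nat_lit 0) (nat_lit 10647904059) (nat_lit 1900) (nat_lit 7032158750) (nat_lit 482) (nat_lit 5) (nat_lit 481) (nat_lit 5) (nat_lit 506) (nat_lit 5) (nat_lit 614) (nat_lit 593) (nat_lit 353)))) (XT.nd (nat_lit 78) (nat_lit 0) (nat_lit 76) (XT.lf (nat_lit 76) (nat_lit 15412416699) (nat_lit 0) (nat_lit 813736566) (nat_lit 1900) (nat_lit 5479651982) (nat_lit 482) (nat_lit 5) (nat_lit 481) (nat_lit 5) (nat_lit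 506) (nat_lit 5) (nat_lit 615) (nat_lit 593) (nat_lit 352)) (XT.nd (nat_lit 78) (nat_lit 0) (nat_lit 0) (XT.lf (nat_lit 76) (nat_lit 5327776066) (nat_lit 0) (nat_lit 12803686825) (nat_lit 1900) (nat_lit 3803773678) (nat_lit 483) (nat_lit 5) (nat_lit 482) (nat_lit 5) (nat_lit 507) (nat_lit 5) (nat_lit 616) (nat_lit 593) (nat_lit 351)) (XT.lf (nat_lit 76) (nat_lit 17257959198) (nat_lit 0) (nat_lit 2860637136) (nat_lit 1900) (nat_lit 2049786061) (nat_lit 483) (nat_lit 5) (nat_lit 482) (nat_lit 5) (nat_lit 507) (nat_lit 5) (nat_lit 617) (nat_lit 593) (nat_lit 350))))))))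
noncomputable def xc208 : XT := (XT.nd (nat_lit 1560) (nat_lit 7676) (nat_lit 0) (XT.nd (nat_lit 780) (nat_lit 4028) (nat_lit 0) (XT.nd (nat_lit 390) (nat_lit 2584) (nat_lit 0) (XT.nd (nat_lit 156) (nat_lit 1976) (nat_lit 0) (XT.nd (nat_lit 78) (nat_lit 76) (nat_lit 0) (XT.lf (nat_lit 0) (nat_lit 7062638863) (nat_lit 1824) (nat_lit 15172175676) (nat_lit 1900) (nat_lit 169589979) (nat_lit 459) (nat_lit 5) (nat_lit 483) (nat_lit 5) (nat_lit 484) (nat_lit 5) (nat_lit 618) (nat_lit 593) (nat_lit 349)) (XT.lf (nat_lit 0) (nat_lit 1773636440) (nat_lit 1900) (nat_lit 3336574776) (nat_lit 76) (nat_lit 17533741981) (nat_lit 458) (nat_lit 5) (nat_lit 483) (nat_lit 5) (nat_lit 459) (nat_lit 5) (nat_lit 619) (nat_lit 593) (nat_lit 348))) (XT.nd (nat_lit 78) (nat_lit 912) (nat_lit 0) (XT.lf (nat_lit 0) (nat_lit 3842208887) (nat_lit 1140) (nat_lit 13898329491) (nat_lit 76) (nat_lit 5145957217) (nat_lit 444) (nat_lit 5) (nat_lit 459) (nat_lit 5) (nat_lit 445) (nat_lit 5) (nat_lit 620) (nat_lit 593) (nat_lit 347)) (XT.nd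 (nat_lit 78) (nat_lit 912) (nat_lit 0) (XT.lf (nat_lit 0) (nat_lit 6004901730) (nat_lit 1140) (nat_lit 1566089130) (nat_lit 76) (nat_lit 15561843207) (nat_lit 444) (nat_lit 5) (nat_lit 459) (nat_lit 5) (nat_lit 445) (nat_lit 5) (nat_lit 621) (nat_lit 593) (nat_lit 346)) (XT.lf (nat_lit 0) (nat_lit 8298393058) (nat_lit 988) (nat_lit 12245511455) (nat_lit 76) (nat_lit 2838444107) (nat_lit 432) (nat_lit 5) (nat_lit 445) (nat_lit 5) (nat_lit 433) (nat_lit 5) (nat_lit 622) (nat_lit 593) (nat_lit 345))))) (XT.nd (nat_lit 156) (nat_lit 1672) (nat_lit 0) (XT.nd (nat_lit 78) (nat_lit 0) (nat_lit 0) (XT.lf (nat_lit 0) (nat_lit 430571781) (nat_lit 912) (nat_lit 10267186176) (nat_lit 988) (nat_lit 12937895629) (nat_lit 420) (nat_lit 5) (nat_lit 432) (nat_lit 5) (nat_lit 433) (nat_lit 5) (nat_lit 623) (nat_lit 593) (nat_lit 344)) (XT.lf (nat_lit 0) (nat_lit 13225763890) (nat_lit 988) (nat_lit 10371477263) (nat_lit 76) (nat_lit 295170618) (nat_lit 420) (nat_lit 5) (nat_lit 433) (nat_lit 5) (nat_lit 421) (nat_lit 5) (nat_lit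 624) (nat_lit 593) (nat_lit 343))) (XT.nd (nat_lit 78) (nat_lit 836) (nat_lit 0) (XT.lf (nat_lit 0) (nat_lit 2682731074) (nat_lit 836) (nat_lit 13203618758) (nat_lit 912) (nat_lit 8266315083) (nat_lit 409) (nat_lit 5) (nat_lit 420) (nat_lit 5) (nat_lit 421) (nat_lit 5) (nat_lit 625) (nat_lit 593) (nat_lit 342)) (XT.nd (nat_lit 78) (nat_lit 836) (nat_lit 0) (XT.lf (nat_lit 0) (nat_lit 16135374933) (nat_lit 836) (nat_lit 2531023352) (nat_lit 912) (nat_lit 5750400006) (nat_lit 409) (nat_lit 5) (nat_lit 420) (nat_lit 5) (nat_lit 421) (nat_lit 5) (nat_lit 626) (nat_lit 593) (nat_lit 341)) (XT.lf (nat_lit 0) (nat_lit 5181325184) (nat_lit 836) (nat_lit 16405328537) (nat_lit 912) (nat_lit 3097868675) (nat_lit 398) (nat_lit 5) (nat_lit 409) (nat_lit 5) (nat_lit 410) (nat_lit 5) (nat_lit 627) (nat_lit 593) (nat_lit 340)))))) (XT.nd (nat_lit 390) (nat_lit 2280) (nat_lit 0) (XT.nd (nat_lit 156) (nat_lit 836) (nat_lit 0) (XT.nd (nat_lit 78) (nat_lit 912) (nat_lit 0) (XT.lf (nat_lit 0) (nat_lit 19005382584) (nat_lit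 836) (nat_lit 5628918356) (nat_lit 912) (nat_lit 321920492) (nat_lit 398) (nat_lit 5) (nat_lit 409) (nat_lit 5) (nat_lit 410) (nat_lit 5) (nat_lit 628) (nat_lit 593) (nat_lit 339)) (XT.lf (nat_lit 0) (nat_lit 2560373567) (nat_lit 912) (nat_lit 17309891417) (nat_lit 76) (nat_lit 5361088962) (nat_lit 386) (nat_lit 5) (nat_lit 398) (nat_lit 5) (nat_lit 387) (nat_lit 5) (nat_lit 629) (nat_lit 593) (nat_lit 338))) (XT.nd (nat_lit 78) (nat_lit 836) (nat_lit 0) (XT.lf (nat_lit 0) (nat_lit 5570328997) (nat_lit 912) (nat_lit 3402229367) (nat_lit 76) (nat_lit 16537901838) (nat_lit 386) (nat_lit 5) (nat_lit 398) (nat_lit 5) (nat_lit 387) (nat_lit 5) (nat_lit 630) (nat_lit 593) (nat_lit 337)) (XT.nd (nat_lit 78) (nat_lit 0) (nat_lit 0) (XT.lf (nat_lit 0) (nat_lit 8722699345) (nat_lit 912) (nat_lit 14884500324) (nat_lit 76) (nat_lit 2186304763) (nat_lit 375) (nat_lit 5) (nat_lit 387) (nat_lit 5) (nat_lit 376) (nat_lit 5) (nat_lit 631) (nat_lit 593) (nat_lit 336)) (XT.lf (nat_lit 0) (nat_lit 12017467897) (nat_lit 912)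 (nat_lit 591960817) (nat_lit 76) (nat_lit 13471193980) (nat_lit 375) (nat_lit 5) (nat_lit 387) (nat_lit 5) (nat_lit 376) (nat_lit 5) (nat_lit 632) (nat_lit 593) (nat_lit 335))))) (XT.nd (nat_lit 156) (nat_lit 760) (nat_lit 0) (XT.nd (nat_lit 78) (nat_lit 760) (nat_lit 0) (XT.lf (nat_lit 0) (nat_lit 14169106782) (nat_lit 760) (nat_lit 1298028055) (nat_lit 836) (nat_lit 10904568584) (nat_lit 365) (nat_lit 5) (nat_lit 375) (nat_lit 5) (nat_lit 376) (nat_lit 5) (nat_lit 633) (nat_lit 593) (nat_lit 334)) (XT.lf (nat_lit 0) (nat_lit 2528354429) (nat_lit 760) (nat_lit 16541382348) (nat_lit 836) (nat_lit 7597190308) (nat_lit 355) (nat_lit 5) (nat_lit 365) (nat_lit 5) (nat_lit 366) (nat_lit 5) (nat_lit 634) (nat_lit 593) (nat_lit 333))) (XT.nd (nat_lit 78) (nat_lit 760) (nat_lit 0) (XT.lf (nat_lit 0) (nat_lit 17707454056) (nat_lit 760) (nat_lit 5124444522) (nat_lit 836) (nat_lit 4134406642) (nat_lit 355) (nat_lit 5) (nat_lit 365) (nat_lit 5) (nat_lit 366) (nat_lit 5) (nat_lit 635) (nat_lit 593) (nat_lit 332)) (XT.nd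 (nat_lit 78) (nat_lit 76) (nat_lit 0) (XT.lf (nat_lit 0) (nat_lit 5951012759) (nat_lit 684) (nat_lit 20796404268) (nat_lit 760) (nat_lit 522691772) (nat_lit 346) (nat_lit 5) (nat_lit 355) (nat_lit 5) (nat_lit 356) (nat_lit 5) (nat_lit 636) (nat_lit 593) (nat_lit 331)) (XT.lf (nat_lit 0) (nat_lit 3213431666) (nat_lit 760) (nat_lit 6046219037) (nat_lit 76) (nat_lit 18318054698) (nat_lit 345) (nat_lit 5) (nat_lit 355) (nat_lit 5) (nat_lit 346) (nat_lit 5) (nat_lit 637) (nat_lit 593) (nat_lit 330))))))) (XT.nd (nat_lit 780) (nat_lit 3572) (nat_lit 0) (XT.nd (nat_lit 390) (nat_lit 1976) (nat_lit 0) (XT.nd (nat_lit 156) (nat_lit 1368) (nat_lit 0) (XT.nd (nat_lit 78) (nat_lit 0) (nat_lit 0) (XT.lf (nat_lit 0) (nat_lit 7093882200) (nat_lit 836) (nat_lit 18254780122) (nat_lit 76) (nat_lit 2541190583) (nat_lit 335) (nat_lit 5) (nat_lit 346) (nat_lit 5) (nat_lit 336) (nat_lit 5) (nat_lit 638) (nat_lit 593) (nat_lit 329)) (XT.lf (nat_lit 0) (nat_lit 11151348874) (nat_lit 836) (nat_lit 2560224575) (nat_lit 76) (nat_lit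 14494681909) (nat_lit 335) (nat_lit 5) (nat_lit 346) (nat_lit 5) (nat_lit 336) (nat_lit 5) (nat_lit 639) (nat_lit 593) (nat_lit 328))) (XT.nd (nat_lit 78) (nat_lit 684) (nat_lit 0) (XT.lf (nat_lit 0) (nat_lit 13623812278) (nat_lit 684) (nat_lit 1751904417) (nat_lit 760) (nat_lit 13151554264) (nat_lit 326) (nat_lit 5) (nat_lit 335) (nat_lit 5) (nat_lit 336) (nat_lit 5) (nat_lit 640) (nat_lit 593) (nat_lit 327)) (XT.nd (nat_lit 78) (nat_lit 0) (nat_lit 0) (XT.lf (nat_lit 0) (nat_lit 1257299291) (nat_lit 684) (nat_lit 18517886098) (nat_lit 760) (nat_lit 9077709345) (nat_lit 317) (nat_lit 5) (nat_lit 326) (nat_lit 5) (nat_lit 327) (nat_lit 5) (nat_lit 641) (nat_lit 593) (nat_lit 326)) (XT.lf (nat_lit 0) (nat_lit 17928437869) (nat_lit 684) (nat_lit 6443101093) (nat_lit 760) (nat_lit 4811314245) (nat_lit 317) (nat_lit 5) (nat_lit 326) (nat_lit 5) (nat_lit 327) (nat_lit 5) (nat_lit 642) (nat_lit 593) (nat_lit 325))))) (XT.nd (nat_lit 156) (nat_lit 1292) (nat_lit 0) (XT.nd (nat_lit 78) (nat_lit 76) (nat_lit 0)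 (XT.lf (nat_lit 0) (nat_lit 5443764865) (nat_lit 608) (nat_lit 23686940468) (nat_lit 684) (nat_lit 387287929) (nat_lit 309) (nat_lit 5) (nat_lit 317) (nat_lit 5) (nat_lit 318) (nat_lit 5) (nat_lit 643) (nat_lit 593) (nat_lit 324)) (XT.lf (nat_lit 0) (nat_lit 4187231108) (nat_lit 684) (nat_lit 7302914726) (nat_lit 76) (nat_lit 18366832432) (nat_lit 308) (nat_lit 5) (nat_lit 317) (nat_lit 5) (nat_lit 309) (nat_lit 5) (nat_lit 644) (nat_lit 593) (nat_lit 323))) (XT.nd (nat_lit 78) (nat_lit 608) (nat_lit 0) (XT.lf (nat_lit 0) (nat_lit 8916606923) (nat_lit 760) (nat_lit 20279632034) (nat_lit 76) (nat_lit 1005081889) (nat_lit 299) (nat_lit 5) (nat_lit 309) (nat_lit 5) (nat_lit 300) (nat_lit 5) (nat_lit 645) (nat_lit 593) (nat_lit 322)) (XT.nd (nat_lit 78) (nat_lit 608) (nat_lit 0) (XT.lf (nat_lit 0) (nat_lit 13863494406) (nat_lit 760) (nat_lit 3041277833) (nat_lit 76) (nat_lit 13645319676) (nat_lit 299) (nat_lit 5) (nat_lit 309) (nat_lit 5) (nat_lit 300) (nat_lit 5) (nat_lit 646) (nat_lit 593) (nat_lit 321))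 (XT.lf (nat_lit 0) (nat_lit 14732050263) (nat_lit 608) (nat_lit 4270468168) (nat_lit 684) (nat_lit 11901456114) (nat_lit 291) (nat_lit 5) (nat_lit 299) (nat_lit 5) (nat_lit 300) (nat_lit 5) (nat_lit 647) (nat_lit 593) (nat_lit 320)))))) (XT.nd (nat_lit 390) (nat_lit 1672) (nat_lit 0) (XT.nd (nat_lit 156) (nat_lit 1292) (nat_lit 0) (XT.nd (nat_lit 78) (nat_lit 0) (nat_lit 0) (XT.lf (nat_lit 0) (nat_lit 1599408988) (nat_lit 608) (nat_lit 22729359843) (nat_lit 684) (nat_lit 6934477193) (nat_lit 283) (nat_lit 5) (nat_lit 291) (nat_lit 5) (nat_lit 292) (nat_lit 5) (nat_lit 648) (nat_lit 593) (nat_lit 319)) (XT.lf (nat_lit 0) (nat_lit 19913714670) (nat_lit 608) (nat_lit 9982048464) (nat_lit 684) (nat_lit 1731255532) (nat_lit 283) (nat_lit 5) (nat_lit 291) (nat_lit 5) (nat_lit 292) (nat_lit 5) (nat_lit 649) (nat_lit 593) (nat_lit 318))) (XT.nd (nat_lit 78) (nat_lit 608) (nat_lit 0) (XT.lf (nat_lit 0) (nat_lit 3590032347) (nat_lit 684) (nat_lit 25359480862) (nat_lit 76) (nat_lit 3046871258) (nat_lit 274) (nat_lit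 5) (nat_lit 283) (nat_lit 5) (nat_lit 275) (nat_lit 5) (nat_lit 650) (nat_lit 593) (nat_lit 317)) (XT.nd (nat_lit 78) (nat_lit 608) (nat_lit 0) (XT.lf (nat_lit 0) (nat_lit 9137471444) (nat_lit 684) (nat_lit 6939772930) (nat_lit 76) (nat_lit 16292806304) (nat_lit 274) (nat_lit 5) (nat_lit 283) (nat_lit 5) (nat_lit 275) (nat_lit 5) (nat_lit 651) (nat_lit 593) (nat_lit 316)) (XT.lf (nat_lit 0) (nat_lit 12002799427) (nat_lit 608) (nat_lit 2868692031) (nat_lit 684) (nat_lit 17878186216) (nat_lit 266) (nat_lit 5) (nat_lit 274) (nat_lit 5) (nat_lit 275) (nat_lit 5) (nat_lit 652) (nat_lit 593) (nat_lit 315))))) (XT.nd (nat_lit 156) (nat_lit 1140) (nat_lit 0) (XT.nd (nat_lit 78) (nat_lit 532) (nat_lit 0) (XT.lf (nat_lit 0) (nat_lit 20833641989) (nat_lit 684) (nat_lit 1789799431) (nat_lit 76) (nat_lit 10511186889) (nat_lit 266) (nat_lit 5) (nat_lit 275) (nat_lit 5) (nat_lit 267) (nat_lit 5) (nat_lit 653) (nat_lit 593) (nat_lit 314)) (XT.lf (nat_lit 0) (nat_lit 17757402290) (nat_lit 532) (nat_lit 9289692439) (nat_lit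 608) (nat_lit 6477542142) (nat_lit 259) (nat_lit 5) (nat_lit 266) (nat_lit 5) (nat_lit 267) (nat_lit 5) (nat_lit 654) (nat_lit 593) (nat_lit 313))) (XT.nd (nat_lit 78) (nat_lit 608) (nat_lit 0) (XT.lf (nat_lit 0) (nat_lit 3816659512) (nat_lit 532) (nat_lit 29630804384) (nat_lit 608) (nat_lit 473728859) (nat_lit 252) (nat_lit 5) (nat_lit 259) (nat_lit 5) (nat_lit 260) (nat_lit 5) (nat_lit 655) (nat_lit 593) (nat_lit 312)) (XT.nd (nat_lit 78) (nat_lit 532) (nat_lit 0) (XT.lf (nat_lit 0) (nat_lit 5741884889) (nat_lit 608) (nat_lit 10419452462) (nat_lit 76) (nat_lit 18160292266) (nat_lit 251) (nat_lit 5) (nat_lit 259) (nat_lit 5) (nat_lit 252) (nat_lit 5) (nat_lit 656) (nat_lit 593) (nat_lit 311)) (XT.lf (nat_lit 0) (nat_lit 9781594836) (nat_lit 532) (nat_lit 2355229323) (nat_lit 608) (nat_lit 22591961391) (nat_lit 244) (nat_lit 5) (nat_lit 251) (nat_lit 5) (nat_lit 252) (nat_lit 5) (nat_lit 657) (nat_lit 593) (nat_lit 310))))))))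
noncomputable def xc209 : XT := (XT.nd (nat_lit 77454) (nat_lit 0) (nat_lit 11856) (XT.nd (nat_lit 76674) (nat_lit 0) (nat_lit 18620) (XT.nd (nat_lit 76284) (nat_lit 0) (nat_lit 20216) (XT.nd (nat_lit 156) (nat_lit 532) (nat_lit 0) (XT.nd (nat_lit 78) (nat_lit 532) (nat_lit 0) (XT.lf (nat_lit 0) (nat_lit 18804045640) (nat_lit 608) (nat_lit 4694291455) (nat_lit 76) (nat_lit 11642859930) (nat_lit 244) (nat_lit 5) (nat_lit 252) (nat_lit 5) (nat_lit 245) (nat_lit 5) (nat_lit 658) (nat_lit 593) (nat_lit 309)) (XT.lf (nat_lit 0) (nat_lit 16157124545) (nat_lit 532) (nat_lit 9565890161) (nat_lit 608) (nat_lit 9836474047) (nat_lit 237) (nat_lit 5) (nat_lit 244) (nat_lit 5) (nat_lit 245) (nat_lit 5) (nat_lit 659) (nat_lit 593) (nat_lit 308))) (XT.nd (nat_lit 78) (nat_lit 76) (nat_lit 0) (XT.lf (nat_lit 0) (nat_lit 1489992839) (nat_lit 456) (nat_lit 31359834579) (nat_lit 532) (nat_lit 3134929700) (nat_lit 231) (nat_lit 5) (nat_lit 237) (nat_lit 5) (nat_lit 238) (nat_lit 5) (nat_lit 660) (nat_lit 593) (nat_lit 307))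 (XT.nd (nat_lit 75972) (nat_lit 0) (nat_lit 20216) (XT.lf (nat_lit 0) (nat_lit 3844452780) (nat_lit 532) (nat_lit 13443839220) (nat_lit 76) (nat_lit 19125911554) (nat_lit 230) (nat_lit 5) (nat_lit 237) (nat_lit 5) (nat_lit 231) (nat_lit 5) (nat_lit 661) (nat_lit 593) (nat_lit 306)) (XT.lf (nat_lit 0) (nat_lit 3505623618) (nat_lit 0) (nat_lit 3505623618) (nat_lit 1748) (nat_lit 1851197663) (nat_lit 496) (nat_lit 5) (nat_lit 496) (nat_lit 3) (nat_lit 519) (nat_lit 3) (nat_lit 594) (nat_lit 594) (nat_lit 372))))) (XT.nd (nat_lit 156) (nat_lit 0) (nat_lit 76) (XT.nd (nat_lit 78) (nat_lit 0) (nat_lit 0) (XT.lf (nat_lit 0) (nat_lit 14384551492) (nat_lit 1748) (nat_lit 1931163868) (nat_lit 1824) (nat_lit 1581973532) (nat_lit 496) (nat_lit 5) (nat_lit 519) (nat_lit 3) (nat_lit 520) (nat_lit 5) (nat_lit 595) (nat_lit 594) (nat_lit 371)) (XT.lf (nat_lit 76) (nat_lit 7070359202) (nat_lit 0) (nat_lit 7770300276) (nat_lit 1824) (nat_lit 3231548635) (nat_lit 497) (nat_lit 5) (nat_lit 496) (nat_lit 5) (nat_lit 520) (nat_lit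 5) (nat_lit 596) (nat_lit 594) (nat_lit 370))) (XT.nd (nat_lit 78) (nat_lit 0) (nat_lit 0) (XT.lf (nat_lit 0) (nat_lit 15319655306) (nat_lit 1748) (nat_lit 1981105127) (nat_lit 1824) (nat_lit 949182310) (nat_lit 497) (nat_lit 5) (nat_lit 520) (nat_lit 5) (nat_lit 521) (nat_lit 5) (nat_lit 597) (nat_lit 594) (nat_lit 369)) (XT.nd (nat_lit 78) (nat_lit 0) (nat_lit 76) (XT.lf (nat_lit 76) (nat_lit 7260872506) (nat_lit 0) (nat_lit 8640644713) (nat_lit 1824) (nat_lit 2527849455) (nat_lit 498) (nat_lit 5) (nat_lit 497) (nat_lit 5) (nat_lit 521) (nat_lit 5) (nat_lit 598) (nat_lit 594) (nat_lit 368)) (XT.lf (nat_lit 0) (nat_lit 16504434586) (nat_lit 1748) (nat_lit 1901958294) (nat_lit 1824) (nat_lit 205798166) (nat_lit 498) (nat_lit 5) (nat_lit 521) (nat_lit 5) (nat_lit 522) (nat_lit 5) (nat_lit 599) (nat_lit 594) (nat_lit 367)))))) (XT.nd (nat_lit 390) (nat_lit 0) (nat_lit 76) (XT.nd (nat_lit 156) (nat_lit 1748) (nat_lit 0) (XT.nd (nat_lit 78) (nat_lit 0) (nat_lit 0) (XT.lf (nat_lit 76) (nat_lit 7589229216) (nat_lit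 0) (nat_lit 9631565412) (nat_lit 1824) (nat_lit 1575849908) (nat_lit 499) (nat_lit 5) (nat_lit 498) (nat_lit 5) (nat_lit 522) (nat_lit 5) (nat_lit 600) (nat_lit 594) (nat_lit 366)) (XT.lf (nat_lit 76) (nat_lit 17293051321) (nat_lit 0) (nat_lit 666161864) (nat_lit 1824) (nat_lit 1025419600) (nat_lit 499) (nat_lit 5) (nat_lit 498) (nat_lit 5) (nat_lit 522) (nat_lit 5) (nat_lit 601) (nat_lit 594) (nat_lit 365))) (XT.nd (nat_lit 78) (nat_lit 1824) (nat_lit 0) (XT.lf (nat_lit 76) (nat_lit 8062233805) (nat_lit 0) (nat_lit 10752639999) (nat_lit 1824) (nat_lit 359457826) (nat_lit 500) (nat_lit 5) (nat_lit 499) (nat_lit 5) (nat_lit 523) (nat_lit 5) (nat_lit 602) (nat_lit 594) (nat_lit 364)) (XT.nd (nat_lit 78) (nat_lit 0) (nat_lit 76) (XT.lf (nat_lit 0) (nat_lit 326591435) (nat_lit 1824) (nat_lit 1343175291) (nat_lit 1900) (nat_lit 17697797235) (nat_lit 475) (nat_lit 5) (nat_lit 499) (nat_lit 5) (nat_lit 500) (nat_lit 5) (nat_lit 603) (nat_lit 594) (nat_lit 363)) (XT.lf (nat_lit 0) (nat_lit 1123168541) (nat_lit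 1824) (nat_lit 10883054222) (nat_lit 1900) (nat_lit 7556358544) (nat_lit 476) (nat_lit 5) (nat_lit 500) (nat_lit 5) (nat_lit 501) (nat_lit 5) (nat_lit 604) (nat_lit 594) (nat_lit 362))))) (XT.nd (nat_lit 156) (nat_lit 0) (nat_lit 76) (XT.nd (nat_lit 78) (nat_lit 0) (nat_lit 76) (XT.lf (nat_lit 0) (nat_lit 1951113948) (nat_lit 1824) (nat_lit 854641150) (nat_lit 1900) (nat_lit 16955435451) (nat_lit 476) (nat_lit 5) (nat_lit 500) (nat_lit 5) (nat_lit 501) (nat_lit 5) (nat_lit 605) (nat_lit 594) (nat_lit 361)) (XT.lf (nat_lit 0) (nat_lit 2895801137) (nat_lit 1824) (nat_lit 10509917823) (nat_lit 1900) (nat_lit 6556049636) (nat_lit 477) (nat_lit 5) (nat_lit 501) (nat_lit 5) (nat_lit 502) (nat_lit 5) (nat_lit 606) (nat_lit 594) (nat_lit 360))) (XT.nd (nat_lit 78) (nat_lit 0) (nat_lit 76) (XT.lf (nat_lit 0) (nat_lit 3879214464) (nat_lit 1824) (nat_lit 211920594) (nat_lit 1900) (nat_lit 16074826769) (nat_lit 477) (nat_lit 5) (nat_lit 501) (nat_lit 5) (nat_lit 502) (nat_lit 5) (nat_lit 607) (nat_lit 594) (nat_lit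 359)) (XT.nd (nat_lit 78) (nat_lit 0) (nat_lit 0) (XT.lf (nat_lit 0) (nat_lit 4981134415) (nat_lit 1824) (nat_lit 9982837453) (nat_lit 1900) (nat_lit 5408290557) (nat_lit 478) (nat_lit 5) (nat_lit 502) (nat_lit 5) (nat_lit 503) (nat_lit 5) (nat_lit 608) (nat_lit 594) (nat_lit 358)) (XT.lf (nat_lit 76) (nat_lit 600653729) (nat_lit 0) (nat_lit 5532506700) (nat_lit 1900) (nat_lit 14448967511) (nat_lit 479) (nat_lit 5) (nat_lit 478) (nat_lit 5) (nat_lit 503) (nat_lit 5) (nat_lit 609) (nat_lit 594) (nat_lit 357))))))) (XT.nd (nat_lit 780) (nat_lit 5472) (nat_lit 0) (XT.nd (nat_lit 390) (nat_lit 1596) (nat_lit 0) (XT.nd (nat_lit 156) (nat_lit 0) (nat_lit 76) (XT.nd (nat_lit 78) (nat_lit 0) (nat_lit 0) (XT.lf (nat_lit 0) (nat_lit 7397915652) (nat_lit 1824) (nat_lit 9293902817) (nat_lit 1900) (nat_lit 4102578782) (nat_lit 479) (nat_lit 5) (nat_lit 503) (nat_lit 5) (nat_lit 504) (nat_lit 5) (nat_lit 610) (nat_lit 594) (nat_lit 356)) (XT.lf (nat_lit 76) (nat_lit 1588473215) (nat_lit 0) (nat_lit 7142244928) (nat_lit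 1900) (nat_lit 12279339012) (nat_lit 480) (nat_lit 5) (nat_lit 479) (nat_lit 5) (nat_lit 504) (nat_lit 5) (nat_lit 611) (nat_lit 594) (nat_lit 355))) (XT.nd (nat_lit 78) (nat_lit 0) (nat_lit 0) (XT.lf (nat_lit 0) (nat_lit 10165695047) (nat_lit 1824) (nat_lit 8434797641) (nat_lit 1900) (nat_lit 2628027448) (nat_lit 480) (nat_lit 5) (nat_lit 504) (nat_lit 5) (nat_lit 505) (nat_lit 5) (nat_lit 612) (nat_lit 594) (nat_lit 354)) (XT.nd (nat_lit 78) (nat_lit 0) (nat_lit 76) (XT.lf (nat_lit 76) (nat_lit 2757442291) (nat_lit 0) (nat_lit 8933081330) (nat_lit 1900) (nat_lit 9759605957) (nat_lit 481) (nat_lit 5) (nat_lit 480) (nat_lit 5) (nat_lit 505) (nat_lit 5) (nat_lit 613) (nat_lit 594) (nat_lit 353)) (XT.lf (nat_lit 0) (nat_lit 13304862747) (nat_lit 1824) (nat_lit 7396785986) (nat_lit 1900) (nat_lit 973342431) (nat_lit 481) (nat_lit 5) (nat_lit 505) (nat_lit 5) (nat_lit 506) (nat_lit 5) (nat_lit 614) (nat_lit 594) (nat_lit 352))))) (XT.nd (nat_lit 156) (nat_lit 1748) (nat_lit 0) (XT.nd (nat_lit 78) (nat_lit 0)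 (nat_lit 0) (XT.lf (nat_lit 76) (nat_lit 4116716522) (nat_lit 0) (nat_lit 10916752320) (nat_lit 1900) (nat_lit 6869241771) (nat_lit 482) (nat_lit 5) (nat_lit 481) (nat_lit 5) (nat_lit 506) (nat_lit 5) (nat_lit 615) (nat_lit 594) (nat_lit 351)) (XT.lf (nat_lit 76) (nat_lit 15957626362) (nat_lit 0) (nat_lit 884805590) (nat_lit 1900) (nat_lit 5291637026) (nat_lit 482) (nat_lit 5) (nat_lit 481) (nat_lit 5) (nat_lit 506) (nat_lit 5) (nat_lit 616) (nat_lit 594) (nat_lit 350))) (XT.nd (nat_lit 78) (nat_lit 1824) (nat_lit 0) (XT.lf (nat_lit 76) (nat_lit 5675901251) (nat_lit 0) (nat_lit 13105445467) (nat_lit 1900) (nat_lit 3586832570) (nat_lit 483) (nat_lit 5) (nat_lit 482) (nat_lit 5) (nat_lit 507) (nat_lit 5) (nat_lit 617) (nat_lit 594) (nat_lit 349)) (XT.nd (nat_lit 78) (nat_lit 1824) (nat_lit 0) (XT.lf (nat_lit 76) (nat_lit 17839951386) (nat_lit 0) (nat_lit 2962639001) (nat_lit 1900) (nat_lit 1803510623) (nat_lit 483) (nat_lit 5) (nat_lit 482) (nat_lit 5) (nat_lit 507) (nat_lit 5) (nat_lit 618) (nat_lit 594)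 (nat_lit 348)) (XT.lf (nat_lit 0) (nat_lit 108520816) (nat_lit 1900) (nat_lit 15402575391) (nat_lit 76) (nat_lit 7335818238) (nat_lit 458) (nat_lit 5) (nat_lit 483) (nat_lit 5) (nat_lit 459) (nat_lit 5) (nat_lit 619) (nat_lit 594) (nat_lit 347)))))) (XT.nd (nat_lit 390) (nat_lit 2584) (nat_lit 0) (XT.nd (nat_lit 156) (nat_lit 1824) (nat_lit 0) (XT.nd (nat_lit 78) (nat_lit 1064) (nat_lit 0) (XT.lf (nat_lit 0) (nat_lit 2082867902) (nat_lit 1900) (nat_lit 3163205816) (nat_lit 76) (nat_lit 17845267735) (nat_lit 458) (nat_lit 5) (nat_lit 483) (nat_lit 5) (nat_lit 459) (nat_lit 5) (nat_lit 620) (nat_lit 594) (nat_lit 346)) (XT.lf (nat_lit 0) (nat_lit 4188788625) (nat_lit 1140) (nat_lit 13932157124) (nat_lit 76) (nat_lit 5217869720) (nat_lit 444) (nat_lit 5) (nat_lit 459) (nat_lit 5) (nat_lit 445) (nat_lit 5) (nat_lit 621) (nat_lit 594) (nat_lit 345))) (XT.nd (nat_lit 78) (nat_lit 1824) (nat_lit 0) (XT.lf (nat_lit 0) (nat_lit 6389446392) (nat_lit 1140) (nat_lit 1358058994) (nat_lit 76) (nat_lit 15842681403) (nat_lit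 444) (nat_lit 5) (nat_lit 459) (nat_lit 5) (nat_lit 445) (nat_lit 5) (nat_lit 622) (nat_lit 594) (nat_lit 344)) (XT.nd (nat_lit 78) (nat_lit 912) (nat_lit 0) (XT.lf (nat_lit 0) (nat_lit 8725016613) (nat_lit 988) (nat_lit 12247264100) (nat_lit 76) (nat_lit 2872487033) (nat_lit 432) (nat_lit 5) (nat_lit 445) (nat_lit 5) (nat_lit 433) (nat_lit 5) (nat_lit 623) (nat_lit 594) (nat_lit 343)) (XT.lf (nat_lit 0) (nat_lit 680741079) (nat_lit 912) (nat_lit 10488085189) (nat_lit 988) (nat_lit 12934383683) (nat_lit 420) (nat_lit 5) (nat_lit 432) (nat_lit 5) (nat_lit 433) (nat_lit 5) (nat_lit 624) (nat_lit 594) (nat_lit 342))))) (XT.nd (nat_lit 234) (nat_lit 1748) (nat_lit 0) (XT.nd (nat_lit 78) (nat_lit 836) (nat_lit 0) (XT.lf (nat_lit 0) (nat_lit 13742251871) (nat_lit 988) (nat_lit 10336930766) (nat_lit 76) (nat_lit 286023757) (nat_lit 420) (nat_lit 5) (nat_lit 433) (nat_lit 5) (nat_lit 421) (nat_lit 5) (nat_lit 625) (nat_lit 594) (nat_lit 341)) (XT.nd (nat_lit 78) (nat_lit 0) (nat_lit 0) (XT.lf (nat_lit 0) (nat_lit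 2976769790) (nat_lit 836) (nat_lit 13475899832) (nat_lit 912) (nat_lit 8178062852) (nat_lit 409) (nat_lit 5) (nat_lit 420) (nat_lit 5) (nat_lit 421) (nat_lit 5) (nat_lit 626) (nat_lit 594) (nat_lit 340)) (XT.lf (nat_lit 0) (nat_lit 16693753113) (nat_lit 836) (nat_lit 2589691563) (nat_lit 912) (nat_lit 5616801602) (nat_lit 409) (nat_lit 5) (nat_lit 420) (nat_lit 5) (nat_lit 421) (nat_lit 5) (nat_lit 627) (nat_lit 594) (nat_lit 339)))) (XT.nd (nat_lit 78) (nat_lit 912) (nat_lit 0) (XT.lf (nat_lit 0) (nat_lit 5523979633) (nat_lit 836) (nat_lit 16734847498) (nat_lit 912) (nat_lit 2914563565) (nat_lit 398) (nat_lit 5) (nat_lit 409) (nat_lit 5) (nat_lit 410) (nat_lit 5) (nat_lit 628) (nat_lit 594) (nat_lit 338)) (XT.nd (nat_lit 78) (nat_lit 912) (nat_lit 0) (XT.lf (nat_lit 0) (nat_lit 19619831358) (nat_lit 836) (nat_lit 5742881419) (nat_lit 912) (nat_lit 87905486) (nat_lit 398) (nat_lit 5) (nat_lit 409) (nat_lit 5) (nat_lit 410) (nat_lit 5) (nat_lit 629) (nat_lit 594) (nat_lit 337)) (XT.lf (nat_lit 0) (nat_lit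 2845771305) (nat_lit 912) (nat_lit 17415459576) (nat_lit 76) (nat_lit 5470053765) (nat_lit 386) (nat_lit 5) (nat_lit 398) (nat_lit 5) (nat_lit 387) (nat_lit 5) (nat_lit 630) (nat_lit 594) (nat_lit 336))))))))
noncomputable def xc210 : XT := (XT.nd (nat_lit 1560) (nat_lit 3952) (nat_lit 0) (XT.nd (nat_lit 780) (nat_lit 3952) (nat_lit 0) (XT.nd (nat_lit 390) (nat_lit 1520) (nat_lit 0) (XT.nd (nat_lit 156) (nat_lit 1520) (nat_lit 0) (XT.nd (nat_lit 78) (nat_lit 836) (nat_lit 0) (XT.lf (nat_lit 0) (nat_lit 5911333878) (nat_lit 912) (nat_lit 3234362514) (nat_lit 76) (nat_lit 16870368722) (nat_lit 386) (nat_lit 5) (nat_lit 398) (nat_lit 5) (nat_lit 387) (nat_lit 5) (nat_lit 631) (nat_lit 594) (nat_lit 335)) (XT.lf (nat_lit 0) (nat_lit 9123821585) (nat_lit 912) (nat_lit 14943336756) (nat_lit 76) (nat_lit 2237670730) (nat_lit 375) (nat_lit 5) (nat_lit 387) (nat_lit 5) (nat_lit 376) (nat_lit 5) (nat_lit 632) (nat_lit 594) (nat_lit 334))) (XT.nd (nat_lit 78) (nat_lit 1520) (nat_lit 0) (XT.lf (nat_lit 0) (nat_lit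 12480041032) (nat_lit 912) (nat_lit 369629863) (nat_lit 76) (nat_lit 13748107930) (nat_lit 375) (nat_lit 5) (nat_lit 387) (nat_lit 5) (nat_lit 376) (nat_lit 5) (nat_lit 633) (nat_lit 594) (nat_lit 333)) (XT.nd (nat_lit 78) (nat_lit 760) (nat_lit 0) (XT.lf (nat_lit 0) (nat_lit 14685118496) (nat_lit 760) (nat_lit 1310735871) (nat_lit 836) (nat_lit 10898883970) (nat_lit 365) (nat_lit 5) (nat_lit 375) (nat_lit 5) (nat_lit 376) (nat_lit 5) (nat_lit 634) (nat_lit 594) (nat_lit 332)) (XT.lf (nat_lit 0) (nat_lit 2814305369) (nat_lit 760) (nat_lit 16853514097) (nat_lit 836) (nat_lit 7528101014) (nat_lit 355) (nat_lit 5) (nat_lit 365) (nat_lit 5) (nat_lit 366) (nat_lit 5) (nat_lit 635) (nat_lit 594) (nat_lit 331))))) (XT.nd (nat_lit 156) (nat_lit 836) (nat_lit 0) (XT.nd (nat_lit 78) (nat_lit 684) (nat_lit 0) (XT.lf (nat_lit 0) (nat_lit 18292371619) (nat_lit 760) (nat_lit 5208604101) (nat_lit 836) (nat_lit 4000395657) (nat_lit 355) (nat_lit 5) (nat_lit 365) (nat_lit 5) (nat_lit 366) (nat_lit 5) (nat_lit 636) (nat_lit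 594) (nat_lit 330)) (XT.lf (nat_lit 0) (nat_lit 6303396981) (nat_lit 684) (nat_lit 21188873909) (nat_lit 760) (nat_lit 319031029) (nat_lit 346) (nat_lit 5) (nat_lit 355) (nat_lit 5) (nat_lit 356) (nat_lit 5) (nat_lit 637) (nat_lit 594) (nat_lit 329))) (XT.nd (nat_lit 78) (nat_lit 760) (nat_lit 0) (XT.lf (nat_lit 0) (nat_lit 3484863463) (nat_lit 760) (nat_lit 5935591604) (nat_lit 76) (nat_lit 18704650657) (nat_lit 345) (nat_lit 5) (nat_lit 355) (nat_lit 5) (nat_lit 346) (nat_lit 5) (nat_lit 638) (nat_lit 594) (nat_lit 328)) (XT.nd (nat_lit 78) (nat_lit 0) (nat_lit 0) (XT.lf (nat_lit 0) (nat_lit 7440519616) (nat_lit 836) (nat_lit 18385910205) (nat_lit 76) (nat_lit 2617114633) (nat_lit 335) (nat_lit 5) (nat_lit 346) (nat_lit 5) (nat_lit 336) (nat_lit 5) (nat_lit 639) (nat_lit 594) (nat_lit 327)) (XT.lf (nat_lit 0) (nat_lit 11575120725) (nat_lit 836) (nat_lit 2382051105) (nat_lit 76) (nat_lit 14809183624) (nat_lit 335) (nat_lit 5) (nat_lit 346) (nat_lit 5) (nat_lit 336) (nat_lit 5) (nat_lit 640) (nat_lit 594)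 (nat_lit 326)))))) (XT.nd (nat_lit 390) (nat_lit 1900) (nat_lit 0) (XT.nd (nat_lit 156) (nat_lit 684) (nat_lit 0) (XT.nd (nat_lit 78) (nat_lit 684) (nat_lit 0) (XT.lf (nat_lit 0) (nat_lit 14124157419) (nat_lit 684) (nat_lit 1757361786) (nat_lit 760) (nat_lit 13212321495) (nat_lit 326) (nat_lit 5) (nat_lit 335) (nat_lit 5) (nat_lit 336) (nat_lit 5) (nat_lit 641) (nat_lit 594) (nat_lit 325)) (XT.lf (nat_lit 0) (nat_lit 1512573762) (nat_lit 684) (nat_lit 18854197946) (nat_lit 760) (nat_lit 9059249549) (nat_lit 317) (nat_lit 5) (nat_lit 326) (nat_lit 5) (nat_lit 327) (nat_lit 5) (nat_lit 642) (nat_lit 594) (nat_lit 324))) (XT.nd (nat_lit 78) (nat_lit 684) (nat_lit 0) (XT.lf (nat_lit 0) (nat_lit 18512622789) (nat_lit 684) (nat_lit 6538584807) (nat_lit 760) (nat_lit 4711448389) (nat_lit 317) (nat_lit 5) (nat_lit 326) (nat_lit 5) (nat_lit 327) (nat_lit 5) (nat_lit 643) (nat_lit 594) (nat_lit 323)) (XT.nd (nat_lit 78) (nat_lit 76) (nat_lit 0) (XT.lf (nat_lit 0) (nat_lit 5780385649) (nat_lit 608) (nat_lit 24123093415)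 (nat_lit 684) (nat_lit 201061529) (nat_lit 309) (nat_lit 5) (nat_lit 317) (nat_lit 5) (nat_lit 318) (nat_lit 5) (nat_lit 644) (nat_lit 594) (nat_lit 322)) (XT.lf (nat_lit 0) (nat_lit 4458650416) (nat_lit 684) (nat_lit 7223190054) (nat_lit 76) (nat_lit 18768514888) (nat_lit 308) (nat_lit 5) (nat_lit 317) (nat_lit 5) (nat_lit 309) (nat_lit 5) (nat_lit 645) (nat_lit 594) (nat_lit 321))))) (XT.nd (nat_lit 156) (nat_lit 1216) (nat_lit 0) (XT.nd (nat_lit 78) (nat_lit 0) (nat_lit 0) (XT.lf (nat_lit 0) (nat_lit 9280642357) (nat_lit 760) (nat_lit 20457461515) (nat_lit 76) (nat_lit 1063520522) (nat_lit 299) (nat_lit 5) (nat_lit 309) (nat_lit 5) (nat_lit 300) (nat_lit 5) (nat_lit 646) (nat_lit 594) (nat_lit 320)) (XT.lf (nat_lit 0) (nat_lit 14322826348) (nat_lit 760) (nat_lit 2878806175) (nat_lit 76) (nat_lit 13955811359) (nat_lit 299) (nat_lit 5) (nat_lit 309) (nat_lit 5) (nat_lit 300) (nat_lit 5) (nat_lit 647) (nat_lit 594) (nat_lit 319))) (XT.nd (nat_lit 78) (nat_lit 608) (nat_lit 0) (XT.lf (nat_lit 0) (nat_lit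 15248519422) (nat_lit 608) (nat_lit 4313981842) (nat_lit 684) (nat_lit 11955945660) (nat_lit 291) (nat_lit 5) (nat_lit 299) (nat_lit 5) (nat_lit 300) (nat_lit 5) (nat_lit 648) (nat_lit 594) (nat_lit 318)) (XT.nd (nat_lit 78) (nat_lit 0) (nat_lit 0) (XT.lf (nat_lit 0) (nat_lit 1855079082) (nat_lit 608) (nat_lit 23138388476) (nat_lit 684) (nat_lit 6891472624) (nat_lit 283) (nat_lit 5) (nat_lit 291) (nat_lit 5) (nat_lit 292) (nat_lit 5) (nat_lit 649) (nat_lit 594) (nat_lit 317)) (XT.lf (nat_lit 0) (nat_lit 20531284957) (nat_lit 608) (nat_lit 10137024175) (nat_lit 684) (nat_lit 1587749159) (nat_lit 283) (nat_lit 5) (nat_lit 291) (nat_lit 5) (nat_lit 292) (nat_lit 5) (nat_lit 650) (nat_lit 594) (nat_lit 316))))))) (XT.nd (nat_lit 780) (nat_lit 456) (nat_lit 0) (XT.nd (nat_lit 390) (nat_lit 1672) (nat_lit 0) (XT.nd (nat_lit 156) (nat_lit 1140) (nat_lit 0) (XT.nd (nat_lit 78) (nat_lit 0) (nat_lit 0) (XT.lf (nat_lit 0) (nat_lit 3835912139) (nat_lit 684) (nat_lit 25643306357) (nat_lit 76) (nat_lit 3153604260) (nat_lit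 274) (nat_lit 5) (nat_lit 283) (nat_lit 5) (nat_lit 275) (nat_lit 5) (nat_lit 651) (nat_lit 594) (nat_lit 315)) (XT.lf (nat_lit 0) (nat_lit 9490886702) (nat_lit 684) (nat_lit 6859583955) (nat_lit 76) (nat_lit 16663560054) (nat_lit 274) (nat_lit 5) (nat_lit 283) (nat_lit 5) (nat_lit 275) (nat_lit 5) (nat_lit 652) (nat_lit 594) (nat_lit 314))) (XT.nd (nat_lit 78) (nat_lit 532) (nat_lit 0) (XT.lf (nat_lit 0) (nat_lit 12460399162) (nat_lit 608) (nat_lit 2877254004) (nat_lit 684) (nat_lit 18063635911) (nat_lit 266) (nat_lit 5) (nat_lit 274) (nat_lit 5) (nat_lit 275) (nat_lit 5) (nat_lit 653) (nat_lit 594) (nat_lit 313)) (XT.nd (nat_lit 78) (nat_lit 532) (nat_lit 0) (XT.lf (nat_lit 0) (nat_lit 21416048944) (nat_lit 684) (nat_lit 1609312107) (nat_lit 76) (nat_lit 10768637775) (nat_lit 266) (nat_lit 5) (nat_lit 275) (nat_lit 5) (nat_lit 267) (nat_lit 5) (nat_lit 654) (nat_lit 594) (nat_lit 312)) (XT.lf (nat_lit 0) (nat_lit 18327410732) (nat_lit 532) (nat_lit 9424505335) (nat_lit 608) (nat_lit 6439928731) (nat_lit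 259) (nat_lit 5) (nat_lit 266) (nat_lit 5) (nat_lit 267) (nat_lit 5) (nat_lit 655) (nat_lit 594) (nat_lit 311))))) (XT.nd (nat_lit 156) (nat_lit 1064) (nat_lit 0) (XT.nd (nat_lit 78) (nat_lit 76) (nat_lit 0) (XT.lf (nat_lit 0) (nat_lit 4109373919) (nat_lit 532) (nat_lit 30169434778) (nat_lit 608) (nat_lit 317552923) (nat_lit 252) (nat_lit 5) (nat_lit 259) (nat_lit 5) (nat_lit 260) (nat_lit 5) (nat_lit 656) (nat_lit 594) (nat_lit 310)) (XT.lf (nat_lit 0) (nat_lit 6016995113) (nat_lit 608) (nat_lit 10413566322) (nat_lit 76) (nat_lit 18574288519) (nat_lit 251) (nat_lit 5) (nat_lit 259) (nat_lit 5) (nat_lit 252) (nat_lit 5) (nat_lit 657) (nat_lit 594) (nat_lit 309))) (XT.nd (nat_lit 78) (nat_lit 532) (nat_lit 0) (XT.lf (nat_lit 0) (nat_lit 10190092218) (nat_lit 532) (nat_lit 2347980417) (nat_lit 608) (nat_lit 22882111716) (nat_lit 244) (nat_lit 5) (nat_lit 251) (nat_lit 5) (nat_lit 252) (nat_lit 5) (nat_lit 658) (nat_lit 594) (nat_lit 308)) (XT.nd (nat_lit 78) (nat_lit 532) (nat_lit 0) (XT.lf (nat_lit 0) (nat_lit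 19335876446) (nat_lit 608) (nat_lit 4576716993) (nat_lit 76) (nat_lit 11928305988) (nat_lit 244) (nat_lit 5) (nat_lit 252) (nat_lit 5) (nat_lit 245) (nat_lit 5) (nat_lit 659) (nat_lit 594) (nat_lit 307)) (XT.lf (nat_lit 0) (nat_lit 16690336142) (nat_lit 532) (nat_lit 9701198740) (nat_lit 608) (nat_lit 9876056037) (nat_lit 237) (nat_lit 5) (nat_lit 244) (nat_lit 5) (nat_lit 245) (nat_lit 5) (nat_lit 660) (nat_lit 594) (nat_lit 306)))))) (XT.nd (nat_lit 76362) (nat_lit 0) (nat_lit 18544) (XT.nd (nat_lit 76128) (nat_lit 0) (nat_lit 20140) (XT.nd (nat_lit 76050) (nat_lit 0) (nat_lit 20140) (XT.lf (nat_lit 0) (nat_lit 1731185808) (nat_lit 456) (nat_lit 31928406280) (nat_lit 532) (nat_lit 3041798523) (nat_lit 231) (nat_lit 5) (nat_lit 237) (nat_lit 5) (nat_lit 238) (nat_lit 5) (nat_lit 661) (nat_lit 594) (nat_lit 305)) (XT.lf (nat_lit 0) (nat_lit 3680761913) (nat_lit 0) (nat_lit 3680761913) (nat_lit 1748) (nat_lit 1673955858) (nat_lit 496) (nat_lit 5) (nat_lit 496) (nat_lit 3) (nat_lit 519) (nat_lit 3) (nat_lit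 595) (nat_lit 595) (nat_lit 370))) (XT.nd (nat_lit 78) (nat_lit 0) (nat_lit 0) (XT.lf (nat_lit 0) (nat_lit 15082771438) (nat_lit 1748) (nat_lit 1754254139) (nat_lit 1824) (nat_lit 1410380866) (nat_lit 496) (nat_lit 5) (nat_lit 519) (nat_lit 3) (nat_lit 520) (nat_lit 5) (nat_lit 596) (nat_lit 595) (nat_lit 369)) (XT.nd (nat_lit 78) (nat_lit 0) (nat_lit 76) (XT.lf (nat_lit 76) (nat_lit 7425881412) (nat_lit 0) (nat_lit 8115460762) (nat_lit 1824) (nat_lit 2884207566) (nat_lit 497) (nat_lit 5) (nat_lit 496) (nat_lit 5) (nat_lit 520) (nat_lit 5) (nat_lit 597) (nat_lit 595) (nat_lit 368)) (XT.lf (nat_lit 0) (nat_lit 16020791054) (nat_lit 1748) (nat_lit 1801659020) (nat_lit 1824) (nat_lit 784572019) (nat_lit 497) (nat_lit 5) (nat_lit 520) (nat_lit 5) (nat_lit 521) (nat_lit 5) (nat_lit 598) (nat_lit 595) (nat_lit 367))))) (XT.nd (nat_lit 156) (nat_lit 1672) (nat_lit 0) (XT.nd (nat_lit 78) (nat_lit 0) (nat_lit 76) (XT.lf (nat_lit 76) (nat_lit 7623716927) (nat_lit 0) (nat_lit 8984246205) (nat_lit 1824) (nat_lit 2182198396)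 (nat_lit 498) (nat_lit 5) (nat_lit 497) (nat_lit 5) (nat_lit 521) (nat_lit 5) (nat_lit 599) (nat_lit 595) (nat_lit 366)) (XT.lf (nat_lit 0) (nat_lit 17214235724) (nat_lit 1748) (nat_lit 1717910867) (nat_lit 1824) (nat_lit 44670331) (nat_lit 498) (nat_lit 5) (nat_lit 521) (nat_lit 5) (nat_lit 522) (nat_lit 5) (nat_lit 600) (nat_lit 595) (nat_lit 365))) (XT.nd (nat_lit 78) (nat_lit 1748) (nat_lit 0) (XT.lf (nat_lit 76) (nat_lit 7961639297) (nat_lit 0) (nat_lit 9977270776) (nat_lit 1824) (nat_lit 1226170133) (nat_lit 499) (nat_lit 5) (nat_lit 498) (nat_lit 5) (nat_lit 522) (nat_lit 5) (nat_lit 601) (nat_lit 595) (nat_lit 364)) (XT.nd (nat_lit 78) (nat_lit 1748) (nat_lit 0) (XT.lf (nat_lit 76) (nat_lit 17855211854) (nat_lit 0) (nat_lit 829557704) (nat_lit 1824) (nat_lit 672205665) (nat_lit 499) (nat_lit 5) (nat_lit 498) (nat_lit 5) (nat_lit 522) (nat_lit 5) (nat_lit 602) (nat_lit 595) (nat_lit 363)) (XT.lf (nat_lit 0) (nat_lit 247583) (nat_lit 1824) (nat_lit 11103979141) (nat_lit 1900) (nat_lit 8446375540)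 (nat_lit 475) (nat_lit 5) (nat_lit 499) (nat_lit 5) (nat_lit 500) (nat_lit 5) (nat_lit 603) (nat_lit 595) (nat_lit 362))))))))
noncomputable def xc211 : XT := (XT.nd (nat_lit 1560) (nat_lit 9652) (nat_lit 0) (XT.nd (nat_lit 780) (nat_lit 2356) (nat_lit 0) (XT.nd (nat_lit 390) (nat_lit 0) (nat_lit 228) (XT.nd (nat_lit 156) (nat_lit 0) (nat_lit 76) (XT.nd (nat_lit 78) (nat_lit 0) (nat_lit 76) (XT.lf (nat_lit 0) (nat_lit 688109465) (nat_lit 1824) (nat_lit 1146528869) (nat_lit 1900) (nat_lit 17913155720) (nat_lit 475) (nat_lit 5) (nat_lit 499) (nat_lit 5) (nat_lit 500) (nat_lit 5) (nat_lit 604) (nat_lit 595) (nat_lit 361)) (XT.lf (nat_lit 0) (nat_lit 1494271882) (nat_lit 1824) (nat_lit 10870838106) (nat_lit 1900) (nat_lit 7581729107) (nat_lit 476) (nat_lit 5) (nat_lit 500) (nat_lit 5) (nat_lit 501) (nat_lit 5) (nat_lit 605) (nat_lit 595) (nat_lit 360))) (XT.nd (nat_lit 78) (nat_lit 0) (nat_lit 76) (XT.lf (nat_lit 0) (nat_lit 2331940119) (nat_lit 1824) (nat_lit 646364169) (nat_lit 1900) (nat_lit 17171253367)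 (nat_lit 476) (nat_lit 5) (nat_lit 500) (nat_lit 5) (nat_lit 501) (nat_lit 5) (nat_lit 606) (nat_lit 595) (nat_lit 359)) (XT.nd (nat_lit 78) (nat_lit 0) (nat_lit 0) (XT.lf (nat_lit 0) (nat_lit 3289541120) (nat_lit 1824) (nat_lit 10488746220) (nat_lit 1900) (nat_lit 6575979925) (nat_lit 477) (nat_lit 5) (nat_lit 501) (nat_lit 5) (nat_lit 502) (nat_lit 5) (nat_lit 607) (nat_lit 595) (nat_lit 358)) (XT.lf (nat_lit 76) (nat_lit 10816142) (nat_lit 0) (nat_lit 4275292013) (nat_lit 1900) (nat_lit 16276566894) (nat_lit 478) (nat_lit 5) (nat_lit 477) (nat_lit 5) (nat_lit 502) (nat_lit 5) (nat_lit 608) (nat_lit 595) (nat_lit 357))))) (XT.nd (nat_lit 156) (nat_lit 0) (nat_lit 76) (XT.nd (nat_lit 78) (nat_lit 0) (nat_lit 0) (XT.lf (nat_lit 0) (nat_lit 5404361512) (nat_lit 1824) (nat_lit 9950006702) (nat_lit 1900) (nat_lit 5418847932) (nat_lit 478) (nat_lit 5) (nat_lit 502) (nat_lit 5) (nat_lit 503) (nat_lit 5) (nat_lit 609) (nat_lit 595) (nat_lit 356)) (XT.lf (nat_lit 76) (nat_lit 843624781) (nat_lit 0) (nat_lit 5730957614)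 (nat_lit 1900) (nat_lit 14412793873) (nat_lit 479) (nat_lit 5) (nat_lit 478) (nat_lit 5) (nat_lit 503) (nat_lit 5) (nat_lit 610) (nat_lit 595) (nat_lit 355))) (XT.nd (nat_lit 78) (nat_lit 0) (nat_lit 0) (XT.lf (nat_lit 0) (nat_lit 7857823666) (nat_lit 1824) (nat_lit 9246523746) (nat_lit 1900) (nat_lit 4099680106) (nat_lit 479) (nat_lit 5) (nat_lit 503) (nat_lit 5) (nat_lit 504) (nat_lit 5) (nat_lit 611) (nat_lit 595) (nat_lit 354)) (XT.nd (nat_lit 78) (nat_lit 0) (nat_lit 76) (XT.lf (nat_lit 76) (nat_lit 1851965220) (nat_lit 0) (nat_lit 7360704823) (nat_lit 1900) (nat_lit 12211423187) (nat_lit 480) (nat_lit 5) (nat_lit 479) (nat_lit 5) (nat_lit 504) (nat_lit 5) (nat_lit 612) (nat_lit 595) (nat_lit 353)) (XT.lf (nat_lit 0) (nat_lit 10669838943) (nat_lit 1824) (nat_lit 8369789132) (nat_lit 1900) (nat_lit 2607427907) (nat_lit 480) (nat_lit 5) (nat_lit 504) (nat_lit 5) (nat_lit 505) (nat_lit 5) (nat_lit 613) (nat_lit 595) (nat_lit 352)))))) (XT.nd (nat_lit 390) (nat_lit 2736) (nat_lit 0) (XT.nd (nat_lit 156)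 (nat_lit 0) (nat_lit 76) (XT.nd (nat_lit 78) (nat_lit 0) (nat_lit 76) (XT.lf (nat_lit 76) (nat_lit 3044758070) (nat_lit 0) (nat_lit 9176014773) (nat_lit 1900) (nat_lit 9652412946) (nat_lit 481) (nat_lit 5) (nat_lit 480) (nat_lit 5) (nat_lit 505) (nat_lit 5) (nat_lit 614) (nat_lit 595) (nat_lit 351)) (XT.lf (nat_lit 0) (nat_lit 13861177114) (nat_lit 1824) (nat_lit 7310868168) (nat_lit 1900) (nat_lit 930624104) (nat_lit 481) (nat_lit 5) (nat_lit 505) (nat_lit 5) (nat_lit 506) (nat_lit 5) (nat_lit 615) (nat_lit 595) (nat_lit 350))) (XT.nd (nat_lit 78) (nat_lit 0) (nat_lit 0) (XT.lf (nat_lit 76) (nat_lit 4431365880) (nat_lit 0) (nat_lit 11188807261) (nat_lit 1900) (nat_lit 6714854062) (nat_lit 482) (nat_lit 5) (nat_lit 481) (nat_lit 5) (nat_lit 506) (nat_lit 5) (nat_lit 616) (nat_lit 595) (nat_lit 349)) (XT.nd (nat_lit 78) (nat_lit 0) (nat_lit 76) (XT.lf (nat_lit 76) (nat_lit 16504538720) (nat_lit 0) (nat_lit 955168266) (nat_lit 1900) (nat_lit 5111418253) (nat_lit 482) (nat_lit 5) (nat_lit 481) (nat_lit 5)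 (nat_lit 506) (nat_lit 5) (nat_lit 617) (nat_lit 595) (nat_lit 348)) (XT.lf (nat_lit 76) (nat_lit 6021608495) (nat_lit 0) (nat_lit 13411465281) (nat_lit 1900) (nat_lit 3376930830) (nat_lit 483) (nat_lit 5) (nat_lit 482) (nat_lit 5) (nat_lit 507) (nat_lit 5) (nat_lit 618) (nat_lit 595) (nat_lit 347))))) (XT.nd (nat_lit 156) (nat_lit 1064) (nat_lit 0) (XT.nd (nat_lit 78) (nat_lit 1824) (nat_lit 0) (XT.lf (nat_lit 76) (nat_lit 18424386902) (nat_lit 0) (nat_lit 3064941688) (nat_lit 1900) (nat_lit 1563464766) (nat_lit 483) (nat_lit 5) (nat_lit 482) (nat_lit 5) (nat_lit 507) (nat_lit 5) (nat_lit 619) (nat_lit 595) (nat_lit 346)) (XT.lf (nat_lit 0) (nat_lit 379082148) (nat_lit 1900) (nat_lit 15475234295) (nat_lit 76) (nat_lit 7444153146) (nat_lit 458) (nat_lit 5) (nat_lit 483) (nat_lit 5) (nat_lit 459) (nat_lit 5) (nat_lit 620) (nat_lit 595) (nat_lit 345))) (XT.nd (nat_lit 78) (nat_lit 1064) (nat_lit 0) (XT.lf (nat_lit 0) (nat_lit 2387653609) (nat_lit 1900) (nat_lit 2995692870) (nat_lit 76) (nat_lit 18164544210)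 (nat_lit 458) (nat_lit 5) (nat_lit 483) (nat_lit 5) (nat_lit 459) (nat_lit 5) (nat_lit 621) (nat_lit 595) (nat_lit 344)) (XT.nd (nat_lit 78) (nat_lit 0) (nat_lit 0) (XT.lf (nat_lit 0) (nat_lit 4531825797) (nat_lit 1140) (nat_lit 13976141523) (nat_lit 76) (nat_lit 5292424498) (nat_lit 444) (nat_lit 5) (nat_lit 459) (nat_lit 5) (nat_lit 445) (nat_lit 5) (nat_lit 622) (nat_lit 595) (nat_lit 343)) (XT.lf (nat_lit 0) (nat_lit 6771413163) (nat_lit 1140) (nat_lit 1155162582) (nat_lit 76) (nat_lit 16130316781) (nat_lit 444) (nat_lit 5) (nat_lit 459) (nat_lit 5) (nat_lit 445) (nat_lit 5) (nat_lit 623) (nat_lit 595) (nat_lit 342))))))) (XT.nd (nat_lit 780) (nat_lit 4408) (nat_lit 0) (XT.nd (nat_lit 390) (nat_lit 2584) (nat_lit 0) (XT.nd (nat_lit 156) (nat_lit 836) (nat_lit 0) (XT.nd (nat_lit 78) (nat_lit 912) (nat_lit 0) (XT.lf (nat_lit 0) (nat_lit 9150051061) (nat_lit 988) (nat_lit 12258493904) (nat_lit 76) (nat_lit 2908093294) (nat_lit 432) (nat_lit 5) (nat_lit 445) (nat_lit 5) (nat_lit 433) (nat_lit 5) (nat_lit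 624) (nat_lit 595) (nat_lit 341)) (XT.lf (nat_lit 0) (nat_lit 926533777) (nat_lit 912) (nat_lit 10712798152) (nat_lit 988) (nat_lit 12940985757) (nat_lit 420) (nat_lit 5) (nat_lit 432) (nat_lit 5) (nat_lit 433) (nat_lit 5) (nat_lit 625) (nat_lit 595) (nat_lit 340))) (XT.nd (nat_lit 78) (nat_lit 836) (nat_lit 0) (XT.lf (nat_lit 0) (nat_lit 14259285204) (nat_lit 988) (nat_lit 10311089563) (nat_lit 76) (nat_lit 277278379) (nat_lit 420) (nat_lit 5) (nat_lit 433) (nat_lit 5) (nat_lit 421) (nat_lit 5) (nat_lit 626) (nat_lit 595) (nat_lit 339)) (XT.nd (nat_lit 78) (nat_lit 0) (nat_lit 0) (XT.lf (nat_lit 0) (nat_lit 3267354874) (nat_lit 836) (nat_lit 13753307774) (nat_lit 912) (nat_lit 8097892340) (nat_lit 409) (nat_lit 5) (nat_lit 420) (nat_lit 5) (nat_lit 421) (nat_lit 5) (nat_lit 627) (nat_lit 595) (nat_lit 338)) (XT.lf (nat_lit 0) (nat_lit 17254147477) (nat_lit 836) (nat_lit 2649220635) (nat_lit 912) (nat_lit 5490184919) (nat_lit 409) (nat_lit 5) (nat_lit 420) (nat_lit 5) (nat_lit 421) (nat_lit 5) (nat_lit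 628) (nat_lit 595) (nat_lit 337))))) (XT.nd (nat_lit 156) (nat_lit 1672) (nat_lit 0) (XT.nd (nat_lit 78) (nat_lit 76) (nat_lit 0) (XT.lf (nat_lit 0) (nat_lit 5864205424) (nat_lit 836) (nat_lit 17070901993) (nat_lit 912) (nat_lit 2737116193) (nat_lit 398) (nat_lit 5) (nat_lit 409) (nat_lit 5) (nat_lit 410) (nat_lit 5) (nat_lit 629) (nat_lit 595) (nat_lit 336)) (XT.lf (nat_lit 0) (nat_lit 139597542) (nat_lit 912) (nat_lit 5718535658) (nat_lit 76) (nat_lit 20096935041) (nat_lit 397) (nat_lit 5) (nat_lit 409) (nat_lit 5) (nat_lit 398) (nat_lit 5) (nat_lit 630) (nat_lit 595) (nat_lit 335))) (XT.nd (nat_lit 78) (nat_lit 836) (nat_lit 0) (XT.lf (nat_lit 0) (nat_lit 3127783105) (nat_lit 912) (nat_lit 17532483042) (nat_lit 76) (nat_lit 5581130180) (nat_lit 386) (nat_lit 5) (nat_lit 398) (nat_lit 5) (nat_lit 387) (nat_lit 5) (nat_lit 631) (nat_lit 595) (nat_lit 334)) (XT.nd (nat_lit 78) (nat_lit 836) (nat_lit 0) (XT.lf (nat_lit 0) (nat_lit 6250243274) (nat_lit 912) (nat_lit 3072299052) (nat_lit 76) (nat_lit 17209418587)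 (nat_lit 386) (nat_lit 5) (nat_lit 398) (nat_lit 5) (nat_lit 387) (nat_lit 5) (nat_lit 632) (nat_lit 595) (nat_lit 333)) (XT.lf (nat_lit 0) (nat_lit 9524164464) (nat_lit 912) (nat_lit 15012624892) (nat_lit 76) (nat_lit 2289767351) (nat_lit 375) (nat_lit 5) (nat_lit 387) (nat_lit 5) (nat_lit 376) (nat_lit 5) (nat_lit 633) (nat_lit 595) (nat_lit 332)))))) (XT.nd (nat_lit 390) (nat_lit 2204) (nat_lit 0) (XT.nd (nat_lit 156) (nat_lit 1444) (nat_lit 0) (XT.nd (nat_lit 78) (nat_lit 760) (nat_lit 0) (XT.lf (nat_lit 0) (nat_lit 12943236410) (nat_lit 912) (nat_lit 151945402) (nat_lit 76) (nat_lit 14030269310) (nat_lit 375) (nat_lit 5) (nat_lit 387) (nat_lit 5) (nat_lit 376) (nat_lit 5) (nat_lit 634) (nat_lit 595) (nat_lit 331)) (XT.lf (nat_lit 0) (nat_lit 15202417153) (nat_lit 760) (nat_lit 1324212465) (nat_lit 836) (nat_lit 10901775158) (nat_lit 365) (nat_lit 5) (nat_lit 375) (nat_lit 5) (nat_lit 376) (nat_lit 5) (nat_lit 635) (nat_lit 595) (nat_lit 330))) (XT.nd (nat_lit 78) (nat_lit 684) (nat_lit 0) (XT.lf (nat_lit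 0) (nat_lit 3096835086) (nat_lit 760) (nat_lit 17172614466) (nat_lit 836) (nat_lit 7466212918) (nat_lit 355) (nat_lit 5) (nat_lit 365) (nat_lit 5) (nat_lit 366) (nat_lit 5) (nat_lit 636) (nat_lit 595) (nat_lit 329)) (XT.nd (nat_lit 78) (nat_lit 684) (nat_lit 0) (XT.lf (nat_lit 0) (nat_lit 18880026511) (nat_lit 760) (nat_lit 5295158621) (nat_lit 836) (nat_lit 3872119143) (nat_lit 355) (nat_lit 5) (nat_lit 365) (nat_lit 5) (nat_lit 366) (nat_lit 5) (nat_lit 637) (nat_lit 595) (nat_lit 328)) (XT.lf (nat_lit 0) (nat_lit 6653767080) (nat_lit 684) (nat_lit 21590103863) (nat_lit 760) (nat_lit 119611401) (nat_lit 346) (nat_lit 5) (nat_lit 355) (nat_lit 5) (nat_lit 356) (nat_lit 5) (nat_lit 638) (nat_lit 595) (nat_lit 327))))) (XT.nd (nat_lit 234) (nat_lit 1368) (nat_lit 0) (XT.nd (nat_lit 78) (nat_lit 760) (nat_lit 0) (XT.lf (nat_lit 0) (nat_lit 3753679499) (nat_lit 760) (nat_lit 5831743062) (nat_lit 76) (nat_lit 19098192790) (nat_lit 345) (nat_lit 5) (nat_lit 355) (nat_lit 5) (nat_lit 346) (nat_lit 5) (nat_lit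 639) (nat_lit 595) (nat_lit 326)) (XT.nd (nat_lit 78) (nat_lit 0) (nat_lit 0) (XT.lf (nat_lit 0) (nat_lit 7786138709) (nat_lit 836) (nat_lit 18528748055) (nat_lit 76) (nat_lit 2693582492) (nat_lit 335) (nat_lit 5) (nat_lit 346) (nat_lit 5) (nat_lit 336) (nat_lit 5) (nat_lit 640) (nat_lit 595) (nat_lit 325)) (XT.lf (nat_lit 0) (nat_lit 11999572846) (nat_lit 836) (nat_lit 2209221192) (nat_lit 76) (nat_lit 15129019812) (nat_lit 335) (nat_lit 5) (nat_lit 346) (nat_lit 5) (nat_lit 336) (nat_lit 5) (nat_lit 641) (nat_lit 595) (nat_lit 324)))) (XT.nd (nat_lit 78) (nat_lit 684) (nat_lit 0) (XT.lf (nat_lit 0) (nat_lit 14625661036) (nat_lit 684) (nat_lit 1764076958) (nat_lit 760) (nat_lit 13282158223) (nat_lit 326) (nat_lit 5) (nat_lit 335) (nat_lit 5) (nat_lit 336) (nat_lit 5) (nat_lit 642) (nat_lit 595) (nat_lit 323)) (XT.nd (nat_lit 78) (nat_lit 0) (nat_lit 0) (XT.lf (nat_lit 0) (nat_lit 1764017554) (nat_lit 684) (nat_lit 19198558073) (nat_lit 760) (nat_lit 9048187344) (nat_lit 317) (nat_lit 5) (nat_lit 326) (nat_lit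 5) (nat_lit 327) (nat_lit 5) (nat_lit 643) (nat_lit 595) (nat_lit 322)) (XT.lf (nat_lit 0) (nat_lit 19099730456) (nat_lit 684) (nat_lit 6637274315) (nat_lit 760) (nat_lit 4617199714) (nat_lit 317) (nat_lit 5) (nat_lit 326) (nat_lit 5) (nat_lit 327) (nat_lit 5) (nat_lit 644) (nat_lit 595) (nat_lit 321))))))))
noncomputable def xc212 : XT := (XT.nd (nat_lit 77610) (nat_lit 0) (nat_lit 18088) (XT.nd (nat_lit 780) (nat_lit 2204) (nat_lit 0) (XT.nd (nat_lit 390) (nat_lit 1900) (nat_lit 0) (XT.nd (nat_lit 156) (nat_lit 1292) (nat_lit 0) (XT.nd (nat_lit 78) (nat_lit 76) (nat_lit 0) (XT.lf (nat_lit 0) (nat_lit 6114895213) (nat_lit 608) (nat_lit 24569428926) (nat_lit 684) (nat_lit 18642776) (nat_lit 309) (nat_lit 5) (nat_lit 317) (nat_lit 5) (nat_lit 318) (nat_lit 5) (nat_lit 645) (nat_lit 595) (nat_lit 320)) (XT.lf (nat_lit 0) (nat_lit 4728210473) (nat_lit 684) (nat_lit 7150638317) (nat_lit 76) (nat_lit 19176897303) (nat_lit 308) (nat_lit 5) (nat_lit 317) (nat_lit 5) (nat_lit 309) (nat_lit 5) (nat_lit 646) (nat_lit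 595) (nat_lit 319))) (XT.nd (nat_lit 78) (nat_lit 608) (nat_lit 0) (XT.lf (nat_lit 0) (nat_lit 9644747414) (nat_lit 760) (nat_lit 20647691907) (nat_lit 76) (nat_lit 1121639255) (nat_lit 299) (nat_lit 5) (nat_lit 309) (nat_lit 5) (nat_lit 300) (nat_lit 5) (nat_lit 647) (nat_lit 595) (nat_lit 318)) (XT.nd (nat_lit 78) (nat_lit 608) (nat_lit 0) (XT.lf (nat_lit 0) (nat_lit 14784275237) (nat_lit 760) (nat_lit 2721755986) (nat_lit 76) (nat_lit 14271053392) (nat_lit 299) (nat_lit 5) (nat_lit 309) (nat_lit 5) (nat_lit 300) (nat_lit 5) (nat_lit 648) (nat_lit 595) (nat_lit 317)) (XT.lf (nat_lit 0) (nat_lit 15766704108) (nat_lit 608) (nat_lit 4359992650) (nat_lit 684) (nat_lit 12018652063) (nat_lit 291) (nat_lit 5) (nat_lit 299) (nat_lit 5) (nat_lit 300) (nat_lit 5) (nat_lit 649) (nat_lit 595) (nat_lit 316))))) (XT.nd (nat_lit 156) (nat_lit 1292) (nat_lit 0) (XT.nd (nat_lit 78) (nat_lit 0) (nat_lit 0) (XT.lf (nat_lit 0) (nat_lit 2107176735) (nat_lit 608) (nat_lit 23557366777) (nat_lit 684) (nat_lit 6854663367) (nat_lit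 283) (nat_lit 5) (nat_lit 291) (nat_lit 5) (nat_lit 292) (nat_lit 5) (nat_lit 650) (nat_lit 595) (nat_lit 315)) (XT.lf (nat_lit 0) (nat_lit 21152691119) (nat_lit 608) (nat_lit 10296833807) (nat_lit 684) (nat_lit 1448289722) (nat_lit 283) (nat_lit 5) (nat_lit 291) (nat_lit 5) (nat_lit 292) (nat_lit 5) (nat_lit 651) (nat_lit 595) (nat_lit 314))) (XT.nd (nat_lit 78) (nat_lit 608) (nat_lit 0) (XT.lf (nat_lit 0) (nat_lit 4079949822) (nat_lit 684) (nat_lit 25941481863) (nat_lit 76) (nat_lit 3260693624) (nat_lit 274) (nat_lit 5) (nat_lit 283) (nat_lit 5) (nat_lit 275) (nat_lit 5) (nat_lit 652) (nat_lit 595) (nat_lit 313)) (XT.nd (nat_lit 78) (nat_lit 608) (nat_lit 0) (XT.lf (nat_lit 0) (nat_lit 9844743102) (nat_lit 684) (nat_lit 6786294633) (nat_lit 76) (nat_lit 17039985450) (nat_lit 274) (nat_lit 5) (nat_lit 283) (nat_lit 5) (nat_lit 275) (nat_lit 5) (nat_lit 653) (nat_lit 595) (nat_lit 312)) (XT.lf (nat_lit 0) (nat_lit 12918703403) (nat_lit 608) (nat_lit 2887882640) (nat_lit 684) (nat_lit 18259477997) (nat_lit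 266) (nat_lit 5) (nat_lit 274) (nat_lit 5) (nat_lit 275) (nat_lit 5) (nat_lit 654) (nat_lit 595) (nat_lit 311)))))) (XT.nd (nat_lit 390) (nat_lit 532) (nat_lit 0) (XT.nd (nat_lit 156) (nat_lit 1140) (nat_lit 0) (XT.nd (nat_lit 78) (nat_lit 532) (nat_lit 0) (XT.lf (nat_lit 0) (nat_lit 22003668380) (nat_lit 684) (nat_lit 1433613582) (nat_lit 76) (nat_lit 11029403792) (nat_lit 266) (nat_lit 5) (nat_lit 275) (nat_lit 5) (nat_lit 267) (nat_lit 5) (nat_lit 655) (nat_lit 595) (nat_lit 310)) (XT.lf (nat_lit 0) (nat_lit 18900476052) (nat_lit 532) (nat_lit 9563994141) (nat_lit 608) (nat_lit 6408054244) (nat_lit 259) (nat_lit 5) (nat_lit 266) (nat_lit 5) (nat_lit 267) (nat_lit 5) (nat_lit 656) (nat_lit 595) (nat_lit 309))) (XT.nd (nat_lit 78) (nat_lit 608) (nat_lit 0) (XT.lf (nat_lit 0) (nat_lit 4399540267) (nat_lit 532) (nat_lit 30720934111) (nat_lit 608) (nat_lit 164685879) (nat_lit 252) (nat_lit 5) (nat_lit 259) (nat_lit 5) (nat_lit 260) (nat_lit 5) (nat_lit 657) (nat_lit 595) (nat_lit 308)) (XT.nd (nat_lit 78)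 (nat_lit 532) (nat_lit 0) (XT.lf (nat_lit 0) (nat_lit 6291383965) (nat_lit 608) (nat_lit 10415883025) (nat_lit 76) (nat_lit 18994592443) (nat_lit 251) (nat_lit 5) (nat_lit 259) (nat_lit 5) (nat_lit 252) (nat_lit 5) (nat_lit 658) (nat_lit 595) (nat_lit 307)) (XT.lf (nat_lit 0) (nat_lit 10598493721) (nat_lit 532) (nat_lit 2342697145) (nat_lit 608) (nat_lit 23184343624) (nat_lit 244) (nat_lit 5) (nat_lit 251) (nat_lit 5) (nat_lit 252) (nat_lit 5) (nat_lit 659) (nat_lit 595) (nat_lit 306))))) (XT.nd (nat_lit 76206) (nat_lit 0) (nat_lit 19684) (XT.nd (nat_lit 78) (nat_lit 532) (nat_lit 0) (XT.lf (nat_lit 0) (nat_lit 19872295910) (nat_lit 608) (nat_lit 4465002301) (nat_lit 76) (nat_lit 12217418878) (nat_lit 244) (nat_lit 5) (nat_lit 252) (nat_lit 5) (nat_lit 245) (nat_lit 5) (nat_lit 660) (nat_lit 595) (nat_lit 305)) (XT.lf (nat_lit 0) (nat_lit 17226054731) (nat_lit 532) (nat_lit 9841388397) (nat_lit 608) (nat_lit 9922531894) (nat_lit 237) (nat_lit 5) (nat_lit 244) (nat_lit 5) (nat_lit 245) (nat_lit 5) (nat_lit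 661) (nat_lit 595) (nat_lit 304))) (XT.nd (nat_lit 78) (nat_lit 0) (nat_lit 0) (XT.lf (nat_lit 0) (nat_lit 3855324693) (nat_lit 0) (nat_lit 3855324693) (nat_lit 1748) (nat_lit 1501489418) (nat_lit 496) (nat_lit 5) (nat_lit 496) (nat_lit 3) (nat_lit 519) (nat_lit 3) (nat_lit 596) (nat_lit 596) (nat_lit 368)) (XT.nd (nat_lit 78) (nat_lit 0) (nat_lit 0) (XT.lf (nat_lit 0) (nat_lit 15779014445) (nat_lit 1748) (nat_lit 1582175625) (nat_lit 1824) (nat_lit 1243248098) (nat_lit 496) (nat_lit 5) (nat_lit 519) (nat_lit 3) (nat_lit 520) (nat_lit 5) (nat_lit 597) (nat_lit 596) (nat_lit 367)) (XT.lf (nat_lit 76) (nat_lit 7780199719) (nat_lit 0) (nat_lit 8460156060) (nat_lit 1824) (nat_lit 2545917051) (nat_lit 497) (nat_lit 5) (nat_lit 496) (nat_lit 5) (nat_lit 520) (nat_lit 5) (nat_lit 598) (nat_lit 596) (nat_lit 366))))))) (XT.nd (nat_lit 780) (nat_lit 0) (nat_lit 152) (XT.nd (nat_lit 390) (nat_lit 1672) (nat_lit 0) (XT.nd (nat_lit 156) (nat_lit 0) (nat_lit 0) (XT.nd (nat_lit 78) (nat_lit 0) (nat_lit 0) (XT.lf (nat_lit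 0) (nat_lit 16720621178) (nat_lit 1748) (nat_lit 1627130677) (nat_lit 1824) (nat_lit 623798698) (nat_lit 497) (nat_lit 5) (nat_lit 520) (nat_lit 5) (nat_lit 521) (nat_lit 5) (nat_lit 599) (nat_lit 596) (nat_lit 365)) (XT.lf (nat_lit 76) (nat_lit 7985367516) (nat_lit 0) (nat_lit 9328087797) (nat_lit 1824) (nat_lit 1845019556) (nat_lit 498) (nat_lit 5) (nat_lit 497) (nat_lit 5) (nat_lit 521) (nat_lit 5) (nat_lit 600) (nat_lit 596) (nat_lit 364))) (XT.nd (nat_lit 78) (nat_lit 0) (nat_lit 76) (XT.lf (nat_lit 76) (nat_lit 17809464689) (nat_lit 0) (nat_lit 114768653) (nat_lit 1824) (nat_lit 1424782886) (nat_lit 498) (nat_lit 5) (nat_lit 497) (nat_lit 5) (nat_lit 521) (nat_lit 5) (nat_lit 601) (nat_lit 596) (nat_lit 363)) (XT.nd (nat_lit 78) (nat_lit 0) (nat_lit 0) (XT.lf (nat_lit 76) (nat_lit 8332930423) (nat_lit 0) (nat_lit 10323946195) (nat_lit 1824) (nat_lit 884299098) (nat_lit 499) (nat_lit 5) (nat_lit 498) (nat_lit 5) (nat_lit 522) (nat_lit 5) (nat_lit 602) (nat_lit 596) (nat_lit 362)) (XT.lf (nat_lit 76)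 (nat_lit 18420216424) (nat_lit 0) (nat_lit 990393959) (nat_lit 1824) (nat_lit 326439545) (nat_lit 499) (nat_lit 5) (nat_lit 498) (nat_lit 5) (nat_lit 522) (nat_lit 5) (nat_lit 603) (nat_lit 596) (nat_lit 361))))) (XT.nd (nat_lit 156) (nat_lit 0) (nat_lit 76) (XT.nd (nat_lit 78) (nat_lit 0) (nat_lit 0) (XT.lf (nat_lit 0) (nat_lit 348278223) (nat_lit 1824) (nat_lit 11106931343) (nat_lit 1900) (nat_lit 8479423189) (nat_lit 475) (nat_lit 5) (nat_lit 499) (nat_lit 5) (nat_lit 500) (nat_lit 5) (nat_lit 604) (nat_lit 596) (nat_lit 360)) (XT.lf (nat_lit 0) (nat_lit 1043073309) (nat_lit 1824) (nat_lit 954628682) (nat_lit 1900) (nat_lit 18138203284) (nat_lit 475) (nat_lit 5) (nat_lit 499) (nat_lit 5) (nat_lit 500) (nat_lit 5) (nat_lit 605) (nat_lit 596) (nat_lit 359))) (XT.nd (nat_lit 78) (nat_lit 0) (nat_lit 0) (XT.lf (nat_lit 0) (nat_lit 1859259174) (nat_lit 1824) (nat_lit 10867304079) (nat_lit 1900) (nat_lit 7612490362) (nat_lit 476) (nat_lit 5) (nat_lit 500) (nat_lit 5) (nat_lit 501) (nat_lit 5) (nat_lit 606)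 (nat_lit 596) (nat_lit 358)) (XT.nd (nat_lit 78) (nat_lit 0) (nat_lit 76) (XT.lf (nat_lit 0) (nat_lit 2707110151) (nat_lit 1824) (nat_lit 442673032) (nat_lit 1900) (nat_lit 17396175173) (nat_lit 476) (nat_lit 5) (nat_lit 500) (nat_lit 5) (nat_lit 501) (nat_lit 5) (nat_lit 607) (nat_lit 596) (nat_lit 357)) (XT.lf (nat_lit 0) (nat_lit 3678115449) (nat_lit 1824) (nat_lit 10476135562) (nat_lit 1900) (nat_lit 6600626491) (nat_lit 477) (nat_lit 5) (nat_lit 501) (nat_lit 5) (nat_lit 502) (nat_lit 5) (nat_lit 608) (nat_lit 596) (nat_lit 356)))))) (XT.nd (nat_lit 390) (nat_lit 0) (nat_lit 228) (XT.nd (nat_lit 156) (nat_lit 0) (nat_lit 76) (XT.nd (nat_lit 78) (nat_lit 0) (nat_lit 76) (XT.lf (nat_lit 76) (nat_lit 231954984) (nat_lit 0) (nat_lit 4457764128) (nat_lit 1900) (nat_lit 16277832605) (nat_lit 478) (nat_lit 5) (nat_lit 477) (nat_lit 5) (nat_lit 502) (nat_lit 5) (nat_lit 609) (nat_lit 596) (nat_lit 355)) (XT.lf (nat_lit 0) (nat_lit 5823487197) (nat_lit 1824) (nat_lit 9925547110) (nat_lit 1900) (nat_lit 5433406710)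 (nat_lit 478) (nat_lit 5) (nat_lit 502) (nat_lit 5) (nat_lit 503) (nat_lit 5) (nat_lit 610) (nat_lit 596) (nat_lit 354))) (XT.nd (nat_lit 78) (nat_lit 0) (nat_lit 76) (XT.lf (nat_lit 76) (nat_lit 1082486873) (nat_lit 0) (nat_lit 5929968135) (nat_lit 1900) (nat_lit 14388522848) (nat_lit 479) (nat_lit 5) (nat_lit 478) (nat_lit 5) (nat_lit 503) (nat_lit 5) (nat_lit 611) (nat_lit 596) (nat_lit 353)) (XT.nd (nat_lit 78) (nat_lit 0) (nat_lit 0) (XT.lf (nat_lit 0) (nat_lit 8314816455) (nat_lit 1824) (nat_lit 9207254752) (nat_lit 1900) (nat_lit 4100022178) (nat_lit 479) (nat_lit 5) (nat_lit 503) (nat_lit 5) (nat_lit 504) (nat_lit 5) (nat_lit 612) (nat_lit 596) (nat_lit 352)) (XT.lf (nat_lit 76) (nat_lit 2111728996) (nat_lit 0) (nat_lit 7580597694) (nat_lit 1900) (nat_lit 12154322734) (nat_lit 480) (nat_lit 5) (nat_lit 479) (nat_lit 5) (nat_lit 504) (nat_lit 5) (nat_lit 613) (nat_lit 596) (nat_lit 351))))) (XT.nd (nat_lit 156) (nat_lit 0) (nat_lit 76) (XT.nd (nat_lit 78) (nat_lit 0) (nat_lit 0) (XT.lf (nat_lit 0)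 (nat_lit 11172384121) (nat_lit 1824) (nat_lit 8312555481) (nat_lit 1900) (nat_lit 2589257270) (nat_lit 480) (nat_lit 5) (nat_lit 504) (nat_lit 5) (nat_lit 505) (nat_lit 5) (nat_lit 614) (nat_lit 596) (nat_lit 350)) (XT.lf (nat_lit 76) (nat_lit 3328804839) (nat_lit 0) (nat_lit 9421311132) (nat_lit 1900) (nat_lit 9554818058) (nat_lit 481) (nat_lit 5) (nat_lit 480) (nat_lit 5) (nat_lit 505) (nat_lit 5) (nat_lit 615) (nat_lit 596) (nat_lit 349))) (XT.nd (nat_lit 78) (nat_lit 0) (nat_lit 0) (XT.lf (nat_lit 0) (nat_lit 14417348283) (nat_lit 1824) (nat_lit 7232312811) (nat_lit 1900) (nat_lit 889466135) (nat_lit 481) (nat_lit 5) (nat_lit 505) (nat_lit 5) (nat_lit 506) (nat_lit 5) (nat_lit 616) (nat_lit 596) (nat_lit 348)) (XT.nd (nat_lit 78) (nat_lit 0) (nat_lit 0) (XT.lf (nat_lit 76) (nat_lit 4743287150) (nat_lit 0) (nat_lit 11464217293) (nat_lit 1900) (nat_lit 6568708483) (nat_lit 482) (nat_lit 5) (nat_lit 481) (nat_lit 5) (nat_lit 506) (nat_lit 5) (nat_lit 617) (nat_lit 596) (nat_lit 347)) (XT.lf (nat_lit 76)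 (nat_lit 17053545134) (nat_lit 0) (nat_lit 1024893089) (nat_lit 1900) (nat_lit 4938702834) (nat_lit 482) (nat_lit 5) (nat_lit 481) (nat_lit 5) (nat_lit 506) (nat_lit 5) (nat_lit 618) (nat_lit 596) (nat_lit 346))))))))
noncomputable def xc213 : XT := (XT.nd (nat_lit 1560) (nat_lit 7904) (nat_lit 0) (XT.nd (nat_lit 780) (nat_lit 4104) (nat_lit 0) (XT.nd (nat_lit 390) (nat_lit 2660) (nat_lit 0) (XT.nd (nat_lit 156) (nat_lit 2888) (nat_lit 0) (XT.nd (nat_lit 78) (nat_lit 0) (nat_lit 0) (XT.lf (nat_lit 76) (nat_lit 6365213694) (nat_lit 0) (nat_lit 13721900377) (nat_lit 1900) (nat_lit 3173767417) (nat_lit 483) (nat_lit 5) (nat_lit 482) (nat_lit 5) (nat_lit 507) (nat_lit 5) (nat_lit 619) (nat_lit 596) (nat_lit 345)) (XT.lf (nat_lit 76) (nat_lit 19011671727) (nat_lit 0) (nat_lit 3167618748) (nat_lit 1900) (nat_lit 1329339915) (nat_lit 483) (nat_lit 5) (nat_lit 482) (nat_lit 5) (nat_lit 507) (nat_lit 5) (nat_lit 620) (nat_lit 596) (nat_lit 344))) (XT.nd (nat_lit 78) (nat_lit 1064) (nat_lit 0) (XT.lf (nat_lit 0)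 (nat_lit 644632760) (nat_lit 1900) (nat_lit 15558486959) (nat_lit 76) (nat_lit 7556145151) (nat_lit 458) (nat_lit 5) (nat_lit 483) (nat_lit 5) (nat_lit 459) (nat_lit 5) (nat_lit 621) (nat_lit 596) (nat_lit 343)) (XT.nd (nat_lit 78) (nat_lit 1064) (nat_lit 0) (XT.lf (nat_lit 0) (nat_lit 2688317435) (nat_lit 1900) (nat_lit 2833791019) (nat_lit 76) (nat_lit 18491667390) (nat_lit 458) (nat_lit 5) (nat_lit 483) (nat_lit 5) (nat_lit 459) (nat_lit 5) (nat_lit 622) (nat_lit 596) (nat_lit 342)) (XT.lf (nat_lit 0) (nat_lit 4871656276) (nat_lit 1140) (nat_lit 14030117695) (nat_lit 76) (nat_lit 5369627644) (nat_lit 444) (nat_lit 5) (nat_lit 459) (nat_lit 5) (nat_lit 445) (nat_lit 5) (nat_lit 623) (nat_lit 596) (nat_lit 341))))) (XT.nd (nat_lit 156) (nat_lit 1748) (nat_lit 0) (XT.nd (nat_lit 78) (nat_lit 912) (nat_lit 0) (XT.lf (nat_lit 0) (nat_lit 7151149233) (nat_lit 1140) (nat_lit 957141659) (nat_lit 76) (nat_lit 16424839446) (nat_lit 444) (nat_lit 5) (nat_lit 459) (nat_lit 5) (nat_lit 445) (nat_lit 5) (nat_lit 624)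 (nat_lit 596) (nat_lit 340)) (XT.lf (nat_lit 0) (nat_lit 9573857653) (nat_lit 988) (nat_lit 12279023761) (nat_lit 76) (nat_lit 2945259889) (nat_lit 432) (nat_lit 5) (nat_lit 445) (nat_lit 5) (nat_lit 433) (nat_lit 5) (nat_lit 625) (nat_lit 596) (nat_lit 339))) (XT.nd (nat_lit 78) (nat_lit 836) (nat_lit 0) (XT.lf (nat_lit 0) (nat_lit 1168226579) (nat_lit 912) (nat_lit 10941424798) (nat_lit 988) (nat_lit 12957508664) (nat_lit 420) (nat_lit 5) (nat_lit 432) (nat_lit 5) (nat_lit 433) (nat_lit 5) (nat_lit 626) (nat_lit 596) (nat_lit 338)) (XT.nd (nat_lit 78) (nat_lit 836) (nat_lit 0) (XT.lf (nat_lit 0) (nat_lit 14777254737) (nat_lit 988) (nat_lit 10293762894) (nat_lit 76) (nat_lit 268919820) (nat_lit 420) (nat_lit 5) (nat_lit 433) (nat_lit 5) (nat_lit 421) (nat_lit 5) (nat_lit 627) (nat_lit 596) (nat_lit 337)) (XT.lf (nat_lit 0) (nat_lit 3554779718) (nat_lit 836) (nat_lit 14035957499) (nat_lit 912) (nat_lit 8025582820) (nat_lit 409) (nat_lit 5) (nat_lit 420) (nat_lit 5) (nat_lit 421) (nat_lit 5) (nat_lit 628)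 (nat_lit 596) (nat_lit 336)))))) (XT.nd (nat_lit 390) (nat_lit 2356) (nat_lit 0) (XT.nd (nat_lit 156) (nat_lit 912) (nat_lit 0) (XT.nd (nat_lit 78) (nat_lit 836) (nat_lit 0) (XT.lf (nat_lit 0) (nat_lit 17816953708) (nat_lit 836) (nat_lit 2709639920) (nat_lit 912) (nat_lit 5370314728) (nat_lit 409) (nat_lit 5) (nat_lit 420) (nat_lit 5) (nat_lit 421) (nat_lit 5) (nat_lit 629) (nat_lit 596) (nat_lit 335)) (XT.lf (nat_lit 0) (nat_lit 6202314406) (nat_lit 836) (nat_lit 17413624862) (nat_lit 912) (nat_lit 2565273893) (nat_lit 398) (nat_lit 5) (nat_lit 409) (nat_lit 5) (nat_lit 410) (nat_lit 5) (nat_lit 630) (nat_lit 596) (nat_lit 334))) (XT.nd (nat_lit 78) (nat_lit 836) (nat_lit 0) (XT.lf (nat_lit 0) (nat_lit 361617851) (nat_lit 912) (nat_lit 5613486120) (nat_lit 76) (nat_lit 20494669219) (nat_lit 397) (nat_lit 5) (nat_lit 409) (nat_lit 5) (nat_lit 398) (nat_lit 5) (nat_lit 631) (nat_lit 596) (nat_lit 333)) (XT.nd (nat_lit 78) (nat_lit 0) (nat_lit 0) (XT.lf (nat_lit 0) (nat_lit 3406694374) (nat_lit 912) (nat_lit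 17660828083) (nat_lit 76) (nat_lit 5694363068) (nat_lit 386) (nat_lit 5) (nat_lit 398) (nat_lit 5) (nat_lit 387) (nat_lit 5) (nat_lit 632) (nat_lit 596) (nat_lit 332)) (XT.lf (nat_lit 0) (nat_lit 6587361480) (nat_lit 912) (nat_lit 2915799328) (nat_lit 76) (nat_lit 17555185669) (nat_lit 386) (nat_lit 5) (nat_lit 398) (nat_lit 5) (nat_lit 387) (nat_lit 5) (nat_lit 633) (nat_lit 596) (nat_lit 331))))) (XT.nd (nat_lit 156) (nat_lit 760) (nat_lit 0) (XT.nd (nat_lit 78) (nat_lit 760) (nat_lit 0) (XT.lf (nat_lit 0) (nat_lit 9924054182) (nat_lit 912) (nat_lit 15092213608) (nat_lit 76) (nat_lit 2342620759) (nat_lit 375) (nat_lit 5) (nat_lit 387) (nat_lit 5) (nat_lit 376) (nat_lit 5) (nat_lit 634) (nat_lit 596) (nat_lit 330)) (XT.lf (nat_lit 0) (nat_lit 62168075) (nat_lit 760) (nat_lit 13345637118) (nat_lit 836) (nat_lit 14256029924) (nat_lit 365) (nat_lit 5) (nat_lit 375) (nat_lit 5) (nat_lit 376) (nat_lit 5) (nat_lit 635) (nat_lit 596) (nat_lit 329))) (XT.nd (nat_lit 78) (nat_lit 760) (nat_lit 0) (XT.lf (nat_lit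 0) (nat_lit 15721379268) (nat_lit 760) (nat_lit 1338453227) (nat_lit 836) (nat_lit 10913076240) (nat_lit 365) (nat_lit 5) (nat_lit 375) (nat_lit 5) (nat_lit 376) (nat_lit 5) (nat_lit 636) (nat_lit 596) (nat_lit 328)) (XT.nd (nat_lit 78) (nat_lit 0) (nat_lit 0) (XT.lf (nat_lit 0) (nat_lit 3376230082) (nat_lit 760) (nat_lit 17498794636) (nat_lit 836) (nat_lit 7411336757) (nat_lit 355) (nat_lit 5) (nat_lit 365) (nat_lit 5) (nat_lit 366) (nat_lit 5) (nat_lit 637) (nat_lit 596) (nat_lit 327)) (XT.lf (nat_lit 0) (nat_lit 19470821448) (nat_lit 760) (nat_lit 5384128342) (nat_lit 836) (nat_lit 3749365036) (nat_lit 355) (nat_lit 5) (nat_lit 365) (nat_lit 5) (nat_lit 366) (nat_lit 5) (nat_lit 638) (nat_lit 596) (nat_lit 326))))))) (XT.nd (nat_lit 780) (nat_lit 3648) (nat_lit 0) (XT.nd (nat_lit 390) (nat_lit 2052) (nat_lit 0) (XT.nd (nat_lit 156) (nat_lit 1444) (nat_lit 0) (XT.nd (nat_lit 78) (nat_lit 0) (nat_lit 0) (XT.lf (nat_lit 0) (nat_lit 74810946) (nat_lit 760) (nat_lit 21924920995) (nat_lit 76) (nat_lit 6927121688)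 (nat_lit 345) (nat_lit 5) (nat_lit 355) (nat_lit 5) (nat_lit 346) (nat_lit 5) (nat_lit 639) (nat_lit 596) (nat_lit 325)) (XT.lf (nat_lit 0) (nat_lit 4020139830) (nat_lit 760) (nat_lit 5734459840) (nat_lit 76) (nat_lit 19498850533) (nat_lit 345) (nat_lit 5) (nat_lit 355) (nat_lit 5) (nat_lit 346) (nat_lit 5) (nat_lit 640) (nat_lit 596) (nat_lit 324))) (XT.nd (nat_lit 78) (nat_lit 684) (nat_lit 0) (XT.lf (nat_lit 0) (nat_lit 8131027861) (nat_lit 836) (nat_lit 18683175040) (nat_lit 76) (nat_lit 2770642882) (nat_lit 335) (nat_lit 5) (nat_lit 346) (nat_lit 5) (nat_lit 336) (nat_lit 5) (nat_lit 641) (nat_lit 596) (nat_lit 323)) (XT.nd (nat_lit 78) (nat_lit 684) (nat_lit 0) (XT.lf (nat_lit 0) (nat_lit 12425021537) (nat_lit 836) (nat_lit 2041495836) (nat_lit 76) (nat_lit 15454334268) (nat_lit 335) (nat_lit 5) (nat_lit 346) (nat_lit 5) (nat_lit 336) (nat_lit 5) (nat_lit 642) (nat_lit 596) (nat_lit 322)) (XT.lf (nat_lit 0) (nat_lit 15128689893) (nat_lit 684) (nat_lit 1772030485) (nat_lit 760) (nat_lit 13360940851)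 (nat_lit 326) (nat_lit 5) (nat_lit 335) (nat_lit 5) (nat_lit 336) (nat_lit 5) (nat_lit 643) (nat_lit 596) (nat_lit 321))))) (XT.nd (nat_lit 156) (nat_lit 1368) (nat_lit 0) (XT.nd (nat_lit 78) (nat_lit 0) (nat_lit 0) (XT.lf (nat_lit 0) (nat_lit 2011901054) (nat_lit 684) (nat_lit 19551076110) (nat_lit 760) (nat_lit 9044369087) (nat_lit 317) (nat_lit 5) (nat_lit 326) (nat_lit 5) (nat_lit 327) (nat_lit 5) (nat_lit 644) (nat_lit 596) (nat_lit 320)) (XT.lf (nat_lit 0) (nat_lit 19690159525) (nat_lit 684) (nat_lit 6739183404) (nat_lit 760) (nat_lit 4528384881) (nat_lit 317) (nat_lit 5) (nat_lit 326) (nat_lit 5) (nat_lit 327) (nat_lit 5) (nat_lit 645) (nat_lit 596) (nat_lit 319))) (XT.nd (nat_lit 78) (nat_lit 684) (nat_lit 0) (XT.lf (nat_lit 0) (nat_lit 158083809) (nat_lit 684) (nat_lit 24866949343) (nat_lit 76) (nat_lit 6288450109) (nat_lit 308) (nat_lit 5) (nat_lit 317) (nat_lit 5) (nat_lit 309) (nat_lit 5) (nat_lit 646) (nat_lit 596) (nat_lit 318)) (XT.nd (nat_lit 78) (nat_lit 684) (nat_lit 0) (XT.lf (nat_lit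 0) (nat_lit 4996157082) (nat_lit 684) (nat_lit 7085062524) (nat_lit 76) (nat_lit 19592165466) (nat_lit 308) (nat_lit 5) (nat_lit 317) (nat_lit 5) (nat_lit 309) (nat_lit 5) (nat_lit 647) (nat_lit 596) (nat_lit 317)) (XT.lf (nat_lit 0) (nat_lit 10009203502) (nat_lit 760) (nat_lit 20850227792) (nat_lit 76) (nat_lit 1179489498) (nat_lit 299) (nat_lit 5) (nat_lit 309) (nat_lit 5) (nat_lit 300) (nat_lit 5) (nat_lit 648) (nat_lit 596) (nat_lit 316)))))) (XT.nd (nat_lit 390) (nat_lit 1748) (nat_lit 0) (XT.nd (nat_lit 156) (nat_lit 1292) (nat_lit 0) (XT.nd (nat_lit 78) (nat_lit 608) (nat_lit 0) (XT.lf (nat_lit 0) (nat_lit 15248157938) (nat_lit 760) (nat_lit 2569898995) (nat_lit 76) (nat_lit 14591197458) (nat_lit 299) (nat_lit 5) (nat_lit 309) (nat_lit 5) (nat_lit 300) (nat_lit 5) (nat_lit 649) (nat_lit 596) (nat_lit 315)) (XT.lf (nat_lit 0) (nat_lit 16286973116) (nat_lit 608) (nat_lit 4408487363) (nat_lit 684) (nat_lit 12089462906) (nat_lit 291) (nat_lit 5) (nat_lit 299) (nat_lit 5) (nat_lit 300) (nat_lit 5) (nat_lit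 650) (nat_lit 596) (nat_lit 314))) (XT.nd (nat_lit 78) (nat_lit 684) (nat_lit 0) (XT.lf (nat_lit 0) (nat_lit 2355967783) (nat_lit 608) (nat_lit 23986425042) (nat_lit 684) (nat_lit 6823899359) (nat_lit 283) (nat_lit 5) (nat_lit 291) (nat_lit 5) (nat_lit 292) (nat_lit 5) (nat_lit 651) (nat_lit 596) (nat_lit 313)) (XT.nd (nat_lit 78) (nat_lit 684) (nat_lit 0) (XT.lf (nat_lit 0) (nat_lit 21778340542) (nat_lit 608) (nat_lit 10461506688) (nat_lit 684) (nat_lit 1312689560) (nat_lit 283) (nat_lit 5) (nat_lit 291) (nat_lit 5) (nat_lit 292) (nat_lit 5) (nat_lit 652) (nat_lit 596) (nat_lit 312)) (XT.lf (nat_lit 0) (nat_lit 4322371041) (nat_lit 684) (nat_lit 26253957577) (nat_lit 76) (nat_lit 3368215531) (nat_lit 274) (nat_lit 5) (nat_lit 283) (nat_lit 5) (nat_lit 275) (nat_lit 5) (nat_lit 653) (nat_lit 596) (nat_lit 311))))) (XT.nd (nat_lit 234) (nat_lit 1140) (nat_lit 0) (XT.nd (nat_lit 78) (nat_lit 608) (nat_lit 0) (XT.lf (nat_lit 0) (nat_lit 10199306810) (nat_lit 684) (nat_lit 6719712759) (nat_lit 76) (nat_lit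 17422263624) (nat_lit 274) (nat_lit 5) (nat_lit 283) (nat_lit 5) (nat_lit 275) (nat_lit 5) (nat_lit 654) (nat_lit 596) (nat_lit 310)) (XT.nd (nat_lit 78) (nat_lit 0) (nat_lit 0) (XT.lf (nat_lit 0) (nat_lit 13378054266) (nat_lit 608) (nat_lit 2900545672) (nat_lit 684) (nat_lit 18465660798) (nat_lit 266) (nat_lit 5) (nat_lit 274) (nat_lit 5) (nat_lit 275) (nat_lit 5) (nat_lit 655) (nat_lit 596) (nat_lit 309)) (XT.lf (nat_lit 0) (nat_lit 22596854452) (nat_lit 684) (nat_lit 1262473505) (nat_lit 76) (nat_lit 11293622453) (nat_lit 266) (nat_lit 5) (nat_lit 275) (nat_lit 5) (nat_lit 267) (nat_lit 5) (nat_lit 656) (nat_lit 596) (nat_lit 308)))) (XT.nd (nat_lit 78) (nat_lit 608) (nat_lit 0) (XT.lf (nat_lit 0) (nat_lit 19476983366) (nat_lit 532) (nat_lit 9708175504) (nat_lit 608) (nat_lit 6381781398) (nat_lit 259) (nat_lit 5) (nat_lit 266) (nat_lit 5) (nat_lit 267) (nat_lit 5) (nat_lit 657) (nat_lit 596) (nat_lit 307)) (XT.nd (nat_lit 78) (nat_lit 76) (nat_lit 0) (XT.lf (nat_lit 0) (nat_lit 4687433869) (nat_lit 532)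 (nat_lit 31285478357) (nat_lit 608) (nat_lit 14944128) (nat_lit 252) (nat_lit 5) (nat_lit 259) (nat_lit 5) (nat_lit 260) (nat_lit 5) (nat_lit 658) (nat_lit 596) (nat_lit 306)) (XT.lf (nat_lit 0) (nat_lit 6565278685) (nat_lit 608) (nat_lit 10426243531) (nat_lit 76) (nat_lit 19421406778) (nat_lit 251) (nat_lit 5) (nat_lit 259) (nat_lit 5) (nat_lit 252) (nat_lit 5) (nat_lit 659) (nat_lit 596) (nat_lit 305))))))))
noncomputable def xc214 : XT := (XT.nd (nat_lit 77688) (nat_lit 0) (nat_lit 9956) (XT.nd (nat_lit 76908) (nat_lit 0) (nat_lit 17556) (XT.nd (nat_lit 76518) (nat_lit 0) (nat_lit 17480) (XT.nd (nat_lit 76284) (nat_lit 0) (nat_lit 19152) (XT.nd (nat_lit 78) (nat_lit 0) (nat_lit 0) (XT.lf (nat_lit 0) (nat_lit 11007118400) (nat_lit 532) (nat_lit 2339336862) (nat_lit 608) (nat_lit 23498654942) (nat_lit 244) (nat_lit 5) (nat_lit 251) (nat_lit 5) (nat_lit 252) (nat_lit 5) (nat_lit 660) (nat_lit 596) (nat_lit 304)) (XT.lf (nat_lit 0) (nat_lit 20413630654) (nat_lit 608) (nat_lit 4358945724) (nat_lit 76) (nat_lit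 12510351234) (nat_lit 244) (nat_lit 5) (nat_lit 252) (nat_lit 5) (nat_lit 245) (nat_lit 5) (nat_lit 661) (nat_lit 596) (nat_lit 303))) (XT.nd (nat_lit 78) (nat_lit 0) (nat_lit 0) (XT.lf (nat_lit 0) (nat_lit 4029458812) (nat_lit 0) (nat_lit 4029458812) (nat_lit 1748) (nat_lit 1333570766) (nat_lit 496) (nat_lit 5) (nat_lit 496) (nat_lit 3) (nat_lit 519) (nat_lit 3) (nat_lit 597) (nat_lit 597) (nat_lit 366)) (XT.nd (nat_lit 78) (nat_lit 0) (nat_lit 0) (XT.lf (nat_lit 0) (nat_lit 16473859995) (nat_lit 1748) (nat_lit 1414699955) (nat_lit 1824) (nat_lit 1080357980) (nat_lit 496) (nat_lit 5) (nat_lit 519) (nat_lit 3) (nat_lit 520) (nat_lit 5) (nat_lit 598) (nat_lit 597) (nat_lit 365)) (XT.lf (nat_lit 76) (nat_lit 8133612900) (nat_lit 0) (nat_lit 8804662990) (nat_lit 1824) (nat_lit 2216236906) (nat_lit 497) (nat_lit 5) (nat_lit 496) (nat_lit 5) (nat_lit 520) (nat_lit 5) (nat_lit 599) (nat_lit 597) (nat_lit 364))))) (XT.nd (nat_lit 156) (nat_lit 1748) (nat_lit 0) (XT.nd (nat_lit 78) (nat_lit 0) (nat_lit 0) (XT.lf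 (nat_lit 0) (nat_lit 17419714786) (nat_lit 1748) (nat_lit 1457288127) (nat_lit 1824) (nat_lit 466662253) (nat_lit 497) (nat_lit 5) (nat_lit 520) (nat_lit 5) (nat_lit 521) (nat_lit 5) (nat_lit 600) (nat_lit 597) (nat_lit 363)) (XT.lf (nat_lit 76) (nat_lit 8346128548) (nat_lit 0) (nat_lit 9672431818) (nat_lit 1824) (nat_lit 1515884954) (nat_lit 498) (nat_lit 5) (nat_lit 497) (nat_lit 5) (nat_lit 521) (nat_lit 5) (nat_lit 601) (nat_lit 597) (nat_lit 362))) (XT.nd (nat_lit 78) (nat_lit 1748) (nat_lit 0) (XT.lf (nat_lit 76) (nat_lit 18362765436) (nat_lit 0) (nat_lit 271752521) (nat_lit 1824) (nat_lit 1094420707) (nat_lit 498) (nat_lit 5) (nat_lit 497) (nat_lit 5) (nat_lit 521) (nat_lit 5) (nat_lit 602) (nat_lit 597) (nat_lit 361)) (XT.nd (nat_lit 78) (nat_lit 1824) (nat_lit 0) (XT.lf (nat_lit 76) (nat_lit 8703412887) (nat_lit 0) (nat_lit 10671841884) (nat_lit 1824) (nat_lit 549818185) (nat_lit 499) (nat_lit 5) (nat_lit 498) (nat_lit 5) (nat_lit 522) (nat_lit 5) (nat_lit 603) (nat_lit 597) (nat_lit 360)) (XT.lf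 (nat_lit 0) (nat_lit 12132096) (nat_lit 1824) (nat_lit 1136632217) (nat_lit 1900) (nat_lit 18976234553) (nat_lit 474) (nat_lit 5) (nat_lit 498) (nat_lit 5) (nat_lit 499) (nat_lit 5) (nat_lit 604) (nat_lit 597) (nat_lit 359)))))) (XT.nd (nat_lit 390) (nat_lit 0) (nat_lit 152) (XT.nd (nat_lit 156) (nat_lit 0) (nat_lit 76) (XT.nd (nat_lit 78) (nat_lit 0) (nat_lit 0) (XT.lf (nat_lit 0) (nat_lit 689755213) (nat_lit 1824) (nat_lit 11118451573) (nat_lit 1900) (nat_lit 8518408171) (nat_lit 475) (nat_lit 5) (nat_lit 499) (nat_lit 5) (nat_lit 500) (nat_lit 5) (nat_lit 605) (nat_lit 597) (nat_lit 358)) (XT.lf (nat_lit 0) (nat_lit 1391887154) (nat_lit 1824) (nat_lit 767232631) (nat_lit 1900) (nat_lit 18372924720) (nat_lit 475) (nat_lit 5) (nat_lit 499) (nat_lit 5) (nat_lit 500) (nat_lit 5) (nat_lit 606) (nat_lit 597) (nat_lit 357))) (XT.nd (nat_lit 78) (nat_lit 0) (nat_lit 0) (XT.lf (nat_lit 0) (nat_lit 2218533798) (nat_lit 1824) (nat_lit 10872279160) (nat_lit 1900) (nat_lit 7648560502) (nat_lit 476) (nat_lit 5) (nat_lit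 500) (nat_lit 5) (nat_lit 501) (nat_lit 5) (nat_lit 607) (nat_lit 597) (nat_lit 356)) (XT.nd (nat_lit 78) (nat_lit 0) (nat_lit 76) (XT.lf (nat_lit 0) (nat_lit 3077026315) (nat_lit 1824) (nat_lit 243319629) (nat_lit 1900) (nat_lit 17630197042) (nat_lit 476) (nat_lit 5) (nat_lit 500) (nat_lit 5) (nat_lit 501) (nat_lit 5) (nat_lit 608) (nat_lit 597) (nat_lit 355)) (XT.lf (nat_lit 0) (nat_lit 4061927188) (nat_lit 1824) (nat_lit 10471908195) (nat_lit 1900) (nat_lit 6629915997) (nat_lit 477) (nat_lit 5) (nat_lit 501) (nat_lit 5) (nat_lit 502) (nat_lit 5) (nat_lit 609) (nat_lit 597) (nat_lit 354))))) (XT.nd (nat_lit 156) (nat_lit 0) (nat_lit 76) (XT.nd (nat_lit 78) (nat_lit 0) (nat_lit 76) (XT.lf (nat_lit 76) (nat_lit 448937912) (nat_lit 0) (nat_lit 4640120367) (nat_lit 1900) (nat_lit 16291715260) (nat_lit 478) (nat_lit 5) (nat_lit 477) (nat_lit 5) (nat_lit 502) (nat_lit 5) (nat_lit 610) (nat_lit 597) (nat_lit 353)) (XT.lf (nat_lit 0) (nat_lit 6238917394) (nat_lit 1824) (nat_lit 9909275539) (nat_lit 1900) (nat_lit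 5451899737) (nat_lit 478) (nat_lit 5) (nat_lit 502) (nat_lit 5) (nat_lit 503) (nat_lit 5) (nat_lit 611) (nat_lit 597) (nat_lit 352))) (XT.nd (nat_lit 78) (nat_lit 0) (nat_lit 76) (XT.lf (nat_lit 76) (nat_lit 1317506081) (nat_lit 0) (nat_lit 6129681847) (nat_lit 1900) (nat_lit 14375902203) (nat_lit 479) (nat_lit 5) (nat_lit 478) (nat_lit 5) (nat_lit 503) (nat_lit 5) (nat_lit 612) (nat_lit 597) (nat_lit 351)) (XT.nd (nat_lit 78) (nat_lit 0) (nat_lit 0) (XT.lf (nat_lit 0) (nat_lit 8769306089) (nat_lit 1824) (nat_lit 9175906317) (nat_lit 1900) (nat_lit 4103541720) (nat_lit 479) (nat_lit 5) (nat_lit 503) (nat_lit 5) (nat_lit 504) (nat_lit 5) (nat_lit 613) (nat_lit 597) (nat_lit 350)) (XT.lf (nat_lit 76) (nat_lit 2368039386) (nat_lit 0) (nat_lit 7802066217) (nat_lit 1900) (nat_lit 12107781241) (nat_lit 480) (nat_lit 5) (nat_lit 479) (nat_lit 5) (nat_lit 504) (nat_lit 5) (nat_lit 614) (nat_lit 597) (nat_lit 349))))))) (XT.nd (nat_lit 780) (nat_lit 5244) (nat_lit 0) (XT.nd (nat_lit 390) (nat_lit 2736) (nat_lit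 0) (XT.nd (nat_lit 156) (nat_lit 0) (nat_lit 76) (XT.nd (nat_lit 78) (nat_lit 0) (nat_lit 0) (XT.lf (nat_lit 0) (nat_lit 11673752219) (nat_lit 1824) (nat_lit 8262899793) (nat_lit 1900) (nat_lit 2573453801) (nat_lit 480) (nat_lit 5) (nat_lit 504) (nat_lit 5) (nat_lit 505) (nat_lit 5) (nat_lit 615) (nat_lit 597) (nat_lit 348)) (XT.lf (nat_lit 76) (nat_lit 3609867295) (nat_lit 0) (nat_lit 9669114578) (nat_lit 1900) (nat_lit 9466557300) (nat_lit 481) (nat_lit 5) (nat_lit 480) (nat_lit 5) (nat_lit 505) (nat_lit 5) (nat_lit 616) (nat_lit 597) (nat_lit 347))) (XT.nd (nat_lit 78) (nat_lit 0) (nat_lit 0) (XT.lf (nat_lit 0) (nat_lit 14973811000) (nat_lit 1824) (nat_lit 7160914546) (nat_lit 1900) (nat_lit 849805967) (nat_lit 481) (nat_lit 5) (nat_lit 505) (nat_lit 5) (nat_lit 506) (nat_lit 5) (nat_lit 617) (nat_lit 597) (nat_lit 346)) (XT.nd (nat_lit 78) (nat_lit 0) (nat_lit 0) (XT.lf (nat_lit 76) (nat_lit 5052776069) (nat_lit 0) (nat_lit 11743130518) (nat_lit 1900) (nat_lit 6430529922) (nat_lit 482) (nat_lit 5) (nat_lit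 481) (nat_lit 5) (nat_lit 506) (nat_lit 5) (nat_lit 618) (nat_lit 597) (nat_lit 345)) (XT.lf (nat_lit 76) (nat_lit 17605030915) (nat_lit 0) (nat_lit 1094046715) (nat_lit 1900) (nat_lit 4773209508) (nat_lit 482) (nat_lit 5) (nat_lit 481) (nat_lit 5) (nat_lit 506) (nat_lit 5) (nat_lit 619) (nat_lit 597) (nat_lit 344))))) (XT.nd (nat_lit 156) (nat_lit 2888) (nat_lit 0) (XT.nd (nat_lit 78) (nat_lit 0) (nat_lit 0) (XT.lf (nat_lit 76) (nat_lit 6707024915) (nat_lit 0) (nat_lit 14036905273) (nat_lit 1900) (nat_lit 2977052426) (nat_lit 483) (nat_lit 5) (nat_lit 482) (nat_lit 5) (nat_lit 507) (nat_lit 5) (nat_lit 620) (nat_lit 597) (nat_lit 343)) (XT.lf (nat_lit 76) (nat_lit 19602206091) (nat_lit 0) (nat_lit 3270742582) (nat_lit 1900) (nat_lit 1100838145) (nat_lit 483) (nat_lit 5) (nat_lit 482) (nat_lit 5) (nat_lit 507) (nat_lit 5) (nat_lit 621) (nat_lit 597) (nat_lit 342))) (XT.nd (nat_lit 78) (nat_lit 1064) (nat_lit 0) (XT.lf (nat_lit 0) (nat_lit 905477135) (nat_lit 1900) (nat_lit 15652190318) (nat_lit 76) (nat_lit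 7671809521) (nat_lit 458) (nat_lit 5) (nat_lit 483) (nat_lit 5) (nat_lit 459) (nat_lit 5) (nat_lit 622) (nat_lit 597) (nat_lit 341)) (XT.nd (nat_lit 78) (nat_lit 1064) (nat_lit 0) (XT.lf (nat_lit 0) (nat_lit 2985173705) (nat_lit 1900) (nat_lit 2677264506) (nat_lit 76) (nat_lit 18826737470) (nat_lit 458) (nat_lit 5) (nat_lit 483) (nat_lit 5) (nat_lit 459) (nat_lit 5) (nat_lit 623) (nat_lit 597) (nat_lit 340)) (XT.lf (nat_lit 0) (nat_lit 5208606860) (nat_lit 1140) (nat_lit 14093931642) (nat_lit 76) (nat_lit 5449487187) (nat_lit 444) (nat_lit 5) (nat_lit 459) (nat_lit 5) (nat_lit 445) (nat_lit 5) (nat_lit 624) (nat_lit 597) (nat_lit 339)))))) (XT.nd (nat_lit 390) (nat_lit 2584) (nat_lit 0) (XT.nd (nat_lit 156) (nat_lit 1748) (nat_lit 0) (XT.nd (nat_lit 78) (nat_lit 912) (nat_lit 0) (XT.lf (nat_lit 0) (nat_lit 7528993255) (nat_lit 1140) (nat_lit 763746839) (nat_lit 76) (nat_lit 16726343087) (nat_lit 444) (nat_lit 5) (nat_lit 459) (nat_lit 5) (nat_lit 445) (nat_lit 5) (nat_lit 625) (nat_lit 597) (nat_lit 338))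 (XT.lf (nat_lit 0) (nat_lit 9996789604) (nat_lit 988) (nat_lit 12308687261) (nat_lit 76) (nat_lit 2983985087) (nat_lit 432) (nat_lit 5) (nat_lit 445) (nat_lit 5) (nat_lit 433) (nat_lit 5) (nat_lit 626) (nat_lit 597) (nat_lit 337))) (XT.nd (nat_lit 78) (nat_lit 836) (nat_lit 0) (XT.lf (nat_lit 0) (nat_lit 1406087580) (nat_lit 912) (nat_lit 11174065946) (nat_lit 988) (nat_lit 12983770709) (nat_lit 420) (nat_lit 5) (nat_lit 432) (nat_lit 5) (nat_lit 433) (nat_lit 5) (nat_lit 627) (nat_lit 597) (nat_lit 336)) (XT.nd (nat_lit 78) (nat_lit 836) (nat_lit 0) (XT.lf (nat_lit 0) (nat_lit 15296544380) (nat_lit 988) (nat_lit 10284770351) (nat_lit 76) (nat_lit 260934004) (nat_lit 420) (nat_lit 5) (nat_lit 433) (nat_lit 5) (nat_lit 421) (nat_lit 5) (nat_lit 628) (nat_lit 597) (nat_lit 335)) (XT.lf (nat_lit 0) (nat_lit 3839329510) (nat_lit 836) (nat_lit 14323965739) (nat_lit 912) (nat_lit 7960923996) (nat_lit 409) (nat_lit 5) (nat_lit 420) (nat_lit 5) (nat_lit 421) (nat_lit 5) (nat_lit 629) (nat_lit 597) (nat_lit 334)))))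 (XT.nd (nat_lit 234) (nat_lit 1672) (nat_lit 0) (XT.nd (nat_lit 78) (nat_lit 912) (nat_lit 0) (XT.lf (nat_lit 0) (nat_lit 18382561603) (nat_lit 836) (nat_lit 2770978885) (nat_lit 912) (nat_lit 5256965650) (nat_lit 409) (nat_lit 5) (nat_lit 420) (nat_lit 5) (nat_lit 421) (nat_lit 5) (nat_lit 630) (nat_lit 597) (nat_lit 333)) (XT.nd (nat_lit 78) (nat_lit 76) (nat_lit 0) (XT.lf (nat_lit 0) (nat_lit 6538610668) (nat_lit 836) (nat_lit 17763151521) (nat_lit 912) (nat_lit 2398793303) (nat_lit 398) (nat_lit 5) (nat_lit 409) (nat_lit 5) (nat_lit 410) (nat_lit 5) (nat_lit 631) (nat_lit 597) (nat_lit 332)) (XT.lf (nat_lit 0) (nat_lit 579565663) (nat_lit 912) (nat_lit 5514855947) (nat_lit 76) (nat_lit 20900521347) (nat_lit 397) (nat_lit 5) (nat_lit 409) (nat_lit 5) (nat_lit 398) (nat_lit 5) (nat_lit 632) (nat_lit 597) (nat_lit 331)))) (XT.nd (nat_lit 78) (nat_lit 836) (nat_lit 0) (XT.lf (nat_lit 0) (nat_lit 3682782516) (nat_lit 912) (nat_lit 17800372384) (nat_lit 76) (nat_lit 5809798085) (nat_lit 386) (nat_lit 5) (nat_lit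 398) (nat_lit 5) (nat_lit 387) (nat_lit 5) (nat_lit 633) (nat_lit 597) (nat_lit 330)) (XT.nd (nat_lit 78) (nat_lit 836) (nat_lit 0) (XT.lf (nat_lit 0) (nat_lit 6922985430) (nat_lit 912) (nat_lit 2764632706) (nat_lit 76) (nat_lit 17907806789) (nat_lit 386) (nat_lit 5) (nat_lit 398) (nat_lit 5) (nat_lit 387) (nat_lit 5) (nat_lit 634) (nat_lit 597) (nat_lit 329)) (XT.lf (nat_lit 0) (nat_lit 10323810187) (nat_lit 912) (nat_lit 15181962741) (nat_lit 76) (nat_lit 2396257161) (nat_lit 375) (nat_lit 5) (nat_lit 387) (nat_lit 5) (nat_lit 376) (nat_lit 5) (nat_lit 635) (nat_lit 597) (nat_lit 328))))))))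
noncomputable def xc215 : XT := (XT.nd (nat_lit 1560) (nat_lit 2280) (nat_lit 0) (XT.nd (nat_lit 780) (nat_lit 3268) (nat_lit 0) (XT.nd (nat_lit 390) (nat_lit 2128) (nat_lit 0) (XT.nd (nat_lit 156) (nat_lit 1520) (nat_lit 0) (XT.nd (nat_lit 78) (nat_lit 0) (nat_lit 0) (XT.lf (nat_lit 0) (nat_lit 274111213) (nat_lit 760) (nat_lit 13600546442) (nat_lit 836) (nat_lit 14338469718) (nat_lit 365) (nat_lit 5) (nat_lit 375) (nat_lit 5) (nat_lit 376) (nat_lit 5) (nat_lit 636) (nat_lit 597) (nat_lit 327)) (XT.lf (nat_lit 0) (nat_lit 16242375261) (nat_lit 760) (nat_lit 1353454234) (nat_lit 836) (nat_lit 10932631093) (nat_lit 365) (nat_lit 5) (nat_lit 375) (nat_lit 5) (nat_lit 376) (nat_lit 5) (nat_lit 637) (nat_lit 597) (nat_lit 326))) (XT.nd (nat_lit 78) (nat_lit 760) (nat_lit 0) (XT.lf (nat_lit 0) (nat_lit 3652768807) (nat_lit 760) (nat_lit 17832169106) (nat_lit 836) (nat_lit 7363292425) (nat_lit 355) (nat_lit 5) (nat_lit 365) (nat_lit 5) (nat_lit 366) (nat_lit 5) (nat_lit 638) (nat_lit 597) (nat_lit 325)) (XT.nd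 (nat_lit 78) (nat_lit 760) (nat_lit 0) (XT.lf (nat_lit 0) (nat_lit 20065153684) (nat_lit 760) (nat_lit 5475535005) (nat_lit 836) (nat_lit 3631929721) (nat_lit 355) (nat_lit 5) (nat_lit 365) (nat_lit 5) (nat_lit 366) (nat_lit 5) (nat_lit 639) (nat_lit 597) (nat_lit 324)) (XT.lf (nat_lit 0) (nat_lit 263941226) (nat_lit 760) (nat_lit 22153695804) (nat_lit 76) (nat_lit 7083991462) (nat_lit 345) (nat_lit 5) (nat_lit 355) (nat_lit 5) (nat_lit 346) (nat_lit 5) (nat_lit 640) (nat_lit 597) (nat_lit 323))))) (XT.nd (nat_lit 156) (nat_lit 1368) (nat_lit 0) (XT.nd (nat_lit 78) (nat_lit 760) (nat_lit 0) (XT.lf (nat_lit 0) (nat_lit 4284497588) (nat_lit 760) (nat_lit 5643537653) (nat_lit 76) (nat_lit 19906795525) (nat_lit 345) (nat_lit 5) (nat_lit 355) (nat_lit 5) (nat_lit 346) (nat_lit 5) (nat_lit 641) (nat_lit 597) (nat_lit 322)) (XT.lf (nat_lit 0) (nat_lit 8475469236) (nat_lit 836) (nat_lit 18849083854) (nat_lit 76) (nat_lit 2848344033) (nat_lit 335) (nat_lit 5) (nat_lit 346) (nat_lit 5) (nat_lit 336) (nat_lit 5) (nat_lit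 642) (nat_lit 597) (nat_lit 321))) (XT.nd (nat_lit 78) (nat_lit 1368) (nat_lit 0) (XT.lf (nat_lit 0) (nat_lit 12851777671) (nat_lit 836) (nat_lit 1878644688) (nat_lit 76) (nat_lit 15785272221) (nat_lit 335) (nat_lit 5) (nat_lit 346) (nat_lit 5) (nat_lit 336) (nat_lit 5) (nat_lit 643) (nat_lit 597) (nat_lit 320)) (XT.nd (nat_lit 78) (nat_lit 684) (nat_lit 0) (XT.lf (nat_lit 0) (nat_lit 15633604749) (nat_lit 684) (nat_lit 1781204263) (nat_lit 760) (nat_lit 13448555154) (nat_lit 326) (nat_lit 5) (nat_lit 335) (nat_lit 5) (nat_lit 336) (nat_lit 5) (nat_lit 644) (nat_lit 597) (nat_lit 319)) (XT.lf (nat_lit 0) (nat_lit 2256486585) (nat_lit 684) (nat_lit 19911865870) (nat_lit 760) (nat_lit 9047649775) (nat_lit 317) (nat_lit 5) (nat_lit 326) (nat_lit 5) (nat_lit 327) (nat_lit 5) (nat_lit 645) (nat_lit 597) (nat_lit 318)))))) (XT.nd (nat_lit 390) (nat_lit 1900) (nat_lit 0) (XT.nd (nat_lit 156) (nat_lit 684) (nat_lit 0) (XT.nd (nat_lit 78) (nat_lit 684) (nat_lit 0) (XT.lf (nat_lit 0) (nat_lit 20284303411) (nat_lit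 684) (nat_lit 6844328090) (nat_lit 760) (nat_lit 4444828369) (nat_lit 317) (nat_lit 5) (nat_lit 326) (nat_lit 5) (nat_lit 327) (nat_lit 5) (nat_lit 646) (nat_lit 597) (nat_lit 317)) (XT.lf (nat_lit 0) (nat_lit 331228230) (nat_lit 684) (nat_lit 25159789742) (nat_lit 76) (nat_lit 6445327167) (nat_lit 308) (nat_lit 5) (nat_lit 317) (nat_lit 5) (nat_lit 309) (nat_lit 5) (nat_lit 647) (nat_lit 597) (nat_lit 316))) (XT.nd (nat_lit 78) (nat_lit 684) (nat_lit 0) (XT.lf (nat_lit 0) (nat_lit 5262729973) (nat_lit 684) (nat_lit 7026274962) (nat_lit 76) (nat_lit 20014506869) (nat_lit 308) (nat_lit 5) (nat_lit 317) (nat_lit 5) (nat_lit 309) (nat_lit 5) (nat_lit 648) (nat_lit 597) (nat_lit 315)) (XT.nd (nat_lit 78) (nat_lit 0) (nat_lit 0) (XT.lf (nat_lit 0) (nat_lit 10374286784) (nat_lit 760) (nat_lit 21064985181) (nat_lit 76) (nat_lit 1237121442) (nat_lit 299) (nat_lit 5) (nat_lit 309) (nat_lit 5) (nat_lit 300) (nat_lit 5) (nat_lit 649) (nat_lit 597) (nat_lit 314)) (XT.lf (nat_lit 0) (nat_lit 15714786991) (nat_lit 760)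 (nat_lit 2423015438) (nat_lit 76) (nat_lit 14916396068) (nat_lit 299) (nat_lit 5) (nat_lit 309) (nat_lit 5) (nat_lit 300) (nat_lit 5) (nat_lit 650) (nat_lit 597) (nat_lit 313))))) (XT.nd (nat_lit 156) (nat_lit 684) (nat_lit 0) (XT.nd (nat_lit 78) (nat_lit 608) (nat_lit 0) (XT.lf (nat_lit 0) (nat_lit 16809689631) (nat_lit 608) (nat_lit 4459454937) (nat_lit 684) (nat_lit 12168274273) (nat_lit 291) (nat_lit 5) (nat_lit 299) (nat_lit 5) (nat_lit 300) (nat_lit 5) (nat_lit 651) (nat_lit 597) (nat_lit 312)) (XT.lf (nat_lit 0) (nat_lit 2601710277) (nat_lit 608) (nat_lit 24425698842) (nat_lit 684) (nat_lit 6799038174) (nat_lit 283) (nat_lit 5) (nat_lit 291) (nat_lit 5) (nat_lit 292) (nat_lit 5) (nat_lit 652) (nat_lit 597) (nat_lit 311))) (XT.nd (nat_lit 78) (nat_lit 684) (nat_lit 0) (XT.lf (nat_lit 0) (nat_lit 22408635920) (nat_lit 608) (nat_lit 10631075351) (nat_lit 684) (nat_lit 1180767692) (nat_lit 283) (nat_lit 5) (nat_lit 291) (nat_lit 5) (nat_lit 292) (nat_lit 5) (nat_lit 653) (nat_lit 597) (nat_lit 310))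 (XT.nd (nat_lit 78) (nat_lit 0) (nat_lit 0) (XT.lf (nat_lit 0) (nat_lit 4563395761) (nat_lit 684) (nat_lit 26580695781) (nat_lit 76) (nat_lit 3476245003) (nat_lit 274) (nat_lit 5) (nat_lit 283) (nat_lit 5) (nat_lit 275) (nat_lit 5) (nat_lit 654) (nat_lit 597) (nat_lit 309)) (XT.lf (nat_lit 0) (nat_lit 10554839318) (nat_lit 684) (nat_lit 6659655104) (nat_lit 76) (nat_lit 17810576702) (nat_lit 274) (nat_lit 5) (nat_lit 283) (nat_lit 5) (nat_lit 275) (nat_lit 5) (nat_lit 655) (nat_lit 597) (nat_lit 308))))))) (XT.nd (nat_lit 76986) (nat_lit 0) (nat_lit 17480) (XT.nd (nat_lit 390) (nat_lit 532) (nat_lit 0) (XT.nd (nat_lit 156) (nat_lit 1140) (nat_lit 0) (XT.nd (nat_lit 78) (nat_lit 0) (nat_lit 0) (XT.lf (nat_lit 0) (nat_lit 13838787973) (nat_lit 608) (nat_lit 2915213043) (nat_lit 684) (nat_lit 18682141681) (nat_lit 266) (nat_lit 5) (nat_lit 274) (nat_lit 5) (nat_lit 275) (nat_lit 5) (nat_lit 656) (nat_lit 597) (nat_lit 307)) (XT.lf (nat_lit 0) (nat_lit 23195958692) (nat_lit 684) (nat_lit 1095669583) (nat_lit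 76) (nat_lit 11561431258) (nat_lit 266) (nat_lit 5) (nat_lit 275) (nat_lit 5) (nat_lit 267) (nat_lit 5) (nat_lit 657) (nat_lit 597) (nat_lit 306))) (XT.nd (nat_lit 78) (nat_lit 608) (nat_lit 0) (XT.lf (nat_lit 0) (nat_lit 20057312916) (nat_lit 532) (nat_lit 9857069387) (nat_lit 608) (nat_lit 6360979953) (nat_lit 259) (nat_lit 5) (nat_lit 266) (nat_lit 5) (nat_lit 267) (nat_lit 5) (nat_lit 658) (nat_lit 597) (nat_lit 305)) (XT.nd (nat_lit 78) (nat_lit 0) (nat_lit 0) (XT.lf (nat_lit 0) (nat_lit 130120669) (nat_lit 608) (nat_lit 31732256326) (nat_lit 76) (nat_lit 4842329027) (nat_lit 251) (nat_lit 5) (nat_lit 259) (nat_lit 5) (nat_lit 252) (nat_lit 5) (nat_lit 659) (nat_lit 597) (nat_lit 304)) (XT.lf (nat_lit 0) (nat_lit 6838901675) (nat_lit 608) (nat_lit 10444498165) (nat_lit 76) (nat_lit 19854935342) (nat_lit 251) (nat_lit 5) (nat_lit 259) (nat_lit 5) (nat_lit 252) (nat_lit 5) (nat_lit 660) (nat_lit 597) (nat_lit 303))))) (XT.nd (nat_lit 76362) (nat_lit 0) (nat_lit 19152) (XT.nd (nat_lit 76284) (nat_lit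 0) (nat_lit 19152) (XT.lf (nat_lit 0) (nat_lit 11416279227) (nat_lit 532) (nat_lit 2337859253) (nat_lit 608) (nat_lit 23825052922) (nat_lit 244) (nat_lit 5) (nat_lit 251) (nat_lit 5) (nat_lit 252) (nat_lit 5) (nat_lit 661) (nat_lit 597) (nat_lit 302)) (XT.lf (nat_lit 0) (nat_lit 4203307913) (nat_lit 0) (nat_lit 4203307913) (nat_lit 1748) (nat_lit 1169980320) (nat_lit 496) (nat_lit 5) (nat_lit 496) (nat_lit 3) (nat_lit 519) (nat_lit 3) (nat_lit 598) (nat_lit 598) (nat_lit 364))) (XT.nd (nat_lit 78) (nat_lit 0) (nat_lit 0) (XT.lf (nat_lit 0) (nat_lit 17167875124) (nat_lit 1748) (nat_lit 1251606813) (nat_lit 1824) (nat_lit 921500818) (nat_lit 496) (nat_lit 5) (nat_lit 519) (nat_lit 3) (nat_lit 520) (nat_lit 5) (nat_lit 599) (nat_lit 598) (nat_lit 363)) (XT.nd (nat_lit 78) (nat_lit 0) (nat_lit 76) (XT.lf (nat_lit 76) (nat_lit 8486413174) (nat_lit 0) (nat_lit 9149252798) (nat_lit 1824) (nat_lit 1894742260) (nat_lit 497) (nat_lit 5) (nat_lit 496) (nat_lit 5) (nat_lit 520) (nat_lit 5) (nat_lit 600) (nat_lit 598)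 (nat_lit 362)) (XT.lf (nat_lit 0) (nat_lit 18118629251) (nat_lit 1748) (nat_lit 1291907589) (nat_lit 1824) (nat_lit 312969335) (nat_lit 497) (nat_lit 5) (nat_lit 520) (nat_lit 5) (nat_lit 521) (nat_lit 5) (nat_lit 601) (nat_lit 598) (nat_lit 361)))))) (XT.nd (nat_lit 390) (nat_lit 0) (nat_lit 76) (XT.nd (nat_lit 156) (nat_lit 1748) (nat_lit 0) (XT.nd (nat_lit 78) (nat_lit 0) (nat_lit 0) (XT.lf (nat_lit 76) (nat_lit 8706297641) (nat_lit 0) (nat_lit 10017535841) (nat_lit 1824) (nat_lit 1194381244) (nat_lit 498) (nat_lit 5) (nat_lit 497) (nat_lit 5) (nat_lit 521) (nat_lit 5) (nat_lit 602) (nat_lit 598) (nat_lit 360)) (XT.lf (nat_lit 76) (nat_lit 18919478119) (nat_lit 0) (nat_lit 425869323) (nat_lit 1824) (nat_lit 771386171) (nat_lit 498) (nat_lit 5) (nat_lit 497) (nat_lit 5) (nat_lit 521) (nat_lit 5) (nat_lit 603) (nat_lit 598) (nat_lit 359))) (XT.nd (nat_lit 78) (nat_lit 1824) (nat_lit 0) (XT.lf (nat_lit 76) (nat_lit 9073390271) (nat_lit 0) (nat_lit 11021204102) (nat_lit 1824) (nat_lit 222322723) (nat_lit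 499) (nat_lit 5) (nat_lit 498) (nat_lit 5) (nat_lit 522) (nat_lit 5) (nat_lit 604) (nat_lit 598) (nat_lit 358)) (XT.nd (nat_lit 78) (nat_lit 0) (nat_lit 76) (XT.lf (nat_lit 0) (nat_lit 339877134) (nat_lit 1824) (nat_lit 962924929) (nat_lit 1900) (nat_lit 19218126906) (nat_lit 474) (nat_lit 5) (nat_lit 498) (nat_lit 5) (nat_lit 499) (nat_lit 5) (nat_lit 605) (nat_lit 598) (nat_lit 357)) (XT.lf (nat_lit 0) (nat_lit 1025072258) (nat_lit 1824) (nat_lit 11138380777) (nat_lit 1900) (nat_lit 8563244345) (nat_lit 475) (nat_lit 5) (nat_lit 499) (nat_lit 5) (nat_lit 500) (nat_lit 5) (nat_lit 606) (nat_lit 598) (nat_lit 356))))) (XT.nd (nat_lit 234) (nat_lit 0) (nat_lit 152) (XT.nd (nat_lit 78) (nat_lit 0) (nat_lit 76) (XT.lf (nat_lit 0) (nat_lit 1734942486) (nat_lit 1824) (nat_lit 584106865) (nat_lit 1900) (nat_lit 18617312637) (nat_lit 475) (nat_lit 5) (nat_lit 499) (nat_lit 5) (nat_lit 500) (nat_lit 5) (nat_lit 607) (nat_lit 598) (nat_lit 355)) (XT.nd (nat_lit 78) (nat_lit 0) (nat_lit 0) (XT.lf (nat_lit 0) (nat_lit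 2572486790) (nat_lit 1824) (nat_lit 10885600368) (nat_lit 1900) (nat_lit 7689863442) (nat_lit 476) (nat_lit 5) (nat_lit 500) (nat_lit 5) (nat_lit 501) (nat_lit 5) (nat_lit 608) (nat_lit 598) (nat_lit 354)) (XT.lf (nat_lit 0) (nat_lit 3442078916) (nat_lit 1824) (nat_lit 48064085) (nat_lit 1900) (nat_lit 17873322287) (nat_lit 476) (nat_lit 5) (nat_lit 500) (nat_lit 5) (nat_lit 501) (nat_lit 5) (nat_lit 609) (nat_lit 598) (nat_lit 353)))) (XT.nd (nat_lit 78) (nat_lit 0) (nat_lit 0) (XT.lf (nat_lit 0) (nat_lit 4441367798) (nat_lit 1824) (nat_lit 10475896456) (nat_lit 1900) (nat_lit 6663780155) (nat_lit 477) (nat_lit 5) (nat_lit 501) (nat_lit 5) (nat_lit 502) (nat_lit 5) (nat_lit 610) (nat_lit 598) (nat_lit 352)) (XT.nd (nat_lit 78) (nat_lit 0) (nat_lit 76) (XT.lf (nat_lit 76) (nat_lit 662014928) (nat_lit 0) (nat_lit 4822504624) (nat_lit 1900) (nat_lit 16317978249) (nat_lit 478) (nat_lit 5) (nat_lit 477) (nat_lit 5) (nat_lit 502) (nat_lit 5) (nat_lit 611) (nat_lit 598) (nat_lit 351)) (XT.lf (nat_lit 0) (nat_lit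 6651047196) (nat_lit 1824) (nat_lit 9901018803) (nat_lit 1900) (nat_lit 5474264234) (nat_lit 478) (nat_lit 5) (nat_lit 502) (nat_lit 5) (nat_lit 503) (nat_lit 5) (nat_lit 612) (nat_lit 598) (nat_lit 350))))))))
noncomputable def xc216 : XT := (XT.nd (nat_lit 1560) (nat_lit 8132) (nat_lit 0) (XT.nd (nat_lit 780) (nat_lit 6080) (nat_lit 0) (XT.nd (nat_lit 390) (nat_lit 0) (nat_lit 228) (XT.nd (nat_lit 156) (nat_lit 0) (nat_lit 76) (XT.nd (nat_lit 78) (nat_lit 0) (nat_lit 76) (XT.lf (nat_lit 76) (nat_lit 1548940276) (nat_lit 0) (nat_lit 6330240064) (nat_lit 1900) (nat_lit 14374693698) (nat_lit 479) (nat_lit 5) (nat_lit 478) (nat_lit 5) (nat_lit 503) (nat_lit 5) (nat_lit 613) (nat_lit 598) (nat_lit 349)) (XT.lf (nat_lit 0) (nat_lit 9221694618) (nat_lit 1824) (nat_lit 9152298790) (nat_lit 1900) (nat_lit 4110179161) (nat_lit 479) (nat_lit 5) (nat_lit 503) (nat_lit 5) (nat_lit 504) (nat_lit 5) (nat_lit 614) (nat_lit 598) (nat_lit 348))) (XT.nd (nat_lit 78) (nat_lit 0) (nat_lit 76) (XT.lf (nat_lit 76) (nat_lit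 2621163158) (nat_lit 0) (nat_lit 8025251494) (nat_lit 1900) (nat_lit 12071555524) (nat_lit 480) (nat_lit 5) (nat_lit 479) (nat_lit 5) (nat_lit 504) (nat_lit 5) (nat_lit 615) (nat_lit 598) (nat_lit 347)) (XT.nd (nat_lit 78) (nat_lit 0) (nat_lit 0) (XT.lf (nat_lit 0) (nat_lit 12174355689) (nat_lit 1824) (nat_lit 8220634914) (nat_lit 1900) (nat_lit 2559958810) (nat_lit 480) (nat_lit 5) (nat_lit 504) (nat_lit 5) (nat_lit 505) (nat_lit 5) (nat_lit 616) (nat_lit 598) (nat_lit 346)) (XT.lf (nat_lit 76) (nat_lit 3888222233) (nat_lit 0) (nat_lit 9919568403) (nat_lit 1900) (nat_lit 9387379104) (nat_lit 481) (nat_lit 5) (nat_lit 480) (nat_lit 5) (nat_lit 505) (nat_lit 5) (nat_lit 617) (nat_lit 598) (nat_lit 345))))) (XT.nd (nat_lit 156) (nat_lit 0) (nat_lit 0) (XT.nd (nat_lit 78) (nat_lit 0) (nat_lit 0) (XT.lf (nat_lit 0) (nat_lit 15530991710) (nat_lit 1824) (nat_lit 7096477587) (nat_lit 1900) (nat_lit 811583430) (nat_lit 481) (nat_lit 5) (nat_lit 505) (nat_lit 5) (nat_lit 506) (nat_lit 5) (nat_lit 618) (nat_lit 598)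 (nat_lit 344)) (XT.lf (nat_lit 76) (nat_lit 5360120687) (nat_lit 0) (nat_lit 12025694859) (nat_lit 1900) (nat_lit 6300054852) (nat_lit 482) (nat_lit 5) (nat_lit 481) (nat_lit 5) (nat_lit 506) (nat_lit 5) (nat_lit 619) (nat_lit 598) (nat_lit 343))) (XT.nd (nat_lit 78) (nat_lit 0) (nat_lit 76) (XT.lf (nat_lit 76) (nat_lit 18159375746) (nat_lit 0) (nat_lit 1162694051) (nat_lit 1900) (nat_lit 4614668140) (nat_lit 482) (nat_lit 5) (nat_lit 481) (nat_lit 5) (nat_lit 506) (nat_lit 5) (nat_lit 620) (nat_lit 598) (nat_lit 342)) (XT.nd (nat_lit 78) (nat_lit 0) (nat_lit 0) (XT.lf (nat_lit 76) (nat_lit 7047342795) (nat_lit 0) (nat_lit 14356635005) (nat_lit 1900) (nat_lit 2786506643) (nat_lit 483) (nat_lit 5) (nat_lit 482) (nat_lit 5) (nat_lit 507) (nat_lit 5) (nat_lit 621) (nat_lit 598) (nat_lit 341)) (XT.lf (nat_lit 76) (nat_lit 20196384901) (nat_lit 0) (nat_lit 3374384519) (nat_lit 1900) (nat_lit 877671740) (nat_lit 483) (nat_lit 5) (nat_lit 482) (nat_lit 5) (nat_lit 507) (nat_lit 5) (nat_lit 622) (nat_lit 598) (nat_lit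 340)))))) (XT.nd (nat_lit 390) (nat_lit 2584) (nat_lit 0) (XT.nd (nat_lit 156) (nat_lit 1976) (nat_lit 0) (XT.nd (nat_lit 78) (nat_lit 0) (nat_lit 0) (XT.lf (nat_lit 0) (nat_lit 1161910130) (nat_lit 1900) (nat_lit 15756212228) (nat_lit 76) (nat_lit 7791164076) (nat_lit 458) (nat_lit 5) (nat_lit 483) (nat_lit 5) (nat_lit 459) (nat_lit 5) (nat_lit 623) (nat_lit 598) (nat_lit 339)) (XT.lf (nat_lit 0) (nat_lit 3278527623) (nat_lit 1900) (nat_lit 2525886369) (nat_lit 76) (nat_lit 19169858851) (nat_lit 458) (nat_lit 5) (nat_lit 483) (nat_lit 5) (nat_lit 459) (nat_lit 5) (nat_lit 624) (nat_lit 598) (nat_lit 338))) (XT.nd (nat_lit 78) (nat_lit 912) (nat_lit 0) (XT.lf (nat_lit 0) (nat_lit 5542995700) (nat_lit 1140) (nat_lit 14167440026) (nat_lit 76) (nat_lit 5532013061) (nat_lit 444) (nat_lit 5) (nat_lit 459) (nat_lit 5) (nat_lit 445) (nat_lit 5) (nat_lit 625) (nat_lit 598) (nat_lit 337)) (XT.nd (nat_lit 78) (nat_lit 912) (nat_lit 0) (XT.lf (nat_lit 0) (nat_lit 7905275771) (nat_lit 1140) (nat_lit 574737218) (nat_lit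 76) (nat_lit 17034924979) (nat_lit 444) (nat_lit 5) (nat_lit 459) (nat_lit 5) (nat_lit 445) (nat_lit 5) (nat_lit 626) (nat_lit 598) (nat_lit 336)) (XT.lf (nat_lit 0) (nat_lit 10419192521) (nat_lit 988) (nat_lit 12347328350) (nat_lit 76) (nat_lit 3024268404) (nat_lit 432) (nat_lit 5) (nat_lit 445) (nat_lit 5) (nat_lit 433) (nat_lit 5) (nat_lit 627) (nat_lit 598) (nat_lit 335))))) (XT.nd (nat_lit 156) (nat_lit 1672) (nat_lit 0) (XT.nd (nat_lit 78) (nat_lit 0) (nat_lit 0) (XT.lf (nat_lit 0) (nat_lit 1640376641) (nat_lit 912) (nat_lit 11410823555) (nat_lit 988) (nat_lit 13019601325) (nat_lit 420) (nat_lit 5) (nat_lit 432) (nat_lit 5) (nat_lit 433) (nat_lit 5) (nat_lit 628) (nat_lit 598) (nat_lit 334)) (XT.lf (nat_lit 0) (nat_lit 15817531544) (nat_lit 988) (nat_lit 10283941535) (nat_lit 76) (nat_lit 253307421) (nat_lit 420) (nat_lit 5) (nat_lit 433) (nat_lit 5) (nat_lit 421) (nat_lit 5) (nat_lit 629) (nat_lit 598) (nat_lit 333))) (XT.nd (nat_lit 78) (nat_lit 836) (nat_lit 0) (XT.lf (nat_lit 0) (nat_lit 4121281610)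 (nat_lit 836) (nat_lit 14617451100) (nat_lit 912) (nat_lit 7903715640) (nat_lit 409) (nat_lit 5) (nat_lit 420) (nat_lit 5) (nat_lit 421) (nat_lit 5) (nat_lit 630) (nat_lit 598) (nat_lit 332)) (XT.nd (nat_lit 78) (nat_lit 836) (nat_lit 0) (XT.lf (nat_lit 0) (nat_lit 18951355492) (nat_lit 836) (nat_lit 2833267135) (nat_lit 912) (nat_lit 5149921791) (nat_lit 409) (nat_lit 5) (nat_lit 420) (nat_lit 5) (nat_lit 421) (nat_lit 5) (nat_lit 631) (nat_lit 598) (nat_lit 331)) (XT.lf (nat_lit 0) (nat_lit 6873390931) (nat_lit 836) (nat_lit 18119620013) (nat_lit 912) (nat_lit 2237440001) (nat_lit 398) (nat_lit 5) (nat_lit 409) (nat_lit 5) (nat_lit 410) (nat_lit 5) (nat_lit 632) (nat_lit 598) (nat_lit 330))))))) (XT.nd (nat_lit 780) (nat_lit 4104) (nat_lit 0) (XT.nd (nat_lit 390) (nat_lit 1520) (nat_lit 0) (XT.nd (nat_lit 156) (nat_lit 1596) (nat_lit 0) (XT.nd (nat_lit 78) (nat_lit 836) (nat_lit 0) (XT.lf (nat_lit 0) (nat_lit 793690093) (nat_lit 912) (nat_lit 5422442670) (nat_lit 76) (nat_lit 21314647445) (nat_lit 397)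 (nat_lit 5) (nat_lit 409) (nat_lit 5) (nat_lit 398) (nat_lit 5) (nat_lit 633) (nat_lit 598) (nat_lit 329)) (XT.lf (nat_lit 0) (nat_lit 3956317304) (nat_lit 912) (nat_lit 17951004726) (nat_lit 76) (nat_lit 5927481701) (nat_lit 386) (nat_lit 5) (nat_lit 398) (nat_lit 5) (nat_lit 387) (nat_lit 5) (nat_lit 634) (nat_lit 598) (nat_lit 328))) (XT.nd (nat_lit 78) (nat_lit 1596) (nat_lit 0) (XT.lf (nat_lit 0) (nat_lit 7257405078) (nat_lit 912) (nat_lit 2618577217) (nat_lit 76) (nat_lit 18267421409) (nat_lit 386) (nat_lit 5) (nat_lit 398) (nat_lit 5) (nat_lit 387) (nat_lit 5) (nat_lit 635) (nat_lit 598) (nat_lit 327)) (XT.nd (nat_lit 78) (nat_lit 760) (nat_lit 0) (XT.lf (nat_lit 0) (nat_lit 10723745561) (nat_lit 912) (nat_lit 15281742770) (nat_lit 76) (nat_lit 2450702862) (nat_lit 375) (nat_lit 5) (nat_lit 387) (nat_lit 5) (nat_lit 376) (nat_lit 5) (nat_lit 636) (nat_lit 598) (nat_lit 326)) (XT.lf (nat_lit 0) (nat_lit 482111484) (nat_lit 760) (nat_lit 13861020059) (nat_lit 836) (nat_lit 14430428650) (nat_lit 365)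 (nat_lit 5) (nat_lit 375) (nat_lit 5) (nat_lit 376) (nat_lit 5) (nat_lit 637) (nat_lit 598) (nat_lit 325))))) (XT.nd (nat_lit 156) (nat_lit 760) (nat_lit 0) (XT.nd (nat_lit 78) (nat_lit 760) (nat_lit 0) (XT.lf (nat_lit 0) (nat_lit 16765769871) (nat_lit 760) (nat_lit 1369212229) (nat_lit 836) (nat_lit 10960293066) (nat_lit 365) (nat_lit 5) (nat_lit 375) (nat_lit 5) (nat_lit 376) (nat_lit 5) (nat_lit 638) (nat_lit 598) (nat_lit 324)) (XT.lf (nat_lit 0) (nat_lit 3926722034) (nat_lit 760) (nat_lit 18172855720) (nat_lit 836) (nat_lit 7321908650) (nat_lit 355) (nat_lit 5) (nat_lit 365) (nat_lit 5) (nat_lit 366) (nat_lit 5) (nat_lit 639) (nat_lit 598) (nat_lit 323))) (XT.nd (nat_lit 78) (nat_lit 760) (nat_lit 0) (XT.lf (nat_lit 0) (nat_lit 20663415435) (nat_lit 760) (nat_lit 5569401814) (nat_lit 836) (nat_lit 3519617705) (nat_lit 355) (nat_lit 5) (nat_lit 365) (nat_lit 5) (nat_lit 366) (nat_lit 5) (nat_lit 640) (nat_lit 598) (nat_lit 322)) (XT.nd (nat_lit 78) (nat_lit 0) (nat_lit 0) (XT.lf (nat_lit 0) (nat_lit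 449568052) (nat_lit 760) (nat_lit 22395189932) (nat_lit 76) (nat_lit 7243286959) (nat_lit 345) (nat_lit 5) (nat_lit 355) (nat_lit 5) (nat_lit 346) (nat_lit 5) (nat_lit 641) (nat_lit 598) (nat_lit 321)) (XT.lf (nat_lit 0) (nat_lit 4546999306) (nat_lit 760) (nat_lit 5558781163) (nat_lit 76) (nat_lit 20322201698) (nat_lit 345) (nat_lit 5) (nat_lit 355) (nat_lit 5) (nat_lit 346) (nat_lit 5) (nat_lit 642) (nat_lit 598) (nat_lit 320)))))) (XT.nd (nat_lit 390) (nat_lit 1976) (nat_lit 0) (XT.nd (nat_lit 156) (nat_lit 1368) (nat_lit 0) (XT.nd (nat_lit 78) (nat_lit 0) (nat_lit 0) (XT.lf (nat_lit 0) (nat_lit 8819739115) (nat_lit 836) (nat_lit 19026378213) (nat_lit 76) (nat_lit 2926733726) (nat_lit 335) (nat_lit 5) (nat_lit 346) (nat_lit 5) (nat_lit 336) (nat_lit 5) (nat_lit 643) (nat_lit 598) (nat_lit 319)) (XT.lf (nat_lit 0) (nat_lit 13280147042) (nat_lit 836) (nat_lit 1720445700) (nat_lit 76) (nat_lit 16121980422) (nat_lit 335) (nat_lit 5) (nat_lit 346) (nat_lit 5) (nat_lit 336) (nat_lit 5) (nat_lit 644) (nat_lit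 598) (nat_lit 318))) (XT.nd (nat_lit 78) (nat_lit 684) (nat_lit 0) (XT.lf (nat_lit 0) (nat_lit 16140760753) (nat_lit 684) (nat_lit 1791581489) (nat_lit 760) (nat_lit 13544896006) (nat_lit 326) (nat_lit 5) (nat_lit 335) (nat_lit 5) (nat_lit 336) (nat_lit 5) (nat_lit 645) (nat_lit 598) (nat_lit 317)) (XT.nd (nat_lit 78) (nat_lit 0) (nat_lit 0) (XT.lf (nat_lit 0) (nat_lit 2498028763) (nat_lit 684) (nat_lit 20281045361) (nat_lit 760) (nat_lit 9057892762) (nat_lit 317) (nat_lit 5) (nat_lit 326) (nat_lit 5) (nat_lit 327) (nat_lit 5) (nat_lit 646) (nat_lit 598) (nat_lit 316)) (XT.lf (nat_lit 0) (nat_lit 20882550702) (nat_lit 684) (nat_lit 6952726587) (nat_lit 760) (nat_lit 4366362183) (nat_lit 317) (nat_lit 5) (nat_lit 326) (nat_lit 5) (nat_lit 327) (nat_lit 5) (nat_lit 647) (nat_lit 598) (nat_lit 315))))) (XT.nd (nat_lit 156) (nat_lit 1292) (nat_lit 0) (XT.nd (nat_lit 78) (nat_lit 0) (nat_lit 0) (XT.lf (nat_lit 0) (nat_lit 501234902) (nat_lit 684) (nat_lit 25466427877) (nat_lit 76) (nat_lit 6604133802) (nat_lit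 308) (nat_lit 5) (nat_lit 317) (nat_lit 5) (nat_lit 309) (nat_lit 5) (nat_lit 648) (nat_lit 598) (nat_lit 314)) (XT.lf (nat_lit 0) (nat_lit 5528163110) (nat_lit 684) (nat_lit 6974096874) (nat_lit 76) (nat_lit 20444110822) (nat_lit 308) (nat_lit 5) (nat_lit 317) (nat_lit 5) (nat_lit 309) (nat_lit 5) (nat_lit 649) (nat_lit 598) (nat_lit 313))) (XT.nd (nat_lit 78) (nat_lit 608) (nat_lit 0) (XT.lf (nat_lit 0) (nat_lit 10740268494) (nat_lit 760) (nat_lit 21291891221) (nat_lit 76) (nat_lit 1294584127) (nat_lit 299) (nat_lit 5) (nat_lit 309) (nat_lit 5) (nat_lit 300) (nat_lit 5) (nat_lit 650) (nat_lit 598) (nat_lit 312)) (XT.nd (nat_lit 78) (nat_lit 608) (nat_lit 0) (XT.lf (nat_lit 0) (nat_lit 16184470941) (nat_lit 760) (nat_lit 2280893724) (nat_lit 76) (nat_lit 15246802672) (nat_lit 299) (nat_lit 5) (nat_lit 309) (nat_lit 5) (nat_lit 300) (nat_lit 5) (nat_lit 651) (nat_lit 598) (nat_lit 311)) (XT.lf (nat_lit 0) (nat_lit 17335211618) (nat_lit 608) (nat_lit 4512886469) (nat_lit 684) (nat_lit 12254990497) (nat_lit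 291) (nat_lit 5) (nat_lit 299) (nat_lit 5) (nat_lit 300) (nat_lit 5) (nat_lit 652) (nat_lit 598) (nat_lit 310))))))))
noncomputable def xc217 : XT := (XT.nd (nat_lit 77844) (nat_lit 0) (nat_lit 12844) (XT.nd (nat_lit 77064) (nat_lit 0) (nat_lit 16948) (XT.nd (nat_lit 390) (nat_lit 1140) (nat_lit 0) (XT.nd (nat_lit 156) (nat_lit 1292) (nat_lit 0) (XT.nd (nat_lit 78) (nat_lit 0) (nat_lit 0) (XT.lf (nat_lit 0) (nat_lit 2844654842) (nat_lit 608) (nat_lit 24875329024) (nat_lit 684) (nat_lit 6779944762) (nat_lit 283) (nat_lit 5) (nat_lit 291) (nat_lit 5) (nat_lit 292) (nat_lit 5) (nat_lit 653) (nat_lit 598) (nat_lit 309)) (XT.lf (nat_lit 0) (nat_lit 23043975657) (nat_lit 608) (nat_lit 10805575490) (nat_lit 684) (nat_lit 1052349540) (nat_lit 283) (nat_lit 5) (nat_lit 291) (nat_lit 5) (nat_lit 292) (nat_lit 5) (nat_lit 654) (nat_lit 598) (nat_lit 308))) (XT.nd (nat_lit 78) (nat_lit 608) (nat_lit 0) (XT.lf (nat_lit 0) (nat_lit 4803238551) (nat_lit 684) (nat_lit 26921670569) (nat_lit 76) (nat_lit 3584855986) (nat_lit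 274) (nat_lit 5) (nat_lit 283) (nat_lit 5) (nat_lit 275) (nat_lit 5) (nat_lit 655) (nat_lit 598) (nat_lit 307)) (XT.nd (nat_lit 78) (nat_lit 608) (nat_lit 0) (XT.lf (nat_lit 0) (nat_lit 10911597746) (nat_lit 684) (nat_lit 6605947101) (nat_lit 76) (nat_lit 18205107926) (nat_lit 274) (nat_lit 5) (nat_lit 283) (nat_lit 5) (nat_lit 275) (nat_lit 5) (nat_lit 656) (nat_lit 598) (nat_lit 306)) (XT.lf (nat_lit 0) (nat_lit 14301235225) (nat_lit 608) (nat_lit 2931856845) (nat_lit 684) (nat_lit 18908886848) (nat_lit 266) (nat_lit 5) (nat_lit 274) (nat_lit 5) (nat_lit 275) (nat_lit 5) (nat_lit 657) (nat_lit 598) (nat_lit 305))))) (XT.nd (nat_lit 156) (nat_lit 608) (nat_lit 0) (XT.nd (nat_lit 78) (nat_lit 532) (nat_lit 0) (XT.lf (nat_lit 0) (nat_lit 23801330338) (nat_lit 684) (nat_lit 932987250) (nat_lit 76) (nat_lit 11832967800) (nat_lit 266) (nat_lit 5) (nat_lit 275) (nat_lit 5) (nat_lit 267) (nat_lit 5) (nat_lit 658) (nat_lit 598) (nat_lit 304)) (XT.lf (nat_lit 0) (nat_lit 20641840454) (nat_lit 532) (nat_lit 10010699022)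 (nat_lit 608) (nat_lit 6345526471) (nat_lit 259) (nat_lit 5) (nat_lit 266) (nat_lit 5) (nat_lit 267) (nat_lit 5) (nat_lit 659) (nat_lit 598) (nat_lit 303))) (XT.nd (nat_lit 78) (nat_lit 0) (nat_lit 0) (XT.lf (nat_lit 0) (nat_lit 272249962) (nat_lit 608) (nat_lit 32180362005) (nat_lit 76) (nat_lit 4983391713) (nat_lit 251) (nat_lit 5) (nat_lit 259) (nat_lit 5) (nat_lit 252) (nat_lit 5) (nat_lit 660) (nat_lit 598) (nat_lit 302)) (XT.nd (nat_lit 76362) (nat_lit 0) (nat_lit 18620) (XT.lf (nat_lit 0) (nat_lit 7112470767) (nat_lit 608) (nat_lit 10470506317) (nat_lit 76) (nat_lit 20295383173) (nat_lit 251) (nat_lit 5) (nat_lit 259) (nat_lit 5) (nat_lit 252) (nat_lit 5) (nat_lit 661) (nat_lit 598) (nat_lit 301)) (XT.lf (nat_lit 0) (nat_lit 4377012599) (nat_lit 0) (nat_lit 4377012599) (nat_lit 1748) (nat_lit 1010506165) (nat_lit 496) (nat_lit 5) (nat_lit 496) (nat_lit 3) (nat_lit 519) (nat_lit 3) (nat_lit 599) (nat_lit 599) (nat_lit 362)))))) (XT.nd (nat_lit 390) (nat_lit 1672) (nat_lit 0) (XT.nd (nat_lit 156) (nat_lit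 0) (nat_lit 76) (XT.nd (nat_lit 78) (nat_lit 0) (nat_lit 0) (XT.lf (nat_lit 0) (nat_lit 17861615104) (nat_lit 1748) (nat_lit 1092683604) (nat_lit 1824) (nat_lit 766474163) (nat_lit 496) (nat_lit 5) (nat_lit 519) (nat_lit 3) (nat_lit 520) (nat_lit 5) (nat_lit 600) (nat_lit 599) (nat_lit 361)) (XT.lf (nat_lit 76) (nat_lit 8838886550) (nat_lit 0) (nat_lit 9494191476) (nat_lit 1824) (nat_lit 1581022935) (nat_lit 497) (nat_lit 5) (nat_lit 496) (nat_lit 5) (nat_lit 520) (nat_lit 5) (nat_lit 601) (nat_lit 599) (nat_lit 360))) (XT.nd (nat_lit 78) (nat_lit 0) (nat_lit 0) (XT.lf (nat_lit 0) (nat_lit 18817910879) (nat_lit 1748) (nat_lit 1130773134) (nat_lit 1824) (nat_lit 162533064) (nat_lit 497) (nat_lit 5) (nat_lit 520) (nat_lit 5) (nat_lit 521) (nat_lit 5) (nat_lit 602) (nat_lit 599) (nat_lit 359)) (XT.nd (nat_lit 78) (nat_lit 0) (nat_lit 0) (XT.lf (nat_lit 76) (nat_lit 9066166118) (nat_lit 0) (nat_lit 10363652981) (nat_lit 1824) (nat_lit 880109114) (nat_lit 498) (nat_lit 5) (nat_lit 497) (nat_lit 5) (nat_lit 521)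 (nat_lit 5) (nat_lit 603) (nat_lit 599) (nat_lit 358)) (XT.lf (nat_lit 76) (nat_lit 19479968195) (nat_lit 0) (nat_lit 577294968) (nat_lit 1824) (nat_lit 455284724) (nat_lit 498) (nat_lit 5) (nat_lit 497) (nat_lit 5) (nat_lit 521) (nat_lit 5) (nat_lit 604) (nat_lit 599) (nat_lit 357))))) (XT.nd (nat_lit 156) (nat_lit 0) (nat_lit 76) (XT.nd (nat_lit 78) (nat_lit 0) (nat_lit 0) (XT.lf (nat_lit 0) (nat_lit 97285721) (nat_lit 1824) (nat_lit 11274336857) (nat_lit 1900) (nat_lit 9345221254) (nat_lit 474) (nat_lit 5) (nat_lit 498) (nat_lit 5) (nat_lit 499) (nat_lit 5) (nat_lit 605) (nat_lit 599) (nat_lit 356)) (XT.lf (nat_lit 0) (nat_lit 661459756) (nat_lit 1824) (nat_lit 793371496) (nat_lit 1900) (nat_lit 19470201537) (nat_lit 474) (nat_lit 5) (nat_lit 498) (nat_lit 5) (nat_lit 499) (nat_lit 5) (nat_lit 606) (nat_lit 599) (nat_lit 355))) (XT.nd (nat_lit 78) (nat_lit 0) (nat_lit 0) (XT.lf (nat_lit 0) (nat_lit 1354610554) (nat_lit 1824) (nat_lit 11166569550) (nat_lit 1900) (nat_lit 8613851803) (nat_lit 475) (nat_lit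 5) (nat_lit 499) (nat_lit 5) (nat_lit 500) (nat_lit 5) (nat_lit 607) (nat_lit 599) (nat_lit 354)) (XT.nd (nat_lit 78) (nat_lit 0) (nat_lit 76) (XT.lf (nat_lit 0) (nat_lit 2072618640) (nat_lit 1824) (nat_lit 405025431) (nat_lit 1900) (nat_lit 18871367293) (nat_lit 475) (nat_lit 5) (nat_lit 499) (nat_lit 5) (nat_lit 500) (nat_lit 5) (nat_lit 608) (nat_lit 599) (nat_lit 353)) (XT.lf (nat_lit 0) (nat_lit 2921497382) (nat_lit 1824) (nat_lit 10907114398) (nat_lit 1900) (nat_lit 7736328657) (nat_lit 476) (nat_lit 5) (nat_lit 500) (nat_lit 5) (nat_lit 501) (nat_lit 5) (nat_lit 609) (nat_lit 599) (nat_lit 352))))))) (XT.nd (nat_lit 780) (nat_lit 4256) (nat_lit 0) (XT.nd (nat_lit 390) (nat_lit 0) (nat_lit 228) (XT.nd (nat_lit 156) (nat_lit 0) (nat_lit 76) (XT.nd (nat_lit 78) (nat_lit 0) (nat_lit 76) (XT.lf (nat_lit 76) (nat_lit 145230312) (nat_lit 0) (nat_lit 3658359443) (nat_lit 1900) (nat_lit 17981273847) (nat_lit 477) (nat_lit 5) (nat_lit 476) (nat_lit 5) (nat_lit 501) (nat_lit 5) (nat_lit 610) (nat_lit 599) (nat_lit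 351)) (XT.lf (nat_lit 0) (nat_lit 4816817670) (nat_lit 1824) (nat_lit 10487942353) (nat_lit 1900) (nat_lit 6702155563) (nat_lit 477) (nat_lit 5) (nat_lit 501) (nat_lit 5) (nat_lit 502) (nat_lit 5) (nat_lit 611) (nat_lit 599) (nat_lit 350))) (XT.nd (nat_lit 78) (nat_lit 0) (nat_lit 76) (XT.lf (nat_lit 76) (nat_lit 871428101) (nat_lit 0) (nat_lit 5005057994) (nat_lit 1900) (nat_lit 16356399217) (nat_lit 478) (nat_lit 5) (nat_lit 477) (nat_lit 5) (nat_lit 502) (nat_lit 5) (nat_lit 612) (nat_lit 599) (nat_lit 349)) (XT.nd (nat_lit 78) (nat_lit 0) (nat_lit 0) (XT.lf (nat_lit 0) (nat_lit 7060261387) (nat_lit 1824) (nat_lit 9900613337) (nat_lit 1900) (nat_lit 5500441659) (nat_lit 478) (nat_lit 5) (nat_lit 502) (nat_lit 5) (nat_lit 503) (nat_lit 5) (nat_lit 613) (nat_lit 599) (nat_lit 348)) (XT.lf (nat_lit 76) (nat_lit 1777039491) (nat_lit 0) (nat_lit 6531781986) (nat_lit 1900) (nat_lit 14384672627) (nat_lit 479) (nat_lit 5) (nat_lit 478) (nat_lit 5) (nat_lit 503) (nat_lit 5) (nat_lit 614) (nat_lit 599) (nat_lit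 347))))) (XT.nd (nat_lit 156) (nat_lit 0) (nat_lit 76) (XT.nd (nat_lit 78) (nat_lit 0) (nat_lit 0) (XT.lf (nat_lit 0) (nat_lit 9672374578) (nat_lit 1824) (nat_lit 9136262053) (nat_lit 1900) (nat_lit 4119878522) (nat_lit 479) (nat_lit 5) (nat_lit 503) (nat_lit 5) (nat_lit 504) (nat_lit 5) (nat_lit 615) (nat_lit 599) (nat_lit 346)) (XT.lf (nat_lit 76) (nat_lit 2871359379) (nat_lit 0) (nat_lit 8250293195) (nat_lit 1900) (nat_lit 12045415179) (nat_lit 480) (nat_lit 5) (nat_lit 479) (nat_lit 5) (nat_lit 504) (nat_lit 5) (nat_lit 616) (nat_lit 599) (nat_lit 345))) (XT.nd (nat_lit 78) (nat_lit 0) (nat_lit 0) (XT.lf (nat_lit 0) (nat_lit 12674598307) (nat_lit 1824) (nat_lit 8185583104) (nat_lit 1900) (nat_lit 2548716553) (nat_lit 480) (nat_lit 5) (nat_lit 504) (nat_lit 5) (nat_lit 505) (nat_lit 5) (nat_lit 617) (nat_lit 599) (nat_lit 344)) (XT.nd (nat_lit 78) (nat_lit 0) (nat_lit 76) (XT.lf (nat_lit 76) (nat_lit 4164138919) (nat_lit 0) (nat_lit 10172815147) (nat_lit 1900) (nat_lit 9317043890) (nat_lit 481) (nat_lit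 5) (nat_lit 480) (nat_lit 5) (nat_lit 505) (nat_lit 5) (nat_lit 618) (nat_lit 599) (nat_lit 343)) (XT.lf (nat_lit 0) (nat_lit 16089309055) (nat_lit 1824) (nat_lit 7038815396) (nat_lit 1900) (nat_lit 774740649) (nat_lit 481) (nat_lit 5) (nat_lit 505) (nat_lit 5) (nat_lit 506) (nat_lit 5) (nat_lit 619) (nat_lit 599) (nat_lit 342)))))) (XT.nd (nat_lit 390) (nat_lit 2888) (nat_lit 0) (XT.nd (nat_lit 156) (nat_lit 1748) (nat_lit 0) (XT.nd (nat_lit 78) (nat_lit 0) (nat_lit 0) (XT.lf (nat_lit 76) (nat_lit 5665601740) (nat_lit 0) (nat_lit 12312058169) (nat_lit 1900) (nat_lit 6177030892) (nat_lit 482) (nat_lit 5) (nat_lit 481) (nat_lit 5) (nat_lit 506) (nat_lit 5) (nat_lit 620) (nat_lit 599) (nat_lit 341)) (XT.lf (nat_lit 76) (nat_lit 18716954084) (nat_lit 0) (nat_lit 1230898337) (nat_lit 1900) (nat_lit 4462819290) (nat_lit 482) (nat_lit 5) (nat_lit 481) (nat_lit 5) (nat_lit 506) (nat_lit 5) (nat_lit 621) (nat_lit 599) (nat_lit 340))) (XT.nd (nat_lit 78) (nat_lit 1824) (nat_lit 0) (XT.lf (nat_lit 76) (nat_lit 7386460914)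 (nat_lit 0) (nat_lit 14681245240) (nat_lit 1900) (nat_lit 2601861121) (nat_lit 483) (nat_lit 5) (nat_lit 482) (nat_lit 5) (nat_lit 507) (nat_lit 5) (nat_lit 622) (nat_lit 599) (nat_lit 339)) (XT.nd (nat_lit 78) (nat_lit 1824) (nat_lit 0) (XT.lf (nat_lit 76) (nat_lit 20794598151) (nat_lit 0) (nat_lit 3478614890) (nat_lit 1900) (nat_lit 659562768) (nat_lit 483) (nat_lit 5) (nat_lit 482) (nat_lit 5) (nat_lit 507) (nat_lit 5) (nat_lit 623) (nat_lit 599) (nat_lit 338)) (XT.lf (nat_lit 0) (nat_lit 1414217395) (nat_lit 1900) (nat_lit 15870431152) (nat_lit 76) (nat_lit 7914229153) (nat_lit 458) (nat_lit 5) (nat_lit 483) (nat_lit 5) (nat_lit 459) (nat_lit 5) (nat_lit 624) (nat_lit 599) (nat_lit 337))))) (XT.nd (nat_lit 234) (nat_lit 1824) (nat_lit 0) (XT.nd (nat_lit 78) (nat_lit 1064) (nat_lit 0) (XT.lf (nat_lit 0) (nat_lit 3568675687) (nat_lit 1900) (nat_lit 2379438096) (nat_lit 76) (nat_lit 19521140142) (nat_lit 458) (nat_lit 5) (nat_lit 483) (nat_lit 5) (nat_lit 459) (nat_lit 5) (nat_lit 625) (nat_lit 599) (nat_lit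 336)) (XT.nd (nat_lit 78) (nat_lit 0) (nat_lit 0) (XT.lf (nat_lit 0) (nat_lit 5875132722) (nat_lit 1140) (nat_lit 14250509849) (nat_lit 76) (nat_lit 5617217076) (nat_lit 444) (nat_lit 5) (nat_lit 459) (nat_lit 5) (nat_lit 445) (nat_lit 5) (nat_lit 626) (nat_lit 599) (nat_lit 335)) (XT.lf (nat_lit 0) (nat_lit 8280319627) (nat_lit 1140) (nat_lit 389880023) (nat_lit 76) (nat_lit 17350685982) (nat_lit 444) (nat_lit 5) (nat_lit 459) (nat_lit 5) (nat_lit 445) (nat_lit 5) (nat_lit 627) (nat_lit 599) (nat_lit 334)))) (XT.nd (nat_lit 78) (nat_lit 912) (nat_lit 0) (XT.lf (nat_lit 0) (nat_lit 10841404827) (nat_lit 988) (nat_lit 12394801007) (nat_lit 76) (nat_lit 3066110573) (nat_lit 432) (nat_lit 5) (nat_lit 445) (nat_lit 5) (nat_lit 433) (nat_lit 5) (nat_lit 628) (nat_lit 599) (nat_lit 333)) (XT.nd (nat_lit 78) (nat_lit 0) (nat_lit 0) (XT.lf (nat_lit 0) (nat_lit 1871345755) (nat_lit 912) (nat_lit 11651800781) (nat_lit 988) (nat_lit 13064840719) (nat_lit 420) (nat_lit 5) (nat_lit 432) (nat_lit 5) (nat_lit 433) (nat_lit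 5) (nat_lit 629) (nat_lit 599) (nat_lit 332)) (XT.lf (nat_lit 0) (nat_lit 16340587553) (nat_lit 988) (nat_lit 10291115731) (nat_lit 76) (nat_lit 246027103) (nat_lit 420) (nat_lit 5) (nat_lit 433) (nat_lit 5) (nat_lit 421) (nat_lit 5) (nat_lit 630) (nat_lit 599) (nat_lit 331))))))))
noncomputable def xc218 : XT := (XT.nd (nat_lit 1560) (nat_lit 4332) (nat_lit 0) (XT.nd (nat_lit 780) (nat_lit 3572) (nat_lit 0) (XT.nd (nat_lit 390) (nat_lit 2356) (nat_lit 0) (XT.nd (nat_lit 156) (nat_lit 1748) (nat_lit 0) (XT.nd (nat_lit 78) (nat_lit 0) (nat_lit 0) (XT.lf (nat_lit 0) (nat_lit 4400905926) (nat_lit 836) (nat_lit 14916534115) (nat_lit 912) (nat_lit 7853767235) (nat_lit 409) (nat_lit 5) (nat_lit 420) (nat_lit 5) (nat_lit 421) (nat_lit 5) (nat_lit 631) (nat_lit 599) (nat_lit 330)) (XT.lf (nat_lit 0) (nat_lit 19523714645) (nat_lit 836) (nat_lit 2896534431) (nat_lit 912) (nat_lit 5048976385) (nat_lit 409) (nat_lit 5) (nat_lit 420) (nat_lit 5) (nat_lit 421) (nat_lit 5) (nat_lit 632) (nat_lit 599) (nat_lit 329))) (XT.nd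 (nat_lit 78) (nat_lit 912) (nat_lit 0) (XT.lf (nat_lit 0) (nat_lit 7206944917) (nat_lit 836) (nat_lit 18483171065) (nat_lit 912) (nat_lit 2080988139) (nat_lit 398) (nat_lit 5) (nat_lit 409) (nat_lit 5) (nat_lit 410) (nat_lit 5) (nat_lit 633) (nat_lit 599) (nat_lit 328)) (XT.nd (nat_lit 78) (nat_lit 836) (nat_lit 0) (XT.lf (nat_lit 0) (nat_lit 1004232404) (nat_lit 912) (nat_lit 5336052619) (nat_lit 76) (nat_lit 21737206898) (nat_lit 397) (nat_lit 5) (nat_lit 409) (nat_lit 5) (nat_lit 398) (nat_lit 5) (nat_lit 634) (nat_lit 599) (nat_lit 327)) (XT.lf (nat_lit 0) (nat_lit 4227561238) (nat_lit 912) (nat_lit 18112624681) (nat_lit 76) (nat_lit 6047461221) (nat_lit 386) (nat_lit 5) (nat_lit 398) (nat_lit 5) (nat_lit 387) (nat_lit 5) (nat_lit 635) (nat_lit 599) (nat_lit 326))))) (XT.nd (nat_lit 156) (nat_lit 1520) (nat_lit 0) (XT.nd (nat_lit 78) (nat_lit 836) (nat_lit 0) (XT.lf (nat_lit 0) (nat_lit 7590903755) (nat_lit 912) (nat_lit 2477419212) (nat_lit 76) (nat_lit 18634171687) (nat_lit 386) (nat_lit 5) (nat_lit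 398) (nat_lit 5) (nat_lit 387) (nat_lit 5) (nat_lit 636) (nat_lit 599) (nat_lit 325)) (XT.lf (nat_lit 0) (nat_lit 11124167388) (nat_lit 912) (nat_lit 15391434502) (nat_lit 76) (nat_lit 2505984275) (nat_lit 375) (nat_lit 5) (nat_lit 387) (nat_lit 5) (nat_lit 376) (nat_lit 5) (nat_lit 637) (nat_lit 599) (nat_lit 324))) (XT.nd (nat_lit 78) (nat_lit 760) (nat_lit 0) (XT.lf (nat_lit 0) (nat_lit 686407738) (nat_lit 760) (nat_lit 14127151157) (nat_lit 836) (nat_lit 14531791488) (nat_lit 365) (nat_lit 5) (nat_lit 375) (nat_lit 5) (nat_lit 376) (nat_lit 5) (nat_lit 638) (nat_lit 599) (nat_lit 323)) (XT.nd (nat_lit 78) (nat_lit 760) (nat_lit 0) (XT.lf (nat_lit 0) (nat_lit 17291922547) (nat_lit 760) (nat_lit 1385724607) (nat_lit 836) (nat_lit 10995924677) (nat_lit 365) (nat_lit 5) (nat_lit 375) (nat_lit 5) (nat_lit 376) (nat_lit 5) (nat_lit 639) (nat_lit 599) (nat_lit 322)) (XT.lf (nat_lit 0) (nat_lit 4198353217) (nat_lit 760) (nat_lit 18520975686) (nat_lit 836) (nat_lit 7287022695) (nat_lit 355) (nat_lit 5) (nat_lit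 365) (nat_lit 5) (nat_lit 366) (nat_lit 5) (nat_lit 640) (nat_lit 599) (nat_lit 321)))))) (XT.nd (nat_lit 390) (nat_lit 2052) (nat_lit 0) (XT.nd (nat_lit 156) (nat_lit 760) (nat_lit 0) (XT.nd (nat_lit 78) (nat_lit 760) (nat_lit 0) (XT.lf (nat_lit 0) (nat_lit 21265994275) (nat_lit 760) (nat_lit 5665753431) (nat_lit 836) (nat_lit 3412241306) (nat_lit 355) (nat_lit 5) (nat_lit 365) (nat_lit 5) (nat_lit 366) (nat_lit 5) (nat_lit 641) (nat_lit 599) (nat_lit 320)) (XT.lf (nat_lit 0) (nat_lit 631904281) (nat_lit 760) (nat_lit 22649341532) (nat_lit 76) (nat_lit 7405084328) (nat_lit 345) (nat_lit 5) (nat_lit 355) (nat_lit 5) (nat_lit 346) (nat_lit 5) (nat_lit 642) (nat_lit 599) (nat_lit 319))) (XT.nd (nat_lit 78) (nat_lit 760) (nat_lit 0) (XT.lf (nat_lit 0) (nat_lit 4807885242) (nat_lit 760) (nat_lit 5480003650) (nat_lit 76) (nat_lit 20745245369) (nat_lit 345) (nat_lit 5) (nat_lit 355) (nat_lit 5) (nat_lit 346) (nat_lit 5) (nat_lit 643) (nat_lit 599) (nat_lit 318)) (XT.nd (nat_lit 78) (nat_lit 0) (nat_lit 0) (XT.lf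 (nat_lit 0) (nat_lit 9164108227) (nat_lit 836) (nat_lit 19214972560) (nat_lit 76) (nat_lit 3005859338) (nat_lit 335) (nat_lit 5) (nat_lit 346) (nat_lit 5) (nat_lit 336) (nat_lit 5) (nat_lit 644) (nat_lit 599) (nat_lit 317)) (XT.lf (nat_lit 0) (nat_lit 13710430699) (nat_lit 836) (nat_lit 1566684794) (nat_lit 76) (nat_lit 16464607225) (nat_lit 335) (nat_lit 5) (nat_lit 346) (nat_lit 5) (nat_lit 336) (nat_lit 5) (nat_lit 645) (nat_lit 599) (nat_lit 316))))) (XT.nd (nat_lit 156) (nat_lit 684) (nat_lit 0) (XT.nd (nat_lit 78) (nat_lit 684) (nat_lit 0) (XT.lf (nat_lit 0) (nat_lit 16650507829) (nat_lit 684) (nat_lit 1803146626) (nat_lit 760) (nat_lit 13649867117) (nat_lit 326) (nat_lit 5) (nat_lit 335) (nat_lit 5) (nat_lit 336) (nat_lit 5) (nat_lit 646) (nat_lit 599) (nat_lit 315)) (XT.lf (nat_lit 0) (nat_lit 2736774850) (nat_lit 684) (nat_lit 20658736793) (nat_lit 760) (nat_lit 9074969486) (nat_lit 317) (nat_lit 5) (nat_lit 326) (nat_lit 5) (nat_lit 327) (nat_lit 5) (nat_lit 647) (nat_lit 599) (nat_lit 314)))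 (XT.nd (nat_lit 78) (nat_lit 684) (nat_lit 0) (XT.lf (nat_lit 0) (nat_lit 21485285551) (nat_lit 684) (nat_lit 7064399280) (nat_lit 760) (nat_lit 4292825573) (nat_lit 317) (nat_lit 5) (nat_lit 326) (nat_lit 5) (nat_lit 327) (nat_lit 5) (nat_lit 648) (nat_lit 599) (nat_lit 313)) (XT.nd (nat_lit 78) (nat_lit 0) (nat_lit 0) (XT.lf (nat_lit 0) (nat_lit 668297382) (nat_lit 684) (nat_lit 25786831349) (nat_lit 76) (nat_lit 6764955513) (nat_lit 308) (nat_lit 5) (nat_lit 317) (nat_lit 5) (nat_lit 309) (nat_lit 5) (nat_lit 649) (nat_lit 599) (nat_lit 312)) (XT.lf (nat_lit 0) (nat_lit 5792684981) (nat_lit 684) (nat_lit 6928358139) (nat_lit 76) (nat_lit 20881168563) (nat_lit 308) (nat_lit 5) (nat_lit 317) (nat_lit 5) (nat_lit 309) (nat_lit 5) (nat_lit 650) (nat_lit 599) (nat_lit 311))))))) (XT.nd (nat_lit 780) (nat_lit 608) (nat_lit 0) (XT.nd (nat_lit 390) (nat_lit 1824) (nat_lit 0) (XT.nd (nat_lit 156) (nat_lit 1216) (nat_lit 0) (XT.nd (nat_lit 78) (nat_lit 0) (nat_lit 0) (XT.lf (nat_lit 0) (nat_lit 11107415247) (nat_lit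 760) (nat_lit 21530883925) (nat_lit 76) (nat_lit 1351925498) (nat_lit 299) (nat_lit 5) (nat_lit 309) (nat_lit 5) (nat_lit 300) (nat_lit 5) (nat_lit 651) (nat_lit 599) (nat_lit 310)) (XT.lf (nat_lit 0) (nat_lit 16657514656) (nat_lit 760) (nat_lit 2143330108) (nat_lit 76) (nat_lit 15582571753) (nat_lit 299) (nat_lit 5) (nat_lit 309) (nat_lit 5) (nat_lit 300) (nat_lit 5) (nat_lit 652) (nat_lit 599) (nat_lit 309))) (XT.nd (nat_lit 78) (nat_lit 608) (nat_lit 0) (XT.lf (nat_lit 0) (nat_lit 17863892200) (nat_lit 608) (nat_lit 4568775141) (nat_lit 684) (nat_lit 12349523928) (nat_lit 291) (nat_lit 5) (nat_lit 299) (nat_lit 5) (nat_lit 300) (nat_lit 5) (nat_lit 653) (nat_lit 599) (nat_lit 308)) (XT.nd (nat_lit 78) (nat_lit 0) (nat_lit 0) (XT.lf (nat_lit 0) (nat_lit 3085045016) (nat_lit 608) (nat_lit 25335461715) (nat_lit 684) (nat_lit 6766491200) (nat_lit 283) (nat_lit 5) (nat_lit 291) (nat_lit 5) (nat_lit 292) (nat_lit 5) (nat_lit 654) (nat_lit 599) (nat_lit 307)) (XT.lf (nat_lit 0) (nat_lit 23684754266) (nat_lit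 608) (nat_lit 10985045932) (nat_lit 684) (nat_lit 927266671) (nat_lit 283) (nat_lit 5) (nat_lit 291) (nat_lit 5) (nat_lit 292) (nat_lit 5) (nat_lit 655) (nat_lit 599) (nat_lit 306))))) (XT.nd (nat_lit 156) (nat_lit 1140) (nat_lit 0) (XT.nd (nat_lit 78) (nat_lit 0) (nat_lit 0) (XT.lf (nat_lit 0) (nat_lit 5042108853) (nat_lit 684) (nat_lit 27276867602) (nat_lit 76) (nat_lit 3694121429) (nat_lit 274) (nat_lit 5) (nat_lit 283) (nat_lit 5) (nat_lit 275) (nat_lit 5) (nat_lit 656) (nat_lit 599) (nat_lit 305)) (XT.lf (nat_lit 0) (nat_lit 11269835124) (nat_lit 684) (nat_lit 6558422535) (nat_lit 76) (nat_lit 18606041774) (nat_lit 274) (nat_lit 5) (nat_lit 283) (nat_lit 5) (nat_lit 275) (nat_lit 5) (nat_lit 657) (nat_lit 599) (nat_lit 304))) (XT.nd (nat_lit 78) (nat_lit 532) (nat_lit 0) (XT.lf (nat_lit 0) (nat_lit 14765721572) (nat_lit 608) (nat_lit 2950451249) (nat_lit 684) (nat_lit 19145871133) (nat_lit 266) (nat_lit 5) (nat_lit 274) (nat_lit 5) (nat_lit 275) (nat_lit 5) (nat_lit 658) (nat_lit 599) (nat_lit 303))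 (XT.nd (nat_lit 78) (nat_lit 532) (nat_lit 0) (XT.lf (nat_lit 0) (nat_lit 24413316644) (nat_lit 684) (nat_lit 774219347) (nat_lit 76) (nat_lit 12108369867) (nat_lit 266) (nat_lit 5) (nat_lit 275) (nat_lit 5) (nat_lit 267) (nat_lit 5) (nat_lit 659) (nat_lit 599) (nat_lit 302)) (XT.lf (nat_lit 0) (nat_lit 21230937623) (nat_lit 532) (nat_lit 10169090864) (nat_lit 608) (nat_lit 6335304090) (nat_lit 259) (nat_lit 5) (nat_lit 266) (nat_lit 5) (nat_lit 267) (nat_lit 5) (nat_lit 660) (nat_lit 599) (nat_lit 301)))))) (XT.nd (nat_lit 76752) (nat_lit 0) (nat_lit 16948) (XT.nd (nat_lit 76518) (nat_lit 0) (nat_lit 18620) (XT.nd (nat_lit 76440) (nat_lit 0) (nat_lit 18620) (XT.lf (nat_lit 0) (nat_lit 411803841) (nat_lit 608) (nat_lit 32644673351) (nat_lit 76) (nat_lit 5125558689) (nat_lit 251) (nat_lit 5) (nat_lit 259) (nat_lit 5) (nat_lit 252) (nat_lit 5) (nat_lit 661) (nat_lit 599) (nat_lit 300)) (XT.lf (nat_lit 0) (nat_lit 4550710606) (nat_lit 0) (nat_lit 4550710606) (nat_lit 1748) (nat_lit 854943737) (nat_lit 496)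 (nat_lit 5) (nat_lit 496) (nat_lit 3) (nat_lit 519) (nat_lit 3) (nat_lit 600) (nat_lit 600) (nat_lit 360))) (XT.nd (nat_lit 78) (nat_lit 0) (nat_lit 0) (XT.lf (nat_lit 0) (nat_lit 18555624104) (nat_lit 1748) (nat_lit 937725141) (nat_lit 1824) (nat_lit 615082508) (nat_lit 496) (nat_lit 5) (nat_lit 519) (nat_lit 3) (nat_lit 520) (nat_lit 5) (nat_lit 601) (nat_lit 600) (nat_lit 359)) (XT.nd (nat_lit 78) (nat_lit 0) (nat_lit 76) (XT.lf (nat_lit 76) (nat_lit 9191313178) (nat_lit 0) (nat_lit 9839740071) (nat_lit 1824) (nat_lit 1274682829) (nat_lit 497) (nat_lit 5) (nat_lit 496) (nat_lit 5) (nat_lit 520) (nat_lit 5) (nat_lit 602) (nat_lit 600) (nat_lit 358)) (XT.lf (nat_lit 0) (nat_lit 19518095552) (nat_lit 1748) (nat_lit 973676364) (nat_lit 1824) (nat_lit 15172750) (nat_lit 497) (nat_lit 5) (nat_lit 520) (nat_lit 5) (nat_lit 521) (nat_lit 5) (nat_lit 603) (nat_lit 600) (nat_lit 357))))) (XT.nd (nat_lit 234) (nat_lit 0) (nat_lit 0) (XT.nd (nat_lit 78) (nat_lit 1748) (nat_lit 0) (XT.lf (nat_lit 76) (nat_lit 9426019356)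 (nat_lit 0) (nat_lit 10711032177) (nat_lit 1824) (nat_lit 572682697) (nat_lit 498) (nat_lit 5) (nat_lit 497) (nat_lit 5) (nat_lit 521) (nat_lit 5) (nat_lit 604) (nat_lit 600) (nat_lit 356)) (XT.nd (nat_lit 78) (nat_lit 1748) (nat_lit 0) (XT.lf (nat_lit 76) (nat_lit 20044596888) (nat_lit 0) (nat_lit 726199824) (nat_lit 1824) (nat_lit 145734929) (nat_lit 498) (nat_lit 5) (nat_lit 497) (nat_lit 5) (nat_lit 521) (nat_lit 5) (nat_lit 605) (nat_lit 600) (nat_lit 355)) (XT.lf (nat_lit 0) (nat_lit 407844258) (nat_lit 1824) (nat_lit 11314713858) (nat_lit 1900) (nat_lit 9402431652) (nat_lit 474) (nat_lit 5) (nat_lit 498) (nat_lit 5) (nat_lit 499) (nat_lit 5) (nat_lit 606) (nat_lit 600) (nat_lit 354)))) (XT.nd (nat_lit 78) (nat_lit 0) (nat_lit 76) (XT.lf (nat_lit 0) (nat_lit 977250542) (nat_lit 1824) (nat_lit 627758793) (nat_lit 1900) (nat_lit 19732454561) (nat_lit 474) (nat_lit 5) (nat_lit 498) (nat_lit 5) (nat_lit 499) (nat_lit 5) (nat_lit 607) (nat_lit 600) (nat_lit 353)) (XT.nd (nat_lit 78) (nat_lit 0) (nat_lit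 0) (XT.lf (nat_lit 0) (nat_lit 1678739339) (nat_lit 1824) (nat_lit 11202877832) (nat_lit 1900) (nat_lit 8670156685) (nat_lit 475) (nat_lit 5) (nat_lit 499) (nat_lit 5) (nat_lit 500) (nat_lit 5) (nat_lit 608) (nat_lit 600) (nat_lit 352)) (XT.lf (nat_lit 0) (nat_lit 2405283340) (nat_lit 1824) (nat_lit 229769950) (nat_lit 1900) (nat_lit 19135096448) (nat_lit 475) (nat_lit 5) (nat_lit 499) (nat_lit 5) (nat_lit 500) (nat_lit 5) (nat_lit 609) (nat_lit 600) (nat_lit 351))))))))
noncomputable def xc219 : XT := (XT.nd (nat_lit 1560) (nat_lit 9424) (nat_lit 0) (XT.nd (nat_lit 780) (nat_lit 3344) (nat_lit 0) (XT.nd (nat_lit 390) (nat_lit 0) (nat_lit 152) (XT.nd (nat_lit 156) (nat_lit 0) (nat_lit 76) (XT.nd (nat_lit 78) (nat_lit 0) (nat_lit 0) (XT.lf (nat_lit 0) (nat_lit 3265933536) (nat_lit 1824) (nat_lit 10936677315) (nat_lit 1900) (nat_lit 7787891010) (nat_lit 476) (nat_lit 5) (nat_lit 500) (nat_lit 5) (nat_lit 501) (nat_lit 5) (nat_lit 610) (nat_lit 600) (nat_lit 350)) (XT.lf (nat_lit 76) (nat_lit 335473635) (nat_lit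 0) (nat_lit 3825802484) (nat_lit 1900) (nat_lit 18053635542) (nat_lit 477) (nat_lit 5) (nat_lit 476) (nat_lit 5) (nat_lit 501) (nat_lit 5) (nat_lit 611) (nat_lit 600) (nat_lit 349))) (XT.nd (nat_lit 78) (nat_lit 0) (nat_lit 0) (XT.lf (nat_lit 0) (nat_lit 5188646638) (nat_lit 1824) (nat_lit 10507897247) (nat_lit 1900) (nat_lit 6744983569) (nat_lit 477) (nat_lit 5) (nat_lit 501) (nat_lit 5) (nat_lit 502) (nat_lit 5) (nat_lit 612) (nat_lit 600) (nat_lit 348)) (XT.nd (nat_lit 78) (nat_lit 0) (nat_lit 76) (XT.lf (nat_lit 76) (nat_lit 1077411906) (nat_lit 0) (nat_lit 5187918935) (nat_lit 1900) (nat_lit 16406769612) (nat_lit 478) (nat_lit 5) (nat_lit 477) (nat_lit 5) (nat_lit 502) (nat_lit 5) (nat_lit 613) (nat_lit 600) (nat_lit 347)) (XT.lf (nat_lit 0) (nat_lit 7466934942) (nat_lit 1824) (nat_lit 9907904878) (nat_lit 1900) (nat_lit 5530377578) (nat_lit 478) (nat_lit 5) (nat_lit 502) (nat_lit 5) (nat_lit 503) (nat_lit 5) (nat_lit 614) (nat_lit 600) (nat_lit 346))))) (XT.nd (nat_lit 156) (nat_lit 0) (nat_lit 76)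 (XT.nd (nat_lit 78) (nat_lit 0) (nat_lit 76) (XT.lf (nat_lit 76) (nat_lit 2002046264) (nat_lit 0) (nat_lit 6734444846) (nat_lit 1900) (nat_lit 14405627378) (nat_lit 479) (nat_lit 5) (nat_lit 478) (nat_lit 5) (nat_lit 503) (nat_lit 5) (nat_lit 615) (nat_lit 600) (nat_lit 345)) (XT.lf (nat_lit 0) (nat_lit 10121729477) (nat_lit 1824) (nat_lit 9127635207) (nat_lit 1900) (nat_lit 4132587298) (nat_lit 479) (nat_lit 5) (nat_lit 503) (nat_lit 5) (nat_lit 504) (nat_lit 5) (nat_lit 616) (nat_lit 600) (nat_lit 344))) (XT.nd (nat_lit 78) (nat_lit 0) (nat_lit 76) (XT.lf (nat_lit 76) (nat_lit 3118879759) (nat_lit 0) (nat_lit 8477329693) (nat_lit 1900) (nat_lit 12029142154) (nat_lit 480) (nat_lit 5) (nat_lit 479) (nat_lit 5) (nat_lit 504) (nat_lit 5) (nat_lit 617) (nat_lit 600) (nat_lit 343)) (XT.nd (nat_lit 78) (nat_lit 0) (nat_lit 0) (XT.lf (nat_lit 0) (nat_lit 13174875648) (nat_lit 1824) (nat_lit 8157575708) (nat_lit 1900) (nat_lit 2539674129) (nat_lit 480) (nat_lit 5) (nat_lit 504) (nat_lit 5) (nat_lit 505) (nat_lit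 5) (nat_lit 618) (nat_lit 600) (nat_lit 342)) (XT.lf (nat_lit 76) (nat_lit 4437879446) (nat_lit 0) (nat_lit 10428996726) (nat_lit 1900) (nat_lit 9255323640) (nat_lit 481) (nat_lit 5) (nat_lit 480) (nat_lit 5) (nat_lit 505) (nat_lit 5) (nat_lit 619) (nat_lit 600) (nat_lit 341)))))) (XT.nd (nat_lit 390) (nat_lit 3724) (nat_lit 0) (XT.nd (nat_lit 156) (nat_lit 0) (nat_lit 0) (XT.nd (nat_lit 78) (nat_lit 0) (nat_lit 0) (XT.lf (nat_lit 0) (nat_lit 16649174350) (nat_lit 1824) (nat_lit 6987750352) (nat_lit 1900) (nat_lit 739221958) (nat_lit 481) (nat_lit 5) (nat_lit 505) (nat_lit 5) (nat_lit 506) (nat_lit 5) (nat_lit 620) (nat_lit 600) (nat_lit 340)) (XT.lf (nat_lit 76) (nat_lit 5969493013) (nat_lit 0) (nat_lit 12602368357) (nat_lit 1900) (nat_lit 6061216399) (nat_lit 482) (nat_lit 5) (nat_lit 481) (nat_lit 5) (nat_lit 506) (nat_lit 5) (nat_lit 621) (nat_lit 600) (nat_lit 339))) (XT.nd (nat_lit 78) (nat_lit 0) (nat_lit 76) (XT.lf (nat_lit 76) (nat_lit 19278135556) (nat_lit 0) (nat_lit 1298721230) (nat_lit 1900)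 (nat_lit 4317413803) (nat_lit 482) (nat_lit 5) (nat_lit 481) (nat_lit 5) (nat_lit 506) (nat_lit 5) (nat_lit 622) (nat_lit 600) (nat_lit 338)) (XT.nd (nat_lit 78) (nat_lit 0) (nat_lit 0) (XT.lf (nat_lit 76) (nat_lit 7724666163) (nat_lit 0) (nat_lit 15010892381) (nat_lit 1900) (nat_lit 2422856768) (nat_lit 483) (nat_lit 5) (nat_lit 482) (nat_lit 5) (nat_lit 507) (nat_lit 5) (nat_lit 623) (nat_lit 600) (nat_lit 337)) (XT.lf (nat_lit 76) (nat_lit 21397231320) (nat_lit 0) (nat_lit 3583503105) (nat_lit 1900) (nat_lit 446242675) (nat_lit 483) (nat_lit 5) (nat_lit 482) (nat_lit 5) (nat_lit 507) (nat_lit 5) (nat_lit 624) (nat_lit 600) (nat_lit 336))))) (XT.nd (nat_lit 156) (nat_lit 1976) (nat_lit 0) (XT.nd (nat_lit 78) (nat_lit 0) (nat_lit 0) (XT.lf (nat_lit 0) (nat_lit 1662675774) (nat_lit 1900) (nat_lit 15994735853) (nat_lit 76) (nat_lit 8041027573) (nat_lit 458) (nat_lit 5) (nat_lit 483) (nat_lit 5) (nat_lit 459) (nat_lit 5) (nat_lit 625) (nat_lit 600) (nat_lit 335)) (XT.lf (nat_lit 0) (nat_lit 3855906094) (nat_lit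 1900) (nat_lit 2237709287) (nat_lit 76) (nat_lit 19880694158) (nat_lit 458) (nat_lit 5) (nat_lit 483) (nat_lit 5) (nat_lit 459) (nat_lit 5) (nat_lit 626) (nat_lit 600) (nat_lit 334))) (XT.nd (nat_lit 78) (nat_lit 912) (nat_lit 0) (XT.lf (nat_lit 0) (nat_lit 6205320025) (nat_lit 1140) (nat_lit 14343018145) (nat_lit 76) (nat_lit 5705112892) (nat_lit 444) (nat_lit 5) (nat_lit 459) (nat_lit 5) (nat_lit 445) (nat_lit 5) (nat_lit 627) (nat_lit 600) (nat_lit 333)) (XT.nd (nat_lit 78) (nat_lit 912) (nat_lit 0) (XT.lf (nat_lit 0) (nat_lit 8654440381) (nat_lit 1140) (nat_lit 208950269) (nat_lit 76) (nat_lit 17673730560) (nat_lit 444) (nat_lit 5) (nat_lit 459) (nat_lit 5) (nat_lit 445) (nat_lit 5) (nat_lit 628) (nat_lit 600) (nat_lit 332)) (XT.lf (nat_lit 0) (nat_lit 11263758159) (nat_lit 988) (nat_lit 12450968932) (nat_lit 76) (nat_lit 3109513523) (nat_lit 432) (nat_lit 5) (nat_lit 445) (nat_lit 5) (nat_lit 433) (nat_lit 5) (nat_lit 629) (nat_lit 600) (nat_lit 331))))))) (XT.nd (nat_lit 780) (nat_lit 4332) (nat_lit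 0) (XT.nd (nat_lit 390) (nat_lit 2508) (nat_lit 0) (XT.nd (nat_lit 156) (nat_lit 1672) (nat_lit 0) (XT.nd (nat_lit 78) (nat_lit 0) (nat_lit 0) (XT.lf (nat_lit 0) (nat_lit 2099239397) (nat_lit 912) (nat_lit 11897102037) (nat_lit 988) (nat_lit 13119339540) (nat_lit 420) (nat_lit 5) (nat_lit 432) (nat_lit 5) (nat_lit 433) (nat_lit 5) (nat_lit 630) (nat_lit 600) (nat_lit 330)) (XT.lf (nat_lit 0) (nat_lit 16866078060) (nat_lit 988) (nat_lit 10306141587) (nat_lit 76) (nat_lit 239080606) (nat_lit 420) (nat_lit 5) (nat_lit 433) (nat_lit 5) (nat_lit 421) (nat_lit 5) (nat_lit 631) (nat_lit 600) (nat_lit 329))) (XT.nd (nat_lit 78) (nat_lit 836) (nat_lit 0) (XT.lf (nat_lit 0) (nat_lit 4678465263) (nat_lit 836) (nat_lit 15221337300) (nat_lit 912) (nat_lit 7810897637) (nat_lit 409) (nat_lit 5) (nat_lit 420) (nat_lit 5) (nat_lit 421) (nat_lit 5) (nat_lit 632) (nat_lit 600) (nat_lit 328)) (XT.nd (nat_lit 78) (nat_lit 836) (nat_lit 0) (XT.lf (nat_lit 0) (nat_lit 20100013662) (nat_lit 836) (nat_lit 2960810712) (nat_lit 912)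 (nat_lit 4953931460) (nat_lit 409) (nat_lit 5) (nat_lit 420) (nat_lit 5) (nat_lit 421) (nat_lit 5) (nat_lit 633) (nat_lit 600) (nat_lit 327)) (XT.lf (nat_lit 0) (nat_lit 7539555719) (nat_lit 836) (nat_lit 18853948146) (nat_lit 912) (nat_lit 1929220107) (nat_lit 398) (nat_lit 5) (nat_lit 409) (nat_lit 5) (nat_lit 410) (nat_lit 5) (nat_lit 634) (nat_lit 600) (nat_lit 326))))) (XT.nd (nat_lit 156) (nat_lit 1596) (nat_lit 0) (XT.nd (nat_lit 78) (nat_lit 836) (nat_lit 0) (XT.lf (nat_lit 0) (nat_lit 1211426345) (nat_lit 912) (nat_lit 5255500599) (nat_lit 76) (nat_lit 22168362517) (nat_lit 397) (nat_lit 5) (nat_lit 409) (nat_lit 5) (nat_lit 398) (nat_lit 5) (nat_lit 635) (nat_lit 600) (nat_lit 325)) (XT.lf (nat_lit 0) (nat_lit 4496769890) (nat_lit 912) (nat_lit 18285142322) (nat_lit 76) (nat_lit 6169784808) (nat_lit 386) (nat_lit 5) (nat_lit 398) (nat_lit 5) (nat_lit 387) (nat_lit 5) (nat_lit 636) (nat_lit 600) (nat_lit 324))) (XT.nd (nat_lit 78) (nat_lit 1596) (nat_lit 0) (XT.lf (nat_lit 0) (nat_lit 7923758524)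 (nat_lit 912) (nat_lit 2340953036) (nat_lit 76) (nat_lit 19008202535) (nat_lit 386) (nat_lit 5) (nat_lit 398) (nat_lit 5) (nat_lit 387) (nat_lit 5) (nat_lit 637) (nat_lit 600) (nat_lit 323)) (XT.nd (nat_lit 78) (nat_lit 760) (nat_lit 0) (XT.lf (nat_lit 0) (nat_lit 11525377106) (nat_lit 912) (nat_lit 15510928779) (nat_lit 76) (nat_lit 2562127947) (nat_lit 375) (nat_lit 5) (nat_lit 387) (nat_lit 5) (nat_lit 376) (nat_lit 5) (nat_lit 638) (nat_lit 600) (nat_lit 322)) (XT.lf (nat_lit 0) (nat_lit 887231263) (nat_lit 760) (nat_lit 14399035487) (nat_lit 836) (nat_lit 14642452563) (nat_lit 365) (nat_lit 5) (nat_lit 375) (nat_lit 5) (nat_lit 376) (nat_lit 5) (nat_lit 639) (nat_lit 600) (nat_lit 321)))))) (XT.nd (nat_lit 390) (nat_lit 2812) (nat_lit 0) (XT.nd (nat_lit 156) (nat_lit 760) (nat_lit 0) (XT.nd (nat_lit 78) (nat_lit 760) (nat_lit 0) (XT.lf (nat_lit 0) (nat_lit 17821187832) (nat_lit 760) (nat_lit 1402989401) (nat_lit 836) (nat_lit 11039397333) (nat_lit 365) (nat_lit 5) (nat_lit 375) (nat_lit 5) (nat_lit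 376) (nat_lit 5) (nat_lit 640) (nat_lit 600) (nat_lit 320)) (XT.lf (nat_lit 0) (nat_lit 4467918841) (nat_lit 760) (nat_lit 18876653612) (nat_lit 836) (nat_lit 7258480057) (nat_lit 355) (nat_lit 5) (nat_lit 365) (nat_lit 5) (nat_lit 366) (nat_lit 5) (nat_lit 641) (nat_lit 600) (nat_lit 319))) (XT.nd (nat_lit 78) (nat_lit 760) (nat_lit 0) (XT.lf (nat_lit 0) (nat_lit 21873273533) (nat_lit 760) (nat_lit 5764615963) (nat_lit 836) (nat_lit 3309620356) (nat_lit 355) (nat_lit 5) (nat_lit 365) (nat_lit 5) (nat_lit 366) (nat_lit 5) (nat_lit 642) (nat_lit 600) (nat_lit 318)) (XT.nd (nat_lit 78) (nat_lit 0) (nat_lit 0) (XT.lf (nat_lit 0) (nat_lit 811156043) (nat_lit 760) (nat_lit 22916099797) (nat_lit 76) (nat_lit 7569460169) (nat_lit 345) (nat_lit 5) (nat_lit 355) (nat_lit 5) (nat_lit 346) (nat_lit 5) (nat_lit 643) (nat_lit 600) (nat_lit 317)) (XT.lf (nat_lit 0) (nat_lit 5067389688) (nat_lit 760) (nat_lit 5407026698) (nat_lit 76) (nat_lit 21176105329) (nat_lit 345) (nat_lit 5) (nat_lit 355) (nat_lit 5) (nat_lit 346)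 (nat_lit 5) (nat_lit 644) (nat_lit 600) (nat_lit 316))))) (XT.nd (nat_lit 234) (nat_lit 1368) (nat_lit 0) (XT.nd (nat_lit 78) (nat_lit 684) (nat_lit 0) (XT.lf (nat_lit 0) (nat_lit 9508842075) (nat_lit 836) (nat_lit 19414791795) (nat_lit 76) (nat_lit 3085767892) (nat_lit 335) (nat_lit 5) (nat_lit 346) (nat_lit 5) (nat_lit 336) (nat_lit 5) (nat_lit 645) (nat_lit 600) (nat_lit 315)) (XT.nd (nat_lit 78) (nat_lit 684) (nat_lit 0) (XT.lf (nat_lit 0) (nat_lit 14142925276) (nat_lit 836) (nat_lit 1417155533) (nat_lit 76) (nat_lit 16813302670) (nat_lit 335) (nat_lit 5) (nat_lit 346) (nat_lit 5) (nat_lit 336) (nat_lit 5) (nat_lit 646) (nat_lit 600) (nat_lit 314)) (XT.lf (nat_lit 0) (nat_lit 17163191054) (nat_lit 684) (nat_lit 1815885363) (nat_lit 760) (nat_lit 13763380791) (nat_lit 326) (nat_lit 5) (nat_lit 335) (nat_lit 5) (nat_lit 336) (nat_lit 5) (nat_lit 647) (nat_lit 600) (nat_lit 313)))) (XT.nd (nat_lit 78) (nat_lit 684) (nat_lit 0) (XT.lf (nat_lit 0) (nat_lit 2972965088) (nat_lit 684) (nat_lit 21045066589)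 (nat_lit 760) (nat_lit 9098759215) (nat_lit 317) (nat_lit 5) (nat_lit 326) (nat_lit 5) (nat_lit 327) (nat_lit 5) (nat_lit 648) (nat_lit 600) (nat_lit 312)) (XT.nd (nat_lit 78) (nat_lit 684) (nat_lit 0) (XT.lf (nat_lit 0) (nat_lit 22092888067) (nat_lit 684) (nat_lit 7179368698) (nat_lit 760) (nat_lit 4224064769) (nat_lit 317) (nat_lit 5) (nat_lit 326) (nat_lit 5) (nat_lit 327) (nat_lit 5) (nat_lit 649) (nat_lit 600) (nat_lit 311)) (XT.lf (nat_lit 0) (nat_lit 832603142) (nat_lit 684) (nat_lit 26120979082) (nat_lit 76) (nat_lit 6927877686) (nat_lit 308) (nat_lit 5) (nat_lit 317) (nat_lit 5) (nat_lit 309) (nat_lit 5) (nat_lit 650) (nat_lit 600) (nat_lit 310))))))))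
noncomputable def xc220 : XT := (XT.nd (nat_lit 78078) (nat_lit 0) (nat_lit 12616) (XT.nd (nat_lit 77298) (nat_lit 0) (nat_lit 15732) (XT.nd (nat_lit 390) (nat_lit 1292) (nat_lit 0) (XT.nd (nat_lit 156) (nat_lit 1216) (nat_lit 0) (XT.nd (nat_lit 78) (nat_lit 684) (nat_lit 0) (XT.lf (nat_lit 0) (nat_lit 6056518890) (nat_lit 684) (nat_lit 6888896974) (nat_lit 76) (nat_lit 21325873369) (nat_lit 308) (nat_lit 5) (nat_lit 317) (nat_lit 5) (nat_lit 309) (nat_lit 5) (nat_lit 651) (nat_lit 600) (nat_lit 309)) (XT.lf (nat_lit 0) (nat_lit 11475989333) (nat_lit 760) (nat_lit 21781911906) (nat_lit 76) (nat_lit 1409192467) (nat_lit 299) (nat_lit 5) (nat_lit 309) (nat_lit 5) (nat_lit 300) (nat_lit 5) (nat_lit 652) (nat_lit 600) (nat_lit 308))) (XT.nd (nat_lit 78) (nat_lit 1216) (nat_lit 0) (XT.lf (nat_lit 0) (nat_lit 17134219637) (nat_lit 760) (nat_lit 2010128380) (nat_lit 76) (nat_lit 15923858932) (nat_lit 299) (nat_lit 5) (nat_lit 309) (nat_lit 5) (nat_lit 300) (nat_lit 5) (nat_lit 653) (nat_lit 600) (nat_lit 307))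 (XT.nd (nat_lit 78) (nat_lit 608) (nat_lit 0) (XT.lf (nat_lit 0) (nat_lit 18396080030) (nat_lit 608) (nat_lit 4627116179) (nat_lit 684) (nat_lit 12451794703) (nat_lit 291) (nat_lit 5) (nat_lit 299) (nat_lit 5) (nat_lit 300) (nat_lit 5) (nat_lit 654) (nat_lit 600) (nat_lit 306)) (XT.lf (nat_lit 0) (nat_lit 3323117579) (nat_lit 608) (nat_lit 25806248333) (nat_lit 684) (nat_lit 6758556456) (nat_lit 283) (nat_lit 5) (nat_lit 291) (nat_lit 5) (nat_lit 292) (nat_lit 5) (nat_lit 655) (nat_lit 600) (nat_lit 305))))) (XT.nd (nat_lit 156) (nat_lit 608) (nat_lit 0) (XT.nd (nat_lit 78) (nat_lit 684) (nat_lit 0) (XT.lf (nat_lit 0) (nat_lit 24331362746) (nat_lit 608) (nat_lit 11169528599) (nat_lit 684) (nat_lit 805356546) (nat_lit 283) (nat_lit 5) (nat_lit 291) (nat_lit 5) (nat_lit 292) (nat_lit 5) (nat_lit 656) (nat_lit 600) (nat_lit 304)) (XT.lf (nat_lit 0) (nat_lit 5280211248) (nat_lit 684) (nat_lit 27646283868) (nat_lit 76) (nat_lit 3804113358) (nat_lit 274) (nat_lit 5) (nat_lit 283) (nat_lit 5) (nat_lit 275) (nat_lit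 5) (nat_lit 657) (nat_lit 600) (nat_lit 303))) (XT.nd (nat_lit 78) (nat_lit 608) (nat_lit 0) (XT.lf (nat_lit 0) (nat_lit 11629800667) (nat_lit 684) (nat_lit 6516923254) (nat_lit 76) (nat_lit 19013564079) (nat_lit 274) (nat_lit 5) (nat_lit 283) (nat_lit 5) (nat_lit 275) (nat_lit 5) (nat_lit 658) (nat_lit 600) (nat_lit 302)) (XT.nd (nat_lit 78) (nat_lit 0) (nat_lit 0) (XT.lf (nat_lit 0) (nat_lit 15232567763) (nat_lit 608) (nat_lit 2970972449) (nat_lit 684) (nat_lit 19393077818) (nat_lit 266) (nat_lit 5) (nat_lit 274) (nat_lit 5) (nat_lit 275) (nat_lit 5) (nat_lit 659) (nat_lit 600) (nat_lit 301)) (XT.lf (nat_lit 0) (nat_lit 25032263196) (nat_lit 684) (nat_lit 619165819) (nat_lit 76) (nat_lit 12387775549) (nat_lit 266) (nat_lit 5) (nat_lit 275) (nat_lit 5) (nat_lit 267) (nat_lit 5) (nat_lit 660) (nat_lit 600) (nat_lit 300)))))) (XT.nd (nat_lit 390) (nat_lit 1748) (nat_lit 0) (XT.nd (nat_lit 156) (nat_lit 0) (nat_lit 0) (XT.nd (nat_lit 78) (nat_lit 0) (nat_lit 0) (XT.lf (nat_lit 0) (nat_lit 4724536962) (nat_lit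 0) (nat_lit 4724536962) (nat_lit 1748) (nat_lit 703095524) (nat_lit 496) (nat_lit 5) (nat_lit 496) (nat_lit 3) (nat_lit 519) (nat_lit 3) (nat_lit 601) (nat_lit 601) (nat_lit 358)) (XT.lf (nat_lit 0) (nat_lit 19250435835) (nat_lit 1748) (nat_lit 786533339) (nat_lit 1824) (nat_lit 467137006) (nat_lit 496) (nat_lit 5) (nat_lit 519) (nat_lit 3) (nat_lit 520) (nat_lit 5) (nat_lit 602) (nat_lit 601) (nat_lit 357))) (XT.nd (nat_lit 78) (nat_lit 0) (nat_lit 0) (XT.lf (nat_lit 76) (nat_lit 9543967679) (nat_lit 0) (nat_lit 10186154986) (nat_lit 1824) (nat_lit 975339342) (nat_lit 497) (nat_lit 5) (nat_lit 496) (nat_lit 5) (nat_lit 520) (nat_lit 5) (nat_lit 603) (nat_lit 601) (nat_lit 356)) (XT.nd (nat_lit 78) (nat_lit 0) (nat_lit 76) (XT.lf (nat_lit 76) (nat_lit 20089555401) (nat_lit 0) (nat_lit 131004508) (nat_lit 1824) (nat_lit 690262163) (nat_lit 497) (nat_lit 5) (nat_lit 496) (nat_lit 5) (nat_lit 520) (nat_lit 5) (nat_lit 604) (nat_lit 601) (nat_lit 355)) (XT.lf (nat_lit 76) (nat_lit 9786137125) (nat_lit 0) (nat_lit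 11059918464) (nat_lit 1824) (nat_lit 271729009) (nat_lit 498) (nat_lit 5) (nat_lit 497) (nat_lit 5) (nat_lit 521) (nat_lit 5) (nat_lit 605) (nat_lit 601) (nat_lit 354))))) (XT.nd (nat_lit 156) (nat_lit 0) (nat_lit 76) (XT.nd (nat_lit 78) (nat_lit 0) (nat_lit 76) (XT.lf (nat_lit 0) (nat_lit 155564707) (nat_lit 1824) (nat_lit 716140332) (nat_lit 1900) (nat_lit 20457112924) (nat_lit 473) (nat_lit 5) (nat_lit 497) (nat_lit 5) (nat_lit 498) (nat_lit 5) (nat_lit 606) (nat_lit 601) (nat_lit 353)) (XT.lf (nat_lit 0) (nat_lit 712630154) (nat_lit 1824) (nat_lit 11363086435) (nat_lit 1900) (nat_lit 9465822436) (nat_lit 474) (nat_lit 5) (nat_lit 498) (nat_lit 5) (nat_lit 499) (nat_lit 5) (nat_lit 607) (nat_lit 601) (nat_lit 352))) (XT.nd (nat_lit 78) (nat_lit 0) (nat_lit 76) (XT.lf (nat_lit 0) (nat_lit 1287608309) (nat_lit 1824) (nat_lit 465880930) (nat_lit 1900) (nat_lit 20004890075) (nat_lit 474) (nat_lit 5) (nat_lit 498) (nat_lit 5) (nat_lit 499) (nat_lit 5) (nat_lit 608) (nat_lit 601) (nat_lit 351)) (XT.nd (nat_lit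 78) (nat_lit 0) (nat_lit 0) (XT.lf (nat_lit 0) (nat_lit 1997816407) (nat_lit 1824) (nat_lit 11247174615) (nat_lit 1900) (nat_lit 8732091005) (nat_lit 475) (nat_lit 5) (nat_lit 499) (nat_lit 5) (nat_lit 500) (nat_lit 5) (nat_lit 609) (nat_lit 601) (nat_lit 350)) (XT.lf (nat_lit 0) (nat_lit 2733293204) (nat_lit 1824) (nat_lit 58129297) (nat_lit 1900) (nat_lit 19408515226) (nat_lit 475) (nat_lit 5) (nat_lit 499) (nat_lit 5) (nat_lit 500) (nat_lit 5) (nat_lit 610) (nat_lit 601) (nat_lit 349))))))) (XT.nd (nat_lit 780) (nat_lit 3344) (nat_lit 0) (XT.nd (nat_lit 390) (nat_lit 0) (nat_lit 152) (XT.nd (nat_lit 156) (nat_lit 0) (nat_lit 76) (XT.nd (nat_lit 78) (nat_lit 0) (nat_lit 0) (XT.lf (nat_lit 0) (nat_lit 3606152443) (nat_lit 1824) (nat_lit 10974154257) (nat_lit 1900) (nat_lit 7844490602) (nat_lit 476) (nat_lit 5) (nat_lit 500) (nat_lit 5) (nat_lit 501) (nat_lit 5) (nat_lit 611) (nat_lit 601) (nat_lit 348)) (XT.lf (nat_lit 76) (nat_lit 522247234) (nat_lit 0) (nat_lit 3992933539) (nat_lit 1900) (nat_lit 18138599274)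 (nat_lit 477) (nat_lit 5) (nat_lit 476) (nat_lit 5) (nat_lit 501) (nat_lit 5) (nat_lit 612) (nat_lit 601) (nat_lit 347))) (XT.nd (nat_lit 78) (nat_lit 0) (nat_lit 0) (XT.lf (nat_lit 0) (nat_lit 5557214472) (nat_lit 1824) (nat_lit 10535621558) (nat_lit 1900) (nat_lit 6792210130) (nat_lit 477) (nat_lit 5) (nat_lit 501) (nat_lit 5) (nat_lit 502) (nat_lit 5) (nat_lit 613) (nat_lit 601) (nat_lit 346)) (XT.nd (nat_lit 78) (nat_lit 0) (nat_lit 76) (XT.lf (nat_lit 76) (nat_lit 1280193557) (nat_lit 0) (nat_lit 5371223433) (nat_lit 1900) (nat_lit 16468894248) (nat_lit 478) (nat_lit 5) (nat_lit 477) (nat_lit 5) (nat_lit 502) (nat_lit 5) (nat_lit 614) (nat_lit 601) (nat_lit 345)) (XT.lf (nat_lit 0) (nat_lit 7871433508) (nat_lit 1824) (nat_lit 9922748169) (nat_lit 1900) (nat_lit 5564021544) (nat_lit 478) (nat_lit 5) (nat_lit 502) (nat_lit 5) (nat_lit 503) (nat_lit 5) (nat_lit 615) (nat_lit 601) (nat_lit 344))))) (XT.nd (nat_lit 156) (nat_lit 0) (nat_lit 76) (XT.nd (nat_lit 78) (nat_lit 0) (nat_lit 76) (XT.lf (nat_lit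 76) (nat_lit 2224195978) (nat_lit 0) (nat_lit 6938364059) (nat_lit 1900) (nat_lit 14437359013) (nat_lit 479) (nat_lit 5) (nat_lit 478) (nat_lit 5) (nat_lit 503) (nat_lit 5) (nat_lit 616) (nat_lit 601) (nat_lit 343)) (XT.lf (nat_lit 0) (nat_lit 10570134277) (nat_lit 1824) (nat_lit 9126266258) (nat_lit 1900) (nat_lit 4148256350) (nat_lit 479) (nat_lit 5) (nat_lit 503) (nat_lit 5) (nat_lit 504) (nat_lit 5) (nat_lit 617) (nat_lit 601) (nat_lit 342))) (XT.nd (nat_lit 78) (nat_lit 0) (nat_lit 76) (XT.lf (nat_lit 76) (nat_lit 3363968996) (nat_lit 0) (nat_lit 8706498196) (nat_lit 1900) (nat_lit 12022530332) (nat_lit 480) (nat_lit 5) (nat_lit 479) (nat_lit 5) (nat_lit 504) (nat_lit 5) (nat_lit 618) (nat_lit 601) (nat_lit 341)) (XT.nd (nat_lit 78) (nat_lit 0) (nat_lit 0) (XT.lf (nat_lit 0) (nat_lit 13675575559) (nat_lit 1824) (nat_lit 8136452849) (nat_lit 1900) (nat_lit 2532781379) (nat_lit 480) (nat_lit 5) (nat_lit 504) (nat_lit 5) (nat_lit 505) (nat_lit 5) (nat_lit 619) (nat_lit 601) (nat_lit 340)) (XT.lf (nat_lit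 76) (nat_lit 4709699077) (nat_lit 0) (nat_lit 10688254549) (nat_lit 1900) (nat_lit 9202001501) (nat_lit 481) (nat_lit 5) (nat_lit 480) (nat_lit 5) (nat_lit 505) (nat_lit 5) (nat_lit 620) (nat_lit 601) (nat_lit 339)))))) (XT.nd (nat_lit 390) (nat_lit 3724) (nat_lit 0) (XT.nd (nat_lit 156) (nat_lit 0) (nat_lit 0) (XT.nd (nat_lit 78) (nat_lit 0) (nat_lit 0) (XT.lf (nat_lit 0) (nat_lit 17210992049) (nat_lit 1824) (nat_lit 6943113440) (nat_lit 1900) (nat_lit 704973810) (nat_lit 481) (nat_lit 5) (nat_lit 505) (nat_lit 5) (nat_lit 506) (nat_lit 5) (nat_lit 621) (nat_lit 601) (nat_lit 338)) (XT.lf (nat_lit 76) (nat_lit 6272061688) (nat_lit 0) (nat_lit 12896773495) (nat_lit 1900) (nat_lit 5952380068) (nat_lit 482) (nat_lit 5) (nat_lit 481) (nat_lit 5) (nat_lit 506) (nat_lit 5) (nat_lit 622) (nat_lit 601) (nat_lit 337))) (XT.nd (nat_lit 78) (nat_lit 0) (nat_lit 76) (XT.lf (nat_lit 76) (nat_lit 19843285340) (nat_lit 0) (nat_lit 1366222881) (nat_lit 1900) (nat_lit 4178212413) (nat_lit 482) (nat_lit 5) (nat_lit 481)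 (nat_lit 5) (nat_lit 506) (nat_lit 5) (nat_lit 623) (nat_lit 601) (nat_lit 336)) (XT.nd (nat_lit 78) (nat_lit 0) (nat_lit 0) (XT.lf (nat_lit 76) (nat_lit 8062239101) (nat_lit 0) (nat_lit 15345733677) (nat_lit 1900) (nat_lit 2249243954) (nat_lit 483) (nat_lit 5) (nat_lit 482) (nat_lit 5) (nat_lit 507) (nat_lit 5) (nat_lit 624) (nat_lit 601) (nat_lit 335)) (XT.lf (nat_lit 76) (nat_lit 22004665765) (nat_lit 0) (nat_lit 3689117725) (nat_lit 1900) (nat_lit 237451891) (nat_lit 483) (nat_lit 5) (nat_lit 482) (nat_lit 5) (nat_lit 507) (nat_lit 5) (nat_lit 625) (nat_lit 601) (nat_lit 334))))) (XT.nd (nat_lit 156) (nat_lit 1976) (nat_lit 0) (XT.nd (nat_lit 78) (nat_lit 0) (nat_lit 0) (XT.lf (nat_lit 0) (nat_lit 1907553695) (nat_lit 1900) (nat_lit 16129025108) (nat_lit 76) (nat_lit 8171584608) (nat_lit 458) (nat_lit 5) (nat_lit 483) (nat_lit 5) (nat_lit 459) (nat_lit 5) (nat_lit 626) (nat_lit 601) (nat_lit 333)) (XT.lf (nat_lit 0) (nat_lit 4140499123) (nat_lit 1900) (nat_lit 2100497334) (nat_lit 76) (nat_lit 20248637926)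 (nat_lit 458) (nat_lit 5) (nat_lit 483) (nat_lit 5) (nat_lit 459) (nat_lit 5) (nat_lit 627) (nat_lit 601) (nat_lit 332))) (XT.nd (nat_lit 78) (nat_lit 912) (nat_lit 0) (XT.lf (nat_lit 0) (nat_lit 6533852270) (nat_lit 1140) (nat_lit 14444851690) (nat_lit 76) (nat_lit 5795715991) (nat_lit 444) (nat_lit 5) (nat_lit 459) (nat_lit 5) (nat_lit 445) (nat_lit 5) (nat_lit 628) (nat_lit 601) (nat_lit 331)) (XT.nd (nat_lit 78) (nat_lit 912) (nat_lit 0) (XT.lf (nat_lit 0) (nat_lit 9027946683) (nat_lit 1140) (nat_lit 31730434) (nat_lit 76) (nat_lit 18004166780) (nat_lit 444) (nat_lit 5) (nat_lit 459) (nat_lit 5) (nat_lit 445) (nat_lit 5) (nat_lit 629) (nat_lit 601) (nat_lit 330)) (XT.lf (nat_lit 0) (nat_lit 11686577763) (nat_lit 988) (nat_lit 12515705251) (nat_lit 76) (nat_lit 3154480358) (nat_lit 432) (nat_lit 5) (nat_lit 445) (nat_lit 5) (nat_lit 433) (nat_lit 5) (nat_lit 630) (nat_lit 601) (nat_lit 329))))))))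
noncomputable def xc221 : XT := (XT.nd (nat_lit 1560) (nat_lit 3876) (nat_lit 0) (XT.nd (nat_lit 780) (nat_lit 3648) (nat_lit 0) (XT.nd (nat_lit 390) (nat_lit 2508) (nat_lit 0) (XT.nd (nat_lit 156) (nat_lit 1672) (nat_lit 0) (XT.nd (nat_lit 78) (nat_lit 0) (nat_lit 0) (XT.lf (nat_lit 0) (nat_lit 2324294855) (nat_lit 912) (nat_lit 12146833043) (nat_lit 988) (nat_lit 13182958556) (nat_lit 420) (nat_lit 5) (nat_lit 432) (nat_lit 5) (nat_lit 433) (nat_lit 5) (nat_lit 631) (nat_lit 601) (nat_lit 328)) (XT.lf (nat_lit 0) (nat_lit 17394363440) (nat_lit 988) (nat_lit 10328876819) (nat_lit 76) (nat_lit 232455992) (nat_lit 420) (nat_lit 5) (nat_lit 433) (nat_lit 5) (nat_lit 421) (nat_lit 5) (nat_lit 632) (nat_lit 601) (nat_lit 327))) (XT.nd (nat_lit 78) (nat_lit 836) (nat_lit 0) (XT.lf (nat_lit 0) (nat_lit 4954215671) (nat_lit 836) (nat_lit 15531985215) (nat_lit 912) (nat_lit 7774934754) (nat_lit 409) (nat_lit 5) (nat_lit 420) (nat_lit 5) (nat_lit 421) (nat_lit 5) (nat_lit 633) (nat_lit 601) (nat_lit 326)) (XT.nd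 (nat_lit 78) (nat_lit 836) (nat_lit 0) (XT.lf (nat_lit 0) (nat_lit 20680622858) (nat_lit 836) (nat_lit 3026126110) (nat_lit 912) (nat_lit 4864597504) (nat_lit 409) (nat_lit 5) (nat_lit 420) (nat_lit 5) (nat_lit 421) (nat_lit 5) (nat_lit 634) (nat_lit 601) (nat_lit 325)) (XT.lf (nat_lit 0) (nat_lit 7871500143) (nat_lit 836) (nat_lit 19232097524) (nat_lit 912) (nat_lit 1781926198) (nat_lit 398) (nat_lit 5) (nat_lit 409) (nat_lit 5) (nat_lit 410) (nat_lit 5) (nat_lit 635) (nat_lit 601) (nat_lit 324))))) (XT.nd (nat_lit 156) (nat_lit 1596) (nat_lit 0) (XT.nd (nat_lit 78) (nat_lit 836) (nat_lit 0) (XT.lf (nat_lit 0) (nat_lit 1415498484) (nat_lit 912) (nat_lit 5180609581) (nat_lit 76) (nat_lit 22608280594) (nat_lit 397) (nat_lit 5) (nat_lit 409) (nat_lit 5) (nat_lit 398) (nat_lit 5) (nat_lit 636) (nat_lit 601) (nat_lit 323)) (XT.lf (nat_lit 0) (nat_lit 4764192242) (nat_lit 912) (nat_lit 18468477952) (nat_lit 76) (nat_lit 6294501499) (nat_lit 386) (nat_lit 5) (nat_lit 398) (nat_lit 5) (nat_lit 387) (nat_lit 5)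 (nat_lit 637) (nat_lit 601) (nat_lit 322))) (XT.nd (nat_lit 78) (nat_lit 1596) (nat_lit 0) (XT.lf (nat_lit 0) (nat_lit 8256240512) (nat_lit 912) (nat_lit 2208980708) (nat_lit 76) (nat_lit 19389661678) (nat_lit 386) (nat_lit 5) (nat_lit 398) (nat_lit 5) (nat_lit 387) (nat_lit 5) (nat_lit 638) (nat_lit 601) (nat_lit 321)) (XT.nd (nat_lit 78) (nat_lit 760) (nat_lit 0) (XT.lf (nat_lit 0) (nat_lit 11927670856) (nat_lit 912) (nat_lit 15640126196) (nat_lit 76) (nat_lit 2619160574) (nat_lit 375) (nat_lit 5) (nat_lit 387) (nat_lit 5) (nat_lit 376) (nat_lit 5) (nat_lit 639) (nat_lit 601) (nat_lit 320)) (XT.lf (nat_lit 0) (nat_lit 1084806119) (nat_lit 760) (nat_lit 14676771395) (nat_lit 836) (nat_lit 14762315499) (nat_lit 365) (nat_lit 5) (nat_lit 375) (nat_lit 5) (nat_lit 376) (nat_lit 5) (nat_lit 640) (nat_lit 601) (nat_lit 319)))))) (XT.nd (nat_lit 390) (nat_lit 2128) (nat_lit 0) (XT.nd (nat_lit 156) (nat_lit 760) (nat_lit 0) (XT.nd (nat_lit 78) (nat_lit 760) (nat_lit 0) (XT.lf (nat_lit 0) (nat_lit 18353915736)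 (nat_lit 760) (nat_lit 1421005265) (nat_lit 836) (nat_lit 11090591049) (nat_lit 365) (nat_lit 5) (nat_lit 375) (nat_lit 5) (nat_lit 376) (nat_lit 5) (nat_lit 641) (nat_lit 601) (nat_lit 318)) (XT.lf (nat_lit 0) (nat_lit 4735668760) (nat_lit 760) (nat_lit 19240017530) (nat_lit 836) (nat_lit 7236134192) (nat_lit 355) (nat_lit 5) (nat_lit 365) (nat_lit 5) (nat_lit 366) (nat_lit 5) (nat_lit 642) (nat_lit 601) (nat_lit 317))) (XT.nd (nat_lit 78) (nat_lit 760) (nat_lit 0) (XT.lf (nat_lit 0) (nat_lit 22485632673) (nat_lit 760) (nat_lit 5866016954) (nat_lit 836) (nat_lit 3211581914) (nat_lit 355) (nat_lit 5) (nat_lit 365) (nat_lit 5) (nat_lit 366) (nat_lit 5) (nat_lit 643) (nat_lit 601) (nat_lit 316)) (XT.nd (nat_lit 78) (nat_lit 0) (nat_lit 0) (XT.lf (nat_lit 0) (nat_lit 987523028) (nat_lit 760) (nat_lit 23195424710) (nat_lit 76) (nat_lit 7736491581) (nat_lit 345) (nat_lit 5) (nat_lit 355) (nat_lit 5) (nat_lit 346) (nat_lit 5) (nat_lit 644) (nat_lit 601) (nat_lit 315)) (XT.lf (nat_lit 0) (nat_lit 5325741270) (nat_lit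 760) (nat_lit 5339679896) (nat_lit 76) (nat_lit 21614962935) (nat_lit 345) (nat_lit 5) (nat_lit 355) (nat_lit 5) (nat_lit 346) (nat_lit 5) (nat_lit 645) (nat_lit 601) (nat_lit 314))))) (XT.nd (nat_lit 156) (nat_lit 1368) (nat_lit 0) (XT.nd (nat_lit 78) (nat_lit 0) (nat_lit 0) (XT.lf (nat_lit 0) (nat_lit 9854201233) (nat_lit 836) (nat_lit 19625771007) (nat_lit 76) (nat_lit 3166506093) (nat_lit 335) (nat_lit 5) (nat_lit 346) (nat_lit 5) (nat_lit 336) (nat_lit 5) (nat_lit 646) (nat_lit 601) (nat_lit 313)) (XT.lf (nat_lit 0) (nat_lit 14577923308) (nat_lit 836) (nat_lit 1271658816) (nat_lit 76) (nat_lit 17168218570) (nat_lit 335) (nat_lit 5) (nat_lit 346) (nat_lit 5) (nat_lit 336) (nat_lit 5) (nat_lit 647) (nat_lit 601) (nat_lit 312))) (XT.nd (nat_lit 78) (nat_lit 684) (nat_lit 0) (XT.lf (nat_lit 0) (nat_lit 17679151020) (nat_lit 684) (nat_lit 1829784582) (nat_lit 760) (nat_lit 13885357684) (nat_lit 326) (nat_lit 5) (nat_lit 335) (nat_lit 5) (nat_lit 336) (nat_lit 5) (nat_lit 648) (nat_lit 601) (nat_lit 311))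 (XT.nd (nat_lit 78) (nat_lit 0) (nat_lit 0) (XT.lf (nat_lit 0) (nat_lit 3206833021) (nat_lit 684) (nat_lit 21440165403) (nat_lit 760) (nat_lit 9129148797) (nat_lit 317) (nat_lit 5) (nat_lit 326) (nat_lit 5) (nat_lit 327) (nat_lit 5) (nat_lit 649) (nat_lit 601) (nat_lit 310)) (XT.lf (nat_lit 0) (nat_lit 22705734683) (nat_lit 684) (nat_lit 7297659486) (nat_lit 760) (nat_lit 4159932729) (nat_lit 317) (nat_lit 5) (nat_lit 326) (nat_lit 5) (nat_lit 327) (nat_lit 5) (nat_lit 650) (nat_lit 601) (nat_lit 309))))))) (XT.nd (nat_lit 77376) (nat_lit 0) (nat_lit 15732) (XT.nd (nat_lit 390) (nat_lit 1900) (nat_lit 0) (XT.nd (nat_lit 156) (nat_lit 1292) (nat_lit 0) (XT.nd (nat_lit 78) (nat_lit 0) (nat_lit 0) (XT.lf (nat_lit 0) (nat_lit 994333841) (nat_lit 684) (nat_lit 26468861088) (nat_lit 76) (nat_lit 7092985666) (nat_lit 308) (nat_lit 5) (nat_lit 317) (nat_lit 5) (nat_lit 309) (nat_lit 5) (nat_lit 651) (nat_lit 601) (nat_lit 308)) (XT.lf (nat_lit 0) (nat_lit 6319883224) (nat_lit 684) (nat_lit 6855559643) (nat_lit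 76) (nat_lit 21778420666) (nat_lit 308) (nat_lit 5) (nat_lit 317) (nat_lit 5) (nat_lit 309) (nat_lit 5) (nat_lit 652) (nat_lit 601) (nat_lit 307))) (XT.nd (nat_lit 78) (nat_lit 608) (nat_lit 0) (XT.lf (nat_lit 0) (nat_lit 11846249009) (nat_lit 760) (nat_lit 22044934134) (nat_lit 76) (nat_lit 1466430967) (nat_lit 299) (nat_lit 5) (nat_lit 309) (nat_lit 5) (nat_lit 300) (nat_lit 5) (nat_lit 653) (nat_lit 601) (nat_lit 306)) (XT.nd (nat_lit 78) (nat_lit 608) (nat_lit 0) (XT.lf (nat_lit 0) (nat_lit 17614884313) (nat_lit 760) (nat_lit 1881099565) (nat_lit 76) (nat_lit 16270821063) (nat_lit 299) (nat_lit 5) (nat_lit 309) (nat_lit 5) (nat_lit 300) (nat_lit 5) (nat_lit 654) (nat_lit 601) (nat_lit 305)) (XT.lf (nat_lit 0) (nat_lit 18932119648) (nat_lit 608) (nat_lit 4687906806) (nat_lit 684) (nat_lit 12561730536) (nat_lit 291) (nat_lit 5) (nat_lit 299) (nat_lit 5) (nat_lit 300) (nat_lit 5) (nat_lit 655) (nat_lit 601) (nat_lit 304))))) (XT.nd (nat_lit 156) (nat_lit 1292) (nat_lit 0) (XT.nd (nat_lit 78) (nat_lit 0)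 (nat_lit 0) (XT.lf (nat_lit 0) (nat_lit 3559102866) (nat_lit 608) (nat_lit 26287845602) (nat_lit 684) (nat_lit 6756026155) (nat_lit 283) (nat_lit 5) (nat_lit 291) (nat_lit 5) (nat_lit 292) (nat_lit 5) (nat_lit 656) (nat_lit 601) (nat_lit 303)) (XT.lf (nat_lit 0) (nat_lit 24984188957) (nat_lit 608) (nat_lit 11359068487) (nat_lit 684) (nat_lit 686462275) (nat_lit 283) (nat_lit 5) (nat_lit 291) (nat_lit 5) (nat_lit 292) (nat_lit 5) (nat_lit 657) (nat_lit 601) (nat_lit 302))) (XT.nd (nat_lit 78) (nat_lit 608) (nat_lit 0) (XT.lf (nat_lit 0) (nat_lit 5517745710) (nat_lit 684) (nat_lit 28029927456) (nat_lit 76) (nat_lit 3914902949) (nat_lit 274) (nat_lit 5) (nat_lit 283) (nat_lit 5) (nat_lit 275) (nat_lit 5) (nat_lit 658) (nat_lit 601) (nat_lit 301)) (XT.nd (nat_lit 78) (nat_lit 608) (nat_lit 0) (XT.lf (nat_lit 0) (nat_lit 11991740050) (nat_lit 684) (nat_lit 6481298886) (nat_lit 76) (nat_lit 19427862149) (nat_lit 274) (nat_lit 5) (nat_lit 283) (nat_lit 5) (nat_lit 275) (nat_lit 5) (nat_lit 659) (nat_lit 601) (nat_lit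 300)) (XT.lf (nat_lit 0) (nat_lit 15702090090) (nat_lit 608) (nat_lit 2993398602) (nat_lit 684) (nat_lit 19650498450) (nat_lit 266) (nat_lit 5) (nat_lit 274) (nat_lit 5) (nat_lit 275) (nat_lit 5) (nat_lit 660) (nat_lit 601) (nat_lit 299)))))) (XT.nd (nat_lit 390) (nat_lit 0) (nat_lit 0) (XT.nd (nat_lit 156) (nat_lit 1748) (nat_lit 0) (XT.nd (nat_lit 78) (nat_lit 0) (nat_lit 0) (XT.lf (nat_lit 0) (nat_lit 4898624149) (nat_lit 0) (nat_lit 4898624149) (nat_lit 1748) (nat_lit 554770768) (nat_lit 496) (nat_lit 5) (nat_lit 496) (nat_lit 3) (nat_lit 519) (nat_lit 3) (nat_lit 602) (nat_lit 602) (nat_lit 356)) (XT.lf (nat_lit 0) (nat_lit 19946574164) (nat_lit 1748) (nat_lit 638916924) (nat_lit 1824) (nat_lit 322455185) (nat_lit 496) (nat_lit 5) (nat_lit 519) (nat_lit 3) (nat_lit 520) (nat_lit 5) (nat_lit 603) (nat_lit 602) (nat_lit 355))) (XT.nd (nat_lit 78) (nat_lit 1748) (nat_lit 0) (XT.lf (nat_lit 76) (nat_lit 9897119463) (nat_lit 0) (nat_lit 10533688267) (nat_lit 1824) (nat_lit 682622807) (nat_lit 497) (nat_lit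 5) (nat_lit 496) (nat_lit 5) (nat_lit 520) (nat_lit 5) (nat_lit 604) (nat_lit 602) (nat_lit 354)) (XT.nd (nat_lit 78) (nat_lit 1748) (nat_lit 0) (XT.lf (nat_lit 76) (nat_lit 20650437128) (nat_lit 0) (nat_lit 274614972) (nat_lit 1824) (nat_lit 397966110) (nat_lit 497) (nat_lit 5) (nat_lit 496) (nat_lit 5) (nat_lit 520) (nat_lit 5) (nat_lit 605) (nat_lit 602) (nat_lit 353)) (XT.lf (nat_lit 0) (nat_lit 22809469) (nat_lit 1824) (nat_lit 11387590712) (nat_lit 1900) (nat_lit 10123831380) (nat_lit 473) (nat_lit 5) (nat_lit 497) (nat_lit 5) (nat_lit 498) (nat_lit 5) (nat_lit 606) (nat_lit 602) (nat_lit 352))))) (XT.nd (nat_lit 234) (nat_lit 0) (nat_lit 152) (XT.nd (nat_lit 78) (nat_lit 0) (nat_lit 76) (XT.lf (nat_lit 0) (nat_lit 449203461) (nat_lit 1824) (nat_lit 564884531) (nat_lit 1900) (nat_lit 20735478176) (nat_lit 473) (nat_lit 5) (nat_lit 497) (nat_lit 5) (nat_lit 498) (nat_lit 5) (nat_lit 607) (nat_lit 602) (nat_lit 351)) (XT.nd (nat_lit 78) (nat_lit 0) (nat_lit 0) (XT.lf (nat_lit 0) (nat_lit 1011993302)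 (nat_lit 1824) (nat_lit 11419335381) (nat_lit 1900) (nat_lit 9535321652) (nat_lit 474) (nat_lit 5) (nat_lit 498) (nat_lit 5) (nat_lit 499) (nat_lit 5) (nat_lit 608) (nat_lit 602) (nat_lit 350)) (XT.lf (nat_lit 0) (nat_lit 1592880617) (nat_lit 1824) (nat_lit 307538957) (nat_lit 1900) (nat_lit 20287520001) (nat_lit 474) (nat_lit 5) (nat_lit 498) (nat_lit 5) (nat_lit 499) (nat_lit 5) (nat_lit 609) (nat_lit 602) (nat_lit 349)))) (XT.nd (nat_lit 78) (nat_lit 0) (nat_lit 0) (XT.lf (nat_lit 0) (nat_lit 2312188615) (nat_lit 1824) (nat_lit 11299337664) (nat_lit 1900) (nat_lit 8799592481) (nat_lit 475) (nat_lit 5) (nat_lit 499) (nat_lit 5) (nat_lit 500) (nat_lit 5) (nat_lit 610) (nat_lit 602) (nat_lit 348)) (XT.nd (nat_lit 78) (nat_lit 0) (nat_lit 76) (XT.lf (nat_lit 76) (nat_lit 111563889) (nat_lit 0) (nat_lit 2946154702) (nat_lit 1900) (nat_lit 19580806435) (nat_lit 476) (nat_lit 5) (nat_lit 475) (nat_lit 5) (nat_lit 500) (nat_lit 5) (nat_lit 611) (nat_lit 602) (nat_lit 347)) (XT.lf (nat_lit 0) (nat_lit 3942501017)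 (nat_lit 1824) (nat_lit 11019419153) (nat_lit 1900) (nat_lit 7906072621) (nat_lit 476) (nat_lit 5) (nat_lit 500) (nat_lit 5) (nat_lit 501) (nat_lit 5) (nat_lit 612) (nat_lit 602) (nat_lit 346))))))))
noncomputable def xc222 : XT := (XT.nd (nat_lit 1560) (nat_lit 8512) (nat_lit 0) (XT.nd (nat_lit 780) (nat_lit 4256) (nat_lit 0) (XT.nd (nat_lit 390) (nat_lit 0) (nat_lit 228) (XT.nd (nat_lit 156) (nat_lit 0) (nat_lit 76) (XT.nd (nat_lit 78) (nat_lit 0) (nat_lit 76) (XT.lf (nat_lit 76) (nat_lit 705764196) (nat_lit 0) (nat_lit 4159888524) (nat_lit 1900) (nat_lit 18235983928) (nat_lit 477) (nat_lit 5) (nat_lit 476) (nat_lit 5) (nat_lit 501) (nat_lit 5) (nat_lit 613) (nat_lit 602) (nat_lit 345)) (XT.lf (nat_lit 0) (nat_lit 5922871353) (nat_lit 1824) (nat_lit 10570984475) (nat_lit 1900) (nat_lit 6843785675) (nat_lit 477) (nat_lit 5) (nat_lit 501) (nat_lit 5) (nat_lit 502) (nat_lit 5) (nat_lit 614) (nat_lit 602) (nat_lit 344))) (XT.nd (nat_lit 78) (nat_lit 0) (nat_lit 76) (XT.lf (nat_lit 76) (nat_lit 1479993326)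 (nat_lit 0) (nat_lit 5555105148) (nat_lit 1900) (nat_lit 16542590900) (nat_lit 478) (nat_lit 5) (nat_lit 477) (nat_lit 5) (nat_lit 502) (nat_lit 5) (nat_lit 615) (nat_lit 602) (nat_lit 343)) (XT.nd (nat_lit 78) (nat_lit 0) (nat_lit 0) (XT.lf (nat_lit 0) (nat_lit 8274113878) (nat_lit 1824) (nat_lit 9945006663) (nat_lit 1900) (nat_lit 5601326979) (nat_lit 478) (nat_lit 5) (nat_lit 502) (nat_lit 5) (nat_lit 503) (nat_lit 5) (nat_lit 616) (nat_lit 602) (nat_lit 342)) (XT.lf (nat_lit 76) (nat_lit 2443717180) (nat_lit 0) (nat_lit 7143673359) (nat_lit 1900) (nat_lit 14479680864) (nat_lit 479) (nat_lit 5) (nat_lit 478) (nat_lit 5) (nat_lit 503) (nat_lit 5) (nat_lit 617) (nat_lit 602) (nat_lit 341))))) (XT.nd (nat_lit 156) (nat_lit 0) (nat_lit 76) (XT.nd (nat_lit 78) (nat_lit 0) (nat_lit 0) (XT.lf (nat_lit 0) (nat_lit 11017955851) (nat_lit 1824) (nat_lit 9132011832) (nat_lit 1900) (nat_lit 4166839803) (nat_lit 479) (nat_lit 5) (nat_lit 503) (nat_lit 5) (nat_lit 504) (nat_lit 5) (nat_lit 618) (nat_lit 602) (nat_lit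 340)) (XT.lf (nat_lit 76) (nat_lit 3606865102) (nat_lit 0) (nat_lit 8937934877) (nat_lit 1900) (nat_lit 12025385144) (nat_lit 480) (nat_lit 5) (nat_lit 479) (nat_lit 5) (nat_lit 504) (nat_lit 5) (nat_lit 619) (nat_lit 602) (nat_lit 339))) (XT.nd (nat_lit 78) (nat_lit 0) (nat_lit 0) (XT.lf (nat_lit 0) (nat_lit 14177078610) (nat_lit 1824) (nat_lit 8122063131) (nat_lit 1900) (nat_lit 2527990801) (nat_lit 480) (nat_lit 5) (nat_lit 504) (nat_lit 5) (nat_lit 505) (nat_lit 5) (nat_lit 620) (nat_lit 602) (nat_lit 338)) (XT.nd (nat_lit 78) (nat_lit 0) (nat_lit 76) (XT.lf (nat_lit 76) (nat_lit 4979846579) (nat_lit 0) (nat_lit 10950729644) (nat_lit 1900) (nat_lit 9156871394) (nat_lit 481) (nat_lit 5) (nat_lit 480) (nat_lit 5) (nat_lit 505) (nat_lit 5) (nat_lit 621) (nat_lit 602) (nat_lit 337)) (XT.lf (nat_lit 0) (nat_lit 17775160190) (nat_lit 1824) (nat_lit 6904743953) (nat_lit 1900) (nat_lit 671944694) (nat_lit 481) (nat_lit 5) (nat_lit 505) (nat_lit 5) (nat_lit 506) (nat_lit 5) (nat_lit 622) (nat_lit 602) (nat_lit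 336)))))) (XT.nd (nat_lit 390) (nat_lit 2888) (nat_lit 0) (XT.nd (nat_lit 156) (nat_lit 1748) (nat_lit 0) (XT.nd (nat_lit 78) (nat_lit 0) (nat_lit 0) (XT.lf (nat_lit 76) (nat_lit 6573568679) (nat_lit 0) (nat_lit 13195421932) (nat_lit 1900) (nat_lit 5850300545) (nat_lit 482) (nat_lit 5) (nat_lit 481) (nat_lit 5) (nat_lit 506) (nat_lit 5) (nat_lit 623) (nat_lit 602) (nat_lit 335)) (XT.lf (nat_lit 76) (nat_lit 20412764534) (nat_lit 0) (nat_lit 1433462012) (nat_lit 1900) (nat_lit 4044985363) (nat_lit 482) (nat_lit 5) (nat_lit 481) (nat_lit 5) (nat_lit 506) (nat_lit 5) (nat_lit 624) (nat_lit 602) (nat_lit 334))) (XT.nd (nat_lit 78) (nat_lit 1824) (nat_lit 0) (XT.lf (nat_lit 76) (nat_lit 8399454293) (nat_lit 0) (nat_lit 15685927328) (nat_lit 1900) (nat_lit 2080782131) (nat_lit 483) (nat_lit 5) (nat_lit 482) (nat_lit 5) (nat_lit 507) (nat_lit 5) (nat_lit 625) (nat_lit 602) (nat_lit 333)) (XT.nd (nat_lit 78) (nat_lit 1824) (nat_lit 0) (XT.lf (nat_lit 76) (nat_lit 22617279090) (nat_lit 0) (nat_lit 3795526529) (nat_lit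 1900) (nat_lit 32939456) (nat_lit 483) (nat_lit 5) (nat_lit 482) (nat_lit 5) (nat_lit 507) (nat_lit 5) (nat_lit 626) (nat_lit 602) (nat_lit 332)) (XT.lf (nat_lit 0) (nat_lit 2149111541) (nat_lit 1900) (nat_lit 16273207435) (nat_lit 76) (nat_lit 8305927953) (nat_lit 458) (nat_lit 5) (nat_lit 483) (nat_lit 5) (nat_lit 459) (nat_lit 5) (nat_lit 627) (nat_lit 602) (nat_lit 331))))) (XT.nd (nat_lit 156) (nat_lit 1824) (nat_lit 0) (XT.nd (nat_lit 78) (nat_lit 1064) (nat_lit 0) (XT.lf (nat_lit 0) (nat_lit 4422727509) (nat_lit 1900) (nat_lit 1967607108) (nat_lit 76) (nat_lit 20625092697) (nat_lit 458) (nat_lit 5) (nat_lit 483) (nat_lit 5) (nat_lit 459) (nat_lit 5) (nat_lit 628) (nat_lit 602) (nat_lit 330)) (XT.lf (nat_lit 0) (nat_lit 6861017055) (nat_lit 1140) (nat_lit 14555906723) (nat_lit 76) (nat_lit 5889043653) (nat_lit 444) (nat_lit 5) (nat_lit 459) (nat_lit 5) (nat_lit 445) (nat_lit 5) (nat_lit 629) (nat_lit 602) (nat_lit 329))) (XT.nd (nat_lit 78) (nat_lit 912) (nat_lit 0) (XT.lf (nat_lit 0) (nat_lit 143876830)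 (nat_lit 912) (nat_lit 9258197969) (nat_lit 988) (nat_lit 18199163646) (nat_lit 432) (nat_lit 5) (nat_lit 444) (nat_lit 5) (nat_lit 445) (nat_lit 5) (nat_lit 630) (nat_lit 602) (nat_lit 328)) (XT.nd (nat_lit 78) (nat_lit 912) (nat_lit 0) (XT.lf (nat_lit 0) (nat_lit 12110182867) (nat_lit 988) (nat_lit 12588892233) (nat_lit 76) (nat_lit 3201015338) (nat_lit 432) (nat_lit 5) (nat_lit 445) (nat_lit 5) (nat_lit 433) (nat_lit 5) (nat_lit 631) (nat_lit 602) (nat_lit 327)) (XT.lf (nat_lit 0) (nat_lit 2546742566) (nat_lit 912) (nat_lit 12401100889) (nat_lit 988) (nat_lit 13255568347) (nat_lit 420) (nat_lit 5) (nat_lit 432) (nat_lit 5) (nat_lit 433) (nat_lit 5) (nat_lit 632) (nat_lit 602) (nat_lit 326))))))) (XT.nd (nat_lit 780) (nat_lit 4332) (nat_lit 0) (XT.nd (nat_lit 390) (nat_lit 2432) (nat_lit 0) (XT.nd (nat_lit 156) (nat_lit 912) (nat_lit 0) (XT.nd (nat_lit 78) (nat_lit 836) (nat_lit 0) (XT.lf (nat_lit 0) (nat_lit 17925799169) (nat_lit 988) (nat_lit 10359187920) (nat_lit 76) (nat_lit 226141803) (nat_lit 420)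 (nat_lit 5) (nat_lit 433) (nat_lit 5) (nat_lit 421) (nat_lit 5) (nat_lit 633) (nat_lit 602) (nat_lit 325)) (XT.lf (nat_lit 0) (nat_lit 5228406772) (nat_lit 836) (nat_lit 15848604512) (nat_lit 912) (nat_lit 7745715228) (nat_lit 409) (nat_lit 5) (nat_lit 420) (nat_lit 5) (nat_lit 421) (nat_lit 5) (nat_lit 634) (nat_lit 602) (nat_lit 324))) (XT.nd (nat_lit 78) (nat_lit 912) (nat_lit 0) (XT.lf (nat_lit 0) (nat_lit 21265908637) (nat_lit 836) (nat_lit 3092510978) (nat_lit 912) (nat_lit 4780793160) (nat_lit 409) (nat_lit 5) (nat_lit 420) (nat_lit 5) (nat_lit 421) (nat_lit 5) (nat_lit 635) (nat_lit 602) (nat_lit 323)) (XT.nd (nat_lit 78) (nat_lit 76) (nat_lit 0) (XT.lf (nat_lit 0) (nat_lit 8203049051) (nat_lit 836) (nat_lit 19617768324) (nat_lit 912) (nat_lit 1638904292) (nat_lit 398) (nat_lit 5) (nat_lit 409) (nat_lit 5) (nat_lit 410) (nat_lit 5) (nat_lit 636) (nat_lit 602) (nat_lit 322)) (XT.lf (nat_lit 0) (nat_lit 1616668518) (nat_lit 912) (nat_lit 5111210402) (nat_lit 76) (nat_lit 23057130968) (nat_lit 397)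 (nat_lit 5) (nat_lit 409) (nat_lit 5) (nat_lit 398) (nat_lit 5) (nat_lit 637) (nat_lit 602) (nat_lit 321))))) (XT.nd (nat_lit 156) (nat_lit 1596) (nat_lit 0) (XT.nd (nat_lit 78) (nat_lit 0) (nat_lit 0) (XT.lf (nat_lit 0) (nat_lit 5030071006) (nat_lit 912) (nat_lit 18662561835) (nat_lit 76) (nat_lit 6421661227) (nat_lit 386) (nat_lit 5) (nat_lit 398) (nat_lit 5) (nat_lit 387) (nat_lit 5) (nat_lit 638) (nat_lit 602) (nat_lit 320)) (XT.lf (nat_lit 0) (nat_lit 8588615243) (nat_lit 912) (nat_lit 2081311620) (nat_lit 76) (nat_lit 19778699714) (nat_lit 386) (nat_lit 5) (nat_lit 398) (nat_lit 5) (nat_lit 387) (nat_lit 5) (nat_lit 639) (nat_lit 602) (nat_lit 319))) (XT.nd (nat_lit 78) (nat_lit 760) (nat_lit 0) (XT.lf (nat_lit 0) (nat_lit 12331339812) (nat_lit 912) (nat_lit 15778936834) (nat_lit 76) (nat_lit 2677109018) (nat_lit 375) (nat_lit 5) (nat_lit 387) (nat_lit 5) (nat_lit 376) (nat_lit 5) (nat_lit 640) (nat_lit 602) (nat_lit 318)) (XT.nd (nat_lit 78) (nat_lit 0) (nat_lit 0) (XT.lf (nat_lit 0) (nat_lit 1279349444)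 (nat_lit 760) (nat_lit 14960459838) (nat_lit 836) (nat_lit 14891292955) (nat_lit 365) (nat_lit 5) (nat_lit 375) (nat_lit 5) (nat_lit 376) (nat_lit 5) (nat_lit 641) (nat_lit 602) (nat_lit 317)) (XT.lf (nat_lit 0) (nat_lit 18890452092) (nat_lit 760) (nat_lit 1439771464) (nat_lit 836) (nat_lit 11149394190) (nat_lit 365) (nat_lit 5) (nat_lit 375) (nat_lit 5) (nat_lit 376) (nat_lit 5) (nat_lit 642) (nat_lit 602) (nat_lit 316)))))) (XT.nd (nat_lit 390) (nat_lit 2052) (nat_lit 0) (XT.nd (nat_lit 156) (nat_lit 1520) (nat_lit 0) (XT.nd (nat_lit 78) (nat_lit 0) (nat_lit 0) (XT.lf (nat_lit 0) (nat_lit 5001846517) (nat_lit 760) (nat_lit 19611198932) (nat_lit 836) (nat_lit 7219846239) (nat_lit 355) (nat_lit 5) (nat_lit 365) (nat_lit 5) (nat_lit 366) (nat_lit 5) (nat_lit 643) (nat_lit 602) (nat_lit 315)) (XT.lf (nat_lit 0) (nat_lit 23103447661) (nat_lit 760) (nat_lit 5969985383) (nat_lit 836) (nat_lit 3117959987) (nat_lit 355) (nat_lit 5) (nat_lit 365) (nat_lit 5) (nat_lit 366) (nat_lit 5) (nat_lit 644) (nat_lit 602)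 (nat_lit 314))) (XT.nd (nat_lit 78) (nat_lit 760) (nat_lit 0) (XT.lf (nat_lit 0) (nat_lit 1161198771) (nat_lit 760) (nat_lit 23487286796) (nat_lit 76) (nat_lit 7906256215) (nat_lit 345) (nat_lit 5) (nat_lit 355) (nat_lit 5) (nat_lit 346) (nat_lit 5) (nat_lit 645) (nat_lit 602) (nat_lit 313)) (XT.nd (nat_lit 78) (nat_lit 760) (nat_lit 0) (XT.lf (nat_lit 0) (nat_lit 5583163235) (nat_lit 760) (nat_lit 5277800545) (nat_lit 76) (nat_lit 22062002196) (nat_lit 345) (nat_lit 5) (nat_lit 355) (nat_lit 5) (nat_lit 346) (nat_lit 5) (nat_lit 646) (nat_lit 602) (nat_lit 312)) (XT.lf (nat_lit 0) (nat_lit 10200441657) (nat_lit 836) (nat_lit 19847855223) (nat_lit 76) (nat_lit 3248120379) (nat_lit 335) (nat_lit 5) (nat_lit 346) (nat_lit 5) (nat_lit 336) (nat_lit 5) (nat_lit 647) (nat_lit 602) (nat_lit 311))))) (XT.nd (nat_lit 234) (nat_lit 684) (nat_lit 0) (XT.nd (nat_lit 78) (nat_lit 1368) (nat_lit 0) (XT.lf (nat_lit 0) (nat_lit 15015713538) (nat_lit 836) (nat_lit 1130002576) (nat_lit 76) (nat_lit 17529508593) (nat_lit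 335) (nat_lit 5) (nat_lit 346) (nat_lit 5) (nat_lit 336) (nat_lit 5) (nat_lit 648) (nat_lit 602) (nat_lit 310)) (XT.nd (nat_lit 78) (nat_lit 684) (nat_lit 0) (XT.lf (nat_lit 0) (nat_lit 18198724184) (nat_lit 684) (nat_lit 1844832323) (nat_lit 760) (nat_lit 14015726580) (nat_lit 326) (nat_lit 5) (nat_lit 335) (nat_lit 5) (nat_lit 336) (nat_lit 5) (nat_lit 649) (nat_lit 602) (nat_lit 309)) (XT.lf (nat_lit 0) (nat_lit 3438605814) (nat_lit 684) (nat_lit 21844168137) (nat_lit 760) (nat_lit 9166032424) (nat_lit 317) (nat_lit 5) (nat_lit 326) (nat_lit 5) (nat_lit 327) (nat_lit 5) (nat_lit 650) (nat_lit 602) (nat_lit 308)))) (XT.nd (nat_lit 78) (nat_lit 684) (nat_lit 0) (XT.lf (nat_lit 0) (nat_lit 23324198526) (nat_lit 684) (nat_lit 7419298387) (nat_lit 760) (nat_lit 4100288885) (nat_lit 317) (nat_lit 5) (nat_lit 326) (nat_lit 5) (nat_lit 327) (nat_lit 5) (nat_lit 651) (nat_lit 602) (nat_lit 307)) (XT.nd (nat_lit 78) (nat_lit 0) (nat_lit 0) (XT.lf (nat_lit 0) (nat_lit 1153665574) (nat_lit 684) (nat_lit 26830478240)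 (nat_lit 76) (nat_lit 7260364820) (nat_lit 308) (nat_lit 5) (nat_lit 317) (nat_lit 5) (nat_lit 309) (nat_lit 5) (nat_lit 652) (nat_lit 602) (nat_lit 306)) (XT.lf (nat_lit 0) (nat_lit 6582991728) (nat_lit 684) (nat_lit 6828200180) (nat_lit 76) (nat_lit 22239008139) (nat_lit 308) (nat_lit 5) (nat_lit 317) (nat_lit 5) (nat_lit 309) (nat_lit 5) (nat_lit 653) (nat_lit 602) (nat_lit 305))))))))
noncomputable def xc223 : XT := (XT.nd (nat_lit 78234) (nat_lit 0) (nat_lit 10260) (XT.nd (nat_lit 77454) (nat_lit 0) (nat_lit 15124) (XT.nd (nat_lit 390) (nat_lit 684) (nat_lit 0) (XT.nd (nat_lit 156) (nat_lit 1216) (nat_lit 0) (XT.nd (nat_lit 78) (nat_lit 0) (nat_lit 0) (XT.lf (nat_lit 0) (nat_lit 12218448777) (nat_lit 760) (nat_lit 22319919697) (nat_lit 76) (nat_lit 1523686010) (nat_lit 299) (nat_lit 5) (nat_lit 309) (nat_lit 5) (nat_lit 300) (nat_lit 5) (nat_lit 654) (nat_lit 602) (nat_lit 304)) (XT.lf (nat_lit 0) (nat_lit 18099804341) (nat_lit 760) (nat_lit 1756061635) (nat_lit 76) (nat_lit 16623616330) (nat_lit 299)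 (nat_lit 5) (nat_lit 309) (nat_lit 5) (nat_lit 300) (nat_lit 5) (nat_lit 655) (nat_lit 602) (nat_lit 303))) (XT.nd (nat_lit 78) (nat_lit 608) (nat_lit 0) (XT.lf (nat_lit 0) (nat_lit 19472351832) (nat_lit 608) (nat_lit 4751146203) (nat_lit 684) (nat_lit 12679266511) (nat_lit 291) (nat_lit 5) (nat_lit 299) (nat_lit 5) (nat_lit 300) (nat_lit 5) (nat_lit 656) (nat_lit 602) (nat_lit 302)) (XT.nd (nat_lit 78) (nat_lit 0) (nat_lit 0) (XT.lf (nat_lit 0) (nat_lit 3793225077) (nat_lit 608) (nat_lit 26780415569) (nat_lit 684) (nat_lit 6758792362) (nat_lit 283) (nat_lit 5) (nat_lit 291) (nat_lit 5) (nat_lit 292) (nat_lit 5) (nat_lit 657) (nat_lit 602) (nat_lit 301)) (XT.lf (nat_lit 0) (nat_lit 25643617985) (nat_lit 608) (nat_lit 11553713637) (nat_lit 684) (nat_lit 570432387) (nat_lit 283) (nat_lit 5) (nat_lit 291) (nat_lit 5) (nat_lit 292) (nat_lit 5) (nat_lit 658) (nat_lit 602) (nat_lit 300))))) (XT.nd (nat_lit 76830) (nat_lit 0) (nat_lit 16872) (XT.nd (nat_lit 78) (nat_lit 0) (nat_lit 0) (XT.lf (nat_lit 0) (nat_lit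 5754907849) (nat_lit 684) (nat_lit 28427817346) (nat_lit 76) (nat_lit 4026560604) (nat_lit 274) (nat_lit 5) (nat_lit 283) (nat_lit 5) (nat_lit 275) (nat_lit 5) (nat_lit 659) (nat_lit 602) (nat_lit 299)) (XT.lf (nat_lit 0) (nat_lit 12355895660) (nat_lit 684) (nat_lit 6451406570) (nat_lit 76) (nat_lit 19849124878) (nat_lit 274) (nat_lit 5) (nat_lit 283) (nat_lit 5) (nat_lit 275) (nat_lit 5) (nat_lit 660) (nat_lit 602) (nat_lit 298))) (XT.nd (nat_lit 78) (nat_lit 0) (nat_lit 0) (XT.lf (nat_lit 0) (nat_lit 5073102253) (nat_lit 0) (nat_lit 5073102253) (nat_lit 1748) (nat_lit 409785189) (nat_lit 496) (nat_lit 5) (nat_lit 496) (nat_lit 3) (nat_lit 519) (nat_lit 3) (nat_lit 603) (nat_lit 603) (nat_lit 354)) (XT.nd (nat_lit 78) (nat_lit 0) (nat_lit 0) (XT.lf (nat_lit 0) (nat_lit 20644553718) (nat_lit 1748) (nat_lit 494691146) (nat_lit 1824) (nat_lit 180860690) (nat_lit 496) (nat_lit 5) (nat_lit 519) (nat_lit 3) (nat_lit 520) (nat_lit 5) (nat_lit 604) (nat_lit 603) (nat_lit 353)) (XT.lf (nat_lit 76) (nat_lit 10251033046)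 (nat_lit 0) (nat_lit 10882587889) (nat_lit 1824) (nat_lit 396175954) (nat_lit 497) (nat_lit 5) (nat_lit 496) (nat_lit 5) (nat_lit 520) (nat_lit 5) (nat_lit 605) (nat_lit 603) (nat_lit 352)))))) (XT.nd (nat_lit 390) (nat_lit 0) (nat_lit 152) (XT.nd (nat_lit 156) (nat_lit 0) (nat_lit 0) (XT.nd (nat_lit 78) (nat_lit 1748) (nat_lit 0) (XT.lf (nat_lit 76) (nat_lit 21216358806) (nat_lit 0) (nat_lit 415622818) (nat_lit 1824) (nat_lit 111710423) (nat_lit 497) (nat_lit 5) (nat_lit 496) (nat_lit 5) (nat_lit 520) (nat_lit 5) (nat_lit 606) (nat_lit 603) (nat_lit 351)) (XT.lf (nat_lit 0) (nat_lit 308096501) (nat_lit 1824) (nat_lit 11453010558) (nat_lit 1900) (nat_lit 10198095256) (nat_lit 473) (nat_lit 5) (nat_lit 497) (nat_lit 5) (nat_lit 498) (nat_lit 5) (nat_lit 607) (nat_lit 603) (nat_lit 350))) (XT.nd (nat_lit 78) (nat_lit 0) (nat_lit 76) (XT.lf (nat_lit 0) (nat_lit 737433454) (nat_lit 1824) (nat_lit 417033233) (nat_lit 1900) (nat_lit 21024488964) (nat_lit 473) (nat_lit 5) (nat_lit 497) (nat_lit 5) (nat_lit 498)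 (nat_lit 5) (nat_lit 608) (nat_lit 603) (nat_lit 349)) (XT.nd (nat_lit 78) (nat_lit 0) (nat_lit 0) (XT.lf (nat_lit 0) (nat_lit 1306272523) (nat_lit 1824) (nat_lit 11483349940) (nat_lit 1900) (nat_lit 9610863501) (nat_lit 474) (nat_lit 5) (nat_lit 498) (nat_lit 5) (nat_lit 499) (nat_lit 5) (nat_lit 609) (nat_lit 603) (nat_lit 348)) (XT.lf (nat_lit 0) (nat_lit 1893404263) (nat_lit 1824) (nat_lit 152540571) (nat_lit 1900) (nat_lit 20580363946) (nat_lit 474) (nat_lit 5) (nat_lit 498) (nat_lit 5) (nat_lit 499) (nat_lit 5) (nat_lit 610) (nat_lit 603) (nat_lit 347))))) (XT.nd (nat_lit 156) (nat_lit 0) (nat_lit 76) (XT.nd (nat_lit 78) (nat_lit 0) (nat_lit 0) (XT.lf (nat_lit 0) (nat_lit 2622192364) (nat_lit 1824) (nat_lit 11359253248) (nat_lit 1900) (nat_lit 8872604377) (nat_lit 475) (nat_lit 5) (nat_lit 499) (nat_lit 5) (nat_lit 500) (nat_lit 5) (nat_lit 611) (nat_lit 603) (nat_lit 346)) (XT.lf (nat_lit 76) (nat_lit 278773762) (nat_lit 0) (nat_lit 3099758564) (nat_lit 1900) (nat_lit 19707554380) (nat_lit 476) (nat_lit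 5) (nat_lit 475) (nat_lit 5) (nat_lit 500) (nat_lit 5) (nat_lit 612) (nat_lit 603) (nat_lit 345))) (XT.nd (nat_lit 78) (nat_lit 0) (nat_lit 0) (XT.lf (nat_lit 0) (nat_lit 4275316364) (nat_lit 1824) (nat_lit 11072354452) (nat_lit 1900) (nat_lit 7972587199) (nat_lit 476) (nat_lit 5) (nat_lit 500) (nat_lit 5) (nat_lit 501) (nat_lit 5) (nat_lit 613) (nat_lit 603) (nat_lit 344)) (XT.nd (nat_lit 78) (nat_lit 0) (nat_lit 76) (XT.lf (nat_lit 76) (nat_lit 886230899) (nat_lit 0) (nat_lit 4326800552) (nat_lit 1900) (nat_lit 18345621589) (nat_lit 477) (nat_lit 5) (nat_lit 476) (nat_lit 5) (nat_lit 501) (nat_lit 5) (nat_lit 614) (nat_lit 603) (nat_lit 343)) (XT.lf (nat_lit 0) (nat_lit 6285958338) (nat_lit 1824) (nat_lit 10613863686) (nat_lit 1900) (nat_lit 6899664986) (nat_lit 477) (nat_lit 5) (nat_lit 501) (nat_lit 5) (nat_lit 502) (nat_lit 5) (nat_lit 615) (nat_lit 603) (nat_lit 342))))))) (XT.nd (nat_lit 780) (nat_lit 5168) (nat_lit 0) (XT.nd (nat_lit 390) (nat_lit 0) (nat_lit 228) (XT.nd (nat_lit 156) (nat_lit 0)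 (nat_lit 76) (XT.nd (nat_lit 78) (nat_lit 0) (nat_lit 76) (XT.lf (nat_lit 76) (nat_lit 1677024852) (nat_lit 0) (nat_lit 5739695568) (nat_lit 1900) (nat_lit 16627689898) (nat_lit 478) (nat_lit 5) (nat_lit 477) (nat_lit 5) (nat_lit 502) (nat_lit 5) (nat_lit 616) (nat_lit 603) (nat_lit 341)) (XT.lf (nat_lit 0) (nat_lit 8675324432) (nat_lit 1824) (nat_lit 9974552250) (nat_lit 1900) (nat_lit 5642251063) (nat_lit 478) (nat_lit 5) (nat_lit 502) (nat_lit 5) (nat_lit 503) (nat_lit 5) (nat_lit 617) (nat_lit 603) (nat_lit 340))) (XT.nd (nat_lit 78) (nat_lit 0) (nat_lit 76) (XT.lf (nat_lit 76) (nat_lit 2660831894) (nat_lit 0) (nat_lit 7350504936) (nat_lit 1900) (nat_lit 14532418147) (nat_lit 479) (nat_lit 5) (nat_lit 478) (nat_lit 5) (nat_lit 503) (nat_lit 5) (nat_lit 618) (nat_lit 603) (nat_lit 339)) (XT.nd (nat_lit 78) (nat_lit 0) (nat_lit 0) (XT.lf (nat_lit 0) (nat_lit 11465553422) (nat_lit 1824) (nat_lit 9144736891) (nat_lit 1900) (nat_lit 4188294943) (nat_lit 479) (nat_lit 5) (nat_lit 503) (nat_lit 5) (nat_lit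 504) (nat_lit 5) (nat_lit 619) (nat_lit 603) (nat_lit 338)) (XT.lf (nat_lit 76) (nat_lit 3847799719) (nat_lit 0) (nat_lit 9171775002) (nat_lit 1900) (nat_lit 12037523187) (nat_lit 480) (nat_lit 5) (nat_lit 479) (nat_lit 5) (nat_lit 504) (nat_lit 5) (nat_lit 620) (nat_lit 603) (nat_lit 337))))) (XT.nd (nat_lit 156) (nat_lit 0) (nat_lit 76) (XT.nd (nat_lit 78) (nat_lit 0) (nat_lit 0) (XT.lf (nat_lit 0) (nat_lit 14679758532) (nat_lit 1824) (nat_lit 8114263357) (nat_lit 1900) (nat_lit 2525257456) (nat_lit 480) (nat_lit 5) (nat_lit 504) (nat_lit 5) (nat_lit 505) (nat_lit 5) (nat_lit 621) (nat_lit 603) (nat_lit 336)) (XT.lf (nat_lit 76) (nat_lit 5248564540) (nat_lit 0) (nat_lit 11216562773) (nat_lit 1900) (nat_lit 9119737640) (nat_lit 481) (nat_lit 5) (nat_lit 480) (nat_lit 5) (nat_lit 505) (nat_lit 5) (nat_lit 622) (nat_lit 603) (nat_lit 335))) (XT.nd (nat_lit 78) (nat_lit 0) (nat_lit 0) (XT.lf (nat_lit 0) (nat_lit 18342070834) (nat_lit 1824) (nat_lit 6872489201) (nat_lit 1900) (nat_lit 640085057) (nat_lit 481)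 (nat_lit 5) (nat_lit 505) (nat_lit 5) (nat_lit 506) (nat_lit 5) (nat_lit 623) (nat_lit 603) (nat_lit 334)) (XT.nd (nat_lit 78) (nat_lit 0) (nat_lit 0) (XT.lf (nat_lit 76) (nat_lit 6874268962) (nat_lit 0) (nat_lit 13498462404) (nat_lit 1900) (nat_lit 5754766068) (nat_lit 482) (nat_lit 5) (nat_lit 481) (nat_lit 5) (nat_lit 506) (nat_lit 5) (nat_lit 624) (nat_lit 603) (nat_lit 333)) (XT.lf (nat_lit 76) (nat_lit 20986930521) (nat_lit 0) (nat_lit 1500495991) (nat_lit 1900) (nat_lit 3917512043) (nat_lit 482) (nat_lit 5) (nat_lit 481) (nat_lit 5) (nat_lit 506) (nat_lit 5) (nat_lit 625) (nat_lit 603) (nat_lit 332)))))) (XT.nd (nat_lit 390) (nat_lit 2660) (nat_lit 0) (XT.nd (nat_lit 156) (nat_lit 988) (nat_lit 0) (XT.nd (nat_lit 78) (nat_lit 1900) (nat_lit 0) (XT.lf (nat_lit 76) (nat_lit 8736580643) (nat_lit 0) (nat_lit 16031632590) (nat_lit 1900) (nat_lit 1917239466) (nat_lit 483) (nat_lit 5) (nat_lit 482) (nat_lit 5) (nat_lit 507) (nat_lit 5) (nat_lit 626) (nat_lit 603) (nat_lit 331)) (XT.lf (nat_lit 0) (nat_lit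 165340066) (nat_lit 1900) (nat_lit 3736346998) (nat_lit 1976) (nat_lit 23068995934) (nat_lit 457) (nat_lit 5) (nat_lit 482) (nat_lit 5) (nat_lit 483) (nat_lit 5) (nat_lit 627) (nat_lit 603) (nat_lit 330))) (XT.nd (nat_lit 78) (nat_lit 1064) (nat_lit 0) (XT.lf (nat_lit 0) (nat_lit 2387602010) (nat_lit 1900) (nat_lit 16427200827) (nat_lit 76) (nat_lit 8444087700) (nat_lit 458) (nat_lit 5) (nat_lit 483) (nat_lit 5) (nat_lit 459) (nat_lit 5) (nat_lit 628) (nat_lit 603) (nat_lit 329)) (XT.nd (nat_lit 78) (nat_lit 1064) (nat_lit 0) (XT.lf (nat_lit 0) (nat_lit 4702856803) (nat_lit 1900) (nat_lit 1838850665) (nat_lit 76) (nat_lit 21010183951) (nat_lit 458) (nat_lit 5) (nat_lit 483) (nat_lit 5) (nat_lit 459) (nat_lit 5) (nat_lit 629) (nat_lit 603) (nat_lit 328)) (XT.lf (nat_lit 0) (nat_lit 7187095277) (nat_lit 1140) (nat_lit 14676088678) (nat_lit 76) (nat_lit 5985114935) (nat_lit 444) (nat_lit 5) (nat_lit 459) (nat_lit 5) (nat_lit 445) (nat_lit 5) (nat_lit 630) (nat_lit 603) (nat_lit 327))))) (XT.nd (nat_lit 234)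 (nat_lit 836) (nat_lit 0) (XT.nd (nat_lit 78) (nat_lit 912) (nat_lit 0) (XT.lf (nat_lit 0) (nat_lit 316565966) (nat_lit 912) (nat_lit 9459807644) (nat_lit 988) (nat_lit 18373153937) (nat_lit 432) (nat_lit 5) (nat_lit 444) (nat_lit 5) (nat_lit 445) (nat_lit 5) (nat_lit 631) (nat_lit 603) (nat_lit 326)) (XT.nd (nat_lit 78) (nat_lit 912) (nat_lit 0) (XT.lf (nat_lit 0) (nat_lit 12534887053) (nat_lit 988) (nat_lit 12670421016) (nat_lit 76) (nat_lit 3249123853) (nat_lit 432) (nat_lit 5) (nat_lit 445) (nat_lit 5) (nat_lit 433) (nat_lit 5) (nat_lit 632) (nat_lit 603) (nat_lit 325)) (XT.lf (nat_lit 0) (nat_lit 2766806420) (nat_lit 912) (nat_lit 12660014089) (nat_lit 988) (nat_lit 13337049014) (nat_lit 420) (nat_lit 5) (nat_lit 432) (nat_lit 5) (nat_lit 433) (nat_lit 5) (nat_lit 633) (nat_lit 603) (nat_lit 324)))) (XT.nd (nat_lit 78) (nat_lit 836) (nat_lit 0) (XT.lf (nat_lit 0) (nat_lit 18460736202) (nat_lit 988) (nat_lit 10396949884) (nat_lit 76) (nat_lit 220127049) (nat_lit 420) (nat_lit 5) (nat_lit 433) (nat_lit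 5) (nat_lit 421) (nat_lit 5) (nat_lit 634) (nat_lit 603) (nat_lit 323)) (XT.nd (nat_lit 78) (nat_lit 0) (nat_lit 0) (XT.lf (nat_lit 0) (nat_lit 5501282085) (nat_lit 836) (nat_lit 16171324000) (nat_lit 912) (nat_lit 7723084146) (nat_lit 409) (nat_lit 5) (nat_lit 420) (nat_lit 5) (nat_lit 421) (nat_lit 5) (nat_lit 635) (nat_lit 603) (nat_lit 322)) (XT.lf (nat_lit 0) (nat_lit 21856233847) (nat_lit 836) (nat_lit 3159995902) (nat_lit 912) (nat_lit 4702344918) (nat_lit 409) (nat_lit 5) (nat_lit 420) (nat_lit 5) (nat_lit 421) (nat_lit 5) (nat_lit 636) (nat_lit 603) (nat_lit 321))))))))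
noncomputable def xc224 : XT := (XT.nd (nat_lit 1560) (nat_lit 1900) (nat_lit 0) (XT.nd (nat_lit 780) (nat_lit 3496) (nat_lit 0) (XT.nd (nat_lit 390) (nat_lit 2280) (nat_lit 0) (XT.nd (nat_lit 156) (nat_lit 1672) (nat_lit 0) (XT.nd (nat_lit 78) (nat_lit 76) (nat_lit 0) (XT.lf (nat_lit 0) (nat_lit 8534467688) (nat_lit 836) (nat_lit 20011112588) (nat_lit 912) (nat_lit 1499959550) (nat_lit 398) (nat_lit 5) (nat_lit 409) (nat_lit 5) (nat_lit 410) (nat_lit 5) (nat_lit 637) (nat_lit 603) (nat_lit 320)) (XT.lf (nat_lit 0) (nat_lit 1815149586) (nat_lit 912) (nat_lit 5047141481) (nat_lit 76) (nat_lit 23515087085) (nat_lit 397) (nat_lit 5) (nat_lit 409) (nat_lit 5) (nat_lit 398) (nat_lit 5) (nat_lit 638) (nat_lit 603) (nat_lit 319))) (XT.nd (nat_lit 78) (nat_lit 836) (nat_lit 0) (XT.lf (nat_lit 0) (nat_lit 5294642937) (nat_lit 912) (nat_lit 18867333953) (nat_lit 76) (nat_lit 6551314846) (nat_lit 386) (nat_lit 5) (nat_lit 398) (nat_lit 5) (nat_lit 387) (nat_lit 5) (nat_lit 639) (nat_lit 603) (nat_lit 318)) (XT.nd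 (nat_lit 78) (nat_lit 836) (nat_lit 0) (XT.lf (nat_lit 0) (nat_lit 8921142951) (nat_lit 912) (nat_lit 1957762246) (nat_lit 76) (nat_lit 20175470173) (nat_lit 386) (nat_lit 5) (nat_lit 398) (nat_lit 5) (nat_lit 387) (nat_lit 5) (nat_lit 640) (nat_lit 603) (nat_lit 317)) (XT.lf (nat_lit 0) (nat_lit 12736670510) (nat_lit 912) (nat_lit 15927280001) (nat_lit 76) (nat_lit 2736000326) (nat_lit 375) (nat_lit 5) (nat_lit 387) (nat_lit 5) (nat_lit 376) (nat_lit 5) (nat_lit 641) (nat_lit 603) (nat_lit 316))))) (XT.nd (nat_lit 156) (nat_lit 1520) (nat_lit 0) (XT.nd (nat_lit 78) (nat_lit 0) (nat_lit 0) (XT.lf (nat_lit 0) (nat_lit 1471071768) (nat_lit 760) (nat_lit 15250204421) (nat_lit 836) (nat_lit 15029306383) (nat_lit 365) (nat_lit 5) (nat_lit 375) (nat_lit 5) (nat_lit 376) (nat_lit 5) (nat_lit 642) (nat_lit 603) (nat_lit 315)) (XT.lf (nat_lit 0) (nat_lit 19431138914) (nat_lit 760) (nat_lit 1459287860) (nat_lit 836) (nat_lit 11215703219) (nat_lit 365) (nat_lit 5) (nat_lit 375) (nat_lit 5) (nat_lit 376) (nat_lit 5)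 (nat_lit 643) (nat_lit 603) (nat_lit 314))) (XT.nd (nat_lit 78) (nat_lit 760) (nat_lit 0) (XT.lf (nat_lit 0) (nat_lit 5266689657) (nat_lit 760) (nat_lit 19990332803) (nat_lit 836) (nat_lit 7209484766) (nat_lit 355) (nat_lit 5) (nat_lit 365) (nat_lit 5) (nat_lit 366) (nat_lit 5) (nat_lit 644) (nat_lit 603) (nat_lit 313)) (XT.nd (nat_lit 78) (nat_lit 760) (nat_lit 0) (XT.lf (nat_lit 0) (nat_lit 23727091330) (nat_lit 760) (nat_lit 6076551651) (nat_lit 836) (nat_lit 3028595267) (nat_lit 355) (nat_lit 5) (nat_lit 365) (nat_lit 5) (nat_lit 366) (nat_lit 5) (nat_lit 645) (nat_lit 603) (nat_lit 312)) (XT.lf (nat_lit 0) (nat_lit 1332370922) (nat_lit 760) (nat_lit 23791666896) (nat_lit 76) (nat_lit 8078832322) (nat_lit 345) (nat_lit 5) (nat_lit 355) (nat_lit 5) (nat_lit 346) (nat_lit 5) (nat_lit 646) (nat_lit 603) (nat_lit 311)))))) (XT.nd (nat_lit 390) (nat_lit 1368) (nat_lit 0) (XT.nd (nat_lit 156) (nat_lit 1368) (nat_lit 0) (XT.nd (nat_lit 78) (nat_lit 760) (nat_lit 0) (XT.lf (nat_lit 0) (nat_lit 5839873731) (nat_lit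 760) (nat_lit 5221233383) (nat_lit 76) (nat_lit 22517409870) (nat_lit 345) (nat_lit 5) (nat_lit 355) (nat_lit 5) (nat_lit 346) (nat_lit 5) (nat_lit 647) (nat_lit 603) (nat_lit 310)) (XT.lf (nat_lit 0) (nat_lit 10547814963) (nat_lit 836) (nat_lit 20080999175) (nat_lit 76) (nat_lit 3330656954) (nat_lit 335) (nat_lit 5) (nat_lit 346) (nat_lit 5) (nat_lit 336) (nat_lit 5) (nat_lit 648) (nat_lit 603) (nat_lit 309))) (XT.nd (nat_lit 78) (nat_lit 1368) (nat_lit 0) (XT.lf (nat_lit 0) (nat_lit 15456581214) (nat_lit 836) (nat_lit 992001498) (nat_lit 76) (nat_lit 17897328340) (nat_lit 335) (nat_lit 5) (nat_lit 346) (nat_lit 5) (nat_lit 336) (nat_lit 5) (nat_lit 649) (nat_lit 603) (nat_lit 308)) (XT.nd (nat_lit 78) (nat_lit 684) (nat_lit 0) (XT.lf (nat_lit 0) (nat_lit 18722243211) (nat_lit 684) (nat_lit 1861017751) (nat_lit 760) (nat_lit 14154424178) (nat_lit 326) (nat_lit 5) (nat_lit 335) (nat_lit 5) (nat_lit 336) (nat_lit 5) (nat_lit 650) (nat_lit 603) (nat_lit 307)) (XT.lf (nat_lit 0) (nat_lit 3668504547) (nat_lit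 684) (nat_lit 22257213962) (nat_lit 760) (nat_lit 9209311407) (nat_lit 317) (nat_lit 5) (nat_lit 326) (nat_lit 5) (nat_lit 327) (nat_lit 5) (nat_lit 651) (nat_lit 603) (nat_lit 306))))) (XT.nd (nat_lit 156) (nat_lit 684) (nat_lit 0) (XT.nd (nat_lit 78) (nat_lit 684) (nat_lit 0) (XT.lf (nat_lit 0) (nat_lit 23948649767) (nat_lit 684) (nat_lit 7544314219) (nat_lit 760) (nat_lit 4044998912) (nat_lit 317) (nat_lit 5) (nat_lit 326) (nat_lit 5) (nat_lit 327) (nat_lit 5) (nat_lit 652) (nat_lit 603) (nat_lit 305)) (XT.lf (nat_lit 0) (nat_lit 1310769119) (nat_lit 684) (nat_lit 27205842063) (nat_lit 76) (nat_lit 7430100606) (nat_lit 308) (nat_lit 5) (nat_lit 317) (nat_lit 5) (nat_lit 309) (nat_lit 5) (nat_lit 653) (nat_lit 603) (nat_lit 304))) (XT.nd (nat_lit 78) (nat_lit 684) (nat_lit 0) (XT.lf (nat_lit 0) (nat_lit 6846053753) (nat_lit 684) (nat_lit 6806680123) (nat_lit 76) (nat_lit 22707835840) (nat_lit 308) (nat_lit 5) (nat_lit 317) (nat_lit 5) (nat_lit 309) (nat_lit 5) (nat_lit 654) (nat_lit 603) (nat_lit 303))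 (XT.nd (nat_lit 78) (nat_lit 0) (nat_lit 0) (XT.lf (nat_lit 0) (nat_lit 12592839655) (nat_lit 760) (nat_lit 22606847580) (nat_lit 76) (nat_lit 1581001736) (nat_lit 299) (nat_lit 5) (nat_lit 309) (nat_lit 5) (nat_lit 300) (nat_lit 5) (nat_lit 655) (nat_lit 603) (nat_lit 302)) (XT.lf (nat_lit 0) (nat_lit 18589272882) (nat_lit 760) (nat_lit 1634839229) (nat_lit 76) (nat_lit 16982404349) (nat_lit 299) (nat_lit 5) (nat_lit 309) (nat_lit 5) (nat_lit 300) (nat_lit 5) (nat_lit 656) (nat_lit 603) (nat_lit 301))))))) (XT.nd (nat_lit 77532) (nat_lit 0) (nat_lit 15200) (XT.nd (nat_lit 77142) (nat_lit 0) (nat_lit 15048) (XT.nd (nat_lit 156) (nat_lit 684) (nat_lit 0) (XT.nd (nat_lit 78) (nat_lit 608) (nat_lit 0) (XT.lf (nat_lit 0) (nat_lit 20017113930) (nat_lit 608) (nat_lit 4816835467) (nat_lit 684) (nat_lit 12804344886) (nat_lit 291) (nat_lit 5) (nat_lit 299) (nat_lit 5) (nat_lit 300) (nat_lit 5) (nat_lit 657) (nat_lit 603) (nat_lit 300)) (XT.lf (nat_lit 0) (nat_lit 4025702567) (nat_lit 608) (nat_lit 27284125625) (nat_lit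 684) (nat_lit 6766753373) (nat_lit 283) (nat_lit 5) (nat_lit 291) (nat_lit 5) (nat_lit 292) (nat_lit 5) (nat_lit 658) (nat_lit 603) (nat_lit 299))) (XT.nd (nat_lit 78) (nat_lit 684) (nat_lit 0) (XT.lf (nat_lit 0) (nat_lit 26310032491) (nat_lit 608) (nat_lit 11753515110) (nat_lit 684) (nat_lit 457120607) (nat_lit 283) (nat_lit 5) (nat_lit 291) (nat_lit 5) (nat_lit 292) (nat_lit 5) (nat_lit 659) (nat_lit 603) (nat_lit 298)) (XT.nd (nat_lit 76830) (nat_lit 0) (nat_lit 16872) (XT.lf (nat_lit 0) (nat_lit 5991889151) (nat_lit 684) (nat_lit 28839983208) (nat_lit 76) (nat_lit 4139156018) (nat_lit 274) (nat_lit 5) (nat_lit 283) (nat_lit 5) (nat_lit 275) (nat_lit 5) (nat_lit 660) (nat_lit 603) (nat_lit 297)) (XT.lf (nat_lit 0) (nat_lit 5248099112) (nat_lit 0) (nat_lit 5248099112) (nat_lit 1748) (nat_lit 267960713) (nat_lit 496) (nat_lit 5) (nat_lit 496) (nat_lit 3) (nat_lit 519) (nat_lit 3) (nat_lit 604) (nat_lit 604) (nat_lit 352))))) (XT.nd (nat_lit 156) (nat_lit 1824) (nat_lit 0) (XT.nd (nat_lit 78) (nat_lit 0)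 (nat_lit 0) (XT.lf (nat_lit 0) (nat_lit 21344880462) (nat_lit 1748) (nat_lit 353677514) (nat_lit 1824) (nat_lit 42183018) (nat_lit 496) (nat_lit 5) (nat_lit 519) (nat_lit 3) (nat_lit 520) (nat_lit 5) (nat_lit 605) (nat_lit 604) (nat_lit 351)) (XT.lf (nat_lit 76) (nat_lit 10605968350) (nat_lit 0) (nat_lit 11233098026) (nat_lit 1824) (nat_lit 115653386) (nat_lit 497) (nat_lit 5) (nat_lit 496) (nat_lit 5) (nat_lit 520) (nat_lit 5) (nat_lit 606) (nat_lit 604) (nat_lit 350))) (XT.nd (nat_lit 78) (nat_lit 0) (nat_lit 76) (XT.lf (nat_lit 0) (nat_lit 166631208) (nat_lit 1824) (nat_lit 386439195) (nat_lit 1900) (nat_lit 21619911730) (nat_lit 472) (nat_lit 5) (nat_lit 496) (nat_lit 5) (nat_lit 497) (nat_lit 5) (nat_lit 607) (nat_lit 604) (nat_lit 349)) (XT.nd (nat_lit 78) (nat_lit 0) (nat_lit 0) (XT.lf (nat_lit 0) (nat_lit 588028945) (nat_lit 1824) (nat_lit 11526042349) (nat_lit 1900) (nat_lit 10278823067) (nat_lit 473) (nat_lit 5) (nat_lit 497) (nat_lit 5) (nat_lit 498) (nat_lit 5) (nat_lit 608) (nat_lit 604) (nat_lit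 348)) (XT.lf (nat_lit 0) (nat_lit 1020584588) (nat_lit 1824) (nat_lit 272404858) (nat_lit 1900) (nat_lit 21324161004) (nat_lit 473) (nat_lit 5) (nat_lit 497) (nat_lit 5) (nat_lit 498) (nat_lit 5) (nat_lit 609) (nat_lit 604) (nat_lit 347)))))) (XT.nd (nat_lit 390) (nat_lit 0) (nat_lit 152) (XT.nd (nat_lit 156) (nat_lit 0) (nat_lit 76) (XT.nd (nat_lit 78) (nat_lit 0) (nat_lit 0) (XT.lf (nat_lit 0) (nat_lit 1595796046) (nat_lit 1824) (nat_lit 11555027561) (nat_lit 1900) (nat_lit 9692388168) (nat_lit 474) (nat_lit 5) (nat_lit 498) (nat_lit 5) (nat_lit 499) (nat_lit 5) (nat_lit 610) (nat_lit 604) (nat_lit 346)) (XT.lf (nat_lit 0) (nat_lit 2189505753) (nat_lit 1824) (nat_lit 699836) (nat_lit 1900) (nat_lit 20883449065) (nat_lit 474) (nat_lit 5) (nat_lit 498) (nat_lit 5) (nat_lit 499) (nat_lit 5) (nat_lit 611) (nat_lit 604) (nat_lit 345))) (XT.nd (nat_lit 78) (nat_lit 0) (nat_lit 0) (XT.lf (nat_lit 0) (nat_lit 2928154067) (nat_lit 1824) (nat_lit 11426815891) (nat_lit 1900) (nat_lit 8951075348) (nat_lit 475) (nat_lit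 5) (nat_lit 499) (nat_lit 5) (nat_lit 500) (nat_lit 5) (nat_lit 612) (nat_lit 604) (nat_lit 344)) (XT.nd (nat_lit 78) (nat_lit 0) (nat_lit 76) (XT.lf (nat_lit 76) (nat_lit 442921512) (nat_lit 0) (nat_lit 3252757934) (nat_lit 1900) (nat_lit 19847122439) (nat_lit 476) (nat_lit 5) (nat_lit 475) (nat_lit 5) (nat_lit 500) (nat_lit 5) (nat_lit 613) (nat_lit 604) (nat_lit 343)) (XT.lf (nat_lit 0) (nat_lit 4604926234) (nat_lit 1824) (nat_lit 11132850864) (nat_lit 1900) (nat_lit 8043989274) (nat_lit 476) (nat_lit 5) (nat_lit 500) (nat_lit 5) (nat_lit 501) (nat_lit 5) (nat_lit 614) (nat_lit 604) (nat_lit 342))))) (XT.nd (nat_lit 156) (nat_lit 0) (nat_lit 76) (XT.nd (nat_lit 78) (nat_lit 0) (nat_lit 76) (XT.lf (nat_lit 76) (nat_lit 1063847308) (nat_lit 0) (nat_lit 4493800095) (nat_lit 1900) (nat_lit 18467357149) (nat_lit 477) (nat_lit 5) (nat_lit 476) (nat_lit 5) (nat_lit 501) (nat_lit 5) (nat_lit 615) (nat_lit 604) (nat_lit 341)) (XT.lf (nat_lit 0) (nat_lit 6646807799) (nat_lit 1824) (nat_lit 10664145114) (nat_lit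 1900) (nat_lit 6959807072) (nat_lit 477) (nat_lit 5) (nat_lit 501) (nat_lit 5) (nat_lit 502) (nat_lit 5) (nat_lit 616) (nat_lit 604) (nat_lit 340))) (XT.nd (nat_lit 78) (nat_lit 0) (nat_lit 76) (XT.lf (nat_lit 76) (nat_lit 1871495433) (nat_lit 0) (nat_lit 5925124157) (nat_lit 1900) (nat_lit 16724033757) (nat_lit 478) (nat_lit 5) (nat_lit 477) (nat_lit 5) (nat_lit 502) (nat_lit 5) (nat_lit 617) (nat_lit 604) (nat_lit 339)) (XT.nd (nat_lit 78) (nat_lit 0) (nat_lit 0) (XT.lf (nat_lit 0) (nat_lit 9075405582) (nat_lit 1824) (nat_lit 10011264993) (nat_lit 1900) (nat_lit 5686754623) (nat_lit 478) (nat_lit 5) (nat_lit 502) (nat_lit 5) (nat_lit 503) (nat_lit 5) (nat_lit 618) (nat_lit 604) (nat_lit 338)) (XT.lf (nat_lit 76) (nat_lit 2875755925) (nat_lit 0) (nat_lit 7558989575) (nat_lit 1900) (nat_lit 14595407597) (nat_lit 479) (nat_lit 5) (nat_lit 478) (nat_lit 5) (nat_lit 503) (nat_lit 5) (nat_lit 619) (nat_lit 604) (nat_lit 337))))))))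
noncomputable def xc225 : XT := (XT.nd (nat_lit 1560) (nat_lit 8664) (nat_lit 0) (XT.nd (nat_lit 780) (nat_lit 4560) (nat_lit 0) (XT.nd (nat_lit 390) (nat_lit 1672) (nat_lit 0) (XT.nd (nat_lit 156) (nat_lit 0) (nat_lit 76) (XT.nd (nat_lit 78) (nat_lit 0) (nat_lit 0) (XT.lf (nat_lit 0) (nat_lit 11913278999) (nat_lit 1824) (nat_lit 9164314464) (nat_lit 1900) (nat_lit 4212582127) (nat_lit 479) (nat_lit 5) (nat_lit 503) (nat_lit 5) (nat_lit 504) (nat_lit 5) (nat_lit 620) (nat_lit 604) (nat_lit 336)) (XT.lf (nat_lit 76) (nat_lit 4086998423) (nat_lit 0) (nat_lit 9408153051) (nat_lit 1900) (nat_lit 12058771862) (nat_lit 480) (nat_lit 5) (nat_lit 479) (nat_lit 5) (nat_lit 504) (nat_lit 5) (nat_lit 621) (nat_lit 604) (nat_lit 335))) (XT.nd (nat_lit 78) (nat_lit 0) (nat_lit 0) (XT.lf (nat_lit 0) (nat_lit 15183982644) (nat_lit 1824) (nat_lit 8112918254) (nat_lit 1900) (nat_lit 2524538882) (nat_lit 480) (nat_lit 5) (nat_lit 504) (nat_lit 5) (nat_lit 505) (nat_lit 5) (nat_lit 622) (nat_lit 604) (nat_lit 334)) (XT.nd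 (nat_lit 78) (nat_lit 0) (nat_lit 76) (XT.lf (nat_lit 76) (nat_lit 5516089686) (nat_lit 0) (nat_lit 11485894543) (nat_lit 1900) (nat_lit 9090414609) (nat_lit 481) (nat_lit 5) (nat_lit 480) (nat_lit 5) (nat_lit 505) (nat_lit 5) (nat_lit 623) (nat_lit 604) (nat_lit 333)) (XT.lf (nat_lit 0) (nat_lit 18912110483) (nat_lit 1824) (nat_lit 6846204238) (nat_lit 1900) (nat_lit 609347224) (nat_lit 481) (nat_lit 5) (nat_lit 505) (nat_lit 5) (nat_lit 506) (nat_lit 5) (nat_lit 624) (nat_lit 604) (nat_lit 332))))) (XT.nd (nat_lit 156) (nat_lit 1824) (nat_lit 0) (XT.nd (nat_lit 78) (nat_lit 0) (nat_lit 0) (XT.lf (nat_lit 76) (nat_lit 7174411886) (nat_lit 0) (nat_lit 13806044140) (nat_lit 1900) (nat_lit 5665574107) (nat_lit 482) (nat_lit 5) (nat_lit 481) (nat_lit 5) (nat_lit 506) (nat_lit 5) (nat_lit 625) (nat_lit 604) (nat_lit 331)) (XT.lf (nat_lit 76) (nat_lit 21566137312) (nat_lit 0) (nat_lit 1567380899) (nat_lit 1900) (nat_lit 3795580635) (nat_lit 482) (nat_lit 5) (nat_lit 481) (nat_lit 5) (nat_lit 506) (nat_lit 5)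 (nat_lit 626) (nat_lit 604) (nat_lit 330))) (XT.nd (nat_lit 78) (nat_lit 1900) (nat_lit 0) (XT.lf (nat_lit 76) (nat_lit 9073881715) (nat_lit 0) (nat_lit 16383009873) (nat_lit 1900) (nat_lit 1758392496) (nat_lit 483) (nat_lit 5) (nat_lit 482) (nat_lit 5) (nat_lit 507) (nat_lit 5) (nat_lit 627) (nat_lit 604) (nat_lit 329)) (XT.nd (nat_lit 78) (nat_lit 0) (nat_lit 76) (XT.lf (nat_lit 0) (nat_lit 359436627) (nat_lit 1900) (nat_lit 3649145674) (nat_lit 1976) (nat_lit 23497687615) (nat_lit 457) (nat_lit 5) (nat_lit 482) (nat_lit 5) (nat_lit 483) (nat_lit 5) (nat_lit 628) (nat_lit 604) (nat_lit 328)) (XT.lf (nat_lit 0) (nat_lit 2623270466) (nat_lit 1900) (nat_lit 16590932505) (nat_lit 76) (nat_lit 8586096317) (nat_lit 458) (nat_lit 5) (nat_lit 483) (nat_lit 5) (nat_lit 459) (nat_lit 5) (nat_lit 629) (nat_lit 604) (nat_lit 327)))))) (XT.nd (nat_lit 390) (nat_lit 1748) (nat_lit 0) (XT.nd (nat_lit 156) (nat_lit 1824) (nat_lit 0) (XT.nd (nat_lit 78) (nat_lit 1064) (nat_lit 0) (XT.lf (nat_lit 0) (nat_lit 4981145719)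 (nat_lit 1900) (nat_lit 1714046955) (nat_lit 76) (nat_lit 21404041417) (nat_lit 458) (nat_lit 5) (nat_lit 483) (nat_lit 5) (nat_lit 459) (nat_lit 5) (nat_lit 630) (nat_lit 604) (nat_lit 326)) (XT.lf (nat_lit 0) (nat_lit 7512361482) (nat_lit 1140) (nat_lit 14805311932) (nat_lit 76) (nat_lit 6083950653) (nat_lit 444) (nat_lit 5) (nat_lit 459) (nat_lit 5) (nat_lit 445) (nat_lit 5) (nat_lit 631) (nat_lit 604) (nat_lit 325))) (XT.nd (nat_lit 78) (nat_lit 912) (nat_lit 0) (XT.lf (nat_lit 0) (nat_lit 486114893) (nat_lit 912) (nat_lit 9664810905) (nat_lit 988) (nat_lit 18558001693) (nat_lit 432) (nat_lit 5) (nat_lit 444) (nat_lit 5) (nat_lit 445) (nat_lit 5) (nat_lit 632) (nat_lit 604) (nat_lit 324)) (XT.nd (nat_lit 78) (nat_lit 912) (nat_lit 0) (XT.lf (nat_lit 0) (nat_lit 12960998604) (nat_lit 988) (nat_lit 12760191353) (nat_lit 76) (nat_lit 3298812413) (nat_lit 432) (nat_lit 5) (nat_lit 445) (nat_lit 5) (nat_lit 433) (nat_lit 5) (nat_lit 633) (nat_lit 604) (nat_lit 323)) (XT.lf (nat_lit 0) (nat_lit 2984704065)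 (nat_lit 912) (nat_lit 12923682635) (nat_lit 988) (nat_lit 13427289898) (nat_lit 420) (nat_lit 5) (nat_lit 432) (nat_lit 5) (nat_lit 433) (nat_lit 5) (nat_lit 634) (nat_lit 604) (nat_lit 322))))) (XT.nd (nat_lit 156) (nat_lit 912) (nat_lit 0) (XT.nd (nat_lit 78) (nat_lit 836) (nat_lit 0) (XT.lf (nat_lit 0) (nat_lit 18999521332) (nat_lit 988) (nat_lit 10442045942) (nat_lit 76) (nat_lit 214401187) (nat_lit 420) (nat_lit 5) (nat_lit 433) (nat_lit 5) (nat_lit 421) (nat_lit 5) (nat_lit 635) (nat_lit 604) (nat_lit 321)) (XT.lf (nat_lit 0) (nat_lit 5773079332) (nat_lit 836) (nat_lit 16500274699) (nat_lit 912) (nat_lit 7706894746) (nat_lit 409) (nat_lit 5) (nat_lit 420) (nat_lit 5) (nat_lit 421) (nat_lit 5) (nat_lit 636) (nat_lit 604) (nat_lit 320))) (XT.nd (nat_lit 78) (nat_lit 912) (nat_lit 0) (XT.lf (nat_lit 0) (nat_lit 22451958136) (nat_lit 836) (nat_lit 3228611721) (nat_lit 912) (nat_lit 4629086833) (nat_lit 409) (nat_lit 5) (nat_lit 420) (nat_lit 5) (nat_lit 421) (nat_lit 5) (nat_lit 637) (nat_lit 604) (nat_lit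 319)) (XT.nd (nat_lit 78) (nat_lit 76) (nat_lit 0) (XT.lf (nat_lit 0) (nat_lit 8866015997) (nat_lit 836) (nat_lit 20412285338) (nat_lit 912) (nat_lit 1364904120) (nat_lit 398) (nat_lit 5) (nat_lit 409) (nat_lit 5) (nat_lit 410) (nat_lit 5) (nat_lit 638) (nat_lit 604) (nat_lit 318)) (XT.lf (nat_lit 0) (nat_lit 2011148559) (nat_lit 912) (nat_lit 4988248547) (nat_lit 76) (nat_lit 23982326060) (nat_lit 397) (nat_lit 5) (nat_lit 409) (nat_lit 5) (nat_lit 398) (nat_lit 5) (nat_lit 639) (nat_lit 604) (nat_lit 317))))))) (XT.nd (nat_lit 780) (nat_lit 3952) (nat_lit 0) (XT.nd (nat_lit 390) (nat_lit 2280) (nat_lit 0) (XT.nd (nat_lit 156) (nat_lit 1596) (nat_lit 0) (XT.nd (nat_lit 78) (nat_lit 0) (nat_lit 0) (XT.lf (nat_lit 0) (nat_lit 5558139132) (nat_lit 912) (nat_lit 19082743763) (nat_lit 76) (nat_lit 6683514148) (nat_lit 386) (nat_lit 5) (nat_lit 398) (nat_lit 5) (nat_lit 387) (nat_lit 5) (nat_lit 640) (nat_lit 604) (nat_lit 316)) (XT.lf (nat_lit 0) (nat_lit 9254078885) (nat_lit 912) (nat_lit 1838155854) (nat_lit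 76) (nat_lit 20580129582) (nat_lit 386) (nat_lit 5) (nat_lit 398) (nat_lit 5) (nat_lit 387) (nat_lit 5) (nat_lit 641) (nat_lit 604) (nat_lit 315))) (XT.nd (nat_lit 78) (nat_lit 760) (nat_lit 0) (XT.lf (nat_lit 0) (nat_lit 13143945157) (nat_lit 912) (nat_lit 16085083993) (nat_lit 76) (nat_lit 2795861747) (nat_lit 375) (nat_lit 5) (nat_lit 387) (nat_lit 5) (nat_lit 376) (nat_lit 5) (nat_lit 642) (nat_lit 604) (nat_lit 314)) (XT.nd (nat_lit 78) (nat_lit 0) (nat_lit 0) (XT.lf (nat_lit 0) (nat_lit 1660177301) (nat_lit 760) (nat_lit 15546111418) (nat_lit 836) (nat_lit 15176285790) (nat_lit 365) (nat_lit 5) (nat_lit 375) (nat_lit 5) (nat_lit 376) (nat_lit 5) (nat_lit 643) (nat_lit 604) (nat_lit 313)) (XT.lf (nat_lit 0) (nat_lit 19976314729) (nat_lit 760) (nat_lit 1479554900) (nat_lit 836) (nat_lit 11289422460) (nat_lit 365) (nat_lit 5) (nat_lit 375) (nat_lit 5) (nat_lit 376) (nat_lit 5) (nat_lit 644) (nat_lit 604) (nat_lit 312))))) (XT.nd (nat_lit 156) (nat_lit 1520) (nat_lit 0) (XT.nd (nat_lit 78) (nat_lit 0)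 (nat_lit 0) (XT.lf (nat_lit 0) (nat_lit 5530430034) (nat_lit 760) (nat_lit 20377557655) (nat_lit 836) (nat_lit 7204925521) (nat_lit 355) (nat_lit 5) (nat_lit 365) (nat_lit 5) (nat_lit 366) (nat_lit 5) (nat_lit 645) (nat_lit 604) (nat_lit 311)) (XT.lf (nat_lit 0) (nat_lit 24356933729) (nat_lit 760) (nat_lit 6185747583) (nat_lit 836) (nat_lit 2943334878) (nat_lit 355) (nat_lit 5) (nat_lit 365) (nat_lit 5) (nat_lit 366) (nat_lit 5) (nat_lit 646) (nat_lit 604) (nat_lit 310))) (XT.nd (nat_lit 78) (nat_lit 760) (nat_lit 0) (XT.lf (nat_lit 0) (nat_lit 1501221509) (nat_lit 760) (nat_lit 24108555947) (nat_lit 76) (nat_lit 8254298802) (nat_lit 345) (nat_lit 5) (nat_lit 355) (nat_lit 5) (nat_lit 346) (nat_lit 5) (nat_lit 647) (nat_lit 604) (nat_lit 309)) (XT.nd (nat_lit 78) (nat_lit 760) (nat_lit 0) (XT.lf (nat_lit 0) (nat_lit 6096086076) (nat_lit 760) (nat_lit 5169830318) (nat_lit 76) (nat_lit 22981375552) (nat_lit 345) (nat_lit 5) (nat_lit 355) (nat_lit 5) (nat_lit 346) (nat_lit 5) (nat_lit 648) (nat_lit 604) (nat_lit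 308)) (XT.lf (nat_lit 0) (nat_lit 10896568719) (nat_lit 836) (nat_lit 20325167071) (nat_lit 76) (nat_lit 3414161834) (nat_lit 335) (nat_lit 5) (nat_lit 346) (nat_lit 5) (nat_lit 336) (nat_lit 5) (nat_lit 649) (nat_lit 604) (nat_lit 307)))))) (XT.nd (nat_lit 390) (nat_lit 1900) (nat_lit 0) (XT.nd (nat_lit 156) (nat_lit 1368) (nat_lit 0) (XT.nd (nat_lit 78) (nat_lit 684) (nat_lit 0) (XT.lf (nat_lit 0) (nat_lit 15900808384) (nat_lit 836) (nat_lit 857476736) (nat_lit 76) (nat_lit 18271835437) (nat_lit 335) (nat_lit 5) (nat_lit 346) (nat_lit 5) (nat_lit 336) (nat_lit 5) (nat_lit 650) (nat_lit 604) (nat_lit 306)) (XT.lf (nat_lit 0) (nat_lit 19250037309) (nat_lit 684) (nat_lit 1878331130) (nat_lit 760) (nat_lit 14301394886) (nat_lit 326) (nat_lit 5) (nat_lit 335) (nat_lit 5) (nat_lit 336) (nat_lit 5) (nat_lit 651) (nat_lit 604) (nat_lit 305))) (XT.nd (nat_lit 78) (nat_lit 684) (nat_lit 0) (XT.lf (nat_lit 0) (nat_lit 3896744512) (nat_lit 684) (nat_lit 22679446343) (nat_lit 760) (nat_lit 9258893958) (nat_lit 317)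 (nat_lit 5) (nat_lit 326) (nat_lit 5) (nat_lit 327) (nat_lit 5) (nat_lit 652) (nat_lit 604) (nat_lit 304)) (XT.nd (nat_lit 78) (nat_lit 684) (nat_lit 0) (XT.lf (nat_lit 0) (nat_lit 24579455972) (nat_lit 684) (nat_lit 7672737859) (nat_lit 760) (nat_lit 3993934501) (nat_lit 317) (nat_lit 5) (nat_lit 326) (nat_lit 5) (nat_lit 327) (nat_lit 5) (nat_lit 653) (nat_lit 604) (nat_lit 303)) (XT.lf (nat_lit 0) (nat_lit 1465810179) (nat_lit 684) (nat_lit 27594974532) (nat_lit 76) (nat_lit 7602278637) (nat_lit 308) (nat_lit 5) (nat_lit 317) (nat_lit 5) (nat_lit 309) (nat_lit 5) (nat_lit 654) (nat_lit 604) (nat_lit 302))))) (XT.nd (nat_lit 234) (nat_lit 1216) (nat_lit 0) (XT.nd (nat_lit 78) (nat_lit 684) (nat_lit 0) (XT.lf (nat_lit 0) (nat_lit 7109274511) (nat_lit 684) (nat_lit 6790868262) (nat_lit 76) (nat_lit 23185106301) (nat_lit 308) (nat_lit 5) (nat_lit 317) (nat_lit 5) (nat_lit 309) (nat_lit 5) (nat_lit 655) (nat_lit 604) (nat_lit 301)) (XT.nd (nat_lit 78) (nat_lit 0) (nat_lit 0) (XT.lf (nat_lit 0) (nat_lit 12969669443)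 (nat_lit 760) (nat_lit 22905706454) (nat_lit 76) (nat_lit 1638421470) (nat_lit 299) (nat_lit 5) (nat_lit 309) (nat_lit 5) (nat_lit 300) (nat_lit 5) (nat_lit 656) (nat_lit 604) (nat_lit 300)) (XT.lf (nat_lit 0) (nat_lit 19083580882) (nat_lit 760) (nat_lit 1517263389) (nat_lit 76) (nat_lit 17347346259) (nat_lit 299) (nat_lit 5) (nat_lit 309) (nat_lit 5) (nat_lit 300) (nat_lit 5) (nat_lit 657) (nat_lit 604) (nat_lit 299)))) (XT.nd (nat_lit 78) (nat_lit 608) (nat_lit 0) (XT.lf (nat_lit 0) (nat_lit 20566740198) (nat_lit 608) (nat_lit 4884977579) (nat_lit 684) (nat_lit 12936914910) (nat_lit 291) (nat_lit 5) (nat_lit 299) (nat_lit 5) (nat_lit 300) (nat_lit 5) (nat_lit 658) (nat_lit 604) (nat_lit 298)) (XT.nd (nat_lit 78) (nat_lit 0) (nat_lit 0) (XT.lf (nat_lit 0) (nat_lit 4256748134) (nat_lit 608) (nat_lit 27799148531) (nat_lit 684) (nat_lit 6779813511) (nat_lit 283) (nat_lit 5) (nat_lit 291) (nat_lit 5) (nat_lit 292) (nat_lit 5) (nat_lit 659) (nat_lit 604) (nat_lit 297)) (XT.lf (nat_lit 0) (nat_lit 26983813058)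 (nat_lit 608) (nat_lit 11958526974) (nat_lit 684) (nat_lit 346385637) (nat_lit 283) (nat_lit 5) (nat_lit 291) (nat_lit 5) (nat_lit 292) (nat_lit 5) (nat_lit 660) (nat_lit 604) (nat_lit 296))))))))
noncomputable def xc226 : XT := (XT.nd (nat_lit 1560) (nat_lit 8132) (nat_lit 0) (XT.nd (nat_lit 780) (nat_lit 0) (nat_lit 304) (XT.nd (nat_lit 390) (nat_lit 0) (nat_lit 76) (XT.nd (nat_lit 156) (nat_lit 1824) (nat_lit 0) (XT.nd (nat_lit 78) (nat_lit 0) (nat_lit 0) (XT.lf (nat_lit 0) (nat_lit 5423740462) (nat_lit 0) (nat_lit 5423740462) (nat_lit 1748) (nat_lit 129125215) (nat_lit 496) (nat_lit 5) (nat_lit 496) (nat_lit 3) (nat_lit 519) (nat_lit 3) (nat_lit 605) (nat_lit 605) (nat_lit 350)) (XT.lf (nat_lit 0) (nat_lit 21953680477) (nat_lit 0) (nat_lit 94988514) (nat_lit 1748) (nat_lit 121331744) (nat_lit 496) (nat_lit 5) (nat_lit 496) (nat_lit 3) (nat_lit 519) (nat_lit 3) (nat_lit 606) (nat_lit 605) (nat_lit 349))) (XT.nd (nat_lit 78) (nat_lit 0) (nat_lit 0) (XT.lf (nat_lit 0) (nat_lit 157189948) (nat_lit 1824)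 (nat_lit 11427214536) (nat_lit 1900) (nat_lit 10803936216) (nat_lit 472) (nat_lit 5) (nat_lit 496) (nat_lit 5) (nat_lit 497) (nat_lit 5) (nat_lit 607) (nat_lit 605) (nat_lit 348)) (XT.nd (nat_lit 78) (nat_lit 0) (nat_lit 76) (XT.lf (nat_lit 0) (nat_lit 438208196) (nat_lit 1824) (nat_lit 249318972) (nat_lit 1900) (nat_lit 21923533456) (nat_lit 472) (nat_lit 5) (nat_lit 496) (nat_lit 5) (nat_lit 497) (nat_lit 5) (nat_lit 608) (nat_lit 605) (nat_lit 347)) (XT.lf (nat_lit 0) (nat_lit 862929195) (nat_lit 1824) (nat_lit 11606593549) (nat_lit 1900) (nat_lit 10365950765) (nat_lit 473) (nat_lit 5) (nat_lit 497) (nat_lit 5) (nat_lit 498) (nat_lit 5) (nat_lit 609) (nat_lit 605) (nat_lit 346))))) (XT.nd (nat_lit 156) (nat_lit 0) (nat_lit 76) (XT.nd (nat_lit 78) (nat_lit 0) (nat_lit 76) (XT.lf (nat_lit 0) (nat_lit 1298976349) (nat_lit 1824) (nat_lit 130823889) (nat_lit 1900) (nat_lit 21634517985) (nat_lit 473) (nat_lit 5) (nat_lit 497) (nat_lit 5) (nat_lit 498) (nat_lit 5) (nat_lit 610) (nat_lit 605) (nat_lit 345))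 (XT.lf (nat_lit 0) (nat_lit 1880881972) (nat_lit 1824) (nat_lit 11634273655) (nat_lit 1900) (nat_lit 9779841657) (nat_lit 474) (nat_lit 5) (nat_lit 498) (nat_lit 5) (nat_lit 499) (nat_lit 5) (nat_lit 611) (nat_lit 605) (nat_lit 344))) (XT.nd (nat_lit 78) (nat_lit 0) (nat_lit 76) (XT.lf (nat_lit 76) (nat_lit 150132095) (nat_lit 0) (nat_lit 2332344417) (nat_lit 1900) (nat_lit 21047652597) (nat_lit 475) (nat_lit 5) (nat_lit 474) (nat_lit 5) (nat_lit 499) (nat_lit 5) (nat_lit 612) (nat_lit 605) (nat_lit 343)) (XT.nd (nat_lit 78) (nat_lit 0) (nat_lit 0) (XT.lf (nat_lit 0) (nat_lit 3230390596) (nat_lit 1824) (nat_lit 11501928119) (nat_lit 1900) (nat_lit 9034959295) (nat_lit 475) (nat_lit 5) (nat_lit 499) (nat_lit 5) (nat_lit 500) (nat_lit 5) (nat_lit 613) (nat_lit 605) (nat_lit 342)) (XT.lf (nat_lit 76) (nat_lit 604194663) (nat_lit 0) (nat_lit 3405283487) (nat_lit 1900) (nat_lit 19999367627) (nat_lit 476) (nat_lit 5) (nat_lit 475) (nat_lit 5) (nat_lit 500) (nat_lit 5) (nat_lit 614) (nat_lit 605) (nat_lit 341))))))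 (XT.nd (nat_lit 390) (nat_lit 0) (nat_lit 152) (XT.nd (nat_lit 156) (nat_lit 0) (nat_lit 76) (XT.nd (nat_lit 78) (nat_lit 0) (nat_lit 0) (XT.lf (nat_lit 0) (nat_lit 4931649464) (nat_lit 1824) (nat_lit 11200807115) (nat_lit 1900) (nat_lit 8120238467) (nat_lit 476) (nat_lit 5) (nat_lit 500) (nat_lit 5) (nat_lit 501) (nat_lit 5) (nat_lit 615) (nat_lit 605) (nat_lit 340)) (XT.lf (nat_lit 76) (nat_lit 1238807252) (nat_lit 0) (nat_lit 4661015131) (nat_lit 1900) (nat_lit 18601047937) (nat_lit 477) (nat_lit 5) (nat_lit 476) (nat_lit 5) (nat_lit 501) (nat_lit 5) (nat_lit 616) (nat_lit 605) (nat_lit 339))) (XT.nd (nat_lit 78) (nat_lit 0) (nat_lit 0) (XT.lf (nat_lit 0) (nat_lit 7005743854) (nat_lit 1824) (nat_lit 10721722666) (nat_lit 1900) (nat_lit 7024175058) (nat_lit 477) (nat_lit 5) (nat_lit 501) (nat_lit 5) (nat_lit 502) (nat_lit 5) (nat_lit 617) (nat_lit 605) (nat_lit 338)) (XT.nd (nat_lit 78) (nat_lit 0) (nat_lit 76) (XT.lf (nat_lit 76) (nat_lit 2063606315) (nat_lit 0) (nat_lit 6111518486) (nat_lit 1900) (nat_lit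 16831476814) (nat_lit 478) (nat_lit 5) (nat_lit 477) (nat_lit 5) (nat_lit 502) (nat_lit 5) (nat_lit 618) (nat_lit 605) (nat_lit 337)) (XT.lf (nat_lit 0) (nat_lit 9474690184) (nat_lit 1824) (nat_lit 10055032870) (nat_lit 1900) (nat_lit 5734802036) (nat_lit 478) (nat_lit 5) (nat_lit 502) (nat_lit 5) (nat_lit 503) (nat_lit 5) (nat_lit 619) (nat_lit 605) (nat_lit 336))))) (XT.nd (nat_lit 156) (nat_lit 0) (nat_lit 76) (XT.nd (nat_lit 78) (nat_lit 0) (nat_lit 76) (XT.lf (nat_lit 76) (nat_lit 3088699141) (nat_lit 0) (nat_lit 7769256774) (nat_lit 1900) (nat_lit 14668497108) (nat_lit 479) (nat_lit 5) (nat_lit 478) (nat_lit 5) (nat_lit 503) (nat_lit 5) (nat_lit 620) (nat_lit 605) (nat_lit 335)) (XT.lf (nat_lit 0) (nat_lit 12361477785) (nat_lit 1824) (nat_lit 9190625394) (nat_lit 1900) (nat_lit 4239664685) (nat_lit 479) (nat_lit 5) (nat_lit 503) (nat_lit 5) (nat_lit 504) (nat_lit 5) (nat_lit 621) (nat_lit 605) (nat_lit 334))) (XT.nd (nat_lit 78) (nat_lit 0) (nat_lit 76) (XT.lf (nat_lit 76) (nat_lit 4324681019) (nat_lit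 0) (nat_lit 9647202837) (nat_lit 1900) (nat_lit 12088969033) (nat_lit 480) (nat_lit 5) (nat_lit 479) (nat_lit 5) (nat_lit 504) (nat_lit 5) (nat_lit 622) (nat_lit 605) (nat_lit 333)) (XT.nd (nat_lit 78) (nat_lit 0) (nat_lit 0) (XT.lf (nat_lit 0) (nat_lit 15690112260) (nat_lit 1824) (nat_lit 8117900215) (nat_lit 1900) (nat_lit 2525795016) (nat_lit 480) (nat_lit 5) (nat_lit 504) (nat_lit 5) (nat_lit 505) (nat_lit 5) (nat_lit 623) (nat_lit 605) (nat_lit 332)) (XT.lf (nat_lit 76) (nat_lit 5782653170) (nat_lit 0) (nat_lit 11758865524) (nat_lit 1900) (nat_lit 9068726377) (nat_lit 481) (nat_lit 5) (nat_lit 480) (nat_lit 5) (nat_lit 505) (nat_lit 5) (nat_lit 624) (nat_lit 605) (nat_lit 331))))))) (XT.nd (nat_lit 780) (nat_lit 5092) (nat_lit 0) (XT.nd (nat_lit 390) (nat_lit 1900) (nat_lit 0) (XT.nd (nat_lit 156) (nat_lit 1824) (nat_lit 0) (XT.nd (nat_lit 78) (nat_lit 0) (nat_lit 0) (XT.lf (nat_lit 0) (nat_lit 19485660489) (nat_lit 1824) (nat_lit 6825751595) (nat_lit 1900) (nat_lit 579685327) (nat_lit 481) (nat_lit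 5) (nat_lit 505) (nat_lit 5) (nat_lit 506) (nat_lit 5) (nat_lit 625) (nat_lit 605) (nat_lit 330)) (XT.lf (nat_lit 76) (nat_lit 7474241478) (nat_lit 0) (nat_lit 14118316973) (nat_lit 1900) (nat_lit 5582531031) (nat_lit 482) (nat_lit 5) (nat_lit 481) (nat_lit 5) (nat_lit 506) (nat_lit 5) (nat_lit 626) (nat_lit 605) (nat_lit 329))) (XT.nd (nat_lit 78) (nat_lit 1824) (nat_lit 0) (XT.lf (nat_lit 76) (nat_lit 22150735896) (nat_lit 0) (nat_lit 1634171605) (nat_lit 1900) (nat_lit 3678987779) (nat_lit 482) (nat_lit 5) (nat_lit 481) (nat_lit 5) (nat_lit 506) (nat_lit 5) (nat_lit 627) (nat_lit 605) (nat_lit 328)) (XT.nd (nat_lit 78) (nat_lit 1900) (nat_lit 0) (XT.lf (nat_lit 76) (nat_lit 9411616037) (nat_lit 0) (nat_lit 16740220851) (nat_lit 1900) (nat_lit 1604025782) (nat_lit 483) (nat_lit 5) (nat_lit 482) (nat_lit 5) (nat_lit 507) (nat_lit 5) (nat_lit 628) (nat_lit 605) (nat_lit 327)) (XT.lf (nat_lit 0) (nat_lit 550006520) (nat_lit 1900) (nat_lit 3566488196) (nat_lit 1976) (nat_lit 23936222455) (nat_lit 457) (nat_lit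 5) (nat_lit 482) (nat_lit 5) (nat_lit 483) (nat_lit 5) (nat_lit 629) (nat_lit 605) (nat_lit 326))))) (XT.nd (nat_lit 156) (nat_lit 1976) (nat_lit 0) (XT.nd (nat_lit 78) (nat_lit 0) (nat_lit 0) (XT.lf (nat_lit 0) (nat_lit 2856355268) (nat_lit 1900) (nat_lit 16764338681) (nat_lit 76) (nat_lit 8731988623) (nat_lit 458) (nat_lit 5) (nat_lit 483) (nat_lit 5) (nat_lit 459) (nat_lit 5) (nat_lit 630) (nat_lit 605) (nat_lit 325)) (XT.lf (nat_lit 0) (nat_lit 5257846469) (nat_lit 1900) (nat_lit 1593021546) (nat_lit 76) (nat_lit 21806799089) (nat_lit 458) (nat_lit 5) (nat_lit 483) (nat_lit 5) (nat_lit 459) (nat_lit 5) (nat_lit 631) (nat_lit 605) (nat_lit 324))) (XT.nd (nat_lit 78) (nat_lit 912) (nat_lit 0) (XT.lf (nat_lit 0) (nat_lit 7837084201) (nat_lit 1140) (nat_lit 14943499564) (nat_lit 76) (nat_lit 6185573360) (nat_lit 444) (nat_lit 5) (nat_lit 459) (nat_lit 5) (nat_lit 445) (nat_lit 5) (nat_lit 632) (nat_lit 605) (nat_lit 323)) (XT.nd (nat_lit 78) (nat_lit 0) (nat_lit 0) (XT.lf (nat_lit 0) (nat_lit 652716860)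 (nat_lit 912) (nat_lit 9873300423) (nat_lit 988) (nat_lit 18753637579) (nat_lit 432) (nat_lit 5) (nat_lit 444) (nat_lit 5) (nat_lit 445) (nat_lit 5) (nat_lit 633) (nat_lit 605) (nat_lit 322)) (XT.lf (nat_lit 0) (nat_lit 13388820854) (nat_lit 988) (nat_lit 12858111363) (nat_lit 76) (nat_lit 3350088625) (nat_lit 432) (nat_lit 5) (nat_lit 445) (nat_lit 5) (nat_lit 433) (nat_lit 5) (nat_lit 634) (nat_lit 605) (nat_lit 321)))))) (XT.nd (nat_lit 390) (nat_lit 2508) (nat_lit 0) (XT.nd (nat_lit 156) (nat_lit 1672) (nat_lit 0) (XT.nd (nat_lit 78) (nat_lit 0) (nat_lit 0) (XT.lf (nat_lit 0) (nat_lit 3200647201) (nat_lit 912) (nat_lit 13192218056) (nat_lit 988) (nat_lit 13526189314) (nat_lit 420) (nat_lit 5) (nat_lit 432) (nat_lit 5) (nat_lit 433) (nat_lit 5) (nat_lit 635) (nat_lit 605) (nat_lit 320)) (XT.lf (nat_lit 0) (nat_lit 19542497539) (nat_lit 988) (nat_lit 10494367310) (nat_lit 76) (nat_lit 208954106) (nat_lit 420) (nat_lit 5) (nat_lit 433) (nat_lit 5) (nat_lit 421) (nat_lit 5) (nat_lit 636) (nat_lit 605) (nat_lit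 319))) (XT.nd (nat_lit 78) (nat_lit 836) (nat_lit 0) (XT.lf (nat_lit 0) (nat_lit 6044030735) (nat_lit 836) (nat_lit 16835589900) (nat_lit 912) (nat_lit 7697008148) (nat_lit 409) (nat_lit 5) (nat_lit 420) (nat_lit 5) (nat_lit 421) (nat_lit 5) (nat_lit 637) (nat_lit 605) (nat_lit 318)) (XT.nd (nat_lit 78) (nat_lit 836) (nat_lit 0) (XT.lf (nat_lit 0) (nat_lit 23053438296) (nat_lit 836) (nat_lit 3298389551) (nat_lit 912) (nat_lit 4560860243) (nat_lit 409) (nat_lit 5) (nat_lit 420) (nat_lit 5) (nat_lit 421) (nat_lit 5) (nat_lit 638) (nat_lit 605) (nat_lit 317)) (XT.lf (nat_lit 0) (nat_lit 9197948922) (nat_lit 836) (nat_lit 20821444634) (nat_lit 912) (nat_lit 1233556854) (nat_lit 398) (nat_lit 5) (nat_lit 409) (nat_lit 5) (nat_lit 410) (nat_lit 5) (nat_lit 639) (nat_lit 605) (nat_lit 316))))) (XT.nd (nat_lit 156) (nat_lit 1596) (nat_lit 0) (XT.nd (nat_lit 78) (nat_lit 836) (nat_lit 0) (XT.lf (nat_lit 0) (nat_lit 2204866320) (nat_lit 912) (nat_lit 4934384372) (nat_lit 76) (nat_lit 24459028745) (nat_lit 397) (nat_lit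 5) (nat_lit 409) (nat_lit 5) (nat_lit 398) (nat_lit 5) (nat_lit 640) (nat_lit 605) (nat_lit 315)) (XT.lf (nat_lit 0) (nat_lit 5820785322) (nat_lit 912) (nat_lit 19308749975) (nat_lit 76) (nat_lit 6818311887) (nat_lit 386) (nat_lit 5) (nat_lit 398) (nat_lit 5) (nat_lit 387) (nat_lit 5) (nat_lit 641) (nat_lit 605) (nat_lit 314))) (XT.nd (nat_lit 78) (nat_lit 1596) (nat_lit 0) (XT.lf (nat_lit 0) (nat_lit 9587673606) (nat_lit 912) (nat_lit 1722322242) (nat_lit 76) (nat_lit 20992837522) (nat_lit 386) (nat_lit 5) (nat_lit 398) (nat_lit 5) (nat_lit 387) (nat_lit 5) (nat_lit 642) (nat_lit 605) (nat_lit 313)) (XT.nd (nat_lit 78) (nat_lit 760) (nat_lit 0) (XT.lf (nat_lit 0) (nat_lit 13553441934) (nat_lit 912) (nat_lit 16252285857) (nat_lit 76) (nat_lit 2856720750) (nat_lit 375) (nat_lit 5) (nat_lit 387) (nat_lit 5) (nat_lit 376) (nat_lit 5) (nat_lit 643) (nat_lit 605) (nat_lit 312)) (XT.lf (nat_lit 0) (nat_lit 1846864217) (nat_lit 760) (nat_lit 15848289807) (nat_lit 836) (nat_lit 15332169522) (nat_lit 365) (nat_lit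 5) (nat_lit 375) (nat_lit 5) (nat_lit 376) (nat_lit 5) (nat_lit 644) (nat_lit 605) (nat_lit 311))))))))
noncomputable def xc227 : XT := (XT.nd (nat_lit 78468) (nat_lit 0) (nat_lit 13224) (XT.nd (nat_lit 780) (nat_lit 2584) (nat_lit 0) (XT.nd (nat_lit 390) (nat_lit 2128) (nat_lit 0) (XT.nd (nat_lit 156) (nat_lit 760) (nat_lit 0) (XT.nd (nat_lit 78) (nat_lit 760) (nat_lit 0) (XT.lf (nat_lit 0) (nat_lit 20526314916) (nat_lit 760) (nat_lit 1500573606) (nat_lit 836) (nat_lit 11370463866) (nat_lit 365) (nat_lit 5) (nat_lit 375) (nat_lit 5) (nat_lit 376) (nat_lit 5) (nat_lit 645) (nat_lit 605) (nat_lit 310)) (XT.lf (nat_lit 0) (nat_lit 5793294098) (nat_lit 760) (nat_lit 20773015572) (nat_lit 836) (nat_lit 7206051194) (nat_lit 355) (nat_lit 5) (nat_lit 365) (nat_lit 5) (nat_lit 366) (nat_lit 5) (nat_lit 646) (nat_lit 605) (nat_lit 309))) (XT.nd (nat_lit 78) (nat_lit 760) (nat_lit 0) (XT.lf (nat_lit 0) (nat_lit 24993342466) (nat_lit 760) (nat_lit 6297606421) (nat_lit 836) (nat_lit 2862032127) (nat_lit 355) (nat_lit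 5) (nat_lit 365) (nat_lit 5) (nat_lit 366) (nat_lit 5) (nat_lit 647) (nat_lit 605) (nat_lit 308)) (XT.nd (nat_lit 78) (nat_lit 0) (nat_lit 0) (XT.lf (nat_lit 0) (nat_lit 1667927185) (nat_lit 760) (nat_lit 24437954779) (nat_lit 76) (nat_lit 8432735253) (nat_lit 345) (nat_lit 5) (nat_lit 355) (nat_lit 5) (nat_lit 346) (nat_lit 5) (nat_lit 648) (nat_lit 605) (nat_lit 307)) (XT.lf (nat_lit 0) (nat_lit 6352009019) (nat_lit 760) (nat_lit 5123450173) (nat_lit 76) (nat_lit 23454091763) (nat_lit 345) (nat_lit 5) (nat_lit 355) (nat_lit 5) (nat_lit 346) (nat_lit 5) (nat_lit 649) (nat_lit 605) (nat_lit 306))))) (XT.nd (nat_lit 156) (nat_lit 1368) (nat_lit 0) (XT.nd (nat_lit 78) (nat_lit 0) (nat_lit 0) (XT.lf (nat_lit 0) (nat_lit 11246946707) (nat_lit 836) (nat_lit 20580332380) (nat_lit 76) (nat_lit 3498680885) (nat_lit 335) (nat_lit 5) (nat_lit 346) (nat_lit 5) (nat_lit 336) (nat_lit 5) (nat_lit 650) (nat_lit 605) (nat_lit 305)) (XT.lf (nat_lit 0) (nat_lit 16348674173) (nat_lit 836) (nat_lit 726255651) (nat_lit 76)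 (nat_lit 18653189611) (nat_lit 335) (nat_lit 5) (nat_lit 346) (nat_lit 5) (nat_lit 336) (nat_lit 5) (nat_lit 651) (nat_lit 605) (nat_lit 304))) (XT.nd (nat_lit 78) (nat_lit 684) (nat_lit 0) (XT.lf (nat_lit 0) (nat_lit 19782432552) (nat_lit 684) (nat_lit 1896763789) (nat_lit 760) (nat_lit 14456590628) (nat_lit 326) (nat_lit 5) (nat_lit 335) (nat_lit 5) (nat_lit 336) (nat_lit 5) (nat_lit 652) (nat_lit 605) (nat_lit 303)) (XT.nd (nat_lit 78) (nat_lit 0) (nat_lit 0) (XT.lf (nat_lit 0) (nat_lit 4123535490) (nat_lit 684) (nat_lit 23111013070) (nat_lit 760) (nat_lit 9314694985) (nat_lit 317) (nat_lit 5) (nat_lit 326) (nat_lit 5) (nat_lit 327) (nat_lit 5) (nat_lit 653) (nat_lit 605) (nat_lit 302)) (XT.lf (nat_lit 0) (nat_lit 25216982433) (nat_lit 684) (nat_lit 7804602223) (nat_lit 760) (nat_lit 3946973140) (nat_lit 317) (nat_lit 5) (nat_lit 326) (nat_lit 5) (nat_lit 327) (nat_lit 5) (nat_lit 654) (nat_lit 605) (nat_lit 301)))))) (XT.nd (nat_lit 390) (nat_lit 608) (nat_lit 0) (XT.nd (nat_lit 156) (nat_lit 1292)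 (nat_lit 0) (XT.nd (nat_lit 78) (nat_lit 0) (nat_lit 0) (XT.lf (nat_lit 0) (nat_lit 1618949601) (nat_lit 684) (nat_lit 27997907882) (nat_lit 76) (nat_lit 7776984743) (nat_lit 308) (nat_lit 5) (nat_lit 317) (nat_lit 5) (nat_lit 309) (nat_lit 5) (nat_lit 655) (nat_lit 605) (nat_lit 300)) (XT.lf (nat_lit 0) (nat_lit 7372855314) (nat_lit 684) (nat_lit 6780640391) (nat_lit 76) (nat_lit 23671024635) (nat_lit 308) (nat_lit 5) (nat_lit 317) (nat_lit 5) (nat_lit 309) (nat_lit 5) (nat_lit 656) (nat_lit 605) (nat_lit 299))) (XT.nd (nat_lit 78) (nat_lit 608) (nat_lit 0) (XT.lf (nat_lit 0) (nat_lit 13349182972) (nat_lit 760) (nat_lit 23216494481) (nat_lit 76) (nat_lit 1695987764) (nat_lit 299) (nat_lit 5) (nat_lit 309) (nat_lit 5) (nat_lit 300) (nat_lit 5) (nat_lit 657) (nat_lit 605) (nat_lit 298)) (XT.nd (nat_lit 78) (nat_lit 608) (nat_lit 0) (XT.lf (nat_lit 0) (nat_lit 19583017344) (nat_lit 760) (nat_lit 1403171301) (nat_lit 76) (nat_lit 17718604816) (nat_lit 299) (nat_lit 5) (nat_lit 309) (nat_lit 5) (nat_lit 300)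 (nat_lit 5) (nat_lit 658) (nat_lit 605) (nat_lit 297)) (XT.lf (nat_lit 0) (nat_lit 21121562111) (nat_lit 608) (nat_lit 4955577364) (nat_lit 684) (nat_lit 13076932646) (nat_lit 291) (nat_lit 5) (nat_lit 299) (nat_lit 5) (nat_lit 300) (nat_lit 5) (nat_lit 659) (nat_lit 605) (nat_lit 296))))) (XT.nd (nat_lit 77064) (nat_lit 0) (nat_lit 14288) (XT.nd (nat_lit 76986) (nat_lit 0) (nat_lit 14288) (XT.lf (nat_lit 0) (nat_lit 4486569290) (nat_lit 608) (nat_lit 28325662444) (nat_lit 684) (nat_lit 6797882936) (nat_lit 283) (nat_lit 5) (nat_lit 291) (nat_lit 5) (nat_lit 292) (nat_lit 5) (nat_lit 660) (nat_lit 605) (nat_lit 295)) (XT.lf (nat_lit 0) (nat_lit 6797403) (nat_lit 1900) (nat_lit 5593307056) (nat_lit 1900) (nat_lit 5593307056) (nat_lit 471) (nat_lit 3) (nat_lit 496) (nat_lit 3) (nat_lit 496) (nat_lit 5) (nat_lit 606) (nat_lit 606) (nat_lit 348))) (XT.nd (nat_lit 78) (nat_lit 0) (nat_lit 76) (XT.lf (nat_lit 0) (nat_lit 146056405) (nat_lit 1900) (nat_lit 83057258) (nat_lit 1900) (nat_lit 22378923059) (nat_lit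 471) (nat_lit 3) (nat_lit 496) (nat_lit 3) (nat_lit 496) (nat_lit 5) (nat_lit 607) (nat_lit 606) (nat_lit 347)) (XT.nd (nat_lit 78) (nat_lit 0) (nat_lit 0) (XT.lf (nat_lit 0) (nat_lit 423318418) (nat_lit 1824) (nat_lit 11513749996) (nat_lit 1900) (nat_lit 10893763461) (nat_lit 472) (nat_lit 5) (nat_lit 496) (nat_lit 5) (nat_lit 497) (nat_lit 5) (nat_lit 608) (nat_lit 606) (nat_lit 346)) (XT.lf (nat_lit 0) (nat_lit 704800468) (nat_lit 1824) (nat_lit 115081007) (nat_lit 1900) (nat_lit 22238228165) (nat_lit 472) (nat_lit 5) (nat_lit 496) (nat_lit 5) (nat_lit 497) (nat_lit 5) (nat_lit 609) (nat_lit 606) (nat_lit 345))))))) (XT.nd (nat_lit 780) (nat_lit 1216) (nat_lit 0) (XT.nd (nat_lit 390) (nat_lit 0) (nat_lit 152) (XT.nd (nat_lit 156) (nat_lit 0) (nat_lit 76) (XT.nd (nat_lit 78) (nat_lit 0) (nat_lit 0) (XT.lf (nat_lit 0) (nat_lit 1133109416) (nat_lit 1824) (nat_lit 11694579278) (nat_lit 1900) (nat_lit 10459420526) (nat_lit 473) (nat_lit 5) (nat_lit 497) (nat_lit 5) (nat_lit 498) (nat_lit 5) (nat_lit 610)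 (nat_lit 606) (nat_lit 344)) (XT.lf (nat_lit 76) (nat_lit 7984092) (nat_lit 0) (nat_lit 1564986011) (nat_lit 1900) (nat_lit 21947659174) (nat_lit 474) (nat_lit 5) (nat_lit 473) (nat_lit 5) (nat_lit 498) (nat_lit 5) (nat_lit 611) (nat_lit 606) (nat_lit 343))) (XT.nd (nat_lit 78) (nat_lit 0) (nat_lit 0) (XT.lf (nat_lit 0) (nat_lit 2161838716) (nat_lit 1824) (nat_lit 11721001364) (nat_lit 1900) (nat_lit 9873175636) (nat_lit 474) (nat_lit 5) (nat_lit 498) (nat_lit 5) (nat_lit 499) (nat_lit 5) (nat_lit 612) (nat_lit 606) (nat_lit 342)) (XT.nd (nat_lit 78) (nat_lit 0) (nat_lit 76) (XT.lf (nat_lit 76) (nat_lit 298132252) (nat_lit 0) (nat_lit 2473502959) (nat_lit 1900) (nat_lit 21224291852) (nat_lit 475) (nat_lit 5) (nat_lit 474) (nat_lit 5) (nat_lit 499) (nat_lit 5) (nat_lit 613) (nat_lit 606) (nat_lit 341)) (XT.lf (nat_lit 0) (nat_lit 3529209719) (nat_lit 1824) (nat_lit 11584500236) (nat_lit 1900) (nat_lit 9124215229) (nat_lit 475) (nat_lit 5) (nat_lit 499) (nat_lit 5) (nat_lit 500) (nat_lit 5) (nat_lit 614)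 (nat_lit 606) (nat_lit 340))))) (XT.nd (nat_lit 156) (nat_lit 0) (nat_lit 76) (XT.nd (nat_lit 78) (nat_lit 0) (nat_lit 76) (XT.lf (nat_lit 76) (nat_lit 762774827) (nat_lit 0) (nat_lit 3557462969) (nat_lit 1900) (nat_lit 20164159613) (nat_lit 476) (nat_lit 5) (nat_lit 475) (nat_lit 5) (nat_lit 500) (nat_lit 5) (nat_lit 615) (nat_lit 606) (nat_lit 339)) (XT.lf (nat_lit 0) (nat_lit 5255796395) (nat_lit 1824) (nat_lit 11276129711) (nat_lit 1900) (nat_lit 8201298953) (nat_lit 476) (nat_lit 5) (nat_lit 500) (nat_lit 5) (nat_lit 501) (nat_lit 5) (nat_lit 616) (nat_lit 606) (nat_lit 338))) (XT.nd (nat_lit 78) (nat_lit 0) (nat_lit 76) (XT.lf (nat_lit 76) (nat_lit 1411298697) (nat_lit 0) (nat_lit 4828571300) (nat_lit 1900) (nat_lit 18746563364) (nat_lit 477) (nat_lit 5) (nat_lit 476) (nat_lit 5) (nat_lit 501) (nat_lit 5) (nat_lit 617) (nat_lit 606) (nat_lit 337)) (XT.nd (nat_lit 78) (nat_lit 0) (nat_lit 0) (XT.lf (nat_lit 0) (nat_lit 7363082777) (nat_lit 1824) (nat_lit 10786497998) (nat_lit 1900) (nat_lit 7092736071)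 (nat_lit 477) (nat_lit 5) (nat_lit 501) (nat_lit 5) (nat_lit 502) (nat_lit 5) (nat_lit 618) (nat_lit 606) (nat_lit 336)) (XT.lf (nat_lit 76) (nat_lit 2253552963) (nat_lit 0) (nat_lit 6299004379) (nat_lit 1900) (nat_lit 16949884879) (nat_lit 478) (nat_lit 5) (nat_lit 477) (nat_lit 5) (nat_lit 502) (nat_lit 5) (nat_lit 619) (nat_lit 606) (nat_lit 335)))))) (XT.nd (nat_lit 390) (nat_lit 1596) (nat_lit 0) (XT.nd (nat_lit 156) (nat_lit 0) (nat_lit 76) (XT.nd (nat_lit 78) (nat_lit 0) (nat_lit 0) (XT.lf (nat_lit 0) (nat_lit 9873503951) (nat_lit 1824) (nat_lit 10105751538) (nat_lit 1900) (nat_lit 5786361130) (nat_lit 478) (nat_lit 5) (nat_lit 502) (nat_lit 5) (nat_lit 503) (nat_lit 5) (nat_lit 620) (nat_lit 606) (nat_lit 334)) (XT.lf (nat_lit 76) (nat_lit 3299865759) (nat_lit 0) (nat_lit 7981434882) (nat_lit 1900) (nat_lit 14751545404) (nat_lit 479) (nat_lit 5) (nat_lit 478) (nat_lit 5) (nat_lit 503) (nat_lit 5) (nat_lit 621) (nat_lit 606) (nat_lit 333))) (XT.nd (nat_lit 78) (nat_lit 0) (nat_lit 0) (XT.lf (nat_lit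 0) (nat_lit 12810488585) (nat_lit 1824) (nat_lit 9223558087) (nat_lit 1900) (nat_lit 4269508839) (nat_lit 479) (nat_lit 5) (nat_lit 503) (nat_lit 5) (nat_lit 504) (nat_lit 5) (nat_lit 622) (nat_lit 606) (nat_lit 332)) (XT.nd (nat_lit 78) (nat_lit 0) (nat_lit 76) (XT.lf (nat_lit 76) (nat_lit 4561061824) (nat_lit 0) (nat_lit 9889057625) (nat_lit 1900) (nat_lit 12127962691) (nat_lit 480) (nat_lit 5) (nat_lit 479) (nat_lit 5) (nat_lit 504) (nat_lit 5) (nat_lit 623) (nat_lit 606) (nat_lit 331)) (XT.lf (nat_lit 0) (nat_lit 16198503089) (nat_lit 1824) (nat_lit 8129089050) (nat_lit 1900) (nat_lit 2528988113) (nat_lit 480) (nat_lit 5) (nat_lit 504) (nat_lit 5) (nat_lit 505) (nat_lit 5) (nat_lit 624) (nat_lit 606) (nat_lit 330))))) (XT.nd (nat_lit 234) (nat_lit 1748) (nat_lit 0) (XT.nd (nat_lit 78) (nat_lit 0) (nat_lit 76) (XT.lf (nat_lit 76) (nat_lit 6048480868) (nat_lit 0) (nat_lit 12035616354) (nat_lit 1900) (nat_lit 9054506398) (nat_lit 481) (nat_lit 5) (nat_lit 480) (nat_lit 5) (nat_lit 505) (nat_lit 5) (nat_lit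 625) (nat_lit 606) (nat_lit 329)) (XT.nd (nat_lit 78) (nat_lit 0) (nat_lit 0) (XT.lf (nat_lit 0) (nat_lit 20063097455) (nat_lit 1824) (nat_lit 6811001030) (nat_lit 1900) (nat_lit 551055234) (nat_lit 481) (nat_lit 5) (nat_lit 505) (nat_lit 5) (nat_lit 506) (nat_lit 5) (nat_lit 626) (nat_lit 606) (nat_lit 328)) (XT.lf (nat_lit 76) (nat_lit 7773996736) (nat_lit 0) (nat_lit 14435431437) (nat_lit 1900) (nat_lit 5505451781) (nat_lit 482) (nat_lit 5) (nat_lit 481) (nat_lit 5) (nat_lit 506) (nat_lit 5) (nat_lit 627) (nat_lit 606) (nat_lit 327)))) (XT.nd (nat_lit 78) (nat_lit 1824) (nat_lit 0) (XT.lf (nat_lit 76) (nat_lit 22741074563) (nat_lit 0) (nat_lit 1700921827) (nat_lit 1900) (nat_lit 3567538249) (nat_lit 482) (nat_lit 5) (nat_lit 481) (nat_lit 5) (nat_lit 506) (nat_lit 5) (nat_lit 628) (nat_lit 606) (nat_lit 326)) (XT.nd (nat_lit 78) (nat_lit 1900) (nat_lit 0) (XT.lf (nat_lit 76) (nat_lit 9750037409) (nat_lit 0) (nat_lit 17103428555) (nat_lit 1900) (nat_lit 1453931592) (nat_lit 483) (nat_lit 5) (nat_lit 482)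 (nat_lit 5) (nat_lit 507) (nat_lit 5) (nat_lit 629) (nat_lit 606) (nat_lit 325)) (XT.lf (nat_lit 0) (nat_lit 737266897) (nat_lit 1900) (nat_lit 3488221275) (nat_lit 1976) (nat_lit 24384748025) (nat_lit 457) (nat_lit 5) (nat_lit 482) (nat_lit 5) (nat_lit 483) (nat_lit 5) (nat_lit 630) (nat_lit 606) (nat_lit 324))))))))
noncomputable def xc228 : XT := (XT.nd (nat_lit 1560) (nat_lit 4104) (nat_lit 0) (XT.nd (nat_lit 780) (nat_lit 4028) (nat_lit 0) (XT.nd (nat_lit 390) (nat_lit 2584) (nat_lit 0) (XT.nd (nat_lit 156) (nat_lit 1976) (nat_lit 0) (XT.nd (nat_lit 78) (nat_lit 0) (nat_lit 0) (XT.lf (nat_lit 0) (nat_lit 3087088094) (nat_lit 1900) (nat_lit 16947364330) (nat_lit 76) (nat_lit 8881801771) (nat_lit 458) (nat_lit 5) (nat_lit 483) (nat_lit 5) (nat_lit 459) (nat_lit 5) (nat_lit 631) (nat_lit 606) (nat_lit 323)) (XT.lf (nat_lit 0) (nat_lit 5533205086) (nat_lit 1900) (nat_lit 1475606365) (nat_lit 76) (nat_lit 22218595242) (nat_lit 458) (nat_lit 5) (nat_lit 483) (nat_lit 5) (nat_lit 459) (nat_lit 5) (nat_lit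 632) (nat_lit 606) (nat_lit 322))) (XT.nd (nat_lit 78) (nat_lit 912) (nat_lit 0) (XT.lf (nat_lit 0) (nat_lit 8161526279) (nat_lit 1140) (nat_lit 15090583120) (nat_lit 76) (nat_lit 6290007332) (nat_lit 444) (nat_lit 5) (nat_lit 459) (nat_lit 5) (nat_lit 445) (nat_lit 5) (nat_lit 633) (nat_lit 606) (nat_lit 321)) (XT.nd (nat_lit 78) (nat_lit 0) (nat_lit 0) (XT.lf (nat_lit 0) (nat_lit 816559037) (nat_lit 912) (nat_lit 10085369756) (nat_lit 988) (nat_lit 18960002000) (nat_lit 432) (nat_lit 5) (nat_lit 444) (nat_lit 5) (nat_lit 445) (nat_lit 5) (nat_lit 634) (nat_lit 606) (nat_lit 320)) (XT.lf (nat_lit 0) (nat_lit 13818652517) (nat_lit 988) (nat_lit 12964097296) (nat_lit 76) (nat_lit 3402961182) (nat_lit 432) (nat_lit 5) (nat_lit 445) (nat_lit 5) (nat_lit 433) (nat_lit 5) (nat_lit 635) (nat_lit 606) (nat_lit 319))))) (XT.nd (nat_lit 156) (nat_lit 1672) (nat_lit 0) (XT.nd (nat_lit 78) (nat_lit 0) (nat_lit 0) (XT.lf (nat_lit 0) (nat_lit 3414841858) (nat_lit 912) (nat_lit 13465733475) (nat_lit 988) (nat_lit 13633654294)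 (nat_lit 420) (nat_lit 5) (nat_lit 432) (nat_lit 5) (nat_lit 433) (nat_lit 5) (nat_lit 636) (nat_lit 606) (nat_lit 318)) (XT.lf (nat_lit 0) (nat_lit 20090004333) (nat_lit 988) (nat_lit 10553812951) (nat_lit 76) (nat_lit 203776110) (nat_lit 420) (nat_lit 5) (nat_lit 433) (nat_lit 5) (nat_lit 421) (nat_lit 5) (nat_lit 637) (nat_lit 606) (nat_lit 317))) (XT.nd (nat_lit 78) (nat_lit 836) (nat_lit 0) (XT.lf (nat_lit 0) (nat_lit 6314363307) (nat_lit 836) (nat_lit 17177405223) (nat_lit 912) (nat_lit 7693293088) (nat_lit 409) (nat_lit 5) (nat_lit 420) (nat_lit 5) (nat_lit 421) (nat_lit 5) (nat_lit 638) (nat_lit 606) (nat_lit 316)) (XT.nd (nat_lit 78) (nat_lit 836) (nat_lit 0) (XT.lf (nat_lit 0) (nat_lit 23661028588) (nat_lit 836) (nat_lit 3369360797) (nat_lit 912) (nat_lit 4497513504) (nat_lit 409) (nat_lit 5) (nat_lit 420) (nat_lit 5) (nat_lit 421) (nat_lit 5) (nat_lit 639) (nat_lit 606) (nat_lit 315)) (XT.lf (nat_lit 0) (nat_lit 9530516710) (nat_lit 836) (nat_lit 21238751639) (nat_lit 912) (nat_lit 1105743034)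 (nat_lit 398) (nat_lit 5) (nat_lit 409) (nat_lit 5) (nat_lit 410) (nat_lit 5) (nat_lit 640) (nat_lit 606) (nat_lit 314)))))) (XT.nd (nat_lit 390) (nat_lit 1520) (nat_lit 0) (XT.nd (nat_lit 156) (nat_lit 1596) (nat_lit 0) (XT.nd (nat_lit 78) (nat_lit 836) (nat_lit 0) (XT.lf (nat_lit 0) (nat_lit 2396498048) (nat_lit 912) (nat_lit 4885408520) (nat_lit 76) (nat_lit 24945379796) (nat_lit 397) (nat_lit 5) (nat_lit 409) (nat_lit 5) (nat_lit 398) (nat_lit 5) (nat_lit 641) (nat_lit 606) (nat_lit 313)) (XT.lf (nat_lit 0) (nat_lit 6082802149) (nat_lit 912) (nat_lit 19545320338) (nat_lit 76) (nat_lit 6955761800) (nat_lit 386) (nat_lit 5) (nat_lit 398) (nat_lit 5) (nat_lit 387) (nat_lit 5) (nat_lit 642) (nat_lit 606) (nat_lit 312))) (XT.nd (nat_lit 78) (nat_lit 1596) (nat_lit 0) (XT.lf (nat_lit 0) (nat_lit 9922173276) (nat_lit 912) (nat_lit 1610097475) (nat_lit 76) (nat_lit 21413756699) (nat_lit 386) (nat_lit 5) (nat_lit 398) (nat_lit 5) (nat_lit 387) (nat_lit 5) (nat_lit 643) (nat_lit 606) (nat_lit 311)) (XT.nd (nat_lit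 78) (nat_lit 760) (nat_lit 0) (XT.lf (nat_lit 0) (nat_lit 13965435295) (nat_lit 912) (nat_lit 16428831174) (nat_lit 76) (nat_lit 2918605037) (nat_lit 375) (nat_lit 5) (nat_lit 387) (nat_lit 5) (nat_lit 376) (nat_lit 5) (nat_lit 644) (nat_lit 606) (nat_lit 310)) (XT.lf (nat_lit 0) (nat_lit 2031324925) (nat_lit 760) (nat_lit 16156851296) (nat_lit 836) (nat_lit 15496904047) (nat_lit 365) (nat_lit 5) (nat_lit 375) (nat_lit 5) (nat_lit 376) (nat_lit 5) (nat_lit 645) (nat_lit 606) (nat_lit 309))))) (XT.nd (nat_lit 156) (nat_lit 760) (nat_lit 0) (XT.nd (nat_lit 78) (nat_lit 760) (nat_lit 0) (XT.lf (nat_lit 0) (nat_lit 21081472021) (nat_lit 760) (nat_lit 1522345562) (nat_lit 836) (nat_lit 11458746804) (nat_lit 365) (nat_lit 5) (nat_lit 375) (nat_lit 5) (nat_lit 376) (nat_lit 5) (nat_lit 646) (nat_lit 606) (nat_lit 308)) (XT.lf (nat_lit 0) (nat_lit 6055503179) (nat_lit 760) (nat_lit 21176852242) (nat_lit 836) (nat_lit 7212751190) (nat_lit 355) (nat_lit 5) (nat_lit 365) (nat_lit 5) (nat_lit 366) (nat_lit 5) (nat_lit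 647) (nat_lit 606) (nat_lit 307))) (XT.nd (nat_lit 78) (nat_lit 760) (nat_lit 0) (XT.lf (nat_lit 0) (nat_lit 25636683039) (nat_lit 760) (nat_lit 6412162822) (nat_lit 836) (nat_lit 2784546271) (nat_lit 355) (nat_lit 5) (nat_lit 365) (nat_lit 5) (nat_lit 366) (nat_lit 5) (nat_lit 648) (nat_lit 606) (nat_lit 306)) (XT.nd (nat_lit 78) (nat_lit 0) (nat_lit 0) (XT.lf (nat_lit 0) (nat_lit 1832659475) (nat_lit 760) (nat_lit 24779873922) (nat_lit 76) (nat_lit 8614222017) (nat_lit 345) (nat_lit 5) (nat_lit 355) (nat_lit 5) (nat_lit 346) (nat_lit 5) (nat_lit 649) (nat_lit 606) (nat_lit 305)) (XT.lf (nat_lit 0) (nat_lit 6607846990) (nat_lit 760) (nat_lit 5081958438) (nat_lit 76) (nat_lit 23935754049) (nat_lit 345) (nat_lit 5) (nat_lit 355) (nat_lit 5) (nat_lit 346) (nat_lit 5) (nat_lit 650) (nat_lit 606) (nat_lit 304))))))) (XT.nd (nat_lit 77766) (nat_lit 0) (nat_lit 13680) (XT.nd (nat_lit 390) (nat_lit 1976) (nat_lit 0) (XT.nd (nat_lit 156) (nat_lit 1368) (nat_lit 0) (XT.nd (nat_lit 78) (nat_lit 0) (nat_lit 0) (XT.lf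 (nat_lit 0) (nat_lit 11599189191) (nat_lit 836) (nat_lit 20846477637) (nat_lit 76) (nat_lit 3584259860) (nat_lit 335) (nat_lit 5) (nat_lit 346) (nat_lit 5) (nat_lit 336) (nat_lit 5) (nat_lit 651) (nat_lit 606) (nat_lit 303)) (XT.lf (nat_lit 0) (nat_lit 16800455058) (nat_lit 836) (nat_lit 598171557) (nat_lit 76) (nat_lit 19041552773) (nat_lit 335) (nat_lit 5) (nat_lit 346) (nat_lit 5) (nat_lit 336) (nat_lit 5) (nat_lit 652) (nat_lit 606) (nat_lit 302))) (XT.nd (nat_lit 78) (nat_lit 684) (nat_lit 0) (XT.lf (nat_lit 0) (nat_lit 20319752192) (nat_lit 684) (nat_lit 1916308096) (nat_lit 760) (nat_lit 14619970656) (nat_lit 326) (nat_lit 5) (nat_lit 335) (nat_lit 5) (nat_lit 336) (nat_lit 5) (nat_lit 653) (nat_lit 606) (nat_lit 301)) (XT.nd (nat_lit 78) (nat_lit 0) (nat_lit 0) (XT.lf (nat_lit 0) (nat_lit 4349082024) (nat_lit 684) (nat_lit 23552066279) (nat_lit 760) (nat_lit 9376635893) (nat_lit 317) (nat_lit 5) (nat_lit 326) (nat_lit 5) (nat_lit 327) (nat_lit 5) (nat_lit 654) (nat_lit 606) (nat_lit 300)) (XT.lf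 (nat_lit 0) (nat_lit 25861592498) (nat_lit 684) (nat_lit 7939942256) (nat_lit 760) (nat_lit 3903997905) (nat_lit 317) (nat_lit 5) (nat_lit 326) (nat_lit 5) (nat_lit 327) (nat_lit 5) (nat_lit 655) (nat_lit 606) (nat_lit 299))))) (XT.nd (nat_lit 156) (nat_lit 1292) (nat_lit 0) (XT.nd (nat_lit 78) (nat_lit 0) (nat_lit 0) (XT.lf (nat_lit 0) (nat_lit 1770343606) (nat_lit 684) (nat_lit 28414684436) (nat_lit 76) (nat_lit 7954305034) (nat_lit 308) (nat_lit 5) (nat_lit 317) (nat_lit 5) (nat_lit 309) (nat_lit 5) (nat_lit 656) (nat_lit 606) (nat_lit 298)) (XT.lf (nat_lit 0) (nat_lit 7636993805) (nat_lit 684) (nat_lit 6775879078) (nat_lit 76) (nat_lit 24165798654) (nat_lit 308) (nat_lit 5) (nat_lit 317) (nat_lit 5) (nat_lit 309) (nat_lit 5) (nat_lit 657) (nat_lit 606) (nat_lit 297))) (XT.nd (nat_lit 78) (nat_lit 608) (nat_lit 0) (XT.lf (nat_lit 0) (nat_lit 13731622361) (nat_lit 760) (nat_lit 23539219120) (nat_lit 76) (nat_lit 1753742453) (nat_lit 299) (nat_lit 5) (nat_lit 309) (nat_lit 5) (nat_lit 300) (nat_lit 5)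 (nat_lit 658) (nat_lit 606) (nat_lit 296)) (XT.nd (nat_lit 78) (nat_lit 608) (nat_lit 0) (XT.lf (nat_lit 0) (nat_lit 20087869582) (nat_lit 760) (nat_lit 1292406051) (nat_lit 76) (nat_lit 18096344494) (nat_lit 299) (nat_lit 5) (nat_lit 309) (nat_lit 5) (nat_lit 300) (nat_lit 5) (nat_lit 659) (nat_lit 606) (nat_lit 295)) (XT.lf (nat_lit 0) (nat_lit 21681908684) (nat_lit 608) (nat_lit 5028641461) (nat_lit 684) (nat_lit 13224360800) (nat_lit 291) (nat_lit 5) (nat_lit 299) (nat_lit 5) (nat_lit 300) (nat_lit 5) (nat_lit 660) (nat_lit 606) (nat_lit 294)))))) (XT.nd (nat_lit 390) (nat_lit 0) (nat_lit 152) (XT.nd (nat_lit 156) (nat_lit 0) (nat_lit 76) (XT.nd (nat_lit 78) (nat_lit 0) (nat_lit 0) (XT.lf (nat_lit 0) (nat_lit 138399856) (nat_lit 1900) (nat_lit 5638121293) (nat_lit 1900) (nat_lit 5638121293) (nat_lit 471) (nat_lit 3) (nat_lit 496) (nat_lit 3) (nat_lit 496) (nat_lit 5) (nat_lit 607) (nat_lit 607) (nat_lit 346)) (XT.lf (nat_lit 76) (nat_lit 47377280) (nat_lit 0) (nat_lit 359685319) (nat_lit 1900) (nat_lit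 22647957523) (nat_lit 472) (nat_lit 5) (nat_lit 471) (nat_lit 3) (nat_lit 496) (nat_lit 5) (nat_lit 608) (nat_lit 607) (nat_lit 345))) (XT.nd (nat_lit 78) (nat_lit 0) (nat_lit 0) (XT.lf (nat_lit 0) (nat_lit 684557441) (nat_lit 1824) (nat_lit 11607530541) (nat_lit 1900) (nat_lit 10990289749) (nat_lit 472) (nat_lit 5) (nat_lit 496) (nat_lit 5) (nat_lit 497) (nat_lit 5) (nat_lit 609) (nat_lit 607) (nat_lit 344)) (XT.nd (nat_lit 78) (nat_lit 0) (nat_lit 76) (XT.lf (nat_lit 76) (nat_lit 16653884) (nat_lit 0) (nat_lit 950167051) (nat_lit 1900) (nat_lit 22547477384) (nat_lit 473) (nat_lit 5) (nat_lit 472) (nat_lit 5) (nat_lit 497) (nat_lit 5) (nat_lit 610) (nat_lit 607) (nat_lit 343)) (XT.lf (nat_lit 0) (nat_lit 1398871986) (nat_lit 1824) (nat_lit 11789922091) (nat_lit 1900) (nat_lit 10559180588) (nat_lit 473) (nat_lit 5) (nat_lit 497) (nat_lit 5) (nat_lit 498) (nat_lit 5) (nat_lit 611) (nat_lit 607) (nat_lit 342))))) (XT.nd (nat_lit 156) (nat_lit 0) (nat_lit 76) (XT.nd (nat_lit 78) (nat_lit 0) (nat_lit 76) (XT.lf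 (nat_lit 76) (nat_lit 145781041) (nat_lit 0) (nat_lit 1697875804) (nat_lit 1900) (nat_lit 22142586028) (nat_lit 474) (nat_lit 5) (nat_lit 473) (nat_lit 5) (nat_lit 498) (nat_lit 5) (nat_lit 612) (nat_lit 607) (nat_lit 341)) (XT.lf (nat_lit 0) (nat_lit 2438965441) (nat_lit 1824) (nat_lit 11815131346) (nat_lit 1900) (nat_lit 9972347285) (nat_lit 474) (nat_lit 5) (nat_lit 498) (nat_lit 5) (nat_lit 499) (nat_lit 5) (nat_lit 613) (nat_lit 607) (nat_lit 340))) (XT.nd (nat_lit 78) (nat_lit 0) (nat_lit 76) (XT.lf (nat_lit 76) (nat_lit 443461982) (nat_lit 0) (nat_lit 2613814670) (nat_lit 1900) (nat_lit 21413950896) (nat_lit 475) (nat_lit 5) (nat_lit 474) (nat_lit 5) (nat_lit 499) (nat_lit 5) (nat_lit 614) (nat_lit 607) (nat_lit 339)) (XT.nd (nat_lit 78) (nat_lit 0) (nat_lit 0) (XT.lf (nat_lit 0) (nat_lit 3824910514) (nat_lit 1824) (nat_lit 11674450098) (nat_lit 1900) (nat_lit 9218807135) (nat_lit 475) (nat_lit 5) (nat_lit 499) (nat_lit 5) (nat_lit 500) (nat_lit 5) (nat_lit 615) (nat_lit 607) (nat_lit 338)) (XT.lf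 (nat_lit 76) (nat_lit 918837966) (nat_lit 0) (nat_lit 3709421352) (nat_lit 1900) (nat_lit 20341380360) (nat_lit 476) (nat_lit 5) (nat_lit 475) (nat_lit 5) (nat_lit 500) (nat_lit 5) (nat_lit 616) (nat_lit 607) (nat_lit 337))))))))
noncomputable def xc229 : XT := (XT.nd (nat_lit 1560) (nat_lit 9424) (nat_lit 0) (XT.nd (nat_lit 780) (nat_lit 3344) (nat_lit 0) (XT.nd (nat_lit 390) (nat_lit 0) (nat_lit 152) (XT.nd (nat_lit 156) (nat_lit 0) (nat_lit 76) (XT.nd (nat_lit 78) (nat_lit 0) (nat_lit 0) (XT.lf (nat_lit 0) (nat_lit 5577669283) (nat_lit 1824) (nat_lit 11358732710) (nat_lit 1900) (nat_lit 8287139346) (nat_lit 476) (nat_lit 5) (nat_lit 500) (nat_lit 5) (nat_lit 501) (nat_lit 5) (nat_lit 617) (nat_lit 607) (nat_lit 336)) (XT.lf (nat_lit 76) (nat_lit 1581504006) (nat_lit 0) (nat_lit 4996592039) (nat_lit 1900) (nat_lit 18903784585) (nat_lit 477) (nat_lit 5) (nat_lit 476) (nat_lit 5) (nat_lit 501) (nat_lit 5) (nat_lit 618) (nat_lit 607) (nat_lit 335))) (XT.nd (nat_lit 78) (nat_lit 0) (nat_lit 0) (XT.lf (nat_lit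 0) (nat_lit 7719133405) (nat_lit 1824) (nat_lit 10858380283) (nat_lit 1900) (nat_lit 7165461143) (nat_lit 477) (nat_lit 5) (nat_lit 501) (nat_lit 5) (nat_lit 502) (nat_lit 5) (nat_lit 619) (nat_lit 607) (nat_lit 334)) (XT.nd (nat_lit 78) (nat_lit 0) (nat_lit 76) (XT.lf (nat_lit 76) (nat_lit 2441525331) (nat_lit 0) (nat_lit 6487706039) (nat_lit 1900) (nat_lit 17079134912) (nat_lit 478) (nat_lit 5) (nat_lit 477) (nat_lit 5) (nat_lit 502) (nat_lit 5) (nat_lit 620) (nat_lit 607) (nat_lit 333)) (XT.lf (nat_lit 0) (nat_lit 10272165845) (nat_lit 1824) (nat_lit 10163324094) (nat_lit 1900) (nat_lit 5841403091) (nat_lit 478) (nat_lit 5) (nat_lit 502) (nat_lit 5) (nat_lit 503) (nat_lit 5) (nat_lit 621) (nat_lit 607) (nat_lit 332))))) (XT.nd (nat_lit 156) (nat_lit 0) (nat_lit 76) (XT.nd (nat_lit 78) (nat_lit 0) (nat_lit 76) (XT.lf (nat_lit 76) (nat_lit 3509454611) (nat_lit 0) (nat_lit 8195651211) (nat_lit 1900) (nat_lit 14844421712) (nat_lit 479) (nat_lit 5) (nat_lit 478) (nat_lit 5) (nat_lit 503) (nat_lit 5) (nat_lit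 622) (nat_lit 607) (nat_lit 331)) (XT.lf (nat_lit 0) (nat_lit 13260644190) (nat_lit 1824) (nat_lit 9263008280) (nat_lit 1900) (nat_lit 4302083619) (nat_lit 479) (nat_lit 5) (nat_lit 503) (nat_lit 5) (nat_lit 504) (nat_lit 5) (nat_lit 623) (nat_lit 607) (nat_lit 330))) (XT.nd (nat_lit 78) (nat_lit 0) (nat_lit 76) (XT.lf (nat_lit 76) (nat_lit 4796349943) (nat_lit 0) (nat_lit 10133850246) (nat_lit 1900) (nat_lit 12175610639) (nat_lit 480) (nat_lit 5) (nat_lit 479) (nat_lit 5) (nat_lit 504) (nat_lit 5) (nat_lit 624) (nat_lit 607) (nat_lit 329)) (XT.nd (nat_lit 78) (nat_lit 0) (nat_lit 0) (XT.lf (nat_lit 0) (nat_lit 16709505622) (nat_lit 1824) (nat_lit 8146371746) (nat_lit 1900) (nat_lit 2534082675) (nat_lit 480) (nat_lit 5) (nat_lit 504) (nat_lit 5) (nat_lit 505) (nat_lit 5) (nat_lit 625) (nat_lit 607) (nat_lit 328)) (XT.lf (nat_lit 76) (nat_lit 6313793657) (nat_lit 0) (nat_lit 12316287850) (nat_lit 1900) (nat_lit 9047597193) (nat_lit 481) (nat_lit 5) (nat_lit 480) (nat_lit 5) (nat_lit 505) (nat_lit 5) (nat_lit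 626) (nat_lit 607) (nat_lit 327)))))) (XT.nd (nat_lit 390) (nat_lit 1900) (nat_lit 0) (XT.nd (nat_lit 156) (nat_lit 1824) (nat_lit 0) (XT.nd (nat_lit 78) (nat_lit 0) (nat_lit 0) (XT.lf (nat_lit 0) (nat_lit 20644793619) (nat_lit 1824) (nat_lit 6801829281) (nat_lit 1900) (nat_lit 523414478) (nat_lit 481) (nat_lit 5) (nat_lit 505) (nat_lit 5) (nat_lit 506) (nat_lit 5) (nat_lit 627) (nat_lit 607) (nat_lit 326)) (XT.lf (nat_lit 76) (nat_lit 8073911916) (nat_lit 0) (nat_lit 14757538880) (nat_lit 1900) (nat_lit 5434159556) (nat_lit 482) (nat_lit 5) (nat_lit 481) (nat_lit 5) (nat_lit 506) (nat_lit 5) (nat_lit 628) (nat_lit 607) (nat_lit 325))) (XT.nd (nat_lit 78) (nat_lit 1824) (nat_lit 0) (XT.lf (nat_lit 76) (nat_lit 23337499236) (nat_lit 0) (nat_lit 1767684198) (nat_lit 1900) (nat_lit 3461044641) (nat_lit 482) (nat_lit 5) (nat_lit 481) (nat_lit 5) (nat_lit 506) (nat_lit 5) (nat_lit 629) (nat_lit 607) (nat_lit 324)) (XT.nd (nat_lit 78) (nat_lit 1900) (nat_lit 0) (XT.lf (nat_lit 76) (nat_lit 10089395183) (nat_lit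 0) (nat_lit 17472797479) (nat_lit 1900) (nat_lit 1307909585) (nat_lit 483) (nat_lit 5) (nat_lit 482) (nat_lit 5) (nat_lit 507) (nat_lit 5) (nat_lit 630) (nat_lit 607) (nat_lit 323)) (XT.lf (nat_lit 0) (nat_lit 921428081) (nat_lit 1900) (nat_lit 3414198036) (nat_lit 1976) (nat_lit 24843416767) (nat_lit 457) (nat_lit 5) (nat_lit 482) (nat_lit 5) (nat_lit 483) (nat_lit 5) (nat_lit 631) (nat_lit 607) (nat_lit 322))))) (XT.nd (nat_lit 156) (nat_lit 1976) (nat_lit 0) (XT.nd (nat_lit 78) (nat_lit 0) (nat_lit 0) (XT.lf (nat_lit 0) (nat_lit 3315694255) (nat_lit 1900) (nat_lit 17139962976) (nat_lit 76) (nat_lit 9035575230) (nat_lit 458) (nat_lit 5) (nat_lit 483) (nat_lit 5) (nat_lit 459) (nat_lit 5) (nat_lit 632) (nat_lit 607) (nat_lit 321)) (XT.lf (nat_lit 0) (nat_lit 5807461736) (nat_lit 1900) (nat_lit 1361639433) (nat_lit 76) (nat_lit 22639572464) (nat_lit 458) (nat_lit 5) (nat_lit 483) (nat_lit 5) (nat_lit 459) (nat_lit 5) (nat_lit 633) (nat_lit 607) (nat_lit 320))) (XT.nd (nat_lit 78) (nat_lit 912) (nat_lit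 0) (XT.lf (nat_lit 0) (nat_lit 8485945188) (nat_lit 1140) (nat_lit 15246502399) (nat_lit 76) (nat_lit 6397278552) (nat_lit 444) (nat_lit 5) (nat_lit 459) (nat_lit 5) (nat_lit 445) (nat_lit 5) (nat_lit 634) (nat_lit 607) (nat_lit 319)) (XT.nd (nat_lit 78) (nat_lit 0) (nat_lit 0) (XT.lf (nat_lit 0) (nat_lit 977822783) (nat_lit 912) (nat_lit 10301113411) (nat_lit 988) (nat_lit 19177044859) (nat_lit 432) (nat_lit 5) (nat_lit 444) (nat_lit 5) (nat_lit 445) (nat_lit 5) (nat_lit 635) (nat_lit 607) (nat_lit 318)) (XT.lf (nat_lit 0) (nat_lit 14250788010) (nat_lit 988) (nat_lit 13078073307) (nat_lit 76) (nat_lit 3457439845) (nat_lit 432) (nat_lit 5) (nat_lit 445) (nat_lit 5) (nat_lit 433) (nat_lit 5) (nat_lit 636) (nat_lit 607) (nat_lit 317))))))) (XT.nd (nat_lit 780) (nat_lit 4332) (nat_lit 0) (XT.nd (nat_lit 390) (nat_lit 2508) (nat_lit 0) (XT.nd (nat_lit 156) (nat_lit 1672) (nat_lit 0) (XT.nd (nat_lit 78) (nat_lit 0) (nat_lit 0) (XT.lf (nat_lit 0) (nat_lit 3627488670) (nat_lit 912) (nat_lit 13744343663) (nat_lit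 988) (nat_lit 13749600346) (nat_lit 420) (nat_lit 5) (nat_lit 432) (nat_lit 5) (nat_lit 433) (nat_lit 5) (nat_lit 637) (nat_lit 607) (nat_lit 316)) (XT.lf (nat_lit 0) (nat_lit 20642378087) (nat_lit 988) (nat_lit 10620289339) (nat_lit 76) (nat_lit 198857900) (nat_lit 420) (nat_lit 5) (nat_lit 433) (nat_lit 5) (nat_lit 421) (nat_lit 5) (nat_lit 638) (nat_lit 607) (nat_lit 315))) (XT.nd (nat_lit 78) (nat_lit 836) (nat_lit 0) (XT.lf (nat_lit 0) (nat_lit 6584299129) (nat_lit 836) (nat_lit 17525858676) (nat_lit 912) (nat_lit 7695625672) (nat_lit 409) (nat_lit 5) (nat_lit 420) (nat_lit 5) (nat_lit 421) (nat_lit 5) (nat_lit 639) (nat_lit 607) (nat_lit 314)) (XT.nd (nat_lit 78) (nat_lit 836) (nat_lit 0) (XT.lf (nat_lit 0) (nat_lit 24275081077) (nat_lit 836) (nat_lit 3441557179) (nat_lit 912) (nat_lit 4438901737) (nat_lit 409) (nat_lit 5) (nat_lit 420) (nat_lit 5) (nat_lit 421) (nat_lit 5) (nat_lit 640) (nat_lit 607) (nat_lit 313)) (XT.lf (nat_lit 0) (nat_lit 9863965192) (nat_lit 836) (nat_lit 21664370687) (nat_lit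 912) (nat_lit 981294115) (nat_lit 398) (nat_lit 5) (nat_lit 409) (nat_lit 5) (nat_lit 410) (nat_lit 5) (nat_lit 641) (nat_lit 607) (nat_lit 312))))) (XT.nd (nat_lit 156) (nat_lit 1596) (nat_lit 0) (XT.nd (nat_lit 78) (nat_lit 836) (nat_lit 0) (XT.lf (nat_lit 0) (nat_lit 2586233469) (nat_lit 912) (nat_lit 4841187106) (nat_lit 76) (nat_lit 25441567743) (nat_lit 397) (nat_lit 5) (nat_lit 409) (nat_lit 5) (nat_lit 398) (nat_lit 5) (nat_lit 642) (nat_lit 607) (nat_lit 311)) (XT.lf (nat_lit 0) (nat_lit 6344405444) (nat_lit 912) (nat_lit 19792431439) (nat_lit 76) (nat_lit 7095918631) (nat_lit 386) (nat_lit 5) (nat_lit 398) (nat_lit 5) (nat_lit 387) (nat_lit 5) (nat_lit 643) (nat_lit 607) (nat_lit 310))) (XT.nd (nat_lit 78) (nat_lit 1596) (nat_lit 0) (XT.lf (nat_lit 0) (nat_lit 10257819930) (nat_lit 912) (nat_lit 1501323635) (nat_lit 76) (nat_lit 21843053005) (nat_lit 386) (nat_lit 5) (nat_lit 398) (nat_lit 5) (nat_lit 387) (nat_lit 5) (nat_lit 644) (nat_lit 607) (nat_lit 309)) (XT.nd (nat_lit 78) (nat_lit 760)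 (nat_lit 0) (XT.lf (nat_lit 0) (nat_lit 14380196253) (nat_lit 912) (nat_lit 16614673850) (nat_lit 76) (nat_lit 2981542567) (nat_lit 375) (nat_lit 5) (nat_lit 387) (nat_lit 5) (nat_lit 376) (nat_lit 5) (nat_lit 645) (nat_lit 607) (nat_lit 308)) (XT.lf (nat_lit 0) (nat_lit 2213746332) (nat_lit 760) (nat_lit 16471910366) (nat_lit 836) (nat_lit 15670443756) (nat_lit 365) (nat_lit 5) (nat_lit 375) (nat_lit 5) (nat_lit 376) (nat_lit 5) (nat_lit 646) (nat_lit 607) (nat_lit 307)))))) (XT.nd (nat_lit 390) (nat_lit 2812) (nat_lit 0) (XT.nd (nat_lit 156) (nat_lit 760) (nat_lit 0) (XT.nd (nat_lit 78) (nat_lit 760) (nat_lit 0) (XT.lf (nat_lit 0) (nat_lit 21642116078) (nat_lit 760) (nat_lit 1544872908) (nat_lit 836) (nat_lit 11554197847) (nat_lit 365) (nat_lit 5) (nat_lit 375) (nat_lit 5) (nat_lit 376) (nat_lit 5) (nat_lit 647) (nat_lit 607) (nat_lit 306)) (XT.lf (nat_lit 0) (nat_lit 6317273756) (nat_lit 760) (nat_lit 21589217006) (nat_lit 836) (nat_lit 7224921411) (nat_lit 355) (nat_lit 5) (nat_lit 365) (nat_lit 5)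 (nat_lit 366) (nat_lit 5) (nat_lit 648) (nat_lit 607) (nat_lit 305))) (XT.nd (nat_lit 78) (nat_lit 760) (nat_lit 0) (XT.lf (nat_lit 0) (nat_lit 26287319164) (nat_lit 760) (nat_lit 6529452862) (nat_lit 836) (nat_lit 2710742292) (nat_lit 355) (nat_lit 5) (nat_lit 365) (nat_lit 5) (nat_lit 366) (nat_lit 5) (nat_lit 649) (nat_lit 607) (nat_lit 304)) (XT.nd (nat_lit 78) (nat_lit 0) (nat_lit 0) (XT.lf (nat_lit 0) (nat_lit 1995585009) (nat_lit 760) (nat_lit 25134333422) (nat_lit 76) (nat_lit 8798840233) (nat_lit 345) (nat_lit 5) (nat_lit 355) (nat_lit 5) (nat_lit 346) (nat_lit 5) (nat_lit 650) (nat_lit 607) (nat_lit 303)) (XT.lf (nat_lit 0) (nat_lit 6863800346) (nat_lit 760) (nat_lit 5045227040) (nat_lit 76) (nat_lit 24426561066) (nat_lit 345) (nat_lit 5) (nat_lit 355) (nat_lit 5) (nat_lit 346) (nat_lit 5) (nat_lit 651) (nat_lit 607) (nat_lit 302))))) (XT.nd (nat_lit 234) (nat_lit 1368) (nat_lit 0) (XT.nd (nat_lit 78) (nat_lit 684) (nat_lit 0) (XT.lf (nat_lit 0) (nat_lit 11953533173) (nat_lit 836) (nat_lit 21123594241)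 (nat_lit 76) (nat_lit 3670944440) (nat_lit 335) (nat_lit 5) (nat_lit 346) (nat_lit 5) (nat_lit 336) (nat_lit 5) (nat_lit 652) (nat_lit 607) (nat_lit 301)) (XT.nd (nat_lit 78) (nat_lit 684) (nat_lit 0) (XT.lf (nat_lit 0) (nat_lit 17256425138) (nat_lit 836) (nat_lit 473063470) (nat_lit 76) (nat_lit 19437089106) (nat_lit 335) (nat_lit 5) (nat_lit 346) (nat_lit 5) (nat_lit 336) (nat_lit 5) (nat_lit 653) (nat_lit 607) (nat_lit 300)) (XT.lf (nat_lit 0) (nat_lit 20862316968) (nat_lit 684) (nat_lit 1936957433) (nat_lit 760) (nat_lit 14791501380) (nat_lit 326) (nat_lit 5) (nat_lit 335) (nat_lit 5) (nat_lit 336) (nat_lit 5) (nat_lit 654) (nat_lit 607) (nat_lit 299)))) (XT.nd (nat_lit 78) (nat_lit 684) (nat_lit 0) (XT.lf (nat_lit 0) (nat_lit 4573583681) (nat_lit 684) (nat_lit 24002762496) (nat_lit 760) (nat_lit 9444644398) (nat_lit 317) (nat_lit 5) (nat_lit 326) (nat_lit 5) (nat_lit 327) (nat_lit 5) (nat_lit 655) (nat_lit 607) (nat_lit 298)) (XT.nd (nat_lit 78) (nat_lit 684) (nat_lit 0) (XT.lf (nat_lit 0) (nat_lit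 26513647893) (nat_lit 684) (nat_lit 8078794916) (nat_lit 760) (nat_lit 3864897262) (nat_lit 317) (nat_lit 5) (nat_lit 326) (nat_lit 5) (nat_lit 327) (nat_lit 5) (nat_lit 656) (nat_lit 607) (nat_lit 297)) (XT.lf (nat_lit 0) (nat_lit 1920143992) (nat_lit 684) (nat_lit 28845356437) (nat_lit 76) (nat_lit 8134325965) (nat_lit 308) (nat_lit 5) (nat_lit 317) (nat_lit 5) (nat_lit 309) (nat_lit 5) (nat_lit 657) (nat_lit 607) (nat_lit 296))))))))
noncomputable def xc230 : XT := (XT.nd (nat_lit 78702) (nat_lit 0) (nat_lit 5776) (XT.nd (nat_lit 77922) (nat_lit 0) (nat_lit 13376) (XT.nd (nat_lit 77532) (nat_lit 0) (nat_lit 13148) (XT.nd (nat_lit 77298) (nat_lit 0) (nat_lit 13072) (XT.nd (nat_lit 78) (nat_lit 684) (nat_lit 0) (XT.lf (nat_lit 0) (nat_lit 7901884185) (nat_lit 684) (nat_lit 6776473436) (nat_lit 76) (nat_lit 24669638970) (nat_lit 308) (nat_lit 5) (nat_lit 317) (nat_lit 5) (nat_lit 309) (nat_lit 5) (nat_lit 658) (nat_lit 607) (nat_lit 295)) (XT.lf (nat_lit 0) (nat_lit 14117227250) (nat_lit 760) (nat_lit 23873896957)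 (nat_lit 76) (nat_lit 1811726696) (nat_lit 299) (nat_lit 5) (nat_lit 309) (nat_lit 5) (nat_lit 300) (nat_lit 5) (nat_lit 659) (nat_lit 607) (nat_lit 294))) (XT.nd (nat_lit 78) (nat_lit 0) (nat_lit 0) (XT.lf (nat_lit 0) (nat_lit 267529354) (nat_lit 1900) (nat_lit 5686435521) (nat_lit 1900) (nat_lit 5686435521) (nat_lit 471) (nat_lit 3) (nat_lit 496) (nat_lit 3) (nat_lit 496) (nat_lit 5) (nat_lit 608) (nat_lit 608) (nat_lit 344)) (XT.nd (nat_lit 78) (nat_lit 0) (nat_lit 76) (XT.lf (nat_lit 76) (nat_lit 176373217) (nat_lit 0) (nat_lit 487429657) (nat_lit 1900) (nat_lit 22847330643) (nat_lit 472) (nat_lit 5) (nat_lit 471) (nat_lit 3) (nat_lit 496) (nat_lit 5) (nat_lit 609) (nat_lit 608) (nat_lit 343)) (XT.lf (nat_lit 0) (nat_lit 941205775) (nat_lit 1824) (nat_lit 11708486943) (nat_lit 1900) (nat_lit 11093458693) (nat_lit 472) (nat_lit 5) (nat_lit 496) (nat_lit 5) (nat_lit 497) (nat_lit 5) (nat_lit 610) (nat_lit 608) (nat_lit 342))))) (XT.nd (nat_lit 156) (nat_lit 0) (nat_lit 76) (XT.nd (nat_lit 78) (nat_lit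 0) (nat_lit 76) (XT.lf (nat_lit 76) (nat_lit 147318050) (nat_lit 0) (nat_lit 1077878817) (nat_lit 1900) (nat_lit 22754592183) (nat_lit 473) (nat_lit 5) (nat_lit 472) (nat_lit 5) (nat_lit 497) (nat_lit 5) (nat_lit 611) (nat_lit 608) (nat_lit 341)) (XT.lf (nat_lit 0) (nat_lit 1660509923) (nat_lit 1824) (nat_lit 11892551779) (nat_lit 1900) (nat_lit 10665185087) (nat_lit 473) (nat_lit 5) (nat_lit 497) (nat_lit 5) (nat_lit 498) (nat_lit 5) (nat_lit 612) (nat_lit 608) (nat_lit 340))) (XT.nd (nat_lit 78) (nat_lit 0) (nat_lit 76) (XT.lf (nat_lit 76) (nat_lit 280989306) (nat_lit 0) (nat_lit 1829478526) (nat_lit 1900) (nat_lit 22350887259) (nat_lit 474) (nat_lit 5) (nat_lit 473) (nat_lit 5) (nat_lit 498) (nat_lit 5) (nat_lit 613) (nat_lit 608) (nat_lit 339)) (XT.nd (nat_lit 78) (nat_lit 0) (nat_lit 0) (XT.lf (nat_lit 0) (nat_lit 2712552468) (nat_lit 1824) (nat_lit 11916591560) (nat_lit 1900) (nat_lit 10077319160) (nat_lit 474) (nat_lit 5) (nat_lit 498) (nat_lit 5) (nat_lit 499) (nat_lit 5) (nat_lit 614) (nat_lit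 608) (nat_lit 338)) (XT.lf (nat_lit 76) (nat_lit 586286513) (nat_lit 0) (nat_lit 2753405123) (nat_lit 1900) (nat_lit 21616521731) (nat_lit 475) (nat_lit 5) (nat_lit 474) (nat_lit 5) (nat_lit 499) (nat_lit 5) (nat_lit 615) (nat_lit 608) (nat_lit 337)))))) (XT.nd (nat_lit 390) (nat_lit 0) (nat_lit 152) (XT.nd (nat_lit 156) (nat_lit 0) (nat_lit 76) (XT.nd (nat_lit 78) (nat_lit 0) (nat_lit 0) (XT.lf (nat_lit 0) (nat_lit 4117783773) (nat_lit 1824) (nat_lit 11771702899) (nat_lit 1900) (nat_lit 9318703847) (nat_lit 475) (nat_lit 5) (nat_lit 499) (nat_lit 5) (nat_lit 500) (nat_lit 5) (nat_lit 616) (nat_lit 608) (nat_lit 336)) (XT.lf (nat_lit 76) (nat_lit 1072554636) (nat_lit 0) (nat_lit 3861280986) (nat_lit 1900) (nat_lit 20530923803) (nat_lit 476) (nat_lit 5) (nat_lit 475) (nat_lit 5) (nat_lit 500) (nat_lit 5) (nat_lit 617) (nat_lit 608) (nat_lit 335))) (XT.nd (nat_lit 78) (nat_lit 0) (nat_lit 0) (XT.lf (nat_lit 0) (nat_lit 5897562692) (nat_lit 1824) (nat_lit 11448537511) (nat_lit 1900) (nat_lit 8377732589) (nat_lit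 476) (nat_lit 5) (nat_lit 500) (nat_lit 5) (nat_lit 501) (nat_lit 5) (nat_lit 618) (nat_lit 608) (nat_lit 334)) (XT.nd (nat_lit 78) (nat_lit 0) (nat_lit 76) (XT.lf (nat_lit 76) (nat_lit 1749600190) (nat_lit 0) (nat_lit 5165198729) (nat_lit 1900) (nat_lit 19072604177) (nat_lit 477) (nat_lit 5) (nat_lit 476) (nat_lit 5) (nat_lit 501) (nat_lit 5) (nat_lit 619) (nat_lit 608) (nat_lit 333)) (XT.lf (nat_lit 0) (nat_lit 8074197515) (nat_lit 1824) (nat_lit 10937285994) (nat_lit 1900) (nat_lit 7242325105) (nat_lit 477) (nat_lit 5) (nat_lit 501) (nat_lit 5) (nat_lit 502) (nat_lit 5) (nat_lit 620) (nat_lit 608) (nat_lit 332))))) (XT.nd (nat_lit 156) (nat_lit 0) (nat_lit 76) (XT.nd (nat_lit 78) (nat_lit 0) (nat_lit 76) (XT.lf (nat_lit 76) (nat_lit 2627708115) (nat_lit 0) (nat_lit 6677746176) (nat_lit 1900) (nat_lit 17219114702) (nat_lit 478) (nat_lit 5) (nat_lit 477) (nat_lit 5) (nat_lit 502) (nat_lit 5) (nat_lit 621) (nat_lit 608) (nat_lit 331)) (XT.lf (nat_lit 0) (nat_lit 10670988453) (nat_lit 1824) (nat_lit 10227660862)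 (nat_lit 1900) (nat_lit 5899902374) (nat_lit 478) (nat_lit 5) (nat_lit 502) (nat_lit 5) (nat_lit 503) (nat_lit 5) (nat_lit 622) (nat_lit 608) (nat_lit 330))) (XT.nd (nat_lit 78) (nat_lit 0) (nat_lit 76) (XT.lf (nat_lit 76) (nat_lit 3717659405) (nat_lit 0) (nat_lit 8412032163) (nat_lit 1900) (nat_lit 14947005456) (nat_lit 479) (nat_lit 5) (nat_lit 478) (nat_lit 5) (nat_lit 503) (nat_lit 5) (nat_lit 623) (nat_lit 608) (nat_lit 329)) (XT.nd (nat_lit 78) (nat_lit 0) (nat_lit 0) (XT.lf (nat_lit 0) (nat_lit 13712271753) (nat_lit 1824) (nat_lit 9308878818) (nat_lit 1900) (nat_lit 4337360780) (nat_lit 479) (nat_lit 5) (nat_lit 503) (nat_lit 5) (nat_lit 504) (nat_lit 5) (nat_lit 624) (nat_lit 608) (nat_lit 328)) (XT.lf (nat_lit 76) (nat_lit 5030749533) (nat_lit 0) (nat_lit 10381713207) (nat_lit 1900) (nat_lit 12231780189) (nat_lit 480) (nat_lit 5) (nat_lit 479) (nat_lit 5) (nat_lit 504) (nat_lit 5) (nat_lit 625) (nat_lit 608) (nat_lit 327))))))) (XT.nd (nat_lit 780) (nat_lit 5244) (nat_lit 0) (XT.nd (nat_lit 390)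 (nat_lit 2736) (nat_lit 0) (XT.nd (nat_lit 156) (nat_lit 0) (nat_lit 76) (XT.nd (nat_lit 78) (nat_lit 0) (nat_lit 0) (XT.lf (nat_lit 0) (nat_lit 17223465508) (nat_lit 1824) (nat_lit 8169642235) (nat_lit 1900) (nat_lit 2541045374) (nat_lit 480) (nat_lit 5) (nat_lit 504) (nat_lit 5) (nat_lit 505) (nat_lit 5) (nat_lit 626) (nat_lit 608) (nat_lit 326)) (XT.lf (nat_lit 76) (nat_lit 6578807679) (nat_lit 0) (nat_lit 12601021114) (nat_lit 1900) (nat_lit 9047850048) (nat_lit 481) (nat_lit 5) (nat_lit 480) (nat_lit 5) (nat_lit 505) (nat_lit 5) (nat_lit 627) (nat_lit 608) (nat_lit 325))) (XT.nd (nat_lit 78) (nat_lit 0) (nat_lit 0) (XT.lf (nat_lit 0) (nat_lit 21231117225) (nat_lit 1824) (nat_lit 6798119837) (nat_lit 1900) (nat_lit 496722195) (nat_lit 481) (nat_lit 5) (nat_lit 505) (nat_lit 5) (nat_lit 506) (nat_lit 5) (nat_lit 628) (nat_lit 608) (nat_lit 324)) (XT.nd (nat_lit 78) (nat_lit 0) (nat_lit 0) (XT.lf (nat_lit 76) (nat_lit 8374216803) (nat_lit 0) (nat_lit 15084791554) (nat_lit 1900) (nat_lit 5368485519) (nat_lit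 482) (nat_lit 5) (nat_lit 481) (nat_lit 5) (nat_lit 506) (nat_lit 5) (nat_lit 629) (nat_lit 608) (nat_lit 323)) (XT.lf (nat_lit 76) (nat_lit 23940353778) (nat_lit 0) (nat_lit 1834510329) (nat_lit 1900) (nat_lit 3359327075) (nat_lit 482) (nat_lit 5) (nat_lit 481) (nat_lit 5) (nat_lit 506) (nat_lit 5) (nat_lit 630) (nat_lit 608) (nat_lit 322))))) (XT.nd (nat_lit 156) (nat_lit 988) (nat_lit 0) (XT.nd (nat_lit 78) (nat_lit 1900) (nat_lit 0) (XT.lf (nat_lit 76) (nat_lit 10429934554) (nat_lit 0) (nat_lit 17848493676) (nat_lit 1900) (nat_lit 1165766508) (nat_lit 483) (nat_lit 5) (nat_lit 482) (nat_lit 5) (nat_lit 507) (nat_lit 5) (nat_lit 631) (nat_lit 608) (nat_lit 321)) (XT.lf (nat_lit 0) (nat_lit 1102693865) (nat_lit 1900) (nat_lit 3344277783) (nat_lit 1976) (nat_lit 25312386007) (nat_lit 457) (nat_lit 5) (nat_lit 482) (nat_lit 5) (nat_lit 483) (nat_lit 5) (nat_lit 632) (nat_lit 608) (nat_lit 320))) (XT.nd (nat_lit 78) (nat_lit 1064) (nat_lit 0) (XT.lf (nat_lit 0) (nat_lit 3542392992) (nat_lit 1900) (nat_lit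 17342096492) (nat_lit 76) (nat_lit 9193350771) (nat_lit 458) (nat_lit 5) (nat_lit 483) (nat_lit 5) (nat_lit 459) (nat_lit 5) (nat_lit 633) (nat_lit 608) (nat_lit 319)) (XT.nd (nat_lit 78) (nat_lit 1064) (nat_lit 0) (XT.lf (nat_lit 0) (nat_lit 6080851021) (nat_lit 1900) (nat_lit 1250964630) (nat_lit 76) (nat_lit 23069877675) (nat_lit 458) (nat_lit 5) (nat_lit 483) (nat_lit 5) (nat_lit 459) (nat_lit 5) (nat_lit 634) (nat_lit 608) (nat_lit 318)) (XT.lf (nat_lit 0) (nat_lit 8810593333) (nat_lit 1140) (nat_lit 15411205243) (nat_lit 76) (nat_lit 6507414697) (nat_lit 444) (nat_lit 5) (nat_lit 459) (nat_lit 5) (nat_lit 445) (nat_lit 5) (nat_lit 635) (nat_lit 608) (nat_lit 317)))))) (XT.nd (nat_lit 390) (nat_lit 2584) (nat_lit 0) (XT.nd (nat_lit 156) (nat_lit 1748) (nat_lit 0) (XT.nd (nat_lit 78) (nat_lit 0) (nat_lit 0) (XT.lf (nat_lit 0) (nat_lit 1136683895) (nat_lit 912) (nat_lit 10520626895) (nat_lit 988) (nat_lit 19404725336) (nat_lit 432) (nat_lit 5) (nat_lit 444) (nat_lit 5) (nat_lit 445) (nat_lit 5) (nat_lit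 636) (nat_lit 608) (nat_lit 316)) (XT.lf (nat_lit 0) (nat_lit 14685517768) (nat_lit 988) (nat_lit 13199971245) (nat_lit 76) (nat_lit 3513535431) (nat_lit 432) (nat_lit 5) (nat_lit 445) (nat_lit 5) (nat_lit 433) (nat_lit 5) (nat_lit 637) (nat_lit 608) (nat_lit 315))) (XT.nd (nat_lit 78) (nat_lit 836) (nat_lit 0) (XT.lf (nat_lit 0) (nat_lit 3838783133) (nat_lit 912) (nat_lit 14028165099) (nat_lit 988) (nat_lit 13873951221) (nat_lit 420) (nat_lit 5) (nat_lit 432) (nat_lit 5) (nat_lit 433) (nat_lit 5) (nat_lit 638) (nat_lit 608) (nat_lit 314)) (XT.nd (nat_lit 78) (nat_lit 836) (nat_lit 0) (XT.lf (nat_lit 0) (nat_lit 21199952358) (nat_lit 988) (nat_lit 10693710245) (nat_lit 76) (nat_lit 194190564) (nat_lit 420) (nat_lit 5) (nat_lit 433) (nat_lit 5) (nat_lit 421) (nat_lit 5) (nat_lit 639) (nat_lit 608) (nat_lit 313)) (XT.lf (nat_lit 0) (nat_lit 6854055618) (nat_lit 836) (nat_lit 17881090718) (nat_lit 912) (nat_lit 7703889129) (nat_lit 409) (nat_lit 5) (nat_lit 420) (nat_lit 5) (nat_lit 421) (nat_lit 5) (nat_lit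 640) (nat_lit 608) (nat_lit 312))))) (XT.nd (nat_lit 234) (nat_lit 1672) (nat_lit 0) (XT.nd (nat_lit 78) (nat_lit 912) (nat_lit 0) (XT.lf (nat_lit 0) (nat_lit 24895945941) (nat_lit 836) (nat_lit 3515010742) (nat_lit 912) (nat_lit 4384886580) (nat_lit 409) (nat_lit 5) (nat_lit 420) (nat_lit 5) (nat_lit 421) (nat_lit 5) (nat_lit 641) (nat_lit 608) (nat_lit 311)) (XT.nd (nat_lit 78) (nat_lit 76) (nat_lit 0) (XT.lf (nat_lit 0) (nat_lit 10198536065) (nat_lit 836) (nat_lit 22098469342) (nat_lit 912) (nat_lit 860047468) (nat_lit 398) (nat_lit 5) (nat_lit 409) (nat_lit 5) (nat_lit 410) (nat_lit 5) (nat_lit 642) (nat_lit 608) (nat_lit 310)) (XT.lf (nat_lit 0) (nat_lit 2774257120) (nat_lit 912) (nat_lit 4801592563) (nat_lit 76) (nat_lit 25947785056) (nat_lit 397) (nat_lit 5) (nat_lit 409) (nat_lit 5) (nat_lit 398) (nat_lit 5) (nat_lit 643) (nat_lit 608) (nat_lit 309)))) (XT.nd (nat_lit 78) (nat_lit 836) (nat_lit 0) (XT.lf (nat_lit 0) (nat_lit 6605806483) (nat_lit 912) (nat_lit 20050068509) (nat_lit 76) (nat_lit 7238838152)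 (nat_lit 386) (nat_lit 5) (nat_lit 398) (nat_lit 5) (nat_lit 387) (nat_lit 5) (nat_lit 644) (nat_lit 608) (nat_lit 308)) (XT.nd (nat_lit 78) (nat_lit 836) (nat_lit 0) (XT.lf (nat_lit 0) (nat_lit 10594851750) (nat_lit 912) (nat_lit 1395848579) (nat_lit 76) (nat_lit 22280895583) (nat_lit 386) (nat_lit 5) (nat_lit 398) (nat_lit 5) (nat_lit 387) (nat_lit 5) (nat_lit 645) (nat_lit 608) (nat_lit 307)) (XT.lf (nat_lit 0) (nat_lit 14797992655) (nat_lit 912) (nat_lit 16809775912) (nat_lit 76) (nat_lit 3045561566) (nat_lit 375) (nat_lit 5) (nat_lit 387) (nat_lit 5) (nat_lit 376) (nat_lit 5) (nat_lit 646) (nat_lit 608) (nat_lit 306))))))))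
noncomputable def xc231 : XT := (XT.nd (nat_lit 78780) (nat_lit 0) (nat_lit 10336) (XT.nd (nat_lit 780) (nat_lit 684) (nat_lit 0) (XT.nd (nat_lit 390) (nat_lit 2128) (nat_lit 0) (XT.nd (nat_lit 156) (nat_lit 1520) (nat_lit 0) (XT.nd (nat_lit 78) (nat_lit 0) (nat_lit 0) (XT.lf (nat_lit 0) (nat_lit 2394310099) (nat_lit 760) (nat_lit 16793584293) (nat_lit 836) (nat_lit 15852750775) (nat_lit 365) (nat_lit 5) (nat_lit 375) (nat_lit 5) (nat_lit 376) (nat_lit 5) (nat_lit 647) (nat_lit 608) (nat_lit 305)) (XT.lf (nat_lit 0) (nat_lit 22208574910) (nat_lit 760) (nat_lit 1568158327) (nat_lit 836) (nat_lit 11656750572) (nat_lit 365) (nat_lit 5) (nat_lit 375) (nat_lit 5) (nat_lit 376) (nat_lit 5) (nat_lit 648) (nat_lit 608) (nat_lit 304))) (XT.nd (nat_lit 78) (nat_lit 760) (nat_lit 0) (XT.lf (nat_lit 0) (nat_lit 6578817725) (nat_lit 760) (nat_lit 22010262898) (nat_lit 836) (nat_lit 7242464051) (nat_lit 355) (nat_lit 5) (nat_lit 365) (nat_lit 5) (nat_lit 366) (nat_lit 5) (nat_lit 649) (nat_lit 608) (nat_lit 303)) (XT.nd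 (nat_lit 78) (nat_lit 760) (nat_lit 0) (XT.lf (nat_lit 0) (nat_lit 26945613090) (nat_lit 760) (nat_lit 6649514029) (nat_lit 836) (nat_lit 2640490679) (nat_lit 355) (nat_lit 5) (nat_lit 365) (nat_lit 5) (nat_lit 366) (nat_lit 5) (nat_lit 650) (nat_lit 608) (nat_lit 302)) (XT.lf (nat_lit 0) (nat_lit 2156865744) (nat_lit 760) (nat_lit 25501362672) (nat_lit 76) (nat_lit 8986671877) (nat_lit 345) (nat_lit 5) (nat_lit 355) (nat_lit 5) (nat_lit 346) (nat_lit 5) (nat_lit 651) (nat_lit 608) (nat_lit 301))))) (XT.nd (nat_lit 156) (nat_lit 1368) (nat_lit 0) (XT.nd (nat_lit 78) (nat_lit 760) (nat_lit 0) (XT.lf (nat_lit 0) (nat_lit 7120065602) (nat_lit 760) (nat_lit 5013134112) (nat_lit 76) (nat_lit 24926714679) (nat_lit 345) (nat_lit 5) (nat_lit 355) (nat_lit 5) (nat_lit 346) (nat_lit 5) (nat_lit 652) (nat_lit 608) (nat_lit 300)) (XT.lf (nat_lit 0) (nat_lit 12310212639) (nat_lit 836) (nat_lit 21411682285) (nat_lit 76) (nat_lit 3758780267) (nat_lit 335) (nat_lit 5) (nat_lit 346) (nat_lit 5) (nat_lit 336) (nat_lit 5)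 (nat_lit 653) (nat_lit 608) (nat_lit 299))) (XT.nd (nat_lit 78) (nat_lit 1368) (nat_lit 0) (XT.lf (nat_lit 0) (nat_lit 17716856388) (nat_lit 836) (nat_lit 350775876) (nat_lit 76) (nat_lit 19839965141) (nat_lit 335) (nat_lit 5) (nat_lit 346) (nat_lit 5) (nat_lit 336) (nat_lit 5) (nat_lit 654) (nat_lit 608) (nat_lit 298)) (XT.nd (nat_lit 78) (nat_lit 684) (nat_lit 0) (XT.lf (nat_lit 0) (nat_lit 21410445402) (nat_lit 684) (nat_lit 1958706169) (nat_lit 760) (nat_lit 14971156197) (nat_lit 326) (nat_lit 5) (nat_lit 335) (nat_lit 5) (nat_lit 336) (nat_lit 5) (nat_lit 655) (nat_lit 608) (nat_lit 297)) (XT.lf (nat_lit 0) (nat_lit 4797235301) (nat_lit 684) (nat_lit 24463262662) (nat_lit 760) (nat_lit 9518654344) (nat_lit 317) (nat_lit 5) (nat_lit 326) (nat_lit 5) (nat_lit 327) (nat_lit 5) (nat_lit 656) (nat_lit 608) (nat_lit 296)))))) (XT.nd (nat_lit 77610) (nat_lit 0) (nat_lit 12464) (XT.nd (nat_lit 156) (nat_lit 0) (nat_lit 0) (XT.nd (nat_lit 78) (nat_lit 684) (nat_lit 0) (XT.lf (nat_lit 0) (nat_lit 27173509033)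 (nat_lit 684) (nat_lit 8221199163) (nat_lit 760) (nat_lit 3829564872) (nat_lit 317) (nat_lit 5) (nat_lit 326) (nat_lit 5) (nat_lit 327) (nat_lit 5) (nat_lit 657) (nat_lit 608) (nat_lit 295)) (XT.lf (nat_lit 0) (nat_lit 2068498347) (nat_lit 684) (nat_lit 29289985896) (nat_lit 76) (nat_lit 8317134389) (nat_lit 308) (nat_lit 5) (nat_lit 317) (nat_lit 5) (nat_lit 309) (nat_lit 5) (nat_lit 658) (nat_lit 608) (nat_lit 294))) (XT.nd (nat_lit 77298) (nat_lit 0) (nat_lit 12388) (XT.lf (nat_lit 0) (nat_lit 8167717433) (nat_lit 684) (nat_lit 6782318915) (nat_lit 76) (nat_lit 25182759107) (nat_lit 308) (nat_lit 5) (nat_lit 317) (nat_lit 5) (nat_lit 309) (nat_lit 5) (nat_lit 659) (nat_lit 608) (nat_lit 293)) (XT.nd (nat_lit 78) (nat_lit 0) (nat_lit 0) (XT.lf (nat_lit 0) (nat_lit 394334670) (nat_lit 1900) (nat_lit 5738218637) (nat_lit 1900) (nat_lit 5738218637) (nat_lit 471) (nat_lit 3) (nat_lit 496) (nat_lit 3) (nat_lit 496) (nat_lit 5) (nat_lit 609) (nat_lit 609) (nat_lit 342)) (XT.lf (nat_lit 76) (nat_lit 302976798)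 (nat_lit 0) (nat_lit 613047754) (nat_lit 1900) (nat_lit 23060538280) (nat_lit 472) (nat_lit 5) (nat_lit 471) (nat_lit 3) (nat_lit 496) (nat_lit 5) (nat_lit 610) (nat_lit 609) (nat_lit 341))))) (XT.nd (nat_lit 156) (nat_lit 0) (nat_lit 76) (XT.nd (nat_lit 78) (nat_lit 0) (nat_lit 0) (XT.lf (nat_lit 0) (nat_lit 1193552752) (nat_lit 1824) (nat_lit 11816556904) (nat_lit 1900) (nat_lit 11203220166) (nat_lit 472) (nat_lit 5) (nat_lit 496) (nat_lit 5) (nat_lit 497) (nat_lit 5) (nat_lit 611) (nat_lit 609) (nat_lit 340)) (XT.lf (nat_lit 76) (nat_lit 275534586) (nat_lit 0) (nat_lit 1203923538) (nat_lit 1900) (nat_lit 22975317680) (nat_lit 473) (nat_lit 5) (nat_lit 472) (nat_lit 5) (nat_lit 497) (nat_lit 5) (nat_lit 612) (nat_lit 609) (nat_lit 339))) (XT.nd (nat_lit 78) (nat_lit 0) (nat_lit 0) (XT.lf (nat_lit 0) (nat_lit 1918307297) (nat_lit 1824) (nat_lit 12002405165) (nat_lit 1900) (nat_lit 10777393909) (nat_lit 473) (nat_lit 5) (nat_lit 497) (nat_lit 5) (nat_lit 498) (nat_lit 5) (nat_lit 613) (nat_lit 609) (nat_lit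 338)) (XT.nd (nat_lit 78) (nat_lit 0) (nat_lit 76) (XT.lf (nat_lit 76) (nat_lit 413764652) (nat_lit 0) (nat_lit 1959921621) (nat_lit 1900) (nat_lit 22572462396) (nat_lit 474) (nat_lit 5) (nat_lit 473) (nat_lit 5) (nat_lit 498) (nat_lit 5) (nat_lit 614) (nat_lit 609) (nat_lit 337)) (XT.lf (nat_lit 0) (nat_lit 2982881679) (nat_lit 1824) (nat_lit 12025317074) (nat_lit 1900) (nat_lit 10188059055) (nat_lit 474) (nat_lit 5) (nat_lit 498) (nat_lit 5) (nat_lit 499) (nat_lit 5) (nat_lit 615) (nat_lit 609) (nat_lit 336))))))) (XT.nd (nat_lit 780) (nat_lit 2280) (nat_lit 0) (XT.nd (nat_lit 390) (nat_lit 0) (nat_lit 228) (XT.nd (nat_lit 156) (nat_lit 0) (nat_lit 76) (XT.nd (nat_lit 78) (nat_lit 0) (nat_lit 76) (XT.lf (nat_lit 76) (nat_lit 726765888) (nat_lit 0) (nat_lit 2892396870) (nat_lit 1900) (nat_lit 21831908506) (nat_lit 475) (nat_lit 5) (nat_lit 474) (nat_lit 5) (nat_lit 499) (nat_lit 5) (nat_lit 616) (nat_lit 609) (nat_lit 335)) (XT.lf (nat_lit 0) (nat_lit 4408112390) (nat_lit 1824) (nat_lit 11876190974) (nat_lit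 1900) (nat_lit 9423878933) (nat_lit 475) (nat_lit 5) (nat_lit 499) (nat_lit 5) (nat_lit 500) (nat_lit 5) (nat_lit 617) (nat_lit 609) (nat_lit 334))) (XT.nd (nat_lit 78) (nat_lit 0) (nat_lit 76) (XT.lf (nat_lit 76) (nat_lit 1224090225) (nat_lit 0) (nat_lit 4013161745) (nat_lit 1900) (nat_lit 20732695524) (nat_lit 476) (nat_lit 5) (nat_lit 475) (nat_lit 5) (nat_lit 500) (nat_lit 5) (nat_lit 618) (nat_lit 609) (nat_lit 333)) (XT.nd (nat_lit 78) (nat_lit 0) (nat_lit 0) (XT.lf (nat_lit 0) (nat_lit 6215763873) (nat_lit 1824) (nat_lit 11545472646) (nat_lit 1900) (nat_lit 8473055845) (nat_lit 476) (nat_lit 5) (nat_lit 500) (nat_lit 5) (nat_lit 501) (nat_lit 5) (nat_lit 619) (nat_lit 609) (nat_lit 332)) (XT.lf (nat_lit 76) (nat_lit 1915759153) (nat_lit 0) (nat_lit 5334510825) (nat_lit 1900) (nat_lit 19252925831) (nat_lit 477) (nat_lit 5) (nat_lit 476) (nat_lit 5) (nat_lit 501) (nat_lit 5) (nat_lit 620) (nat_lit 609) (nat_lit 331))))) (XT.nd (nat_lit 156) (nat_lit 0) (nat_lit 76) (XT.nd (nat_lit 78) (nat_lit 0) (nat_lit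 0) (XT.lf (nat_lit 0) (nat_lit 8428570203) (nat_lit 1824) (nat_lit 11023138696) (nat_lit 1900) (nat_lit 7323306496) (nat_lit 477) (nat_lit 5) (nat_lit 501) (nat_lit 5) (nat_lit 502) (nat_lit 5) (nat_lit 621) (nat_lit 609) (nat_lit 330)) (XT.lf (nat_lit 76) (nat_lit 2812280998) (nat_lit 0) (nat_lit 6869246137) (nat_lit 1900) (nat_lit 17369722575) (nat_lit 478) (nat_lit 5) (nat_lit 477) (nat_lit 5) (nat_lit 502) (nat_lit 5) (nat_lit 622) (nat_lit 609) (nat_lit 329))) (XT.nd (nat_lit 78) (nat_lit 0) (nat_lit 0) (XT.lf (nat_lit 0) (nat_lit 11070278360) (nat_lit 1824) (nat_lit 10298679176) (nat_lit 1900) (nat_lit 5961836620) (nat_lit 478) (nat_lit 5) (nat_lit 502) (nat_lit 5) (nat_lit 503) (nat_lit 5) (nat_lit 623) (nat_lit 609) (nat_lit 328)) (XT.nd (nat_lit 78) (nat_lit 0) (nat_lit 76) (XT.lf (nat_lit 76) (nat_lit 3924668978) (nat_lit 0) (nat_lit 8630703340) (nat_lit 1900) (nat_lit 15059185962) (nat_lit 479) (nat_lit 5) (nat_lit 478) (nat_lit 5) (nat_lit 503) (nat_lit 5) (nat_lit 624) (nat_lit 609) (nat_lit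 327)) (XT.lf (nat_lit 0) (nat_lit 14165693159) (nat_lit 1824) (nat_lit 9361079437) (nat_lit 1900) (nat_lit 4375314733) (nat_lit 479) (nat_lit 5) (nat_lit 503) (nat_lit 5) (nat_lit 504) (nat_lit 5) (nat_lit 625) (nat_lit 609) (nat_lit 326)))))) (XT.nd (nat_lit 390) (nat_lit 2660) (nat_lit 0) (XT.nd (nat_lit 156) (nat_lit 0) (nat_lit 76) (XT.nd (nat_lit 78) (nat_lit 0) (nat_lit 76) (XT.lf (nat_lit 76) (nat_lit 5264460054) (nat_lit 0) (nat_lit 10632778801) (nat_lit 1900) (nat_lit 12296347874) (nat_lit 480) (nat_lit 5) (nat_lit 479) (nat_lit 5) (nat_lit 504) (nat_lit 5) (nat_lit 626) (nat_lit 609) (nat_lit 325)) (XT.lf (nat_lit 0) (nat_lit 17740723912) (nat_lit 1824) (nat_lit 8198801184) (nat_lit 1900) (nat_lit 2549844988) (nat_lit 480) (nat_lit 5) (nat_lit 504) (nat_lit 5) (nat_lit 505) (nat_lit 5) (nat_lit 627) (nat_lit 609) (nat_lit 324))) (XT.nd (nat_lit 78) (nat_lit 0) (nat_lit 76) (XT.lf (nat_lit 76) (nat_lit 6843734611) (nat_lit 0) (nat_lit 12889957632) (nat_lit 1900) (nat_lit 9055124725) (nat_lit 481)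 (nat_lit 5) (nat_lit 480) (nat_lit 5) (nat_lit 505) (nat_lit 5) (nat_lit 628) (nat_lit 609) (nat_lit 323)) (XT.nd (nat_lit 78) (nat_lit 0) (nat_lit 0) (XT.lf (nat_lit 0) (nat_lit 21822432894) (nat_lit 1824) (nat_lit 6799762712) (nat_lit 1900) (nat_lit 470939056) (nat_lit 481) (nat_lit 5) (nat_lit 505) (nat_lit 5) (nat_lit 506) (nat_lit 5) (nat_lit 629) (nat_lit 609) (nat_lit 322)) (XT.lf (nat_lit 76) (nat_lit 8675136979) (nat_lit 0) (nat_lit 15417342726) (nat_lit 1900) (nat_lit 5308268505) (nat_lit 482) (nat_lit 5) (nat_lit 481) (nat_lit 5) (nat_lit 506) (nat_lit 5) (nat_lit 630) (nat_lit 609) (nat_lit 321))))) (XT.nd (nat_lit 234) (nat_lit 988) (nat_lit 0) (XT.nd (nat_lit 78) (nat_lit 1824) (nat_lit 0) (XT.lf (nat_lit 76) (nat_lit 24549980305) (nat_lit 0) (nat_lit 1901450870) (nat_lit 1900) (nat_lit 3262212906) (nat_lit 482) (nat_lit 5) (nat_lit 481) (nat_lit 5) (nat_lit 506) (nat_lit 5) (nat_lit 631) (nat_lit 609) (nat_lit 320)) (XT.nd (nat_lit 78) (nat_lit 1900) (nat_lit 0) (XT.lf (nat_lit 76) (nat_lit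 10771896824) (nat_lit 0) (nat_lit 18230684855) (nat_lit 1900) (nat_lit 1027315913) (nat_lit 483) (nat_lit 5) (nat_lit 482) (nat_lit 5) (nat_lit 507) (nat_lit 5) (nat_lit 632) (nat_lit 609) (nat_lit 319)) (XT.lf (nat_lit 0) (nat_lit 1281261797) (nat_lit 1900) (nat_lit 3278325763) (nat_lit 1976) (nat_lit 25791817987) (nat_lit 457) (nat_lit 5) (nat_lit 482) (nat_lit 5) (nat_lit 483) (nat_lit 5) (nat_lit 633) (nat_lit 609) (nat_lit 318)))) (XT.nd (nat_lit 78) (nat_lit 1064) (nat_lit 0) (XT.lf (nat_lit 0) (nat_lit 3767397764) (nat_lit 1900) (nat_lit 17553734900) (nat_lit 76) (nat_lit 9355172454) (nat_lit 458) (nat_lit 5) (nat_lit 483) (nat_lit 5) (nat_lit 459) (nat_lit 5) (nat_lit 634) (nat_lit 609) (nat_lit 317)) (XT.nd (nat_lit 78) (nat_lit 1064) (nat_lit 0) (XT.lf (nat_lit 0) (nat_lit 6353602269) (nat_lit 1900) (nat_lit 1143431451) (nat_lit 76) (nat_lit 23509662158) (nat_lit 458) (nat_lit 5) (nat_lit 483) (nat_lit 5) (nat_lit 459) (nat_lit 5) (nat_lit 635) (nat_lit 609) (nat_lit 316)) (XT.lf (nat_lit 0) (nat_lit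 9135718350) (nat_lit 1140) (nat_lit 15584647337) (nat_lit 76) (nat_lit 6620445127) (nat_lit 444) (nat_lit 5) (nat_lit 459) (nat_lit 5) (nat_lit 445) (nat_lit 5) (nat_lit 636) (nat_lit 609) (nat_lit 315))))))))
noncomputable def xc232 : XT := (XT.nd (nat_lit 1560) (nat_lit 1368) (nat_lit 0) (XT.nd (nat_lit 780) (nat_lit 4560) (nat_lit 0) (XT.nd (nat_lit 390) (nat_lit 1748) (nat_lit 0) (XT.nd (nat_lit 156) (nat_lit 1748) (nat_lit 0) (XT.nd (nat_lit 78) (nat_lit 0) (nat_lit 0) (XT.lf (nat_lit 0) (nat_lit 1293312860) (nat_lit 912) (nat_lit 10744006767) (nat_lit 988) (nat_lit 19643011673) (nat_lit 432) (nat_lit 5) (nat_lit 444) (nat_lit 5) (nat_lit 445) (nat_lit 5) (nat_lit 637) (nat_lit 609) (nat_lit 314)) (XT.lf (nat_lit 0) (nat_lit 15123128545) (nat_lit 988) (nat_lit 13329730447) (nat_lit 76) (nat_lit 3571259801) (nat_lit 432) (nat_lit 5) (nat_lit 445) (nat_lit 5) (nat_lit 433) (nat_lit 5) (nat_lit 638) (nat_lit 609) (nat_lit 313))) (XT.nd (nat_lit 78) (nat_lit 836) (nat_lit 0) (XT.lf (nat_lit 0) (nat_lit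 4048915859) (nat_lit 912) (nat_lit 14317316024) (nat_lit 988) (nat_lit 14006638691) (nat_lit 420) (nat_lit 5) (nat_lit 432) (nat_lit 5) (nat_lit 433) (nat_lit 5) (nat_lit 639) (nat_lit 609) (nat_lit 312)) (XT.nd (nat_lit 78) (nat_lit 836) (nat_lit 0) (XT.lf (nat_lit 0) (nat_lit 21763058199) (nat_lit 988) (nat_lit 10773996521) (nat_lit 76) (nat_lit 189765557) (nat_lit 420) (nat_lit 5) (nat_lit 433) (nat_lit 5) (nat_lit 421) (nat_lit 5) (nat_lit 640) (nat_lit 609) (nat_lit 311)) (XT.lf (nat_lit 0) (nat_lit 7123845792) (nat_lit 836) (nat_lit 18243244316) (nat_lit 912) (nat_lit 7717973586) (nat_lit 409) (nat_lit 5) (nat_lit 420) (nat_lit 5) (nat_lit 421) (nat_lit 5) (nat_lit 641) (nat_lit 609) (nat_lit 310))))) (XT.nd (nat_lit 156) (nat_lit 912) (nat_lit 0) (XT.nd (nat_lit 78) (nat_lit 836) (nat_lit 0) (XT.lf (nat_lit 0) (nat_lit 25523971783) (nat_lit 836) (nat_lit 3589753882) (nat_lit 912) (nat_lit 4335335952) (nat_lit 409) (nat_lit 5) (nat_lit 420) (nat_lit 5) (nat_lit 421) (nat_lit 5) (nat_lit 642) (nat_lit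 609) (nat_lit 309)) (XT.lf (nat_lit 0) (nat_lit 10534467156) (nat_lit 836) (nat_lit 22541218468) (nat_lit 912) (nat_lit 741846139) (nat_lit 398) (nat_lit 5) (nat_lit 409) (nat_lit 5) (nat_lit 410) (nat_lit 5) (nat_lit 643) (nat_lit 609) (nat_lit 308))) (XT.nd (nat_lit 78) (nat_lit 836) (nat_lit 0) (XT.lf (nat_lit 0) (nat_lit 2960748588) (nat_lit 912) (nat_lit 4766503417) (nat_lit 76) (nat_lit 26464228221) (nat_lit 397) (nat_lit 5) (nat_lit 409) (nat_lit 5) (nat_lit 398) (nat_lit 5) (nat_lit 644) (nat_lit 609) (nat_lit 307)) (XT.nd (nat_lit 78) (nat_lit 0) (nat_lit 0) (XT.lf (nat_lit 0) (nat_lit 6867212242) (nat_lit 912) (nat_lit 20318225244) (nat_lit 76) (nat_lit 7384577187) (nat_lit 386) (nat_lit 5) (nat_lit 398) (nat_lit 5) (nat_lit 387) (nat_lit 5) (nat_lit 645) (nat_lit 609) (nat_lit 306)) (XT.lf (nat_lit 0) (nat_lit 10933503323) (nat_lit 912) (nat_lit 1293525712) (nat_lit 76) (nat_lit 22727456899) (nat_lit 386) (nat_lit 5) (nat_lit 398) (nat_lit 5) (nat_lit 387) (nat_lit 5) (nat_lit 646) (nat_lit 609)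 (nat_lit 305)))))) (XT.nd (nat_lit 390) (nat_lit 2204) (nat_lit 0) (XT.nd (nat_lit 156) (nat_lit 760) (nat_lit 0) (XT.nd (nat_lit 78) (nat_lit 760) (nat_lit 0) (XT.lf (nat_lit 0) (nat_lit 15219089451) (nat_lit 912) (nat_lit 17014107325) (nat_lit 76) (nat_lit 3110690548) (nat_lit 375) (nat_lit 5) (nat_lit 387) (nat_lit 5) (nat_lit 376) (nat_lit 5) (nat_lit 647) (nat_lit 609) (nat_lit 304)) (XT.lf (nat_lit 0) (nat_lit 2573192879) (nat_lit 760) (nat_lit 17121993196) (nat_lit 836) (nat_lit 16043794779) (nat_lit 365) (nat_lit 5) (nat_lit 375) (nat_lit 5) (nat_lit 376) (nat_lit 5) (nat_lit 648) (nat_lit 609) (nat_lit 303))) (XT.nd (nat_lit 78) (nat_lit 760) (nat_lit 0) (XT.lf (nat_lit 0) (nat_lit 22781174425) (nat_lit 760) (nat_lit 1592205039) (nat_lit 836) (nat_lit 11766345376) (nat_lit 365) (nat_lit 5) (nat_lit 375) (nat_lit 5) (nat_lit 376) (nat_lit 5) (nat_lit 649) (nat_lit 609) (nat_lit 302)) (XT.nd (nat_lit 78) (nat_lit 0) (nat_lit 0) (XT.lf (nat_lit 0) (nat_lit 6840342652) (nat_lit 760) (nat_lit 22440146695)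 (nat_lit 836) (nat_lit 7265287392) (nat_lit 355) (nat_lit 5) (nat_lit 365) (nat_lit 5) (nat_lit 366) (nat_lit 5) (nat_lit 650) (nat_lit 609) (nat_lit 301)) (XT.lf (nat_lit 0) (nat_lit 27611925913) (nat_lit 760) (nat_lit 6772385230) (nat_lit 836) (nat_lit 2573667218) (nat_lit 355) (nat_lit 5) (nat_lit 365) (nat_lit 5) (nat_lit 366) (nat_lit 5) (nat_lit 651) (nat_lit 609) (nat_lit 300))))) (XT.nd (nat_lit 156) (nat_lit 1444) (nat_lit 0) (XT.nd (nat_lit 78) (nat_lit 0) (nat_lit 0) (XT.lf (nat_lit 0) (nat_lit 2316659186) (nat_lit 760) (nat_lit 25881000250) (nat_lit 76) (nat_lit 9177799816) (nat_lit 345) (nat_lit 5) (nat_lit 355) (nat_lit 5) (nat_lit 346) (nat_lit 5) (nat_lit 652) (nat_lit 609) (nat_lit 299)) (XT.lf (nat_lit 0) (nat_lit 7376835667) (nat_lit 760) (nat_lit 4985563779) (nat_lit 76) (nat_lit 25436420052) (nat_lit 345) (nat_lit 5) (nat_lit 355) (nat_lit 5) (nat_lit 346) (nat_lit 5) (nat_lit 653) (nat_lit 609) (nat_lit 298))) (XT.nd (nat_lit 78) (nat_lit 684) (nat_lit 0) (XT.lf (nat_lit 0) (nat_lit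 12669458801) (nat_lit 836) (nat_lit 21710750378) (nat_lit 76) (nat_lit 3847812983) (nat_lit 335) (nat_lit 5) (nat_lit 346) (nat_lit 5) (nat_lit 336) (nat_lit 5) (nat_lit 654) (nat_lit 609) (nat_lit 297)) (XT.nd (nat_lit 78) (nat_lit 684) (nat_lit 0) (XT.lf (nat_lit 0) (nat_lit 18182018917) (nat_lit 836) (nat_lit 231158499) (nat_lit 76) (nat_lit 20250349847) (nat_lit 335) (nat_lit 5) (nat_lit 346) (nat_lit 5) (nat_lit 336) (nat_lit 5) (nat_lit 655) (nat_lit 609) (nat_lit 296)) (XT.lf (nat_lit 0) (nat_lit 21964454094) (nat_lit 684) (nat_lit 1981549639) (nat_lit 760) (nat_lit 15158915335) (nat_lit 326) (nat_lit 5) (nat_lit 335) (nat_lit 5) (nat_lit 336) (nat_lit 5) (nat_lit 656) (nat_lit 609) (nat_lit 295))))))) (XT.nd (nat_lit 78078) (nat_lit 0) (nat_lit 12616) (XT.nd (nat_lit 77688) (nat_lit 0) (nat_lit 12464) (XT.nd (nat_lit 156) (nat_lit 684) (nat_lit 0) (XT.nd (nat_lit 78) (nat_lit 0) (nat_lit 0) (XT.lf (nat_lit 0) (nat_lit 5020227244) (nat_lit 684) (nat_lit 24933732179) (nat_lit 760) (nat_lit 9598605533)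 (nat_lit 317) (nat_lit 5) (nat_lit 326) (nat_lit 5) (nat_lit 327) (nat_lit 5) (nat_lit 657) (nat_lit 609) (nat_lit 294)) (XT.lf (nat_lit 0) (nat_lit 27841535329) (nat_lit 684) (nat_lit 8367195954) (nat_lit 760) (nat_lit 3797899407) (nat_lit 317) (nat_lit 5) (nat_lit 326) (nat_lit 5) (nat_lit 327) (nat_lit 5) (nat_lit 658) (nat_lit 609) (nat_lit 293))) (XT.nd (nat_lit 77376) (nat_lit 0) (nat_lit 12388) (XT.lf (nat_lit 0) (nat_lit 2215550239) (nat_lit 684) (nat_lit 29748644447) (nat_lit 76) (nat_lit 8502817623) (nat_lit 308) (nat_lit 5) (nat_lit 317) (nat_lit 5) (nat_lit 309) (nat_lit 5) (nat_lit 659) (nat_lit 609) (nat_lit 292)) (XT.nd (nat_lit 78) (nat_lit 0) (nat_lit 0) (XT.lf (nat_lit 0) (nat_lit 518959858) (nat_lit 1900) (nat_lit 5793442837) (nat_lit 1900) (nat_lit 5793442837) (nat_lit 471) (nat_lit 3) (nat_lit 496) (nat_lit 3) (nat_lit 496) (nat_lit 5) (nat_lit 610) (nat_lit 610) (nat_lit 340)) (XT.lf (nat_lit 76) (nat_lit 427333255) (nat_lit 0) (nat_lit 736678859) (nat_lit 1900) (nat_lit 23287474751)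 (nat_lit 472) (nat_lit 5) (nat_lit 471) (nat_lit 3) (nat_lit 496) (nat_lit 5) (nat_lit 611) (nat_lit 610) (nat_lit 339))))) (XT.nd (nat_lit 156) (nat_lit 0) (nat_lit 76) (XT.nd (nat_lit 78) (nat_lit 0) (nat_lit 0) (XT.lf (nat_lit 0) (nat_lit 1441878691) (nat_lit 1824) (nat_lit 11931684872) (nat_lit 1900) (nat_lit 11319530147) (nat_lit 472) (nat_lit 5) (nat_lit 496) (nat_lit 5) (nat_lit 497) (nat_lit 5) (nat_lit 612) (nat_lit 610) (nat_lit 338)) (XT.lf (nat_lit 76) (nat_lit 401451058) (nat_lit 0) (nat_lit 1328431791) (nat_lit 1900) (nat_lit 23209558417) (nat_lit 473) (nat_lit 5) (nat_lit 472) (nat_lit 5) (nat_lit 497) (nat_lit 5) (nat_lit 613) (nat_lit 610) (nat_lit 337))) (XT.nd (nat_lit 78) (nat_lit 0) (nat_lit 0) (XT.lf (nat_lit 0) (nat_lit 2172539625) (nat_lit 1824) (nat_lit 12119425923) (nat_lit 1900) (nat_lit 10895772545) (nat_lit 473) (nat_lit 5) (nat_lit 497) (nat_lit 5) (nat_lit 498) (nat_lit 5) (nat_lit 614) (nat_lit 610) (nat_lit 336)) (XT.nd (nat_lit 78) (nat_lit 0) (nat_lit 76) (XT.lf (nat_lit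 76) (nat_lit 544257899) (nat_lit 0) (nat_lit 2089329131) (nat_lit 1900) (nat_lit 22807223246) (nat_lit 474) (nat_lit 5) (nat_lit 473) (nat_lit 5) (nat_lit 498) (nat_lit 5) (nat_lit 615) (nat_lit 610) (nat_lit 335)) (XT.lf (nat_lit 0) (nat_lit 3250226895) (nat_lit 1824) (nat_lit 12141249869) (nat_lit 1900) (nat_lit 10304539874) (nat_lit 474) (nat_lit 5) (nat_lit 498) (nat_lit 5) (nat_lit 499) (nat_lit 5) (nat_lit 616) (nat_lit 610) (nat_lit 334)))))) (XT.nd (nat_lit 390) (nat_lit 0) (nat_lit 228) (XT.nd (nat_lit 156) (nat_lit 0) (nat_lit 76) (XT.nd (nat_lit 78) (nat_lit 0) (nat_lit 76) (XT.lf (nat_lit 76) (nat_lit 865055189) (nat_lit 0) (nat_lit 3030909595) (nat_lit 1900) (nat_lit 22060027204) (nat_lit 475) (nat_lit 5) (nat_lit 474) (nat_lit 5) (nat_lit 499) (nat_lit 5) (nat_lit 617) (nat_lit 610) (nat_lit 333)) (XT.lf (nat_lit 0) (nat_lit 4696171737) (nat_lit 1824) (nat_lit 11987853602) (nat_lit 1900) (nat_lit 9534310577) (nat_lit 475) (nat_lit 5) (nat_lit 499) (nat_lit 5) (nat_lit 500) (nat_lit 5) (nat_lit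 618) (nat_lit 610) (nat_lit 332))) (XT.nd (nat_lit 78) (nat_lit 0) (nat_lit 76) (XT.lf (nat_lit 76) (nat_lit 1373605186) (nat_lit 0) (nat_lit 4165181169) (nat_lit 1900) (nat_lit 20946612453) (nat_lit 476) (nat_lit 5) (nat_lit 475) (nat_lit 5) (nat_lit 500) (nat_lit 5) (nat_lit 619) (nat_lit 610) (nat_lit 331)) (XT.nd (nat_lit 78) (nat_lit 0) (nat_lit 0) (XT.lf (nat_lit 0) (nat_lit 6532553128) (nat_lit 1824) (nat_lit 11649473589) (nat_lit 1900) (nat_lit 8573090399) (nat_lit 476) (nat_lit 5) (nat_lit 500) (nat_lit 5) (nat_lit 501) (nat_lit 5) (nat_lit 620) (nat_lit 610) (nat_lit 330)) (XT.lf (nat_lit 76) (nat_lit 2080147922) (nat_lit 0) (nat_lit 5504645987) (nat_lit 1900) (nat_lit 19444664057) (nat_lit 477) (nat_lit 5) (nat_lit 476) (nat_lit 5) (nat_lit 501) (nat_lit 5) (nat_lit 621) (nat_lit 610) (nat_lit 329))))) (XT.nd (nat_lit 156) (nat_lit 0) (nat_lit 76) (XT.nd (nat_lit 78) (nat_lit 0) (nat_lit 0) (XT.lf (nat_lit 0) (nat_lit 8782540239) (nat_lit 1824) (nat_lit 11115868851) (nat_lit 1900) (nat_lit 7408387476)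 (nat_lit 477) (nat_lit 5) (nat_lit 501) (nat_lit 5) (nat_lit 502) (nat_lit 5) (nat_lit 622) (nat_lit 610) (nat_lit 328)) (XT.lf (nat_lit 76) (nat_lit 2995418891) (nat_lit 0) (nat_lit 7062326021) (nat_lit 1900) (nat_lit 17530867102) (nat_lit 478) (nat_lit 5) (nat_lit 477) (nat_lit 5) (nat_lit 502) (nat_lit 5) (nat_lit 623) (nat_lit 610) (nat_lit 327))) (XT.nd (nat_lit 78) (nat_lit 0) (nat_lit 0) (XT.lf (nat_lit 0) (nat_lit 11470336500) (nat_lit 1824) (nat_lit 10376303179) (nat_lit 1900) (nat_lit 6027186576) (nat_lit 478) (nat_lit 5) (nat_lit 502) (nat_lit 5) (nat_lit 503) (nat_lit 5) (nat_lit 624) (nat_lit 610) (nat_lit 326)) (XT.nd (nat_lit 78) (nat_lit 0) (nat_lit 76) (XT.lf (nat_lit 76) (nat_lit 4130667533) (nat_lit 0) (nat_lit 8851789661) (nat_lit 1900) (nat_lit 15180862182) (nat_lit 479) (nat_lit 5) (nat_lit 478) (nat_lit 5) (nat_lit 503) (nat_lit 5) (nat_lit 625) (nat_lit 610) (nat_lit 325)) (XT.lf (nat_lit 0) (nat_lit 14621225371) (nat_lit 1824) (nat_lit 9419526556) (nat_lit 1900) (nat_lit 4415922466)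 (nat_lit 479) (nat_lit 5) (nat_lit 503) (nat_lit 5) (nat_lit 504) (nat_lit 5) (nat_lit 626) (nat_lit 610) (nat_lit 324))))))))
noncomputable def xc233 : XT := (XT.nd (nat_lit 1560) (nat_lit 5244) (nat_lit 0) (XT.nd (nat_lit 780) (nat_lit 5396) (nat_lit 0) (XT.nd (nat_lit 390) (nat_lit 1672) (nat_lit 0) (XT.nd (nat_lit 156) (nat_lit 0) (nat_lit 76) (XT.nd (nat_lit 78) (nat_lit 0) (nat_lit 76) (XT.lf (nat_lit 76) (nat_lit 5497676524) (nat_lit 0) (nat_lit 10887179215) (nat_lit 1900) (nat_lit 12369199169) (nat_lit 480) (nat_lit 5) (nat_lit 479) (nat_lit 5) (nat_lit 504) (nat_lit 5) (nat_lit 627) (nat_lit 610) (nat_lit 323)) (XT.lf (nat_lit 0) (nat_lit 18261617873) (nat_lit 1824) (nat_lit 8233755777) (nat_lit 1900) (nat_lit 2560452331) (nat_lit 480) (nat_lit 5) (nat_lit 504) (nat_lit 5) (nat_lit 505) (nat_lit 5) (nat_lit 628) (nat_lit 610) (nat_lit 322))) (XT.nd (nat_lit 78) (nat_lit 0) (nat_lit 76) (XT.lf (nat_lit 76) (nat_lit 7108781908) (nat_lit 0) (nat_lit 13183239383) (nat_lit 1900) (nat_lit 9069289192)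 (nat_lit 481) (nat_lit 5) (nat_lit 480) (nat_lit 5) (nat_lit 505) (nat_lit 5) (nat_lit 629) (nat_lit 610) (nat_lit 321)) (XT.nd (nat_lit 78) (nat_lit 0) (nat_lit 0) (XT.lf (nat_lit 0) (nat_lit 22419101970) (nat_lit 1824) (nat_lit 6806654236) (nat_lit 1900) (nat_lit 446027211) (nat_lit 481) (nat_lit 5) (nat_lit 505) (nat_lit 5) (nat_lit 506) (nat_lit 5) (nat_lit 630) (nat_lit 610) (nat_lit 320)) (XT.lf (nat_lit 76) (nat_lit 8976894083) (nat_lit 0) (nat_lit 15755346771) (nat_lit 1900) (nat_lit 5253354748) (nat_lit 482) (nat_lit 5) (nat_lit 481) (nat_lit 5) (nat_lit 506) (nat_lit 5) (nat_lit 631) (nat_lit 610) (nat_lit 319))))) (XT.nd (nat_lit 156) (nat_lit 1824) (nat_lit 0) (XT.nd (nat_lit 78) (nat_lit 0) (nat_lit 76) (XT.lf (nat_lit 76) (nat_lit 25166719483) (nat_lit 0) (nat_lit 1968555564) (nat_lit 1900) (nat_lit 3169536451) (nat_lit 482) (nat_lit 5) (nat_lit 481) (nat_lit 5) (nat_lit 506) (nat_lit 5) (nat_lit 632) (nat_lit 610) (nat_lit 318)) (XT.lf (nat_lit 76) (nat_lit 11115519669) (nat_lit 0) (nat_lit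 18619540485) (nat_lit 1900) (nat_lit 892377874) (nat_lit 483) (nat_lit 5) (nat_lit 482) (nat_lit 5) (nat_lit 507) (nat_lit 5) (nat_lit 633) (nat_lit 610) (nat_lit 317))) (XT.nd (nat_lit 78) (nat_lit 0) (nat_lit 76) (XT.lf (nat_lit 0) (nat_lit 1457323457) (nat_lit 1900) (nat_lit 3216212948) (nat_lit 1976) (nat_lit 26281879895) (nat_lit 457) (nat_lit 5) (nat_lit 482) (nat_lit 5) (nat_lit 483) (nat_lit 5) (nat_lit 634) (nat_lit 610) (nat_lit 316)) (XT.nd (nat_lit 78) (nat_lit 0) (nat_lit 0) (XT.lf (nat_lit 0) (nat_lit 3990916530) (nat_lit 1900) (nat_lit 17774856194) (nat_lit 76) (nat_lit 9521086618) (nat_lit 458) (nat_lit 5) (nat_lit 483) (nat_lit 5) (nat_lit 459) (nat_lit 5) (nat_lit 635) (nat_lit 610) (nat_lit 315)) (XT.lf (nat_lit 0) (nat_lit 6625939816) (nat_lit 1900) (nat_lit 1038894781) (nat_lit 76) (nat_lit 23959081592) (nat_lit 458) (nat_lit 5) (nat_lit 483) (nat_lit 5) (nat_lit 459) (nat_lit 5) (nat_lit 636) (nat_lit 610) (nat_lit 314)))))) (XT.nd (nat_lit 390) (nat_lit 2584) (nat_lit 0) (XT.nd (nat_lit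 156) (nat_lit 912) (nat_lit 0) (XT.nd (nat_lit 78) (nat_lit 912) (nat_lit 0) (XT.lf (nat_lit 0) (nat_lit 9461563388) (nat_lit 1140) (nat_lit 15766792022) (nat_lit 76) (nat_lit 6736400873) (nat_lit 444) (nat_lit 5) (nat_lit 459) (nat_lit 5) (nat_lit 445) (nat_lit 5) (nat_lit 637) (nat_lit 610) (nat_lit 313)) (XT.lf (nat_lit 0) (nat_lit 1447875087) (nat_lit 912) (nat_lit 10971350700) (nat_lit 988) (nat_lit 19891880971) (nat_lit 432) (nat_lit 5) (nat_lit 444) (nat_lit 5) (nat_lit 445) (nat_lit 5) (nat_lit 638) (nat_lit 610) (nat_lit 312))) (XT.nd (nat_lit 78) (nat_lit 912) (nat_lit 0) (XT.lf (nat_lit 0) (nat_lit 15563903707) (nat_lit 988) (nat_lit 13467297544) (nat_lit 76) (nat_lit 3630625848) (nat_lit 432) (nat_lit 5) (nat_lit 445) (nat_lit 5) (nat_lit 433) (nat_lit 5) (nat_lit 639) (nat_lit 610) (nat_lit 311)) (XT.nd (nat_lit 78) (nat_lit 0) (nat_lit 0) (XT.lf (nat_lit 0) (nat_lit 4258072823) (nat_lit 912) (nat_lit 14611916499) (nat_lit 988) (nat_lit 14147602344) (nat_lit 420) (nat_lit 5) (nat_lit 432) (nat_lit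 5) (nat_lit 433) (nat_lit 5) (nat_lit 640) (nat_lit 610) (nat_lit 310)) (XT.lf (nat_lit 0) (nat_lit 22332024470) (nat_lit 988) (nat_lit 10861075904) (nat_lit 76) (nat_lit 185574692) (nat_lit 420) (nat_lit 5) (nat_lit 433) (nat_lit 5) (nat_lit 421) (nat_lit 5) (nat_lit 641) (nat_lit 610) (nat_lit 309))))) (XT.nd (nat_lit 156) (nat_lit 1748) (nat_lit 0) (XT.nd (nat_lit 78) (nat_lit 0) (nat_lit 0) (XT.lf (nat_lit 0) (nat_lit 7393878514) (nat_lit 836) (nat_lit 18612465012) (nat_lit 912) (nat_lit 7737775843) (nat_lit 409) (nat_lit 5) (nat_lit 420) (nat_lit 5) (nat_lit 421) (nat_lit 5) (nat_lit 642) (nat_lit 610) (nat_lit 308)) (XT.lf (nat_lit 0) (nat_lit 26159505931) (nat_lit 836) (nat_lit 3665819361) (nat_lit 912) (nat_lit 4290123834) (nat_lit 409) (nat_lit 5) (nat_lit 420) (nat_lit 5) (nat_lit 421) (nat_lit 5) (nat_lit 643) (nat_lit 610) (nat_lit 307))) (XT.nd (nat_lit 78) (nat_lit 912) (nat_lit 0) (XT.lf (nat_lit 0) (nat_lit 10871992687) (nat_lit 836) (nat_lit 22992792298) (nat_lit 912) (nat_lit 626538620)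 (nat_lit 398) (nat_lit 5) (nat_lit 409) (nat_lit 5) (nat_lit 410) (nat_lit 5) (nat_lit 644) (nat_lit 610) (nat_lit 306)) (XT.nd (nat_lit 78) (nat_lit 836) (nat_lit 0) (XT.lf (nat_lit 0) (nat_lit 3145882751) (nat_lit 912) (nat_lit 4735804077) (nat_lit 76) (nat_lit 26991097815) (nat_lit 397) (nat_lit 5) (nat_lit 409) (nat_lit 5) (nat_lit 398) (nat_lit 5) (nat_lit 645) (nat_lit 610) (nat_lit 305)) (XT.lf (nat_lit 0) (nat_lit 7128825642) (nat_lit 912) (nat_lit 20596903632) (nat_lit 76) (nat_lit 7533193638) (nat_lit 386) (nat_lit 5) (nat_lit 398) (nat_lit 5) (nat_lit 387) (nat_lit 5) (nat_lit 646) (nat_lit 610) (nat_lit 304))))))) (XT.nd (nat_lit 780) (nat_lit 1368) (nat_lit 0) (XT.nd (nat_lit 390) (nat_lit 1520) (nat_lit 0) (XT.nd (nat_lit 156) (nat_lit 1520) (nat_lit 0) (XT.nd (nat_lit 78) (nat_lit 836) (nat_lit 0) (XT.lf (nat_lit 0) (nat_lit 11274005894) (nat_lit 912) (nat_lit 1194213759) (nat_lit 76) (nat_lit 23182912808) (nat_lit 386) (nat_lit 5) (nat_lit 398) (nat_lit 5) (nat_lit 387) (nat_lit 5) (nat_lit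 647) (nat_lit 610) (nat_lit 303)) (XT.lf (nat_lit 0) (nat_lit 15643748964) (nat_lit 912) (nat_lit 17227645810) (nat_lit 76) (nat_lit 3176958330) (nat_lit 375) (nat_lit 5) (nat_lit 387) (nat_lit 5) (nat_lit 376) (nat_lit 5) (nat_lit 648) (nat_lit 610) (nat_lit 302))) (XT.nd (nat_lit 78) (nat_lit 760) (nat_lit 0) (XT.lf (nat_lit 0) (nat_lit 2750566558) (nat_lit 760) (nat_lit 17457260065) (nat_lit 836) (nat_lit 16243552824) (nat_lit 365) (nat_lit 5) (nat_lit 375) (nat_lit 5) (nat_lit 376) (nat_lit 5) (nat_lit 649) (nat_lit 610) (nat_lit 301)) (XT.nd (nat_lit 78) (nat_lit 760) (nat_lit 0) (XT.lf (nat_lit 0) (nat_lit 23360238915) (nat_lit 760) (nat_lit 1617016793) (nat_lit 836) (nat_lit 11882929293) (nat_lit 365) (nat_lit 5) (nat_lit 375) (nat_lit 5) (nat_lit 376) (nat_lit 5) (nat_lit 650) (nat_lit 610) (nat_lit 300)) (XT.lf (nat_lit 0) (nat_lit 7102052015) (nat_lit 760) (nat_lit 22879028963) (nat_lit 836) (nat_lit 7293305615) (nat_lit 355) (nat_lit 5) (nat_lit 365) (nat_lit 5) (nat_lit 366) (nat_lit 5) (nat_lit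 651) (nat_lit 610) (nat_lit 299))))) (XT.nd (nat_lit 156) (nat_lit 760) (nat_lit 0) (XT.nd (nat_lit 78) (nat_lit 760) (nat_lit 0) (XT.lf (nat_lit 0) (nat_lit 28286617873) (nat_lit 760) (nat_lit 6898106791) (nat_lit 836) (nat_lit 2510152793) (nat_lit 355) (nat_lit 5) (nat_lit 365) (nat_lit 5) (nat_lit 366) (nat_lit 5) (nat_lit 652) (nat_lit 610) (nat_lit 298)) (XT.lf (nat_lit 0) (nat_lit 2475118597) (nat_lit 760) (nat_lit 26273293769) (nat_lit 76) (nat_lit 9372307851) (nat_lit 345) (nat_lit 5) (nat_lit 355) (nat_lit 5) (nat_lit 346) (nat_lit 5) (nat_lit 653) (nat_lit 610) (nat_lit 297))) (XT.nd (nat_lit 78) (nat_lit 760) (nat_lit 0) (XT.lf (nat_lit 0) (nat_lit 7634300054) (nat_lit 760) (nat_lit 4962405951) (nat_lit 76) (nat_lit 25955885746) (nat_lit 345) (nat_lit 5) (nat_lit 355) (nat_lit 5) (nat_lit 346) (nat_lit 5) (nat_lit 654) (nat_lit 610) (nat_lit 296)) (XT.nd (nat_lit 78) (nat_lit 0) (nat_lit 0) (XT.lf (nat_lit 0) (nat_lit 13031500331) (nat_lit 836) (nat_lit 22020815488) (nat_lit 76) (nat_lit 3938088265)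 (nat_lit 335) (nat_lit 5) (nat_lit 346) (nat_lit 5) (nat_lit 336) (nat_lit 5) (nat_lit 655) (nat_lit 610) (nat_lit 295)) (XT.lf (nat_lit 0) (nat_lit 18652181211) (nat_lit 836) (nat_lit 114066083) (nat_lit 76) (nat_lit 20668414709) (nat_lit 335) (nat_lit 5) (nat_lit 346) (nat_lit 5) (nat_lit 336) (nat_lit 5) (nat_lit 656) (nat_lit 610) (nat_lit 294)))))) (XT.nd (nat_lit 77766) (nat_lit 0) (nat_lit 11780) (XT.nd (nat_lit 156) (nat_lit 0) (nat_lit 0) (XT.nd (nat_lit 78) (nat_lit 684) (nat_lit 0) (XT.lf (nat_lit 0) (nat_lit 22524658001) (nat_lit 684) (nat_lit 2005484117) (nat_lit 760) (nat_lit 15354765705) (nat_lit 326) (nat_lit 5) (nat_lit 335) (nat_lit 5) (nat_lit 336) (nat_lit 5) (nat_lit 657) (nat_lit 610) (nat_lit 293)) (XT.lf (nat_lit 0) (nat_lit 5242745628) (nat_lit 684) (nat_lit 25414340948) (nat_lit 760) (nat_lit 9684443563) (nat_lit 317) (nat_lit 5) (nat_lit 326) (nat_lit 5) (nat_lit 327) (nat_lit 5) (nat_lit 658) (nat_lit 610) (nat_lit 292))) (XT.nd (nat_lit 77454) (nat_lit 0) (nat_lit 11704) (XT.lf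 (nat_lit 0) (nat_lit 28518085486) (nat_lit 684) (nat_lit 8516828232) (nat_lit 760) (nat_lit 3769804375) (nat_lit 317) (nat_lit 5) (nat_lit 326) (nat_lit 5) (nat_lit 327) (nat_lit 5) (nat_lit 659) (nat_lit 610) (nat_lit 291)) (XT.nd (nat_lit 78) (nat_lit 0) (nat_lit 0) (XT.lf (nat_lit 0) (nat_lit 641544452) (nat_lit 1900) (nat_lit 5852083540) (nat_lit 1900) (nat_lit 5852083540) (nat_lit 471) (nat_lit 3) (nat_lit 496) (nat_lit 3) (nat_lit 496) (nat_lit 5) (nat_lit 611) (nat_lit 611) (nat_lit 338)) (XT.lf (nat_lit 76) (nat_lit 549583227) (nat_lit 0) (nat_lit 858457947) (nat_lit 1900) (nat_lit 23528047108) (nat_lit 472) (nat_lit 5) (nat_lit 471) (nat_lit 3) (nat_lit 496) (nat_lit 5) (nat_lit 612) (nat_lit 611) (nat_lit 337))))) (XT.nd (nat_lit 234) (nat_lit 0) (nat_lit 76) (XT.nd (nat_lit 78) (nat_lit 0) (nat_lit 0) (XT.lf (nat_lit 0) (nat_lit 1686455293) (nat_lit 1824) (nat_lit 12053821867) (nat_lit 1900) (nat_lit 11442350564) (nat_lit 472) (nat_lit 5) (nat_lit 496) (nat_lit 5) (nat_lit 497) (nat_lit 5) (nat_lit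 613) (nat_lit 611) (nat_lit 336)) (XT.nd (nat_lit 78) (nat_lit 0) (nat_lit 76) (XT.lf (nat_lit 76) (nat_lit 525210356) (nat_lit 0) (nat_lit 1451530397) (nat_lit 1900) (nat_lit 23457231307) (nat_lit 473) (nat_lit 5) (nat_lit 472) (nat_lit 5) (nat_lit 497) (nat_lit 5) (nat_lit 614) (nat_lit 611) (nat_lit 335)) (XT.lf (nat_lit 0) (nat_lit 2423474252) (nat_lit 1824) (nat_lit 12243564399) (nat_lit 1900) (nat_lit 11020291954) (nat_lit 473) (nat_lit 5) (nat_lit 497) (nat_lit 5) (nat_lit 498) (nat_lit 5) (nat_lit 615) (nat_lit 611) (nat_lit 334)))) (XT.nd (nat_lit 78) (nat_lit 0) (nat_lit 76) (XT.lf (nat_lit 76) (nat_lit 672615139) (nat_lit 0) (nat_lit 2217821862) (nat_lit 1900) (nat_lit 23055093589) (nat_lit 474) (nat_lit 5) (nat_lit 473) (nat_lit 5) (nat_lit 498) (nat_lit 5) (nat_lit 616) (nat_lit 611) (nat_lit 333)) (XT.nd (nat_lit 78) (nat_lit 0) (nat_lit 0) (XT.lf (nat_lit 0) (nat_lit 3514854254) (nat_lit 1824) (nat_lit 12264338663) (nat_lit 1900) (nat_lit 10426739513) (nat_lit 474) (nat_lit 5) (nat_lit 498)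 (nat_lit 5) (nat_lit 499) (nat_lit 5) (nat_lit 617) (nat_lit 611) (nat_lit 332)) (XT.lf (nat_lit 76) (nat_lit 1001304758) (nat_lit 0) (nat_lit 3169060261) (nat_lit 1900) (nat_lit 22300805341) (nat_lit 475) (nat_lit 5) (nat_lit 474) (nat_lit 5) (nat_lit 499) (nat_lit 5) (nat_lit 618) (nat_lit 611) (nat_lit 331))))))))
noncomputable def xc234 : XT := (XT.nd (nat_lit 1560) (nat_lit 9652) (nat_lit 0) (XT.nd (nat_lit 780) (nat_lit 2356) (nat_lit 0) (XT.nd (nat_lit 390) (nat_lit 0) (nat_lit 152) (XT.nd (nat_lit 156) (nat_lit 0) (nat_lit 76) (XT.nd (nat_lit 78) (nat_lit 0) (nat_lit 0) (XT.lf (nat_lit 0) (nat_lit 4982230022) (nat_lit 1824) (nat_lit 12106636827) (nat_lit 1900) (nat_lit 9649981472) (nat_lit 475) (nat_lit 5) (nat_lit 499) (nat_lit 5) (nat_lit 500) (nat_lit 5) (nat_lit 619) (nat_lit 611) (nat_lit 330)) (XT.lf (nat_lit 76) (nat_lit 1521255257) (nat_lit 0) (nat_lit 4317454602) (nat_lit 1900) (nat_lit 21172602583) (nat_lit 476) (nat_lit 5) (nat_lit 475) (nat_lit 5) (nat_lit 500) (nat_lit 5) (nat_lit 620)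 (nat_lit 611) (nat_lit 329))) (XT.nd (nat_lit 78) (nat_lit 0) (nat_lit 0) (XT.lf (nat_lit 0) (nat_lit 6848204169) (nat_lit 1824) (nat_lit 11760482562) (nat_lit 1900) (nat_lit 8677821562) (nat_lit 476) (nat_lit 5) (nat_lit 500) (nat_lit 5) (nat_lit 501) (nat_lit 5) (nat_lit 621) (nat_lit 611) (nat_lit 328)) (XT.nd (nat_lit 78) (nat_lit 0) (nat_lit 76) (XT.lf (nat_lit 76) (nat_lit 2242928876) (nat_lit 0) (nat_lit 5675720207) (nat_lit 1900) (nat_lit 19647743910) (nat_lit 477) (nat_lit 5) (nat_lit 476) (nat_lit 5) (nat_lit 501) (nat_lit 5) (nat_lit 622) (nat_lit 611) (nat_lit 327)) (XT.lf (nat_lit 0) (nat_lit 9136390421) (nat_lit 1824) (nat_lit 11215413622) (nat_lit 1900) (nat_lit 7497553735) (nat_lit 477) (nat_lit 5) (nat_lit 501) (nat_lit 5) (nat_lit 502) (nat_lit 5) (nat_lit 623) (nat_lit 611) (nat_lit 326))))) (XT.nd (nat_lit 156) (nat_lit 0) (nat_lit 76) (XT.nd (nat_lit 78) (nat_lit 0) (nat_lit 76) (XT.lf (nat_lit 76) (nat_lit 3177292161) (nat_lit 0) (nat_lit 7257104799) (nat_lit 1900) (nat_lit 17702466831)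 (nat_lit 478) (nat_lit 5) (nat_lit 477) (nat_lit 5) (nat_lit 502) (nat_lit 5) (nat_lit 624) (nat_lit 611) (nat_lit 325)) (XT.lf (nat_lit 0) (nat_lit 11871458507) (nat_lit 1824) (nat_lit 10460463633) (nat_lit 1900) (nat_lit 6095936021) (nat_lit 478) (nat_lit 5) (nat_lit 502) (nat_lit 5) (nat_lit 503) (nat_lit 5) (nat_lit 625) (nat_lit 611) (nat_lit 324))) (XT.nd (nat_lit 78) (nat_lit 0) (nat_lit 76) (XT.lf (nat_lit 76) (nat_lit 4335834878) (nat_lit 0) (nat_lit 9075415472) (nat_lit 1900) (nat_lit 15311942421) (nat_lit 479) (nat_lit 5) (nat_lit 478) (nat_lit 5) (nat_lit 503) (nat_lit 5) (nat_lit 626) (nat_lit 611) (nat_lit 323)) (XT.nd (nat_lit 78) (nat_lit 0) (nat_lit 0) (XT.lf (nat_lit 0) (nat_lit 15079180780) (nat_lit 1824) (nat_lit 9484143087) (nat_lit 1900) (nat_lit 4459163483) (nat_lit 479) (nat_lit 5) (nat_lit 503) (nat_lit 5) (nat_lit 504) (nat_lit 5) (nat_lit 627) (nat_lit 611) (nat_lit 322)) (XT.lf (nat_lit 76) (nat_lit 5730589752) (nat_lit 0) (nat_lit 11145046635) (nat_lit 1900) (nat_lit 12450228230)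 (nat_lit 480) (nat_lit 5) (nat_lit 479) (nat_lit 5) (nat_lit 504) (nat_lit 5) (nat_lit 628) (nat_lit 611) (nat_lit 321)))))) (XT.nd (nat_lit 390) (nat_lit 2736) (nat_lit 0) (XT.nd (nat_lit 156) (nat_lit 0) (nat_lit 76) (XT.nd (nat_lit 78) (nat_lit 0) (nat_lit 0) (XT.lf (nat_lit 0) (nat_lit 18786480644) (nat_lit 1824) (nat_lit 8274419522) (nat_lit 1900) (nat_lit 2572840197) (nat_lit 480) (nat_lit 5) (nat_lit 504) (nat_lit 5) (nat_lit 505) (nat_lit 5) (nat_lit 629) (nat_lit 611) (nat_lit 320)) (XT.lf (nat_lit 76) (nat_lit 7374153053) (nat_lit 0) (nat_lit 13481008937) (nat_lit 1900) (nat_lit 9090219355) (nat_lit 481) (nat_lit 5) (nat_lit 480) (nat_lit 5) (nat_lit 505) (nat_lit 5) (nat_lit 630) (nat_lit 611) (nat_lit 319))) (XT.nd (nat_lit 78) (nat_lit 0) (nat_lit 0) (XT.lf (nat_lit 0) (nat_lit 23021482874) (nat_lit 1824) (nat_lit 6818696845) (nat_lit 1900) (nat_lit 421950230) (nat_lit 481) (nat_lit 5) (nat_lit 505) (nat_lit 5) (nat_lit 506) (nat_lit 5) (nat_lit 631) (nat_lit 611) (nat_lit 318)) (XT.nd (nat_lit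 78) (nat_lit 0) (nat_lit 0) (XT.lf (nat_lit 76) (nat_lit 9279706055) (nat_lit 0) (nat_lit 16098959272) (nat_lit 1900) (nat_lit 5203597614) (nat_lit 482) (nat_lit 5) (nat_lit 481) (nat_lit 5) (nat_lit 506) (nat_lit 5) (nat_lit 632) (nat_lit 611) (nat_lit 317)) (XT.lf (nat_lit 76) (nat_lit 25790910825) (nat_lit 0) (nat_lit 2035873309) (nat_lit 1900) (nat_lit 3081138720) (nat_lit 482) (nat_lit 5) (nat_lit 481) (nat_lit 5) (nat_lit 506) (nat_lit 5) (nat_lit 633) (nat_lit 611) (nat_lit 316))))) (XT.nd (nat_lit 156) (nat_lit 988) (nat_lit 0) (XT.nd (nat_lit 78) (nat_lit 1900) (nat_lit 0) (XT.lf (nat_lit 76) (nat_lit 11461037395) (nat_lit 0) (nat_lit 19015231883) (nat_lit 1900) (nat_lit 760778722) (nat_lit 483) (nat_lit 5) (nat_lit 482) (nat_lit 5) (nat_lit 507) (nat_lit 5) (nat_lit 634) (nat_lit 611) (nat_lit 315)) (XT.lf (nat_lit 0) (nat_lit 1631064719) (nat_lit 1900) (nat_lit 3157815821) (nat_lit 1976) (nat_lit 26782743895) (nat_lit 457) (nat_lit 5) (nat_lit 482) (nat_lit 5) (nat_lit 483) (nat_lit 5) (nat_lit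 635) (nat_lit 611) (nat_lit 314))) (XT.nd (nat_lit 78) (nat_lit 1064) (nat_lit 0) (XT.lf (nat_lit 0) (nat_lit 4213152019) (nat_lit 1900) (nat_lit 18005446163) (nat_lit 76) (nat_lit 9691141871) (nat_lit 458) (nat_lit 5) (nat_lit 483) (nat_lit 5) (nat_lit 459) (nat_lit 5) (nat_lit 636) (nat_lit 611) (nat_lit 313)) (XT.nd (nat_lit 78) (nat_lit 1064) (nat_lit 0) (XT.lf (nat_lit 0) (nat_lit 6898083277) (nat_lit 1900) (nat_lit 937214682) (nat_lit 76) (nat_lit 24418296087) (nat_lit 458) (nat_lit 5) (nat_lit 483) (nat_lit 5) (nat_lit 459) (nat_lit 5) (nat_lit 637) (nat_lit 611) (nat_lit 312)) (XT.lf (nat_lit 0) (nat_lit 9788367389) (nat_lit 1140) (nat_lit 15957610119) (nat_lit 76) (nat_lit 6855314630) (nat_lit 444) (nat_lit 5) (nat_lit 459) (nat_lit 5) (nat_lit 445) (nat_lit 5) (nat_lit 638) (nat_lit 611) (nat_lit 311))))))) (XT.nd (nat_lit 780) (nat_lit 5244) (nat_lit 0) (XT.nd (nat_lit 390) (nat_lit 1748) (nat_lit 0) (XT.nd (nat_lit 156) (nat_lit 1748) (nat_lit 0) (XT.nd (nat_lit 78) (nat_lit 0) (nat_lit 0) (XT.lf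 (nat_lit 0) (nat_lit 1600531138) (nat_lit 912) (nat_lit 11202757527) (nat_lit 988) (nat_lit 20151318998) (nat_lit 432) (nat_lit 5) (nat_lit 444) (nat_lit 5) (nat_lit 445) (nat_lit 5) (nat_lit 639) (nat_lit 611) (nat_lit 310)) (XT.lf (nat_lit 0) (nat_lit 16008123527) (nat_lit 988) (nat_lit 13612626279) (nat_lit 76) (nat_lit 3691647487) (nat_lit 432) (nat_lit 5) (nat_lit 445) (nat_lit 5) (nat_lit 433) (nat_lit 5) (nat_lit 640) (nat_lit 611) (nat_lit 309))) (XT.nd (nat_lit 78) (nat_lit 836) (nat_lit 0) (XT.lf (nat_lit 0) (nat_lit 4466435593) (nat_lit 912) (nat_lit 14912088465) (nat_lit 988) (nat_lit 14296789376) (nat_lit 420) (nat_lit 5) (nat_lit 432) (nat_lit 5) (nat_lit 433) (nat_lit 5) (nat_lit 641) (nat_lit 611) (nat_lit 308)) (XT.nd (nat_lit 78) (nat_lit 836) (nat_lit 0) (XT.lf (nat_lit 0) (nat_lit 22907178135) (nat_lit 988) (nat_lit 10954882825) (nat_lit 76) (nat_lit 181610122) (nat_lit 420) (nat_lit 5) (nat_lit 433) (nat_lit 5) (nat_lit 421) (nat_lit 5) (nat_lit 642) (nat_lit 611) (nat_lit 307)) (XT.lf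 (nat_lit 0) (nat_lit 7664358744) (nat_lit 836) (nat_lit 18988900980) (nat_lit 912) (nat_lit 7763199166) (nat_lit 409) (nat_lit 5) (nat_lit 420) (nat_lit 5) (nat_lit 421) (nat_lit 5) (nat_lit 643) (nat_lit 611) (nat_lit 306))))) (XT.nd (nat_lit 156) (nat_lit 912) (nat_lit 0) (XT.nd (nat_lit 78) (nat_lit 836) (nat_lit 0) (XT.lf (nat_lit 0) (nat_lit 26802894735) (nat_lit 836) (nat_lit 3743240325) (nat_lit 912) (nat_lit 4249130042) (nat_lit 409) (nat_lit 5) (nat_lit 420) (nat_lit 5) (nat_lit 421) (nat_lit 5) (nat_lit 644) (nat_lit 611) (nat_lit 305)) (XT.lf (nat_lit 0) (nat_lit 11211343525) (nat_lit 836) (nat_lit 23453368503) (nat_lit 912) (nat_lit 513978617) (nat_lit 398) (nat_lit 5) (nat_lit 409) (nat_lit 5) (nat_lit 410) (nat_lit 5) (nat_lit 645) (nat_lit 611) (nat_lit 304))) (XT.nd (nat_lit 78) (nat_lit 836) (nat_lit 0) (XT.lf (nat_lit 0) (nat_lit 3329830001) (nat_lit 912) (nat_lit 4709384625) (nat_lit 76) (nat_lit 27528598577) (nat_lit 397) (nat_lit 5) (nat_lit 409) (nat_lit 5) (nat_lit 398) (nat_lit 5)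 (nat_lit 646) (nat_lit 611) (nat_lit 303)) (XT.nd (nat_lit 78) (nat_lit 0) (nat_lit 0) (XT.lf (nat_lit 0) (nat_lit 7390845787) (nat_lit 912) (nat_lit 20886113796) (nat_lit 76) (nat_lit 7684746502) (nat_lit 386) (nat_lit 5) (nat_lit 398) (nat_lit 5) (nat_lit 387) (nat_lit 5) (nat_lit 647) (nat_lit 611) (nat_lit 302)) (XT.lf (nat_lit 0) (nat_lit 11616587612) (nat_lit 912) (nat_lit 1097776555) (nat_lit 76) (nat_lit 23647442624) (nat_lit 386) (nat_lit 5) (nat_lit 398) (nat_lit 5) (nat_lit 387) (nat_lit 5) (nat_lit 648) (nat_lit 611) (nat_lit 301)))))) (XT.nd (nat_lit 390) (nat_lit 2888) (nat_lit 0) (XT.nd (nat_lit 156) (nat_lit 760) (nat_lit 0) (XT.nd (nat_lit 78) (nat_lit 760) (nat_lit 0) (XT.lf (nat_lit 0) (nat_lit 16072231136) (nat_lit 912) (nat_lit 17450376676) (nat_lit 76) (nat_lit 3244394046) (nat_lit 375) (nat_lit 5) (nat_lit 387) (nat_lit 5) (nat_lit 376) (nat_lit 5) (nat_lit 649) (nat_lit 611) (nat_lit 300)) (XT.lf (nat_lit 0) (nat_lit 2926598478) (nat_lit 760) (nat_lit 17799510808) (nat_lit 836) (nat_lit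 16452009184) (nat_lit 365) (nat_lit 5) (nat_lit 375) (nat_lit 5) (nat_lit 376) (nat_lit 5) (nat_lit 650) (nat_lit 611) (nat_lit 299))) (XT.nd (nat_lit 78) (nat_lit 760) (nat_lit 0) (XT.lf (nat_lit 0) (nat_lit 23946091330) (nat_lit 760) (nat_lit 1642597856) (nat_lit 836) (nat_lit 12006455823) (nat_lit 365) (nat_lit 5) (nat_lit 375) (nat_lit 5) (nat_lit 376) (nat_lit 5) (nat_lit 651) (nat_lit 611) (nat_lit 298)) (XT.nd (nat_lit 78) (nat_lit 0) (nat_lit 0) (XT.lf (nat_lit 0) (nat_lit 7364145449) (nat_lit 760) (nat_lit 23327074108) (nat_lit 836) (nat_lit 7326438621) (nat_lit 355) (nat_lit 5) (nat_lit 365) (nat_lit 5) (nat_lit 366) (nat_lit 5) (nat_lit 652) (nat_lit 611) (nat_lit 297)) (XT.lf (nat_lit 0) (nat_lit 28970048656) (nat_lit 760) (nat_lit 7026720462) (nat_lit 836) (nat_lit 2449833195) (nat_lit 355) (nat_lit 5) (nat_lit 365) (nat_lit 5) (nat_lit 366) (nat_lit 5) (nat_lit 653) (nat_lit 611) (nat_lit 296))))) (XT.nd (nat_lit 234) (nat_lit 1368) (nat_lit 0) (XT.nd (nat_lit 78) (nat_lit 760) (nat_lit 0)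 (XT.lf (nat_lit 0) (nat_lit 2632393199) (nat_lit 760) (nat_lit 26678299739) (nat_lit 76) (nat_lit 9570280766) (nat_lit 345) (nat_lit 5) (nat_lit 355) (nat_lit 5) (nat_lit 346) (nat_lit 5) (nat_lit 654) (nat_lit 611) (nat_lit 295)) (XT.nd (nat_lit 78) (nat_lit 760) (nat_lit 0) (XT.lf (nat_lit 0) (nat_lit 7892645104) (nat_lit 760) (nat_lit 4943556123) (nat_lit 76) (nat_lit 26485323812) (nat_lit 345) (nat_lit 5) (nat_lit 355) (nat_lit 5) (nat_lit 346) (nat_lit 5) (nat_lit 655) (nat_lit 611) (nat_lit 294)) (XT.lf (nat_lit 0) (nat_lit 13396563588) (nat_lit 836) (nat_lit 22341902793) (nat_lit 76) (nat_lit 4029651859) (nat_lit 335) (nat_lit 5) (nat_lit 346) (nat_lit 5) (nat_lit 336) (nat_lit 5) (nat_lit 656) (nat_lit 611) (nat_lit 293)))) (XT.nd (nat_lit 78) (nat_lit 684) (nat_lit 0) (XT.lf (nat_lit 0) (nat_lit 650344) (nat_lit 684) (nat_lit 19126964253) (nat_lit 760) (nat_lit 21093687693) (nat_lit 326) (nat_lit 5) (nat_lit 335) (nat_lit 5) (nat_lit 336) (nat_lit 5) (nat_lit 657) (nat_lit 611) (nat_lit 292)) (XT.nd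 (nat_lit 78) (nat_lit 684) (nat_lit 0) (XT.lf (nat_lit 0) (nat_lit 23091370715) (nat_lit 684) (nat_lit 2030506799) (nat_lit 760) (nat_lit 15558700757) (nat_lit 326) (nat_lit 5) (nat_lit 335) (nat_lit 5) (nat_lit 336) (nat_lit 5) (nat_lit 658) (nat_lit 611) (nat_lit 291)) (XT.lf (nat_lit 0) (nat_lit 5464972550) (nat_lit 684) (nat_lit 25905263412) (nat_lit 760) (nat_lit 9776119669) (nat_lit 317) (nat_lit 5) (nat_lit 326) (nat_lit 5) (nat_lit 327) (nat_lit 5) (nat_lit 659) (nat_lit 611) (nat_lit 290))))))))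
noncomputable def xc235 : XT := (XT.nd (nat_lit 1560) (nat_lit 8056) (nat_lit 0) (XT.nd (nat_lit 780) (nat_lit 0) (nat_lit 380) (XT.nd (nat_lit 390) (nat_lit 0) (nat_lit 152) (XT.nd (nat_lit 156) (nat_lit 0) (nat_lit 76) (XT.nd (nat_lit 78) (nat_lit 0) (nat_lit 0) (XT.lf (nat_lit 0) (nat_lit 762223665) (nat_lit 1900) (nat_lit 5914119295) (nat_lit 1900) (nat_lit 5914119295) (nat_lit 471) (nat_lit 3) (nat_lit 496) (nat_lit 3) (nat_lit 496) (nat_lit 5) (nat_lit 612) (nat_lit 612) (nat_lit 336)) (XT.lf (nat_lit 76) (nat_lit 669862961) (nat_lit 0) (nat_lit 978515910) (nat_lit 1900) (nat_lit 23782174815) (nat_lit 472) (nat_lit 5) (nat_lit 471) (nat_lit 3) (nat_lit 496) (nat_lit 5) (nat_lit 613) (nat_lit 612) (nat_lit 335))) (XT.nd (nat_lit 78) (nat_lit 0) (nat_lit 0) (XT.lf (nat_lit 0) (nat_lit 1927546017) (nat_lit 1824) (nat_lit 12182925310) (nat_lit 1900) (nat_lit 11571649146) (nat_lit 472) (nat_lit 5) (nat_lit 496) (nat_lit 5) (nat_lit 497) (nat_lit 5) (nat_lit 614) (nat_lit 612) (nat_lit 334)) (XT.nd (nat_lit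 78) (nat_lit 0) (nat_lit 76) (XT.lf (nat_lit 76) (nat_lit 646950893) (nat_lit 0) (nat_lit 1573342600) (nat_lit 1900) (nat_lit 23718265324) (nat_lit 473) (nat_lit 5) (nat_lit 472) (nat_lit 5) (nat_lit 497) (nat_lit 5) (nat_lit 615) (nat_lit 612) (nat_lit 333)) (XT.lf (nat_lit 0) (nat_lit 2671370722) (nat_lit 1824) (nat_lit 12374777437) (nat_lit 1900) (nat_lit 11150928433) (nat_lit 473) (nat_lit 5) (nat_lit 497) (nat_lit 5) (nat_lit 498) (nat_lit 5) (nat_lit 616) (nat_lit 612) (nat_lit 332))))) (XT.nd (nat_lit 156) (nat_lit 0) (nat_lit 76) (XT.nd (nat_lit 78) (nat_lit 0) (nat_lit 76) (XT.lf (nat_lit 76) (nat_lit 798977940) (nat_lit 0) (nat_lit 2345517543) (nat_lit 1900) (nat_lit 23316008876) (nat_lit 474) (nat_lit 5) (nat_lit 473) (nat_lit 5) (nat_lit 498) (nat_lit 5) (nat_lit 617) (nat_lit 612) (nat_lit 331)) (XT.lf (nat_lit 0) (nat_lit 3777022562) (nat_lit 1824) (nat_lit 12394538736) (nat_lit 1900) (nat_lit 10554640740) (nat_lit 474) (nat_lit 5) (nat_lit 498) (nat_lit 5) (nat_lit 499) (nat_lit 5) (nat_lit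 618) (nat_lit 612) (nat_lit 330))) (XT.nd (nat_lit 78) (nat_lit 0) (nat_lit 76) (XT.lf (nat_lit 76) (nat_lit 1135660404) (nat_lit 0) (nat_lit 3306963261) (nat_lit 1900) (nat_lit 22554181687) (nat_lit 475) (nat_lit 5) (nat_lit 474) (nat_lit 5) (nat_lit 499) (nat_lit 5) (nat_lit 619) (nat_lit 612) (nat_lit 329)) (XT.nd (nat_lit 78) (nat_lit 0) (nat_lit 0) (XT.lf (nat_lit 0) (nat_lit 5266548643) (nat_lit 1824) (nat_lit 12232493278) (nat_lit 1900) (nat_lit 9770878721) (nat_lit 475) (nat_lit 5) (nat_lit 499) (nat_lit 5) (nat_lit 500) (nat_lit 5) (nat_lit 620) (nat_lit 612) (nat_lit 328)) (XT.lf (nat_lit 76) (nat_lit 1667191672) (nat_lit 0) (nat_lit 4470095321) (nat_lit 1900) (nat_lit 21410604693) (nat_lit 476) (nat_lit 5) (nat_lit 475) (nat_lit 5) (nat_lit 500) (nat_lit 5) (nat_lit 621) (nat_lit 612) (nat_lit 327)))))) (XT.nd (nat_lit 390) (nat_lit 0) (nat_lit 152) (XT.nd (nat_lit 156) (nat_lit 0) (nat_lit 76) (XT.nd (nat_lit 78) (nat_lit 0) (nat_lit 0) (XT.lf (nat_lit 0) (nat_lit 7162984457) (nat_lit 1824)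 (nat_lit 11878448367) (nat_lit 1900) (nat_lit 8787238581) (nat_lit 476) (nat_lit 5) (nat_lit 500) (nat_lit 5) (nat_lit 501) (nat_lit 5) (nat_lit 622) (nat_lit 612) (nat_lit 326)) (XT.lf (nat_lit 76) (nat_lit 2404259959) (nat_lit 0) (nat_lit 5847847934) (nat_lit 1900) (nat_lit 19862100723) (nat_lit 477) (nat_lit 5) (nat_lit 476) (nat_lit 5) (nat_lit 501) (nat_lit 5) (nat_lit 623) (nat_lit 612) (nat_lit 325))) (XT.nd (nat_lit 78) (nat_lit 0) (nat_lit 0) (XT.lf (nat_lit 0) (nat_lit 9490397908) (nat_lit 1824) (nat_lit 11321716699) (nat_lit 1900) (nat_lit 7590794419) (nat_lit 477) (nat_lit 5) (nat_lit 501) (nat_lit 5) (nat_lit 502) (nat_lit 5) (nat_lit 624) (nat_lit 612) (nat_lit 324)) (XT.nd (nat_lit 78) (nat_lit 0) (nat_lit 76) (XT.lf (nat_lit 76) (nat_lit 3358066850) (nat_lit 0) (nat_lit 7453700429) (nat_lit 1900) (nat_lit 17884450027) (nat_lit 478) (nat_lit 5) (nat_lit 477) (nat_lit 5) (nat_lit 502) (nat_lit 5) (nat_lit 625) (nat_lit 612) (nat_lit 323)) (XT.lf (nat_lit 0) (nat_lit 12273935040) (nat_lit 1824)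 (nat_lit 10551097732) (nat_lit 1900) (nat_lit 6168071690) (nat_lit 478) (nat_lit 5) (nat_lit 502) (nat_lit 5) (nat_lit 503) (nat_lit 5) (nat_lit 626) (nat_lit 612) (nat_lit 322))))) (XT.nd (nat_lit 156) (nat_lit 0) (nat_lit 76) (XT.nd (nat_lit 78) (nat_lit 0) (nat_lit 76) (XT.lf (nat_lit 76) (nat_lit 4540346648) (nat_lit 0) (nat_lit 9301704653) (nat_lit 1900) (nat_lit 15452344087) (nat_lit 479) (nat_lit 5) (nat_lit 478) (nat_lit 5) (nat_lit 503) (nat_lit 5) (nat_lit 627) (nat_lit 612) (nat_lit 321)) (XT.lf (nat_lit 0) (nat_lit 15539867529) (nat_lit 1824) (nat_lit 9554858244) (nat_lit 1900) (nat_lit 4505019731) (nat_lit 479) (nat_lit 5) (nat_lit 503) (nat_lit 5) (nat_lit 504) (nat_lit 5) (nat_lit 628) (nat_lit 612) (nat_lit 320))) (XT.nd (nat_lit 78) (nat_lit 0) (nat_lit 76) (XT.lf (nat_lit 76) (nat_lit 5963386569) (nat_lit 0) (nat_lit 11406513345) (nat_lit 1900) (nat_lit 12539337636) (nat_lit 480) (nat_lit 5) (nat_lit 479) (nat_lit 5) (nat_lit 504) (nat_lit 5) (nat_lit 629) (nat_lit 612) (nat_lit 319))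 (XT.nd (nat_lit 78) (nat_lit 0) (nat_lit 0) (XT.lf (nat_lit 0) (nat_lit 19315642027) (nat_lit 1824) (nat_lit 8320712054) (nat_lit 1900) (nat_lit 2586983295) (nat_lit 480) (nat_lit 5) (nat_lit 504) (nat_lit 5) (nat_lit 505) (nat_lit 5) (nat_lit 630) (nat_lit 612) (nat_lit 318)) (XT.lf (nat_lit 76) (nat_lit 7640047789) (nat_lit 0) (nat_lit 13783409552) (nat_lit 1900) (nat_lit 9117798809) (nat_lit 481) (nat_lit 5) (nat_lit 480) (nat_lit 5) (nat_lit 505) (nat_lit 5) (nat_lit 631) (nat_lit 612) (nat_lit 317))))))) (XT.nd (nat_lit 780) (nat_lit 5092) (nat_lit 0) (XT.nd (nat_lit 390) (nat_lit 1900) (nat_lit 0) (XT.nd (nat_lit 156) (nat_lit 1824) (nat_lit 0) (XT.nd (nat_lit 78) (nat_lit 0) (nat_lit 0) (XT.lf (nat_lit 0) (nat_lit 23629931433) (nat_lit 1824) (nat_lit 6835798891) (nat_lit 1900) (nat_lit 398673043) (nat_lit 481) (nat_lit 5) (nat_lit 505) (nat_lit 5) (nat_lit 506) (nat_lit 5) (nat_lit 632) (nat_lit 612) (nat_lit 316)) (XT.lf (nat_lit 76) (nat_lit 9583787384) (nat_lit 0) (nat_lit 16448337117) (nat_lit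 1900) (nat_lit 5158857351) (nat_lit 482) (nat_lit 5) (nat_lit 481) (nat_lit 5) (nat_lit 506) (nat_lit 5) (nat_lit 633) (nat_lit 612) (nat_lit 315))) (XT.nd (nat_lit 78) (nat_lit 1824) (nat_lit 0) (XT.lf (nat_lit 76) (nat_lit 26422892970) (nat_lit 0) (nat_lit 2103452206) (nat_lit 1900) (nat_lit 2996867166) (nat_lit 482) (nat_lit 5) (nat_lit 481) (nat_lit 5) (nat_lit 506) (nat_lit 5) (nat_lit 634) (nat_lit 612) (nat_lit 314)) (XT.nd (nat_lit 78) (nat_lit 1900) (nat_lit 0) (XT.lf (nat_lit 76) (nat_lit 11808681184) (nat_lit 0) (nat_lit 19417932319) (nat_lit 1900) (nat_lit 632350784) (nat_lit 483) (nat_lit 5) (nat_lit 482) (nat_lit 5) (nat_lit 507) (nat_lit 5) (nat_lit 635) (nat_lit 612) (nat_lit 313)) (XT.lf (nat_lit 0) (nat_lit 1802666015) (nat_lit 1900) (nat_lit 3103016171) (nat_lit 1976) (nat_lit 27294587163) (nat_lit 457) (nat_lit 5) (nat_lit 482) (nat_lit 5) (nat_lit 483) (nat_lit 5) (nat_lit 636) (nat_lit 612) (nat_lit 312))))) (XT.nd (nat_lit 156) (nat_lit 1976) (nat_lit 0) (XT.nd (nat_lit 78) (nat_lit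 0) (nat_lit 0) (XT.lf (nat_lit 0) (nat_lit 4434301986) (nat_lit 1900) (nat_lit 18245498229) (nat_lit 76) (nat_lit 9865389085) (nat_lit 458) (nat_lit 5) (nat_lit 483) (nat_lit 5) (nat_lit 459) (nat_lit 5) (nat_lit 637) (nat_lit 612) (nat_lit 311)) (XT.lf (nat_lit 0) (nat_lit 7170247811) (nat_lit 1900) (nat_lit 838256174) (nat_lit 76) (nat_lit 24887470221) (nat_lit 458) (nat_lit 5) (nat_lit 483) (nat_lit 5) (nat_lit 459) (nat_lit 5) (nat_lit 638) (nat_lit 612) (nat_lit 310))) (XT.nd (nat_lit 78) (nat_lit 912) (nat_lit 0) (XT.lf (nat_lit 0) (nat_lit 10116365353) (nat_lit 1140) (nat_lit 16157079753) (nat_lit 76) (nat_lit 6977220749) (nat_lit 444) (nat_lit 5) (nat_lit 459) (nat_lit 5) (nat_lit 445) (nat_lit 5) (nat_lit 639) (nat_lit 612) (nat_lit 309)) (XT.nd (nat_lit 78) (nat_lit 0) (nat_lit 0) (XT.lf (nat_lit 0) (nat_lit 1751436943) (nat_lit 912) (nat_lit 11438327299) (nat_lit 988) (nat_lit 20421320010) (nat_lit 432) (nat_lit 5) (nat_lit 444) (nat_lit 5) (nat_lit 445) (nat_lit 5) (nat_lit 640) (nat_lit 612)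 (nat_lit 308)) (XT.lf (nat_lit 0) (nat_lit 16456065453) (nat_lit 988) (nat_lit 13765677328) (nat_lit 76) (nat_lit 3754339646) (nat_lit 432) (nat_lit 5) (nat_lit 445) (nat_lit 5) (nat_lit 433) (nat_lit 5) (nat_lit 641) (nat_lit 612) (nat_lit 307)))))) (XT.nd (nat_lit 390) (nat_lit 2508) (nat_lit 0) (XT.nd (nat_lit 156) (nat_lit 1672) (nat_lit 0) (XT.nd (nat_lit 78) (nat_lit 0) (nat_lit 0) (XT.lf (nat_lit 0) (nat_lit 4674181561) (nat_lit 912) (nat_lit 15217955797) (nat_lit 988) (nat_lit 14454154408) (nat_lit 420) (nat_lit 5) (nat_lit 432) (nat_lit 5) (nat_lit 433) (nat_lit 5) (nat_lit 642) (nat_lit 612) (nat_lit 306)) (XT.lf (nat_lit 0) (nat_lit 23488844550) (nat_lit 988) (nat_lit 11055358224) (nat_lit 76) (nat_lit 177864332) (nat_lit 420) (nat_lit 5) (nat_lit 433) (nat_lit 5) (nat_lit 421) (nat_lit 5) (nat_lit 643) (nat_lit 612) (nat_lit 305))) (XT.nd (nat_lit 78) (nat_lit 836) (nat_lit 0) (XT.lf (nat_lit 0) (nat_lit 7935487767) (nat_lit 836) (nat_lit 19372703094) (nat_lit 912) (nat_lit 7794153083) (nat_lit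 409) (nat_lit 5) (nat_lit 420) (nat_lit 5) (nat_lit 421) (nat_lit 5) (nat_lit 644) (nat_lit 612) (nat_lit 304)) (XT.nd (nat_lit 78) (nat_lit 836) (nat_lit 0) (XT.lf (nat_lit 0) (nat_lit 27454483853) (nat_lit 836) (nat_lit 3822050322) (nat_lit 912) (nat_lit 4212240028) (nat_lit 409) (nat_lit 5) (nat_lit 420) (nat_lit 5) (nat_lit 421) (nat_lit 5) (nat_lit 645) (nat_lit 612) (nat_lit 303)) (XT.lf (nat_lit 0) (nat_lit 11552747428) (nat_lit 836) (nat_lit 23923128259) (nat_lit 912) (nat_lit 404024842) (nat_lit 398) (nat_lit 5) (nat_lit 409) (nat_lit 5) (nat_lit 410) (nat_lit 5) (nat_lit 646) (nat_lit 612) (nat_lit 302))))) (XT.nd (nat_lit 234) (nat_lit 1596) (nat_lit 0) (XT.nd (nat_lit 78) (nat_lit 836) (nat_lit 0) (XT.lf (nat_lit 0) (nat_lit 3512756469) (nat_lit 912) (nat_lit 4687140625) (nat_lit 76) (nat_lit 28076939488) (nat_lit 397) (nat_lit 5) (nat_lit 409) (nat_lit 5) (nat_lit 398) (nat_lit 5) (nat_lit 647) (nat_lit 612) (nat_lit 301)) (XT.nd (nat_lit 78) (nat_lit 0) (nat_lit 0) (XT.lf (nat_lit 0) (nat_lit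 7653468193) (nat_lit 912) (nat_lit 21185873837) (nat_lit 76) (nat_lit 7839295902) (nat_lit 386) (nat_lit 5) (nat_lit 398) (nat_lit 5) (nat_lit 387) (nat_lit 5) (nat_lit 648) (nat_lit 612) (nat_lit 300)) (XT.lf (nat_lit 0) (nat_lit 11961473767) (nat_lit 912) (nat_lit 1004082837) (nat_lit 76) (nat_lit 24121229193) (nat_lit 386) (nat_lit 5) (nat_lit 398) (nat_lit 5) (nat_lit 387) (nat_lit 5) (nat_lit 649) (nat_lit 612) (nat_lit 299)))) (XT.nd (nat_lit 78) (nat_lit 760) (nat_lit 0) (XT.lf (nat_lit 0) (nat_lit 16504793784) (nat_lit 912) (nat_lit 17682292658) (nat_lit 76) (nat_lit 3313027169) (nat_lit 375) (nat_lit 5) (nat_lit 387) (nat_lit 5) (nat_lit 376) (nat_lit 5) (nat_lit 650) (nat_lit 612) (nat_lit 298)) (XT.nd (nat_lit 78) (nat_lit 0) (nat_lit 0) (XT.lf (nat_lit 0) (nat_lit 3101451660) (nat_lit 760) (nat_lit 18148874286) (nat_lit 836) (nat_lit 16669155195) (nat_lit 365) (nat_lit 5) (nat_lit 375) (nat_lit 5) (nat_lit 376) (nat_lit 5) (nat_lit 651) (nat_lit 612) (nat_lit 297)) (XT.lf (nat_lit 0) (nat_lit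 24539053561) (nat_lit 760) (nat_lit 1668953011) (nat_lit 836) (nat_lit 12136884771) (nat_lit 365) (nat_lit 5) (nat_lit 375) (nat_lit 5) (nat_lit 376) (nat_lit 5) (nat_lit 652) (nat_lit 612) (nat_lit 296))))))))
noncomputable def xc236 : XT := (XT.nd (nat_lit 79170) (nat_lit 0) (nat_lit 6308) (XT.nd (nat_lit 78390) (nat_lit 0) (nat_lit 11172) (XT.nd (nat_lit 390) (nat_lit 684) (nat_lit 0) (XT.nd (nat_lit 156) (nat_lit 1520) (nat_lit 0) (XT.nd (nat_lit 78) (nat_lit 0) (nat_lit 0) (XT.lf (nat_lit 0) (nat_lit 7626818971) (nat_lit 760) (nat_lit 23784450428) (nat_lit 836) (nat_lit 7364611850) (nat_lit 355) (nat_lit 5) (nat_lit 365) (nat_lit 5) (nat_lit 366) (nat_lit 5) (nat_lit 653) (nat_lit 612) (nat_lit 295)) (XT.lf (nat_lit 0) (nat_lit 29662577681) (nat_lit 760) (nat_lit 7158269419) (nat_lit 836) (nat_lit 2392598935) (nat_lit 355) (nat_lit 5) (nat_lit 365) (nat_lit 5) (nat_lit 366) (nat_lit 5) (nat_lit 654) (nat_lit 612) (nat_lit 294))) (XT.nd (nat_lit 78) (nat_lit 760) (nat_lit 0) (XT.lf (nat_lit 0) (nat_lit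 2788628365) (nat_lit 760) (nat_lit 27096083433) (nat_lit 76) (nat_lit 9771804373) (nat_lit 345) (nat_lit 5) (nat_lit 355) (nat_lit 5) (nat_lit 346) (nat_lit 5) (nat_lit 655) (nat_lit 612) (nat_lit 293)) (XT.nd (nat_lit 78) (nat_lit 760) (nat_lit 0) (XT.lf (nat_lit 0) (nat_lit 8152054185) (nat_lit 760) (nat_lit 4928915186) (nat_lit 76) (nat_lit 27024949888) (nat_lit 345) (nat_lit 5) (nat_lit 355) (nat_lit 5) (nat_lit 346) (nat_lit 5) (nat_lit 656) (nat_lit 612) (nat_lit 292)) (XT.lf (nat_lit 0) (nat_lit 13764872841) (nat_lit 836) (nat_lit 22674045534) (nat_lit 76) (nat_lit 4122549614) (nat_lit 335) (nat_lit 5) (nat_lit 346) (nat_lit 5) (nat_lit 336) (nat_lit 5) (nat_lit 657) (nat_lit 612) (nat_lit 291))))) (XT.nd (nat_lit 77766) (nat_lit 0) (nat_lit 11020) (XT.nd (nat_lit 77688) (nat_lit 0) (nat_lit 11020) (XT.lf (nat_lit 0) (nat_lit 114604091) (nat_lit 684) (nat_lit 19494712362) (nat_lit 760) (nat_lit 21414423935) (nat_lit 326) (nat_lit 5) (nat_lit 335) (nat_lit 5) (nat_lit 336) (nat_lit 5) (nat_lit 658)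 (nat_lit 612) (nat_lit 290)) (XT.lf (nat_lit 0) (nat_lit 881128580) (nat_lit 1900) (nat_lit 5979531712) (nat_lit 1900) (nat_lit 5979531712) (nat_lit 471) (nat_lit 3) (nat_lit 496) (nat_lit 3) (nat_lit 496) (nat_lit 5) (nat_lit 613) (nat_lit 613) (nat_lit 334))) (XT.nd (nat_lit 78) (nat_lit 0) (nat_lit 76) (XT.lf (nat_lit 76) (nat_lit 788304500) (nat_lit 0) (nat_lit 1096979734) (nat_lit 1900) (nat_lit 24049789443) (nat_lit 472) (nat_lit 5) (nat_lit 471) (nat_lit 3) (nat_lit 496) (nat_lit 5) (nat_lit 614) (nat_lit 613) (nat_lit 333)) (XT.nd (nat_lit 78) (nat_lit 0) (nat_lit 0) (XT.lf (nat_lit 0) (nat_lit 2165406451) (nat_lit 1824) (nat_lit 12318958870) (nat_lit 1900) (nat_lit 11707399285) (nat_lit 472) (nat_lit 5) (nat_lit 496) (nat_lit 5) (nat_lit 497) (nat_lit 5) (nat_lit 615) (nat_lit 613) (nat_lit 332)) (XT.lf (nat_lit 76) (nat_lit 766806798) (nat_lit 0) (nat_lit 1693988224) (nat_lit 1900) (nat_lit 23992601210) (nat_lit 473) (nat_lit 5) (nat_lit 472) (nat_lit 5) (nat_lit 497) (nat_lit 5) (nat_lit 616)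 (nat_lit 613) (nat_lit 331)))))) (XT.nd (nat_lit 390) (nat_lit 0) (nat_lit 152) (XT.nd (nat_lit 156) (nat_lit 0) (nat_lit 76) (XT.nd (nat_lit 78) (nat_lit 0) (nat_lit 0) (XT.lf (nat_lit 0) (nat_lit 2916481128) (nat_lit 1824) (nat_lit 12513028225) (nat_lit 1900) (nat_lit 11287663495) (nat_lit 473) (nat_lit 5) (nat_lit 497) (nat_lit 5) (nat_lit 498) (nat_lit 5) (nat_lit 617) (nat_lit 613) (nat_lit 330)) (XT.lf (nat_lit 76) (nat_lit 923483545) (nat_lit 0) (nat_lit 2472530973) (nat_lit 1900) (nat_lit 23589915958) (nat_lit 474) (nat_lit 5) (nat_lit 473) (nat_lit 5) (nat_lit 498) (nat_lit 5) (nat_lit 618) (nat_lit 613) (nat_lit 329))) (XT.nd (nat_lit 78) (nat_lit 0) (nat_lit 0) (XT.lf (nat_lit 0) (nat_lit 4036983644) (nat_lit 1824) (nat_lit 12531811767) (nat_lit 1900) (nat_lit 10688231091) (nat_lit 474) (nat_lit 5) (nat_lit 498) (nat_lit 5) (nat_lit 499) (nat_lit 5) (nat_lit 619) (nat_lit 613) (nat_lit 328)) (XT.nd (nat_lit 78) (nat_lit 0) (nat_lit 76) (XT.lf (nat_lit 76) (nat_lit 1268263608) (nat_lit 0) (nat_lit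 3444730549) (nat_lit 1900) (nat_lit 22820105996) (nat_lit 475) (nat_lit 5) (nat_lit 474) (nat_lit 5) (nat_lit 499) (nat_lit 5) (nat_lit 620) (nat_lit 613) (nat_lit 327)) (XT.lf (nat_lit 0) (nat_lit 5549382519) (nat_lit 1824) (nat_lit 12365382008) (nat_lit 1900) (nat_lit 9896993739) (nat_lit 475) (nat_lit 5) (nat_lit 499) (nat_lit 5) (nat_lit 500) (nat_lit 5) (nat_lit 621) (nat_lit 613) (nat_lit 326))))) (XT.nd (nat_lit 156) (nat_lit 0) (nat_lit 76) (XT.nd (nat_lit 78) (nat_lit 0) (nat_lit 76) (XT.lf (nat_lit 76) (nat_lit 1811561370) (nat_lit 0) (nat_lit 4623214670) (nat_lit 1900) (nat_lit 21660568092) (nat_lit 476) (nat_lit 5) (nat_lit 475) (nat_lit 5) (nat_lit 500) (nat_lit 5) (nat_lit 622) (nat_lit 613) (nat_lit 325)) (XT.lf (nat_lit 0) (nat_lit 7477155530) (nat_lit 1824) (nat_lit 12003326208) (nat_lit 1900) (nat_lit 8901334552) (nat_lit 476) (nat_lit 5) (nat_lit 500) (nat_lit 5) (nat_lit 501) (nat_lit 5) (nat_lit 623) (nat_lit 613) (nat_lit 324))) (XT.nd (nat_lit 78) (nat_lit 0) (nat_lit 76) (XT.lf (nat_lit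 76) (nat_lit 2564294895) (nat_lit 0) (nat_lit 6021142189) (nat_lit 1900) (nat_lit 20087679852) (nat_lit 477) (nat_lit 5) (nat_lit 476) (nat_lit 5) (nat_lit 501) (nat_lit 5) (nat_lit 624) (nat_lit 613) (nat_lit 323)) (XT.nd (nat_lit 78) (nat_lit 0) (nat_lit 0) (XT.lf (nat_lit 0) (nat_lit 9844834546) (nat_lit 1824) (nat_lit 11434728123) (nat_lit 1900) (nat_lit 7688102050) (nat_lit 477) (nat_lit 5) (nat_lit 501) (nat_lit 5) (nat_lit 502) (nat_lit 5) (nat_lit 625) (nat_lit 613) (nat_lit 322)) (XT.lf (nat_lit 76) (nat_lit 3537904894) (nat_lit 0) (nat_lit 7652229969) (nat_lit 1900) (nat_lit 18076754425) (nat_lit 478) (nat_lit 5) (nat_lit 477) (nat_lit 5) (nat_lit 502) (nat_lit 5) (nat_lit 626) (nat_lit 613) (nat_lit 321))))))) (XT.nd (nat_lit 780) (nat_lit 5244) (nat_lit 0) (XT.nd (nat_lit 390) (nat_lit 0) (nat_lit 152) (XT.nd (nat_lit 156) (nat_lit 0) (nat_lit 76) (XT.nd (nat_lit 78) (nat_lit 0) (nat_lit 0) (XT.lf (nat_lit 0) (nat_lit 12678052114) (nat_lit 1824) (nat_lit 10648148932) (nat_lit 1900) (nat_lit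 6243583209) (nat_lit 478) (nat_lit 5) (nat_lit 502) (nat_lit 5) (nat_lit 503) (nat_lit 5) (nat_lit 627) (nat_lit 613) (nat_lit 320)) (XT.lf (nat_lit 76) (nat_lit 4744374528) (nat_lit 0) (nat_lit 9530780721) (nat_lit 1900) (nat_lit 15601993446) (nat_lit 479) (nat_lit 5) (nat_lit 478) (nat_lit 5) (nat_lit 503) (nat_lit 5) (nat_lit 628) (nat_lit 613) (nat_lit 319))) (XT.nd (nat_lit 78) (nat_lit 0) (nat_lit 0) (XT.lf (nat_lit 0) (nat_lit 16003589846) (nat_lit 1824) (nat_lit 9631607365) (nat_lit 1900) (nat_lit 4553475546) (nat_lit 479) (nat_lit 5) (nat_lit 503) (nat_lit 5) (nat_lit 504) (nat_lit 5) (nat_lit 629) (nat_lit 613) (nat_lit 318)) (XT.nd (nat_lit 78) (nat_lit 0) (nat_lit 76) (XT.lf (nat_lit 76) (nat_lit 6196250055) (nat_lit 0) (nat_lit 11671711834) (nat_lit 1900) (nat_lit 12636438154) (nat_lit 480) (nat_lit 5) (nat_lit 479) (nat_lit 5) (nat_lit 504) (nat_lit 5) (nat_lit 630) (nat_lit 613) (nat_lit 317)) (XT.lf (nat_lit 0) (nat_lit 19849428696) (nat_lit 1824) (nat_lit 8372558958) (nat_lit 1900) (nat_lit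 2602858190) (nat_lit 480) (nat_lit 5) (nat_lit 504) (nat_lit 5) (nat_lit 505) (nat_lit 5) (nat_lit 631) (nat_lit 613) (nat_lit 316))))) (XT.nd (nat_lit 156) (nat_lit 0) (nat_lit 76) (XT.nd (nat_lit 78) (nat_lit 0) (nat_lit 76) (XT.lf (nat_lit 76) (nat_lit 7906662350) (nat_lit 0) (nat_lit 14090585276) (nat_lit 1900) (nat_lit 9151918594) (nat_lit 481) (nat_lit 5) (nat_lit 480) (nat_lit 5) (nat_lit 505) (nat_lit 5) (nat_lit 632) (nat_lit 613) (nat_lit 315)) (XT.lf (nat_lit 0) (nat_lit 24244801208) (nat_lit 1824) (nat_lit 6857874450) (nat_lit 1900) (nat_lit 376161891) (nat_lit 481) (nat_lit 5) (nat_lit 505) (nat_lit 5) (nat_lit 506) (nat_lit 5) (nat_lit 633) (nat_lit 613) (nat_lit 314))) (XT.nd (nat_lit 78) (nat_lit 0) (nat_lit 0) (XT.lf (nat_lit 76) (nat_lit 9889349336) (nat_lit 0) (nat_lit 16803638595) (nat_lit 1900) (nat_lit 5119000842) (nat_lit 482) (nat_lit 5) (nat_lit 481) (nat_lit 5) (nat_lit 506) (nat_lit 5) (nat_lit 634) (nat_lit 613) (nat_lit 313)) (XT.nd (nat_lit 78) (nat_lit 0) (nat_lit 76) (XT.lf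 (nat_lit 76) (nat_lit 27063003972) (nat_lit 0) (nat_lit 2171339619) (nat_lit 1900) (nat_lit 2916575435) (nat_lit 482) (nat_lit 5) (nat_lit 481) (nat_lit 5) (nat_lit 506) (nat_lit 5) (nat_lit 635) (nat_lit 613) (nat_lit 312)) (XT.lf (nat_lit 76) (nat_lit 12158679338) (nat_lit 0) (nat_lit 19827817107) (nat_lit 1900) (nat_lit 506932141) (nat_lit 483) (nat_lit 5) (nat_lit 482) (nat_lit 5) (nat_lit 507) (nat_lit 5) (nat_lit 636) (nat_lit 613) (nat_lit 311)))))) (XT.nd (nat_lit 390) (nat_lit 1748) (nat_lit 0) (XT.nd (nat_lit 156) (nat_lit 1900) (nat_lit 0) (XT.nd (nat_lit 78) (nat_lit 0) (nat_lit 76) (XT.lf (nat_lit 0) (nat_lit 1972302574) (nat_lit 1900) (nat_lit 3051700903) (nat_lit 1976) (nat_lit 27817591931) (nat_lit 457) (nat_lit 5) (nat_lit 482) (nat_lit 5) (nat_lit 483) (nat_lit 5) (nat_lit 637) (nat_lit 613) (nat_lit 310)) (XT.lf (nat_lit 0) (nat_lit 4654559466) (nat_lit 1900) (nat_lit 18495013290) (nat_lit 76) (nat_lit 10043881388) (nat_lit 458) (nat_lit 5) (nat_lit 483) (nat_lit 5) (nat_lit 459) (nat_lit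 5) (nat_lit 638) (nat_lit 613) (nat_lit 309))) (XT.nd (nat_lit 78) (nat_lit 1976) (nat_lit 0) (XT.lf (nat_lit 0) (nat_lit 7442644376) (nat_lit 1900) (nat_lit 741889039) (nat_lit 76) (nat_lit 25366773077) (nat_lit 458) (nat_lit 5) (nat_lit 483) (nat_lit 5) (nat_lit 459) (nat_lit 5) (nat_lit 639) (nat_lit 613) (nat_lit 308)) (XT.nd (nat_lit 78) (nat_lit 912) (nat_lit 0) (XT.lf (nat_lit 0) (nat_lit 10445788600) (nat_lit 1140) (nat_lit 16365186199) (nat_lit 76) (nat_lit 7102155232) (nat_lit 444) (nat_lit 5) (nat_lit 459) (nat_lit 5) (nat_lit 445) (nat_lit 5) (nat_lit 640) (nat_lit 613) (nat_lit 307)) (XT.lf (nat_lit 0) (nat_lit 1900744021) (nat_lit 912) (nat_lit 11678161340) (nat_lit 988) (nat_lit 20701886580) (nat_lit 432) (nat_lit 5) (nat_lit 444) (nat_lit 5) (nat_lit 445) (nat_lit 5) (nat_lit 641) (nat_lit 613) (nat_lit 306))))) (XT.nd (nat_lit 156) (nat_lit 836) (nat_lit 0) (XT.nd (nat_lit 78) (nat_lit 912) (nat_lit 0) (XT.lf (nat_lit 0) (nat_lit 16908004386) (nat_lit 988) (nat_lit 13926418137) (nat_lit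 76) (nat_lit 3818718260) (nat_lit 432) (nat_lit 5) (nat_lit 445) (nat_lit 5) (nat_lit 433) (nat_lit 5) (nat_lit 642) (nat_lit 613) (nat_lit 305)) (XT.lf (nat_lit 0) (nat_lit 4881484162) (nat_lit 912) (nat_lit 15529644366) (nat_lit 988) (nat_lit 14619659299) (nat_lit 420) (nat_lit 5) (nat_lit 432) (nat_lit 5) (nat_lit 433) (nat_lit 5) (nat_lit 643) (nat_lit 613) (nat_lit 304))) (XT.nd (nat_lit 78) (nat_lit 836) (nat_lit 0) (XT.lf (nat_lit 0) (nat_lit 24077347750) (nat_lit 988) (nat_lit 11162449377) (nat_lit 76) (nat_lit 174330123) (nat_lit 420) (nat_lit 5) (nat_lit 433) (nat_lit 5) (nat_lit 421) (nat_lit 5) (nat_lit 644) (nat_lit 613) (nat_lit 303)) (XT.nd (nat_lit 78) (nat_lit 0) (nat_lit 0) (XT.lf (nat_lit 0) (nat_lit 8207463428) (nat_lit 836) (nat_lit 19764024990) (nat_lit 912) (nat_lit 7830553189) (nat_lit 409) (nat_lit 5) (nat_lit 420) (nat_lit 5) (nat_lit 421) (nat_lit 5) (nat_lit 645) (nat_lit 613) (nat_lit 302)) (XT.lf (nat_lit 0) (nat_lit 28114618536) (nat_lit 836) (nat_lit 3902283322) (nat_lit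 912) (nat_lit 4179344676) (nat_lit 409) (nat_lit 5) (nat_lit 420) (nat_lit 5) (nat_lit 421) (nat_lit 5) (nat_lit 646) (nat_lit 613) (nat_lit 301))))))))
noncomputable def xc237 : XT := (XT.nd (nat_lit 79248) (nat_lit 0) (nat_lit 7372) (XT.nd (nat_lit 780) (nat_lit 760) (nat_lit 0) (XT.nd (nat_lit 390) (nat_lit 2280) (nat_lit 0) (XT.nd (nat_lit 156) (nat_lit 1672) (nat_lit 0) (XT.nd (nat_lit 78) (nat_lit 76) (nat_lit 0) (XT.lf (nat_lit 0) (nat_lit 11896429281) (nat_lit 836) (nat_lit 24402256324) (nat_lit 912) (nat_lit 296540799) (nat_lit 398) (nat_lit 5) (nat_lit 409) (nat_lit 5) (nat_lit 410) (nat_lit 5) (nat_lit 647) (nat_lit 613) (nat_lit 300)) (XT.lf (nat_lit 0) (nat_lit 3694824236) (nat_lit 912) (nat_lit 4668972929) (nat_lit 76) (nat_lit 28636333853) (nat_lit 397) (nat_lit 5) (nat_lit 409) (nat_lit 5) (nat_lit 398) (nat_lit 5) (nat_lit 648) (nat_lit 613) (nat_lit 299))) (XT.nd (nat_lit 78) (nat_lit 836) (nat_lit 0) (XT.lf (nat_lit 0) (nat_lit 7916885010) (nat_lit 912) (nat_lit 21496209697) (nat_lit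 76) (nat_lit 7996903111) (nat_lit 386) (nat_lit 5) (nat_lit 398) (nat_lit 5) (nat_lit 387) (nat_lit 5) (nat_lit 649) (nat_lit 613) (nat_lit 298)) (XT.nd (nat_lit 78) (nat_lit 836) (nat_lit 0) (XT.lf (nat_lit 0) (nat_lit 12308887020) (nat_lit 912) (nat_lit 913006045) (nat_lit 76) (nat_lit 24604458964) (nat_lit 386) (nat_lit 5) (nat_lit 398) (nat_lit 5) (nat_lit 387) (nat_lit 5) (nat_lit 650) (nat_lit 613) (nat_lit 297)) (XT.lf (nat_lit 0) (nat_lit 16941692836) (nat_lit 912) (nat_lit 17923393767) (nat_lit 76) (nat_lit 3382887522) (nat_lit 375) (nat_lit 5) (nat_lit 387) (nat_lit 5) (nat_lit 376) (nat_lit 5) (nat_lit 651) (nat_lit 613) (nat_lit 296))))) (XT.nd (nat_lit 156) (nat_lit 1520) (nat_lit 0) (XT.nd (nat_lit 78) (nat_lit 0) (nat_lit 0) (XT.lf (nat_lit 0) (nat_lit 3275285012) (nat_lit 760) (nat_lit 18505482358) (nat_lit 836) (nat_lit 16894989114) (nat_lit 365) (nat_lit 5) (nat_lit 375) (nat_lit 5) (nat_lit 376) (nat_lit 5) (nat_lit 652) (nat_lit 613) (nat_lit 295)) (XT.lf (nat_lit 0) (nat_lit 25139446709)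 (nat_lit 760) (nat_lit 1696087548) (nat_lit 836) (nat_lit 12274182088) (nat_lit 365) (nat_lit 5) (nat_lit 375) (nat_lit 5) (nat_lit 376) (nat_lit 5) (nat_lit 653) (nat_lit 613) (nat_lit 294))) (XT.nd (nat_lit 78) (nat_lit 760) (nat_lit 0) (XT.lf (nat_lit 0) (nat_lit 7890265206) (nat_lit 760) (nat_lit 24251330169) (nat_lit 836) (nat_lit 7407756122) (nat_lit 355) (nat_lit 5) (nat_lit 365) (nat_lit 5) (nat_lit 366) (nat_lit 5) (nat_lit 654) (nat_lit 613) (nat_lit 293)) (XT.nd (nat_lit 78) (nat_lit 760) (nat_lit 0) (XT.lf (nat_lit 0) (nat_lit 30364564387) (nat_lit 760) (nat_lit 7292798270) (nat_lit 836) (nat_lit 2338345066) (nat_lit 355) (nat_lit 5) (nat_lit 365) (nat_lit 5) (nat_lit 366) (nat_lit 5) (nat_lit 655) (nat_lit 613) (nat_lit 292)) (XT.lf (nat_lit 0) (nat_lit 2943965814) (nat_lit 760) (nat_lit 27526718769) (nat_lit 76) (nat_lit 9976965557) (nat_lit 345) (nat_lit 5) (nat_lit 355) (nat_lit 5) (nat_lit 346) (nat_lit 5) (nat_lit 656) (nat_lit 613) (nat_lit 291)))))) (XT.nd (nat_lit 78078) (nat_lit 0)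 (nat_lit 10412) (XT.nd (nat_lit 77844) (nat_lit 0) (nat_lit 10336) (XT.nd (nat_lit 78) (nat_lit 760) (nat_lit 0) (XT.lf (nat_lit 0) (nat_lit 8412707898) (nat_lit 760) (nat_lit 4918389242) (nat_lit 76) (nat_lit 27574983295) (nat_lit 345) (nat_lit 5) (nat_lit 355) (nat_lit 5) (nat_lit 346) (nat_lit 5) (nat_lit 657) (nat_lit 613) (nat_lit 290)) (XT.lf (nat_lit 0) (nat_lit 14136650479) (nat_lit 836) (nat_lit 23017284890) (nat_lit 76) (nat_lit 4216827518) (nat_lit 335) (nat_lit 5) (nat_lit 346) (nat_lit 5) (nat_lit 336) (nat_lit 5) (nat_lit 658) (nat_lit 613) (nat_lit 289))) (XT.nd (nat_lit 78) (nat_lit 0) (nat_lit 0) (XT.lf (nat_lit 0) (nat_lit 998386333) (nat_lit 1900) (nat_lit 6048305382) (nat_lit 1900) (nat_lit 6048305382) (nat_lit 471) (nat_lit 3) (nat_lit 496) (nat_lit 3) (nat_lit 496) (nat_lit 5) (nat_lit 614) (nat_lit 614) (nat_lit 332)) (XT.nd (nat_lit 78) (nat_lit 0) (nat_lit 76) (XT.lf (nat_lit 76) (nat_lit 905035873) (nat_lit 0) (nat_lit 1213972679) (nat_lit 1900) (nat_lit 24330834377) (nat_lit 472)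 (nat_lit 5) (nat_lit 471) (nat_lit 3) (nat_lit 496) (nat_lit 5) (nat_lit 615) (nat_lit 614) (nat_lit 331)) (XT.lf (nat_lit 0) (nat_lit 2400284662) (nat_lit 1824) (nat_lit 12461892309) (nat_lit 1900) (nat_lit 11849579910) (nat_lit 472) (nat_lit 5) (nat_lit 496) (nat_lit 5) (nat_lit 497) (nat_lit 5) (nat_lit 616) (nat_lit 614) (nat_lit 330))))) (XT.nd (nat_lit 156) (nat_lit 0) (nat_lit 76) (XT.nd (nat_lit 78) (nat_lit 0) (nat_lit 76) (XT.lf (nat_lit 76) (nat_lit 884908109) (nat_lit 0) (nat_lit 1813583840) (nat_lit 1900) (nat_lit 24280191199) (nat_lit 473) (nat_lit 5) (nat_lit 472) (nat_lit 5) (nat_lit 497) (nat_lit 5) (nat_lit 617) (nat_lit 614) (nat_lit 329)) (XT.lf (nat_lit 0) (nat_lit 3159050458) (nat_lit 1824) (nat_lit 12658286135) (nat_lit 1900) (nat_lit 11430483753) (nat_lit 473) (nat_lit 5) (nat_lit 497) (nat_lit 5) (nat_lit 498) (nat_lit 5) (nat_lit 618) (nat_lit 614) (nat_lit 328))) (XT.nd (nat_lit 78) (nat_lit 0) (nat_lit 76) (XT.lf (nat_lit 76) (nat_lit 1046265063) (nat_lit 0) (nat_lit 2598974171)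 (nat_lit 1900) (nat_lit 23876772817) (nat_lit 474) (nat_lit 5) (nat_lit 473) (nat_lit 5) (nat_lit 498) (nat_lit 5) (nat_lit 619) (nat_lit 614) (nat_lit 327)) (XT.nd (nat_lit 78) (nat_lit 0) (nat_lit 0) (XT.lf (nat_lit 0) (nat_lit 4294982669) (nat_lit 1824) (nat_lit 12676125680) (nat_lit 1900) (nat_lit 10827502765) (nat_lit 474) (nat_lit 5) (nat_lit 498) (nat_lit 5) (nat_lit 499) (nat_lit 5) (nat_lit 620) (nat_lit 614) (nat_lit 326)) (XT.lf (nat_lit 76) (nat_lit 1399251713) (nat_lit 0) (nat_lit 3582471779) (nat_lit 1900) (nat_lit 23098538754) (nat_lit 475) (nat_lit 5) (nat_lit 474) (nat_lit 5) (nat_lit 499) (nat_lit 5) (nat_lit 621) (nat_lit 614) (nat_lit 325))))))) (XT.nd (nat_lit 780) (nat_lit 3268) (nat_lit 0) (XT.nd (nat_lit 390) (nat_lit 0) (nat_lit 152) (XT.nd (nat_lit 156) (nat_lit 0) (nat_lit 76) (XT.nd (nat_lit 78) (nat_lit 0) (nat_lit 0) (XT.lf (nat_lit 0) (nat_lit 5830980419) (nat_lit 1824) (nat_lit 12505268333) (nat_lit 1900) (nat_lit 10028322160) (nat_lit 475) (nat_lit 5) (nat_lit 499) (nat_lit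 5) (nat_lit 500) (nat_lit 5) (nat_lit 622) (nat_lit 614) (nat_lit 324)) (XT.lf (nat_lit 76) (nat_lit 1954507193) (nat_lit 0) (nat_lit 4776922180) (nat_lit 1900) (nat_lit 21922452373) (nat_lit 476) (nat_lit 5) (nat_lit 475) (nat_lit 5) (nat_lit 500) (nat_lit 5) (nat_lit 623) (nat_lit 614) (nat_lit 323))) (XT.nd (nat_lit 78) (nat_lit 0) (nat_lit 0) (XT.lf (nat_lit 0) (nat_lit 7790973327) (nat_lit 1824) (nat_lit 12135077541) (nat_lit 1900) (nat_lit 9020106340) (nat_lit 476) (nat_lit 5) (nat_lit 500) (nat_lit 5) (nat_lit 501) (nat_lit 5) (nat_lit 624) (nat_lit 614) (nat_lit 322)) (XT.nd (nat_lit 78) (nat_lit 0) (nat_lit 76) (XT.lf (nat_lit 76) (nat_lit 2723183384) (nat_lit 0) (nat_lit 6195714683) (nat_lit 1900) (nat_lit 20324436442) (nat_lit 477) (nat_lit 5) (nat_lit 476) (nat_lit 5) (nat_lit 501) (nat_lit 5) (nat_lit 625) (nat_lit 614) (nat_lit 321)) (XT.lf (nat_lit 0) (nat_lit 10199967184) (nat_lit 1824) (nat_lit 11554404124) (nat_lit 1900) (nat_lit 7789472456) (nat_lit 477) (nat_lit 5) (nat_lit 501) (nat_lit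 5) (nat_lit 502) (nat_lit 5) (nat_lit 626) (nat_lit 614) (nat_lit 320))))) (XT.nd (nat_lit 156) (nat_lit 0) (nat_lit 76) (XT.nd (nat_lit 78) (nat_lit 0) (nat_lit 76) (XT.lf (nat_lit 76) (nat_lit 3716964325) (nat_lit 0) (nat_lit 7852809681) (nat_lit 1900) (nat_lit 18279326996) (nat_lit 478) (nat_lit 5) (nat_lit 477) (nat_lit 5) (nat_lit 502) (nat_lit 5) (nat_lit 627) (nat_lit 614) (nat_lit 319)) (XT.lf (nat_lit 0) (nat_lit 13084091407) (nat_lit 1824) (nat_lit 10751566780) (nat_lit 1900) (nat_lit 6322463029) (nat_lit 478) (nat_lit 5) (nat_lit 502) (nat_lit 5) (nat_lit 503) (nat_lit 5) (nat_lit 628) (nat_lit 614) (nat_lit 318))) (XT.nd (nat_lit 78) (nat_lit 0) (nat_lit 76) (XT.lf (nat_lit 76) (nat_lit 4948086458) (nat_lit 0) (nat_lit 9762766938) (nat_lit 1900) (nat_lit 15760825392) (nat_lit 479) (nat_lit 5) (nat_lit 478) (nat_lit 5) (nat_lit 503) (nat_lit 5) (nat_lit 629) (nat_lit 614) (nat_lit 317)) (XT.nd (nat_lit 78) (nat_lit 0) (nat_lit 0) (XT.lf (nat_lit 0) (nat_lit 16470648345) (nat_lit 1824) (nat_lit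 9714331743) (nat_lit 1900) (nat_lit 4604517586) (nat_lit 479) (nat_lit 5) (nat_lit 503) (nat_lit 5) (nat_lit 504) (nat_lit 5) (nat_lit 630) (nat_lit 614) (nat_lit 316)) (XT.lf (nat_lit 76) (nat_lit 6429359748) (nat_lit 0) (nat_lit 11940774888) (nat_lit 1900) (nat_lit 12741448506) (nat_lit 480) (nat_lit 5) (nat_lit 479) (nat_lit 5) (nat_lit 504) (nat_lit 5) (nat_lit 631) (nat_lit 614) (nat_lit 315)))))) (XT.nd (nat_lit 390) (nat_lit 3648) (nat_lit 0) (XT.nd (nat_lit 156) (nat_lit 0) (nat_lit 76) (XT.nd (nat_lit 78) (nat_lit 0) (nat_lit 0) (XT.lf (nat_lit 0) (nat_lit 20388164509) (nat_lit 1824) (nat_lit 8429891589) (nat_lit 1900) (nat_lit 2620443257) (nat_lit 480) (nat_lit 5) (nat_lit 504) (nat_lit 5) (nat_lit 505) (nat_lit 5) (nat_lit 632) (nat_lit 614) (nat_lit 314)) (XT.lf (nat_lit 76) (nat_lit 8174189681) (nat_lit 0) (nat_lit 14402681038) (nat_lit 1900) (nat_lit 9192476967) (nat_lit 481) (nat_lit 5) (nat_lit 480) (nat_lit 5) (nat_lit 505) (nat_lit 5) (nat_lit 633) (nat_lit 614) (nat_lit 313))) (XT.nd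 (nat_lit 78) (nat_lit 0) (nat_lit 0) (XT.lf (nat_lit 0) (nat_lit 24866443817) (nat_lit 1824) (nat_lit 6884843148) (nat_lit 1900) (nat_lit 354384270) (nat_lit 481) (nat_lit 5) (nat_lit 505) (nat_lit 5) (nat_lit 506) (nat_lit 5) (nat_lit 634) (nat_lit 614) (nat_lit 312)) (XT.nd (nat_lit 78) (nat_lit 0) (nat_lit 0) (XT.lf (nat_lit 76) (nat_lit 10196600188) (nat_lit 0) (nat_lit 17165023494) (nat_lit 1900) (nat_lit 5083901374) (nat_lit 482) (nat_lit 5) (nat_lit 481) (nat_lit 5) (nat_lit 506) (nat_lit 5) (nat_lit 635) (nat_lit 614) (nat_lit 311)) (XT.lf (nat_lit 76) (nat_lit 27711581566) (nat_lit 0) (nat_lit 2239582221) (nat_lit 1900) (nat_lit 2840123135) (nat_lit 482) (nat_lit 5) (nat_lit 481) (nat_lit 5) (nat_lit 506) (nat_lit 5) (nat_lit 636) (nat_lit 614) (nat_lit 310))))) (XT.nd (nat_lit 234) (nat_lit 1900) (nat_lit 0) (XT.nd (nat_lit 78) (nat_lit 1900) (nat_lit 0) (XT.lf (nat_lit 76) (nat_lit 12511257510) (nat_lit 0) (nat_lit 20245063705) (nat_lit 1900) (nat_lit 384366382) (nat_lit 483) (nat_lit 5) (nat_lit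 482) (nat_lit 5) (nat_lit 507) (nat_lit 5) (nat_lit 637) (nat_lit 614) (nat_lit 309)) (XT.nd (nat_lit 78) (nat_lit 0) (nat_lit 76) (XT.lf (nat_lit 0) (nat_lit 2140144664) (nat_lit 1900) (nat_lit 3003761842) (nat_lit 1976) (nat_lit 28351945523) (nat_lit 457) (nat_lit 5) (nat_lit 482) (nat_lit 5) (nat_lit 483) (nat_lit 5) (nat_lit 638) (nat_lit 614) (nat_lit 308)) (XT.lf (nat_lit 0) (nat_lit 4874113016) (nat_lit 1900) (nat_lit 18753999576) (nat_lit 76) (nat_lit 10226674165) (nat_lit 458) (nat_lit 5) (nat_lit 483) (nat_lit 5) (nat_lit 459) (nat_lit 5) (nat_lit 639) (nat_lit 614) (nat_lit 307)))) (XT.nd (nat_lit 78) (nat_lit 1976) (nat_lit 0) (XT.lf (nat_lit 0) (nat_lit 7715479970) (nat_lit 1900) (nat_lit 647987624) (nat_lit 76) (nat_lit 25856378293) (nat_lit 458) (nat_lit 5) (nat_lit 483) (nat_lit 5) (nat_lit 459) (nat_lit 5) (nat_lit 640) (nat_lit 614) (nat_lit 306)) (XT.nd (nat_lit 78) (nat_lit 912) (nat_lit 0) (XT.lf (nat_lit 0) (nat_lit 10776865022) (nat_lit 1140) (nat_lit 16581921730) (nat_lit 76) (nat_lit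 7230155725) (nat_lit 444) (nat_lit 5) (nat_lit 459) (nat_lit 5) (nat_lit 445) (nat_lit 5) (nat_lit 641) (nat_lit 614) (nat_lit 305)) (XT.lf (nat_lit 0) (nat_lit 2048599672) (nat_lit 912) (nat_lit 11922362298) (nat_lit 988) (nat_lit 20993029434) (nat_lit 432) (nat_lit 5) (nat_lit 444) (nat_lit 5) (nat_lit 445) (nat_lit 5) (nat_lit 642) (nat_lit 614) (nat_lit 304))))))))
noncomputable def xc238 : XT := (XT.nd (nat_lit 79326) (nat_lit 0) (nat_lit 8512) (XT.nd (nat_lit 780) (nat_lit 2280) (nat_lit 0) (XT.nd (nat_lit 390) (nat_lit 2584) (nat_lit 0) (XT.nd (nat_lit 156) (nat_lit 836) (nat_lit 0) (XT.nd (nat_lit 78) (nat_lit 912) (nat_lit 0) (XT.lf (nat_lit 0) (nat_lit 17364212939) (nat_lit 988) (nat_lit 14094822760) (nat_lit 76) (nat_lit 3884800257) (nat_lit 432) (nat_lit 5) (nat_lit 445) (nat_lit 5) (nat_lit 433) (nat_lit 5) (nat_lit 643) (nat_lit 614) (nat_lit 303)) (XT.lf (nat_lit 0) (nat_lit 5088513086) (nat_lit 912) (nat_lit 15847282095) (nat_lit 988) (nat_lit 14793272980) (nat_lit 420) (nat_lit 5) (nat_lit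 432) (nat_lit 5) (nat_lit 433) (nat_lit 5) (nat_lit 644) (nat_lit 614) (nat_lit 302))) (XT.nd (nat_lit 78) (nat_lit 836) (nat_lit 0) (XT.lf (nat_lit 0) (nat_lit 24673010727) (nat_lit 988) (nat_lit 11276109734) (nat_lit 76) (nat_lit 171000601) (nat_lit 420) (nat_lit 5) (nat_lit 433) (nat_lit 5) (nat_lit 421) (nat_lit 5) (nat_lit 645) (nat_lit 614) (nat_lit 301)) (XT.nd (nat_lit 78) (nat_lit 0) (nat_lit 0) (XT.lf (nat_lit 0) (nat_lit 8480480349) (nat_lit 836) (nat_lit 20163023131) (nat_lit 912) (nat_lit 7872320966) (nat_lit 409) (nat_lit 5) (nat_lit 420) (nat_lit 5) (nat_lit 421) (nat_lit 5) (nat_lit 646) (nat_lit 614) (nat_lit 300)) (XT.lf (nat_lit 0) (nat_lit 28783643900) (nat_lit 836) (nat_lit 3983973735) (nat_lit 912) (nat_lit 4150340112) (nat_lit 409) (nat_lit 5) (nat_lit 420) (nat_lit 5) (nat_lit 421) (nat_lit 5) (nat_lit 647) (nat_lit 614) (nat_lit 299))))) (XT.nd (nat_lit 156) (nat_lit 1672) (nat_lit 0) (XT.nd (nat_lit 78) (nat_lit 76) (nat_lit 0) (XT.lf (nat_lit 0) (nat_lit 12242611332) (nat_lit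 836) (nat_lit 24890941108) (nat_lit 912) (nat_lit 191394586) (nat_lit 398) (nat_lit 5) (nat_lit 409) (nat_lit 5) (nat_lit 410) (nat_lit 5) (nat_lit 648) (nat_lit 614) (nat_lit 298)) (XT.lf (nat_lit 0) (nat_lit 3876191538) (nat_lit 912) (nat_lit 4654787500) (nat_lit 76) (nat_lit 29206999376) (nat_lit 397) (nat_lit 5) (nat_lit 409) (nat_lit 5) (nat_lit 398) (nat_lit 5) (nat_lit 649) (nat_lit 614) (nat_lit 297))) (XT.nd (nat_lit 78) (nat_lit 836) (nat_lit 0) (XT.lf (nat_lit 0) (nat_lit 8181285237) (nat_lit 912) (nat_lit 21817155020) (nat_lit 76) (nat_lit 8157630572) (nat_lit 386) (nat_lit 5) (nat_lit 398) (nat_lit 5) (nat_lit 387) (nat_lit 5) (nat_lit 650) (nat_lit 614) (nat_lit 296)) (XT.nd (nat_lit 78) (nat_lit 836) (nat_lit 0) (XT.lf (nat_lit 0) (nat_lit 12659047630) (nat_lit 912) (nat_lit 824424136) (nat_lit 76) (nat_lit 25097322064) (nat_lit 386) (nat_lit 5) (nat_lit 398) (nat_lit 5) (nat_lit 387) (nat_lit 5) (nat_lit 651) (nat_lit 614) (nat_lit 295)) (XT.lf (nat_lit 0) (nat_lit 17383182571) (nat_lit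 912) (nat_lit 18173687148) (nat_lit 76) (nat_lit 3454005297) (nat_lit 375) (nat_lit 5) (nat_lit 387) (nat_lit 5) (nat_lit 376) (nat_lit 5) (nat_lit 652) (nat_lit 614) (nat_lit 294)))))) (XT.nd (nat_lit 390) (nat_lit 0) (nat_lit 0) (XT.nd (nat_lit 156) (nat_lit 1520) (nat_lit 0) (XT.nd (nat_lit 78) (nat_lit 0) (nat_lit 0) (XT.lf (nat_lit 0) (nat_lit 3448253532) (nat_lit 760) (nat_lit 18869469923) (nat_lit 836) (nat_lit 17129515977) (nat_lit 365) (nat_lit 5) (nat_lit 375) (nat_lit 5) (nat_lit 376) (nat_lit 5) (nat_lit 653) (nat_lit 614) (nat_lit 293)) (XT.lf (nat_lit 0) (nat_lit 25747591350) (nat_lit 760) (nat_lit 1724007258) (nat_lit 836) (nat_lit 12418319731) (nat_lit 365) (nat_lit 5) (nat_lit 375) (nat_lit 5) (nat_lit 376) (nat_lit 5) (nat_lit 654) (nat_lit 614) (nat_lit 292))) (XT.nd (nat_lit 78) (nat_lit 760) (nat_lit 0) (XT.lf (nat_lit 0) (nat_lit 8154673600) (nat_lit 760) (nat_lit 24727889579) (nat_lit 836) (nat_lit 7455807472) (nat_lit 355) (nat_lit 5) (nat_lit 365) (nat_lit 5) (nat_lit 366) (nat_lit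 5) (nat_lit 655) (nat_lit 614) (nat_lit 291)) (XT.nd (nat_lit 78) (nat_lit 760) (nat_lit 0) (XT.lf (nat_lit 0) (nat_lit 31076368508) (nat_lit 760) (nat_lit 7430353066) (nat_lit 836) (nat_lit 2286971013) (nat_lit 355) (nat_lit 5) (nat_lit 365) (nat_lit 5) (nat_lit 366) (nat_lit 5) (nat_lit 656) (nat_lit 614) (nat_lit 290)) (XT.lf (nat_lit 0) (nat_lit 3098543786) (nat_lit 760) (nat_lit 27970288196) (nat_lit 76) (nat_lit 10185852328) (nat_lit 345) (nat_lit 5) (nat_lit 355) (nat_lit 5) (nat_lit 346) (nat_lit 5) (nat_lit 657) (nat_lit 614) (nat_lit 289))))) (XT.nd (nat_lit 77922) (nat_lit 0) (nat_lit 9576) (XT.nd (nat_lit 77844) (nat_lit 0) (nat_lit 9576) (XT.lf (nat_lit 0) (nat_lit 8674784267) (nat_lit 760) (nat_lit 4911889430) (nat_lit 76) (nat_lit 28135647137) (nat_lit 345) (nat_lit 5) (nat_lit 355) (nat_lit 5) (nat_lit 346) (nat_lit 5) (nat_lit 658) (nat_lit 614) (nat_lit 288)) (XT.lf (nat_lit 0) (nat_lit 1114120285) (nat_lit 1900) (nat_lit 6120427811) (nat_lit 1900) (nat_lit 6120427811) (nat_lit 471) (nat_lit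 3) (nat_lit 496) (nat_lit 3) (nat_lit 496) (nat_lit 5) (nat_lit 615) (nat_lit 615) (nat_lit 330))) (XT.nd (nat_lit 78) (nat_lit 0) (nat_lit 76) (XT.lf (nat_lit 76) (nat_lit 1020181269) (nat_lit 0) (nat_lit 1329614446) (nat_lit 1900) (nat_lit 24625264546) (nat_lit 472) (nat_lit 5) (nat_lit 471) (nat_lit 3) (nat_lit 496) (nat_lit 5) (nat_lit 616) (nat_lit 615) (nat_lit 329)) (XT.nd (nat_lit 78) (nat_lit 0) (nat_lit 0) (XT.lf (nat_lit 0) (nat_lit 2632421538) (nat_lit 1824) (nat_lit 12611701341) (nat_lit 1900) (nat_lit 11998175351) (nat_lit 472) (nat_lit 5) (nat_lit 496) (nat_lit 5) (nat_lit 497) (nat_lit 5) (nat_lit 617) (nat_lit 615) (nat_lit 328)) (XT.lf (nat_lit 76) (nat_lit 1001380948) (nat_lit 0) (nat_lit 1932242917) (nat_lit 1900) (nat_lit 24580998758) (nat_lit 473) (nat_lit 5) (nat_lit 472) (nat_lit 5) (nat_lit 497) (nat_lit 5) (nat_lit 618) (nat_lit 615) (nat_lit 327))))))) (XT.nd (nat_lit 780) (nat_lit 1216) (nat_lit 0) (XT.nd (nat_lit 390) (nat_lit 0) (nat_lit 152) (XT.nd (nat_lit 156) (nat_lit 0)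 (nat_lit 76) (XT.nd (nat_lit 78) (nat_lit 0) (nat_lit 0) (XT.lf (nat_lit 0) (nat_lit 3399316923) (nat_lit 1824) (nat_lit 12810526585) (nat_lit 1900) (nat_lit 11579380805) (nat_lit 473) (nat_lit 5) (nat_lit 497) (nat_lit 5) (nat_lit 498) (nat_lit 5) (nat_lit 619) (nat_lit 615) (nat_lit 326)) (XT.lf (nat_lit 76) (nat_lit 1167451655) (nat_lit 0) (nat_lit 2724956518) (nat_lit 1900) (nat_lit 24176548315) (nat_lit 474) (nat_lit 5) (nat_lit 473) (nat_lit 5) (nat_lit 498) (nat_lit 5) (nat_lit 620) (nat_lit 615) (nat_lit 325))) (XT.nd (nat_lit 78) (nat_lit 0) (nat_lit 0) (XT.lf (nat_lit 0) (nat_lit 4551258477) (nat_lit 1824) (nat_lit 12827454497) (nat_lit 1900) (nat_lit 10972452523) (nat_lit 474) (nat_lit 5) (nat_lit 498) (nat_lit 5) (nat_lit 499) (nat_lit 5) (nat_lit 621) (nat_lit 615) (nat_lit 324)) (XT.nd (nat_lit 78) (nat_lit 0) (nat_lit 76) (XT.lf (nat_lit 76) (nat_lit 1528758117) (nat_lit 0) (nat_lit 3720294435) (nat_lit 1900) (nat_lit 23389450935) (nat_lit 475) (nat_lit 5) (nat_lit 474) (nat_lit 5) (nat_lit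 499) (nat_lit 5) (nat_lit 622) (nat_lit 615) (nat_lit 323)) (XT.lf (nat_lit 0) (nat_lit 6111585273) (nat_lit 1824) (nat_lit 12652123686) (nat_lit 1900) (nat_lit 10164863753) (nat_lit 475) (nat_lit 5) (nat_lit 499) (nat_lit 5) (nat_lit 500) (nat_lit 5) (nat_lit 623) (nat_lit 615) (nat_lit 322))))) (XT.nd (nat_lit 156) (nat_lit 0) (nat_lit 76) (XT.nd (nat_lit 78) (nat_lit 0) (nat_lit 76) (XT.lf (nat_lit 76) (nat_lit 2096168075) (nat_lit 0) (nat_lit 4931325692) (nat_lit 1900) (nat_lit 22196227179) (nat_lit 476) (nat_lit 5) (nat_lit 475) (nat_lit 5) (nat_lit 500) (nat_lit 5) (nat_lit 624) (nat_lit 615) (nat_lit 321)) (XT.lf (nat_lit 0) (nat_lit 8104688494) (nat_lit 1824) (nat_lit 12273669911) (nat_lit 1900) (nat_lit 9143554504) (nat_lit 476) (nat_lit 5) (nat_lit 500) (nat_lit 5) (nat_lit 501) (nat_lit 5) (nat_lit 625) (nat_lit 615) (nat_lit 320))) (XT.nd (nat_lit 78) (nat_lit 0) (nat_lit 76) (XT.lf (nat_lit 76) (nat_lit 2881071304) (nat_lit 0) (nat_lit 6371675930) (nat_lit 1900) (nat_lit 20572335200) (nat_lit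 477) (nat_lit 5) (nat_lit 476) (nat_lit 5) (nat_lit 501) (nat_lit 5) (nat_lit 626) (nat_lit 615) (nat_lit 319)) (XT.nd (nat_lit 78) (nat_lit 0) (nat_lit 0) (XT.lf (nat_lit 0) (nat_lit 10556057981) (nat_lit 1824) (nat_lit 11680706970) (nat_lit 1900) (nat_lit 7894904702) (nat_lit 477) (nat_lit 5) (nat_lit 501) (nat_lit 5) (nat_lit 502) (nat_lit 5) (nat_lit 627) (nat_lit 615) (nat_lit 318)) (XT.lf (nat_lit 76) (nat_lit 3895399472) (nat_lit 0) (nat_lit 8055555141) (nat_lit 1900) (nat_lit 18492123727) (nat_lit 478) (nat_lit 5) (nat_lit 477) (nat_lit 5) (nat_lit 502) (nat_lit 5) (nat_lit 628) (nat_lit 615) (nat_lit 317)))))) (XT.nd (nat_lit 390) (nat_lit 1596) (nat_lit 0) (XT.nd (nat_lit 156) (nat_lit 0) (nat_lit 76) (XT.nd (nat_lit 78) (nat_lit 0) (nat_lit 0) (XT.lf (nat_lit 0) (nat_lit 13492330571) (nat_lit 1824) (nat_lit 10861306755) (nat_lit 1900) (nat_lit 6404706365) (nat_lit 478) (nat_lit 5) (nat_lit 502) (nat_lit 5) (nat_lit 503) (nat_lit 5) (nat_lit 629) (nat_lit 615) (nat_lit 316)) (XT.lf (nat_lit 76)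 (nat_lit 5151646841) (nat_lit 0) (nat_lit 9997786408) (nat_lit 1900) (nat_lit 15928783228) (nat_lit 479) (nat_lit 5) (nat_lit 478) (nat_lit 5) (nat_lit 503) (nat_lit 5) (nat_lit 630) (nat_lit 615) (nat_lit 315))) (XT.nd (nat_lit 78) (nat_lit 0) (nat_lit 0) (XT.lf (nat_lit 0) (nat_lit 16941340342) (nat_lit 1824) (nat_lit 9802978460) (nat_lit 1900) (nat_lit 4658134783) (nat_lit 479) (nat_lit 5) (nat_lit 503) (nat_lit 5) (nat_lit 504) (nat_lit 5) (nat_lit 631) (nat_lit 615) (nat_lit 314)) (XT.nd (nat_lit 78) (nat_lit 0) (nat_lit 76) (XT.lf (nat_lit 76) (nat_lit 6662891861) (nat_lit 0) (nat_lit 12213835693) (nat_lit 1900) (nat_lit 12854295151) (nat_lit 480) (nat_lit 5) (nat_lit 479) (nat_lit 5) (nat_lit 504) (nat_lit 5) (nat_lit 632) (nat_lit 615) (nat_lit 313)) (XT.lf (nat_lit 0) (nat_lit 20932170820) (nat_lit 1824) (nat_lit 8492646910) (nat_lit 1900) (nat_lit 2639718618) (nat_lit 480) (nat_lit 5) (nat_lit 504) (nat_lit 5) (nat_lit 505) (nat_lit 5) (nat_lit 633) (nat_lit 615) (nat_lit 312))))) (XT.nd (nat_lit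 234) (nat_lit 1748) (nat_lit 0) (XT.nd (nat_lit 78) (nat_lit 0) (nat_lit 76) (XT.lf (nat_lit 76) (nat_lit 8442819653) (nat_lit 0) (nat_lit 14719842748) (nat_lit 1900) (nat_lit 9239379179) (nat_lit 481) (nat_lit 5) (nat_lit 480) (nat_lit 5) (nat_lit 505) (nat_lit 5) (nat_lit 634) (nat_lit 615) (nat_lit 311)) (XT.nd (nat_lit 78) (nat_lit 0) (nat_lit 0) (XT.lf (nat_lit 0) (nat_lit 25495209242) (nat_lit 1824) (nat_lit 6916629985) (nat_lit 1900) (nat_lit 333308885) (nat_lit 481) (nat_lit 5) (nat_lit 505) (nat_lit 5) (nat_lit 506) (nat_lit 5) (nat_lit 635) (nat_lit 615) (nat_lit 310)) (XT.lf (nat_lit 76) (nat_lit 10505745441) (nat_lit 0) (nat_lit 17532653189) (nat_lit 1900) (nat_lit 5053438413) (nat_lit 482) (nat_lit 5) (nat_lit 481) (nat_lit 5) (nat_lit 506) (nat_lit 5) (nat_lit 636) (nat_lit 615) (nat_lit 309)))) (XT.nd (nat_lit 78) (nat_lit 1824) (nat_lit 0) (XT.lf (nat_lit 76) (nat_lit 28368963442) (nat_lit 0) (nat_lit 2308226048) (nat_lit 1900) (nat_lit 2767375609) (nat_lit 482) (nat_lit 5) (nat_lit 481)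 (nat_lit 5) (nat_lit 506) (nat_lit 5) (nat_lit 637) (nat_lit 615) (nat_lit 308)) (XT.nd (nat_lit 78) (nat_lit 1900) (nat_lit 0) (XT.lf (nat_lit 76) (nat_lit 12866638932) (nat_lit 0) (nat_lit 20669851807) (nat_lit 1900) (nat_lit 264502382) (nat_lit 483) (nat_lit 5) (nat_lit 482) (nat_lit 5) (nat_lit 507) (nat_lit 5) (nat_lit 638) (nat_lit 615) (nat_lit 307)) (XT.lf (nat_lit 0) (nat_lit 2306357822) (nat_lit 1900) (nat_lit 2959095557) (nat_lit 1976) (nat_lit 28897840405) (nat_lit 457) (nat_lit 5) (nat_lit 482) (nat_lit 5) (nat_lit 483) (nat_lit 5) (nat_lit 639) (nat_lit 615) (nat_lit 306))))))))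
noncomputable def xc239 : XT := (XT.nd (nat_lit 79404) (nat_lit 0) (nat_lit 9576) (XT.nd (nat_lit 780) (nat_lit 4028) (nat_lit 0) (XT.nd (nat_lit 390) (nat_lit 2584) (nat_lit 0) (XT.nd (nat_lit 156) (nat_lit 1976) (nat_lit 0) (XT.nd (nat_lit 78) (nat_lit 0) (nat_lit 0) (XT.lf (nat_lit 0) (nat_lit 5093146949) (nat_lit 1900) (nat_lit 19022472514) (nat_lit 76) (nat_lit 10413825054) (nat_lit 458) (nat_lit 5) (nat_lit 483) (nat_lit 5) (nat_lit 459) (nat_lit 5) (nat_lit 640) (nat_lit 615) (nat_lit 305)) (XT.lf (nat_lit 0) (nat_lit 7988957876) (nat_lit 1900) (nat_lit 556430657) (nat_lit 76) (nat_lit 26356464100) (nat_lit 458) (nat_lit 5) (nat_lit 483) (nat_lit 5) (nat_lit 459) (nat_lit 5) (nat_lit 641) (nat_lit 615) (nat_lit 304))) (XT.nd (nat_lit 78) (nat_lit 912) (nat_lit 0) (XT.lf (nat_lit 0) (nat_lit 11109819325) (nat_lit 1140) (nat_lit 16807285469) (nat_lit 76) (nat_lit 7361261521) (nat_lit 444) (nat_lit 5) (nat_lit 459) (nat_lit 5) (nat_lit 445) (nat_lit 5) (nat_lit 642) (nat_lit 615) (nat_lit 303)) (XT.nd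 (nat_lit 78) (nat_lit 0) (nat_lit 0) (XT.lf (nat_lit 0) (nat_lit 2195147186) (nat_lit 912) (nat_lit 12171034199) (nat_lit 988) (nat_lit 21294767303) (nat_lit 432) (nat_lit 5) (nat_lit 444) (nat_lit 5) (nat_lit 445) (nat_lit 5) (nat_lit 643) (nat_lit 615) (nat_lit 302)) (XT.lf (nat_lit 0) (nat_lit 17824961698) (nat_lit 988) (nat_lit 14270871716) (nat_lit 76) (nat_lit 3952603560) (nat_lit 432) (nat_lit 5) (nat_lit 445) (nat_lit 5) (nat_lit 433) (nat_lit 5) (nat_lit 644) (nat_lit 615) (nat_lit 301))))) (XT.nd (nat_lit 156) (nat_lit 1672) (nat_lit 0) (XT.nd (nat_lit 78) (nat_lit 0) (nat_lit 0) (XT.lf (nat_lit 0) (nat_lit 5295434483) (nat_lit 912) (nat_lit 16170999019) (nat_lit 988) (nat_lit 14974971288) (nat_lit 420) (nat_lit 5) (nat_lit 432) (nat_lit 5) (nat_lit 433) (nat_lit 5) (nat_lit 645) (nat_lit 615) (nat_lit 300)) (XT.lf (nat_lit 0) (nat_lit 25276155700) (nat_lit 988) (nat_lit 11396298758) (nat_lit 76) (nat_lit 167869166) (nat_lit 420) (nat_lit 5) (nat_lit 433) (nat_lit 5) (nat_lit 421) (nat_lit 5)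 (nat_lit 646) (nat_lit 615) (nat_lit 299))) (XT.nd (nat_lit 78) (nat_lit 836) (nat_lit 0) (XT.lf (nat_lit 0) (nat_lit 8754730145) (nat_lit 836) (nat_lit 20569856874) (nat_lit 912) (nat_lit 7919383603) (nat_lit 409) (nat_lit 5) (nat_lit 420) (nat_lit 5) (nat_lit 421) (nat_lit 5) (nat_lit 647) (nat_lit 615) (nat_lit 298)) (XT.nd (nat_lit 78) (nat_lit 836) (nat_lit 0) (XT.lf (nat_lit 0) (nat_lit 29461905198) (nat_lit 836) (nat_lit 4067156426) (nat_lit 912) (nat_lit 4125127520) (nat_lit 409) (nat_lit 5) (nat_lit 420) (nat_lit 5) (nat_lit 421) (nat_lit 5) (nat_lit 648) (nat_lit 615) (nat_lit 297)) (XT.lf (nat_lit 0) (nat_lit 12591513410) (nat_lit 836) (nat_lit 25389374750) (nat_lit 912) (nat_lit 88458706) (nat_lit 398) (nat_lit 5) (nat_lit 409) (nat_lit 5) (nat_lit 410) (nat_lit 5) (nat_lit 649) (nat_lit 615) (nat_lit 296)))))) (XT.nd (nat_lit 390) (nat_lit 1520) (nat_lit 0) (XT.nd (nat_lit 156) (nat_lit 1596) (nat_lit 0) (XT.nd (nat_lit 78) (nat_lit 836) (nat_lit 0) (XT.lf (nat_lit 0) (nat_lit 4057012963) (nat_lit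 912) (nat_lit 4644495239) (nat_lit 76) (nat_lit 29789158246) (nat_lit 397) (nat_lit 5) (nat_lit 409) (nat_lit 5) (nat_lit 398) (nat_lit 5) (nat_lit 650) (nat_lit 615) (nat_lit 295)) (XT.lf (nat_lit 0) (nat_lit 8446854932) (nat_lit 912) (nat_lit 22148751031) (nat_lit 76) (nat_lit 8321541929) (nat_lit 386) (nat_lit 5) (nat_lit 398) (nat_lit 5) (nat_lit 387) (nat_lit 5) (nat_lit 651) (nat_lit 615) (nat_lit 294))) (XT.nd (nat_lit 78) (nat_lit 1596) (nat_lit 0) (XT.lf (nat_lit 0) (nat_lit 13012173671) (nat_lit 912) (nat_lit 738219394) (nat_lit 76) (nat_lit 25600012373) (nat_lit 386) (nat_lit 5) (nat_lit 398) (nat_lit 5) (nat_lit 387) (nat_lit 5) (nat_lit 652) (nat_lit 615) (nat_lit 293)) (XT.nd (nat_lit 78) (nat_lit 760) (nat_lit 0) (XT.lf (nat_lit 0) (nat_lit 17829515849) (nat_lit 912) (nat_lit 18433186944) (nat_lit 76) (nat_lit 3526411071) (nat_lit 375) (nat_lit 5) (nat_lit 387) (nat_lit 5) (nat_lit 376) (nat_lit 5) (nat_lit 653) (nat_lit 615) (nat_lit 292)) (XT.lf (nat_lit 0) (nat_lit 3620508511) (nat_lit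 760) (nat_lit 19240974968) (nat_lit 836) (nat_lit 17372747474) (nat_lit 365) (nat_lit 5) (nat_lit 375) (nat_lit 5) (nat_lit 376) (nat_lit 5) (nat_lit 654) (nat_lit 615) (nat_lit 291))))) (XT.nd (nat_lit 156) (nat_lit 760) (nat_lit 0) (XT.nd (nat_lit 78) (nat_lit 760) (nat_lit 0) (XT.lf (nat_lit 0) (nat_lit 26363807792) (nat_lit 760) (nat_lit 1752718429) (nat_lit 836) (nat_lit 12569275515) (nat_lit 365) (nat_lit 5) (nat_lit 375) (nat_lit 5) (nat_lit 376) (nat_lit 5) (nat_lit 655) (nat_lit 615) (nat_lit 290)) (XT.lf (nat_lit 0) (nat_lit 8420230634) (nat_lit 760) (nat_lit 25214308969) (nat_lit 836) (nat_lit 7508707000) (nat_lit 355) (nat_lit 5) (nat_lit 365) (nat_lit 5) (nat_lit 366) (nat_lit 5) (nat_lit 656) (nat_lit 615) (nat_lit 289))) (XT.nd (nat_lit 78) (nat_lit 760) (nat_lit 0) (XT.lf (nat_lit 0) (nat_lit 31798350351) (nat_lit 760) (nat_lit 7570981302) (nat_lit 836) (nat_lit 2238380413) (nat_lit 355) (nat_lit 5) (nat_lit 365) (nat_lit 5) (nat_lit 366) (nat_lit 5) (nat_lit 657) (nat_lit 615) (nat_lit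 288)) (XT.nd (nat_lit 77922) (nat_lit 0) (nat_lit 9576) (XT.lf (nat_lit 0) (nat_lit 3252497222) (nat_lit 760) (nat_lit 28426882590) (nat_lit 76) (nat_lit 10398553862) (nat_lit 345) (nat_lit 5) (nat_lit 355) (nat_lit 5) (nat_lit 346) (nat_lit 5) (nat_lit 658) (nat_lit 615) (nat_lit 287)) (XT.lf (nat_lit 0) (nat_lit 1228450197) (nat_lit 1900) (nat_lit 6195889348) (nat_lit 1900) (nat_lit 6195889348) (nat_lit 471) (nat_lit 3) (nat_lit 496) (nat_lit 3) (nat_lit 496) (nat_lit 5) (nat_lit 616) (nat_lit 616) (nat_lit 328))))))) (XT.nd (nat_lit 780) (nat_lit 0) (nat_lit 380) (XT.nd (nat_lit 390) (nat_lit 0) (nat_lit 228) (XT.nd (nat_lit 156) (nat_lit 0) (nat_lit 76) (XT.nd (nat_lit 78) (nat_lit 0) (nat_lit 76) (XT.lf (nat_lit 76) (nat_lit 1133861209) (nat_lit 0) (nat_lit 1444021338) (nat_lit 1900) (nat_lit 24933046155) (nat_lit 472) (nat_lit 5) (nat_lit 471) (nat_lit 3) (nat_lit 496) (nat_lit 5) (nat_lit 617) (nat_lit 616) (nat_lit 327)) (XT.lf (nat_lit 0) (nat_lit 2862051113) (nat_lit 1824) (nat_lit 12768367495)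 (nat_lit 1900) (nat_lit 12153175232) (nat_lit 472) (nat_lit 5) (nat_lit 496) (nat_lit 5) (nat_lit 497) (nat_lit 5) (nat_lit 618) (nat_lit 616) (nat_lit 326))) (XT.nd (nat_lit 78) (nat_lit 0) (nat_lit 76) (XT.lf (nat_lit 76) (nat_lit 1116347703) (nat_lit 0) (nat_lit 2050075973) (nat_lit 1900) (nat_lit 24894998332) (nat_lit 473) (nat_lit 5) (nat_lit 472) (nat_lit 5) (nat_lit 497) (nat_lit 5) (nat_lit 619) (nat_lit 616) (nat_lit 325)) (XT.nd (nat_lit 78) (nat_lit 0) (nat_lit 0) (XT.lf (nat_lit 0) (nat_lit 3637512272) (nat_lit 1824) (nat_lit 12969730895) (nat_lit 1900) (nat_lit 11734351137) (nat_lit 473) (nat_lit 5) (nat_lit 497) (nat_lit 5) (nat_lit 498) (nat_lit 5) (nat_lit 620) (nat_lit 616) (nat_lit 324)) (XT.lf (nat_lit 76) (nat_lit 1287168711) (nat_lit 0) (nat_lit 2850584890) (nat_lit 1900) (nat_lit 24489221959) (nat_lit 474) (nat_lit 5) (nat_lit 473) (nat_lit 5) (nat_lit 498) (nat_lit 5) (nat_lit 621) (nat_lit 616) (nat_lit 323))))) (XT.nd (nat_lit 156) (nat_lit 0) (nat_lit 76) (XT.nd (nat_lit 78) (nat_lit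 0) (nat_lit 0) (XT.lf (nat_lit 0) (nat_lit 4806043889) (nat_lit 1824) (nat_lit 12985778196) (nat_lit 1900) (nat_lit 11123081604) (nat_lit 474) (nat_lit 5) (nat_lit 498) (nat_lit 5) (nat_lit 499) (nat_lit 5) (nat_lit 622) (nat_lit 616) (nat_lit 322)) (XT.lf (nat_lit 76) (nat_lit 1656912451) (nat_lit 0) (nat_lit 3858303958) (nat_lit 1900) (nat_lit 23692823772) (nat_lit 475) (nat_lit 5) (nat_lit 474) (nat_lit 5) (nat_lit 499) (nat_lit 5) (nat_lit 623) (nat_lit 616) (nat_lit 321))) (XT.nd (nat_lit 78) (nat_lit 0) (nat_lit 0) (XT.lf (nat_lit 0) (nat_lit 6391434476) (nat_lit 1824) (nat_lit 12805925469) (nat_lit 1900) (nat_lit 10306622341) (nat_lit 475) (nat_lit 5) (nat_lit 499) (nat_lit 5) (nat_lit 500) (nat_lit 5) (nat_lit 624) (nat_lit 616) (nat_lit 320)) (XT.nd (nat_lit 78) (nat_lit 0) (nat_lit 76) (XT.lf (nat_lit 76) (nat_lit 2236679227) (nat_lit 0) (nat_lit 5086531471) (nat_lit 1900) (nat_lit 22481871983) (nat_lit 476) (nat_lit 5) (nat_lit 475) (nat_lit 5) (nat_lit 500) (nat_lit 5) (nat_lit 625) (nat_lit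 616) (nat_lit 319)) (XT.lf (nat_lit 0) (nat_lit 8418546682) (nat_lit 1824) (nat_lit 12419076815) (nat_lit 1900) (nat_lit 9271683224) (nat_lit 476) (nat_lit 5) (nat_lit 500) (nat_lit 5) (nat_lit 501) (nat_lit 5) (nat_lit 626) (nat_lit 616) (nat_lit 318)))))) (XT.nd (nat_lit 390) (nat_lit 0) (nat_lit 228) (XT.nd (nat_lit 156) (nat_lit 0) (nat_lit 76) (XT.nd (nat_lit 78) (nat_lit 0) (nat_lit 76) (XT.lf (nat_lit 76) (nat_lit 3038100893) (nat_lit 0) (nat_lit 6549135355) (nat_lit 1900) (nat_lit 20831350174) (nat_lit 477) (nat_lit 5) (nat_lit 476) (nat_lit 5) (nat_lit 501) (nat_lit 5) (nat_lit 627) (nat_lit 616) (nat_lit 317)) (XT.lf (nat_lit 0) (nat_lit 10913364697) (nat_lit 1824) (nat_lit 11813604811) (nat_lit 1900) (nat_lit 8004401023) (nat_lit 477) (nat_lit 5) (nat_lit 501) (nat_lit 5) (nat_lit 502) (nat_lit 5) (nat_lit 628) (nat_lit 616) (nat_lit 316))) (XT.nd (nat_lit 78) (nat_lit 0) (nat_lit 76) (XT.lf (nat_lit 76) (nat_lit 4073361152) (nat_lit 0) (nat_lit 8260581341) (nat_lit 1900) (nat_lit 18715109407)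 (nat_lit 478) (nat_lit 5) (nat_lit 477) (nat_lit 5) (nat_lit 502) (nat_lit 5) (nat_lit 629) (nat_lit 616) (nat_lit 315)) (XT.nd (nat_lit 78) (nat_lit 0) (nat_lit 0) (XT.lf (nat_lit 0) (nat_lit 13903043517) (nat_lit 1824) (nat_lit 10977330122) (nat_lit 1900) (nat_lit 6490311137) (nat_lit 478) (nat_lit 5) (nat_lit 502) (nat_lit 5) (nat_lit 503) (nat_lit 5) (nat_lit 630) (nat_lit 616) (nat_lit 314)) (XT.lf (nat_lit 76) (nat_lit 5355216739) (nat_lit 0) (nat_lit 10235962179) (nat_lit 1900) (nat_lit 16105818454) (nat_lit 479) (nat_lit 5) (nat_lit 478) (nat_lit 5) (nat_lit 503) (nat_lit 5) (nat_lit 631) (nat_lit 616) (nat_lit 313))))) (XT.nd (nat_lit 234) (nat_lit 0) (nat_lit 76) (XT.nd (nat_lit 78) (nat_lit 0) (nat_lit 0) (XT.lf (nat_lit 0) (nat_lit 17415960142) (nat_lit 1824) (nat_lit 9897500239) (nat_lit 1900) (nat_lit 4714318283) (nat_lit 479) (nat_lit 5) (nat_lit 503) (nat_lit 5) (nat_lit 504) (nat_lit 5) (nat_lit 632) (nat_lit 616) (nat_lit 312)) (XT.nd (nat_lit 78) (nat_lit 0) (nat_lit 76) (XT.lf (nat_lit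 76) (nat_lit 6897019477) (nat_lit 0) (nat_lit 12491027928) (nat_lit 1900) (nat_lit 12974912075) (nat_lit 480) (nat_lit 5) (nat_lit 479) (nat_lit 5) (nat_lit 504) (nat_lit 5) (nat_lit 633) (nat_lit 616) (nat_lit 311)) (XT.lf (nat_lit 0) (nat_lit 21481766776) (nat_lit 1824) (nat_lit 8560767331) (nat_lit 1900) (nat_lit 2660666101) (nat_lit 480) (nat_lit 5) (nat_lit 504) (nat_lit 5) (nat_lit 505) (nat_lit 5) (nat_lit 634) (nat_lit 616) (nat_lit 310)))) (XT.nd (nat_lit 78) (nat_lit 0) (nat_lit 76) (XT.lf (nat_lit 76) (nat_lit 8712739271) (nat_lit 0) (nat_lit 15042217390) (nat_lit 1900) (nat_lit 9292537268) (nat_lit 481) (nat_lit 5) (nat_lit 480) (nat_lit 5) (nat_lit 505) (nat_lit 5) (nat_lit 635) (nat_lit 616) (nat_lit 309)) (XT.nd (nat_lit 78) (nat_lit 0) (nat_lit 0) (XT.lf (nat_lit 0) (nat_lit 26131446134) (nat_lit 1824) (nat_lit 6953165175) (nat_lit 1900) (nat_lit 312905599) (nat_lit 481) (nat_lit 5) (nat_lit 505) (nat_lit 5) (nat_lit 506) (nat_lit 5) (nat_lit 636) (nat_lit 616) (nat_lit 308)) (XT.lf (nat_lit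 76) (nat_lit 10816988041) (nat_lit 0) (nat_lit 17906690745) (nat_lit 1900) (nat_lit 5027497389) (nat_lit 482) (nat_lit 5) (nat_lit 481) (nat_lit 5) (nat_lit 506) (nat_lit 5) (nat_lit 637) (nat_lit 616) (nat_lit 307))))))))
noncomputable def xc240 : XT := (XT.nd (nat_lit 79560) (nat_lit 0) (nat_lit 8816) (XT.nd (nat_lit 780) (nat_lit 4940) (nat_lit 0) (XT.nd (nat_lit 390) (nat_lit 2812) (nat_lit 0) (XT.nd (nat_lit 156) (nat_lit 1824) (nat_lit 0) (XT.nd (nat_lit 78) (nat_lit 0) (nat_lit 76) (XT.lf (nat_lit 76) (nat_lit 29035487505) (nat_lit 0) (nat_lit 2377316542) (nat_lit 1900) (nat_lit 2698203717) (nat_lit 482) (nat_lit 5) (nat_lit 481) (nat_lit 5) (nat_lit 506) (nat_lit 5) (nat_lit 638) (nat_lit 616) (nat_lit 306)) (XT.lf (nat_lit 76) (nat_lit 13225044637) (nat_lit 0) (nat_lit 21102363441) (nat_lit 1900) (nat_lit 147194075) (nat_lit 483) (nat_lit 5) (nat_lit 482) (nat_lit 5) (nat_lit 507) (nat_lit 5) (nat_lit 639) (nat_lit 616) (nat_lit 305))) (XT.nd (nat_lit 78) (nat_lit 0) (nat_lit 76) (XT.lf (nat_lit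 0) (nat_lit 2471103071) (nat_lit 1900) (nat_lit 2917603187) (nat_lit 1976) (nat_lit 29455474234) (nat_lit 457) (nat_lit 5) (nat_lit 482) (nat_lit 5) (nat_lit 483) (nat_lit 5) (nat_lit 640) (nat_lit 616) (nat_lit 304)) (XT.nd (nat_lit 78) (nat_lit 0) (nat_lit 0) (XT.lf (nat_lit 0) (nat_lit 5311841562) (nat_lit 1900) (nat_lit 19300454592) (nat_lit 76) (nat_lit 10605393948) (nat_lit 458) (nat_lit 5) (nat_lit 483) (nat_lit 5) (nat_lit 459) (nat_lit 5) (nat_lit 641) (nat_lit 616) (nat_lit 303)) (XT.lf (nat_lit 0) (nat_lit 8263277890) (nat_lit 1900) (nat_lit 467101062) (nat_lit 76) (nat_lit 26867213376) (nat_lit 458) (nat_lit 5) (nat_lit 483) (nat_lit 5) (nat_lit 459) (nat_lit 5) (nat_lit 642) (nat_lit 616) (nat_lit 302))))) (XT.nd (nat_lit 156) (nat_lit 912) (nat_lit 0) (XT.nd (nat_lit 78) (nat_lit 912) (nat_lit 0) (XT.lf (nat_lit 0) (nat_lit 11444873269) (nat_lit 1140) (nat_lit 17041283258) (nat_lit 76) (nat_lit 7495513550) (nat_lit 444) (nat_lit 5) (nat_lit 459) (nat_lit 5) (nat_lit 445) (nat_lit 5) (nat_lit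 643) (nat_lit 616) (nat_lit 301)) (XT.lf (nat_lit 0) (nat_lit 2340526023) (nat_lit 912) (nat_lit 12424282502) (nat_lit 988) (nat_lit 21607126779) (nat_lit 432) (nat_lit 5) (nat_lit 444) (nat_lit 5) (nat_lit 445) (nat_lit 5) (nat_lit 644) (nat_lit 616) (nat_lit 300))) (XT.nd (nat_lit 78) (nat_lit 912) (nat_lit 0) (XT.lf (nat_lit 0) (nat_lit 18290519467) (nat_lit 988) (nat_lit 14454551838) (nat_lit 76) (nat_lit 4022147074) (nat_lit 432) (nat_lit 5) (nat_lit 445) (nat_lit 5) (nat_lit 433) (nat_lit 5) (nat_lit 645) (nat_lit 616) (nat_lit 299)) (XT.nd (nat_lit 78) (nat_lit 0) (nat_lit 0) (XT.lf (nat_lit 0) (nat_lit 5502411161) (nat_lit 912) (nat_lit 16500927344) (nat_lit 988) (nat_lit 15164736812) (nat_lit 420) (nat_lit 5) (nat_lit 432) (nat_lit 5) (nat_lit 433) (nat_lit 5) (nat_lit 646) (nat_lit 616) (nat_lit 298)) (XT.lf (nat_lit 0) (nat_lit 25887104378) (nat_lit 988) (nat_lit 11522981778) (nat_lit 76) (nat_lit 164929504) (nat_lit 420) (nat_lit 5) (nat_lit 433) (nat_lit 5) (nat_lit 421) (nat_lit 5) (nat_lit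 647) (nat_lit 616) (nat_lit 297)))))) (XT.nd (nat_lit 390) (nat_lit 2356) (nat_lit 0) (XT.nd (nat_lit 156) (nat_lit 1748) (nat_lit 0) (XT.nd (nat_lit 78) (nat_lit 0) (nat_lit 0) (XT.lf (nat_lit 0) (nat_lit 9030401631) (nat_lit 836) (nat_lit 20984688537) (nat_lit 912) (nat_lit 7971673830) (nat_lit 409) (nat_lit 5) (nat_lit 420) (nat_lit 5) (nat_lit 421) (nat_lit 5) (nat_lit 648) (nat_lit 616) (nat_lit 296)) (XT.lf (nat_lit 0) (nat_lit 30149748089) (nat_lit 836) (nat_lit 4151866737) (nat_lit 912) (nat_lit 4103612968) (nat_lit 409) (nat_lit 5) (nat_lit 420) (nat_lit 5) (nat_lit 421) (nat_lit 5) (nat_lit 649) (nat_lit 616) (nat_lit 295))) (XT.nd (nat_lit 78) (nat_lit 836) (nat_lit 0) (XT.lf (nat_lit 0) (nat_lit 12227625) (nat_lit 912) (nat_lit 25885443511) (nat_lit 76) (nat_lit 12931043468) (nat_lit 397) (nat_lit 5) (nat_lit 409) (nat_lit 5) (nat_lit 398) (nat_lit 5) (nat_lit 650) (nat_lit 616) (nat_lit 294)) (XT.nd (nat_lit 78) (nat_lit 836) (nat_lit 0) (XT.lf (nat_lit 0) (nat_lit 4237439644) (nat_lit 912)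 (nat_lit 4638011815) (nat_lit 76) (nat_lit 30383037223) (nat_lit 397) (nat_lit 5) (nat_lit 409) (nat_lit 5) (nat_lit 398) (nat_lit 5) (nat_lit 651) (nat_lit 616) (nat_lit 293)) (XT.lf (nat_lit 0) (nat_lit 8713777412) (nat_lit 912) (nat_lit 22491046421) (nat_lit 76) (nat_lit 8488702050) (nat_lit 386) (nat_lit 5) (nat_lit 398) (nat_lit 5) (nat_lit 387) (nat_lit 5) (nat_lit 652) (nat_lit 616) (nat_lit 292))))) (XT.nd (nat_lit 156) (nat_lit 1520) (nat_lit 0) (XT.nd (nat_lit 78) (nat_lit 836) (nat_lit 0) (XT.lf (nat_lit 0) (nat_lit 13368481243) (nat_lit 912) (nat_lit 654278261) (nat_lit 76) (nat_lit 26112727603) (nat_lit 386) (nat_lit 5) (nat_lit 398) (nat_lit 5) (nat_lit 387) (nat_lit 5) (nat_lit 653) (nat_lit 616) (nat_lit 291)) (XT.lf (nat_lit 0) (nat_lit 18280944330) (nat_lit 912) (nat_lit 18701914171) (nat_lit 76) (nat_lit 3600135820) (nat_lit 375) (nat_lit 5) (nat_lit 387) (nat_lit 5) (nat_lit 376) (nat_lit 5) (nat_lit 654) (nat_lit 616) (nat_lit 290))) (XT.nd (nat_lit 78) (nat_lit 760) (nat_lit 0) (XT.lf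 (nat_lit 0) (nat_lit 3792197716) (nat_lit 760) (nat_lit 19620138610) (nat_lit 836) (nat_lit 17624701825) (nat_lit 365) (nat_lit 5) (nat_lit 375) (nat_lit 5) (nat_lit 376) (nat_lit 5) (nat_lit 655) (nat_lit 616) (nat_lit 289)) (XT.nd (nat_lit 78) (nat_lit 760) (nat_lit 0) (XT.lf (nat_lit 0) (nat_lit 26988416335) (nat_lit 760) (nat_lit 1782227839) (nat_lit 836) (nat_lit 12727032988) (nat_lit 365) (nat_lit 5) (nat_lit 375) (nat_lit 5) (nat_lit 376) (nat_lit 5) (nat_lit 656) (nat_lit 616) (nat_lit 288)) (XT.lf (nat_lit 0) (nat_lit 8687120024) (nat_lit 760) (nat_lit 25710772771) (nat_lit 836) (nat_lit 7566400728) (nat_lit 355) (nat_lit 5) (nat_lit 365) (nat_lit 5) (nat_lit 366) (nat_lit 5) (nat_lit 657) (nat_lit 616) (nat_lit 287))))))) (XT.nd (nat_lit 780) (nat_lit 0) (nat_lit 380) (XT.nd (nat_lit 390) (nat_lit 0) (nat_lit 152) (XT.nd (nat_lit 156) (nat_lit 0) (nat_lit 76) (XT.nd (nat_lit 78) (nat_lit 0) (nat_lit 0) (XT.lf (nat_lit 0) (nat_lit 1341492390) (nat_lit 1900) (nat_lit 6274683126) (nat_lit 1900) (nat_lit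 6274683126) (nat_lit 471) (nat_lit 3) (nat_lit 496) (nat_lit 3) (nat_lit 496) (nat_lit 5) (nat_lit 617) (nat_lit 617) (nat_lit 326)) (XT.lf (nat_lit 76) (nat_lit 1246192715) (nat_lit 0) (nat_lit 1557306420) (nat_lit 1900) (nat_lit 25254156441) (nat_lit 472) (nat_lit 5) (nat_lit 471) (nat_lit 3) (nat_lit 496) (nat_lit 5) (nat_lit 618) (nat_lit 617) (nat_lit 325))) (XT.nd (nat_lit 78) (nat_lit 0) (nat_lit 0) (XT.lf (nat_lit 0) (nat_lit 3089400886) (nat_lit 1824) (nat_lit 12931877990) (nat_lit 1900) (nat_lit 12314574351) (nat_lit 472) (nat_lit 5) (nat_lit 496) (nat_lit 5) (nat_lit 497) (nat_lit 5) (nat_lit 619) (nat_lit 617) (nat_lit 324)) (XT.nd (nat_lit 78) (nat_lit 0) (nat_lit 76) (XT.lf (nat_lit 76) (nat_lit 1229927191) (nat_lit 0) (nat_lit 2167190716) (nat_lit 1900) (nat_lit 25222175114) (nat_lit 473) (nat_lit 5) (nat_lit 472) (nat_lit 5) (nat_lit 497) (nat_lit 5) (nat_lit 620) (nat_lit 617) (nat_lit 323)) (XT.lf (nat_lit 0) (nat_lit 3873862106) (nat_lit 1824) (nat_lit 13135886161) (nat_lit 1900) (nat_lit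 11895396018) (nat_lit 473) (nat_lit 5) (nat_lit 497) (nat_lit 5) (nat_lit 498) (nat_lit 5) (nat_lit 621) (nat_lit 617) (nat_lit 322))))) (XT.nd (nat_lit 156) (nat_lit 0) (nat_lit 76) (XT.nd (nat_lit 78) (nat_lit 0) (nat_lit 76) (XT.lf (nat_lit 76) (nat_lit 1405538020) (nat_lit 0) (nat_lit 2975963795) (nat_lit 1900) (nat_lit 24814783674) (nat_lit 474) (nat_lit 5) (nat_lit 473) (nat_lit 5) (nat_lit 498) (nat_lit 5) (nat_lit 622) (nat_lit 617) (nat_lit 321)) (XT.lf (nat_lit 0) (nat_lit 5059565998) (nat_lit 1824) (nat_lit 13151082581) (nat_lit 1900) (nat_lit 11279395630) (nat_lit 474) (nat_lit 5) (nat_lit 498) (nat_lit 5) (nat_lit 499) (nat_lit 5) (nat_lit 623) (nat_lit 617) (nat_lit 320))) (XT.nd (nat_lit 78) (nat_lit 0) (nat_lit 76) (XT.lf (nat_lit 76) (nat_lit 1783840753) (nat_lit 0) (nat_lit 3996603864) (nat_lit 1900) (nat_lit 24008648548) (nat_lit 475) (nat_lit 5) (nat_lit 474) (nat_lit 5) (nat_lit 499) (nat_lit 5) (nat_lit 624) (nat_lit 617) (nat_lit 319)) (XT.nd (nat_lit 78) (nat_lit 0) (nat_lit 0) (XT.lf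 (nat_lit 0) (nat_lit 6670760185) (nat_lit 1824) (nat_lit 12966656926) (nat_lit 1900) (nat_lit 10453605722) (nat_lit 475) (nat_lit 5) (nat_lit 499) (nat_lit 5) (nat_lit 500) (nat_lit 5) (nat_lit 625) (nat_lit 617) (nat_lit 318)) (XT.lf (nat_lit 76) (nat_lit 2376172318) (nat_lit 0) (nat_lit 5242644324) (nat_lit 1900) (nat_lit 22779375878) (nat_lit 476) (nat_lit 5) (nat_lit 475) (nat_lit 5) (nat_lit 500) (nat_lit 5) (nat_lit 626) (nat_lit 617) (nat_lit 317)))))) (XT.nd (nat_lit 390) (nat_lit 0) (nat_lit 152) (XT.nd (nat_lit 156) (nat_lit 0) (nat_lit 76) (XT.nd (nat_lit 78) (nat_lit 0) (nat_lit 0) (XT.lf (nat_lit 0) (nat_lit 8732788836) (nat_lit 1824) (nat_lit 12571277560) (nat_lit 1900) (nat_lit 9404500230) (nat_lit 476) (nat_lit 5) (nat_lit 500) (nat_lit 5) (nat_lit 501) (nat_lit 5) (nat_lit 627) (nat_lit 617) (nat_lit 316)) (XT.lf (nat_lit 76) (nat_lit 3194410933) (nat_lit 0) (nat_lit 6728201401) (nat_lit 1900) (nat_lit 21101464558) (nat_lit 477) (nat_lit 5) (nat_lit 476) (nat_lit 5) (nat_lit 501) (nat_lit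 5) (nat_lit 628) (nat_lit 617) (nat_lit 315))) (XT.nd (nat_lit 78) (nat_lit 0) (nat_lit 0) (XT.lf (nat_lit 0) (nat_lit 11272140984) (nat_lit 1824) (nat_lit 11953071545) (nat_lit 1900) (nat_lit 8117966771) (nat_lit 477) (nat_lit 5) (nat_lit 501) (nat_lit 5) (nat_lit 502) (nat_lit 5) (nat_lit 629) (nat_lit 617) (nat_lit 314)) (XT.nd (nat_lit 78) (nat_lit 0) (nat_lit 76) (XT.lf (nat_lit 76) (nat_lit 4250996860) (nat_lit 0) (nat_lit 8468002787) (nat_lit 1900) (nat_lit 18948257430) (nat_lit 478) (nat_lit 5) (nat_lit 477) (nat_lit 5) (nat_lit 502) (nat_lit 5) (nat_lit 630) (nat_lit 617) (nat_lit 313)) (XT.lf (nat_lit 0) (nat_lit 14316500711) (nat_lit 1824) (nat_lit 11099603783) (nat_lit 1900) (nat_lit 6579277918) (nat_lit 478) (nat_lit 5) (nat_lit 502) (nat_lit 5) (nat_lit 503) (nat_lit 5) (nat_lit 631) (nat_lit 617) (nat_lit 312))))) (XT.nd (nat_lit 156) (nat_lit 0) (nat_lit 76) (XT.nd (nat_lit 78) (nat_lit 0) (nat_lit 76) (XT.lf (nat_lit 76) (nat_lit 5558954062) (nat_lit 0) (nat_lit 10477417334) (nat_lit 1900)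 (nat_lit 16291890573) (nat_lit 479) (nat_lit 5) (nat_lit 478) (nat_lit 5) (nat_lit 503) (nat_lit 5) (nat_lit 632) (nat_lit 617) (nat_lit 311)) (XT.lf (nat_lit 0) (nat_lit 17894799330) (nat_lit 1824) (nat_lit 9997855290) (nat_lit 1900) (nat_lit 4773061401) (nat_lit 479) (nat_lit 5) (nat_lit 503) (nat_lit 5) (nat_lit 504) (nat_lit 5) (nat_lit 633) (nat_lit 617) (nat_lit 310))) (XT.nd (nat_lit 78) (nat_lit 0) (nat_lit 76) (XT.lf (nat_lit 76) (nat_lit 7131912749) (nat_lit 0) (nat_lit 12772485857) (nat_lit 1900) (nat_lit 13103240595) (nat_lit 480) (nat_lit 5) (nat_lit 479) (nat_lit 5) (nat_lit 504) (nat_lit 5) (nat_lit 634) (nat_lit 617) (nat_lit 309)) (XT.nd (nat_lit 78) (nat_lit 0) (nat_lit 0) (XT.lf (nat_lit 0) (nat_lit 22037269603) (nat_lit 1824) (nat_lit 8634200558) (nat_lit 1900) (nat_lit 2683269187) (nat_lit 480) (nat_lit 5) (nat_lit 504) (nat_lit 5) (nat_lit 505) (nat_lit 5) (nat_lit 635) (nat_lit 617) (nat_lit 308)) (XT.lf (nat_lit 76) (nat_lit 8984132872) (nat_lit 0) (nat_lit 15369953113) (nat_lit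 1900) (nat_lit 9351869851) (nat_lit 481) (nat_lit 5) (nat_lit 480) (nat_lit 5) (nat_lit 505) (nat_lit 5) (nat_lit 636) (nat_lit 617) (nat_lit 307))))))))
noncomputable def xc241 : XT := (XT.nd (nat_lit 1560) (nat_lit 0) (nat_lit 0) (XT.nd (nat_lit 780) (nat_lit 5092) (nat_lit 0) (XT.nd (nat_lit 390) (nat_lit 1900) (nat_lit 0) (XT.nd (nat_lit 156) (nat_lit 1824) (nat_lit 0) (XT.nd (nat_lit 78) (nat_lit 0) (nat_lit 0) (XT.lf (nat_lit 0) (nat_lit 26775502110) (nat_lit 1824) (nat_lit 6994383985) (nat_lit 1900) (nat_lit 293145387) (nat_lit 481) (nat_lit 5) (nat_lit 505) (nat_lit 5) (nat_lit 506) (nat_lit 5) (nat_lit 637) (nat_lit 617) (nat_lit 306)) (XT.lf (nat_lit 76) (nat_lit 11130528581) (nat_lit 0) (nat_lit 18287301004) (nat_lit 1900) (nat_lit 5005969489) (nat_lit 482) (nat_lit 5) (nat_lit 481) (nat_lit 5) (nat_lit 506) (nat_lit 5) (nat_lit 638) (nat_lit 617) (nat_lit 305))) (XT.nd (nat_lit 78) (nat_lit 1824) (nat_lit 0) (XT.lf (nat_lit 76) (nat_lit 29711492137) (nat_lit 0) (nat_lit 2446898602) (nat_lit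 1900) (nat_lit 2632483626) (nat_lit 482) (nat_lit 5) (nat_lit 481) (nat_lit 5) (nat_lit 506) (nat_lit 5) (nat_lit 639) (nat_lit 617) (nat_lit 304)) (XT.nd (nat_lit 78) (nat_lit 1900) (nat_lit 0) (XT.lf (nat_lit 76) (nat_lit 13586693670) (nat_lit 0) (nat_lit 21542783065) (nat_lit 1900) (nat_lit 32300246) (nat_lit 483) (nat_lit 5) (nat_lit 482) (nat_lit 5) (nat_lit 507) (nat_lit 5) (nat_lit 640) (nat_lit 617) (nat_lit 303)) (XT.lf (nat_lit 0) (nat_lit 2634537141) (nat_lit 1900) (nat_lit 2879190275) (nat_lit 1976) (nat_lit 30025049906) (nat_lit 457) (nat_lit 5) (nat_lit 482) (nat_lit 5) (nat_lit 483) (nat_lit 5) (nat_lit 641) (nat_lit 617) (nat_lit 302))))) (XT.nd (nat_lit 156) (nat_lit 1976) (nat_lit 0) (XT.nd (nat_lit 78) (nat_lit 0) (nat_lit 0) (XT.lf (nat_lit 0) (nat_lit 5530373350) (nat_lit 1900) (nat_lit 19587975244) (nat_lit 76) (nat_lit 10801442997) (nat_lit 458) (nat_lit 5) (nat_lit 483) (nat_lit 5) (nat_lit 459) (nat_lit 5) (nat_lit 642) (nat_lit 617) (nat_lit 301)) (XT.lf (nat_lit 0) (nat_lit 8538636543)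 (nat_lit 1900) (nat_lit 379885790) (nat_lit 76) (nat_lit 27388813692) (nat_lit 458) (nat_lit 5) (nat_lit 483) (nat_lit 5) (nat_lit 459) (nat_lit 5) (nat_lit 643) (nat_lit 617) (nat_lit 300))) (XT.nd (nat_lit 78) (nat_lit 912) (nat_lit 0) (XT.lf (nat_lit 0) (nat_lit 11782245895) (nat_lit 1140) (nat_lit 17283927532) (nat_lit 76) (nat_lit 7632954384) (nat_lit 444) (nat_lit 5) (nat_lit 459) (nat_lit 5) (nat_lit 445) (nat_lit 5) (nat_lit 644) (nat_lit 617) (nat_lit 299)) (XT.nd (nat_lit 78) (nat_lit 0) (nat_lit 0) (XT.lf (nat_lit 0) (nat_lit 2484872005) (nat_lit 912) (nat_lit 12682214153) (nat_lit 988) (nat_lit 21930142180) (nat_lit 432) (nat_lit 5) (nat_lit 444) (nat_lit 5) (nat_lit 445) (nat_lit 5) (nat_lit 645) (nat_lit 617) (nat_lit 298)) (XT.lf (nat_lit 0) (nat_lit 18761153515) (nat_lit 988) (nat_lit 14645856146) (nat_lit 76) (nat_lit 4093450687) (nat_lit 432) (nat_lit 5) (nat_lit 445) (nat_lit 5) (nat_lit 433) (nat_lit 5) (nat_lit 646) (nat_lit 617) (nat_lit 297)))))) (XT.nd (nat_lit 390) (nat_lit 2432)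 (nat_lit 0) (XT.nd (nat_lit 156) (nat_lit 1748) (nat_lit 0) (XT.nd (nat_lit 78) (nat_lit 0) (nat_lit 0) (XT.lf (nat_lit 0) (nat_lit 5709602779) (nat_lit 912) (nat_lit 16837201508) (nat_lit 988) (nat_lit 15362558747) (nat_lit 420) (nat_lit 5) (nat_lit 432) (nat_lit 5) (nat_lit 433) (nat_lit 5) (nat_lit 647) (nat_lit 617) (nat_lit 296)) (XT.lf (nat_lit 0) (nat_lit 26506178228) (nat_lit 988) (nat_lit 11656129846) (nat_lit 76) (nat_lit 162175570) (nat_lit 420) (nat_lit 5) (nat_lit 433) (nat_lit 5) (nat_lit 421) (nat_lit 5) (nat_lit 648) (nat_lit 617) (nat_lit 295))) (XT.nd (nat_lit 78) (nat_lit 912) (nat_lit 0) (XT.lf (nat_lit 0) (nat_lit 9307681024) (nat_lit 836) (nat_lit 21407683467) (nat_lit 912) (nat_lit 8029129754) (nat_lit 409) (nat_lit 5) (nat_lit 420) (nat_lit 5) (nat_lit 421) (nat_lit 5) (nat_lit 649) (nat_lit 617) (nat_lit 294)) (XT.nd (nat_lit 78) (nat_lit 912) (nat_lit 0) (XT.lf (nat_lit 0) (nat_lit 30847518894) (nat_lit 836) (nat_lit 4238140502) (nat_lit 912) (nat_lit 4085707235) (nat_lit 409)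 (nat_lit 5) (nat_lit 420) (nat_lit 5) (nat_lit 421) (nat_lit 5) (nat_lit 650) (nat_lit 617) (nat_lit 293)) (XT.lf (nat_lit 0) (nat_lit 109811807) (nat_lit 912) (nat_lit 26305727549) (nat_lit 76) (nat_lit 13187797486) (nat_lit 397) (nat_lit 5) (nat_lit 409) (nat_lit 5) (nat_lit 398) (nat_lit 5) (nat_lit 651) (nat_lit 617) (nat_lit 292))))) (XT.nd (nat_lit 156) (nat_lit 1596) (nat_lit 0) (XT.nd (nat_lit 78) (nat_lit 836) (nat_lit 0) (XT.lf (nat_lit 0) (nat_lit 4417619447) (nat_lit 912) (nat_lit 4635257510) (nat_lit 76) (nat_lit 30988867721) (nat_lit 397) (nat_lit 5) (nat_lit 409) (nat_lit 5) (nat_lit 398) (nat_lit 5) (nat_lit 652) (nat_lit 617) (nat_lit 291)) (XT.lf (nat_lit 0) (nat_lit 8982233449) (nat_lit 912) (nat_lit 22844097230) (nat_lit 76) (nat_lit 8659177054) (nat_lit 386) (nat_lit 5) (nat_lit 398) (nat_lit 5) (nat_lit 387) (nat_lit 5) (nat_lit 653) (nat_lit 617) (nat_lit 290))) (XT.nd (nat_lit 78) (nat_lit 1596) (nat_lit 0) (XT.lf (nat_lit 0) (nat_lit 13728184681) (nat_lit 912) (nat_lit 572491161)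 (nat_lit 76) (nat_lit 26635669374) (nat_lit 386) (nat_lit 5) (nat_lit 398) (nat_lit 5) (nat_lit 387) (nat_lit 5) (nat_lit 654) (nat_lit 617) (nat_lit 289)) (XT.nd (nat_lit 78) (nat_lit 760) (nat_lit 0) (XT.lf (nat_lit 0) (nat_lit 18737718699) (nat_lit 912) (nat_lit 18979896599) (nat_lit 76) (nat_lit 3675210940) (nat_lit 375) (nat_lit 5) (nat_lit 387) (nat_lit 5) (nat_lit 376) (nat_lit 5) (nat_lit 655) (nat_lit 617) (nat_lit 288)) (XT.lf (nat_lit 0) (nat_lit 3963465579) (nat_lit 760) (nat_lit 20007105149) (nat_lit 836) (nat_lit 17885403668) (nat_lit 365) (nat_lit 5) (nat_lit 375) (nat_lit 5) (nat_lit 376) (nat_lit 5) (nat_lit 656) (nat_lit 617) (nat_lit 287))))))) (XT.nd (nat_lit 78858) (nat_lit 0) (nat_lit 8360) (XT.nd (nat_lit 78468) (nat_lit 0) (nat_lit 8208) (XT.nd (nat_lit 78234) (nat_lit 0) (nat_lit 8056) (XT.nd (nat_lit 78156) (nat_lit 0) (nat_lit 8056) (XT.lf (nat_lit 0) (nat_lit 27621737514) (nat_lit 760) (nat_lit 1812542755) (nat_lit 836) (nat_lit 12891581300) (nat_lit 365) (nat_lit 5) (nat_lit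 375) (nat_lit 5) (nat_lit 376) (nat_lit 5) (nat_lit 657) (nat_lit 617) (nat_lit 286)) (XT.lf (nat_lit 0) (nat_lit 1453359906) (nat_lit 1900) (nat_lit 6356804999) (nat_lit 1900) (nat_lit 6356804999) (nat_lit 471) (nat_lit 3) (nat_lit 496) (nat_lit 3) (nat_lit 496) (nat_lit 5) (nat_lit 618) (nat_lit 618) (nat_lit 324))) (XT.nd (nat_lit 78) (nat_lit 0) (nat_lit 76) (XT.lf (nat_lit 76) (nat_lit 1357289466) (nat_lit 0) (nat_lit 1669579668) (nat_lit 1900) (nat_lit 25588583441) (nat_lit 472) (nat_lit 5) (nat_lit 471) (nat_lit 3) (nat_lit 496) (nat_lit 5) (nat_lit 619) (nat_lit 618) (nat_lit 323)) (XT.nd (nat_lit 78) (nat_lit 0) (nat_lit 0) (XT.lf (nat_lit 0) (nat_lit 3314692125) (nat_lit 1824) (nat_lit 13102225608) (nat_lit 1900) (nat_lit 12482372581) (nat_lit 472) (nat_lit 5) (nat_lit 496) (nat_lit 5) (nat_lit 497) (nat_lit 5) (nat_lit 620) (nat_lit 618) (nat_lit 322)) (XT.lf (nat_lit 76) (nat_lit 1342234822) (nat_lit 0) (nat_lit 2283692184) (nat_lit 1900) (nat_lit 25562524821) (nat_lit 473) (nat_lit 5) (nat_lit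 472) (nat_lit 5) (nat_lit 497) (nat_lit 5) (nat_lit 621) (nat_lit 618) (nat_lit 321))))) (XT.nd (nat_lit 156) (nat_lit 0) (nat_lit 76) (XT.nd (nat_lit 78) (nat_lit 0) (nat_lit 0) (XT.lf (nat_lit 0) (nat_lit 4108586164) (nat_lit 1824) (nat_lit 13308985130) (nat_lit 1900) (nat_lit 12062521410) (nat_lit 473) (nat_lit 5) (nat_lit 497) (nat_lit 5) (nat_lit 498) (nat_lit 5) (nat_lit 622) (nat_lit 618) (nat_lit 320)) (XT.lf (nat_lit 76) (nat_lit 1522677938) (nat_lit 0) (nat_lit 3101195496) (nat_lit 1900) (nat_lit 25153233592) (nat_lit 474) (nat_lit 5) (nat_lit 473) (nat_lit 5) (nat_lit 498) (nat_lit 5) (nat_lit 623) (nat_lit 618) (nat_lit 319))) (XT.nd (nat_lit 78) (nat_lit 0) (nat_lit 0) (XT.lf (nat_lit 0) (nat_lit 5312046469) (nat_lit 1824) (nat_lit 13323359155) (nat_lit 1900) (nat_lit 11441404528) (nat_lit 474) (nat_lit 5) (nat_lit 498) (nat_lit 5) (nat_lit 499) (nat_lit 5) (nat_lit 624) (nat_lit 618) (nat_lit 318)) (XT.nd (nat_lit 78) (nat_lit 0) (nat_lit 76) (XT.lf (nat_lit 76) (nat_lit 1909665639) (nat_lit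 0) (nat_lit 4135295868) (nat_lit 1900) (nat_lit 24336926382) (nat_lit 475) (nat_lit 5) (nat_lit 474) (nat_lit 5) (nat_lit 499) (nat_lit 5) (nat_lit 625) (nat_lit 618) (nat_lit 317)) (XT.lf (nat_lit 0) (nat_lit 6949789593) (nat_lit 1824) (nat_lit 13134307006) (nat_lit 1900) (nat_lit 10605825602) (nat_lit 475) (nat_lit 5) (nat_lit 499) (nat_lit 5) (nat_lit 500) (nat_lit 5) (nat_lit 626) (nat_lit 618) (nat_lit 316)))))) (XT.nd (nat_lit 390) (nat_lit 0) (nat_lit 228) (XT.nd (nat_lit 156) (nat_lit 0) (nat_lit 76) (XT.nd (nat_lit 78) (nat_lit 0) (nat_lit 76) (XT.lf (nat_lit 76) (nat_lit 2514775645) (nat_lit 0) (nat_lit 5399767707) (nat_lit 1900) (nat_lit 23088737382) (nat_lit 476) (nat_lit 5) (nat_lit 475) (nat_lit 5) (nat_lit 500) (nat_lit 5) (nat_lit 627) (nat_lit 618) (nat_lit 315)) (XT.lf (nat_lit 0) (nat_lit 9047651477) (nat_lit 1824) (nat_lit 12730257138) (nat_lit 1900) (nat_lit 9542016746) (nat_lit 476) (nat_lit 5) (nat_lit 500) (nat_lit 5) (nat_lit 501) (nat_lit 5) (nat_lit 628) (nat_lit 618) (nat_lit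 314))) (XT.nd (nat_lit 78) (nat_lit 0) (nat_lit 76) (XT.lf (nat_lit 76) (nat_lit 3350136927) (nat_lit 0) (nat_lit 6908981634) (nat_lit 1900) (nat_lit 21382670493) (nat_lit 477) (nat_lit 5) (nat_lit 476) (nat_lit 5) (nat_lit 501) (nat_lit 5) (nat_lit 629) (nat_lit 618) (nat_lit 313)) (XT.nd (nat_lit 78) (nat_lit 0) (nat_lit 0) (XT.lf (nat_lit 0) (nat_lit 11632636661) (nat_lit 1824) (nat_lit 12099086684) (nat_lit 1900) (nat_lit 8235610351) (nat_lit 477) (nat_lit 5) (nat_lit 501) (nat_lit 5) (nat_lit 502) (nat_lit 5) (nat_lit 630) (nat_lit 618) (nat_lit 312)) (XT.lf (nat_lit 76) (nat_lit 4428450942) (nat_lit 0) (nat_lit 8677933604) (nat_lit 1900) (nat_lit 19191549601) (nat_lit 478) (nat_lit 5) (nat_lit 477) (nat_lit 5) (nat_lit 502) (nat_lit 5) (nat_lit 631) (nat_lit 618) (nat_lit 311))))) (XT.nd (nat_lit 234) (nat_lit 0) (nat_lit 76) (XT.nd (nat_lit 78) (nat_lit 0) (nat_lit 0) (XT.lf (nat_lit 0) (nat_lit 14732969445) (nat_lit 1824) (nat_lit 11228100144) (nat_lit 1900) (nat_lit 6671609880) (nat_lit 478) (nat_lit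 5) (nat_lit 502) (nat_lit 5) (nat_lit 503) (nat_lit 5) (nat_lit 632) (nat_lit 618) (nat_lit 310)) (XT.nd (nat_lit 78) (nat_lit 0) (nat_lit 76) (XT.lf (nat_lit 76) (nat_lit 5763013754) (nat_lit 0) (nat_lit 10722275091) (nat_lit 1900) (nat_lit 16486966897) (nat_lit 479) (nat_lit 5) (nat_lit 478) (nat_lit 5) (nat_lit 503) (nat_lit 5) (nat_lit 633) (nat_lit 618) (nat_lit 309)) (XT.lf (nat_lit 0) (nat_lit 18378147053) (nat_lit 1824) (nat_lit 10104007172) (nat_lit 1900) (nat_lit 4834359568) (nat_lit 479) (nat_lit 5) (nat_lit 503) (nat_lit 5) (nat_lit 504) (nat_lit 5) (nat_lit 634) (nat_lit 618) (nat_lit 308)))) (XT.nd (nat_lit 78) (nat_lit 0) (nat_lit 76) (XT.lf (nat_lit 76) (nat_lit 7367739087) (nat_lit 0) (nat_lit 13058344426) (nat_lit 1900) (nat_lit 13239229166) (nat_lit 480) (nat_lit 5) (nat_lit 479) (nat_lit 5) (nat_lit 504) (nat_lit 5) (nat_lit 635) (nat_lit 618) (nat_lit 307)) (XT.nd (nat_lit 78) (nat_lit 0) (nat_lit 0) (XT.lf (nat_lit 0) (nat_lit 22598994899) (nat_lit 1824) (nat_lit 8712899448) (nat_lit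 1900) (nat_lit 2707512968) (nat_lit 480) (nat_lit 5) (nat_lit 504) (nat_lit 5) (nat_lit 505) (nat_lit 5) (nat_lit 636) (nat_lit 618) (nat_lit 306)) (XT.lf (nat_lit 76) (nat_lit 9257182327) (nat_lit 0) (nat_lit 15703199326) (nat_lit 1900) (nat_lit 9417301941) (nat_lit 481) (nat_lit 5) (nat_lit 480) (nat_lit 5) (nat_lit 505) (nat_lit 5) (nat_lit 637) (nat_lit 618) (nat_lit 305))))))))
noncomputable def xc242 : XT := (XT.nd (nat_lit 79716) (nat_lit 0) (nat_lit 8056) (XT.nd (nat_lit 780) (nat_lit 5092) (nat_lit 0) (XT.nd (nat_lit 390) (nat_lit 1900) (nat_lit 0) (XT.nd (nat_lit 156) (nat_lit 1824) (nat_lit 0) (XT.nd (nat_lit 78) (nat_lit 0) (nat_lit 0) (XT.lf (nat_lit 0) (nat_lit 27427724046) (nat_lit 1824) (nat_lit 7040226593) (nat_lit 1900) (nat_lit 274000294) (nat_lit 481) (nat_lit 5) (nat_lit 505) (nat_lit 5) (nat_lit 506) (nat_lit 5) (nat_lit 638) (nat_lit 618) (nat_lit 304)) (XT.lf (nat_lit 76) (nat_lit 11446565507) (nat_lit 0) (nat_lit 18674650680) (nat_lit 1900) (nat_lit 4988751462) (nat_lit 482) (nat_lit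 5) (nat_lit 481) (nat_lit 5) (nat_lit 506) (nat_lit 5) (nat_lit 639) (nat_lit 618) (nat_lit 303))) (XT.nd (nat_lit 78) (nat_lit 1824) (nat_lit 0) (XT.lf (nat_lit 76) (nat_lit 30397316445) (nat_lit 0) (nat_lit 2517016629) (nat_lit 1900) (nat_lit 2570096616) (nat_lit 482) (nat_lit 5) (nat_lit 481) (nat_lit 5) (nat_lit 506) (nat_lit 5) (nat_lit 640) (nat_lit 618) (nat_lit 302)) (XT.nd (nat_lit 78) (nat_lit 0) (nat_lit 0) (XT.lf (nat_lit 0) (nat_lit 79262323) (nat_lit 1900) (nat_lit 21911503445) (nat_lit 1976) (nat_lit 13872009088) (nat_lit 457) (nat_lit 5) (nat_lit 482) (nat_lit 5) (nat_lit 483) (nat_lit 5) (nat_lit 641) (nat_lit 618) (nat_lit 301)) (XT.lf (nat_lit 0) (nat_lit 2796812666) (nat_lit 1900) (nat_lit 2843766607) (nat_lit 1976) (nat_lit 30606775612) (nat_lit 457) (nat_lit 5) (nat_lit 482) (nat_lit 5) (nat_lit 483) (nat_lit 5) (nat_lit 642) (nat_lit 618) (nat_lit 300))))) (XT.nd (nat_lit 156) (nat_lit 1976) (nat_lit 0) (XT.nd (nat_lit 78) (nat_lit 0) (nat_lit 0) (XT.lf (nat_lit 0) (nat_lit 5748915224)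 (nat_lit 1900) (nat_lit 19885070736) (nat_lit 76) (nat_lit 11002036611) (nat_lit 458) (nat_lit 5) (nat_lit 483) (nat_lit 5) (nat_lit 459) (nat_lit 5) (nat_lit 643) (nat_lit 618) (nat_lit 299)) (XT.lf (nat_lit 0) (nat_lit 8815227321) (nat_lit 1900) (nat_lit 294675650) (nat_lit 76) (nat_lit 27921457372) (nat_lit 458) (nat_lit 5) (nat_lit 483) (nat_lit 5) (nat_lit 459) (nat_lit 5) (nat_lit 644) (nat_lit 618) (nat_lit 298))) (XT.nd (nat_lit 78) (nat_lit 912) (nat_lit 0) (XT.lf (nat_lit 0) (nat_lit 12122153751) (nat_lit 1140) (nat_lit 17535237194) (nat_lit 76) (nat_lit 7773628239) (nat_lit 444) (nat_lit 5) (nat_lit 459) (nat_lit 5) (nat_lit 445) (nat_lit 5) (nat_lit 645) (nat_lit 618) (nat_lit 297)) (XT.nd (nat_lit 78) (nat_lit 0) (nat_lit 0) (XT.lf (nat_lit 0) (nat_lit 2628317486) (nat_lit 912) (nat_lit 12944937637) (nat_lit 988) (nat_lit 22263855429) (nat_lit 432) (nat_lit 5) (nat_lit 444) (nat_lit 5) (nat_lit 445) (nat_lit 5) (nat_lit 646) (nat_lit 618) (nat_lit 296)) (XT.lf (nat_lit 0) (nat_lit 19237129814)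 (nat_lit 988) (nat_lit 14844783718) (nat_lit 76) (nat_lit 4166535264) (nat_lit 432) (nat_lit 5) (nat_lit 445) (nat_lit 5) (nat_lit 433) (nat_lit 5) (nat_lit 647) (nat_lit 618) (nat_lit 295)))))) (XT.nd (nat_lit 390) (nat_lit 2432) (nat_lit 0) (XT.nd (nat_lit 156) (nat_lit 1748) (nat_lit 0) (XT.nd (nat_lit 78) (nat_lit 0) (nat_lit 0) (XT.lf (nat_lit 0) (nat_lit 5917166033) (nat_lit 912) (nat_lit 17179958243) (nat_lit 988) (nat_lit 15568432758) (nat_lit 420) (nat_lit 5) (nat_lit 432) (nat_lit 5) (nat_lit 433) (nat_lit 5) (nat_lit 648) (nat_lit 618) (nat_lit 294)) (XT.lf (nat_lit 0) (nat_lit 27133698718) (nat_lit 988) (nat_lit 11795719602) (nat_lit 76) (nat_lit 159601585) (nat_lit 420) (nat_lit 5) (nat_lit 433) (nat_lit 5) (nat_lit 421) (nat_lit 5) (nat_lit 649) (nat_lit 618) (nat_lit 293))) (XT.nd (nat_lit 78) (nat_lit 912) (nat_lit 0) (XT.lf (nat_lit 0) (nat_lit 9586752137) (nat_lit 836) (nat_lit 21839010107) (nat_lit 912) (nat_lit 8091694710) (nat_lit 409) (nat_lit 5) (nat_lit 420) (nat_lit 5) (nat_lit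 421) (nat_lit 5) (nat_lit 650) (nat_lit 618) (nat_lit 292)) (XT.nd (nat_lit 78) (nat_lit 912) (nat_lit 0) (XT.lf (nat_lit 0) (nat_lit 31555564854) (nat_lit 836) (nat_lit 4326014068) (nat_lit 912) (nat_lit 4071325654) (nat_lit 409) (nat_lit 5) (nat_lit 420) (nat_lit 5) (nat_lit 421) (nat_lit 5) (nat_lit 651) (nat_lit 618) (nat_lit 291)) (XT.lf (nat_lit 0) (nat_lit 205567857) (nat_lit 912) (nat_lit 26738200393) (nat_lit 76) (nat_lit 13449759077) (nat_lit 397) (nat_lit 5) (nat_lit 409) (nat_lit 5) (nat_lit 398) (nat_lit 5) (nat_lit 652) (nat_lit 618) (nat_lit 290))))) (XT.nd (nat_lit 156) (nat_lit 1596) (nat_lit 0) (XT.nd (nat_lit 78) (nat_lit 836) (nat_lit 0) (XT.lf (nat_lit 0) (nat_lit 4597697143) (nat_lit 912) (nat_lit 4636157065) (nat_lit 76) (nat_lit 31606885900) (nat_lit 397) (nat_lit 5) (nat_lit 409) (nat_lit 5) (nat_lit 398) (nat_lit 5) (nat_lit 653) (nat_lit 618) (nat_lit 289)) (XT.lf (nat_lit 0) (nat_lit 9252401463) (nat_lit 912) (nat_lit 23207966758) (nat_lit 76) (nat_lit 8833034340) (nat_lit 386)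 (nat_lit 5) (nat_lit 398) (nat_lit 5) (nat_lit 387) (nat_lit 5) (nat_lit 654) (nat_lit 618) (nat_lit 288))) (XT.nd (nat_lit 78) (nat_lit 1596) (nat_lit 0) (XT.lf (nat_lit 0) (nat_lit 14091496752) (nat_lit 912) (nat_lit 492752340) (nat_lit 76) (nat_lit 27169043295) (nat_lit 386) (nat_lit 5) (nat_lit 398) (nat_lit 5) (nat_lit 387) (nat_lit 5) (nat_lit 655) (nat_lit 618) (nat_lit 287)) (XT.nd (nat_lit 78) (nat_lit 760) (nat_lit 0) (XT.lf (nat_lit 0) (nat_lit 19200088878) (nat_lit 912) (nat_lit 19267168641) (nat_lit 76) (nat_lit 3751668256) (nat_lit 375) (nat_lit 5) (nat_lit 387) (nat_lit 5) (nat_lit 376) (nat_lit 5) (nat_lit 656) (nat_lit 618) (nat_lit 286)) (XT.lf (nat_lit 0) (nat_lit 4134453373) (nat_lit 760) (nat_lit 20402022114) (nat_lit 836) (nat_lit 18154883950) (nat_lit 365) (nat_lit 5) (nat_lit 375) (nat_lit 5) (nat_lit 376) (nat_lit 5) (nat_lit 657) (nat_lit 618) (nat_lit 285))))))) (XT.nd (nat_lit 780) (nat_lit 0) (nat_lit 380) (XT.nd (nat_lit 390) (nat_lit 0) (nat_lit 152) (XT.nd (nat_lit 156) (nat_lit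 0) (nat_lit 76) (XT.nd (nat_lit 78) (nat_lit 0) (nat_lit 0) (XT.lf (nat_lit 0) (nat_lit 1564162655) (nat_lit 1900) (nat_lit 6442253489) (nat_lit 1900) (nat_lit 6442253489) (nat_lit 471) (nat_lit 3) (nat_lit 496) (nat_lit 3) (nat_lit 496) (nat_lit 5) (nat_lit 619) (nat_lit 619) (nat_lit 322)) (XT.lf (nat_lit 76) (nat_lit 1467261953) (nat_lit 0) (nat_lit 1780948116) (nat_lit 1900) (nat_lit 25936325767) (nat_lit 472) (nat_lit 5) (nat_lit 471) (nat_lit 3) (nat_lit 496) (nat_lit 5) (nat_lit 620) (nat_lit 619) (nat_lit 321))) (XT.nd (nat_lit 78) (nat_lit 0) (nat_lit 0) (XT.lf (nat_lit 0) (nat_lit 3538140159) (nat_lit 1824) (nat_lit 13279408585) (nat_lit 1900) (nat_lit 12656574764) (nat_lit 472) (nat_lit 5) (nat_lit 496) (nat_lit 5) (nat_lit 497) (nat_lit 5) (nat_lit 621) (nat_lit 619) (nat_lit 320)) (XT.nd (nat_lit 78) (nat_lit 0) (nat_lit 76) (XT.lf (nat_lit 76) (nat_lit 1453382754) (nat_lit 0) (nat_lit 2399682881) (nat_lit 1900) (nat_lit 25916053484) (nat_lit 473) (nat_lit 5) (nat_lit 472) (nat_lit 5) (nat_lit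 497) (nat_lit 5) (nat_lit 622) (nat_lit 619) (nat_lit 319)) (XT.lf (nat_lit 0) (nat_lit 4341898618) (nat_lit 1824) (nat_lit 13489026084) (nat_lit 1900) (nat_lit 12235737883) (nat_lit 473) (nat_lit 5) (nat_lit 497) (nat_lit 5) (nat_lit 498) (nat_lit 5) (nat_lit 623) (nat_lit 619) (nat_lit 318))))) (XT.nd (nat_lit 156) (nat_lit 0) (nat_lit 76) (XT.nd (nat_lit 78) (nat_lit 0) (nat_lit 76) (XT.lf (nat_lit 76) (nat_lit 1638703543) (nat_lit 0) (nat_lit 3226380137) (nat_lit 1900) (nat_lit 25504581851) (nat_lit 474) (nat_lit 5) (nat_lit 473) (nat_lit 5) (nat_lit 498) (nat_lit 5) (nat_lit 624) (nat_lit 619) (nat_lit 317)) (XT.lf (nat_lit 0) (nat_lit 5563701806) (nat_lit 1824) (nat_lit 13502605002) (nat_lit 1900) (nat_lit 11609122455) (nat_lit 474) (nat_lit 5) (nat_lit 498) (nat_lit 5) (nat_lit 499) (nat_lit 5) (nat_lit 625) (nat_lit 619) (nat_lit 316))) (XT.nd (nat_lit 78) (nat_lit 0) (nat_lit 76) (XT.lf (nat_lit 76) (nat_lit 2034506463) (nat_lit 0) (nat_lit 4274479992) (nat_lit 1900) (nat_lit 24677668046) (nat_lit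 475) (nat_lit 5) (nat_lit 474) (nat_lit 5) (nat_lit 499) (nat_lit 5) (nat_lit 626) (nat_lit 619) (nat_lit 315)) (XT.nd (nat_lit 78) (nat_lit 0) (nat_lit 0) (XT.lf (nat_lit 0) (nat_lit 7228745213) (nat_lit 1824) (nat_lit 13308870254) (nat_lit 1900) (nat_lit 10763297521) (nat_lit 475) (nat_lit 5) (nat_lit 499) (nat_lit 5) (nat_lit 500) (nat_lit 5) (nat_lit 627) (nat_lit 619) (nat_lit 314)) (XT.lf (nat_lit 76) (nat_lit 2652614294) (nat_lit 0) (nat_lit 5558003829) (nat_lit 1900) (nat_lit 23409964250) (nat_lit 476) (nat_lit 5) (nat_lit 475) (nat_lit 5) (nat_lit 500) (nat_lit 5) (nat_lit 628) (nat_lit 619) (nat_lit 313)))))) (XT.nd (nat_lit 390) (nat_lit 0) (nat_lit 152) (XT.nd (nat_lit 156) (nat_lit 0) (nat_lit 76) (XT.nd (nat_lit 78) (nat_lit 0) (nat_lit 0) (XT.lf (nat_lit 0) (nat_lit 9363366966) (nat_lit 1824) (nat_lit 12896006098) (nat_lit 1900) (nat_lit 9684247422) (nat_lit 476) (nat_lit 5) (nat_lit 500) (nat_lit 5) (nat_lit 501) (nat_lit 5) (nat_lit 629) (nat_lit 619) (nat_lit 312)) (XT.lf (nat_lit 76)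 (nat_lit 3505411269) (nat_lit 0) (nat_lit 7091582840) (nat_lit 1900) (nat_lit 21674968889) (nat_lit 477) (nat_lit 5) (nat_lit 476) (nat_lit 5) (nat_lit 501) (nat_lit 5) (nat_lit 630) (nat_lit 619) (nat_lit 311))) (XT.nd (nat_lit 78) (nat_lit 0) (nat_lit 0) (XT.lf (nat_lit 0) (nat_lit 11995097984) (nat_lit 1824) (nat_lit 12251635227) (nat_lit 1900) (nat_lit 8357343169) (nat_lit 477) (nat_lit 5) (nat_lit 501) (nat_lit 5) (nat_lit 502) (nat_lit 5) (nat_lit 631) (nat_lit 619) (nat_lit 310)) (XT.nd (nat_lit 78) (nat_lit 0) (nat_lit 76) (XT.lf (nat_lit 76) (nat_lit 4605864776) (nat_lit 0) (nat_lit 8890487625) (nat_lit 1900) (nat_lit 19444975962) (nat_lit 478) (nat_lit 5) (nat_lit 477) (nat_lit 5) (nat_lit 502) (nat_lit 5) (nat_lit 632) (nat_lit 619) (nat_lit 309)) (XT.lf (nat_lit 0) (nat_lit 15152714108) (nat_lit 1824) (nat_lit 11362796985) (nat_lit 1900) (nat_lit 6767312747) (nat_lit 478) (nat_lit 5) (nat_lit 502) (nat_lit 5) (nat_lit 503) (nat_lit 5) (nat_lit 633) (nat_lit 619) (nat_lit 308))))) (XT.nd (nat_lit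 234) (nat_lit 0) (nat_lit 152) (XT.nd (nat_lit 78) (nat_lit 0) (nat_lit 76) (XT.lf (nat_lit 76) (nat_lit 5967547973) (nat_lit 0) (nat_lit 10970658897) (nat_lit 1900) (nat_lit 16691022377) (nat_lit 479) (nat_lit 5) (nat_lit 478) (nat_lit 5) (nat_lit 503) (nat_lit 5) (nat_lit 634) (nat_lit 619) (nat_lit 307)) (XT.nd (nat_lit 78) (nat_lit 0) (nat_lit 0) (XT.lf (nat_lit 0) (nat_lit 18866290285) (nat_lit 1824) (nat_lit 10215924664) (nat_lit 1900) (nat_lit 4898210292) (nat_lit 479) (nat_lit 5) (nat_lit 503) (nat_lit 5) (nat_lit 504) (nat_lit 5) (nat_lit 635) (nat_lit 619) (nat_lit 306)) (XT.lf (nat_lit 76) (nat_lit 7604663346) (nat_lit 0) (nat_lit 13348739355) (nat_lit 1900) (nat_lit 13382833202) (nat_lit 480) (nat_lit 5) (nat_lit 479) (nat_lit 5) (nat_lit 504) (nat_lit 5) (nat_lit 636) (nat_lit 619) (nat_lit 305)))) (XT.nd (nat_lit 78) (nat_lit 0) (nat_lit 0) (XT.lf (nat_lit 0) (nat_lit 23167256904) (nat_lit 1824) (nat_lit 8796821873) (nat_lit 1900) (nat_lit 2733384101) (nat_lit 480) (nat_lit 5) (nat_lit 504)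 (nat_lit 5) (nat_lit 505) (nat_lit 5) (nat_lit 637) (nat_lit 619) (nat_lit 304)) (XT.nd (nat_lit 78) (nat_lit 0) (nat_lit 76) (XT.lf (nat_lit 76) (nat_lit 9532067225) (nat_lit 0) (nat_lit 16042106787) (nat_lit 1900) (nat_lit 9488764755) (nat_lit 481) (nat_lit 5) (nat_lit 480) (nat_lit 5) (nat_lit 505) (nat_lit 5) (nat_lit 638) (nat_lit 619) (nat_lit 303)) (XT.lf (nat_lit 0) (nat_lit 28088458355) (nat_lit 1824) (nat_lit 7090637937) (nat_lit 1900) (nat_lit 255443391) (nat_lit 481) (nat_lit 5) (nat_lit 505) (nat_lit 5) (nat_lit 506) (nat_lit 5) (nat_lit 639) (nat_lit 619) (nat_lit 302))))))))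
noncomputable def xc243 : XT := (XT.nd (nat_lit 79872) (nat_lit 0) (nat_lit 5396) (XT.nd (nat_lit 780) (nat_lit 2584) (nat_lit 0) (XT.nd (nat_lit 390) (nat_lit 2812) (nat_lit 0) (XT.nd (nat_lit 156) (nat_lit 1824) (nat_lit 0) (XT.nd (nat_lit 78) (nat_lit 0) (nat_lit 0) (XT.lf (nat_lit 76) (nat_lit 11765295312) (nat_lit 0) (nat_lit 19068908454) (nat_lit 1900) (nat_lit 4975745430) (nat_lit 482) (nat_lit 5) (nat_lit 481) (nat_lit 5) (nat_lit 506) (nat_lit 5) (nat_lit 640) (nat_lit 619) (nat_lit 301)) (XT.lf (nat_lit 76) (nat_lit 31093300515) (nat_lit 0) (nat_lit 2587714569) (nat_lit 1900) (nat_lit 2510928881) (nat_lit 482) (nat_lit 5) (nat_lit 481) (nat_lit 5) (nat_lit 506) (nat_lit 5) (nat_lit 641) (nat_lit 619) (nat_lit 300))) (XT.nd (nat_lit 78) (nat_lit 0) (nat_lit 0) (XT.lf (nat_lit 0) (nat_lit 188283631) (nat_lit 1900) (nat_lit 22258549716) (nat_lit 1976) (nat_lit 14131042121) (nat_lit 457) (nat_lit 5) (nat_lit 482) (nat_lit 5) (nat_lit 483) (nat_lit 5) (nat_lit 642) (nat_lit 619) (nat_lit 299)) (XT.nd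 (nat_lit 78) (nat_lit 0) (nat_lit 76) (XT.lf (nat_lit 0) (nat_lit 2958078391) (nat_lit 1900) (nat_lit 2811246059) (nat_lit 1976) (nat_lit 31200864900) (nat_lit 457) (nat_lit 5) (nat_lit 482) (nat_lit 5) (nat_lit 483) (nat_lit 5) (nat_lit 643) (nat_lit 619) (nat_lit 298)) (XT.lf (nat_lit 0) (nat_lit 5967636712) (nat_lit 1900) (nat_lit 20191784057) (nat_lit 76) (nat_lit 11207241467) (nat_lit 458) (nat_lit 5) (nat_lit 483) (nat_lit 5) (nat_lit 459) (nat_lit 5) (nat_lit 644) (nat_lit 619) (nat_lit 297))))) (XT.nd (nat_lit 156) (nat_lit 1824) (nat_lit 0) (XT.nd (nat_lit 78) (nat_lit 1064) (nat_lit 0) (XT.lf (nat_lit 0) (nat_lit 9093240870) (nat_lit 1900) (nat_lit 211365149) (nat_lit 76) (nat_lit 28465341542) (nat_lit 458) (nat_lit 5) (nat_lit 483) (nat_lit 5) (nat_lit 459) (nat_lit 5) (nat_lit 645) (nat_lit 619) (nat_lit 296)) (XT.lf (nat_lit 0) (nat_lit 12464811108) (nat_lit 1140) (nat_lit 17795237509) (nat_lit 76) (nat_lit 7917580972) (nat_lit 444) (nat_lit 5) (nat_lit 459) (nat_lit 5) (nat_lit 445) (nat_lit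 5) (nat_lit 646) (nat_lit 619) (nat_lit 295))) (XT.nd (nat_lit 78) (nat_lit 912) (nat_lit 0) (XT.lf (nat_lit 0) (nat_lit 2770991525) (nat_lit 912) (nat_lit 13212563034) (nat_lit 988) (nat_lit 22608315934) (nat_lit 432) (nat_lit 5) (nat_lit 444) (nat_lit 5) (nat_lit 445) (nat_lit 5) (nat_lit 647) (nat_lit 619) (nat_lit 294)) (XT.nd (nat_lit 78) (nat_lit 912) (nat_lit 0) (XT.lf (nat_lit 0) (nat_lit 19718713268) (nat_lit 988) (nat_lit 15051339570) (nat_lit 76) (nat_lit 4241422643) (nat_lit 432) (nat_lit 5) (nat_lit 445) (nat_lit 5) (nat_lit 433) (nat_lit 5) (nat_lit 648) (nat_lit 619) (nat_lit 293)) (XT.lf (nat_lit 0) (nat_lit 6125254834) (nat_lit 912) (nat_lit 17529336631) (nat_lit 988) (nat_lit 15782360848) (nat_lit 420) (nat_lit 5) (nat_lit 432) (nat_lit 5) (nat_lit 433) (nat_lit 5) (nat_lit 649) (nat_lit 619) (nat_lit 292)))))) (XT.nd (nat_lit 390) (nat_lit 836) (nat_lit 0) (XT.nd (nat_lit 156) (nat_lit 912) (nat_lit 0) (XT.nd (nat_lit 78) (nat_lit 836) (nat_lit 0) (XT.lf (nat_lit 0) (nat_lit 27769987577)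 (nat_lit 988) (nat_lit 11941733148) (nat_lit 76) (nat_lit 157202021) (nat_lit 420) (nat_lit 5) (nat_lit 433) (nat_lit 5) (nat_lit 421) (nat_lit 5) (nat_lit 650) (nat_lit 619) (nat_lit 291)) (XT.lf (nat_lit 0) (nat_lit 9867796574) (nat_lit 836) (nat_lit 22278840070) (nat_lit 912) (nat_lit 8159317109) (nat_lit 409) (nat_lit 5) (nat_lit 420) (nat_lit 5) (nat_lit 421) (nat_lit 5) (nat_lit 651) (nat_lit 619) (nat_lit 290))) (XT.nd (nat_lit 78) (nat_lit 912) (nat_lit 0) (XT.lf (nat_lit 0) (nat_lit 32274234380) (nat_lit 836) (nat_lit 4415524311) (nat_lit 912) (nat_lit 4060387957) (nat_lit 409) (nat_lit 5) (nat_lit 420) (nat_lit 5) (nat_lit 421) (nat_lit 5) (nat_lit 652) (nat_lit 619) (nat_lit 289)) (XT.nd (nat_lit 78) (nat_lit 0) (nat_lit 0) (XT.lf (nat_lit 0) (nat_lit 299605986) (nat_lit 912) (nat_lit 27182958915) (nat_lit 76) (nat_lit 13717029577) (nat_lit 397) (nat_lit 5) (nat_lit 409) (nat_lit 5) (nat_lit 398) (nat_lit 5) (nat_lit 653) (nat_lit 619) (nat_lit 288)) (XT.lf (nat_lit 0) (nat_lit 4777814588) (nat_lit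 912) (nat_lit 4640639534) (nat_lit 76) (nat_lit 32237332754) (nat_lit 397) (nat_lit 5) (nat_lit 409) (nat_lit 5) (nat_lit 398) (nat_lit 5) (nat_lit 654) (nat_lit 619) (nat_lit 287))))) (XT.nd (nat_lit 78468) (nat_lit 0) (nat_lit 6460) (XT.nd (nat_lit 78) (nat_lit 0) (nat_lit 0) (XT.lf (nat_lit 0) (nat_lit 9524457707) (nat_lit 912) (nat_lit 23582725462) (nat_lit 76) (nat_lit 9010342608) (nat_lit 386) (nat_lit 5) (nat_lit 398) (nat_lit 5) (nat_lit 387) (nat_lit 5) (nat_lit 655) (nat_lit 619) (nat_lit 286)) (XT.lf (nat_lit 0) (nat_lit 14458628858) (nat_lit 912) (nat_lit 414959709) (nat_lit 76) (nat_lit 27713059046) (nat_lit 386) (nat_lit 5) (nat_lit 398) (nat_lit 5) (nat_lit 387) (nat_lit 5) (nat_lit 656) (nat_lit 619) (nat_lit 285))) (XT.nd (nat_lit 78) (nat_lit 0) (nat_lit 0) (XT.lf (nat_lit 0) (nat_lit 1674007568) (nat_lit 1900) (nat_lit 6531029730) (nat_lit 1900) (nat_lit 6531029730) (nat_lit 471) (nat_lit 3) (nat_lit 496) (nat_lit 3) (nat_lit 496) (nat_lit 5) (nat_lit 620) (nat_lit 620) (nat_lit 320))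 (XT.nd (nat_lit 78) (nat_lit 0) (nat_lit 76) (XT.lf (nat_lit 76) (nat_lit 1576217629) (nat_lit 0) (nat_lit 1891515996) (nat_lit 1900) (nat_lit 26297392398) (nat_lit 472) (nat_lit 5) (nat_lit 471) (nat_lit 3) (nat_lit 496) (nat_lit 5) (nat_lit 621) (nat_lit 620) (nat_lit 319)) (XT.lf (nat_lit 0) (nat_lit 3759954665) (nat_lit 1824) (nat_lit 13463430498) (nat_lit 1900) (nat_lit 12837190622) (nat_lit 472) (nat_lit 5) (nat_lit 496) (nat_lit 5) (nat_lit 497) (nat_lit 5) (nat_lit 622) (nat_lit 620) (nat_lit 318))))))) (XT.nd (nat_lit 780) (nat_lit 1140) (nat_lit 0) (XT.nd (nat_lit 390) (nat_lit 0) (nat_lit 228) (XT.nd (nat_lit 156) (nat_lit 0) (nat_lit 76) (XT.nd (nat_lit 78) (nat_lit 0) (nat_lit 76) (XT.lf (nat_lit 76) (nat_lit 1563480048) (nat_lit 0) (nat_lit 2515262903) (nat_lit 1900) (nat_lit 26282777251) (nat_lit 473) (nat_lit 5) (nat_lit 472) (nat_lit 5) (nat_lit 497) (nat_lit 5) (nat_lit 623) (nat_lit 620) (nat_lit 317)) (XT.lf (nat_lit 0) (nat_lit 4574008343) (nat_lit 1824) (nat_lit 13676012729) (nat_lit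 1900) (nat_lit 12415060526) (nat_lit 473) (nat_lit 5) (nat_lit 497) (nat_lit 5) (nat_lit 498) (nat_lit 5) (nat_lit 624) (nat_lit 620) (nat_lit 316))) (XT.nd (nat_lit 78) (nat_lit 0) (nat_lit 76) (XT.lf (nat_lit 76) (nat_lit 1753726793) (nat_lit 0) (nat_lit 3351615862) (nat_lit 1900) (nat_lit 25868848408) (nat_lit 474) (nat_lit 5) (nat_lit 473) (nat_lit 5) (nat_lit 498) (nat_lit 5) (nat_lit 625) (nat_lit 620) (nat_lit 315)) (XT.nd (nat_lit 78) (nat_lit 0) (nat_lit 0) (XT.lf (nat_lit 0) (nat_lit 5814743632) (nat_lit 1824) (nat_lit 13688822676) (nat_lit 1900) (nat_lit 11782567723) (nat_lit 474) (nat_lit 5) (nat_lit 498) (nat_lit 5) (nat_lit 499) (nat_lit 5) (nat_lit 626) (nat_lit 620) (nat_lit 314)) (XT.lf (nat_lit 76) (nat_lit 2158479475) (nat_lit 0) (nat_lit 4414254681) (nat_lit 1900) (nat_lit 25030893779) (nat_lit 475) (nat_lit 5) (nat_lit 474) (nat_lit 5) (nat_lit 499) (nat_lit 5) (nat_lit 627) (nat_lit 620) (nat_lit 313))))) (XT.nd (nat_lit 156) (nat_lit 0) (nat_lit 76) (XT.nd (nat_lit 78) (nat_lit 0)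 (nat_lit 0) (XT.lf (nat_lit 0) (nat_lit 7507845134) (nat_lit 1824) (nat_lit 13490346685) (nat_lit 1900) (nat_lit 10926040795) (nat_lit 475) (nat_lit 5) (nat_lit 499) (nat_lit 5) (nat_lit 500) (nat_lit 5) (nat_lit 628) (nat_lit 620) (nat_lit 312)) (XT.lf (nat_lit 76) (nat_lit 2789810310) (nat_lit 0) (nat_lit 5717453764) (nat_lit 1900) (nat_lit 23743073301) (nat_lit 476) (nat_lit 5) (nat_lit 475) (nat_lit 5) (nat_lit 500) (nat_lit 5) (nat_lit 629) (nat_lit 620) (nat_lit 311))) (XT.nd (nat_lit 78) (nat_lit 0) (nat_lit 0) (XT.lf (nat_lit 0) (nat_lit 9680163775) (nat_lit 1824) (nat_lit 13068520430) (nat_lit 1900) (nat_lit 9831210284) (nat_lit 476) (nat_lit 5) (nat_lit 500) (nat_lit 5) (nat_lit 501) (nat_lit 5) (nat_lit 630) (nat_lit 620) (nat_lit 310)) (XT.nd (nat_lit 78) (nat_lit 0) (nat_lit 76) (XT.lf (nat_lit 76) (nat_lit 3660363404) (nat_lit 0) (nat_lit 7276111127) (nat_lit 1900) (nat_lit 21978369253) (nat_lit 477) (nat_lit 5) (nat_lit 476) (nat_lit 5) (nat_lit 501) (nat_lit 5) (nat_lit 631) (nat_lit 620)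 (nat_lit 309)) (XT.lf (nat_lit 0) (nat_lit 12359767909) (nat_lit 1824) (nat_lit 12410707541) (nat_lit 1900) (nat_lit 8483179586) (nat_lit 477) (nat_lit 5) (nat_lit 501) (nat_lit 5) (nat_lit 502) (nat_lit 5) (nat_lit 632) (nat_lit 620) (nat_lit 308)))))) (XT.nd (nat_lit 390) (nat_lit 1520) (nat_lit 0) (XT.nd (nat_lit 156) (nat_lit 0) (nat_lit 76) (XT.nd (nat_lit 78) (nat_lit 0) (nat_lit 76) (XT.lf (nat_lit 76) (nat_lit 4783376933) (nat_lit 0) (nat_lit 9105778490) (nat_lit 1900) (nat_lit 19708534621) (nat_lit 478) (nat_lit 5) (nat_lit 477) (nat_lit 5) (nat_lit 502) (nat_lit 5) (nat_lit 633) (nat_lit 620) (nat_lit 307)) (XT.lf (nat_lit 0) (nat_lit 15575996451) (nat_lit 1824) (nat_lit 11503677336) (nat_lit 1900) (nat_lit 6866394746) (nat_lit 478) (nat_lit 5) (nat_lit 502) (nat_lit 5) (nat_lit 503) (nat_lit 5) (nat_lit 634) (nat_lit 620) (nat_lit 306))) (XT.nd (nat_lit 78) (nat_lit 0) (nat_lit 76) (XT.lf (nat_lit 76) (nat_lit 6172706261) (nat_lit 0) (nat_lit 11222692513) (nat_lit 1900) (nat_lit 16904039423)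 (nat_lit 479) (nat_lit 5) (nat_lit 478) (nat_lit 5) (nat_lit 503) (nat_lit 5) (nat_lit 635) (nat_lit 620) (nat_lit 305)) (XT.nd (nat_lit 78) (nat_lit 0) (nat_lit 0) (XT.lf (nat_lit 0) (nat_lit 19359514103) (nat_lit 1824) (nat_lit 10333581630) (nat_lit 1900) (nat_lit 4964613111) (nat_lit 479) (nat_lit 5) (nat_lit 503) (nat_lit 5) (nat_lit 504) (nat_lit 5) (nat_lit 636) (nat_lit 620) (nat_lit 304)) (XT.lf (nat_lit 76) (nat_lit 7842847998) (nat_lit 0) (nat_lit 13643807222) (nat_lit 1900) (nat_lit 13534014907) (nat_lit 480) (nat_lit 5) (nat_lit 479) (nat_lit 5) (nat_lit 504) (nat_lit 5) (nat_lit 637) (nat_lit 620) (nat_lit 303))))) (XT.nd (nat_lit 234) (nat_lit 1748) (nat_lit 0) (XT.nd (nat_lit 78) (nat_lit 0) (nat_lit 0) (XT.lf (nat_lit 0) (nat_lit 23742368773) (nat_lit 1824) (nat_lit 8885930587) (nat_lit 1900) (nat_lit 2760870770) (nat_lit 480) (nat_lit 5) (nat_lit 504) (nat_lit 5) (nat_lit 505) (nat_lit 5) (nat_lit 638) (nat_lit 620) (nat_lit 302)) (XT.nd (nat_lit 78) (nat_lit 0) (nat_lit 76) (XT.lf (nat_lit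 76) (nat_lit 9808965058) (nat_lit 0) (nat_lit 16386827694) (nat_lit 1900) (nat_lit 9566195543) (nat_lit 481) (nat_lit 5) (nat_lit 480) (nat_lit 5) (nat_lit 505) (nat_lit 5) (nat_lit 639) (nat_lit 620) (nat_lit 301)) (XT.lf (nat_lit 0) (nat_lit 28758051271) (nat_lit 1824) (nat_lit 7145567586) (nat_lit 1900) (nat_lit 237448732) (nat_lit 481) (nat_lit 5) (nat_lit 505) (nat_lit 5) (nat_lit 506) (nat_lit 5) (nat_lit 640) (nat_lit 620) (nat_lit 300)))) (XT.nd (nat_lit 78) (nat_lit 1824) (nat_lit 0) (XT.lf (nat_lit 76) (nat_lit 12086912729) (nat_lit 0) (nat_lit 19470245062) (nat_lit 1900) (nat_lit 4966858703) (nat_lit 482) (nat_lit 5) (nat_lit 481) (nat_lit 5) (nat_lit 506) (nat_lit 5) (nat_lit 641) (nat_lit 620) (nat_lit 299)) (XT.nd (nat_lit 78) (nat_lit 1824) (nat_lit 0) (XT.lf (nat_lit 76) (nat_lit 31799785653) (nat_lit 0) (nat_lit 2659035958) (nat_lit 1900) (nat_lit 2454871345) (nat_lit 482) (nat_lit 5) (nat_lit 481) (nat_lit 5) (nat_lit 506) (nat_lit 5) (nat_lit 642) (nat_lit 620) (nat_lit 298)) (XT.lf (nat_lit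 0) (nat_lit 295313492) (nat_lit 1900) (nat_lit 22616077691) (nat_lit 1976) (nat_lit 14395970587) (nat_lit 457) (nat_lit 5) (nat_lit 482) (nat_lit 5) (nat_lit 483) (nat_lit 5) (nat_lit 643) (nat_lit 620) (nat_lit 297))))))))
noncomputable def xc244 : XT := (XT.nd (nat_lit 79950) (nat_lit 0) (nat_lit 5396) (XT.nd (nat_lit 780) (nat_lit 1748) (nat_lit 0) (XT.nd (nat_lit 390) (nat_lit 1748) (nat_lit 0) (XT.nd (nat_lit 156) (nat_lit 1900) (nat_lit 0) (XT.nd (nat_lit 78) (nat_lit 0) (nat_lit 76) (XT.lf (nat_lit 0) (nat_lit 3118479360) (nat_lit 1900) (nat_lit 2781546451) (nat_lit 1976) (nat_lit 31807536731) (nat_lit 457) (nat_lit 5) (nat_lit 482) (nat_lit 5) (nat_lit 483) (nat_lit 5) (nat_lit 644) (nat_lit 620) (nat_lit 296)) (XT.lf (nat_lit 0) (nat_lit 6186704154) (nat_lit 1900) (nat_lit 20508164822) (nat_lit 76) (nat_lit 11417126515) (nat_lit 458) (nat_lit 5) (nat_lit 483) (nat_lit 5) (nat_lit 459) (nat_lit 5) (nat_lit 645) (nat_lit 620) (nat_lit 295))) (XT.nd (nat_lit 78) (nat_lit 1976) (nat_lit 0) (XT.lf (nat_lit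 0) (nat_lit 9372865205) (nat_lit 1900) (nat_lit 129852339) (nat_lit 76) (nat_lit 29020668195) (nat_lit 458) (nat_lit 5) (nat_lit 483) (nat_lit 5) (nat_lit 459) (nat_lit 5) (nat_lit 646) (nat_lit 620) (nat_lit 294)) (XT.nd (nat_lit 78) (nat_lit 912) (nat_lit 0) (XT.lf (nat_lit 0) (nat_lit 12810430169) (nat_lit 1140) (nat_lit 18063959993) (nat_lit 76) (nat_lit 8064860088) (nat_lit 444) (nat_lit 5) (nat_lit 459) (nat_lit 5) (nat_lit 445) (nat_lit 5) (nat_lit 647) (nat_lit 620) (nat_lit 293)) (XT.lf (nat_lit 0) (nat_lit 2913020054) (nat_lit 912) (nat_lit 13485202073) (nat_lit 988) (nat_lit 22963580481) (nat_lit 432) (nat_lit 5) (nat_lit 444) (nat_lit 5) (nat_lit 445) (nat_lit 5) (nat_lit 648) (nat_lit 620) (nat_lit 292))))) (XT.nd (nat_lit 156) (nat_lit 836) (nat_lit 0) (XT.nd (nat_lit 78) (nat_lit 912) (nat_lit 0) (XT.lf (nat_lit 0) (nat_lit 20206167943) (nat_lit 988) (nat_lit 15265534545) (nat_lit 76) (nat_lit 4318135634) (nat_lit 432) (nat_lit 5) (nat_lit 445) (nat_lit 5) (nat_lit 433) (nat_lit 5) (nat_lit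 649) (nat_lit 620) (nat_lit 291)) (XT.lf (nat_lit 0) (nat_lit 6334020486) (nat_lit 912) (nat_lit 17885478174) (nat_lit 988) (nat_lit 16004351236) (nat_lit 420) (nat_lit 5) (nat_lit 432) (nat_lit 5) (nat_lit 433) (nat_lit 5) (nat_lit 650) (nat_lit 620) (nat_lit 290))) (XT.nd (nat_lit 78) (nat_lit 836) (nat_lit 0) (XT.lf (nat_lit 0) (nat_lit 28415367033) (nat_lit 988) (nat_lit 12094157923) (nat_lit 76) (nat_lit 154971593) (nat_lit 420) (nat_lit 5) (nat_lit 433) (nat_lit 5) (nat_lit 421) (nat_lit 5) (nat_lit 651) (nat_lit 620) (nat_lit 289)) (XT.nd (nat_lit 78) (nat_lit 0) (nat_lit 0) (XT.lf (nat_lit 0) (nat_lit 10150993907) (nat_lit 836) (nat_lit 22727348206) (nat_lit 912) (nat_lit 8231950303) (nat_lit 409) (nat_lit 5) (nat_lit 420) (nat_lit 5) (nat_lit 421) (nat_lit 5) (nat_lit 652) (nat_lit 620) (nat_lit 288)) (XT.lf (nat_lit 0) (nat_lit 33003877304) (nat_lit 836) (nat_lit 4506708655) (nat_lit 912) (nat_lit 4052818120) (nat_lit 409) (nat_lit 5) (nat_lit 420) (nat_lit 5) (nat_lit 421) (nat_lit 5) (nat_lit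 653) (nat_lit 620) (nat_lit 287)))))) (XT.nd (nat_lit 78780) (nat_lit 0) (nat_lit 6536) (XT.nd (nat_lit 156) (nat_lit 836) (nat_lit 0) (XT.nd (nat_lit 78) (nat_lit 0) (nat_lit 0) (XT.lf (nat_lit 0) (nat_lit 392032911) (nat_lit 912) (nat_lit 27640107630) (nat_lit 76) (nat_lit 13989712458) (nat_lit 397) (nat_lit 5) (nat_lit 409) (nat_lit 5) (nat_lit 398) (nat_lit 5) (nat_lit 654) (nat_lit 620) (nat_lit 286)) (XT.lf (nat_lit 0) (nat_lit 4958110885) (nat_lit 912) (nat_lit 4648638145) (nat_lit 76) (nat_lit 32880454203) (nat_lit 397) (nat_lit 5) (nat_lit 409) (nat_lit 5) (nat_lit 398) (nat_lit 5) (nat_lit 655) (nat_lit 620) (nat_lit 285))) (XT.nd (nat_lit 78468) (nat_lit 0) (nat_lit 6460) (XT.lf (nat_lit 0) (nat_lit 9798576440) (nat_lit 912) (nat_lit 23968450875) (nat_lit 76) (nat_lit 9191171896) (nat_lit 386) (nat_lit 5) (nat_lit 398) (nat_lit 5) (nat_lit 387) (nat_lit 5) (nat_lit 656) (nat_lit 620) (nat_lit 284)) (XT.nd (nat_lit 78) (nat_lit 0) (nat_lit 0) (XT.lf (nat_lit 0) (nat_lit 1782998735) (nat_lit 1900)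 (nat_lit 6623137417) (nat_lit 1900) (nat_lit 6623137417) (nat_lit 471) (nat_lit 3) (nat_lit 496) (nat_lit 3) (nat_lit 496) (nat_lit 5) (nat_lit 621) (nat_lit 621) (nat_lit 318)) (XT.lf (nat_lit 76) (nat_lit 1684261048) (nat_lit 0) (nat_lit 2001384877) (nat_lit 1900) (nat_lit 26671802487) (nat_lit 472) (nat_lit 5) (nat_lit 471) (nat_lit 3) (nat_lit 496) (nat_lit 5) (nat_lit 622) (nat_lit 621) (nat_lit 317))))) (XT.nd (nat_lit 156) (nat_lit 0) (nat_lit 76) (XT.nd (nat_lit 78) (nat_lit 0) (nat_lit 0) (XT.lf (nat_lit 0) (nat_lit 3980339939) (nat_lit 1824) (nat_lit 13654300166) (nat_lit 1900) (nat_lit 13024234668) (nat_lit 472) (nat_lit 5) (nat_lit 496) (nat_lit 5) (nat_lit 497) (nat_lit 5) (nat_lit 623) (nat_lit 621) (nat_lit 316)) (XT.lf (nat_lit 76) (nat_lit 1672632808) (nat_lit 0) (nat_lit 2630530064) (nat_lit 1900) (nat_lit 26662722202) (nat_lit 473) (nat_lit 5) (nat_lit 472) (nat_lit 5) (nat_lit 497) (nat_lit 5) (nat_lit 624) (nat_lit 621) (nat_lit 315))) (XT.nd (nat_lit 78) (nat_lit 0) (nat_lit 0) (XT.lf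 (nat_lit 0) (nat_lit 4805119183) (nat_lit 1824) (nat_lit 13869954095) (nat_lit 1900) (nat_lit 12600508878) (nat_lit 473) (nat_lit 5) (nat_lit 497) (nat_lit 5) (nat_lit 498) (nat_lit 5) (nat_lit 625) (nat_lit 621) (nat_lit 314)) (XT.nd (nat_lit 78) (nat_lit 0) (nat_lit 76) (XT.lf (nat_lit 76) (nat_lit 1867856673) (nat_lit 0) (nat_lit 3476998932) (nat_lit 1900) (nat_lit 26246062862) (nat_lit 474) (nat_lit 5) (nat_lit 473) (nat_lit 5) (nat_lit 498) (nat_lit 5) (nat_lit 626) (nat_lit 621) (nat_lit 313)) (XT.lf (nat_lit 0) (nat_lit 6065378940) (nat_lit 1824) (nat_lit 13882020097) (nat_lit 1900) (nat_lit 11961762732) (nat_lit 474) (nat_lit 5) (nat_lit 498) (nat_lit 5) (nat_lit 499) (nat_lit 5) (nat_lit 627) (nat_lit 621) (nat_lit 312))))))) (XT.nd (nat_lit 780) (nat_lit 1292) (nat_lit 0) (XT.nd (nat_lit 390) (nat_lit 0) (nat_lit 228) (XT.nd (nat_lit 156) (nat_lit 0) (nat_lit 76) (XT.nd (nat_lit 78) (nat_lit 0) (nat_lit 76) (XT.lf (nat_lit 76) (nat_lit 2281697972) (nat_lit 0) (nat_lit 4554716908) (nat_lit 1900)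 (nat_lit 25396633121) (nat_lit 475) (nat_lit 5) (nat_lit 474) (nat_lit 5) (nat_lit 499) (nat_lit 5) (nat_lit 628) (nat_lit 621) (nat_lit 311)) (XT.lf (nat_lit 0) (nat_lit 7787303284) (nat_lit 1824) (nat_lit 13678741688) (nat_lit 1900) (nat_lit 11094078453) (nat_lit 475) (nat_lit 5) (nat_lit 499) (nat_lit 5) (nat_lit 500) (nat_lit 5) (nat_lit 629) (nat_lit 621) (nat_lit 310))) (XT.nd (nat_lit 78) (nat_lit 0) (nat_lit 76) (XT.lf (nat_lit 76) (nat_lit 2926482843) (nat_lit 0) (nat_lit 5878217544) (nat_lit 1900) (nat_lit 24088090252) (nat_lit 476) (nat_lit 5) (nat_lit 475) (nat_lit 5) (nat_lit 500) (nat_lit 5) (nat_lit 630) (nat_lit 621) (nat_lit 309)) (XT.nd (nat_lit 78) (nat_lit 0) (nat_lit 0) (XT.lf (nat_lit 0) (nat_lit 9998266733) (nat_lit 1824) (nat_lit 13247801460) (nat_lit 1900) (nat_lit 9982926679) (nat_lit 476) (nat_lit 5) (nat_lit 500) (nat_lit 5) (nat_lit 501) (nat_lit 5) (nat_lit 631) (nat_lit 621) (nat_lit 308)) (XT.lf (nat_lit 76) (nat_lit 3815119989) (nat_lit 0) (nat_lit 7462672017) (nat_lit 1900)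 (nat_lit 22292889528) (nat_lit 477) (nat_lit 5) (nat_lit 476) (nat_lit 5) (nat_lit 501) (nat_lit 5) (nat_lit 632) (nat_lit 621) (nat_lit 307))))) (XT.nd (nat_lit 156) (nat_lit 0) (nat_lit 76) (XT.nd (nat_lit 78) (nat_lit 0) (nat_lit 0) (XT.lf (nat_lit 0) (nat_lit 12726886340) (nat_lit 1824) (nat_lit 12576299247) (nat_lit 1900) (nat_lit 8613136866) (nat_lit 477) (nat_lit 5) (nat_lit 501) (nat_lit 5) (nat_lit 502) (nat_lit 5) (nat_lit 633) (nat_lit 621) (nat_lit 306)) (XT.lf (nat_lit 76) (nat_lit 4961123348) (nat_lit 0) (nat_lit 9323919734) (nat_lit 1900) (nat_lit 19982231592) (nat_lit 478) (nat_lit 5) (nat_lit 477) (nat_lit 5) (nat_lit 502) (nat_lit 5) (nat_lit 634) (nat_lit 621) (nat_lit 305))) (XT.nd (nat_lit 78) (nat_lit 0) (nat_lit 0) (XT.lf (nat_lit 0) (nat_lit 16003075839) (nat_lit 1824) (nat_lit 11650729364) (nat_lit 1900) (nat_lit 6968866571) (nat_lit 478) (nat_lit 5) (nat_lit 502) (nat_lit 5) (nat_lit 503) (nat_lit 5) (nat_lit 635) (nat_lit 621) (nat_lit 304)) (XT.nd (nat_lit 78) (nat_lit 0) (nat_lit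 76) (XT.lf (nat_lit 76) (nat_lit 6378635711) (nat_lit 0) (nat_lit 11478500109) (nat_lit 1900) (nat_lit 17126007753) (nat_lit 479) (nat_lit 5) (nat_lit 478) (nat_lit 5) (nat_lit 503) (nat_lit 5) (nat_lit 636) (nat_lit 621) (nat_lit 303)) (XT.lf (nat_lit 0) (nat_lit 19858101936) (nat_lit 1824) (nat_lit 10456956909) (nat_lit 1900) (nat_lit 5033569553) (nat_lit 479) (nat_lit 5) (nat_lit 503) (nat_lit 5) (nat_lit 504) (nat_lit 5) (nat_lit 637) (nat_lit 621) (nat_lit 302)))))) (XT.nd (nat_lit 390) (nat_lit 1672) (nat_lit 0) (XT.nd (nat_lit 156) (nat_lit 0) (nat_lit 76) (XT.nd (nat_lit 78) (nat_lit 0) (nat_lit 76) (XT.lf (nat_lit 76) (nat_lit 8082453309) (nat_lit 0) (nat_lit 13943685557) (nat_lit 1900) (nat_lit 13692743111) (nat_lit 480) (nat_lit 5) (nat_lit 479) (nat_lit 5) (nat_lit 504) (nat_lit 5) (nat_lit 638) (nat_lit 621) (nat_lit 301)) (XT.lf (nat_lit 0) (nat_lit 24324642841) (nat_lit 1824) (nat_lit 8980193101) (nat_lit 1900) (nat_lit 2789962643) (nat_lit 480) (nat_lit 5) (nat_lit 504) (nat_lit 5) (nat_lit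 505) (nat_lit 5) (nat_lit 639) (nat_lit 621) (nat_lit 300))) (XT.nd (nat_lit 78) (nat_lit 0) (nat_lit 76) (XT.lf (nat_lit 76) (nat_lit 10088051404) (nat_lit 0) (nat_lit 16737515778) (nat_lit 1900) (nat_lit 9649537421) (nat_lit 481) (nat_lit 5) (nat_lit 480) (nat_lit 5) (nat_lit 505) (nat_lit 5) (nat_lit 640) (nat_lit 621) (nat_lit 299)) (XT.nd (nat_lit 78) (nat_lit 0) (nat_lit 0) (XT.lf (nat_lit 0) (nat_lit 29436849118) (nat_lit 1824) (nat_lit 7204969605) (nat_lit 1900) (nat_lit 219991318) (nat_lit 481) (nat_lit 5) (nat_lit 505) (nat_lit 5) (nat_lit 506) (nat_lit 5) (nat_lit 641) (nat_lit 621) (nat_lit 298)) (XT.lf (nat_lit 76) (nat_lit 12411610913) (nat_lit 0) (nat_lit 19878833392) (nat_lit 1900) (nat_lit 4962003610) (nat_lit 482) (nat_lit 5) (nat_lit 481) (nat_lit 5) (nat_lit 506) (nat_lit 5) (nat_lit 642) (nat_lit 621) (nat_lit 297))))) (XT.nd (nat_lit 156) (nat_lit 0) (nat_lit 0) (XT.nd (nat_lit 78) (nat_lit 1824) (nat_lit 0) (XT.lf (nat_lit 76) (nat_lit 32517114630) (nat_lit 0) (nat_lit 2731023960)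 (nat_lit 1900) (nat_lit 2401819490) (nat_lit 482) (nat_lit 5) (nat_lit 481) (nat_lit 5) (nat_lit 506) (nat_lit 5) (nat_lit 643) (nat_lit 621) (nat_lit 296)) (XT.lf (nat_lit 0) (nat_lit 400474075) (nat_lit 1900) (nat_lit 22984159510) (nat_lit 1976) (nat_lit 14666884639) (nat_lit 457) (nat_lit 5) (nat_lit 482) (nat_lit 5) (nat_lit 483) (nat_lit 5) (nat_lit 644) (nat_lit 621) (nat_lit 295))) (XT.nd (nat_lit 78) (nat_lit 0) (nat_lit 76) (XT.lf (nat_lit 0) (nat_lit 3278157098) (nat_lit 1900) (nat_lit 2754589405) (nat_lit 1976) (nat_lit 32427015544) (nat_lit 457) (nat_lit 5) (nat_lit 482) (nat_lit 5) (nat_lit 483) (nat_lit 5) (nat_lit 645) (nat_lit 621) (nat_lit 294)) (XT.nd (nat_lit 78) (nat_lit 0) (nat_lit 0) (XT.lf (nat_lit 0) (nat_lit 6406280902) (nat_lit 1900) (nat_lit 20834269184) (nat_lit 76) (nat_lit 11631762988) (nat_lit 458) (nat_lit 5) (nat_lit 483) (nat_lit 5) (nat_lit 459) (nat_lit 5) (nat_lit 646) (nat_lit 621) (nat_lit 293)) (XT.lf (nat_lit 0) (nat_lit 9654285906) (nat_lit 1900) (nat_lit 50038665)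 (nat_lit 76) (nat_lit 29587644249) (nat_lit 458) (nat_lit 5) (nat_lit 483) (nat_lit 5) (nat_lit 459) (nat_lit 5) (nat_lit 647) (nat_lit 621) (nat_lit 292))))))))
noncomputable def xc245 : XT := (XT.nd (nat_lit 80028) (nat_lit 0) (nat_lit 1748) (XT.nd (nat_lit 79248) (nat_lit 0) (nat_lit 5624) (XT.nd (nat_lit 390) (nat_lit 1748) (nat_lit 0) (XT.nd (nat_lit 156) (nat_lit 912) (nat_lit 0) (XT.nd (nat_lit 78) (nat_lit 912) (nat_lit 0) (XT.lf (nat_lit 0) (nat_lit 13159221278) (nat_lit 1140) (nat_lit 18341442320) (nat_lit 76) (nat_lit 8215514746) (nat_lit 444) (nat_lit 5) (nat_lit 459) (nat_lit 5) (nat_lit 445) (nat_lit 5) (nat_lit 648) (nat_lit 621) (nat_lit 291)) (XT.lf (nat_lit 0) (nat_lit 3054526032) (nat_lit 912) (nat_lit 13762968185) (nat_lit 988) (nat_lit 23329713132) (nat_lit 432) (nat_lit 5) (nat_lit 444) (nat_lit 5) (nat_lit 445) (nat_lit 5) (nat_lit 649) (nat_lit 621) (nat_lit 290))) (XT.nd (nat_lit 78) (nat_lit 912) (nat_lit 0) (XT.lf (nat_lit 0) (nat_lit 20699757286) (nat_lit 988) (nat_lit 15487385205)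 (nat_lit 76) (nat_lit 4396698018) (nat_lit 432) (nat_lit 5) (nat_lit 445) (nat_lit 5) (nat_lit 433) (nat_lit 5) (nat_lit 650) (nat_lit 621) (nat_lit 289)) (XT.nd (nat_lit 78) (nat_lit 0) (nat_lit 0) (XT.lf (nat_lit 0) (nat_lit 6543611848) (nat_lit 912) (nat_lit 18248526847) (nat_lit 988) (nat_lit 16234418241) (nat_lit 420) (nat_lit 5) (nat_lit 432) (nat_lit 5) (nat_lit 433) (nat_lit 5) (nat_lit 651) (nat_lit 621) (nat_lit 288)) (XT.lf (nat_lit 0) (nat_lit 29070160057) (nat_lit 988) (nat_lit 12252986596) (nat_lit 76) (nat_lit 152905254) (nat_lit 420) (nat_lit 5) (nat_lit 433) (nat_lit 5) (nat_lit 421) (nat_lit 5) (nat_lit 652) (nat_lit 621) (nat_lit 287))))) (XT.nd (nat_lit 156) (nat_lit 912) (nat_lit 0) (XT.nd (nat_lit 78) (nat_lit 0) (nat_lit 0) (XT.lf (nat_lit 0) (nat_lit 10436521860) (nat_lit 836) (nat_lit 23184712678) (nat_lit 912) (nat_lit 8309552450) (nat_lit 409) (nat_lit 5) (nat_lit 420) (nat_lit 5) (nat_lit 421) (nat_lit 5) (nat_lit 653) (nat_lit 621) (nat_lit 286)) (XT.lf (nat_lit 0) (nat_lit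 33744845120) (nat_lit 836) (nat_lit 4599605090) (nat_lit 912) (nat_lit 4048544228) (nat_lit 409) (nat_lit 5) (nat_lit 420) (nat_lit 5) (nat_lit 421) (nat_lit 5) (nat_lit 654) (nat_lit 621) (nat_lit 285))) (XT.nd (nat_lit 78) (nat_lit 0) (nat_lit 0) (XT.lf (nat_lit 0) (nat_lit 482952006) (nat_lit 912) (nat_lit 28109758627) (nat_lit 76) (nat_lit 14267913368) (nat_lit 397) (nat_lit 5) (nat_lit 409) (nat_lit 5) (nat_lit 398) (nat_lit 5) (nat_lit 655) (nat_lit 621) (nat_lit 284)) (XT.nd (nat_lit 78546) (nat_lit 0) (nat_lit 5624) (XT.lf (nat_lit 0) (nat_lit 5138722551) (nat_lit 912) (nat_lit 4660090167) (nat_lit 76) (nat_lit 33536501190) (nat_lit 397) (nat_lit 5) (nat_lit 409) (nat_lit 5) (nat_lit 398) (nat_lit 5) (nat_lit 656) (nat_lit 621) (nat_lit 283)) (XT.lf (nat_lit 0) (nat_lit 1891237540) (nat_lit 1900) (nat_lit 6718582761) (nat_lit 1900) (nat_lit 6718582761) (nat_lit 471) (nat_lit 3) (nat_lit 496) (nat_lit 3) (nat_lit 496) (nat_lit 5) (nat_lit 622) (nat_lit 622) (nat_lit 316)))))) (XT.nd (nat_lit 390)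 (nat_lit 0) (nat_lit 228) (XT.nd (nat_lit 156) (nat_lit 0) (nat_lit 76) (XT.nd (nat_lit 78) (nat_lit 0) (nat_lit 76) (XT.lf (nat_lit 76) (nat_lit 1791494006) (nat_lit 0) (nat_lit 2110653790) (nat_lit 1900) (nat_lit 27059585174) (nat_lit 472) (nat_lit 5) (nat_lit 471) (nat_lit 3) (nat_lit 496) (nat_lit 5) (nat_lit 623) (nat_lit 622) (nat_lit 315)) (XT.lf (nat_lit 0) (nat_lit 4199495162) (nat_lit 1824) (nat_lit 13852031554) (nat_lit 1900) (nat_lit 13217726122) (nat_lit 472) (nat_lit 5) (nat_lit 496) (nat_lit 5) (nat_lit 497) (nat_lit 5) (nat_lit 624) (nat_lit 622) (nat_lit 314))) (XT.nd (nat_lit 78) (nat_lit 0) (nat_lit 76) (XT.lf (nat_lit 76) (nat_lit 1780944325) (nat_lit 0) (nat_lit 2745580018) (nat_lit 1900) (nat_lit 27055924172) (nat_lit 473) (nat_lit 5) (nat_lit 472) (nat_lit 5) (nat_lit 497) (nat_lit 5) (nat_lit 625) (nat_lit 622) (nat_lit 313)) (XT.nd (nat_lit 78) (nat_lit 0) (nat_lit 0) (XT.lf (nat_lit 0) (nat_lit 5035430210) (nat_lit 1824) (nat_lit 14070864433) (nat_lit 1900) (nat_lit 12792106849)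 (nat_lit 473) (nat_lit 5) (nat_lit 497) (nat_lit 5) (nat_lit 498) (nat_lit 5) (nat_lit 626) (nat_lit 622) (nat_lit 312)) (XT.lf (nat_lit 76) (nat_lit 1981199335) (nat_lit 0) (nat_lit 3602623833) (nat_lit 1900) (nat_lit 26636264287) (nat_lit 474) (nat_lit 5) (nat_lit 473) (nat_lit 5) (nat_lit 498) (nat_lit 5) (nat_lit 627) (nat_lit 622) (nat_lit 311))))) (XT.nd (nat_lit 156) (nat_lit 0) (nat_lit 76) (XT.nd (nat_lit 78) (nat_lit 0) (nat_lit 0) (XT.lf (nat_lit 0) (nat_lit 6315810352) (nat_lit 1824) (nat_lit 14082210449) (nat_lit 1900) (nat_lit 12146733911) (nat_lit 474) (nat_lit 5) (nat_lit 498) (nat_lit 5) (nat_lit 499) (nat_lit 5) (nat_lit 628) (nat_lit 622) (nat_lit 310)) (XT.lf (nat_lit 76) (nat_lit 2404272442) (nat_lit 0) (nat_lit 4695962278) (nat_lit 1900) (nat_lit 25774924746) (nat_lit 475) (nat_lit 5) (nat_lit 474) (nat_lit 5) (nat_lit 499) (nat_lit 5) (nat_lit 629) (nat_lit 622) (nat_lit 309))) (XT.nd (nat_lit 78) (nat_lit 0) (nat_lit 0) (XT.lf (nat_lit 0) (nat_lit 8067329671) (nat_lit 1824) (nat_lit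 13874065914) (nat_lit 1900) (nat_lit 11267437187) (nat_lit 475) (nat_lit 5) (nat_lit 499) (nat_lit 5) (nat_lit 500) (nat_lit 5) (nat_lit 630) (nat_lit 622) (nat_lit 308)) (XT.nd (nat_lit 78) (nat_lit 0) (nat_lit 76) (XT.lf (nat_lit 76) (nat_lit 3062748300) (nat_lit 0) (nat_lit 6040394260) (nat_lit 1900) (nat_lit 24445049562) (nat_lit 476) (nat_lit 5) (nat_lit 475) (nat_lit 5) (nat_lit 500) (nat_lit 5) (nat_lit 631) (nat_lit 622) (nat_lit 307)) (XT.lf (nat_lit 0) (nat_lit 10317897275) (nat_lit 1824) (nat_lit 13433855741) (nat_lit 1900) (nat_lit 10139421226) (nat_lit 476) (nat_lit 5) (nat_lit 500) (nat_lit 5) (nat_lit 501) (nat_lit 5) (nat_lit 632) (nat_lit 622) (nat_lit 306))))))) (XT.nd (nat_lit 780) (nat_lit 4256) (nat_lit 0) (XT.nd (nat_lit 390) (nat_lit 0) (nat_lit 228) (XT.nd (nat_lit 156) (nat_lit 0) (nat_lit 76) (XT.nd (nat_lit 78) (nat_lit 0) (nat_lit 76) (XT.lf (nat_lit 76) (nat_lit 3969805046) (nat_lit 0) (nat_lit 7651370543) (nat_lit 1900) (nat_lit 22618555940) (nat_lit 477) (nat_lit 5) (nat_lit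 476) (nat_lit 5) (nat_lit 501) (nat_lit 5) (nat_lit 633) (nat_lit 622) (nat_lit 305)) (XT.lf (nat_lit 0) (nat_lit 13096690380) (nat_lit 1824) (nat_lit 12748411118) (nat_lit 1900) (nat_lit 8747235136) (nat_lit 477) (nat_lit 5) (nat_lit 501) (nat_lit 5) (nat_lit 502) (nat_lit 5) (nat_lit 634) (nat_lit 622) (nat_lit 304))) (XT.nd (nat_lit 78) (nat_lit 0) (nat_lit 76) (XT.lf (nat_lit 76) (nat_lit 5139237467) (nat_lit 0) (nat_lit 9545024883) (nat_lit 1900) (nat_lit 20266080644) (nat_lit 478) (nat_lit 5) (nat_lit 477) (nat_lit 5) (nat_lit 502) (nat_lit 5) (nat_lit 635) (nat_lit 622) (nat_lit 303)) (XT.nd (nat_lit 78) (nat_lit 0) (nat_lit 0) (XT.lf (nat_lit 0) (nat_lit 16434209499) (nat_lit 1824) (nat_lit 11803946259) (nat_lit 1900) (nat_lit 7074741336) (nat_lit 478) (nat_lit 5) (nat_lit 502) (nat_lit 5) (nat_lit 503) (nat_lit 5) (nat_lit 636) (nat_lit 622) (nat_lit 302)) (XT.lf (nat_lit 76) (nat_lit 6585481132) (nat_lit 0) (nat_lit 11738206354) (nat_lit 1900) (nat_lit 17356924238) (nat_lit 479) (nat_lit 5) (nat_lit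 478) (nat_lit 5) (nat_lit 503) (nat_lit 5) (nat_lit 637) (nat_lit 622) (nat_lit 301))))) (XT.nd (nat_lit 156) (nat_lit 0) (nat_lit 76) (XT.nd (nat_lit 78) (nat_lit 0) (nat_lit 0) (XT.lf (nat_lit 0) (nat_lit 20362335823) (nat_lit 1824) (nat_lit 10586034193) (nat_lit 1900) (nat_lit 5105083101) (nat_lit 479) (nat_lit 5) (nat_lit 503) (nat_lit 5) (nat_lit 504) (nat_lit 5) (nat_lit 638) (nat_lit 622) (nat_lit 300)) (XT.lf (nat_lit 76) (nat_lit 8323637507) (nat_lit 0) (nat_lit 14248512931) (nat_lit 1900) (nat_lit 13858993115) (nat_lit 480) (nat_lit 5) (nat_lit 479) (nat_lit 5) (nat_lit 504) (nat_lit 5) (nat_lit 639) (nat_lit 622) (nat_lit 299))) (XT.nd (nat_lit 78) (nat_lit 0) (nat_lit 0) (XT.lf (nat_lit 0) (nat_lit 24914390881) (nat_lit 1824) (nat_lit 9079581568) (nat_lit 1900) (nat_lit 2820650841) (nat_lit 480) (nat_lit 5) (nat_lit 504) (nat_lit 5) (nat_lit 505) (nat_lit 5) (nat_lit 640) (nat_lit 622) (nat_lit 298)) (XT.nd (nat_lit 78) (nat_lit 0) (nat_lit 76) (XT.lf (nat_lit 76) (nat_lit 10369500094) (nat_lit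 0) (nat_lit 17094326388) (nat_lit 1900) (nat_lit 9738739211) (nat_lit 481) (nat_lit 5) (nat_lit 480) (nat_lit 5) (nat_lit 505) (nat_lit 5) (nat_lit 641) (nat_lit 622) (nat_lit 297)) (XT.lf (nat_lit 0) (nat_lit 30125198577) (nat_lit 1824) (nat_lit 7268802434) (nat_lit 1900) (nat_lit 203047056) (nat_lit 481) (nat_lit 5) (nat_lit 505) (nat_lit 5) (nat_lit 506) (nat_lit 5) (nat_lit 642) (nat_lit 622) (nat_lit 296)))))) (XT.nd (nat_lit 390) (nat_lit 2812) (nat_lit 0) (XT.nd (nat_lit 156) (nat_lit 1824) (nat_lit 0) (XT.nd (nat_lit 78) (nat_lit 0) (nat_lit 0) (XT.lf (nat_lit 76) (nat_lit 12739581625) (nat_lit 0) (nat_lit 20294848572) (nat_lit 1900) (nat_lit 4961097327) (nat_lit 482) (nat_lit 5) (nat_lit 481) (nat_lit 5) (nat_lit 506) (nat_lit 5) (nat_lit 643) (nat_lit 622) (nat_lit 295)) (XT.lf (nat_lit 76) (nat_lit 33245631916) (nat_lit 0) (nat_lit 2803721412) (nat_lit 1900) (nat_lit 2351673179) (nat_lit 482) (nat_lit 5) (nat_lit 481) (nat_lit 5) (nat_lit 506) (nat_lit 5) (nat_lit 644) (nat_lit 622) (nat_lit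 294))) (XT.nd (nat_lit 78) (nat_lit 0) (nat_lit 0) (XT.lf (nat_lit 0) (nat_lit 503883705) (nat_lit 1900) (nat_lit 23362874097) (nat_lit 1976) (nat_lit 14943877311) (nat_lit 457) (nat_lit 5) (nat_lit 482) (nat_lit 5) (nat_lit 483) (nat_lit 5) (nat_lit 645) (nat_lit 622) (nat_lit 293)) (XT.nd (nat_lit 78) (nat_lit 0) (nat_lit 76) (XT.lf (nat_lit 0) (nat_lit 3437249797) (nat_lit 1900) (nat_lit 2730300209) (nat_lit 1976) (nat_lit 33059531324) (nat_lit 457) (nat_lit 5) (nat_lit 482) (nat_lit 5) (nat_lit 483) (nat_lit 5) (nat_lit 646) (nat_lit 622) (nat_lit 292)) (XT.lf (nat_lit 0) (nat_lit 6626527497) (nat_lit 1900) (nat_lit 21170159744) (nat_lit 76) (nat_lit 11851224414) (nat_lit 458) (nat_lit 5) (nat_lit 483) (nat_lit 5) (nat_lit 459) (nat_lit 5) (nat_lit 647) (nat_lit 622) (nat_lit 291))))) (XT.nd (nat_lit 234) (nat_lit 912) (nat_lit 0) (XT.nd (nat_lit 78) (nat_lit 912) (nat_lit 0) (XT.lf (nat_lit 0) (nat_lit 28545552) (nat_lit 1064) (nat_lit 9909326092) (nat_lit 1140) (nat_lit 30138121394) (nat_lit 444)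 (nat_lit 5) (nat_lit 458) (nat_lit 5) (nat_lit 459) (nat_lit 5) (nat_lit 648) (nat_lit 622) (nat_lit 290)) (XT.nd (nat_lit 78) (nat_lit 912) (nat_lit 0) (XT.lf (nat_lit 0) (nat_lit 13511393117) (nat_lit 1140) (nat_lit 18627728229) (nat_lit 76) (nat_lit 8369595760) (nat_lit 444) (nat_lit 5) (nat_lit 459) (nat_lit 5) (nat_lit 445) (nat_lit 5) (nat_lit 649) (nat_lit 622) (nat_lit 289)) (XT.lf (nat_lit 0) (nat_lit 3195629603) (nat_lit 912) (nat_lit 14045976559) (nat_lit 988) (nat_lit 23706785136) (nat_lit 432) (nat_lit 5) (nat_lit 444) (nat_lit 5) (nat_lit 445) (nat_lit 5) (nat_lit 650) (nat_lit 622) (nat_lit 288)))) (XT.nd (nat_lit 78) (nat_lit 912) (nat_lit 0) (XT.lf (nat_lit 0) (nat_lit 21199744342) (nat_lit 988) (nat_lit 15716913732) (nat_lit 76) (nat_lit 4477134547) (nat_lit 432) (nat_lit 5) (nat_lit 445) (nat_lit 5) (nat_lit 433) (nat_lit 5) (nat_lit 651) (nat_lit 622) (nat_lit 287)) (XT.nd (nat_lit 78) (nat_lit 0) (nat_lit 0) (XT.lf (nat_lit 0) (nat_lit 6754175503) (nat_lit 912) (nat_lit 18618629169)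 (nat_lit 988) (nat_lit 16472582173) (nat_lit 420) (nat_lit 5) (nat_lit 432) (nat_lit 5) (nat_lit 433) (nat_lit 5) (nat_lit 652) (nat_lit 622) (nat_lit 286)) (XT.lf (nat_lit 0) (nat_lit 29734690597) (nat_lit 988) (nat_lit 12418216949) (nat_lit 76) (nat_lit 150998182) (nat_lit 420) (nat_lit 5) (nat_lit 433) (nat_lit 5) (nat_lit 421) (nat_lit 5) (nat_lit 653) (nat_lit 622) (nat_lit 285))))))))
noncomputable def xc246 : XT := (XT.nd (nat_lit 80184) (nat_lit 0) (nat_lit 0) (XT.nd (nat_lit 79404) (nat_lit 0) (nat_lit 5016) (XT.nd (nat_lit 79014) (nat_lit 0) (nat_lit 4788) (XT.nd (nat_lit 78780) (nat_lit 0) (nat_lit 4712) (XT.nd (nat_lit 78) (nat_lit 0) (nat_lit 0) (XT.lf (nat_lit 0) (nat_lit 10724556483) (nat_lit 836) (nat_lit 23651115032) (nat_lit 912) (nat_lit 8392086388) (nat_lit 409) (nat_lit 5) (nat_lit 420) (nat_lit 5) (nat_lit 421) (nat_lit 5) (nat_lit 654) (nat_lit 622) (nat_lit 284)) (XT.lf (nat_lit 0) (nat_lit 34497491224) (nat_lit 836) (nat_lit 4694252192) (nat_lit 912) (nat_lit 4047498337) (nat_lit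 409) (nat_lit 5) (nat_lit 420) (nat_lit 5) (nat_lit 421) (nat_lit 5) (nat_lit 655) (nat_lit 622) (nat_lit 283))) (XT.nd (nat_lit 78) (nat_lit 0) (nat_lit 0) (XT.lf (nat_lit 0) (nat_lit 1998822797) (nat_lit 1900) (nat_lit 6817374443) (nat_lit 1900) (nat_lit 6817374443) (nat_lit 471) (nat_lit 3) (nat_lit 496) (nat_lit 3) (nat_lit 496) (nat_lit 5) (nat_lit 623) (nat_lit 623) (nat_lit 314)) (XT.nd (nat_lit 78) (nat_lit 0) (nat_lit 76) (XT.lf (nat_lit 76) (nat_lit 1898015676) (nat_lit 0) (nat_lit 2219419360) (nat_lit 1900) (nat_lit 27460779413) (nat_lit 472) (nat_lit 5) (nat_lit 471) (nat_lit 3) (nat_lit 496) (nat_lit 5) (nat_lit 624) (nat_lit 623) (nat_lit 313)) (XT.lf (nat_lit 0) (nat_lit 4417614655) (nat_lit 1824) (nat_lit 14056643682) (nat_lit 1900) (nat_lit 13417688834) (nat_lit 472) (nat_lit 5) (nat_lit 496) (nat_lit 5) (nat_lit 497) (nat_lit 5) (nat_lit 625) (nat_lit 623) (nat_lit 312))))) (XT.nd (nat_lit 156) (nat_lit 0) (nat_lit 76) (XT.nd (nat_lit 78) (nat_lit 0) (nat_lit 76) (XT.lf (nat_lit 76) (nat_lit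 1888515212) (nat_lit 0) (nat_lit 2860506376) (nat_lit 1900) (nat_lit 27462428590) (nat_lit 473) (nat_lit 5) (nat_lit 472) (nat_lit 5) (nat_lit 497) (nat_lit 5) (nat_lit 626) (nat_lit 623) (nat_lit 311)) (XT.lf (nat_lit 0) (nat_lit 5265135973) (nat_lit 1824) (nat_lit 14278763129) (nat_lit 1900) (nat_lit 12989882660) (nat_lit 473) (nat_lit 5) (nat_lit 497) (nat_lit 5) (nat_lit 498) (nat_lit 5) (nat_lit 627) (nat_lit 623) (nat_lit 310))) (XT.nd (nat_lit 78) (nat_lit 0) (nat_lit 76) (XT.lf (nat_lit 76) (nat_lit 2093858239) (nat_lit 0) (nat_lit 3728583385) (nat_lit 1900) (nat_lit 27039501075) (nat_lit 474) (nat_lit 5) (nat_lit 473) (nat_lit 5) (nat_lit 498) (nat_lit 5) (nat_lit 628) (nat_lit 623) (nat_lit 309)) (XT.nd (nat_lit 78) (nat_lit 0) (nat_lit 0) (XT.lf (nat_lit 0) (nat_lit 6566236356) (nat_lit 1824) (nat_lit 14289412087) (nat_lit 1900) (nat_lit 12337511653) (nat_lit 474) (nat_lit 5) (nat_lit 498) (nat_lit 5) (nat_lit 499) (nat_lit 5) (nat_lit 629) (nat_lit 623) (nat_lit 308)) (XT.lf (nat_lit 76) (nat_lit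 2526310708) (nat_lit 0) (nat_lit 4838085129) (nat_lit 1900) (nat_lit 26165816324) (nat_lit 475) (nat_lit 5) (nat_lit 474) (nat_lit 5) (nat_lit 499) (nat_lit 5) (nat_lit 630) (nat_lit 623) (nat_lit 307)))))) (XT.nd (nat_lit 390) (nat_lit 0) (nat_lit 152) (XT.nd (nat_lit 156) (nat_lit 0) (nat_lit 76) (XT.nd (nat_lit 78) (nat_lit 0) (nat_lit 0) (XT.lf (nat_lit 0) (nat_lit 8348130630) (nat_lit 1824) (nat_lit 14076335192) (nat_lit 1900) (nat_lit 11446147297) (nat_lit 475) (nat_lit 5) (nat_lit 499) (nat_lit 5) (nat_lit 500) (nat_lit 5) (nat_lit 631) (nat_lit 623) (nat_lit 306)) (XT.lf (nat_lit 76) (nat_lit 3198720491) (nat_lit 0) (nat_lit 6204082157) (nat_lit 1900) (nat_lit 24813994292) (nat_lit 476) (nat_lit 5) (nat_lit 475) (nat_lit 5) (nat_lit 500) (nat_lit 5) (nat_lit 632) (nat_lit 623) (nat_lit 305))) (XT.nd (nat_lit 78) (nat_lit 0) (nat_lit 0) (XT.lf (nat_lit 0) (nat_lit 10639273683) (nat_lit 1824) (nat_lit 13626694959) (nat_lit 1900) (nat_lit 10300721775) (nat_lit 476) (nat_lit 5) (nat_lit 500) (nat_lit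 5) (nat_lit 501) (nat_lit 5) (nat_lit 633) (nat_lit 623) (nat_lit 304)) (XT.nd (nat_lit 78) (nat_lit 0) (nat_lit 76) (XT.lf (nat_lit 76) (nat_lit 4124540110) (nat_lit 0) (nat_lit 7842311339) (nat_lit 1900) (nat_lit 22955402858) (nat_lit 477) (nat_lit 5) (nat_lit 476) (nat_lit 5) (nat_lit 501) (nat_lit 5) (nat_lit 634) (nat_lit 623) (nat_lit 303)) (XT.lf (nat_lit 0) (nat_lit 13469414570) (nat_lit 1824) (nat_lit 12927048974) (nat_lit 1900) (nat_lit 8885497344) (nat_lit 477) (nat_lit 5) (nat_lit 501) (nat_lit 5) (nat_lit 502) (nat_lit 5) (nat_lit 635) (nat_lit 623) (nat_lit 302))))) (XT.nd (nat_lit 156) (nat_lit 0) (nat_lit 76) (XT.nd (nat_lit 78) (nat_lit 0) (nat_lit 76) (XT.lf (nat_lit 76) (nat_lit 5317850410) (nat_lit 0) (nat_lit 9769207535) (nat_lit 1900) (nat_lit 20560103160) (nat_lit 478) (nat_lit 5) (nat_lit 477) (nat_lit 5) (nat_lit 502) (nat_lit 5) (nat_lit 636) (nat_lit 623) (nat_lit 301)) (XT.lf (nat_lit 0) (nat_lit 16869652766) (nat_lit 1824) (nat_lit 11963326134) (nat_lit 1900) (nat_lit 7184034542)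 (nat_lit 478) (nat_lit 5) (nat_lit 502) (nat_lit 5) (nat_lit 503) (nat_lit 5) (nat_lit 637) (nat_lit 623) (nat_lit 300))) (XT.nd (nat_lit 78) (nat_lit 0) (nat_lit 76) (XT.lf (nat_lit 76) (nat_lit 6793385207) (nat_lit 0) (nat_lit 12001936496) (nat_lit 1900) (nat_lit 17596792760) (nat_lit 479) (nat_lit 5) (nat_lit 478) (nat_lit 5) (nat_lit 503) (nat_lit 5) (nat_lit 638) (nat_lit 623) (nat_lit 299)) (XT.nd (nat_lit 78) (nat_lit 0) (nat_lit 0) (XT.lf (nat_lit 0) (nat_lit 20872496658) (nat_lit 1824) (nat_lit 10720801921) (nat_lit 1900) (nat_lit 5179159154) (nat_lit 479) (nat_lit 5) (nat_lit 503) (nat_lit 5) (nat_lit 504) (nat_lit 5) (nat_lit 639) (nat_lit 623) (nat_lit 298)) (XT.lf (nat_lit 76) (nat_lit 8566556943) (nat_lit 0) (nat_lit 14558429040) (nat_lit 1900) (nat_lit 14032746547) (nat_lit 480) (nat_lit 5) (nat_lit 479) (nat_lit 5) (nat_lit 504) (nat_lit 5) (nat_lit 640) (nat_lit 623) (nat_lit 297))))))) (XT.nd (nat_lit 780) (nat_lit 2660) (nat_lit 0) (XT.nd (nat_lit 390) (nat_lit 2736) (nat_lit 0) (XT.nd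 (nat_lit 156) (nat_lit 0) (nat_lit 76) (XT.nd (nat_lit 78) (nat_lit 0) (nat_lit 0) (XT.lf (nat_lit 0) (nat_lit 25511924357) (nat_lit 1824) (nat_lit 9184072665) (nat_lit 1900) (nat_lit 2852927896) (nat_lit 480) (nat_lit 5) (nat_lit 504) (nat_lit 5) (nat_lit 505) (nat_lit 5) (nat_lit 641) (nat_lit 623) (nat_lit 296)) (XT.lf (nat_lit 76) (nat_lit 10653483390) (nat_lit 0) (nat_lit 17457416582) (nat_lit 1900) (nat_lit 9833755288) (nat_lit 481) (nat_lit 5) (nat_lit 480) (nat_lit 5) (nat_lit 505) (nat_lit 5) (nat_lit 642) (nat_lit 623) (nat_lit 295))) (XT.nd (nat_lit 78) (nat_lit 0) (nat_lit 0) (XT.lf (nat_lit 0) (nat_lit 30823446952) (nat_lit 1824) (nat_lit 7337028767) (nat_lit 1900) (nat_lit 186592727) (nat_lit 481) (nat_lit 5) (nat_lit 505) (nat_lit 5) (nat_lit 506) (nat_lit 5) (nat_lit 643) (nat_lit 623) (nat_lit 294)) (XT.nd (nat_lit 78) (nat_lit 0) (nat_lit 0) (XT.lf (nat_lit 76) (nat_lit 13071015409) (nat_lit 0) (nat_lit 20718468066) (nat_lit 1900) (nat_lit 4964061723) (nat_lit 482) (nat_lit 5) (nat_lit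 481) (nat_lit 5) (nat_lit 506) (nat_lit 5) (nat_lit 644) (nat_lit 623) (nat_lit 293)) (XT.lf (nat_lit 76) (nat_lit 33985683918) (nat_lit 0) (nat_lit 2877170862) (nat_lit 1900) (nat_lit 2304336496) (nat_lit 482) (nat_lit 5) (nat_lit 481) (nat_lit 5) (nat_lit 506) (nat_lit 5) (nat_lit 645) (nat_lit 623) (nat_lit 292))))) (XT.nd (nat_lit 156) (nat_lit 988) (nat_lit 0) (XT.nd (nat_lit 78) (nat_lit 0) (nat_lit 0) (XT.lf (nat_lit 0) (nat_lit 605657023) (nat_lit 1900) (nat_lit 23752307085) (nat_lit 1976) (nat_lit 15227044533) (nat_lit 457) (nat_lit 5) (nat_lit 482) (nat_lit 5) (nat_lit 483) (nat_lit 5) (nat_lit 646) (nat_lit 623) (nat_lit 291)) (XT.lf (nat_lit 0) (nat_lit 3595892483) (nat_lit 1900) (nat_lit 2708607690) (nat_lit 1976) (nat_lit 33705319672) (nat_lit 457) (nat_lit 5) (nat_lit 482) (nat_lit 5) (nat_lit 483) (nat_lit 5) (nat_lit 647) (nat_lit 623) (nat_lit 290))) (XT.nd (nat_lit 78) (nat_lit 1064) (nat_lit 0) (XT.lf (nat_lit 0) (nat_lit 6847601855) (nat_lit 1900) (nat_lit 21515905477) (nat_lit 76)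 (nat_lit 12075586625) (nat_lit 458) (nat_lit 5) (nat_lit 483) (nat_lit 5) (nat_lit 459) (nat_lit 5) (nat_lit 648) (nat_lit 623) (nat_lit 289)) (XT.nd (nat_lit 78) (nat_lit 0) (nat_lit 0) (XT.lf (nat_lit 0) (nat_lit 106263021) (nat_lit 1064) (nat_lit 10117674597) (nat_lit 1140) (nat_lit 30651824153) (nat_lit 444) (nat_lit 5) (nat_lit 458) (nat_lit 5) (nat_lit 459) (nat_lit 5) (nat_lit 649) (nat_lit 623) (nat_lit 288)) (XT.lf (nat_lit 0) (nat_lit 13867152904) (nat_lit 1140) (nat_lit 18922867437) (nat_lit 76) (nat_lit 8527155610) (nat_lit 444) (nat_lit 5) (nat_lit 459) (nat_lit 5) (nat_lit 445) (nat_lit 5) (nat_lit 650) (nat_lit 623) (nat_lit 287)))))) (XT.nd (nat_lit 390) (nat_lit 0) (nat_lit 0) (XT.nd (nat_lit 156) (nat_lit 1748) (nat_lit 0) (XT.nd (nat_lit 78) (nat_lit 0) (nat_lit 0) (XT.lf (nat_lit 0) (nat_lit 3336448241) (nat_lit 912) (nat_lit 14334344198) (nat_lit 988) (nat_lit 24094874838) (nat_lit 432) (nat_lit 5) (nat_lit 444) (nat_lit 5) (nat_lit 445) (nat_lit 5) (nat_lit 651) (nat_lit 623) (nat_lit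 286)) (XT.lf (nat_lit 0) (nat_lit 21706391969) (nat_lit 988) (nat_lit 15954147839) (nat_lit 76) (nat_lit 4559470940) (nat_lit 432) (nat_lit 5) (nat_lit 445) (nat_lit 5) (nat_lit 433) (nat_lit 5) (nat_lit 652) (nat_lit 623) (nat_lit 285))) (XT.nd (nat_lit 78) (nat_lit 836) (nat_lit 0) (XT.lf (nat_lit 0) (nat_lit 6965855917) (nat_lit 912) (nat_lit 18995934264) (nat_lit 988) (nat_lit 16718869232) (nat_lit 420) (nat_lit 5) (nat_lit 432) (nat_lit 5) (nat_lit 433) (nat_lit 5) (nat_lit 653) (nat_lit 623) (nat_lit 284)) (XT.nd (nat_lit 78) (nat_lit 836) (nat_lit 0) (XT.lf (nat_lit 0) (nat_lit 30409283811) (nat_lit 988) (nat_lit 12589851781) (nat_lit 76) (nat_lit 149245772) (nat_lit 420) (nat_lit 5) (nat_lit 433) (nat_lit 5) (nat_lit 421) (nat_lit 5) (nat_lit 654) (nat_lit 623) (nat_lit 283)) (XT.lf (nat_lit 0) (nat_lit 11015272320) (nat_lit 836) (nat_lit 24126740274) (nat_lit 912) (nat_lit 8479519512) (nat_lit 409) (nat_lit 5) (nat_lit 420) (nat_lit 5) (nat_lit 421) (nat_lit 5) (nat_lit 655) (nat_lit 623) (nat_lit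 282))))) (XT.nd (nat_lit 78858) (nat_lit 0) (nat_lit 4788) (XT.nd (nat_lit 78702) (nat_lit 0) (nat_lit 4712) (XT.lf (nat_lit 0) (nat_lit 35262171154) (nat_lit 836) (nat_lit 4790689139) (nat_lit 912) (nat_lit 4049616339) (nat_lit 409) (nat_lit 5) (nat_lit 420) (nat_lit 5) (nat_lit 421) (nat_lit 5) (nat_lit 656) (nat_lit 623) (nat_lit 281)) (XT.nd (nat_lit 78) (nat_lit 0) (nat_lit 0) (XT.lf (nat_lit 0) (nat_lit 2105850873) (nat_lit 1900) (nat_lit 6919523572) (nat_lit 1900) (nat_lit 6919523572) (nat_lit 471) (nat_lit 3) (nat_lit 496) (nat_lit 3) (nat_lit 496) (nat_lit 5) (nat_lit 624) (nat_lit 624) (nat_lit 312)) (XT.lf (nat_lit 76) (nat_lit 2003922730) (nat_lit 0) (nat_lit 2327775927) (nat_lit 1900) (nat_lit 27875433808) (nat_lit 472) (nat_lit 5) (nat_lit 471) (nat_lit 3) (nat_lit 496) (nat_lit 5) (nat_lit 625) (nat_lit 624) (nat_lit 311)))) (XT.nd (nat_lit 78) (nat_lit 0) (nat_lit 0) (XT.lf (nat_lit 0) (nat_lit 4634888121) (nat_lit 1824) (nat_lit 14268160539) (nat_lit 1900) (nat_lit 13624151213) (nat_lit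 472) (nat_lit 5) (nat_lit 496) (nat_lit 5) (nat_lit 497) (nat_lit 5) (nat_lit 626) (nat_lit 624) (nat_lit 310)) (XT.nd (nat_lit 78) (nat_lit 0) (nat_lit 76) (XT.lf (nat_lit 76) (nat_lit 1995443533) (nat_lit 0) (nat_lit 2975400814) (nat_lit 1900) (nat_lit 27882290324) (nat_lit 473) (nat_lit 5) (nat_lit 472) (nat_lit 5) (nat_lit 497) (nat_lit 5) (nat_lit 627) (nat_lit 624) (nat_lit 309)) (XT.lf (nat_lit 0) (nat_lit 5494426734) (nat_lit 1824) (nat_lit 14493674616) (nat_lit 1900) (nat_lit 13193868773) (nat_lit 473) (nat_lit 5) (nat_lit 497) (nat_lit 5) (nat_lit 498) (nat_lit 5) (nat_lit 628) (nat_lit 624) (nat_lit 308))))))))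
noncomputable def xc247 : XT := (XT.nd (nat_lit 1560) (nat_lit 2812) (nat_lit 0) (XT.nd (nat_lit 780) (nat_lit 1216) (nat_lit 0) (XT.nd (nat_lit 390) (nat_lit 0) (nat_lit 228) (XT.nd (nat_lit 156) (nat_lit 0) (nat_lit 76) (XT.nd (nat_lit 78) (nat_lit 0) (nat_lit 76) (XT.lf (nat_lit 76) (nat_lit 2205934287) (nat_lit 0) (nat_lit 3854968852) (nat_lit 1900) (nat_lit 27455830796) (nat_lit 474) (nat_lit 5) (nat_lit 473) (nat_lit 5) (nat_lit 498) (nat_lit 5) (nat_lit 629) (nat_lit 624) (nat_lit 307)) (XT.lf (nat_lit 0) (nat_lit 6816851546) (nat_lit 1824) (nat_lit 14503648454) (nat_lit 1900) (nat_lit 12534130267) (nat_lit 474) (nat_lit 5) (nat_lit 498) (nat_lit 5) (nat_lit 499) (nat_lit 5) (nat_lit 630) (nat_lit 624) (nat_lit 306))) (XT.nd (nat_lit 78) (nat_lit 0) (nat_lit 76) (XT.lf (nat_lit 76) (nat_lit 2647918061) (nat_lit 0) (nat_lit 4981178633) (nat_lit 1900) (nat_lit 26569364372) (nat_lit 475) (nat_lit 5) (nat_lit 474) (nat_lit 5) (nat_lit 499) (nat_lit 5) (nat_lit 631) (nat_lit 624) (nat_lit 305)) (XT.nd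 (nat_lit 78) (nat_lit 0) (nat_lit 0) (XT.lf (nat_lit 0) (nat_lit 8629909049) (nat_lit 1824) (nat_lit 14285570431) (nat_lit 1900) (nat_lit 11630242644) (nat_lit 475) (nat_lit 5) (nat_lit 499) (nat_lit 5) (nat_lit 500) (nat_lit 5) (nat_lit 632) (nat_lit 624) (nat_lit 304)) (XT.lf (nat_lit 76) (nat_lit 3334510764) (nat_lit 0) (nat_lit 6369378729) (nat_lit 1900) (nat_lit 25194975964) (nat_lit 476) (nat_lit 5) (nat_lit 475) (nat_lit 5) (nat_lit 500) (nat_lit 5) (nat_lit 633) (nat_lit 624) (nat_lit 303))))) (XT.nd (nat_lit 156) (nat_lit 0) (nat_lit 76) (XT.nd (nat_lit 78) (nat_lit 0) (nat_lit 0) (XT.lf (nat_lit 0) (nat_lit 10962611311) (nat_lit 1824) (nat_lit 13826335840) (nat_lit 1900) (nat_lit 10466859360) (nat_lit 476) (nat_lit 5) (nat_lit 500) (nat_lit 5) (nat_lit 501) (nat_lit 5) (nat_lit 634) (nat_lit 624) (nat_lit 302)) (XT.lf (nat_lit 76) (nat_lit 4279444372) (nat_lit 0) (nat_lit 8035598728) (nat_lit 1900) (nat_lit 23303472660) (nat_lit 477) (nat_lit 5) (nat_lit 476) (nat_lit 5) (nat_lit 501) (nat_lit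 5) (nat_lit 635) (nat_lit 624) (nat_lit 301))) (XT.nd (nat_lit 78) (nat_lit 0) (nat_lit 0) (XT.lf (nat_lit 0) (nat_lit 13845291118) (nat_lit 1824) (nat_lit 13112223587) (nat_lit 1900) (nat_lit 9027949223) (nat_lit 477) (nat_lit 5) (nat_lit 501) (nat_lit 5) (nat_lit 502) (nat_lit 5) (nat_lit 636) (nat_lit 624) (nat_lit 300)) (XT.nd (nat_lit 78) (nat_lit 0) (nat_lit 76) (XT.lf (nat_lit 76) (nat_lit 5497091111) (nat_lit 0) (nat_lit 9996581454) (nat_lit 1900) (nat_lit 20864328006) (nat_lit 478) (nat_lit 5) (nat_lit 477) (nat_lit 5) (nat_lit 502) (nat_lit 5) (nat_lit 637) (nat_lit 624) (nat_lit 299)) (XT.lf (nat_lit 0) (nat_lit 17309659314) (nat_lit 1824) (nat_lit 12128871923) (nat_lit 1900) (nat_lit 7296764040) (nat_lit 478) (nat_lit 5) (nat_lit 502) (nat_lit 5) (nat_lit 503) (nat_lit 5) (nat_lit 638) (nat_lit 624) (nat_lit 298)))))) (XT.nd (nat_lit 390) (nat_lit 1596) (nat_lit 0) (XT.nd (nat_lit 156) (nat_lit 0) (nat_lit 76) (XT.nd (nat_lit 78) (nat_lit 0) (nat_lit 76) (XT.lf (nat_lit 76) (nat_lit 7002488639)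 (nat_lit 0) (nat_lit 12269816456) (nat_lit 1900) (nat_lit 17845624075) (nat_lit 479) (nat_lit 5) (nat_lit 478) (nat_lit 5) (nat_lit 503) (nat_lit 5) (nat_lit 639) (nat_lit 624) (nat_lit 297)) (XT.lf (nat_lit 0) (nat_lit 21388864428) (nat_lit 1824) (nat_lit 10861253181) (nat_lit 1900) (nat_lit 5255804997) (nat_lit 479) (nat_lit 5) (nat_lit 503) (nat_lit 5) (nat_lit 504) (nat_lit 5) (nat_lit 640) (nat_lit 624) (nat_lit 296))) (XT.nd (nat_lit 78) (nat_lit 0) (nat_lit 76) (XT.lf (nat_lit 76) (nat_lit 8811366250) (nat_lit 0) (nat_lit 14873574794) (nat_lit 1900) (nat_lit 14213991222) (nat_lit 480) (nat_lit 5) (nat_lit 479) (nat_lit 5) (nat_lit 504) (nat_lit 5) (nat_lit 641) (nat_lit 624) (nat_lit 295)) (XT.nd (nat_lit 78) (nat_lit 0) (nat_lit 0) (XT.lf (nat_lit 0) (nat_lit 26117554672) (nat_lit 1824) (nat_lit 9293647492) (nat_lit 1900) (nat_lit 2886787721) (nat_lit 480) (nat_lit 5) (nat_lit 504) (nat_lit 5) (nat_lit 505) (nat_lit 5) (nat_lit 642) (nat_lit 624) (nat_lit 294)) (XT.lf (nat_lit 76) (nat_lit 10940172140)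 (nat_lit 0) (nat_lit 17826945215) (nat_lit 1900) (nat_lit 9934545439) (nat_lit 481) (nat_lit 5) (nat_lit 480) (nat_lit 5) (nat_lit 505) (nat_lit 5) (nat_lit 643) (nat_lit 624) (nat_lit 293))))) (XT.nd (nat_lit 156) (nat_lit 1824) (nat_lit 0) (XT.nd (nat_lit 78) (nat_lit 0) (nat_lit 0) (XT.lf (nat_lit 0) (nat_lit 31531942423) (nat_lit 1824) (nat_lit 7409615445) (nat_lit 1900) (nat_lit 170605943) (nat_lit 481) (nat_lit 5) (nat_lit 505) (nat_lit 5) (nat_lit 506) (nat_lit 5) (nat_lit 644) (nat_lit 624) (nat_lit 292)) (XT.lf (nat_lit 76) (nat_lit 13406101760) (nat_lit 0) (nat_lit 21149871763) (nat_lit 1900) (nat_lit 4970823206) (nat_lit 482) (nat_lit 5) (nat_lit 481) (nat_lit 5) (nat_lit 506) (nat_lit 5) (nat_lit 645) (nat_lit 624) (nat_lit 291))) (XT.nd (nat_lit 78) (nat_lit 1824) (nat_lit 0) (XT.lf (nat_lit 76) (nat_lit 34737619208) (nat_lit 0) (nat_lit 2951414608) (nat_lit 1900) (nat_lit 2259717586) (nat_lit 482) (nat_lit 5) (nat_lit 481) (nat_lit 5) (nat_lit 506) (nat_lit 5) (nat_lit 646) (nat_lit 624) (nat_lit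 290)) (XT.nd (nat_lit 78) (nat_lit 0) (nat_lit 0) (XT.lf (nat_lit 0) (nat_lit 705905154) (nat_lit 1900) (nat_lit 24152550753) (nat_lit 1976) (nat_lit 15516485150) (nat_lit 457) (nat_lit 5) (nat_lit 482) (nat_lit 5) (nat_lit 483) (nat_lit 5) (nat_lit 647) (nat_lit 624) (nat_lit 289)) (XT.lf (nat_lit 0) (nat_lit 3754217186) (nat_lit 1900) (nat_lit 2689444086) (nat_lit 1976) (nat_lit 34364621877) (nat_lit 457) (nat_lit 5) (nat_lit 482) (nat_lit 5) (nat_lit 483) (nat_lit 5) (nat_lit 648) (nat_lit 624) (nat_lit 288))))))) (XT.nd (nat_lit 79560) (nat_lit 0) (nat_lit 3952) (XT.nd (nat_lit 390) (nat_lit 912) (nat_lit 0) (XT.nd (nat_lit 156) (nat_lit 912) (nat_lit 0) (XT.nd (nat_lit 78) (nat_lit 1064) (nat_lit 0) (XT.lf (nat_lit 0) (nat_lit 7069659435) (nat_lit 1900) (nat_lit 21871581658) (nat_lit 76) (nat_lit 12304927771) (nat_lit 458) (nat_lit 5) (nat_lit 483) (nat_lit 5) (nat_lit 459) (nat_lit 5) (nat_lit 649) (nat_lit 624) (nat_lit 287)) (XT.lf (nat_lit 0) (nat_lit 182539144) (nat_lit 1064) (nat_lit 10329795470)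 (nat_lit 1140) (nat_lit 31179259263) (nat_lit 444) (nat_lit 5) (nat_lit 458) (nat_lit 5) (nat_lit 459) (nat_lit 5) (nat_lit 650) (nat_lit 624) (nat_lit 286))) (XT.nd (nat_lit 78) (nat_lit 912) (nat_lit 0) (XT.lf (nat_lit 0) (nat_lit 14226706577) (nat_lit 1140) (nat_lit 19226915561) (nat_lit 76) (nat_lit 8688248448) (nat_lit 444) (nat_lit 5) (nat_lit 459) (nat_lit 5) (nat_lit 445) (nat_lit 5) (nat_lit 651) (nat_lit 624) (nat_lit 285)) (XT.nd (nat_lit 78) (nat_lit 0) (nat_lit 0) (XT.lf (nat_lit 0) (nat_lit 3477096896) (nat_lit 912) (nat_lit 14628189970) (nat_lit 988) (nat_lit 24494067605) (nat_lit 432) (nat_lit 5) (nat_lit 444) (nat_lit 5) (nat_lit 445) (nat_lit 5) (nat_lit 652) (nat_lit 624) (nat_lit 284)) (XT.lf (nat_lit 0) (nat_lit 22219963041) (nat_lit 988) (nat_lit 16199120676) (nat_lit 76) (nat_lit 4643733890) (nat_lit 432) (nat_lit 5) (nat_lit 445) (nat_lit 5) (nat_lit 433) (nat_lit 5) (nat_lit 653) (nat_lit 624) (nat_lit 283))))) (XT.nd (nat_lit 78936) (nat_lit 0) (nat_lit 3876) (XT.nd (nat_lit 78)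 (nat_lit 0) (nat_lit 0) (XT.lf (nat_lit 0) (nat_lit 7178795589) (nat_lit 912) (nat_lit 19380593926) (nat_lit 988) (nat_lit 16973311415) (nat_lit 420) (nat_lit 5) (nat_lit 432) (nat_lit 5) (nat_lit 433) (nat_lit 5) (nat_lit 654) (nat_lit 624) (nat_lit 282)) (XT.lf (nat_lit 0) (nat_lit 31094266299) (nat_lit 988) (nat_lit 12767898810) (nat_lit 76) (nat_lit 147643631) (nat_lit 420) (nat_lit 5) (nat_lit 433) (nat_lit 5) (nat_lit 421) (nat_lit 5) (nat_lit 655) (nat_lit 624) (nat_lit 281))) (XT.nd (nat_lit 78) (nat_lit 0) (nat_lit 0) (XT.lf (nat_lit 0) (nat_lit 2212415815) (nat_lit 1900) (nat_lit 7025043648) (nat_lit 1900) (nat_lit 7025043648) (nat_lit 471) (nat_lit 3) (nat_lit 496) (nat_lit 3) (nat_lit 496) (nat_lit 5) (nat_lit 625) (nat_lit 625) (nat_lit 310)) (XT.nd (nat_lit 78) (nat_lit 0) (nat_lit 76) (XT.lf (nat_lit 76) (nat_lit 2109309471) (nat_lit 0) (nat_lit 2435815663) (nat_lit 1900) (nat_lit 28303606466) (nat_lit 472) (nat_lit 5) (nat_lit 471) (nat_lit 3) (nat_lit 496) (nat_lit 5) (nat_lit 626) (nat_lit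 625) (nat_lit 309)) (XT.lf (nat_lit 0) (nat_lit 4851500891) (nat_lit 1824) (nat_lit 14486611008) (nat_lit 1900) (nat_lit 13837146158) (nat_lit 472) (nat_lit 5) (nat_lit 496) (nat_lit 5) (nat_lit 497) (nat_lit 5) (nat_lit 627) (nat_lit 625) (nat_lit 308)))))) (XT.nd (nat_lit 390) (nat_lit 0) (nat_lit 228) (XT.nd (nat_lit 156) (nat_lit 0) (nat_lit 76) (XT.nd (nat_lit 78) (nat_lit 0) (nat_lit 76) (XT.lf (nat_lit 76) (nat_lit 2101824930) (nat_lit 0) (nat_lit 3090353190) (nat_lit 1900) (nat_lit 28315573541) (nat_lit 473) (nat_lit 5) (nat_lit 472) (nat_lit 5) (nat_lit 497) (nat_lit 5) (nat_lit 628) (nat_lit 625) (nat_lit 307)) (XT.lf (nat_lit 0) (nat_lit 5723488704) (nat_lit 1824) (nat_lit 14715628292) (nat_lit 1900) (nat_lit 13404101839) (nat_lit 473) (nat_lit 5) (nat_lit 497) (nat_lit 5) (nat_lit 498) (nat_lit 5) (nat_lit 629) (nat_lit 625) (nat_lit 306))) (XT.nd (nat_lit 78) (nat_lit 0) (nat_lit 76) (XT.lf (nat_lit 76) (nat_lit 2317525947) (nat_lit 0) (nat_lit 3981870034) (nat_lit 1900) (nat_lit 27885320056)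 (nat_lit 474) (nat_lit 5) (nat_lit 473) (nat_lit 5) (nat_lit 498) (nat_lit 5) (nat_lit 630) (nat_lit 625) (nat_lit 305)) (XT.nd (nat_lit 78) (nat_lit 0) (nat_lit 0) (XT.lf (nat_lit 0) (nat_lit 7067846845) (nat_lit 1824) (nat_lit 14724947995) (nat_lit 1900) (nat_lit 12736627925) (nat_lit 474) (nat_lit 5) (nat_lit 498) (nat_lit 5) (nat_lit 499) (nat_lit 5) (nat_lit 631) (nat_lit 625) (nat_lit 304)) (XT.lf (nat_lit 76) (nat_lit 2769197393) (nat_lit 0) (nat_lit 5125334886) (nat_lit 1900) (nat_lit 26985634129) (nat_lit 475) (nat_lit 5) (nat_lit 474) (nat_lit 5) (nat_lit 499) (nat_lit 5) (nat_lit 632) (nat_lit 625) (nat_lit 303))))) (XT.nd (nat_lit 234) (nat_lit 0) (nat_lit 76) (XT.nd (nat_lit 78) (nat_lit 0) (nat_lit 0) (XT.lf (nat_lit 0) (nat_lit 8912864600) (nat_lit 1824) (nat_lit 14501797540) (nat_lit 1900) (nat_lit 11819760608) (nat_lit 475) (nat_lit 5) (nat_lit 499) (nat_lit 5) (nat_lit 500) (nat_lit 5) (nat_lit 633) (nat_lit 625) (nat_lit 302)) (XT.nd (nat_lit 78) (nat_lit 0) (nat_lit 76) (XT.lf (nat_lit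 76) (nat_lit 3470228146) (nat_lit 0) (nat_lit 6536380807) (nat_lit 1900) (nat_lit 25588054439) (nat_lit 476) (nat_lit 5) (nat_lit 475) (nat_lit 5) (nat_lit 500) (nat_lit 5) (nat_lit 634) (nat_lit 625) (nat_lit 301)) (XT.lf (nat_lit 0) (nat_lit 11288122817) (nat_lit 1824) (nat_lit 14032800062) (nat_lit 1900) (nat_lit 10637868163) (nat_lit 476) (nat_lit 5) (nat_lit 500) (nat_lit 5) (nat_lit 501) (nat_lit 5) (nat_lit 635) (nat_lit 625) (nat_lit 300)))) (XT.nd (nat_lit 78) (nat_lit 0) (nat_lit 76) (XT.lf (nat_lit 76) (nat_lit 4434634817) (nat_lit 0) (nat_lit 8231336810) (nat_lit 1900) (nat_lit 23662815609) (nat_lit 477) (nat_lit 5) (nat_lit 476) (nat_lit 5) (nat_lit 501) (nat_lit 5) (nat_lit 636) (nat_lit 625) (nat_lit 299)) (XT.nd (nat_lit 78) (nat_lit 0) (nat_lit 0) (XT.lf (nat_lit 0) (nat_lit 14224550128) (nat_lit 1824) (nat_lit 13303950598) (nat_lit 1900) (nat_lit 9174619253) (nat_lit 477) (nat_lit 5) (nat_lit 501) (nat_lit 5) (nat_lit 502) (nat_lit 5) (nat_lit 637) (nat_lit 625) (nat_lit 298)) (XT.lf (nat_lit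 76) (nat_lit 5677086463) (nat_lit 0) (nat_lit 10227260650) (nat_lit 1900) (nat_lit 21178791405) (nat_lit 478) (nat_lit 5) (nat_lit 477) (nat_lit 5) (nat_lit 502) (nat_lit 5) (nat_lit 638) (nat_lit 625) (nat_lit 297))))))))
noncomputable def xc248 : XT := (XT.nd (nat_lit 80418) (nat_lit 0) (nat_lit 3952) (XT.nd (nat_lit 780) (nat_lit 2812) (nat_lit 0) (XT.nd (nat_lit 390) (nat_lit 1596) (nat_lit 0) (XT.nd (nat_lit 156) (nat_lit 0) (nat_lit 76) (XT.nd (nat_lit 78) (nat_lit 0) (nat_lit 0) (XT.lf (nat_lit 0) (nat_lit 17754481385) (nat_lit 1824) (nat_lit 12300591295) (nat_lit 1900) (nat_lit 7412950000) (nat_lit 478) (nat_lit 5) (nat_lit 502) (nat_lit 5) (nat_lit 503) (nat_lit 5) (nat_lit 639) (nat_lit 625) (nat_lit 296)) (XT.lf (nat_lit 76) (nat_lit 7212930307) (nat_lit 0) (nat_lit 12541972906) (nat_lit 1900) (nat_lit 18103435692) (nat_lit 479) (nat_lit 5) (nat_lit 478) (nat_lit 5) (nat_lit 503) (nat_lit 5) (nat_lit 640) (nat_lit 625) (nat_lit 295))) (XT.nd (nat_lit 78) (nat_lit 0) (nat_lit 0) (XT.lf (nat_lit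 0) (nat_lit 21911718454) (nat_lit 1824) (nat_lit 11007385609) (nat_lit 1900) (nat_lit 5335029767) (nat_lit 479) (nat_lit 5) (nat_lit 503) (nat_lit 5) (nat_lit 504) (nat_lit 5) (nat_lit 641) (nat_lit 625) (nat_lit 294)) (XT.nd (nat_lit 78) (nat_lit 0) (nat_lit 76) (XT.lf (nat_lit 76) (nat_lit 9058218497) (nat_lit 0) (nat_lit 15194092400) (nat_lit 1900) (nat_lit 14402721012) (nat_lit 480) (nat_lit 5) (nat_lit 479) (nat_lit 5) (nat_lit 504) (nat_lit 5) (nat_lit 642) (nat_lit 625) (nat_lit 293)) (XT.lf (nat_lit 0) (nat_lit 26731593414) (nat_lit 1824) (nat_lit 9408291466) (nat_lit 1900) (nat_lit 2922225577) (nat_lit 480) (nat_lit 5) (nat_lit 504) (nat_lit 5) (nat_lit 505) (nat_lit 5) (nat_lit 643) (nat_lit 625) (nat_lit 292))))) (XT.nd (nat_lit 156) (nat_lit 1748) (nat_lit 0) (XT.nd (nat_lit 78) (nat_lit 0) (nat_lit 76) (XT.lf (nat_lit 76) (nat_lit 11229735947) (nat_lit 0) (nat_lit 18203073029) (nat_lit 1900) (nat_lit 10041074722) (nat_lit 481) (nat_lit 5) (nat_lit 480) (nat_lit 5) (nat_lit 505) (nat_lit 5)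 (nat_lit 644) (nat_lit 625) (nat_lit 291)) (XT.lf (nat_lit 0) (nat_lit 32251034300) (nat_lit 1824) (nat_lit 7486533343) (nat_lit 1900) (nat_lit 155065123) (nat_lit 481) (nat_lit 5) (nat_lit 505) (nat_lit 5) (nat_lit 506) (nat_lit 5) (nat_lit 645) (nat_lit 625) (nat_lit 290))) (XT.nd (nat_lit 78) (nat_lit 1824) (nat_lit 0) (XT.lf (nat_lit 76) (nat_lit 13745029296) (nat_lit 0) (nat_lit 21589242070) (nat_lit 1900) (nat_lit 4981312573) (nat_lit 482) (nat_lit 5) (nat_lit 481) (nat_lit 5) (nat_lit 506) (nat_lit 5) (nat_lit 646) (nat_lit 625) (nat_lit 289)) (XT.nd (nat_lit 78) (nat_lit 1824) (nat_lit 0) (XT.lf (nat_lit 76) (nat_lit 35501788749) (nat_lit 0) (nat_lit 3026494735) (nat_lit 1900) (nat_lit 2217728509) (nat_lit 482) (nat_lit 5) (nat_lit 481) (nat_lit 5) (nat_lit 506) (nat_lit 5) (nat_lit 647) (nat_lit 625) (nat_lit 288)) (XT.lf (nat_lit 0) (nat_lit 804735858) (nat_lit 1900) (nat_lit 24563703966) (nat_lit 1976) (nat_lit 15812300942) (nat_lit 457) (nat_lit 5) (nat_lit 482) (nat_lit 5) (nat_lit 483) (nat_lit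 5) (nat_lit 648) (nat_lit 625) (nat_lit 287)))))) (XT.nd (nat_lit 390) (nat_lit 912) (nat_lit 0) (XT.nd (nat_lit 156) (nat_lit 1900) (nat_lit 0) (XT.nd (nat_lit 78) (nat_lit 0) (nat_lit 76) (XT.lf (nat_lit 0) (nat_lit 3912353099) (nat_lit 1900) (nat_lit 2672744926) (nat_lit 1976) (nat_lit 35037684990) (nat_lit 457) (nat_lit 5) (nat_lit 482) (nat_lit 5) (nat_lit 483) (nat_lit 5) (nat_lit 649) (nat_lit 625) (nat_lit 286)) (XT.lf (nat_lit 0) (nat_lit 7292853416) (nat_lit 1900) (nat_lit 22237269800) (nat_lit 76) (nat_lit 12539328339) (nat_lit 458) (nat_lit 5) (nat_lit 483) (nat_lit 5) (nat_lit 459) (nat_lit 5) (nat_lit 650) (nat_lit 625) (nat_lit 285))) (XT.nd (nat_lit 78) (nat_lit 912) (nat_lit 0) (XT.lf (nat_lit 0) (nat_lit 257461422) (nat_lit 1064) (nat_lit 10545779481) (nat_lit 1140) (nat_lit 31720567080) (nat_lit 444) (nat_lit 5) (nat_lit 458) (nat_lit 5) (nat_lit 459) (nat_lit 5) (nat_lit 651) (nat_lit 625) (nat_lit 284)) (XT.nd (nat_lit 78) (nat_lit 912) (nat_lit 0) (XT.lf (nat_lit 0) (nat_lit 14590258985)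 (nat_lit 1140) (nat_lit 19539934048) (nat_lit 76) (nat_lit 8852930108) (nat_lit 444) (nat_lit 5) (nat_lit 459) (nat_lit 5) (nat_lit 445) (nat_lit 5) (nat_lit 652) (nat_lit 625) (nat_lit 283)) (XT.lf (nat_lit 0) (nat_lit 3617688132) (nat_lit 912) (nat_lit 14927634669) (nat_lit 988) (nat_lit 24904455753) (nat_lit 432) (nat_lit 5) (nat_lit 444) (nat_lit 5) (nat_lit 445) (nat_lit 5) (nat_lit 653) (nat_lit 625) (nat_lit 282))))) (XT.nd (nat_lit 79014) (nat_lit 0) (nat_lit 3876) (XT.nd (nat_lit 78) (nat_lit 912) (nat_lit 0) (XT.lf (nat_lit 0) (nat_lit 22740720658) (nat_lit 988) (nat_lit 16451870757) (nat_lit 76) (nat_lit 4729951063) (nat_lit 432) (nat_lit 5) (nat_lit 445) (nat_lit 5) (nat_lit 433) (nat_lit 5) (nat_lit 654) (nat_lit 625) (nat_lit 281)) (XT.lf (nat_lit 0) (nat_lit 7393135200) (nat_lit 912) (nat_lit 19772762683) (nat_lit 988) (nat_lit 17235946423) (nat_lit 420) (nat_lit 5) (nat_lit 432) (nat_lit 5) (nat_lit 433) (nat_lit 5) (nat_lit 655) (nat_lit 625) (nat_lit 280))) (XT.nd (nat_lit 78) (nat_lit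 0) (nat_lit 0) (XT.lf (nat_lit 0) (nat_lit 2318609465) (nat_lit 1900) (nat_lit 7133950523) (nat_lit 1900) (nat_lit 7133950523) (nat_lit 471) (nat_lit 3) (nat_lit 496) (nat_lit 3) (nat_lit 496) (nat_lit 5) (nat_lit 626) (nat_lit 626) (nat_lit 308)) (XT.nd (nat_lit 78) (nat_lit 0) (nat_lit 76) (XT.lf (nat_lit 76) (nat_lit 2214267947) (nat_lit 0) (nat_lit 2543628687) (nat_lit 1900) (nat_lit 28745364853) (nat_lit 472) (nat_lit 5) (nat_lit 471) (nat_lit 3) (nat_lit 496) (nat_lit 5) (nat_lit 627) (nat_lit 626) (nat_lit 307)) (XT.lf (nat_lit 0) (nat_lit 5067634146) (nat_lit 1824) (nat_lit 14712028790) (nat_lit 1900) (nat_lit 14056710996) (nat_lit 472) (nat_lit 5) (nat_lit 496) (nat_lit 5) (nat_lit 497) (nat_lit 5) (nat_lit 628) (nat_lit 626) (nat_lit 306))))))) (XT.nd (nat_lit 780) (nat_lit 0) (nat_lit 380) (XT.nd (nat_lit 390) (nat_lit 0) (nat_lit 228) (XT.nd (nat_lit 156) (nat_lit 0) (nat_lit 76) (XT.nd (nat_lit 78) (nat_lit 0) (nat_lit 76) (XT.lf (nat_lit 76) (nat_lit 2207752745) (nat_lit 0) (nat_lit 3205451640)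 (nat_lit 1900) (nat_lit 28762351574) (nat_lit 473) (nat_lit 5) (nat_lit 472) (nat_lit 5) (nat_lit 497) (nat_lit 5) (nat_lit 629) (nat_lit 626) (nat_lit 305)) (XT.lf (nat_lit 0) (nat_lit 5952504263) (nat_lit 1824) (nat_lit 14944658452) (nat_lit 1900) (nat_lit 13620622640) (nat_lit 473) (nat_lit 5) (nat_lit 497) (nat_lit 5) (nat_lit 498) (nat_lit 5) (nat_lit 630) (nat_lit 626) (nat_lit 304))) (XT.nd (nat_lit 78) (nat_lit 0) (nat_lit 76) (XT.lf (nat_lit 76) (nat_lit 2428729383) (nat_lit 0) (nat_lit 4109375376) (nat_lit 1900) (nat_lit 28328044377) (nat_lit 474) (nat_lit 5) (nat_lit 473) (nat_lit 5) (nat_lit 498) (nat_lit 5) (nat_lit 631) (nat_lit 626) (nat_lit 303)) (XT.nd (nat_lit 78) (nat_lit 0) (nat_lit 0) (XT.lf (nat_lit 0) (nat_lit 7319409730) (nat_lit 1824) (nat_lit 14953344083) (nat_lit 1900) (nat_lit 12945046617) (nat_lit 474) (nat_lit 5) (nat_lit 498) (nat_lit 5) (nat_lit 499) (nat_lit 5) (nat_lit 632) (nat_lit 626) (nat_lit 302)) (XT.lf (nat_lit 76) (nat_lit 2890249326) (nat_lit 0) (nat_lit 5270645006)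 (nat_lit 1900) (nat_lit 27414699435) (nat_lit 475) (nat_lit 5) (nat_lit 474) (nat_lit 5) (nat_lit 499) (nat_lit 5) (nat_lit 633) (nat_lit 626) (nat_lit 301))))) (XT.nd (nat_lit 156) (nat_lit 0) (nat_lit 76) (XT.nd (nat_lit 78) (nat_lit 0) (nat_lit 0) (XT.lf (nat_lit 0) (nat_lit 9197193949) (nat_lit 1824) (nat_lit 14725047351) (nat_lit 1900) (nat_lit 12014742048) (nat_lit 475) (nat_lit 5) (nat_lit 499) (nat_lit 5) (nat_lit 500) (nat_lit 5) (nat_lit 634) (nat_lit 626) (nat_lit 300)) (XT.lf (nat_lit 76) (nat_lit 3605979466) (nat_lit 0) (nat_lit 6705184647) (nat_lit 1900) (nat_lit 25993297801) (nat_lit 476) (nat_lit 5) (nat_lit 475) (nat_lit 5) (nat_lit 500) (nat_lit 5) (nat_lit 635) (nat_lit 626) (nat_lit 299))) (XT.nd (nat_lit 78) (nat_lit 0) (nat_lit 0) (XT.lf (nat_lit 0) (nat_lit 11616018376) (nat_lit 1824) (nat_lit 14246114181) (nat_lit 1900) (nat_lit 10813785480) (nat_lit 476) (nat_lit 5) (nat_lit 500) (nat_lit 5) (nat_lit 501) (nat_lit 5) (nat_lit 636) (nat_lit 626) (nat_lit 298)) (XT.nd (nat_lit 78)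 (nat_lit 0) (nat_lit 76) (XT.lf (nat_lit 76) (nat_lit 4590226356) (nat_lit 0) (nat_lit 8429629547) (nat_lit 1900) (nat_lit 24033489736) (nat_lit 477) (nat_lit 5) (nat_lit 476) (nat_lit 5) (nat_lit 501) (nat_lit 5) (nat_lit 637) (nat_lit 626) (nat_lit 297)) (XT.lf (nat_lit 0) (nat_lit 14607419819) (nat_lit 1824) (nat_lit 13502250428) (nat_lit 1900) (nat_lit 9325538633) (nat_lit 477) (nat_lit 5) (nat_lit 501) (nat_lit 5) (nat_lit 502) (nat_lit 5) (nat_lit 638) (nat_lit 626) (nat_lit 296)))))) (XT.nd (nat_lit 390) (nat_lit 0) (nat_lit 228) (XT.nd (nat_lit 156) (nat_lit 0) (nat_lit 76) (XT.nd (nat_lit 78) (nat_lit 0) (nat_lit 76) (XT.lf (nat_lit 76) (nat_lit 5857961459) (nat_lit 0) (nat_lit 10461359464) (nat_lit 1900) (nat_lit 21503536821) (nat_lit 478) (nat_lit 5) (nat_lit 477) (nat_lit 5) (nat_lit 502) (nat_lit 5) (nat_lit 639) (nat_lit 626) (nat_lit 295)) (XT.lf (nat_lit 0) (nat_lit 18204370018) (nat_lit 1824) (nat_lit 12478496559) (nat_lit 1900) (nat_lit 7532614883) (nat_lit 478) (nat_lit 5) (nat_lit 502)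 (nat_lit 5) (nat_lit 503) (nat_lit 5) (nat_lit 640) (nat_lit 626) (nat_lit 294))) (XT.nd (nat_lit 78) (nat_lit 0) (nat_lit 76) (XT.lf (nat_lit 76) (nat_lit 7424847406) (nat_lit 0) (nat_lit 12818533357) (nat_lit 1900) (nat_lit 18370251748) (nat_lit 479) (nat_lit 5) (nat_lit 478) (nat_lit 5) (nat_lit 503) (nat_lit 5) (nat_lit 641) (nat_lit 626) (nat_lit 293)) (XT.nd (nat_lit 78) (nat_lit 0) (nat_lit 0) (XT.lf (nat_lit 0) (nat_lit 22441337614) (nat_lit 1824) (nat_lit 11159201299) (nat_lit 1900) (nat_lit 5416844424) (nat_lit 479) (nat_lit 5) (nat_lit 503) (nat_lit 5) (nat_lit 504) (nat_lit 5) (nat_lit 642) (nat_lit 626) (nat_lit 292)) (XT.lf (nat_lit 76) (nat_lit 9307265336) (nat_lit 0) (nat_lit 15520125450) (nat_lit 1900) (nat_lit 14598935722) (nat_lit 480) (nat_lit 5) (nat_lit 479) (nat_lit 5) (nat_lit 504) (nat_lit 5) (nat_lit 643) (nat_lit 626) (nat_lit 291))))) (XT.nd (nat_lit 156) (nat_lit 0) (nat_lit 76) (XT.nd (nat_lit 78) (nat_lit 0) (nat_lit 0) (XT.lf (nat_lit 0) (nat_lit 27354352586) (nat_lit 1824)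 (nat_lit 9527994228) (nat_lit 1900) (nat_lit 2959238045) (nat_lit 480) (nat_lit 5) (nat_lit 504) (nat_lit 5) (nat_lit 505) (nat_lit 5) (nat_lit 644) (nat_lit 626) (nat_lit 290)) (XT.lf (nat_lit 76) (nat_lit 11522343319) (nat_lit 0) (nat_lit 18585962739) (nat_lit 1900) (nat_lit 10153313340) (nat_lit 481) (nat_lit 5) (nat_lit 480) (nat_lit 5) (nat_lit 505) (nat_lit 5) (nat_lit 645) (nat_lit 626) (nat_lit 289))) (XT.nd (nat_lit 78) (nat_lit 0) (nat_lit 0) (XT.lf (nat_lit 0) (nat_lit 32981073276) (nat_lit 1824) (nat_lit 7567757270) (nat_lit 1900) (nat_lit 139949453) (nat_lit 481) (nat_lit 5) (nat_lit 505) (nat_lit 5) (nat_lit 506) (nat_lit 5) (nat_lit 646) (nat_lit 626) (nat_lit 288)) (XT.nd (nat_lit 78) (nat_lit 0) (nat_lit 0) (XT.lf (nat_lit 76) (nat_lit 14087985919) (nat_lit 0) (nat_lit 22036764004) (nat_lit 1900) (nat_lit 4995464875) (nat_lit 482) (nat_lit 5) (nat_lit 481) (nat_lit 5) (nat_lit 506) (nat_lit 5) (nat_lit 647) (nat_lit 626) (nat_lit 287)) (XT.lf (nat_lit 76) (nat_lit 36278546129) (nat_lit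 0) (nat_lit 3102453153) (nat_lit 1900) (nat_lit 2178285090) (nat_lit 482) (nat_lit 5) (nat_lit 481) (nat_lit 5) (nat_lit 506) (nat_lit 5) (nat_lit 648) (nat_lit 626) (nat_lit 286))))))))
noncomputable def xc249 : XT := (XT.nd (nat_lit 80496) (nat_lit 0) (nat_lit 912) (XT.nd (nat_lit 79716) (nat_lit 0) (nat_lit 3040) (XT.nd (nat_lit 390) (nat_lit 912) (nat_lit 0) (XT.nd (nat_lit 156) (nat_lit 988) (nat_lit 0) (XT.nd (nat_lit 78) (nat_lit 0) (nat_lit 0) (XT.lf (nat_lit 0) (nat_lit 902253683) (nat_lit 1900) (nat_lit 24985872122) (nat_lit 1976) (nat_lit 16114596643) (nat_lit 457) (nat_lit 5) (nat_lit 482) (nat_lit 5) (nat_lit 483) (nat_lit 5) (nat_lit 649) (nat_lit 626) (nat_lit 285)) (XT.lf (nat_lit 0) (nat_lit 4070426737) (nat_lit 1900) (nat_lit 2658448919) (nat_lit 1976) (nat_lit 35724761907) (nat_lit 457) (nat_lit 5) (nat_lit 482) (nat_lit 5) (nat_lit 483) (nat_lit 5) (nat_lit 650) (nat_lit 626) (nat_lit 284))) (XT.nd (nat_lit 78) (nat_lit 1064) (nat_lit 0) (XT.lf (nat_lit 0) (nat_lit 7517334851) (nat_lit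 1900) (nat_lit 22613057592) (nat_lit 76) (nat_lit 12778871166) (nat_lit 458) (nat_lit 5) (nat_lit 483) (nat_lit 5) (nat_lit 459) (nat_lit 5) (nat_lit 651) (nat_lit 626) (nat_lit 283)) (XT.nd (nat_lit 78) (nat_lit 0) (nat_lit 0) (XT.lf (nat_lit 0) (nat_lit 331114586) (nat_lit 1064) (nat_lit 10765718621) (nat_lit 1140) (nat_lit 32275895984) (nat_lit 444) (nat_lit 5) (nat_lit 458) (nat_lit 5) (nat_lit 459) (nat_lit 5) (nat_lit 652) (nat_lit 626) (nat_lit 282)) (XT.lf (nat_lit 0) (nat_lit 14958014066) (nat_lit 1140) (nat_lit 19861990108) (nat_lit 76) (nat_lit 9021258117) (nat_lit 444) (nat_lit 5) (nat_lit 459) (nat_lit 5) (nat_lit 445) (nat_lit 5) (nat_lit 653) (nat_lit 626) (nat_lit 281))))) (XT.nd (nat_lit 79092) (nat_lit 0) (nat_lit 2964) (XT.nd (nat_lit 78) (nat_lit 0) (nat_lit 0) (XT.lf (nat_lit 0) (nat_lit 3758332262) (nat_lit 912) (nat_lit 15232801068) (nat_lit 988) (nat_lit 25326138482) (nat_lit 432) (nat_lit 5) (nat_lit 444) (nat_lit 5) (nat_lit 445) (nat_lit 5) (nat_lit 654) (nat_lit 626) (nat_lit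 280)) (XT.lf (nat_lit 0) (nat_lit 23268928338) (nat_lit 988) (nat_lit 16712441877) (nat_lit 76) (nat_lit 4818151098) (nat_lit 432) (nat_lit 5) (nat_lit 445) (nat_lit 5) (nat_lit 433) (nat_lit 5) (nat_lit 655) (nat_lit 626) (nat_lit 279))) (XT.nd (nat_lit 78) (nat_lit 0) (nat_lit 0) (XT.lf (nat_lit 0) (nat_lit 2424521574) (nat_lit 1900) (nat_lit 7246262368) (nat_lit 1900) (nat_lit 7246262368) (nat_lit 471) (nat_lit 3) (nat_lit 496) (nat_lit 3) (nat_lit 496) (nat_lit 5) (nat_lit 627) (nat_lit 627) (nat_lit 306)) (XT.nd (nat_lit 78) (nat_lit 0) (nat_lit 76) (XT.lf (nat_lit 76) (nat_lit 2318888067) (nat_lit 0) (nat_lit 2651303174) (nat_lit 1900) (nat_lit 29200785661) (nat_lit 472) (nat_lit 5) (nat_lit 471) (nat_lit 3) (nat_lit 496) (nat_lit 5) (nat_lit 628) (nat_lit 627) (nat_lit 305)) (XT.lf (nat_lit 0) (nat_lit 5283465142) (nat_lit 1824) (nat_lit 14944452335) (nat_lit 1900) (nat_lit 14282887426) (nat_lit 472) (nat_lit 5) (nat_lit 496) (nat_lit 5) (nat_lit 497) (nat_lit 5) (nat_lit 629) (nat_lit 627) (nat_lit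 304)))))) (XT.nd (nat_lit 390) (nat_lit 0) (nat_lit 228) (XT.nd (nat_lit 156) (nat_lit 0) (nat_lit 76) (XT.nd (nat_lit 78) (nat_lit 0) (nat_lit 76) (XT.lf (nat_lit 76) (nat_lit 2313318140) (nat_lit 0) (nat_lit 3320782690) (nat_lit 1900) (nat_lit 29222706796) (nat_lit 473) (nat_lit 5) (nat_lit 472) (nat_lit 5) (nat_lit 497) (nat_lit 5) (nat_lit 630) (nat_lit 627) (nat_lit 303)) (XT.lf (nat_lit 0) (nat_lit 6181652181) (nat_lit 1824) (nat_lit 15180804210) (nat_lit 1900) (nat_lit 13843476042) (nat_lit 473) (nat_lit 5) (nat_lit 497) (nat_lit 5) (nat_lit 498) (nat_lit 5) (nat_lit 631) (nat_lit 627) (nat_lit 302))) (XT.nd (nat_lit 78) (nat_lit 0) (nat_lit 76) (XT.lf (nat_lit 76) (nat_lit 2539638569) (nat_lit 0) (nat_lit 4237572053) (nat_lit 1900) (nat_lit 28784088079) (nat_lit 474) (nat_lit 5) (nat_lit 473) (nat_lit 5) (nat_lit 498) (nat_lit 5) (nat_lit 632) (nat_lit 627) (nat_lit 301)) (XT.nd (nat_lit 78) (nat_lit 0) (nat_lit 0) (XT.lf (nat_lit 0) (nat_lit 7571724442) (nat_lit 1824) (nat_lit 15188874947) (nat_lit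 1900) (nat_lit 13159432106) (nat_lit 474) (nat_lit 5) (nat_lit 498) (nat_lit 5) (nat_lit 499) (nat_lit 5) (nat_lit 633) (nat_lit 627) (nat_lit 300)) (XT.lf (nat_lit 76) (nat_lit 3011172330) (nat_lit 0) (nat_lit 5417199219) (nat_lit 1900) (nat_lit 27856642619) (nat_lit 475) (nat_lit 5) (nat_lit 474) (nat_lit 5) (nat_lit 499) (nat_lit 5) (nat_lit 634) (nat_lit 627) (nat_lit 299))))) (XT.nd (nat_lit 156) (nat_lit 0) (nat_lit 76) (XT.nd (nat_lit 78) (nat_lit 0) (nat_lit 0) (XT.lf (nat_lit 0) (nat_lit 9483090979) (nat_lit 1824) (nat_lit 14955355546) (nat_lit 1900) (nat_lit 12215231264) (nat_lit 475) (nat_lit 5) (nat_lit 499) (nat_lit 5) (nat_lit 500) (nat_lit 5) (nat_lit 635) (nat_lit 627) (nat_lit 298)) (XT.lf (nat_lit 76) (nat_lit 3741869487) (nat_lit 0) (nat_lit 6875886018) (nat_lit 1900) (nat_lit 26410782242) (nat_lit 476) (nat_lit 5) (nat_lit 475) (nat_lit 5) (nat_lit 500) (nat_lit 5) (nat_lit 636) (nat_lit 627) (nat_lit 297))) (XT.nd (nat_lit 78) (nat_lit 0) (nat_lit 0) (XT.lf (nat_lit 0) (nat_lit 11946505894)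 (nat_lit 1824) (nat_lit 14466309550) (nat_lit 1900) (nat_lit 10994651687) (nat_lit 476) (nat_lit 5) (nat_lit 500) (nat_lit 5) (nat_lit 501) (nat_lit 5) (nat_lit 637) (nat_lit 627) (nat_lit 296)) (XT.nd (nat_lit 78) (nat_lit 0) (nat_lit 76) (XT.lf (nat_lit 76) (nat_lit 4746331963) (nat_lit 0) (nat_lit 8630580847) (nat_lit 1900) (nat_lit 24415560738) (nat_lit 477) (nat_lit 5) (nat_lit 476) (nat_lit 5) (nat_lit 501) (nat_lit 5) (nat_lit 638) (nat_lit 627) (nat_lit 295)) (XT.lf (nat_lit 0) (nat_lit 14994126740) (nat_lit 1824) (nat_lit 13707148204) (nat_lit 1900) (nat_lit 9480741249) (nat_lit 477) (nat_lit 5) (nat_lit 501) (nat_lit 5) (nat_lit 502) (nat_lit 5) (nat_lit 639) (nat_lit 627) (nat_lit 294))))))) (XT.nd (nat_lit 780) (nat_lit 2508) (nat_lit 0) (XT.nd (nat_lit 390) (nat_lit 0) (nat_lit 228) (XT.nd (nat_lit 156) (nat_lit 0) (nat_lit 76) (XT.nd (nat_lit 78) (nat_lit 0) (nat_lit 76) (XT.lf (nat_lit 76) (nat_lit 6039839321) (nat_lit 0) (nat_lit 10698992652) (nat_lit 1900) (nat_lit 21838614850) (nat_lit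 478) (nat_lit 5) (nat_lit 477) (nat_lit 5) (nat_lit 502) (nat_lit 5) (nat_lit 640) (nat_lit 627) (nat_lit 293)) (XT.lf (nat_lit 0) (nat_lit 18659575263) (nat_lit 1824) (nat_lit 12662604589) (nat_lit 1900) (nat_lit 7655783407) (nat_lit 478) (nat_lit 5) (nat_lit 502) (nat_lit 5) (nat_lit 503) (nat_lit 5) (nat_lit 641) (nat_lit 627) (nat_lit 292))) (XT.nd (nat_lit 78) (nat_lit 0) (nat_lit 76) (XT.lf (nat_lit 76) (nat_lit 7638375585) (nat_lit 0) (nat_lit 13099626239) (nat_lit 1900) (nat_lit 18646102902) (nat_lit 479) (nat_lit 5) (nat_lit 478) (nat_lit 5) (nat_lit 503) (nat_lit 5) (nat_lit 642) (nat_lit 627) (nat_lit 291)) (XT.nd (nat_lit 78) (nat_lit 0) (nat_lit 0) (XT.lf (nat_lit 0) (nat_lit 22978000575) (nat_lit 1824) (nat_lit 11316706718) (nat_lit 1900) (nat_lit 5501261725) (nat_lit 479) (nat_lit 5) (nat_lit 503) (nat_lit 5) (nat_lit 504) (nat_lit 5) (nat_lit 643) (nat_lit 627) (nat_lit 290)) (XT.lf (nat_lit 76) (nat_lit 9558657153) (nat_lit 0) (nat_lit 15851819002) (nat_lit 1900) (nat_lit 14802640974) (nat_lit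 480) (nat_lit 5) (nat_lit 479) (nat_lit 5) (nat_lit 504) (nat_lit 5) (nat_lit 644) (nat_lit 627) (nat_lit 289))))) (XT.nd (nat_lit 156) (nat_lit 0) (nat_lit 76) (XT.nd (nat_lit 78) (nat_lit 0) (nat_lit 0) (XT.lf (nat_lit 0) (nat_lit 27986144852) (nat_lit 1824) (nat_lit 9652749549) (nat_lit 1900) (nat_lit 2997822994) (nat_lit 480) (nat_lit 5) (nat_lit 504) (nat_lit 5) (nat_lit 505) (nat_lit 5) (nat_lit 645) (nat_lit 627) (nat_lit 288)) (XT.lf (nat_lit 76) (nat_lit 11818161824) (nat_lit 0) (nat_lit 18975779118) (nat_lit 1900) (nat_lit 10271236510) (nat_lit 481) (nat_lit 5) (nat_lit 480) (nat_lit 5) (nat_lit 505) (nat_lit 5) (nat_lit 646) (nat_lit 627) (nat_lit 287))) (XT.nd (nat_lit 78) (nat_lit 0) (nat_lit 0) (XT.lf (nat_lit 0) (nat_lit 33722411668) (nat_lit 1824) (nat_lit 7653265877) (nat_lit 1900) (nat_lit 125238856) (nat_lit 481) (nat_lit 5) (nat_lit 505) (nat_lit 5) (nat_lit 506) (nat_lit 5) (nat_lit 647) (nat_lit 627) (nat_lit 286)) (XT.nd (nat_lit 78) (nat_lit 0) (nat_lit 0) (XT.lf (nat_lit 76) (nat_lit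 14435158975) (nat_lit 0) (nat_lit 22492625286) (nat_lit 1900) (nat_lit 5013219280) (nat_lit 482) (nat_lit 5) (nat_lit 481) (nat_lit 5) (nat_lit 506) (nat_lit 5) (nat_lit 648) (nat_lit 627) (nat_lit 285)) (XT.lf (nat_lit 76) (nat_lit 37068247775) (nat_lit 0) (nat_lit 3179331630) (nat_lit 1900) (nat_lit 2141306780) (nat_lit 482) (nat_lit 5) (nat_lit 481) (nat_lit 5) (nat_lit 506) (nat_lit 5) (nat_lit 649) (nat_lit 627) (nat_lit 284)))))) (XT.nd (nat_lit 79482) (nat_lit 0) (nat_lit 2052) (XT.nd (nat_lit 156) (nat_lit 988) (nat_lit 0) (XT.nd (nat_lit 78) (nat_lit 0) (nat_lit 0) (XT.lf (nat_lit 0) (nat_lit 998560106) (nat_lit 1900) (nat_lit 25419167109) (nat_lit 1976) (nat_lit 16423479966) (nat_lit 457) (nat_lit 5) (nat_lit 482) (nat_lit 5) (nat_lit 483) (nat_lit 5) (nat_lit 650) (nat_lit 627) (nat_lit 283)) (XT.lf (nat_lit 0) (nat_lit 4228562085) (nat_lit 1900) (nat_lit 2646497843) (nat_lit 1976) (nat_lit 36426111449) (nat_lit 457) (nat_lit 5) (nat_lit 482) (nat_lit 5) (nat_lit 483) (nat_lit 5) (nat_lit 651)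 (nat_lit 627) (nat_lit 282))) (XT.nd (nat_lit 78) (nat_lit 1064) (nat_lit 0) (XT.lf (nat_lit 0) (nat_lit 7743252835) (nat_lit 1900) (nat_lit 22999038847) (nat_lit 76) (nat_lit 13023641457) (nat_lit 458) (nat_lit 5) (nat_lit 483) (nat_lit 5) (nat_lit 459) (nat_lit 5) (nat_lit 652) (nat_lit 627) (nat_lit 281)) (XT.nd (nat_lit 78) (nat_lit 0) (nat_lit 0) (XT.lf (nat_lit 0) (nat_lit 403580722) (nat_lit 1064) (nat_lit 10989706148) (nat_lit 1140) (nat_lit 32845402334) (nat_lit 444) (nat_lit 5) (nat_lit 458) (nat_lit 5) (nat_lit 459) (nat_lit 5) (nat_lit 653) (nat_lit 627) (nat_lit 280)) (XT.lf (nat_lit 0) (nat_lit 15330175021) (nat_lit 1140) (nat_lit 20193156648) (nat_lit 76) (nat_lit 9193291706) (nat_lit 444) (nat_lit 5) (nat_lit 459) (nat_lit 5) (nat_lit 445) (nat_lit 5) (nat_lit 654) (nat_lit 627) (nat_lit 279))))) (XT.nd (nat_lit 234) (nat_lit 0) (nat_lit 76) (XT.nd (nat_lit 78) (nat_lit 0) (nat_lit 0) (XT.lf (nat_lit 0) (nat_lit 2530239918) (nat_lit 1900) (nat_lit 7361999645) (nat_lit 1900) (nat_lit 7361999645)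 (nat_lit 471) (nat_lit 3) (nat_lit 496) (nat_lit 3) (nat_lit 496) (nat_lit 5) (nat_lit 628) (nat_lit 628) (nat_lit 304)) (XT.nd (nat_lit 78) (nat_lit 0) (nat_lit 76) (XT.lf (nat_lit 76) (nat_lit 2423257718) (nat_lit 0) (nat_lit 2758925463) (nat_lit 1900) (nat_lit 29669954692) (nat_lit 472) (nat_lit 5) (nat_lit 471) (nat_lit 3) (nat_lit 496) (nat_lit 5) (nat_lit 629) (nat_lit 628) (nat_lit 303)) (XT.lf (nat_lit 0) (nat_lit 5499167425) (nat_lit 1824) (nat_lit 15183924782) (nat_lit 1900) (nat_lit 14515721462) (nat_lit 472) (nat_lit 5) (nat_lit 496) (nat_lit 5) (nat_lit 497) (nat_lit 5) (nat_lit 630) (nat_lit 628) (nat_lit 302)))) (XT.nd (nat_lit 78) (nat_lit 0) (nat_lit 76) (XT.lf (nat_lit 76) (nat_lit 2418610204) (nat_lit 0) (nat_lit 3436431348) (nat_lit 1900) (nat_lit 29696730512) (nat_lit 473) (nat_lit 5) (nat_lit 472) (nat_lit 5) (nat_lit 497) (nat_lit 5) (nat_lit 631) (nat_lit 628) (nat_lit 301)) (XT.nd (nat_lit 78) (nat_lit 0) (nat_lit 0) (XT.lf (nat_lit 0) (nat_lit 6411107824) (nat_lit 1824) (nat_lit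 15424109442) (nat_lit 1900) (nat_lit 14072710951) (nat_lit 473) (nat_lit 5) (nat_lit 497) (nat_lit 5) (nat_lit 498) (nat_lit 5) (nat_lit 632) (nat_lit 628) (nat_lit 300)) (XT.lf (nat_lit 76) (nat_lit 2650345411) (nat_lit 0) (nat_lit 4366546073) (nat_lit 1900) (nat_lit 29253544171) (nat_lit 474) (nat_lit 5) (nat_lit 473) (nat_lit 5) (nat_lit 498) (nat_lit 5) (nat_lit 633) (nat_lit 628) (nat_lit 299))))))))
noncomputable def xc250 : XT := (XT.nd (nat_lit 1560) (nat_lit 988) (nat_lit 0) (XT.nd (nat_lit 780) (nat_lit 1292) (nat_lit 0) (XT.nd (nat_lit 390) (nat_lit 0) (nat_lit 152) (XT.nd (nat_lit 156) (nat_lit 0) (nat_lit 76) (XT.nd (nat_lit 78) (nat_lit 0) (nat_lit 0) (XT.lf (nat_lit 0) (nat_lit 7824972192) (nat_lit 1824) (nat_lit 15431583610) (nat_lit 1900) (nat_lit 13379833895) (nat_lit 474) (nat_lit 5) (nat_lit 498) (nat_lit 5) (nat_lit 499) (nat_lit 5) (nat_lit 634) (nat_lit 628) (nat_lit 298)) (XT.lf (nat_lit 76) (nat_lit 3132062844) (nat_lit 0) (nat_lit 5565086950) (nat_lit 1900) (nat_lit 28311554399)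 (nat_lit 475) (nat_lit 5) (nat_lit 474) (nat_lit 5) (nat_lit 499) (nat_lit 5) (nat_lit 635) (nat_lit 628) (nat_lit 297))) (XT.nd (nat_lit 78) (nat_lit 0) (nat_lit 0) (XT.lf (nat_lit 0) (nat_lit 9770746984) (nat_lit 1824) (nat_lit 15192762587) (nat_lit 1900) (nat_lit 12421275965) (nat_lit 475) (nat_lit 5) (nat_lit 499) (nat_lit 5) (nat_lit 500) (nat_lit 5) (nat_lit 636) (nat_lit 628) (nat_lit 296)) (XT.nd (nat_lit 78) (nat_lit 0) (nat_lit 76) (XT.lf (nat_lit 76) (nat_lit 3878001024) (nat_lit 0) (nat_lit 7048580283) (nat_lit 1900) (nat_lit 26840591972) (nat_lit 476) (nat_lit 5) (nat_lit 475) (nat_lit 5) (nat_lit 500) (nat_lit 5) (nat_lit 637) (nat_lit 628) (nat_lit 295)) (XT.lf (nat_lit 0) (nat_lit 12279791212) (nat_lit 1824) (nat_lit 14693422251) (nat_lit 1900) (nat_lit 11180510212) (nat_lit 476) (nat_lit 5) (nat_lit 500) (nat_lit 5) (nat_lit 501) (nat_lit 5) (nat_lit 638) (nat_lit 628) (nat_lit 294))))) (XT.nd (nat_lit 156) (nat_lit 0) (nat_lit 76) (XT.nd (nat_lit 78) (nat_lit 0) (nat_lit 76) (XT.lf (nat_lit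 76) (nat_lit 4903062793) (nat_lit 0) (nat_lit 8834294645) (nat_lit 1900) (nat_lit 24809101871) (nat_lit 477) (nat_lit 5) (nat_lit 476) (nat_lit 5) (nat_lit 501) (nat_lit 5) (nat_lit 639) (nat_lit 628) (nat_lit 293)) (XT.lf (nat_lit 0) (nat_lit 15384895976) (nat_lit 1824) (nat_lit 13918673681) (nat_lit 1900) (nat_lit 9640263653) (nat_lit 477) (nat_lit 5) (nat_lit 501) (nat_lit 5) (nat_lit 502) (nat_lit 5) (nat_lit 640) (nat_lit 628) (nat_lit 292))) (XT.nd (nat_lit 78) (nat_lit 0) (nat_lit 76) (XT.lf (nat_lit 76) (nat_lit 6222841637) (nat_lit 0) (nat_lit 10940275464) (nat_lit 1900) (nat_lit 22184083122) (nat_lit 478) (nat_lit 5) (nat_lit 477) (nat_lit 5) (nat_lit 502) (nat_lit 5) (nat_lit 641) (nat_lit 628) (nat_lit 291)) (XT.nd (nat_lit 78) (nat_lit 0) (nat_lit 0) (XT.lf (nat_lit 0) (nat_lit 19120346396) (nat_lit 1824) (nat_lit 12852936745) (nat_lit 1900) (nat_lit 7782482530) (nat_lit 478) (nat_lit 5) (nat_lit 502) (nat_lit 5) (nat_lit 503) (nat_lit 5) (nat_lit 642) (nat_lit 628) (nat_lit 290)) (XT.lf (nat_lit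 76) (nat_lit 7853649085) (nat_lit 0) (nat_lit 13385380985) (nat_lit 1900) (nat_lit 18931026228) (nat_lit 479) (nat_lit 5) (nat_lit 478) (nat_lit 5) (nat_lit 503) (nat_lit 5) (nat_lit 643) (nat_lit 628) (nat_lit 289)))))) (XT.nd (nat_lit 390) (nat_lit 1672) (nat_lit 0) (XT.nd (nat_lit 156) (nat_lit 0) (nat_lit 76) (XT.nd (nat_lit 78) (nat_lit 0) (nat_lit 0) (XT.lf (nat_lit 0) (nat_lit 23521986009) (nat_lit 1824) (nat_lit 11479912626) (nat_lit 1900) (nat_lit 5588296199) (nat_lit 479) (nat_lit 5) (nat_lit 503) (nat_lit 5) (nat_lit 504) (nat_lit 5) (nat_lit 644) (nat_lit 628) (nat_lit 288)) (XT.lf (nat_lit 76) (nat_lit 9812543205) (nat_lit 0) (nat_lit 16189319668) (nat_lit 1900) (nat_lit 15013848097) (nat_lit 480) (nat_lit 5) (nat_lit 479) (nat_lit 5) (nat_lit 504) (nat_lit 5) (nat_lit 645) (nat_lit 628) (nat_lit 287))) (XT.nd (nat_lit 78) (nat_lit 0) (nat_lit 0) (XT.lf (nat_lit 0) (nat_lit 28627283756) (nat_lit 1824) (nat_lit 9782555248) (nat_lit 1900) (nat_lit 3037979559) (nat_lit 480) (nat_lit 5) (nat_lit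 504) (nat_lit 5) (nat_lit 505) (nat_lit 5) (nat_lit 646) (nat_lit 628) (nat_lit 286)) (XT.nd (nat_lit 78) (nat_lit 0) (nat_lit 76) (XT.lf (nat_lit 76) (nat_lit 12117358239) (nat_lit 0) (nat_lit 19372689092) (nat_lit 1900) (nat_lit 10394824355) (nat_lit 481) (nat_lit 5) (nat_lit 480) (nat_lit 5) (nat_lit 505) (nat_lit 5) (nat_lit 647) (nat_lit 628) (nat_lit 285)) (XT.lf (nat_lit 0) (nat_lit 34475403660) (nat_lit 1824) (nat_lit 7743041557) (nat_lit 1900) (nat_lit 110913965) (nat_lit 481) (nat_lit 5) (nat_lit 505) (nat_lit 5) (nat_lit 506) (nat_lit 5) (nat_lit 648) (nat_lit 628) (nat_lit 284))))) (XT.nd (nat_lit 156) (nat_lit 1824) (nat_lit 0) (XT.nd (nat_lit 78) (nat_lit 0) (nat_lit 0) (XT.lf (nat_lit 76) (nat_lit 14786735413) (nat_lit 0) (nat_lit 22957016433) (nat_lit 1900) (nat_lit 5034518948) (nat_lit 482) (nat_lit 5) (nat_lit 481) (nat_lit 5) (nat_lit 506) (nat_lit 5) (nat_lit 649) (nat_lit 628) (nat_lit 283)) (XT.lf (nat_lit 76) (nat_lit 37871253180) (nat_lit 0) (nat_lit 3257171832) (nat_lit 1900) (nat_lit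 2106716526) (nat_lit 482) (nat_lit 5) (nat_lit 481) (nat_lit 5) (nat_lit 506) (nat_lit 5) (nat_lit 650) (nat_lit 628) (nat_lit 282))) (XT.nd (nat_lit 78) (nat_lit 0) (nat_lit 0) (XT.lf (nat_lit 0) (nat_lit 1093753674) (nat_lit 1900) (nat_lit 25863707260) (nat_lit 1976) (nat_lit 16739061627) (nat_lit 457) (nat_lit 5) (nat_lit 482) (nat_lit 5) (nat_lit 483) (nat_lit 5) (nat_lit 651) (nat_lit 628) (nat_lit 281)) (XT.nd (nat_lit 78) (nat_lit 0) (nat_lit 76) (XT.lf (nat_lit 0) (nat_lit 4386880744) (nat_lit 1900) (nat_lit 2636836436) (nat_lit 1976) (nat_lit 37141998445) (nat_lit 457) (nat_lit 5) (nat_lit 482) (nat_lit 5) (nat_lit 483) (nat_lit 5) (nat_lit 652) (nat_lit 628) (nat_lit 280)) (XT.lf (nat_lit 0) (nat_lit 7970754654) (nat_lit 1900) (nat_lit 23395313457) (nat_lit 76) (nat_lit 13273726808) (nat_lit 458) (nat_lit 5) (nat_lit 483) (nat_lit 5) (nat_lit 459) (nat_lit 5) (nat_lit 653) (nat_lit 628) (nat_lit 279))))))) (XT.nd (nat_lit 79950) (nat_lit 0) (nat_lit 2356) (XT.nd (nat_lit 79560) (nat_lit 0) (nat_lit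 2204) (XT.nd (nat_lit 79326) (nat_lit 0) (nat_lit 2052) (XT.nd (nat_lit 79248) (nat_lit 0) (nat_lit 2052) (XT.lf (nat_lit 0) (nat_lit 474939384) (nat_lit 1064) (nat_lit 11217836636) (nat_lit 1140) (nat_lit 33429250432) (nat_lit 444) (nat_lit 5) (nat_lit 458) (nat_lit 5) (nat_lit 459) (nat_lit 5) (nat_lit 654) (nat_lit 628) (nat_lit 278)) (XT.lf (nat_lit 0) (nat_lit 2635850399) (nat_lit 1900) (nat_lit 7481185072) (nat_lit 1900) (nat_lit 7481185072) (nat_lit 471) (nat_lit 3) (nat_lit 496) (nat_lit 3) (nat_lit 496) (nat_lit 5) (nat_lit 629) (nat_lit 629) (nat_lit 302))) (XT.nd (nat_lit 78) (nat_lit 0) (nat_lit 76) (XT.lf (nat_lit 76) (nat_lit 2527462865) (nat_lit 0) (nat_lit 2866580160) (nat_lit 1900) (nat_lit 30152966740) (nat_lit 472) (nat_lit 5) (nat_lit 471) (nat_lit 3) (nat_lit 496) (nat_lit 5) (nat_lit 630) (nat_lit 629) (nat_lit 301)) (XT.nd (nat_lit 78) (nat_lit 0) (nat_lit 0) (XT.lf (nat_lit 0) (nat_lit 5714911039) (nat_lit 1824) (nat_lit 15430493897) (nat_lit 1900) (nat_lit 14755263388) (nat_lit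 472) (nat_lit 5) (nat_lit 496) (nat_lit 5) (nat_lit 497) (nat_lit 5) (nat_lit 631) (nat_lit 629) (nat_lit 300)) (XT.lf (nat_lit 76) (nat_lit 2523716069) (nat_lit 0) (nat_lit 3552481201) (nat_lit 1900) (nat_lit 30184522850) (nat_lit 473) (nat_lit 5) (nat_lit 472) (nat_lit 5) (nat_lit 497) (nat_lit 5) (nat_lit 632) (nat_lit 629) (nat_lit 299))))) (XT.nd (nat_lit 156) (nat_lit 0) (nat_lit 76) (XT.nd (nat_lit 78) (nat_lit 0) (nat_lit 0) (XT.lf (nat_lit 0) (nat_lit 6641043360) (nat_lit 1824) (nat_lit 15674622722) (nat_lit 1900) (nat_lit 14308380268) (nat_lit 473) (nat_lit 5) (nat_lit 497) (nat_lit 5) (nat_lit 498) (nat_lit 5) (nat_lit 633) (nat_lit 629) (nat_lit 298)) (XT.lf (nat_lit 76) (nat_lit 2760939854) (nat_lit 0) (nat_lit 4496382356) (nat_lit 1900) (nat_lit 29736514258) (nat_lit 474) (nat_lit 5) (nat_lit 473) (nat_lit 5) (nat_lit 498) (nat_lit 5) (nat_lit 634) (nat_lit 629) (nat_lit 297))) (XT.nd (nat_lit 78) (nat_lit 0) (nat_lit 0) (XT.lf (nat_lit 0) (nat_lit 8079331364) (nat_lit 1824) (nat_lit 15681517824)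 (nat_lit 1900) (nat_lit 13606305184) (nat_lit 474) (nat_lit 5) (nat_lit 498) (nat_lit 5) (nat_lit 499) (nat_lit 5) (nat_lit 635) (nat_lit 629) (nat_lit 296)) (XT.nd (nat_lit 78) (nat_lit 0) (nat_lit 76) (XT.lf (nat_lit 76) (nat_lit 3253015392) (nat_lit 0) (nat_lit 5714396903) (nat_lit 1900) (nat_lit 28779533783) (nat_lit 475) (nat_lit 5) (nat_lit 474) (nat_lit 5) (nat_lit 499) (nat_lit 5) (nat_lit 636) (nat_lit 629) (nat_lit 295)) (XT.lf (nat_lit 0) (nat_lit 10060350876) (nat_lit 1824) (nat_lit 15437313658) (nat_lit 1900) (nat_lit 12632927239) (nat_lit 475) (nat_lit 5) (nat_lit 499) (nat_lit 5) (nat_lit 500) (nat_lit 5) (nat_lit 637) (nat_lit 629) (nat_lit 294)))))) (XT.nd (nat_lit 390) (nat_lit 0) (nat_lit 228) (XT.nd (nat_lit 156) (nat_lit 0) (nat_lit 76) (XT.nd (nat_lit 78) (nat_lit 0) (nat_lit 76) (XT.lf (nat_lit 76) (nat_lit 4014475066) (nat_lit 0) (nat_lit 7223362486) (nat_lit 1900) (nat_lit 27282819118) (nat_lit 476) (nat_lit 5) (nat_lit 475) (nat_lit 5) (nat_lit 500) (nat_lit 5) (nat_lit 638) (nat_lit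 629) (nat_lit 293)) (XT.lf (nat_lit 0) (nat_lit 12616078308) (nat_lit 1824) (nat_lit 14927493032) (nat_lit 1900) (nat_lit 11371407510) (nat_lit 476) (nat_lit 5) (nat_lit 500) (nat_lit 5) (nat_lit 501) (nat_lit 5) (nat_lit 639) (nat_lit 629) (nat_lit 292))) (XT.nd (nat_lit 78) (nat_lit 0) (nat_lit 76) (XT.lf (nat_lit 76) (nat_lit 5060528308) (nat_lit 0) (nat_lit 9040874984) (nat_lit 1900) (nat_lit 25214193865) (nat_lit 477) (nat_lit 5) (nat_lit 476) (nat_lit 5) (nat_lit 501) (nat_lit 5) (nat_lit 640) (nat_lit 629) (nat_lit 291)) (XT.nd (nat_lit 78) (nat_lit 0) (nat_lit 0) (XT.lf (nat_lit 0) (nat_lit 15779951356) (nat_lit 1824) (nat_lit 14136861181) (nat_lit 1900) (nat_lit 9804145029) (nat_lit 477) (nat_lit 5) (nat_lit 501) (nat_lit 5) (nat_lit 502) (nat_lit 5) (nat_lit 641) (nat_lit 629) (nat_lit 290)) (XT.lf (nat_lit 76) (nat_lit 6407088483) (nat_lit 0) (nat_lit 11185323725) (nat_lit 1900) (nat_lit 22540006207) (nat_lit 478) (nat_lit 5) (nat_lit 477) (nat_lit 5) (nat_lit 502) (nat_lit 5) (nat_lit 642) (nat_lit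 629) (nat_lit 289))))) (XT.nd (nat_lit 234) (nat_lit 0) (nat_lit 76) (XT.nd (nat_lit 78) (nat_lit 0) (nat_lit 0) (XT.lf (nat_lit 0) (nat_lit 19586932128) (nat_lit 1824) (nat_lit 13049518802) (nat_lit 1900) (nat_lit 7912741422) (nat_lit 478) (nat_lit 5) (nat_lit 502) (nat_lit 5) (nat_lit 503) (nat_lit 5) (nat_lit 643) (nat_lit 629) (nat_lit 288)) (XT.nd (nat_lit 78) (nat_lit 0) (nat_lit 76) (XT.lf (nat_lit 76) (nat_lit 8070800872) (nat_lit 0) (nat_lit 13675928110) (nat_lit 1900) (nat_lit 19225065119) (nat_lit 479) (nat_lit 5) (nat_lit 478) (nat_lit 5) (nat_lit 503) (nat_lit 5) (nat_lit 644) (nat_lit 629) (nat_lit 287)) (XT.lf (nat_lit 0) (nat_lit 24073572809) (nat_lit 1824) (nat_lit 11648833999) (nat_lit 1900) (nat_lit 5677964122) (nat_lit 479) (nat_lit 5) (nat_lit 503) (nat_lit 5) (nat_lit 504) (nat_lit 5) (nat_lit 645) (nat_lit 629) (nat_lit 286)))) (XT.nd (nat_lit 78) (nat_lit 0) (nat_lit 76) (XT.lf (nat_lit 76) (nat_lit 10069071759) (nat_lit 0) (nat_lit 16532775695) (nat_lit 1900) (nat_lit 15232574024)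 (nat_lit 480) (nat_lit 5) (nat_lit 479) (nat_lit 5) (nat_lit 504) (nat_lit 5) (nat_lit 646) (nat_lit 629) (nat_lit 285)) (XT.nd (nat_lit 78) (nat_lit 0) (nat_lit 0) (XT.lf (nat_lit 0) (nat_lit 29278083956) (nat_lit 1824) (nat_lit 9917413108) (nat_lit 1900) (nat_lit 3079708109) (nat_lit 480) (nat_lit 5) (nat_lit 504) (nat_lit 5) (nat_lit 505) (nat_lit 5) (nat_lit 647) (nat_lit 629) (nat_lit 284)) (XT.lf (nat_lit 76) (nat_lit 12420098693) (nat_lit 0) (nat_lit 19776861820) (nat_lit 1900) (nat_lit 10524061782) (nat_lit 481) (nat_lit 5) (nat_lit 480) (nat_lit 5) (nat_lit 505) (nat_lit 5) (nat_lit 648) (nat_lit 629) (nat_lit 283))))))))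
noncomputable def xc251 : XT := (XT.nd (nat_lit 80808) (nat_lit 0) (nat_lit 0) (XT.nd (nat_lit 80028) (nat_lit 0) (nat_lit 1216) (XT.nd (nat_lit 390) (nat_lit 0) (nat_lit 76) (XT.nd (nat_lit 156) (nat_lit 1824) (nat_lit 0) (XT.nd (nat_lit 78) (nat_lit 0) (nat_lit 0) (XT.lf (nat_lit 0) (nat_lit 35240405542) (nat_lit 1824) (nat_lit 7837070364) (nat_lit 1900) (nat_lit 96956094) (nat_lit 481) (nat_lit 5) (nat_lit 505) (nat_lit 5) (nat_lit 506) (nat_lit 5) (nat_lit 649) (nat_lit 629) (nat_lit 282)) (XT.lf (nat_lit 76) (nat_lit 15142901934) (nat_lit 0) (nat_lit 23430130850) (nat_lit 1900) (nat_lit 5059310906) (nat_lit 482) (nat_lit 5) (nat_lit 481) (nat_lit 5) (nat_lit 506) (nat_lit 5) (nat_lit 650) (nat_lit 629) (nat_lit 281))) (XT.nd (nat_lit 78) (nat_lit 1824) (nat_lit 0) (XT.lf (nat_lit 76) (nat_lit 38687925119) (nat_lit 0) (nat_lit 3336015355) (nat_lit 1900) (nat_lit 2074440639) (nat_lit 482) (nat_lit 5) (nat_lit 481) (nat_lit 5) (nat_lit 506) (nat_lit 5) (nat_lit 651) (nat_lit 629) (nat_lit 280)) (XT.nd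 (nat_lit 78) (nat_lit 0) (nat_lit 0) (XT.lf (nat_lit 0) (nat_lit 1187930137) (nat_lit 1900) (nat_lit 26319617323) (nat_lit 1976) (nat_lit 17061455377) (nat_lit 457) (nat_lit 5) (nat_lit 482) (nat_lit 5) (nat_lit 483) (nat_lit 5) (nat_lit 652) (nat_lit 629) (nat_lit 279)) (XT.lf (nat_lit 0) (nat_lit 4545502074) (nat_lit 1900) (nat_lit 2629412300) (nat_lit 1976) (nat_lit 37872693822) (nat_lit 457) (nat_lit 5) (nat_lit 482) (nat_lit 5) (nat_lit 483) (nat_lit 5) (nat_lit 653) (nat_lit 629) (nat_lit 278))))) (XT.nd (nat_lit 79404) (nat_lit 0) (nat_lit 988) (XT.nd (nat_lit 79326) (nat_lit 0) (nat_lit 988) (XT.lf (nat_lit 0) (nat_lit 8199985935) (nat_lit 1900) (nat_lit 23801987347) (nat_lit 76) (nat_lit 13529217224) (nat_lit 458) (nat_lit 5) (nat_lit 483) (nat_lit 5) (nat_lit 459) (nat_lit 5) (nat_lit 654) (nat_lit 629) (nat_lit 277)) (XT.lf (nat_lit 0) (nat_lit 2741437152) (nat_lit 1900) (nat_lit 7603843600) (nat_lit 1900) (nat_lit 7603843600) (nat_lit 471) (nat_lit 3) (nat_lit 496) (nat_lit 3) (nat_lit 496)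 (nat_lit 5) (nat_lit 630) (nat_lit 630) (nat_lit 300))) (XT.nd (nat_lit 78) (nat_lit 0) (nat_lit 76) (XT.lf (nat_lit 76) (nat_lit 2631587664) (nat_lit 0) (nat_lit 2974350237) (nat_lit 1900) (nat_lit 30649925492) (nat_lit 472) (nat_lit 5) (nat_lit 471) (nat_lit 3) (nat_lit 496) (nat_lit 5) (nat_lit 631) (nat_lit 630) (nat_lit 299)) (XT.nd (nat_lit 78) (nat_lit 0) (nat_lit 0) (XT.lf (nat_lit 0) (nat_lit 5930862725) (nat_lit 1824) (nat_lit 15684212021) (nat_lit 1900) (nat_lit 15001567711) (nat_lit 472) (nat_lit 5) (nat_lit 496) (nat_lit 5) (nat_lit 497) (nat_lit 5) (nat_lit 632) (nat_lit 630) (nat_lit 298)) (XT.lf (nat_lit 76) (nat_lit 2628721014) (nat_lit 0) (nat_lit 3669014511) (nat_lit 1900) (nat_lit 30686192668) (nat_lit 473) (nat_lit 5) (nat_lit 472) (nat_lit 5) (nat_lit 497) (nat_lit 5) (nat_lit 633) (nat_lit 630) (nat_lit 297)))))) (XT.nd (nat_lit 390) (nat_lit 0) (nat_lit 152) (XT.nd (nat_lit 156) (nat_lit 0) (nat_lit 76) (XT.nd (nat_lit 78) (nat_lit 0) (nat_lit 0) (XT.lf (nat_lit 0) (nat_lit 6871627952)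 (nat_lit 1824) (nat_lit 15932397271) (nat_lit 1900) (nat_lit 14550540855) (nat_lit 473) (nat_lit 5) (nat_lit 497) (nat_lit 5) (nat_lit 498) (nat_lit 5) (nat_lit 634) (nat_lit 630) (nat_lit 296)) (XT.lf (nat_lit 76) (nat_lit 2871509991) (nat_lit 0) (nat_lit 4627164829) (nat_lit 1900) (nat_lit 30233108445) (nat_lit 474) (nat_lit 5) (nat_lit 473) (nat_lit 5) (nat_lit 498) (nat_lit 5) (nat_lit 635) (nat_lit 630) (nat_lit 295))) (XT.nd (nat_lit 78) (nat_lit 0) (nat_lit 0) (XT.lf (nat_lit 0) (nat_lit 8334977707) (nat_lit 1824) (nat_lit 15938730015) (nat_lit 1900) (nat_lit 13838902849) (nat_lit 474) (nat_lit 5) (nat_lit 498) (nat_lit 5) (nat_lit 499) (nat_lit 5) (nat_lit 636) (nat_lit 630) (nat_lit 294)) (XT.nd (nat_lit 78) (nat_lit 0) (nat_lit 76) (XT.lf (nat_lit 76) (nat_lit 3374122693) (nat_lit 0) (nat_lit 5865217150) (nat_lit 1900) (nat_lit 29260687988) (nat_lit 475) (nat_lit 5) (nat_lit 474) (nat_lit 5) (nat_lit 499) (nat_lit 5) (nat_lit 637) (nat_lit 630) (nat_lit 293)) (XT.lf (nat_lit 0) (nat_lit 10352089374)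 (nat_lit 1824) (nat_lit 15689058604) (nat_lit 1900) (nat_lit 12850239528) (nat_lit 475) (nat_lit 5) (nat_lit 499) (nat_lit 5) (nat_lit 500) (nat_lit 5) (nat_lit 638) (nat_lit 630) (nat_lit 292))))) (XT.nd (nat_lit 156) (nat_lit 0) (nat_lit 76) (XT.nd (nat_lit 78) (nat_lit 0) (nat_lit 76) (XT.lf (nat_lit 76) (nat_lit 4151390886) (nat_lit 0) (nat_lit 7400327426) (nat_lit 1900) (nat_lit 27737563645) (nat_lit 476) (nat_lit 5) (nat_lit 475) (nat_lit 5) (nat_lit 500) (nat_lit 5) (nat_lit 639) (nat_lit 630) (nat_lit 291)) (XT.lf (nat_lit 0) (nat_lit 12955569494) (nat_lit 1824) (nat_lit 15168567245) (nat_lit 1900) (nat_lit 11567393035) (nat_lit 476) (nat_lit 5) (nat_lit 500) (nat_lit 5) (nat_lit 501) (nat_lit 5) (nat_lit 640) (nat_lit 630) (nat_lit 290))) (XT.nd (nat_lit 78) (nat_lit 0) (nat_lit 76) (XT.lf (nat_lit 76) (nat_lit 5218836392) (nat_lit 0) (nat_lit 9250426091) (nat_lit 1900) (nat_lit 25630924835) (nat_lit 477) (nat_lit 5) (nat_lit 476) (nat_lit 5) (nat_lit 501) (nat_lit 5) (nat_lit 641) (nat_lit 630)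 (nat_lit 289)) (XT.nd (nat_lit 78) (nat_lit 0) (nat_lit 0) (XT.lf (nat_lit 0) (nat_lit 16179515646) (nat_lit 1824) (nat_lit 14361749525) (nat_lit 1900) (nat_lit 9972427183) (nat_lit 477) (nat_lit 5) (nat_lit 501) (nat_lit 5) (nat_lit 502) (nat_lit 5) (nat_lit 642) (nat_lit 630) (nat_lit 288)) (XT.lf (nat_lit 76) (nat_lit 6592698547) (nat_lit 0) (nat_lit 11434253914) (nat_lit 1900) (nat_lit 22906455525) (nat_lit 478) (nat_lit 5) (nat_lit 477) (nat_lit 5) (nat_lit 502) (nat_lit 5) (nat_lit 643) (nat_lit 630) (nat_lit 287))))))) (XT.nd (nat_lit 80184) (nat_lit 0) (nat_lit 1064) (XT.nd (nat_lit 390) (nat_lit 1596) (nat_lit 0) (XT.nd (nat_lit 156) (nat_lit 0) (nat_lit 76) (XT.nd (nat_lit 78) (nat_lit 0) (nat_lit 0) (XT.lf (nat_lit 0) (nat_lit 20059580809) (nat_lit 1824) (nat_lit 13252380883) (nat_lit 1900) (nat_lit 8046591446) (nat_lit 478) (nat_lit 5) (nat_lit 502) (nat_lit 5) (nat_lit 503) (nat_lit 5) (nat_lit 644) (nat_lit 630) (nat_lit 286)) (XT.lf (nat_lit 76) (nat_lit 8289962761) (nat_lit 0) (nat_lit 13971399292)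 (nat_lit 1900) (nat_lit 19528269195) (nat_lit 479) (nat_lit 5) (nat_lit 478) (nat_lit 5) (nat_lit 503) (nat_lit 5) (nat_lit 645) (nat_lit 630) (nat_lit 285))) (XT.nd (nat_lit 78) (nat_lit 0) (nat_lit 0) (XT.lf (nat_lit 0) (nat_lit 24633040304) (nat_lit 1824) (nat_lit 11823489956) (nat_lit 1900) (nat_lit 5770283496) (nat_lit 479) (nat_lit 5) (nat_lit 503) (nat_lit 5) (nat_lit 504) (nat_lit 5) (nat_lit 646) (nat_lit 630) (nat_lit 284)) (XT.nd (nat_lit 78) (nat_lit 0) (nat_lit 76) (XT.lf (nat_lit 76) (nat_lit 10328390229) (nat_lit 0) (nat_lit 16882337046) (nat_lit 1900) (nat_lit 15458841197) (nat_lit 480) (nat_lit 5) (nat_lit 479) (nat_lit 5) (nat_lit 504) (nat_lit 5) (nat_lit 647) (nat_lit 630) (nat_lit 283)) (XT.lf (nat_lit 0) (nat_lit 29938861441) (nat_lit 1824) (nat_lit 10057328801) (nat_lit 1900) (nat_lit 3123010228) (nat_lit 480) (nat_lit 5) (nat_lit 504) (nat_lit 5) (nat_lit 505) (nat_lit 5) (nat_lit 648) (nat_lit 630) (nat_lit 282))))) (XT.nd (nat_lit 156) (nat_lit 1748) (nat_lit 0) (XT.nd (nat_lit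 78) (nat_lit 0) (nat_lit 76) (XT.lf (nat_lit 76) (nat_lit 12726548811) (nat_lit 0) (nat_lit 20188468785) (nat_lit 1900) (nat_lit 10658938385) (nat_lit 481) (nat_lit 5) (nat_lit 480) (nat_lit 5) (nat_lit 505) (nat_lit 5) (nat_lit 649) (nat_lit 630) (nat_lit 281)) (XT.lf (nat_lit 0) (nat_lit 36017775945) (nat_lit 1824) (nat_lit 7935341929) (nat_lit 1900) (nat_lit 83347204) (nat_lit 481) (nat_lit 5) (nat_lit 505) (nat_lit 5) (nat_lit 506) (nat_lit 5) (nat_lit 650) (nat_lit 630) (nat_lit 280))) (XT.nd (nat_lit 78) (nat_lit 1824) (nat_lit 0) (XT.lf (nat_lit 76) (nat_lit 15503845145) (nat_lit 0) (nat_lit 23912164925) (nat_lit 1900) (nat_lit 5087545931) (nat_lit 482) (nat_lit 5) (nat_lit 481) (nat_lit 5) (nat_lit 506) (nat_lit 5) (nat_lit 651) (nat_lit 630) (nat_lit 279)) (XT.nd (nat_lit 78) (nat_lit 1824) (nat_lit 0) (XT.lf (nat_lit 76) (nat_lit 39518629869) (nat_lit 0) (nat_lit 3415903758) (nat_lit 1900) (nat_lit 2044408675) (nat_lit 482) (nat_lit 5) (nat_lit 481) (nat_lit 5) (nat_lit 506) (nat_lit 5) (nat_lit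 652) (nat_lit 630) (nat_lit 278)) (XT.lf (nat_lit 0) (nat_lit 1281182578) (nat_lit 1900) (nat_lit 26787028430) (nat_lit 1976) (nat_lit 17390778022) (nat_lit 457) (nat_lit 5) (nat_lit 482) (nat_lit 5) (nat_lit 483) (nat_lit 5) (nat_lit 653) (nat_lit 630) (nat_lit 277)))))) (XT.nd (nat_lit 390) (nat_lit 0) (nat_lit 152) (XT.nd (nat_lit 156) (nat_lit 0) (nat_lit 76) (XT.nd (nat_lit 78) (nat_lit 0) (nat_lit 0) (XT.lf (nat_lit 0) (nat_lit 2847082644) (nat_lit 1900) (nat_lit 7730002389) (nat_lit 1900) (nat_lit 7730002389) (nat_lit 471) (nat_lit 3) (nat_lit 496) (nat_lit 3) (nat_lit 496) (nat_lit 5) (nat_lit 631) (nat_lit 631) (nat_lit 298)) (XT.lf (nat_lit 76) (nat_lit 2735714556) (nat_lit 0) (nat_lit 3082317128) (nat_lit 1900) (nat_lit 31160943435) (nat_lit 472) (nat_lit 5) (nat_lit 471) (nat_lit 3) (nat_lit 496) (nat_lit 5) (nat_lit 632) (nat_lit 631) (nat_lit 297))) (XT.nd (nat_lit 78) (nat_lit 0) (nat_lit 0) (XT.lf (nat_lit 0) (nat_lit 6147186118) (nat_lit 1824) (nat_lit 15945136021) (nat_lit 1900) (nat_lit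 15254693121) (nat_lit 472) (nat_lit 5) (nat_lit 496) (nat_lit 5) (nat_lit 497) (nat_lit 5) (nat_lit 633) (nat_lit 631) (nat_lit 296)) (XT.nd (nat_lit 78) (nat_lit 0) (nat_lit 76) (XT.lf (nat_lit 76) (nat_lit 2733708568) (nat_lit 0) (nat_lit 3786112300) (nat_lit 1900) (nat_lit 31201857469) (nat_lit 473) (nat_lit 5) (nat_lit 472) (nat_lit 5) (nat_lit 497) (nat_lit 5) (nat_lit 634) (nat_lit 631) (nat_lit 295)) (XT.lf (nat_lit 0) (nat_lit 7103027951) (nat_lit 1824) (nat_lit 16197490906) (nat_lit 1900) (nat_lit 14799253500) (nat_lit 473) (nat_lit 5) (nat_lit 497) (nat_lit 5) (nat_lit 498) (nat_lit 5) (nat_lit 635) (nat_lit 631) (nat_lit 294))))) (XT.nd (nat_lit 234) (nat_lit 0) (nat_lit 152) (XT.nd (nat_lit 78) (nat_lit 0) (nat_lit 76) (XT.lf (nat_lit 76) (nat_lit 2982142171) (nat_lit 0) (nat_lit 4758976510) (nat_lit 1900) (nat_lit 30743445261) (nat_lit 474) (nat_lit 5) (nat_lit 473) (nat_lit 5) (nat_lit 498) (nat_lit 5) (nat_lit 636) (nat_lit 631) (nat_lit 293)) (XT.nd (nat_lit 78) (nat_lit 0) (nat_lit 0) (XT.lf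 (nat_lit 0) (nat_lit 8592084523) (nat_lit 1824) (nat_lit 16203277237) (nat_lit 1900) (nat_lit 14077687404) (nat_lit 474) (nat_lit 5) (nat_lit 498) (nat_lit 5) (nat_lit 499) (nat_lit 5) (nat_lit 637) (nat_lit 631) (nat_lit 292)) (XT.lf (nat_lit 76) (nat_lit 3495475766) (nat_lit 0) (nat_lit 6017635208) (nat_lit 1900) (nat_lit 29755132361) (nat_lit 475) (nat_lit 5) (nat_lit 474) (nat_lit 5) (nat_lit 499) (nat_lit 5) (nat_lit 638) (nat_lit 631) (nat_lit 291)))) (XT.nd (nat_lit 78) (nat_lit 0) (nat_lit 0) (XT.lf (nat_lit 0) (nat_lit 10646147193) (nat_lit 1824) (nat_lit 15948051881) (nat_lit 1900) (nat_lit 13073270601) (nat_lit 475) (nat_lit 5) (nat_lit 499) (nat_lit 5) (nat_lit 500) (nat_lit 5) (nat_lit 639) (nat_lit 631) (nat_lit 290)) (XT.nd (nat_lit 78) (nat_lit 0) (nat_lit 76) (XT.lf (nat_lit 76) (nat_lit 4288846153) (nat_lit 0) (nat_lit 7579569740) (nat_lit 1900) (nat_lit 28204933281) (nat_lit 476) (nat_lit 5) (nat_lit 475) (nat_lit 5) (nat_lit 500) (nat_lit 5) (nat_lit 640) (nat_lit 631) (nat_lit 289))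 (XT.lf (nat_lit 0) (nat_lit 13298465601) (nat_lit 1824) (nat_lit 15416694791) (nat_lit 1900) (nat_lit 11768519226) (nat_lit 476) (nat_lit 5) (nat_lit 500) (nat_lit 5) (nat_lit 501) (nat_lit 5) (nat_lit 641) (nat_lit 631) (nat_lit 288))))))))
noncomputable def xc252 : XT := (XT.nd (nat_lit 81042) (nat_lit 0) (nat_lit 0) (XT.nd (nat_lit 780) (nat_lit 380) (nat_lit 0) (XT.nd (nat_lit 390) (nat_lit 0) (nat_lit 228) (XT.nd (nat_lit 156) (nat_lit 0) (nat_lit 76) (XT.nd (nat_lit 78) (nat_lit 0) (nat_lit 76) (XT.lf (nat_lit 76) (nat_lit 5378093473) (nat_lit 0) (nat_lit 9463052459) (nat_lit 1900) (nat_lit 26059390212) (nat_lit 477) (nat_lit 5) (nat_lit 476) (nat_lit 5) (nat_lit 501) (nat_lit 5) (nat_lit 642) (nat_lit 631) (nat_lit 287)) (XT.lf (nat_lit 0) (nat_lit 16583810749) (nat_lit 1824) (nat_lit 14593381980) (nat_lit 1900) (nat_lit 10145154518) (nat_lit 477) (nat_lit 5) (nat_lit 501) (nat_lit 5) (nat_lit 502) (nat_lit 5) (nat_lit 643) (nat_lit 631) (nat_lit 286))) (XT.nd (nat_lit 78) (nat_lit 0) (nat_lit 76)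 (XT.lf (nat_lit 76) (nat_lit 6779789248) (nat_lit 0) (nat_lit 11687183238) (nat_lit 1900) (nat_lit 23283509275) (nat_lit 478) (nat_lit 5) (nat_lit 477) (nat_lit 5) (nat_lit 502) (nat_lit 5) (nat_lit 644) (nat_lit 631) (nat_lit 285)) (XT.nd (nat_lit 78) (nat_lit 0) (nat_lit 0) (XT.lf (nat_lit 0) (nat_lit 20538540628) (nat_lit 1824) (nat_lit 13461557398) (nat_lit 1900) (nat_lit 8184066139) (nat_lit 478) (nat_lit 5) (nat_lit 502) (nat_lit 5) (nat_lit 503) (nat_lit 5) (nat_lit 645) (nat_lit 631) (nat_lit 284)) (XT.lf (nat_lit 76) (nat_lit 8511265546) (nat_lit 0) (nat_lit 14271927450) (nat_lit 1900) (nat_lit 19840694224) (nat_lit 479) (nat_lit 5) (nat_lit 478) (nat_lit 5) (nat_lit 503) (nat_lit 5) (nat_lit 646) (nat_lit 631) (nat_lit 283))))) (XT.nd (nat_lit 156) (nat_lit 0) (nat_lit 76) (XT.nd (nat_lit 78) (nat_lit 0) (nat_lit 0) (XT.lf (nat_lit 0) (nat_lit 25200668469) (nat_lit 1824) (nat_lit 12003903697) (nat_lit 1900) (nat_lit 5865274028) (nat_lit 479) (nat_lit 5) (nat_lit 503) (nat_lit 5) (nat_lit 504)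 (nat_lit 5) (nat_lit 647) (nat_lit 631) (nat_lit 282)) (XT.lf (nat_lit 76) (nat_lit 10590645301) (nat_lit 0) (nat_lit 17238155487) (nat_lit 1900) (nat_lit 15692677470) (nat_lit 480) (nat_lit 5) (nat_lit 479) (nat_lit 5) (nat_lit 504) (nat_lit 5) (nat_lit 648) (nat_lit 631) (nat_lit 281))) (XT.nd (nat_lit 78) (nat_lit 0) (nat_lit 0) (XT.lf (nat_lit 0) (nat_lit 30609933754) (nat_lit 1824) (nat_lit 10202311816) (nat_lit 1900) (nat_lit 3167888692) (nat_lit 480) (nat_lit 5) (nat_lit 504) (nat_lit 5) (nat_lit 505) (nat_lit 5) (nat_lit 649) (nat_lit 631) (nat_lit 280)) (XT.nd (nat_lit 78) (nat_lit 0) (nat_lit 76) (XT.lf (nat_lit 76) (nat_lit 13036873851) (nat_lit 0) (nat_lit 20607683883) (nat_lit 1900) (nat_lit 10799448340) (nat_lit 481) (nat_lit 5) (nat_lit 480) (nat_lit 5) (nat_lit 505) (nat_lit 5) (nat_lit 650) (nat_lit 631) (nat_lit 279)) (XT.lf (nat_lit 0) (nat_lit 36807876073) (nat_lit 1824) (nat_lit 8037849381) (nat_lit 1900) (nat_lit 70069885) (nat_lit 481) (nat_lit 5) (nat_lit 505) (nat_lit 5) (nat_lit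 506) (nat_lit 5) (nat_lit 651) (nat_lit 631) (nat_lit 278)))))) (XT.nd (nat_lit 79872) (nat_lit 0) (nat_lit 76) (XT.nd (nat_lit 79638) (nat_lit 760) (nat_lit 0) (XT.nd (nat_lit 78) (nat_lit 0) (nat_lit 0) (XT.lf (nat_lit 76) (nat_lit 15869751702) (nat_lit 0) (nat_lit 24403318120) (nat_lit 1900) (nat_lit 5119178440) (nat_lit 482) (nat_lit 5) (nat_lit 481) (nat_lit 5) (nat_lit 506) (nat_lit 5) (nat_lit 652) (nat_lit 631) (nat_lit 277)) (XT.lf (nat_lit 76) (nat_lit 40363737422) (nat_lit 0) (nat_lit 3496878595) (nat_lit 1900) (nat_lit 2016553310) (nat_lit 482) (nat_lit 5) (nat_lit 481) (nat_lit 5) (nat_lit 506) (nat_lit 5) (nat_lit 653) (nat_lit 631) (nat_lit 276))) (XT.nd (nat_lit 78) (nat_lit 0) (nat_lit 0) (XT.lf (nat_lit 0) (nat_lit 2952867769) (nat_lit 1900) (nat_lit 7859690785) (nat_lit 1900) (nat_lit 7859690785) (nat_lit 471) (nat_lit 3) (nat_lit 496) (nat_lit 3) (nat_lit 496) (nat_lit 5) (nat_lit 632) (nat_lit 632) (nat_lit 296)) (XT.nd (nat_lit 78) (nat_lit 0) (nat_lit 76) (XT.lf (nat_lit 76) (nat_lit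 2839924366) (nat_lit 0) (nat_lit 3190560823) (nat_lit 1900) (nat_lit 31686141766) (nat_lit 472) (nat_lit 5) (nat_lit 471) (nat_lit 3) (nat_lit 496) (nat_lit 5) (nat_lit 633) (nat_lit 632) (nat_lit 295)) (XT.lf (nat_lit 0) (nat_lit 6364041929) (nat_lit 1824) (nat_lit 16213327246) (nat_lit 1900) (nat_lit 15514702453) (nat_lit 472) (nat_lit 5) (nat_lit 496) (nat_lit 5) (nat_lit 497) (nat_lit 5) (nat_lit 634) (nat_lit 632) (nat_lit 294))))) (XT.nd (nat_lit 156) (nat_lit 0) (nat_lit 76) (XT.nd (nat_lit 78) (nat_lit 0) (nat_lit 76) (XT.lf (nat_lit 76) (nat_lit 2838760607) (nat_lit 0) (nat_lit 3903854441) (nat_lit 1900) (nat_lit 31731643318) (nat_lit 473) (nat_lit 5) (nat_lit 472) (nat_lit 5) (nat_lit 497) (nat_lit 5) (nat_lit 635) (nat_lit 632) (nat_lit 293)) (XT.lf (nat_lit 0) (nat_lit 7335407080) (nat_lit 1824) (nat_lit 16469965992) (nat_lit 1900) (nat_lit 15054582887) (nat_lit 473) (nat_lit 5) (nat_lit 497) (nat_lit 5) (nat_lit 498) (nat_lit 5) (nat_lit 636) (nat_lit 632) (nat_lit 292))) (XT.nd (nat_lit 78)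 (nat_lit 0) (nat_lit 76) (XT.lf (nat_lit 76) (nat_lit 3092921097) (nat_lit 0) (nat_lit 4891899584) (nat_lit 1900) (nat_lit 31267651580) (nat_lit 474) (nat_lit 5) (nat_lit 473) (nat_lit 5) (nat_lit 498) (nat_lit 5) (nat_lit 637) (nat_lit 632) (nat_lit 291)) (XT.nd (nat_lit 78) (nat_lit 0) (nat_lit 0) (XT.lf (nat_lit 0) (nat_lit 8850822851) (nat_lit 1824) (nat_lit 16475221118) (nat_lit 1900) (nat_lit 14322722984) (nat_lit 474) (nat_lit 5) (nat_lit 498) (nat_lit 5) (nat_lit 499) (nat_lit 5) (nat_lit 638) (nat_lit 632) (nat_lit 290)) (XT.lf (nat_lit 76) (nat_lit 3617164040) (nat_lit 0) (nat_lit 6171738118) (nat_lit 1900) (nat_lit 30262990307) (nat_lit 475) (nat_lit 5) (nat_lit 474) (nat_lit 5) (nat_lit 499) (nat_lit 5) (nat_lit 639) (nat_lit 632) (nat_lit 289))))))) (XT.nd (nat_lit 780) (nat_lit 304) (nat_lit 0) (XT.nd (nat_lit 390) (nat_lit 0) (nat_lit 152) (XT.nd (nat_lit 156) (nat_lit 0) (nat_lit 76) (XT.nd (nat_lit 78) (nat_lit 0) (nat_lit 0) (XT.lf (nat_lit 0) (nat_lit 10942707231) (nat_lit 1824) (nat_lit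 16214352503) (nat_lit 1900) (nat_lit 13302081536) (nat_lit 475) (nat_lit 5) (nat_lit 499) (nat_lit 5) (nat_lit 500) (nat_lit 5) (nat_lit 640) (nat_lit 632) (nat_lit 288)) (XT.lf (nat_lit 76) (nat_lit 4426937041) (nat_lit 0) (nat_lit 7761183978) (nat_lit 1900) (nat_lit 28685043446) (nat_lit 476) (nat_lit 5) (nat_lit 475) (nat_lit 5) (nat_lit 500) (nat_lit 5) (nat_lit 641) (nat_lit 632) (nat_lit 287))) (XT.nd (nat_lit 78) (nat_lit 0) (nat_lit 0) (XT.lf (nat_lit 0) (nat_lit 13644966168) (nat_lit 1824) (nat_lit 15671930072) (nat_lit 1900) (nat_lit 11974841486) (nat_lit 476) (nat_lit 5) (nat_lit 500) (nat_lit 5) (nat_lit 501) (nat_lit 5) (nat_lit 642) (nat_lit 632) (nat_lit 286)) (XT.nd (nat_lit 78) (nat_lit 0) (nat_lit 76) (XT.lf (nat_lit 76) (nat_lit 5538404624) (nat_lit 0) (nat_lit 9678858921) (nat_lit 1900) (nat_lit 26499692664) (nat_lit 477) (nat_lit 5) (nat_lit 476) (nat_lit 5) (nat_lit 501) (nat_lit 5) (nat_lit 643) (nat_lit 632) (nat_lit 285)) (XT.lf (nat_lit 0) (nat_lit 16993057889) (nat_lit 1824) (nat_lit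 14831806197) (nat_lit 1900) (nat_lit 10322374016) (nat_lit 477) (nat_lit 5) (nat_lit 501) (nat_lit 5) (nat_lit 502) (nat_lit 5) (nat_lit 644) (nat_lit 632) (nat_lit 284))))) (XT.nd (nat_lit 156) (nat_lit 0) (nat_lit 76) (XT.nd (nat_lit 78) (nat_lit 0) (nat_lit 76) (XT.lf (nat_lit 76) (nat_lit 6968476854) (nat_lit 0) (nat_lit 11944229716) (nat_lit 1900) (nat_lit 23671252354) (nat_lit 478) (nat_lit 5) (nat_lit 477) (nat_lit 5) (nat_lit 502) (nat_lit 5) (nat_lit 645) (nat_lit 632) (nat_lit 283)) (XT.lf (nat_lit 0) (nat_lit 21024059809) (nat_lit 1824) (nat_lit 13677086987) (nat_lit 1900) (nat_lit 8325201195) (nat_lit 478) (nat_lit 5) (nat_lit 502) (nat_lit 5) (nat_lit 503) (nat_lit 5) (nat_lit 646) (nat_lit 632) (nat_lit 282))) (XT.nd (nat_lit 78) (nat_lit 0) (nat_lit 76) (XT.lf (nat_lit 76) (nat_lit 8734839116) (nat_lit 0) (nat_lit 14577646827) (nat_lit 1900) (nat_lit 20162402038) (nat_lit 479) (nat_lit 5) (nat_lit 478) (nat_lit 5) (nat_lit 503) (nat_lit 5) (nat_lit 647) (nat_lit 632) (nat_lit 281)) (XT.nd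 (nat_lit 78) (nat_lit 0) (nat_lit 0) (XT.lf (nat_lit 0) (nat_lit 25776738123) (nat_lit 1824) (nat_lit 12190102437) (nat_lit 1900) (nat_lit 5962957116) (nat_lit 479) (nat_lit 5) (nat_lit 503) (nat_lit 5) (nat_lit 504) (nat_lit 5) (nat_lit 648) (nat_lit 632) (nat_lit 280)) (XT.lf (nat_lit 76) (nat_lit 10855983071) (nat_lit 0) (nat_lit 17600384668) (nat_lit 1900) (nat_lit 15934116035) (nat_lit 480) (nat_lit 5) (nat_lit 479) (nat_lit 5) (nat_lit 504) (nat_lit 5) (nat_lit 649) (nat_lit 632) (nat_lit 279)))))) (XT.nd (nat_lit 80028) (nat_lit 0) (nat_lit 76) (XT.nd (nat_lit 156) (nat_lit 684) (nat_lit 0) (XT.nd (nat_lit 78) (nat_lit 0) (nat_lit 0) (XT.lf (nat_lit 0) (nat_lit 31291620207) (nat_lit 1824) (nat_lit 10352375391) (nat_lit 1900) (nat_lit 3214347446) (nat_lit 480) (nat_lit 5) (nat_lit 504) (nat_lit 5) (nat_lit 505) (nat_lit 5) (nat_lit 650) (nat_lit 632) (nat_lit 278)) (XT.lf (nat_lit 76) (nat_lit 13351238841) (nat_lit 0) (nat_lit 21034683506) (nat_lit 1900) (nat_lit 10945590313) (nat_lit 481) (nat_lit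 5) (nat_lit 480) (nat_lit 5) (nat_lit 505) (nat_lit 5) (nat_lit 651) (nat_lit 632) (nat_lit 277))) (XT.nd (nat_lit 79716) (nat_lit 760) (nat_lit 0) (XT.lf (nat_lit 0) (nat_lit 37611069936) (nat_lit 1824) (nat_lit 8144589272) (nat_lit 1900) (nat_lit 57107324) (nat_lit 481) (nat_lit 5) (nat_lit 505) (nat_lit 5) (nat_lit 506) (nat_lit 5) (nat_lit 652) (nat_lit 632) (nat_lit 276)) (XT.nd (nat_lit 78) (nat_lit 0) (nat_lit 0) (XT.lf (nat_lit 0) (nat_lit 3058871945) (nat_lit 1900) (nat_lit 7992940298) (nat_lit 1900) (nat_lit 7992940298) (nat_lit 471) (nat_lit 3) (nat_lit 496) (nat_lit 3) (nat_lit 496) (nat_lit 5) (nat_lit 633) (nat_lit 633) (nat_lit 294)) (XT.lf (nat_lit 76) (nat_lit 2944296401) (nat_lit 0) (nat_lit 3299159961) (nat_lit 1900) (nat_lit 32225650320) (nat_lit 472) (nat_lit 5) (nat_lit 471) (nat_lit 3) (nat_lit 496) (nat_lit 5) (nat_lit 634) (nat_lit 633) (nat_lit 293))))) (XT.nd (nat_lit 156) (nat_lit 0) (nat_lit 76) (XT.nd (nat_lit 78) (nat_lit 0) (nat_lit 0) (XT.lf (nat_lit 0) (nat_lit 6581588136)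 (nat_lit 1824) (nat_lit 16488851484) (nat_lit 1900) (nat_lit 15781662660) (nat_lit 472) (nat_lit 5) (nat_lit 496) (nat_lit 5) (nat_lit 497) (nat_lit 5) (nat_lit 635) (nat_lit 633) (nat_lit 292)) (XT.lf (nat_lit 76) (nat_lit 2943957452) (nat_lit 0) (nat_lit 4022319741) (nat_lit 1900) (nat_lit 32275684777) (nat_lit 473) (nat_lit 5) (nat_lit 472) (nat_lit 5) (nat_lit 497) (nat_lit 5) (nat_lit 636) (nat_lit 633) (nat_lit 291))) (XT.nd (nat_lit 78) (nat_lit 0) (nat_lit 0) (XT.lf (nat_lit 0) (nat_lit 7568926611) (nat_lit 1824) (nat_lit 16749889406) (nat_lit 1900) (nat_lit 15316597572) (nat_lit 473) (nat_lit 5) (nat_lit 497) (nat_lit 5) (nat_lit 498) (nat_lit 5) (nat_lit 637) (nat_lit 633) (nat_lit 290)) (XT.nd (nat_lit 78) (nat_lit 0) (nat_lit 76) (XT.lf (nat_lit 76) (nat_lit 3203929924) (nat_lit 0) (nat_lit 5026015493) (nat_lit 1900) (nat_lit 31805862565) (nat_lit 474) (nat_lit 5) (nat_lit 473) (nat_lit 5) (nat_lit 498) (nat_lit 5) (nat_lit 638) (nat_lit 633) (nat_lit 289)) (XT.lf (nat_lit 0) (nat_lit 9111361644)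 (nat_lit 1824) (nat_lit 16754627824) (nat_lit 1900) (nat_lit 14574077321) (nat_lit 474) (nat_lit 5) (nat_lit 498) (nat_lit 5) (nat_lit 499) (nat_lit 5) (nat_lit 639) (nat_lit 633) (nat_lit 288))))))))
noncomputable def xc253 : XT := (XT.nd (nat_lit 81276) (nat_lit 0) (nat_lit 0) (XT.nd (nat_lit 780) (nat_lit 228) (nat_lit 0) (XT.nd (nat_lit 390) (nat_lit 0) (nat_lit 228) (XT.nd (nat_lit 156) (nat_lit 0) (nat_lit 76) (XT.nd (nat_lit 78) (nat_lit 0) (nat_lit 76) (XT.lf (nat_lit 76) (nat_lit 3739275446) (nat_lit 0) (nat_lit 6327612526) (nat_lit 1900) (nat_lit 30784393230) (nat_lit 475) (nat_lit 5) (nat_lit 474) (nat_lit 5) (nat_lit 499) (nat_lit 5) (nat_lit 640) (nat_lit 633) (nat_lit 287)) (XT.lf (nat_lit 0) (nat_lit 11241950739) (nat_lit 1824) (nat_lit 16488024006) (nat_lit 1900) (nat_lit 13536736703) (nat_lit 475) (nat_lit 5) (nat_lit 499) (nat_lit 5) (nat_lit 500) (nat_lit 5) (nat_lit 641) (nat_lit 633) (nat_lit 286))) (XT.nd (nat_lit 78) (nat_lit 0) (nat_lit 76) (XT.lf (nat_lit 76) (nat_lit 4565758332)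 (nat_lit 0) (nat_lit 7945264676) (nat_lit 1900) (nat_lit 29178017189) (nat_lit 476) (nat_lit 5) (nat_lit 475) (nat_lit 5) (nat_lit 500) (nat_lit 5) (nat_lit 642) (nat_lit 633) (nat_lit 285)) (XT.nd (nat_lit 78) (nat_lit 0) (nat_lit 0) (XT.lf (nat_lit 0) (nat_lit 13995269619) (nat_lit 1824) (nat_lit 15934331943) (nat_lit 1900) (nat_lit 12186418165) (nat_lit 476) (nat_lit 5) (nat_lit 500) (nat_lit 5) (nat_lit 501) (nat_lit 5) (nat_lit 643) (nat_lit 633) (nat_lit 284)) (XT.lf (nat_lit 76) (nat_lit 5699873679) (nat_lit 0) (nat_lit 9897950720) (nat_lit 1900) (nat_lit 26951942041) (nat_lit 477) (nat_lit 5) (nat_lit 476) (nat_lit 5) (nat_lit 501) (nat_lit 5) (nat_lit 644) (nat_lit 633) (nat_lit 283))))) (XT.nd (nat_lit 156) (nat_lit 0) (nat_lit 76) (XT.nd (nat_lit 78) (nat_lit 0) (nat_lit 0) (XT.lf (nat_lit 0) (nat_lit 17407477798) (nat_lit 1824) (nat_lit 15077074172) (nat_lit 1900) (nat_lit 10504135229) (nat_lit 477) (nat_lit 5) (nat_lit 501) (nat_lit 5) (nat_lit 502) (nat_lit 5) (nat_lit 645) (nat_lit 633) (nat_lit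 282)) (XT.lf (nat_lit 76) (nat_lit 7158876592) (nat_lit 0) (nat_lit 12205512246) (nat_lit 1900) (nat_lit 24069776300) (nat_lit 478) (nat_lit 5) (nat_lit 477) (nat_lit 5) (nat_lit 502) (nat_lit 5) (nat_lit 646) (nat_lit 633) (nat_lit 281))) (XT.nd (nat_lit 78) (nat_lit 0) (nat_lit 0) (XT.lf (nat_lit 0) (nat_lit 21516386804) (nat_lit 1824) (nat_lit 13899012464) (nat_lit 1900) (nat_lit 8470034451) (nat_lit 478) (nat_lit 5) (nat_lit 502) (nat_lit 5) (nat_lit 503) (nat_lit 5) (nat_lit 647) (nat_lit 633) (nat_lit 280)) (XT.nd (nat_lit 78) (nat_lit 0) (nat_lit 76) (XT.lf (nat_lit 76) (nat_lit 8960812580) (nat_lit 0) (nat_lit 14888693061) (nat_lit 1900) (nat_lit 20493460468) (nat_lit 479) (nat_lit 5) (nat_lit 478) (nat_lit 5) (nat_lit 503) (nat_lit 5) (nat_lit 648) (nat_lit 633) (nat_lit 279)) (XT.lf (nat_lit 0) (nat_lit 26361531136) (nat_lit 1824) (nat_lit 12382117353) (nat_lit 1900) (nat_lit 6063355827) (nat_lit 479) (nat_lit 5) (nat_lit 503) (nat_lit 5) (nat_lit 504) (nat_lit 5) (nat_lit 649) (nat_lit 633) (nat_lit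 278)))))) (XT.nd (nat_lit 80106) (nat_lit 0) (nat_lit 76) (XT.nd (nat_lit 156) (nat_lit 608) (nat_lit 0) (XT.nd (nat_lit 78) (nat_lit 0) (nat_lit 76) (XT.lf (nat_lit 76) (nat_lit 11124549161) (nat_lit 0) (nat_lit 17969180204) (nat_lit 1900) (nat_lit 16183195333) (nat_lit 480) (nat_lit 5) (nat_lit 479) (nat_lit 5) (nat_lit 504) (nat_lit 5) (nat_lit 650) (nat_lit 633) (nat_lit 277)) (XT.lf (nat_lit 0) (nat_lit 31984242095) (nat_lit 1824) (nat_lit 10507536449) (nat_lit 1900) (nat_lit 3262391584) (nat_lit 480) (nat_lit 5) (nat_lit 504) (nat_lit 5) (nat_lit 505) (nat_lit 5) (nat_lit 651) (nat_lit 633) (nat_lit 276))) (XT.nd (nat_lit 79794) (nat_lit 684) (nat_lit 0) (XT.lf (nat_lit 76) (nat_lit 13669808709) (nat_lit 0) (nat_lit 21469646635) (nat_lit 1900) (nat_lit 11097367369) (nat_lit 481) (nat_lit 5) (nat_lit 480) (nat_lit 5) (nat_lit 505) (nat_lit 5) (nat_lit 652) (nat_lit 633) (nat_lit 275)) (XT.nd (nat_lit 78) (nat_lit 0) (nat_lit 0) (XT.lf (nat_lit 0) (nat_lit 3165173203) (nat_lit 1900) (nat_lit 8129784589)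 (nat_lit 1900) (nat_lit 8129784589) (nat_lit 471) (nat_lit 3) (nat_lit 496) (nat_lit 3) (nat_lit 496) (nat_lit 5) (nat_lit 634) (nat_lit 634) (nat_lit 292)) (XT.lf (nat_lit 76) (nat_lit 3048908538) (nat_lit 0) (nat_lit 3408191911) (nat_lit 1900) (nat_lit 32779607501) (nat_lit 472) (nat_lit 5) (nat_lit 471) (nat_lit 3) (nat_lit 496) (nat_lit 5) (nat_lit 635) (nat_lit 634) (nat_lit 291))))) (XT.nd (nat_lit 156) (nat_lit 0) (nat_lit 76) (XT.nd (nat_lit 78) (nat_lit 0) (nat_lit 0) (XT.lf (nat_lit 0) (nat_lit 6799980153) (nat_lit 1824) (nat_lit 16771778931) (nat_lit 1900) (nat_lit 16055644777) (nat_lit 472) (nat_lit 5) (nat_lit 496) (nat_lit 5) (nat_lit 497) (nat_lit 5) (nat_lit 636) (nat_lit 634) (nat_lit 290)) (XT.lf (nat_lit 76) (nat_lit 3049377964) (nat_lit 0) (nat_lit 4141586023) (nat_lit 1900) (nat_lit 32834124839) (nat_lit 473) (nat_lit 5) (nat_lit 472) (nat_lit 5) (nat_lit 497) (nat_lit 5) (nat_lit 637) (nat_lit 634) (nat_lit 289))) (XT.nd (nat_lit 78) (nat_lit 0) (nat_lit 0) (XT.lf (nat_lit 0) (nat_lit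 7803745541) (nat_lit 1824) (nat_lit 17037332499) (nat_lit 1900) (nat_lit 15585369957) (nat_lit 473) (nat_lit 5) (nat_lit 497) (nat_lit 5) (nat_lit 498) (nat_lit 5) (nat_lit 638) (nat_lit 634) (nat_lit 288)) (XT.nd (nat_lit 78) (nat_lit 0) (nat_lit 76) (XT.lf (nat_lit 76) (nat_lit 3315250359) (nat_lit 0) (nat_lit 5161405004) (nat_lit 1900) (nat_lit 32358221602) (nat_lit 474) (nat_lit 5) (nat_lit 473) (nat_lit 5) (nat_lit 498) (nat_lit 5) (nat_lit 639) (nat_lit 634) (nat_lit 287)) (XT.lf (nat_lit 0) (nat_lit 9373867939) (nat_lit 1824) (nat_lit 17041568020) (nat_lit 1900) (nat_lit 14831821725) (nat_lit 474) (nat_lit 5) (nat_lit 498) (nat_lit 5) (nat_lit 499) (nat_lit 5) (nat_lit 640) (nat_lit 634) (nat_lit 286))))))) (XT.nd (nat_lit 780) (nat_lit 228) (nat_lit 0) (XT.nd (nat_lit 390) (nat_lit 0) (nat_lit 228) (XT.nd (nat_lit 156) (nat_lit 0) (nat_lit 76) (XT.nd (nat_lit 78) (nat_lit 0) (nat_lit 76) (XT.lf (nat_lit 76) (nat_lit 3861896524) (nat_lit 0) (nat_lit 6485344750) (nat_lit 1900) (nat_lit 31319480476)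 (nat_lit 475) (nat_lit 5) (nat_lit 474) (nat_lit 5) (nat_lit 499) (nat_lit 5) (nat_lit 641) (nat_lit 634) (nat_lit 285)) (XT.lf (nat_lit 0) (nat_lit 11544057501) (nat_lit 1824) (nat_lit 16769134402) (nat_lit 1900) (nat_lit 13777303748) (nat_lit 475) (nat_lit 5) (nat_lit 499) (nat_lit 5) (nat_lit 500) (nat_lit 5) (nat_lit 642) (nat_lit 634) (nat_lit 284))) (XT.nd (nat_lit 78) (nat_lit 0) (nat_lit 76) (XT.lf (nat_lit 76) (nat_lit 4705403516) (nat_lit 0) (nat_lit 8131906435) (nat_lit 1900) (nat_lit 29683985141) (nat_lit 476) (nat_lit 5) (nat_lit 475) (nat_lit 5) (nat_lit 500) (nat_lit 5) (nat_lit 643) (nat_lit 634) (nat_lit 283)) (XT.nd (nat_lit 78) (nat_lit 0) (nat_lit 0) (XT.lf (nat_lit 0) (nat_lit 14349573442) (nat_lit 1824) (nat_lit 16203963670) (nat_lit 1900) (nat_lit 12403310550) (nat_lit 476) (nat_lit 5) (nat_lit 500) (nat_lit 5) (nat_lit 501) (nat_lit 5) (nat_lit 644) (nat_lit 634) (nat_lit 282)) (XT.lf (nat_lit 76) (nat_lit 5862603335) (nat_lit 0) (nat_lit 10120433592) (nat_lit 1900) (nat_lit 27416255319)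 (nat_lit 477) (nat_lit 5) (nat_lit 476) (nat_lit 5) (nat_lit 501) (nat_lit 5) (nat_lit 645) (nat_lit 634) (nat_lit 281))))) (XT.nd (nat_lit 156) (nat_lit 0) (nat_lit 76) (XT.nd (nat_lit 78) (nat_lit 0) (nat_lit 0) (XT.lf (nat_lit 0) (nat_lit 17827290898) (nat_lit 1824) (nat_lit 15329242194) (nat_lit 1900) (nat_lit 10690490264) (nat_lit 477) (nat_lit 5) (nat_lit 501) (nat_lit 5) (nat_lit 502) (nat_lit 5) (nat_lit 646) (nat_lit 634) (nat_lit 280)) (XT.lf (nat_lit 76) (nat_lit 7351102759) (nat_lit 0) (nat_lit 12471150688) (nat_lit 1900) (nat_lit 24479179226) (nat_lit 478) (nat_lit 5) (nat_lit 477) (nat_lit 5) (nat_lit 502) (nat_lit 5) (nat_lit 647) (nat_lit 634) (nat_lit 279))) (XT.nd (nat_lit 78) (nat_lit 0) (nat_lit 0) (XT.lf (nat_lit 0) (nat_lit 22015770478) (nat_lit 1824) (nat_lit 14127380774) (nat_lit 1900) (nat_lit 8618605875) (nat_lit 478) (nat_lit 5) (nat_lit 502) (nat_lit 5) (nat_lit 503) (nat_lit 5) (nat_lit 648) (nat_lit 634) (nat_lit 278)) (XT.nd (nat_lit 78) (nat_lit 0) (nat_lit 76) (XT.lf (nat_lit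 76) (nat_lit 9189314377) (nat_lit 0) (nat_lit 15205203272) (nat_lit 1900) (nat_lit 20833943278) (nat_lit 479) (nat_lit 5) (nat_lit 478) (nat_lit 5) (nat_lit 503) (nat_lit 5) (nat_lit 649) (nat_lit 634) (nat_lit 277)) (XT.lf (nat_lit 0) (nat_lit 26955330628) (nat_lit 1824) (nat_lit 12579983525) (nat_lit 1900) (nat_lit 6166494886) (nat_lit 479) (nat_lit 5) (nat_lit 503) (nat_lit 5) (nat_lit 504) (nat_lit 5) (nat_lit 650) (nat_lit 634) (nat_lit 276)))))) (XT.nd (nat_lit 80184) (nat_lit 0) (nat_lit 76) (XT.nd (nat_lit 79950) (nat_lit 608) (nat_lit 0) (XT.nd (nat_lit 78) (nat_lit 0) (nat_lit 76) (XT.lf (nat_lit 76) (nat_lit 11396488845) (nat_lit 0) (nat_lit 18344699758) (nat_lit 1900) (nat_lit 16439958987) (nat_lit 480) (nat_lit 5) (nat_lit 479) (nat_lit 5) (nat_lit 504) (nat_lit 5) (nat_lit 651) (nat_lit 634) (nat_lit 275)) (XT.lf (nat_lit 0) (nat_lit 32688122902) (nat_lit 1824) (nat_lit 10667815543) (nat_lit 1900) (nat_lit 3312027333) (nat_lit 480) (nat_lit 5) (nat_lit 504) (nat_lit 5) (nat_lit 505) (nat_lit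 5) (nat_lit 652) (nat_lit 634) (nat_lit 274))) (XT.nd (nat_lit 78) (nat_lit 0) (nat_lit 0) (XT.lf (nat_lit 0) (nat_lit 3271848272) (nat_lit 1900) (nat_lit 8270259446) (nat_lit 1900) (nat_lit 8270259446) (nat_lit 471) (nat_lit 3) (nat_lit 496) (nat_lit 3) (nat_lit 496) (nat_lit 5) (nat_lit 635) (nat_lit 635) (nat_lit 290)) (XT.nd (nat_lit 78) (nat_lit 0) (nat_lit 76) (XT.lf (nat_lit 76) (nat_lit 3153837313) (nat_lit 0) (nat_lit 3517732866) (nat_lit 1900) (nat_lit 33348160219) (nat_lit 472) (nat_lit 5) (nat_lit 471) (nat_lit 3) (nat_lit 496) (nat_lit 5) (nat_lit 636) (nat_lit 635) (nat_lit 289)) (XT.lf (nat_lit 0) (nat_lit 7019371004) (nat_lit 1824) (nat_lit 17062184152) (nat_lit 1900) (nat_lit 16336723900) (nat_lit 472) (nat_lit 5) (nat_lit 496) (nat_lit 5) (nat_lit 497) (nat_lit 5) (nat_lit 637) (nat_lit 635) (nat_lit 288))))) (XT.nd (nat_lit 234) (nat_lit 0) (nat_lit 152) (XT.nd (nat_lit 78) (nat_lit 0) (nat_lit 76) (XT.lf (nat_lit 76) (nat_lit 3155099628) (nat_lit 0) (nat_lit 4261730208) (nat_lit 1900)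 (nat_lit 33407114879) (nat_lit 473) (nat_lit 5) (nat_lit 472) (nat_lit 5) (nat_lit 497) (nat_lit 5) (nat_lit 638) (nat_lit 635) (nat_lit 287)) (XT.nd (nat_lit 78) (nat_lit 0) (nat_lit 0) (XT.lf (nat_lit 0) (nat_lit 8040020757) (nat_lit 1824) (nat_lit 17332371060) (nat_lit 1900) (nat_lit 15860976273) (nat_lit 473) (nat_lit 5) (nat_lit 497) (nat_lit 5) (nat_lit 498) (nat_lit 5) (nat_lit 639) (nat_lit 635) (nat_lit 286)) (XT.lf (nat_lit 76) (nat_lit 3426962744) (nat_lit 0) (nat_lit 5298148291) (nat_lit 1900) (nat_lit 32924880253) (nat_lit 474) (nat_lit 5) (nat_lit 473) (nat_lit 5) (nat_lit 498) (nat_lit 5) (nat_lit 640) (nat_lit 635) (nat_lit 285)))) (XT.nd (nat_lit 78) (nat_lit 0) (nat_lit 0) (XT.lf (nat_lit 0) (nat_lit 9638507025) (nat_lit 1824) (nat_lit 17336116835) (nat_lit 1900) (nat_lit 15096031071) (nat_lit 474) (nat_lit 5) (nat_lit 498) (nat_lit 5) (nat_lit 499) (nat_lit 5) (nat_lit 641) (nat_lit 635) (nat_lit 284)) (XT.nd (nat_lit 78) (nat_lit 0) (nat_lit 76) (XT.lf (nat_lit 76) (nat_lit 3985112510)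 (nat_lit 0) (nat_lit 6645020862) (nat_lit 1900) (nat_lit 31868399288) (nat_lit 475) (nat_lit 5) (nat_lit 474) (nat_lit 5) (nat_lit 499) (nat_lit 5) (nat_lit 642) (nat_lit 635) (nat_lit 283)) (XT.lf (nat_lit 0) (nat_lit 11849205996) (nat_lit 1824) (nat_lit 17057756149) (nat_lit 1900) (nat_lit 14023853582) (nat_lit 475) (nat_lit 5) (nat_lit 499) (nat_lit 5) (nat_lit 500) (nat_lit 5) (nat_lit 643) (nat_lit 635) (nat_lit 282))))))))
noncomputable def xc254 : XT := (XT.nd (nat_lit 81510) (nat_lit 0) (nat_lit 0) (XT.nd (nat_lit 80730) (nat_lit 0) (nat_lit 76) (XT.nd (nat_lit 390) (nat_lit 304) (nat_lit 0) (XT.nd (nat_lit 156) (nat_lit 0) (nat_lit 76) (XT.nd (nat_lit 78) (nat_lit 0) (nat_lit 76) (XT.lf (nat_lit 76) (nat_lit 4845964891) (nat_lit 0) (nat_lit 8321203989) (nat_lit 1900) (nat_lit 30203085458) (nat_lit 476) (nat_lit 5) (nat_lit 475) (nat_lit 5) (nat_lit 500) (nat_lit 5) (nat_lit 644) (nat_lit 635) (nat_lit 281)) (XT.lf (nat_lit 0) (nat_lit 14708074360) (nat_lit 1824) (nat_lit 16480892893) (nat_lit 1900)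 (nat_lit 12625582857) (nat_lit 476) (nat_lit 5) (nat_lit 500) (nat_lit 5) (nat_lit 501) (nat_lit 5) (nat_lit 645) (nat_lit 635) (nat_lit 280))) (XT.nd (nat_lit 78) (nat_lit 0) (nat_lit 76) (XT.lf (nat_lit 76) (nat_lit 6026695254) (nat_lit 0) (nat_lit 10346413830) (nat_lit 1900) (nat_lit 27892756548) (nat_lit 477) (nat_lit 5) (nat_lit 476) (nat_lit 5) (nat_lit 501) (nat_lit 5) (nat_lit 646) (nat_lit 635) (nat_lit 279)) (XT.nd (nat_lit 78) (nat_lit 0) (nat_lit 0) (XT.lf (nat_lit 0) (nat_lit 18252717477) (nat_lit 1824) (nat_lit 15588370809) (nat_lit 1900) (nat_lit 10881493774) (nat_lit 477) (nat_lit 5) (nat_lit 501) (nat_lit 5) (nat_lit 502) (nat_lit 5) (nat_lit 647) (nat_lit 635) (nat_lit 278)) (XT.lf (nat_lit 76) (nat_lit 7545268832) (nat_lit 0) (nat_lit 12741265933) (nat_lit 1900) (nat_lit 24899565770) (nat_lit 478) (nat_lit 5) (nat_lit 477) (nat_lit 5) (nat_lit 502) (nat_lit 5) (nat_lit 648) (nat_lit 635) (nat_lit 277))))) (XT.nd (nat_lit 156) (nat_lit 532) (nat_lit 0) (XT.nd (nat_lit 78) (nat_lit 0) (nat_lit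 0) (XT.lf (nat_lit 0) (nat_lit 22522460300) (nat_lit 1824) (nat_lit 14362242941) (nat_lit 1900) (nat_lit 8770957553) (nat_lit 478) (nat_lit 5) (nat_lit 502) (nat_lit 5) (nat_lit 503) (nat_lit 5) (nat_lit 649) (nat_lit 635) (nat_lit 276)) (XT.lf (nat_lit 76) (nat_lit 9420472393) (nat_lit 0) (nat_lit 15527316131) (nat_lit 1900) (nat_lit 21183930102) (nat_lit 479) (nat_lit 5) (nat_lit 478) (nat_lit 5) (nat_lit 503) (nat_lit 5) (nat_lit 650) (nat_lit 635) (nat_lit 275))) (XT.nd (nat_lit 80028) (nat_lit 608) (nat_lit 0) (XT.lf (nat_lit 0) (nat_lit 27558421159) (nat_lit 1824) (nat_lit 12783739889) (nat_lit 1900) (nat_lit 6272400661) (nat_lit 479) (nat_lit 5) (nat_lit 503) (nat_lit 5) (nat_lit 504) (nat_lit 5) (nat_lit 651) (nat_lit 635) (nat_lit 274)) (XT.nd (nat_lit 78) (nat_lit 0) (nat_lit 0) (XT.lf (nat_lit 0) (nat_lit 3378972671) (nat_lit 1900) (nat_lit 8414402780) (nat_lit 1900) (nat_lit 8414402780) (nat_lit 471) (nat_lit 3) (nat_lit 496) (nat_lit 3) (nat_lit 496) (nat_lit 5) (nat_lit 636) (nat_lit 636)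 (nat_lit 288)) (XT.lf (nat_lit 76) (nat_lit 3259158008) (nat_lit 0) (nat_lit 3627857915) (nat_lit 1900) (nat_lit 33931463838) (nat_lit 472) (nat_lit 5) (nat_lit 471) (nat_lit 3) (nat_lit 496) (nat_lit 5) (nat_lit 637) (nat_lit 636) (nat_lit 287)))))) (XT.nd (nat_lit 390) (nat_lit 0) (nat_lit 152) (XT.nd (nat_lit 156) (nat_lit 0) (nat_lit 76) (XT.nd (nat_lit 78) (nat_lit 0) (nat_lit 0) (XT.lf (nat_lit 0) (nat_lit 7239911488) (nat_lit 1824) (nat_lit 17360146062) (nat_lit 1900) (nat_lit 16624979166) (nat_lit 472) (nat_lit 5) (nat_lit 496) (nat_lit 5) (nat_lit 497) (nat_lit 5) (nat_lit 638) (nat_lit 636) (nat_lit 286)) (XT.lf (nat_lit 76) (nat_lit 3261198645) (nat_lit 0) (nat_lit 4382828387) (nat_lit 1900) (nat_lit 33994814599) (nat_lit 473) (nat_lit 5) (nat_lit 472) (nat_lit 5) (nat_lit 497) (nat_lit 5) (nat_lit 639) (nat_lit 636) (nat_lit 285))) (XT.nd (nat_lit 78) (nat_lit 0) (nat_lit 0) (XT.lf (nat_lit 0) (nat_lit 8277907202) (nat_lit 1824) (nat_lit 17635085293) (nat_lit 1900) (nat_lit 16143496565) (nat_lit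 473) (nat_lit 5) (nat_lit 497) (nat_lit 5) (nat_lit 498) (nat_lit 5) (nat_lit 640) (nat_lit 636) (nat_lit 284)) (XT.nd (nat_lit 78) (nat_lit 0) (nat_lit 76) (XT.lf (nat_lit 76) (nat_lit 3539146152) (nat_lit 0) (nat_lit 5436325009) (nat_lit 1900) (nat_lit 33505998214) (nat_lit 474) (nat_lit 5) (nat_lit 473) (nat_lit 5) (nat_lit 498) (nat_lit 5) (nat_lit 641) (nat_lit 636) (nat_lit 283)) (XT.lf (nat_lit 0) (nat_lit 9905442610) (nat_lit 1824) (nat_lit 17638353833) (nat_lit 1900) (nat_lit 15366783788) (nat_lit 474) (nat_lit 5) (nat_lit 498) (nat_lit 5) (nat_lit 499) (nat_lit 5) (nat_lit 642) (nat_lit 636) (nat_lit 282))))) (XT.nd (nat_lit 156) (nat_lit 0) (nat_lit 76) (XT.nd (nat_lit 78) (nat_lit 0) (nat_lit 76) (XT.lf (nat_lit 76) (nat_lit 4109007431) (nat_lit 0) (nat_lit 6806726756) (nat_lit 1900) (nat_lit 32431304761) (nat_lit 475) (nat_lit 5) (nat_lit 474) (nat_lit 5) (nat_lit 499) (nat_lit 5) (nat_lit 643) (nat_lit 636) (nat_lit 281)) (XT.lf (nat_lit 0) (nat_lit 12157573571) (nat_lit 1824) (nat_lit 17353966114)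 (nat_lit 1900) (nat_lit 14276460372) (nat_lit 475) (nat_lit 5) (nat_lit 499) (nat_lit 5) (nat_lit 500) (nat_lit 5) (nat_lit 644) (nat_lit 636) (nat_lit 280))) (XT.nd (nat_lit 78) (nat_lit 0) (nat_lit 76) (XT.lf (nat_lit 76) (nat_lit 4987533654) (nat_lit 0) (nat_lit 8513252276) (nat_lit 1900) (nat_lit 30735463790) (nat_lit 476) (nat_lit 5) (nat_lit 475) (nat_lit 5) (nat_lit 500) (nat_lit 5) (nat_lit 645) (nat_lit 636) (nat_lit 279)) (XT.nd (nat_lit 78) (nat_lit 0) (nat_lit 0) (XT.lf (nat_lit 0) (nat_lit 15070968498) (nat_lit 1824) (nat_lit 16765191595) (nat_lit 1900) (nat_lit 12853302220) (nat_lit 476) (nat_lit 5) (nat_lit 500) (nat_lit 5) (nat_lit 501) (nat_lit 5) (nat_lit 646) (nat_lit 636) (nat_lit 278)) (XT.lf (nat_lit 76) (nat_lit 6192250163) (nat_lit 0) (nat_lit 10575998361) (nat_lit 1900) (nat_lit 28381576809) (nat_lit 477) (nat_lit 5) (nat_lit 476) (nat_lit 5) (nat_lit 501) (nat_lit 5) (nat_lit 647) (nat_lit 636) (nat_lit 277))))))) (XT.nd (nat_lit 80886) (nat_lit 0) (nat_lit 0) (XT.nd (nat_lit 80496)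 (nat_lit 0) (nat_lit 76) (XT.nd (nat_lit 156) (nat_lit 456) (nat_lit 0) (XT.nd (nat_lit 78) (nat_lit 0) (nat_lit 0) (XT.lf (nat_lit 0) (nat_lit 18683977864) (nat_lit 1824) (nat_lit 15854524779) (nat_lit 1900) (nat_lit 11077202951) (nat_lit 477) (nat_lit 5) (nat_lit 501) (nat_lit 5) (nat_lit 502) (nat_lit 5) (nat_lit 648) (nat_lit 636) (nat_lit 276)) (XT.lf (nat_lit 76) (nat_lit 7741487566) (nat_lit 0) (nat_lit 13015979978) (nat_lit 1900) (nat_lit 25331047051) (nat_lit 478) (nat_lit 5) (nat_lit 477) (nat_lit 5) (nat_lit 502) (nat_lit 5) (nat_lit 649) (nat_lit 636) (nat_lit 275))) (XT.nd (nat_lit 80184) (nat_lit 532) (nat_lit 0) (XT.lf (nat_lit 0) (nat_lit 23036706519) (nat_lit 1824) (nat_lit 14603654036) (nat_lit 1900) (nat_lit 8927133682) (nat_lit 478) (nat_lit 5) (nat_lit 502) (nat_lit 5) (nat_lit 503) (nat_lit 5) (nat_lit 650) (nat_lit 636) (nat_lit 274)) (XT.nd (nat_lit 78) (nat_lit 0) (nat_lit 0) (XT.lf (nat_lit 0) (nat_lit 3486620784) (nat_lit 1900) (nat_lit 8562254605) (nat_lit 1900) (nat_lit 8562254605)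 (nat_lit 471) (nat_lit 3) (nat_lit 496) (nat_lit 3) (nat_lit 496) (nat_lit 5) (nat_lit 637) (nat_lit 637) (nat_lit 286)) (XT.lf (nat_lit 76) (nat_lit 3364944733) (nat_lit 0) (nat_lit 3738641133) (nat_lit 1900) (nat_lit 34529682134) (nat_lit 472) (nat_lit 5) (nat_lit 471) (nat_lit 3) (nat_lit 496) (nat_lit 5) (nat_lit 638) (nat_lit 637) (nat_lit 285))))) (XT.nd (nat_lit 156) (nat_lit 0) (nat_lit 76) (XT.nd (nat_lit 78) (nat_lit 0) (nat_lit 0) (XT.lf (nat_lit 0) (nat_lit 7461750341) (nat_lit 1824) (nat_lit 17665747894) (nat_lit 1900) (nat_lit 16920493732) (nat_lit 472) (nat_lit 5) (nat_lit 496) (nat_lit 5) (nat_lit 497) (nat_lit 5) (nat_lit 639) (nat_lit 637) (nat_lit 284)) (XT.lf (nat_lit 76) (nat_lit 3367750016) (nat_lit 0) (nat_lit 4504955904) (nat_lit 1900) (nat_lit 34597391997) (nat_lit 473) (nat_lit 5) (nat_lit 472) (nat_lit 5) (nat_lit 497) (nat_lit 5) (nat_lit 640) (nat_lit 637) (nat_lit 283))) (XT.nd (nat_lit 78) (nat_lit 0) (nat_lit 0) (XT.lf (nat_lit 0) (nat_lit 8517558032) (nat_lit 1824) (nat_lit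 17945559791) (nat_lit 1900) (nat_lit 16433014676) (nat_lit 473) (nat_lit 5) (nat_lit 497) (nat_lit 5) (nat_lit 498) (nat_lit 5) (nat_lit 641) (nat_lit 637) (nat_lit 282)) (XT.nd (nat_lit 78) (nat_lit 0) (nat_lit 76) (XT.lf (nat_lit 76) (nat_lit 3651878474) (nat_lit 0) (nat_lit 5576014362) (nat_lit 1900) (nat_lit 34101743280) (nat_lit 474) (nat_lit 5) (nat_lit 473) (nat_lit 5) (nat_lit 498) (nat_lit 5) (nat_lit 642) (nat_lit 637) (nat_lit 281)) (XT.lf (nat_lit 0) (nat_lit 10174836971) (nat_lit 1824) (nat_lit 17948362992) (nat_lit 1900) (nat_lit 15644161847) (nat_lit 474) (nat_lit 5) (nat_lit 498) (nat_lit 5) (nat_lit 499) (nat_lit 5) (nat_lit 643) (nat_lit 637) (nat_lit 280)))))) (XT.nd (nat_lit 390) (nat_lit 228) (nat_lit 0) (XT.nd (nat_lit 156) (nat_lit 0) (nat_lit 76) (XT.nd (nat_lit 78) (nat_lit 0) (nat_lit 76) (XT.lf (nat_lit 76) (nat_lit 4233664196) (nat_lit 0) (nat_lit 6970548215) (nat_lit 1900) (nat_lit 33008359814) (nat_lit 475) (nat_lit 5) (nat_lit 474) (nat_lit 5) (nat_lit 499) (nat_lit 5) (nat_lit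 644) (nat_lit 637) (nat_lit 279)) (XT.lf (nat_lit 0) (nat_lit 12469336590) (nat_lit 1824) (nat_lit 17657845554) (nat_lit 1900) (nat_lit 14535201535) (nat_lit 475) (nat_lit 5) (nat_lit 499) (nat_lit 5) (nat_lit 500) (nat_lit 5) (nat_lit 645) (nat_lit 637) (nat_lit 278))) (XT.nd (nat_lit 78) (nat_lit 0) (nat_lit 76) (XT.lf (nat_lit 76) (nat_lit 5130199999) (nat_lit 0) (nat_lit 8708146510) (nat_lit 1900) (nat_lit 31281273242) (nat_lit 476) (nat_lit 5) (nat_lit 475) (nat_lit 5) (nat_lit 500) (nat_lit 5) (nat_lit 646) (nat_lit 637) (nat_lit 277)) (XT.nd (nat_lit 78) (nat_lit 0) (nat_lit 0) (XT.lf (nat_lit 0) (nat_lit 15438451545) (nat_lit 1824) (nat_lit 17056936069) (nat_lit 1900) (nat_lit 13086538684) (nat_lit 476) (nat_lit 5) (nat_lit 500) (nat_lit 5) (nat_lit 501) (nat_lit 5) (nat_lit 647) (nat_lit 637) (nat_lit 276)) (XT.lf (nat_lit 76) (nat_lit 6359367950) (nat_lit 0) (nat_lit 10809294812) (nat_lit 1900) (nat_lit 28882854184) (nat_lit 477) (nat_lit 5) (nat_lit 476) (nat_lit 5) (nat_lit 501) (nat_lit 5)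 (nat_lit 648) (nat_lit 637) (nat_lit 275))))) (XT.nd (nat_lit 80418) (nat_lit 0) (nat_lit 0) (XT.nd (nat_lit 78) (nat_lit 456) (nat_lit 0) (XT.lf (nat_lit 0) (nat_lit 19121292597) (nat_lit 1824) (nat_lit 16127773054) (nat_lit 1900) (nat_lit 11277677519) (nat_lit 477) (nat_lit 5) (nat_lit 501) (nat_lit 5) (nat_lit 502) (nat_lit 5) (nat_lit 649) (nat_lit 637) (nat_lit 274)) (XT.nd (nat_lit 80262) (nat_lit 456) (nat_lit 0) (XT.lf (nat_lit 76) (nat_lit 7939871103) (nat_lit 0) (nat_lit 13295416000) (nat_lit 1900) (nat_lit 25773740623) (nat_lit 478) (nat_lit 5) (nat_lit 477) (nat_lit 5) (nat_lit 502) (nat_lit 5) (nat_lit 650) (nat_lit 637) (nat_lit 273)) (XT.lf (nat_lit 0) (nat_lit 3594865944) (nat_lit 1900) (nat_lit 8713857029) (nat_lit 1900) (nat_lit 8713857029) (nat_lit 471) (nat_lit 3) (nat_lit 496) (nat_lit 3) (nat_lit 496) (nat_lit 5) (nat_lit 638) (nat_lit 638) (nat_lit 284)))) (XT.nd (nat_lit 78) (nat_lit 0) (nat_lit 76) (XT.lf (nat_lit 76) (nat_lit 3471270507) (nat_lit 0) (nat_lit 3850155650) (nat_lit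 1900) (nat_lit 35142987251) (nat_lit 472) (nat_lit 5) (nat_lit 471) (nat_lit 3) (nat_lit 496) (nat_lit 5) (nat_lit 639) (nat_lit 638) (nat_lit 283)) (XT.nd (nat_lit 78) (nat_lit 0) (nat_lit 0) (XT.lf (nat_lit 0) (nat_lit 7685034389) (nat_lit 1824) (nat_lit 17979077184) (nat_lit 1900) (nat_lit 17223354763) (nat_lit 472) (nat_lit 5) (nat_lit 496) (nat_lit 5) (nat_lit 497) (nat_lit 5) (nat_lit 640) (nat_lit 638) (nat_lit 282)) (XT.lf (nat_lit 76) (nat_lit 3474827621) (nat_lit 0) (nat_lit 4628187423) (nat_lit 1900) (nat_lit 35215023330) (nat_lit 473) (nat_lit 5) (nat_lit 472) (nat_lit 5) (nat_lit 497) (nat_lit 5) (nat_lit 641) (nat_lit 638) (nat_lit 281))))))))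
noncomputable def xc255 : XT := (XT.nd (nat_lit 162396) (nat_lit 0) (nat_lit 0) (XT.nd (nat_lit 81120) (nat_lit 0) (nat_lit 0) (XT.nd (nat_lit 390) (nat_lit 152) (nat_lit 0) (XT.nd (nat_lit 156) (nat_lit 0) (nat_lit 76) (XT.nd (nat_lit 78) (nat_lit 0) (nat_lit 0) (XT.lf (nat_lit 0) (nat_lit 8759124768) (nat_lit 1824) (nat_lit 18263883512) (nat_lit 1900) (nat_lit 16729618241) (nat_lit 473) (nat_lit 5) (nat_lit 497) (nat_lit 5) (nat_lit 498) (nat_lit 5) (nat_lit 642) (nat_lit 638) (nat_lit 280)) (XT.lf (nat_lit 76) (nat_lit 3765236495) (nat_lit 0) (nat_lit 5717295176) (nat_lit 1900) (nat_lit 34712291316) (nat_lit 474) (nat_lit 5) (nat_lit 473) (nat_lit 5) (nat_lit 498) (nat_lit 5) (nat_lit 643) (nat_lit 638) (nat_lit 279))) (XT.nd (nat_lit 78) (nat_lit 0) (nat_lit 0) (XT.lf (nat_lit 0) (nat_lit 10446851116) (nat_lit 1824) (nat_lit 18266232676) (nat_lit 1900) (nat_lit 15928250758) (nat_lit 474) (nat_lit 5) (nat_lit 498) (nat_lit 5) (nat_lit 499) (nat_lit 5) (nat_lit 644) (nat_lit 638) (nat_lit 278)) (XT.nd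 (nat_lit 78) (nat_lit 0) (nat_lit 76) (XT.lf (nat_lit 76) (nat_lit 4359164677) (nat_lit 0) (nat_lit 7136570987) (nat_lit 1900) (nat_lit 33599735159) (nat_lit 475) (nat_lit 5) (nat_lit 474) (nat_lit 5) (nat_lit 499) (nat_lit 5) (nat_lit 645) (nat_lit 638) (nat_lit 277)) (XT.lf (nat_lit 0) (nat_lit 12784670599) (nat_lit 1824) (nat_lit 17969480087) (nat_lit 1900) (nat_lit 14800157734) (nat_lit 475) (nat_lit 5) (nat_lit 499) (nat_lit 5) (nat_lit 500) (nat_lit 5) (nat_lit 646) (nat_lit 638) (nat_lit 276))))) (XT.nd (nat_lit 156) (nat_lit 304) (nat_lit 0) (XT.nd (nat_lit 78) (nat_lit 0) (nat_lit 76) (XT.lf (nat_lit 76) (nat_lit 5274053204) (nat_lit 0) (nat_lit 8905982246) (nat_lit 1900) (nat_lit 31840674346) (nat_lit 476) (nat_lit 5) (nat_lit 475) (nat_lit 5) (nat_lit 500) (nat_lit 5) (nat_lit 647) (nat_lit 638) (nat_lit 275)) (XT.lf (nat_lit 0) (nat_lit 15810718921) (nat_lit 1824) (nat_lit 17356206895) (nat_lit 1900) (nat_lit 13325365209) (nat_lit 476) (nat_lit 5) (nat_lit 500) (nat_lit 5) (nat_lit 501) (nat_lit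 5) (nat_lit 648) (nat_lit 638) (nat_lit 274))) (XT.nd (nat_lit 80418) (nat_lit 380) (nat_lit 0) (XT.lf (nat_lit 76) (nat_lit 6528147757) (nat_lit 0) (nat_lit 11046411584) (nat_lit 1900) (nat_lit 29396733720) (nat_lit 477) (nat_lit 5) (nat_lit 476) (nat_lit 5) (nat_lit 501) (nat_lit 5) (nat_lit 649) (nat_lit 638) (nat_lit 273)) (XT.nd (nat_lit 78) (nat_lit 0) (nat_lit 0) (XT.lf (nat_lit 0) (nat_lit 3703780511) (nat_lit 1900) (nat_lit 8869254251) (nat_lit 1900) (nat_lit 8869254251) (nat_lit 471) (nat_lit 3) (nat_lit 496) (nat_lit 3) (nat_lit 496) (nat_lit 5) (nat_lit 639) (nat_lit 639) (nat_lit 282)) (XT.lf (nat_lit 76) (nat_lit 3578207335) (nat_lit 0) (nat_lit 3962473733) (nat_lit 1900) (nat_lit 35771559679) (nat_lit 472) (nat_lit 5) (nat_lit 471) (nat_lit 3) (nat_lit 496) (nat_lit 5) (nat_lit 640) (nat_lit 639) (nat_lit 281)))))) (XT.nd (nat_lit 390) (nat_lit 76) (nat_lit 0) (XT.nd (nat_lit 156) (nat_lit 0) (nat_lit 76) (XT.nd (nat_lit 78) (nat_lit 0) (nat_lit 0) (XT.lf (nat_lit 0) (nat_lit 7909908704)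 (nat_lit 1824) (nat_lit 18300225751) (nat_lit 1900) (nat_lit 17533653419) (nat_lit 472) (nat_lit 5) (nat_lit 496) (nat_lit 5) (nat_lit 497) (nat_lit 5) (nat_lit 641) (nat_lit 639) (nat_lit 280)) (XT.lf (nat_lit 76) (nat_lit 3582504301) (nat_lit 0) (nat_lit 4752597000) (nat_lit 1900) (nat_lit 35847893090) (nat_lit 473) (nat_lit 5) (nat_lit 472) (nat_lit 5) (nat_lit 497) (nat_lit 5) (nat_lit 642) (nat_lit 639) (nat_lit 279))) (XT.nd (nat_lit 78) (nat_lit 0) (nat_lit 0) (XT.lf (nat_lit 0) (nat_lit 9002757452) (nat_lit 1824) (nat_lit 18590149768) (nat_lit 1900) (nat_lit 17033398680) (nat_lit 473) (nat_lit 5) (nat_lit 497) (nat_lit 5) (nat_lit 498) (nat_lit 5) (nat_lit 643) (nat_lit 639) (nat_lit 278)) (XT.nd (nat_lit 78) (nat_lit 0) (nat_lit 76) (XT.lf (nat_lit 76) (nat_lit 3879295985) (nat_lit 0) (nat_lit 5860245970) (nat_lit 1900) (nat_lit 35337826233) (nat_lit 474) (nat_lit 5) (nat_lit 473) (nat_lit 5) (nat_lit 498) (nat_lit 5) (nat_lit 644) (nat_lit 639) (nat_lit 277)) (XT.lf (nat_lit 0) (nat_lit 10721644931)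 (nat_lit 1824) (nat_lit 18592055622) (nat_lit 1900) (nat_lit 16219139566) (nat_lit 474) (nat_lit 5) (nat_lit 498) (nat_lit 5) (nat_lit 499) (nat_lit 5) (nat_lit 645) (nat_lit 639) (nat_lit 276))))) (XT.nd (nat_lit 156) (nat_lit 228) (nat_lit 0) (XT.nd (nat_lit 78) (nat_lit 0) (nat_lit 76) (XT.lf (nat_lit 76) (nat_lit 4485589798) (nat_lit 0) (nat_lit 7304880846) (nat_lit 1900) (nat_lit 34205609282) (nat_lit 475) (nat_lit 5) (nat_lit 474) (nat_lit 5) (nat_lit 499) (nat_lit 5) (nat_lit 646) (nat_lit 639) (nat_lit 275)) (XT.lf (nat_lit 0) (nat_lit 13103750476) (nat_lit 1824) (nat_lit 18288959676) (nat_lit 1900) (nat_lit 15071412876) (nat_lit 475) (nat_lit 5) (nat_lit 499) (nat_lit 5) (nat_lit 500) (nat_lit 5) (nat_lit 647) (nat_lit 639) (nat_lit 274))) (XT.nd (nat_lit 80574) (nat_lit 304) (nat_lit 0) (XT.lf (nat_lit 76) (nat_lit 5419181716) (nat_lit 0) (nat_lit 9106855454) (nat_lit 1900) (nat_lit 32413835046) (nat_lit 476) (nat_lit 5) (nat_lit 475) (nat_lit 5) (nat_lit 500) (nat_lit 5) (nat_lit 648) (nat_lit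 639) (nat_lit 273)) (XT.nd (nat_lit 78) (nat_lit 0) (nat_lit 0) (XT.lf (nat_lit 0) (nat_lit 3813435944) (nat_lit 1900) (nat_lit 9028492547) (nat_lit 1900) (nat_lit 9028492547) (nat_lit 471) (nat_lit 3) (nat_lit 496) (nat_lit 3) (nat_lit 496) (nat_lit 5) (nat_lit 640) (nat_lit 640) (nat_lit 280)) (XT.lf (nat_lit 76) (nat_lit 3685826285) (nat_lit 0) (nat_lit 4075666854) (nat_lit 1900) (nat_lit 36415588222) (nat_lit 472) (nat_lit 5) (nat_lit 471) (nat_lit 3) (nat_lit 496) (nat_lit 5) (nat_lit 641) (nat_lit 640) (nat_lit 279))))))) (XT.nd (nat_lit 81354) (nat_lit 0) (nat_lit 0) (XT.nd (nat_lit 390) (nat_lit 76) (nat_lit 0) (XT.nd (nat_lit 156) (nat_lit 0) (nat_lit 76) (XT.nd (nat_lit 78) (nat_lit 0) (nat_lit 0) (XT.lf (nat_lit 0) (nat_lit 8136516746) (nat_lit 1824) (nat_lit 18629289689) (nat_lit 1900) (nat_lit 17851484850) (nat_lit 472) (nat_lit 5) (nat_lit 496) (nat_lit 5) (nat_lit 497) (nat_lit 5) (nat_lit 642) (nat_lit 640) (nat_lit 278)) (XT.lf (nat_lit 76) (nat_lit 3690851934) (nat_lit 0) (nat_lit 4878258157)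 (nat_lit 1900) (nat_lit 36496193987) (nat_lit 473) (nat_lit 5) (nat_lit 472) (nat_lit 5) (nat_lit 497) (nat_lit 5) (nat_lit 643) (nat_lit 640) (nat_lit 277))) (XT.nd (nat_lit 78) (nat_lit 0) (nat_lit 0) (XT.lf (nat_lit 0) (nat_lit 9248604785) (nat_lit 1824) (nat_lit 18924456211) (nat_lit 1900) (nat_lit 17344451191) (nat_lit 473) (nat_lit 5) (nat_lit 497) (nat_lit 5) (nat_lit 498) (nat_lit 5) (nat_lit 644) (nat_lit 640) (nat_lit 276)) (XT.nd (nat_lit 78) (nat_lit 0) (nat_lit 76) (XT.lf (nat_lit 76) (nat_lit 3994131769) (nat_lit 0) (nat_lit 6004945016) (nat_lit 1900) (nat_lit 35978539977) (nat_lit 474) (nat_lit 5) (nat_lit 473) (nat_lit 5) (nat_lit 498) (nat_lit 5) (nat_lit 645) (nat_lit 640) (nat_lit 275)) (XT.lf (nat_lit 0) (nat_lit 10999377321) (nat_lit 1824) (nat_lit 18925928927) (nat_lit 1900) (nat_lit 16516920851) (nat_lit 474) (nat_lit 5) (nat_lit 498) (nat_lit 5) (nat_lit 499) (nat_lit 5) (nat_lit 646) (nat_lit 640) (nat_lit 274))))) (XT.nd (nat_lit 80730) (nat_lit 228) (nat_lit 0) (XT.nd (nat_lit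 78) (nat_lit 0) (nat_lit 76) (XT.lf (nat_lit 76) (nat_lit 4613019614) (nat_lit 0) (nat_lit 7475563659) (nat_lit 1900) (nat_lit 34826168430) (nat_lit 475) (nat_lit 5) (nat_lit 474) (nat_lit 5) (nat_lit 499) (nat_lit 5) (nat_lit 647) (nat_lit 640) (nat_lit 273)) (XT.lf (nat_lit 0) (nat_lit 13426750576) (nat_lit 1824) (nat_lit 18616378610) (nat_lit 1900) (nat_lit 15349054116) (nat_lit 475) (nat_lit 5) (nat_lit 499) (nat_lit 5) (nat_lit 500) (nat_lit 5) (nat_lit 648) (nat_lit 640) (nat_lit 272))) (XT.nd (nat_lit 78) (nat_lit 0) (nat_lit 0) (XT.lf (nat_lit 0) (nat_lit 3923902878) (nat_lit 1900) (nat_lit 9191620272) (nat_lit 1900) (nat_lit 9191620272) (nat_lit 471) (nat_lit 3) (nat_lit 496) (nat_lit 3) (nat_lit 496) (nat_lit 5) (nat_lit 641) (nat_lit 641) (nat_lit 278)) (XT.nd (nat_lit 78) (nat_lit 0) (nat_lit 76) (XT.lf (nat_lit 76) (nat_lit 3794197563) (nat_lit 0) (nat_lit 4189805765) (nat_lit 1900) (nat_lit 37075269988) (nat_lit 472) (nat_lit 5) (nat_lit 471) (nat_lit 3) (nat_lit 496) (nat_lit 5) (nat_lit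 642) (nat_lit 641) (nat_lit 277)) (XT.lf (nat_lit 0) (nat_lit 8365000511) (nat_lit 1824) (nat_lit 18966369354) (nat_lit 1900) (nat_lit 18176948191) (nat_lit 472) (nat_lit 5) (nat_lit 496) (nat_lit 5) (nat_lit 497) (nat_lit 5) (nat_lit 643) (nat_lit 641) (nat_lit 276)))))) (XT.nd (nat_lit 81120) (nat_lit 0) (nat_lit 0) (XT.nd (nat_lit 156) (nat_lit 76) (nat_lit 0) (XT.nd (nat_lit 78) (nat_lit 0) (nat_lit 76) (XT.lf (nat_lit 76) (nat_lit 3799941509) (nat_lit 0) (nat_lit 5005243943) (nat_lit 1900) (nat_lit 37160126935) (nat_lit 473) (nat_lit 5) (nat_lit 472) (nat_lit 5) (nat_lit 497) (nat_lit 5) (nat_lit 644) (nat_lit 641) (nat_lit 275)) (XT.lf (nat_lit 0) (nat_lit 9496814274) (nat_lit 1824) (nat_lit 19266904819) (nat_lit 1900) (nat_lit 17662874758) (nat_lit 473) (nat_lit 5) (nat_lit 497) (nat_lit 5) (nat_lit 498) (nat_lit 5) (nat_lit 645) (nat_lit 641) (nat_lit 274))) (XT.nd (nat_lit 78) (nat_lit 152) (nat_lit 0) (XT.lf (nat_lit 76) (nat_lit 4109817812) (nat_lit 0) (nat_lit 6151470413) (nat_lit 1900) (nat_lit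 36634632518) (nat_lit 474) (nat_lit 5) (nat_lit 473) (nat_lit 5) (nat_lit 498) (nat_lit 5) (nat_lit 646) (nat_lit 641) (nat_lit 273)) (XT.nd (nat_lit 80808) (nat_lit 228) (nat_lit 0) (XT.lf (nat_lit 0) (nat_lit 11280206364) (nat_lit 1824) (nat_lit 19267954034) (nat_lit 1900) (nat_lit 16821690730) (nat_lit 474) (nat_lit 5) (nat_lit 498) (nat_lit 5) (nat_lit 499) (nat_lit 5) (nat_lit 647) (nat_lit 641) (nat_lit 272)) (XT.lf (nat_lit 0) (nat_lit 4035251192) (nat_lit 1900) (nat_lit 9358687849) (nat_lit 1900) (nat_lit 9358687849) (nat_lit 471) (nat_lit 3) (nat_lit 496) (nat_lit 3) (nat_lit 496) (nat_lit 5) (nat_lit 642) (nat_lit 642) (nat_lit 276))))) (XT.nd (nat_lit 234) (nat_lit 0) (nat_lit 0) (XT.nd (nat_lit 78) (nat_lit 0) (nat_lit 76) (XT.lf (nat_lit 76) (nat_lit 3903390579) (nat_lit 0) (nat_lit 4304960563) (nat_lit 1900) (nat_lit 37750810376) (nat_lit 472) (nat_lit 5) (nat_lit 471) (nat_lit 3) (nat_lit 496) (nat_lit 5) (nat_lit 643) (nat_lit 642) (nat_lit 275)) (XT.nd (nat_lit 78) (nat_lit 0) (nat_lit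 0) (XT.lf (nat_lit 0) (nat_lit 8595500665) (nat_lit 1824) (nat_lit 19311569358) (nat_lit 1900) (nat_lit 18510146559) (nat_lit 472) (nat_lit 5) (nat_lit 496) (nat_lit 5) (nat_lit 497) (nat_lit 5) (nat_lit 644) (nat_lit 642) (nat_lit 274)) (XT.lf (nat_lit 76) (nat_lit 3909843200) (nat_lit 0) (nat_lit 5133627006) (nat_lit 1900) (nat_lit 37839901051) (nat_lit 473) (nat_lit 5) (nat_lit 472) (nat_lit 5) (nat_lit 497) (nat_lit 5) (nat_lit 645) (nat_lit 642) (nat_lit 273)))) (XT.nd (nat_lit 81042) (nat_lit 152) (nat_lit 0) (XT.lf (nat_lit 0) (nat_lit 9747532368) (nat_lit 1824) (nat_lit 19617601896) (nat_lit 1900) (nat_lit 17988772144) (nat_lit 473) (nat_lit 5) (nat_lit 497) (nat_lit 5) (nat_lit 498) (nat_lit 5) (nat_lit 646) (nat_lit 642) (nat_lit 272)) (XT.nd (nat_lit 78) (nat_lit 0) (nat_lit 76) (XT.lf (nat_lit 76) (nat_lit 4013474025) (nat_lit 0) (nat_lit 4421200761) (nat_lit 1900) (nat_lit 38442423073) (nat_lit 472) (nat_lit 5) (nat_lit 471) (nat_lit 3) (nat_lit 496) (nat_lit 5) (nat_lit 644) (nat_lit 643)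 (nat_lit 273)) (XT.lf (nat_lit 0) (nat_lit 8828156684) (nat_lit 1824) (nat_lit 19664998570) (nat_lit 1900) (nat_lit 18851187056) (nat_lit 472) (nat_lit 5) (nat_lit 496) (nat_lit 5) (nat_lit 497) (nat_lit 5) (nat_lit 645) (nat_lit 643) (nat_lit 272))))))))

set_option maxRecDepth 10000000 in
noncomputable def Tp : PT := (PT.nd (nat_lit 21620820) (PT.nd (nat_lit 19913790) (PT.nd (nat_lit 18371886) (PT.nd (nat_lit 17074122) (PT.nd (nat_lit 16181256) (PT.nd (nat_lit 15612792) pc0 pc1) (PT.nd (nat_lit 486954) pc2 pc3)) (PT.nd (nat_lit 729846) (PT.nd (nat_lit 405132) pc4 pc5) (PT.nd (nat_lit 244296) pc6 pc7))) (PT.nd (nat_lit 812994) (PT.nd (nat_lit 407082) (PT.nd (nat_lit 243438) pc8 pc9) (PT.nd (nat_lit 242814) pc10 pc11)) (PT.nd (nat_lit 404586) (PT.nd (nat_lit 241956) pc12 pc13) (PT.nd (nat_lit 162318) pc14 pc15)))) (PT.nd (nat_lit 975000) (PT.nd (nat_lit 488904) (PT.nd (nat_lit 244764) (PT.nd (nat_lit 161616) pc16 pc17) (PT.nd (nat_lit 161226) pc18 pc19)) (PT.nd (nat_lit 243360) (PT.nd (nat_lit 160680) pc20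 pc21) (PT.nd (nat_lit 160290) pc22 pc23))) (PT.nd (nat_lit 405600) (PT.nd (nat_lit 241722) (PT.nd (nat_lit 82290) pc24 pc25) (PT.nd (nat_lit 81978) pc26 pc27)) (PT.nd (nat_lit 163488) (PT.nd (nat_lit 81822) pc28 pc29) (PT.nd (nat_lit 81510) pc30 pc31))))) (PT.nd (nat_lit 1135680) (PT.nd (nat_lit 646854) (PT.nd (nat_lit 324480) (PT.nd (nat_lit 162474) (PT.nd (nat_lit 81276) pc32 pc33) (PT.nd (nat_lit 81042) pc34 pc35)) (PT.nd (nat_lit 161382) (PT.nd (nat_lit 80730) pc36 pc37) (PT.nd (nat_lit 80574) pc38 pc39))) (PT.nd (nat_lit 245076) (PT.nd (nat_lit 160290) (PT.nd (nat_lit 80184) pc40 pc41) (PT.nd (nat_lit 4836) pc42 pc43)) (PT.nd (nat_lit 159432) (PT.nd (nat_lit 79794) pc44 pc45) (PT.nd (nat_lit 79482) pc46 pc47)))) (PT.nd (nat_lit 487422) (PT.nd (nat_lit 242268) (PT.nd (nat_lit 158418) (PT.nd (nat_lit 79248) pc48 pc49) (PT.nd (nat_lit 4836) pc50 pc51)) (PT.nd (nat_lit 83616) (PT.nd (nat_lit 78780) pc52 pc53) (PT.nd (nat_lit 80418) pc54 pc55))) (PT.nd (nat_lit 406848) (PT.nd (nat_lit 163488) (PT.nd (nat_lit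 81510) pc56 pc57) (PT.nd (nat_lit 155610) pc58 pc59)) (PT.nd (nat_lit 317928) (PT.nd (nat_lit 155922) pc60 pc61) (PT.nd (nat_lit 170274) pc62 pc63))))))

set_option maxRecDepth 10000000 in
noncomputable def Tx : XT := (XT.nd (nat_lit 38130378) (nat_lit 0) (nat_lit 5928) XT.nil (XT.nd (nat_lit 14130324) (nat_lit 0) (nat_lit 0) (XT.nd (nat_lit 6655818) (nat_lit 0) (nat_lit 4712) (XT.nd (nat_lit 4057482) (nat_lit 0) (nat_lit 4788) (XT.nd (nat_lit 2838498) (nat_lit 0) (nat_lit 2204) (XT.nd (nat_lit 1947426) (nat_lit 0) (nat_lit 988) (XT.nd (nat_lit 1377870) (nat_lit 0) (nat_lit 456) (XT.nd (nat_lit 892944) (nat_lit 0) (nat_lit 228) (XT.nd (nat_lit 648414) (nat_lit 0) (nat_lit 0) (XT.nd (nat_lit 405600) (nat_lit 0) (nat_lit 0) xc0 xc1) (XT.nd (nat_lit 162084) (nat_lit 0) (nat_lit 228) xc2 xc3)) (XT.nd (nat_lit 243126) (nat_lit 0) (nat_lit 0) (XT.nd (nat_lit 161148) (nat_lit 0) (nat_lit 0) xc4 xc5) (XT.nd (nat_lit 81822) (nat_lit 0) (nat_lit 0) xc6 xc7))) (XT.nd (nat_lit 324480) (nat_lit 0) (nat_lit 304) (XT.nd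 (nat_lit 162474) (nat_lit 0) (nat_lit 0) (XT.nd (nat_lit 81276) (nat_lit 0) (nat_lit 0) xc8 xc9) (XT.nd (nat_lit 81042) (nat_lit 0) (nat_lit 304) xc10 xc11)) (XT.nd (nat_lit 83928) (nat_lit 0) (nat_lit 228) (XT.nd (nat_lit 80730) (nat_lit 0) (nat_lit 836) xc12 xc13) (XT.nd (nat_lit 80652) (nat_lit 0) (nat_lit 0) xc14 xc15)))) (XT.nd (nat_lit 485862) (nat_lit 0) (nat_lit 608) (XT.nd (nat_lit 243594) (nat_lit 0) (nat_lit 228) (XT.nd (nat_lit 160446) (nat_lit 0) (nat_lit 228) (XT.nd (nat_lit 80262) (nat_lit 0) (nat_lit 0) xc16 xc17) (XT.nd (nat_lit 3120) (nat_lit 988) (nat_lit 0) xc18 xc19)) (XT.nd (nat_lit 159510) (nat_lit 0) (nat_lit 380) (XT.nd (nat_lit 79794) (nat_lit 0) (nat_lit 76) xc20 xc21) (XT.nd (nat_lit 3198) (nat_lit 3572) (nat_lit 0) xc22 xc23))) (XT.nd (nat_lit 165048) (nat_lit 0) (nat_lit 228) (XT.nd (nat_lit 82524) (nat_lit 0) (nat_lit 228) (XT.nd (nat_lit 79326) (nat_lit 0) (nat_lit 5168) xc24 xc25) (XT.nd (nat_lit 79326) (nat_lit 0) (nat_lit 380) xc26 xc27)) (XT.nd (nat_lit 158106) (nat_lit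 0) (nat_lit 380) (XT.nd (nat_lit 79092) (nat_lit 0) (nat_lit 380) xc28 xc29) (XT.nd (nat_lit 3198) (nat_lit 3724) (nat_lit 0) xc30 xc31))))) (XT.nd (nat_lit 650754) (nat_lit 0) (nat_lit 1140) (XT.nd (nat_lit 326430) (nat_lit 0) (nat_lit 836) (XT.nd (nat_lit 163488) (nat_lit 0) (nat_lit 228) (XT.nd (nat_lit 81822) (nat_lit 0) (nat_lit 228) (XT.nd (nat_lit 3120) (nat_lit 1216) (nat_lit 0) xc32 xc33) (XT.nd (nat_lit 78468) (nat_lit 0) (nat_lit 9424) xc34 xc35)) (XT.nd (nat_lit 81510) (nat_lit 0) (nat_lit 304) (XT.nd (nat_lit 78312) (nat_lit 0) (nat_lit 7904) xc36 xc37) (XT.nd (nat_lit 78234) (nat_lit 0) (nat_lit 6536) xc38 xc39))) (XT.nd (nat_lit 162474) (nat_lit 0) (nat_lit 304) (XT.nd (nat_lit 81276) (nat_lit 0) (nat_lit 0) (XT.nd (nat_lit 78078) (nat_lit 0) (nat_lit 6232) xc40 xc41) (XT.nd (nat_lit 78000) (nat_lit 0) (nat_lit 6232) xc42 xc43)) (XT.nd (nat_lit 80964) (nat_lit 0) (nat_lit 0) (XT.nd (nat_lit 77766) (nat_lit 0) (nat_lit 7372) xc44 xc45) (XT.nd (nat_lit 77688) (nat_lit 0) (nat_lit 8968) xc46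 xc47)))) (XT.nd (nat_lit 321906) (nat_lit 0) (nat_lit 988) (XT.nd (nat_lit 161148) (nat_lit 0) (nat_lit 684) (XT.nd (nat_lit 80652) (nat_lit 0) (nat_lit 304) (XT.nd (nat_lit 77454) (nat_lit 0) (nat_lit 11856) xc48 xc49) (XT.nd (nat_lit 77298) (nat_lit 0) (nat_lit 16264) xc50 xc51)) (XT.nd (nat_lit 80418) (nat_lit 0) (nat_lit 0) (XT.nd (nat_lit 3120) (nat_lit 1064) (nat_lit 0) xc52 xc53) (XT.nd (nat_lit 3198) (nat_lit 3496) (nat_lit 0) xc54 xc55))) (XT.nd (nat_lit 160134) (nat_lit 0) (nat_lit 380) (XT.nd (nat_lit 80106) (nat_lit 0) (nat_lit 0) (XT.nd (nat_lit 3120) (nat_lit 7448) (nat_lit 0) xc56 xc57) (XT.nd (nat_lit 3198) (nat_lit 13452) (nat_lit 0) xc58 xc59)) (XT.nd (nat_lit 6318) (nat_lit 3572) (nat_lit 0) (XT.nd (nat_lit 3120) (nat_lit 18164) (nat_lit 0) xc60 xc61) (XT.nd (nat_lit 76674) (nat_lit 0) (nat_lit 9804) xc62 xc63)))))) (XT.nd (nat_lit 1137084) (nat_lit 0) (nat_lit 3496) (XT.nd (nat_lit 566202) (nat_lit 0) (nat_lit 1824) (XT.nd (nat_lit 245700) (nat_lit 0) (nat_lit 684) (XT.nd (nat_lit 159432)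 (nat_lit 0) (nat_lit 684) (XT.nd (nat_lit 79638) (nat_lit 0) (nat_lit 304) (XT.nd (nat_lit 76440) (nat_lit 0) (nat_lit 19912) xc64 xc65) (XT.nd (nat_lit 3120) (nat_lit 2432) (nat_lit 0) xc66 xc67)) (XT.nd (nat_lit 79872) (nat_lit 0) (nat_lit 380) (XT.nd (nat_lit 3120) (nat_lit 8436) (nat_lit 0) xc68 xc69) (XT.nd (nat_lit 3198) (nat_lit 15504) (nat_lit 0) xc70 xc71))) (XT.nd (nat_lit 160056) (nat_lit 0) (nat_lit 380) (XT.nd (nat_lit 79950) (nat_lit 0) (nat_lit 380) (XT.nd (nat_lit 76752) (nat_lit 0) (nat_lit 5700) xc72 xc73) (XT.nd (nat_lit 76908) (nat_lit 0) (nat_lit 10564) xc74 xc75)) (XT.nd (nat_lit 80106) (nat_lit 0) (nat_lit 380) (XT.nd (nat_lit 76908) (nat_lit 0) (nat_lit 17936) xc76 xc77) (XT.nd (nat_lit 3198) (nat_lit 1216) (nat_lit 0) xc78 xc79)))) (XT.nd (nat_lit 247650) (nat_lit 0) (nat_lit 836) (XT.nd (nat_lit 160758) (nat_lit 0) (nat_lit 456) (XT.nd (nat_lit 80340) (nat_lit 0) (nat_lit 0) (XT.nd (nat_lit 3120) (nat_lit 4560) (nat_lit 0) xc80 xc81) (XT.nd (nat_lit 3120) (nat_lit 9120) (nat_lit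 0) xc82 xc83)) (XT.nd (nat_lit 80496) (nat_lit 0) (nat_lit 1216) (XT.nd (nat_lit 3120) (nat_lit 13452) (nat_lit 0) xc84 xc85) (XT.nd (nat_lit 3198) (nat_lit 16340) (nat_lit 0) xc86 xc87))) (XT.nd (nat_lit 161460) (nat_lit 0) (nat_lit 380) (XT.nd (nat_lit 80652) (nat_lit 0) (nat_lit 0) (XT.nd (nat_lit 77454) (nat_lit 0) (nat_lit 3192) xc88 xc89) (XT.nd (nat_lit 77610) (nat_lit 0) (nat_lit 4712) xc90 xc91)) (XT.nd (nat_lit 80808) (nat_lit 0) (nat_lit 76) (XT.nd (nat_lit 77610) (nat_lit 0) (nat_lit 6612) xc92 xc93) (XT.nd (nat_lit 77766) (nat_lit 0) (nat_lit 7752) xc94 xc95))))) (XT.nd (nat_lit 650988) (nat_lit 0) (nat_lit 2812) (XT.nd (nat_lit 324636) (nat_lit 0) (nat_lit 1368) (XT.nd (nat_lit 162084) (nat_lit 0) (nat_lit 456) (XT.nd (nat_lit 80964) (nat_lit 0) (nat_lit 456) (XT.nd (nat_lit 77766) (nat_lit 0) (nat_lit 9348) xc96 xc97) (XT.nd (nat_lit 77922) (nat_lit 0) (nat_lit 9576) xc98 xc99)) (XT.nd (nat_lit 81198) (nat_lit 0) (nat_lit 380) (XT.nd (nat_lit 78000) (nat_lit 0) (nat_lit 9576) xc100 xc101)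 (XT.nd (nat_lit 78156) (nat_lit 0) (nat_lit 8512) xc102 xc103))) (XT.nd (nat_lit 163020) (nat_lit 0) (nat_lit 456) (XT.nd (nat_lit 81432) (nat_lit 0) (nat_lit 456) (XT.nd (nat_lit 78234) (nat_lit 0) (nat_lit 7296) xc104 xc105) (XT.nd (nat_lit 78390) (nat_lit 0) (nat_lit 4940) xc106 xc107)) (XT.nd (nat_lit 81588) (nat_lit 0) (nat_lit 456) (XT.nd (nat_lit 78390) (nat_lit 0) (nat_lit 3724) xc108 xc109) (XT.nd (nat_lit 78546) (nat_lit 0) (nat_lit 1064) xc110 xc111)))) (XT.nd (nat_lit 403806) (nat_lit 0) (nat_lit 1596) (XT.nd (nat_lit 239382) (nat_lit 0) (nat_lit 988) (XT.nd (nat_lit 157404) (nat_lit 0) (nat_lit 532) (XT.nd (nat_lit 78624) (nat_lit 0) (nat_lit 0) xc112 xc113) (XT.nd (nat_lit 3120) (nat_lit 10260) (nat_lit 0) xc114 xc115)) (XT.nd (nat_lit 82134) (nat_lit 0) (nat_lit 76) (XT.nd (nat_lit 3120) (nat_lit 5548) (nat_lit 0) xc116 xc117) (XT.nd (nat_lit 3198) (nat_lit 1064) (nat_lit 0) xc118 xc119))) (XT.nd (nat_lit 241020) (nat_lit 0) (nat_lit 1064) (XT.nd (nat_lit 82290) (nat_lit 0) (nat_lit 532)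 (XT.nd (nat_lit 79092) (nat_lit 0) (nat_lit 6232) xc120 xc121) (XT.nd (nat_lit 79326) (nat_lit 0) (nat_lit 532) xc122 xc123)) (XT.nd (nat_lit 82602) (nat_lit 0) (nat_lit 608) (XT.nd (nat_lit 3120) (nat_lit 8892) (nat_lit 0) xc124 xc125) (XT.nd (nat_lit 3198) (nat_lit 608) (nat_lit 0) xc126 xc127))))))) (XT.nd (nat_lit 2681952) (nat_lit 0) (nat_lit 4408) (XT.nd (nat_lit 1385202) (nat_lit 0) (nat_lit 1064) (XT.nd (nat_lit 734838) (nat_lit 0) (nat_lit 0) (XT.nd (nat_lit 405912) (nat_lit 0) (nat_lit 0) (XT.nd (nat_lit 241800) (nat_lit 304) (nat_lit 0) (XT.nd (nat_lit 159432) (nat_lit 9956) (nat_lit 0) (XT.nd (nat_lit 79638) (nat_lit 0) (nat_lit 0) xc128 xc129) (XT.nd (nat_lit 3120) (nat_lit 18468) (nat_lit 0) xc130 xc131)) (XT.nd (nat_lit 82056) (nat_lit 0) (nat_lit 0) (XT.nd (nat_lit 3120) (nat_lit 12844) (nat_lit 0) xc132 xc133) (XT.nd (nat_lit 5070) (nat_lit 1900) (nat_lit 0) xc134 xc135))) (XT.nd (nat_lit 165672) (nat_lit 0) (nat_lit 0) (XT.nd (nat_lit 81978) (nat_lit 0) (nat_lit 0) (XT.nd (nat_lit 78780)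 (nat_lit 0) (nat_lit 17176) xc136 xc137) (XT.nd (nat_lit 78702) (nat_lit 0) (nat_lit 5852) xc138 xc139)) (XT.nd (nat_lit 81666) (nat_lit 0) (nat_lit 0) (XT.nd (nat_lit 76908) (nat_lit 0) (nat_lit 4028) xc140 xc141) (XT.nd (nat_lit 76986) (nat_lit 0) (nat_lit 3116) xc142 xc143)))) (XT.nd (nat_lit 325572) (nat_lit 0) (nat_lit 304) (XT.nd (nat_lit 162864) (nat_lit 0) (nat_lit 304) (XT.nd (nat_lit 81510) (nat_lit 0) (nat_lit 304) (XT.nd (nat_lit 76908) (nat_lit 0) (nat_lit 2280) xc144 xc145) (XT.nd (nat_lit 76986) (nat_lit 0) (nat_lit 1976) xc146 xc147)) (XT.nd (nat_lit 81432) (nat_lit 0) (nat_lit 0) (XT.nd (nat_lit 76986) (nat_lit 0) (nat_lit 1140) xc148 xc149) (XT.nd (nat_lit 77064) (nat_lit 0) (nat_lit 1140) xc150 xc151))) (XT.nd (nat_lit 162552) (nat_lit 0) (nat_lit 380) (XT.nd (nat_lit 81198) (nat_lit 0) (nat_lit 380) (XT.nd (nat_lit 77064) (nat_lit 0) (nat_lit 1596) xc152 xc153) (XT.nd (nat_lit 77220) (nat_lit 0) (nat_lit 760) xc154 xc155)) (XT.nd (nat_lit 81042) (nat_lit 0) (nat_lit 76) (XT.nd (nat_lit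 77142) (nat_lit 0) (nat_lit 1596) xc156 xc157) (XT.nd (nat_lit 77298) (nat_lit 0) (nat_lit 1900) xc158 xc159))))) (XT.nd (nat_lit 647088) (nat_lit 0) (nat_lit 1216) (XT.nd (nat_lit 323778) (nat_lit 0) (nat_lit 836) (XT.nd (nat_lit 162006) (nat_lit 0) (nat_lit 380) (XT.nd (nat_lit 81042) (nat_lit 0) (nat_lit 0) (XT.nd (nat_lit 77298) (nat_lit 0) (nat_lit 2052) xc160 xc161) (XT.nd (nat_lit 77298) (nat_lit 0) (nat_lit 3344) xc162 xc163)) (XT.nd (nat_lit 80886) (nat_lit 0) (nat_lit 0) (XT.nd (nat_lit 77376) (nat_lit 0) (nat_lit 4408) xc164 xc165) (XT.nd (nat_lit 77532) (nat_lit 0) (nat_lit 5928) xc166 xc167))) (XT.nd (nat_lit 161538) (nat_lit 0) (nat_lit 0) (XT.nd (nat_lit 80730) (nat_lit 0) (nat_lit 0) (XT.nd (nat_lit 77532) (nat_lit 0) (nat_lit 7676) xc168 xc169) (XT.nd (nat_lit 77610) (nat_lit 0) (nat_lit 9576) xc170 xc171)) (XT.nd (nat_lit 80808) (nat_lit 0) (nat_lit 380) (XT.nd (nat_lit 77610) (nat_lit 0) (nat_lit 12236) xc172 xc173) (XT.nd (nat_lit 77766) (nat_lit 0) (nat_lit 13376) xc174 xc175)))) (XT.nd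 (nat_lit 324246) (nat_lit 0) (nat_lit 836) (XT.nd (nat_lit 162006) (nat_lit 0) (nat_lit 380) (XT.nd (nat_lit 80964) (nat_lit 0) (nat_lit 380) (XT.nd (nat_lit 77766) (nat_lit 0) (nat_lit 14820) xc176 xc177) (XT.nd (nat_lit 3120) (nat_lit 836) (nat_lit 0) xc178 xc179)) (XT.nd (nat_lit 81042) (nat_lit 0) (nat_lit 456) (XT.nd (nat_lit 3120) (nat_lit 1748) (nat_lit 0) xc180 xc181) (XT.nd (nat_lit 3198) (nat_lit 1748) (nat_lit 0) xc182 xc183))) (XT.nd (nat_lit 162552) (nat_lit 0) (nat_lit 380) (XT.nd (nat_lit 81198) (nat_lit 0) (nat_lit 380) (XT.nd (nat_lit 3120) (nat_lit 2204) (nat_lit 0) xc184 xc185) (XT.nd (nat_lit 3198) (nat_lit 1824) (nat_lit 0) xc186 xc187)) (XT.nd (nat_lit 81354) (nat_lit 0) (nat_lit 456) (XT.nd (nat_lit 3120) (nat_lit 1824) (nat_lit 0) xc188 xc189) (XT.nd (nat_lit 3198) (nat_lit 912) (nat_lit 0) xc190 xc191)))))) (XT.nd (nat_lit 1543932) (nat_lit 0) (nat_lit 5776) (XT.nd (nat_lit 730470) (nat_lit 0) (nat_lit 2432) (XT.nd (nat_lit 326664) (nat_lit 0) (nat_lit 912) (XT.nd (nat_lit 163098)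 (nat_lit 0) (nat_lit 456) (XT.nd (nat_lit 81510) (nat_lit 0) (nat_lit 0) (XT.nd (nat_lit 78312) (nat_lit 0) (nat_lit 12692) xc192 xc193) (XT.nd (nat_lit 78390) (nat_lit 0) (nat_lit 11172) xc194 xc195)) (XT.nd (nat_lit 81666) (nat_lit 0) (nat_lit 0) (XT.nd (nat_lit 78468) (nat_lit 0) (nat_lit 8588) xc196 xc197) (XT.nd (nat_lit 78702) (nat_lit 0) (nat_lit 5320) xc198 xc199))) (XT.nd (nat_lit 239538) (nat_lit 0) (nat_lit 988) (XT.nd (nat_lit 81900) (nat_lit 0) (nat_lit 532) (XT.nd (nat_lit 78702) (nat_lit 0) (nat_lit 2584) xc200 xc201) (XT.nd (nat_lit 78780) (nat_lit 0) (nat_lit 0) xc202 xc203)) (XT.nd (nat_lit 82056) (nat_lit 0) (nat_lit 0) (XT.nd (nat_lit 3120) (nat_lit 10032) (nat_lit 0) xc204 xc205) (XT.nd (nat_lit 3198) (nat_lit 5776) (nat_lit 0) xc206 xc207)))) (XT.nd (nat_lit 405600) (nat_lit 0) (nat_lit 1596) (XT.nd (nat_lit 164502) (nat_lit 0) (nat_lit 532) (XT.nd (nat_lit 82212) (nat_lit 0) (nat_lit 76) (XT.nd (nat_lit 3120) (nat_lit 1064) (nat_lit 0) xc208 xc209) (XT.nd (nat_lit 79092) (nat_lit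 0) (nat_lit 6536) xc210 xc211)) (XT.nd (nat_lit 82368) (nat_lit 0) (nat_lit 532) (XT.nd (nat_lit 79170) (nat_lit 0) (nat_lit 1064) xc212 xc213) (XT.nd (nat_lit 79326) (nat_lit 0) (nat_lit 0) xc214 xc215))) (XT.nd (nat_lit 165360) (nat_lit 0) (nat_lit 1140) (XT.nd (nat_lit 82602) (nat_lit 0) (nat_lit 0) (XT.nd (nat_lit 3120) (nat_lit 3040) (nat_lit 0) xc216 xc217) (XT.nd (nat_lit 79560) (nat_lit 0) (nat_lit 4332) xc218 xc219)) (XT.nd (nat_lit 159432) (nat_lit 0) (nat_lit 608) (XT.nd (nat_lit 79638) (nat_lit 0) (nat_lit 0) xc220 xc221) (XT.nd (nat_lit 3198) (nat_lit 2584) (nat_lit 0) xc222 xc223))))) (XT.nd (nat_lit 1055652) (nat_lit 0) (nat_lit 6156) (XT.nd (nat_lit 487188) (nat_lit 0) (nat_lit 2584) (XT.nd (nat_lit 243126) (nat_lit 0) (nat_lit 1292) (XT.nd (nat_lit 159900) (nat_lit 0) (nat_lit 684) (XT.nd (nat_lit 79872) (nat_lit 0) (nat_lit 684) xc224 xc225) (XT.nd (nat_lit 3120) (nat_lit 6232) (nat_lit 0) xc226 xc227)) (XT.nd (nat_lit 83304) (nat_lit 0) (nat_lit 608) (XT.nd (nat_lit 80106) (nat_lit 0)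 (nat_lit 1292) xc228 xc229) (XT.nd (nat_lit 80340) (nat_lit 0) (nat_lit 684) xc230 xc231))) (XT.nd (nat_lit 244842) (nat_lit 0) (nat_lit 1368) (XT.nd (nat_lit 160992) (nat_lit 0) (nat_lit 684) (XT.nd (nat_lit 80418) (nat_lit 0) (nat_lit 684) xc232 xc233) (XT.nd (nat_lit 80652) (nat_lit 0) (nat_lit 3648) xc234 xc235)) (XT.nd (nat_lit 161616) (nat_lit 0) (nat_lit 1444) (XT.nd (nat_lit 80730) (nat_lit 0) (nat_lit 684) xc236 xc237) (XT.nd (nat_lit 80964) (nat_lit 0) (nat_lit 0) xc238 xc239)))) (XT.nd (nat_lit 730860) (nat_lit 0) (nat_lit 4940) (XT.nd (nat_lit 325260) (nat_lit 0) (nat_lit 2356) (XT.nd (nat_lit 162396) (nat_lit 0) (nat_lit 760) (XT.nd (nat_lit 81120) (nat_lit 0) (nat_lit 760) xc240 xc241) (XT.nd (nat_lit 81354) (nat_lit 0) (nat_lit 1596) xc242 xc243)) (XT.nd (nat_lit 163176) (nat_lit 0) (nat_lit 1748) (XT.nd (nat_lit 81510) (nat_lit 0) (nat_lit 836) xc244 xc245) (XT.nd (nat_lit 160446) (nat_lit 0) (nat_lit 836) xc246 xc247))) (XT.nd (nat_lit 487422) (nat_lit 0) (nat_lit 3876) (XT.nd (nat_lit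 243204) (nat_lit 0) (nat_lit 1824) (XT.nd (nat_lit 81978) (nat_lit 0) (nat_lit 912) xc248 xc249) (XT.nd (nat_lit 82368) (nat_lit 0) (nat_lit 988) xc250 xc251)) (XT.nd (nat_lit 324948) (nat_lit 0) (nat_lit 0) (XT.nd (nat_lit 162240) (nat_lit 0) (nat_lit 0) xc252 xc253) (XT.nd (nat_lit 243438) (nat_lit 0) (nat_lit 0) xc254 xc255)))))))) XT.nil))

set_option maxRecDepth 10000000 in
noncomputable def Te : XT := XT.nil

set_option maxRecDepth 10000000 in
noncomputable def Tz : ZL := (ZL.cons (nat_lit 76) (nat_lit 3) (nat_lit 233147309957715163858) (ZL.cons (nat_lit 152) (nat_lit 6) (nat_lit 461750747416354761034) (ZL.cons (nat_lit 5700) (nat_lit 3) (nat_lit 86728215466274694346) (ZL.cons (nat_lit 5928) (nat_lit 6) (nat_lit 171972652613557143018) (ZL.cons (nat_lit 6156) (nat_lit 6) (nat_lit 170523729636428340172) (ZL.cons (nat_lit 6232) (nat_lit 3) (nat_lit 85245891821124247377) (ZL.cons (nat_lit 6384) (nat_lit 6) (nat_lit 169109093796073910036) (ZL.cons (nat_lit 6460) (nat_lit 6) (nat_lit 169045828199756961270)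 (ZL.cons (nat_lit 6688) (nat_lit 6) (nat_lit 167634219244732545880) (ZL.cons (nat_lit 6764) (nat_lit 3) (nat_lit 83801449821297721266) (ZL.cons (nat_lit 6916) (nat_lit 6) (nat_lit 166256403205036023330) (ZL.cons (nat_lit 6992) (nat_lit 6) (nat_lit 166194378110607642186) (ZL.cons (nat_lit 7144) (nat_lit 6) (nat_lit 164911839760651826350) (ZL.cons (nat_lit 7220) (nat_lit 6) (nat_lit 164819711242408466978) (ZL.cons (nat_lit 7296) (nat_lit 3) (nat_lit 82394502875058594591) (ZL.cons (nat_lit 7524) (nat_lit 6) (nat_lit 163478359952951564286) (ZL.cons (nat_lit 7600) (nat_lit 6) (nat_lit 163417551036845308262) (ZL.cons (nat_lit 7752) (nat_lit 6) (nat_lit 162169798222123421606) (ZL.cons (nat_lit 7828) (nat_lit 6) (nat_lit 162079476145414245748) (ZL.cons (nat_lit 7904) (nat_lit 3) (nat_lit 81024686360799633760) (ZL.cons (nat_lit 8132) (nat_lit 6) (nat_lit 160774256340572460046) (ZL.cons (nat_lit 8208) (nat_lit 6) (nat_lit 160714639756154561984) (ZL.cons (nat_lit 8360) (nat_lit 6) (nat_lit 159501379771416091632) (ZL.cons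 (nat_lit 8436) (nat_lit 6) (nat_lit 159412828715818860402) (ZL.cons (nat_lit 8512) (nat_lit 3) (nat_lit 79691657777607970284) (ZL.cons (nat_lit 8664) (nat_lit 6) (nat_lit 158260347270663118404) (ZL.cons (nat_lit 8740) (nat_lit 6) (nat_lit 158143429086458697790) (ZL.cons (nat_lit 8816) (nat_lit 6) (nat_lit 158084981454676444788) (ZL.cons (nat_lit 8968) (nat_lit 6) (nat_lit 156905943064297854478) (ZL.cons (nat_lit 9044) (nat_lit 6) (nat_lit 156819128303908412092) (ZL.cons (nat_lit 9120) (nat_lit 3) (nat_lit 78395096916364539462) (ZL.cons (nat_lit 9272) (nat_lit 6) (nat_lit 155699885360700188954) (ZL.cons (nat_lit 9348) (nat_lit 6) (nat_lit 155585259689911541294) (ZL.cons (nat_lit 9424) (nat_lit 6) (nat_lit 155527958090125018742) (ZL.cons (nat_lit 9576) (nat_lit 6) (nat_lit 154524783011860368808) (ZL.cons (nat_lit 9652) (nat_lit 6) (nat_lit 154382891742641127738) (ZL.cons (nat_lit 9728) (nat_lit 6) (nat_lit 154297779232455399912) (ZL.cons (nat_lit 9804) (nat_lit 3) (nat_lit 77134706051924105264) (ZL.cons (nat_lit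 9956) (nat_lit 6) (nat_lit 153211552945255104596) (ZL.cons (nat_lit 10032) (nat_lit 6) (nat_lit 153099174836638783360) (ZL.cons (nat_lit 10108) (nat_lit 6) (nat_lit 153042996797632388702) (ZL.cons (nat_lit 10260) (nat_lit 6) (nat_lit 152070783949205477348) (ZL.cons (nat_lit 10336) (nat_lit 6) (nat_lit 151931674861735633164) (ZL.cons (nat_lit 10412) (nat_lit 6) (nat_lit 151848231224298645096) (ZL.cons (nat_lit 10488) (nat_lit 3) (nat_lit 75910210156949719911) (ZL.cons (nat_lit 10640) (nat_lit 6) (nat_lit 150960137394101638298) (ZL.cons (nat_lit 10716) (nat_lit 6) (nat_lit 150794821464618536320) (ZL.cons (nat_lit 10792) (nat_lit 6) (nat_lit 150684646848328025304) (ZL.cons (nat_lit 10868) (nat_lit 6) (nat_lit 150629570339498226620) (ZL.cons (nat_lit 10944) (nat_lit 6) (nat_lit 149879177732274919272) (ZL.cons (nat_lit 11020) (nat_lit 6) (nat_lit 149688168820425878282) (ZL.cons (nat_lit 11096) (nat_lit 6) (nat_lit 149551787362122109472) (ZL.cons (nat_lit 11172) (nat_lit 6) (nat_lit 149469979874438787840) (ZL.cons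 (nat_lit 11248) (nat_lit 3) (nat_lit 74721357138004097215) (ZL.cons (nat_lit 11324) (nat_lit 6) (nat_lit 148827481057975584306) (ZL.cons (nat_lit 11400) (nat_lit 6) (nat_lit 148611282947728563890) (ZL.cons (nat_lit 11476) (nat_lit 6) (nat_lit 148449208507058856068) (ZL.cons (nat_lit 11552) (nat_lit 6) (nat_lit 148341194177362276642) (ZL.cons (nat_lit 11628) (nat_lit 6) (nat_lit 148287197600078160284) (ZL.cons (nat_lit 11704) (nat_lit 6) (nat_lit 147563741538341221648) (ZL.cons (nat_lit 11780) (nat_lit 6) (nat_lit 147376477899273534400) (ZL.cons (nat_lit 11856) (nat_lit 6) (nat_lit 147242770587211015962) (ZL.cons (nat_lit 11932) (nat_lit 6) (nat_lit 147162567167913641810) (ZL.cons (nat_lit 12008) (nat_lit 3) (nat_lit 73567918094530059431) (ZL.cons (nat_lit 12084) (nat_lit 6) (nat_lit 146545133791711150636) (ZL.cons (nat_lit 12160) (nat_lit 6) (nat_lit 146333174860096424738) (ZL.cons (nat_lit 12236) (nat_lit 6) (nat_lit 146174278349635926874) (ZL.cons (nat_lit 12312) (nat_lit 6) (nat_lit 146068381947972613710)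 (ZL.cons (nat_lit 12388) (nat_lit 6) (nat_lit 146015444127105832968) (ZL.cons (nat_lit 12540) (nat_lit 6) (nat_lit 145318890251080790956) (ZL.cons (nat_lit 12616) (nat_lit 6) (nat_lit 145135298448073254442) (ZL.cons (nat_lit 12692) (nat_lit 6) (nat_lit 145004212848011961852) (ZL.cons (nat_lit 12768) (nat_lit 6) (nat_lit 144925582044779242098) (ZL.cons (nat_lit 12844) (nat_lit 3) (nat_lit 72449687601382992152) (ZL.cons (nat_lit 12920) (nat_lit 6) (nat_lit 144333226313556430850) (ZL.cons (nat_lit 12996) (nat_lit 6) (nat_lit 144125423439424346636) (ZL.cons (nat_lit 13072) (nat_lit 6) (nat_lit 143969642546816015396) (ZL.cons (nat_lit 13148) (nat_lit 6) (nat_lit 143865822545185316216) (ZL.cons (nat_lit 13224) (nat_lit 6) (nat_lit 143813922720806119410) (ZL.cons (nat_lit 13300) (nat_lit 6) (nat_lit 143375796512645883884) (ZL.cons (nat_lit 13376) (nat_lit 6) (nat_lit 143144257294274047028) (ZL.cons (nat_lit 13452) (nat_lit 6) (nat_lit 142964265330541168088) (ZL.cons (nat_lit 13528) (nat_lit 6) (nat_lit 142835750036363430258)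 (ZL.cons (nat_lit 13604) (nat_lit 6) (nat_lit 142758661013586254026) (ZL.cons (nat_lit 13680) (nat_lit 3) (nat_lit 71366484015610157507) (ZL.cons (nat_lit 13756) (nat_lit 6) (nat_lit 142191415241585041764) (ZL.cons (nat_lit 13832) (nat_lit 6) (nat_lit 141987686933612410182) (ZL.cons (nat_lit 13908) (nat_lit 6) (nat_lit 141834960568310124652) (ZL.cons (nat_lit 13984) (nat_lit 6) (nat_lit 141733176252985909770) (ZL.cons (nat_lit 14060) (nat_lit 6) (nat_lit 141682294072221991332) (ZL.cons (nat_lit 14136) (nat_lit 6) (nat_lit 141266523617807256734) (ZL.cons (nat_lit 14212) (nat_lit 6) (nat_lit 141039524384109377460) (ZL.cons (nat_lit 14288) (nat_lit 6) (nat_lit 140863061674567339288) (ZL.cons (nat_lit 14364) (nat_lit 6) (nat_lit 140737066288118576706) (ZL.cons (nat_lit 14440) (nat_lit 6) (nat_lit 140661488814807619618) (ZL.cons (nat_lit 14516) (nat_lit 3) (nat_lit 70318149808204820096) (ZL.cons (nat_lit 14592) (nat_lit 6) (nat_lit 140369219720343132018) (ZL.cons (nat_lit 14668) (nat_lit 6) (nat_lit 140119405853581284420)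 (ZL.cons (nat_lit 14744) (nat_lit 6) (nat_lit 139919672218313998556) (ZL.cons (nat_lit 14820) (nat_lit 6) (nat_lit 139769940487625483332) (ZL.cons (nat_lit 14896) (nat_lit 6) (nat_lit 139670151943189978544) (ZL.cons (nat_lit 14972) (nat_lit 6) (nat_lit 139620267452244960468) (ZL.cons (nat_lit 15048) (nat_lit 6) (nat_lit 139226970511231845532) (ZL.cons (nat_lit 15124) (nat_lit 6) (nat_lit 139004422242900591344) (ZL.cons (nat_lit 15200) (nat_lit 6) (nat_lit 138831419586486828428) (ZL.cons (nat_lit 15276) (nat_lit 6) (nat_lit 138707894697811570998) (ZL.cons (nat_lit 15352) (nat_lit 6) (nat_lit 138633799135742005222) (ZL.cons (nat_lit 15428) (nat_lit 3) (nat_lit 69304551921597483286) (ZL.cons (nat_lit 15504) (nat_lit 6) (nat_lit 138361868382417002196) (ZL.cons (nat_lit 15580) (nat_lit 6) (nat_lit 138116952826768132004) (ZL.cons (nat_lit 15656) (nat_lit 6) (nat_lit 137921135537290400764) (ZL.cons (nat_lit 15732) (nat_lit 6) (nat_lit 137774339722889895642) (ZL.cons (nat_lit 15808) (nat_lit 6) (nat_lit 137676507816580577224)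 (ZL.cons (nat_lit 15884) (nat_lit 6) (nat_lit 137627601452908990874) (ZL.cons (nat_lit 15960) (nat_lit 6) (nat_lit 137523760211399964278) (ZL.cons (nat_lit 16036) (nat_lit 6) (nat_lit 137256915942694607806) (ZL.cons (nat_lit 16112) (nat_lit 6) (nat_lit 137038731365899260562) (ZL.cons (nat_lit 16188) (nat_lit 6) (nat_lit 136869120918434787116) (ZL.cons (nat_lit 16264) (nat_lit 6) (nat_lit 136748018086400221006) (ZL.cons (nat_lit 16340) (nat_lit 6) (nat_lit 136675375378488882014) (ZL.cons (nat_lit 16416) (nat_lit 3) (nat_lit 68325582153682167157) (ZL.cons (nat_lit 16492) (nat_lit 6) (nat_lit 136423974321313715408) (ZL.cons (nat_lit 16568) (nat_lit 6) (nat_lit 136183861031461881884) (ZL.cons (nat_lit 16644) (nat_lit 6) (nat_lit 135991883296679792434) (ZL.cons (nat_lit 16720) (nat_lit 6) (nat_lit 135847965831581258000) (ZL.cons (nat_lit 16796) (nat_lit 6) (nat_lit 135752052197944671316) (ZL.cons (nat_lit 16872) (nat_lit 6) (nat_lit 135704104782580370974) (ZL.cons (nat_lit 16948) (nat_lit 6) (nat_lit 135617801318852364262)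 (ZL.cons (nat_lit 17024) (nat_lit 6) (nat_lit 135356189290709857916) (ZL.cons (nat_lit 17100) (nat_lit 6) (nat_lit 135142282842871282186) (ZL.cons (nat_lit 17176) (nat_lit 6) (nat_lit 134975998090455131748) (ZL.cons (nat_lit 17252) (nat_lit 6) (nat_lit 134857269823754576740) (ZL.cons (nat_lit 17328) (nat_lit 6) (nat_lit 134786051482665028706) (ZL.cons (nat_lit 17404) (nat_lit 3) (nat_lit 67381157569212638032) (ZL.cons (nat_lit 17480) (nat_lit 6) (nat_lit 134838080789035079328) (ZL.cons (nat_lit 17556) (nat_lit 6) (nat_lit 134555391566489952570) (ZL.cons (nat_lit 17632) (nat_lit 6) (nat_lit 134319986380360704018) (ZL.cons (nat_lit 17708) (nat_lit 6) (nat_lit 134131772914888067300) (ZL.cons (nat_lit 17784) (nat_lit 6) (nat_lit 133990677360869896288) (ZL.cons (nat_lit 17860) (nat_lit 6) (nat_lit 133896644386716379930) (ZL.cons (nat_lit 17936) (nat_lit 6) (nat_lit 133849637116751379596) (ZL.cons (nat_lit 18012) (nat_lit 6) (nat_lit 133781153820478942352) (ZL.cons (nat_lit 18088) (nat_lit 6) (nat_lit 133524671439947073388)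 (ZL.cons (nat_lit 18164) (nat_lit 6) (nat_lit 133314959236183763848) (ZL.cons (nat_lit 18240) (nat_lit 6) (nat_lit 133151934969109106556) (ZL.cons (nat_lit 18316) (nat_lit 6) (nat_lit 133035534707637974194) (ZL.cons (nat_lit 18392) (nat_lit 6) (nat_lit 132965712804609005536) (ZL.cons (nat_lit 18468) (nat_lit 3) (nat_lit 66471220939441878922) (ZL.cons (nat_lit 18544) (nat_lit 6) (nat_lit 133033172430031332750) (ZL.cons (nat_lit 18620) (nat_lit 6) (nat_lit 132756026133418463378) (ZL.cons (nat_lit 18696) (nat_lit 6) (nat_lit 132525236735252533426) (ZL.cons (nat_lit 18772) (nat_lit 6) (nat_lit 132340713729887203312) (ZL.cons (nat_lit 18848) (nat_lit 6) (nat_lit 132202384755359584670) (ZL.cons (nat_lit 18924) (nat_lit 6) (nat_lit 132110195565013000008) (ZL.cons (nat_lit 19000) (nat_lit 6) (nat_lit 132064110006223783992) (ZL.cons (nat_lit 19076) (nat_lit 6) (nat_lit 132311154069111654112) (ZL.cons (nat_lit 19152) (nat_lit 6) (nat_lit 132013749031242901990) (ZL.cons (nat_lit 19228) (nat_lit 6) (nat_lit 131762295716995971630)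 (ZL.cons (nat_lit 19304) (nat_lit 6) (nat_lit 131556695517228021104) (ZL.cons (nat_lit 19380) (nat_lit 6) (nat_lit 131396867804409729640) (ZL.cons (nat_lit 19456) (nat_lit 6) (nat_lit 131282749901006658698) (ZL.cons (nat_lit 19532) (nat_lit 6) (nat_lit 131214297054899826678) (ZL.cons (nat_lit 19608) (nat_lit 3) (nat_lit 65595741210917929177) (ZL.cons (nat_lit 19684) (nat_lit 6) (nat_lit 131297549044360712532) (ZL.cons (nat_lit 19760) (nat_lit 6) (nat_lit 131025836988857899422) (ZL.cons (nat_lit 19836) (nat_lit 6) (nat_lit 130799572873008948488) (ZL.cons (nat_lit 19912) (nat_lit 6) (nat_lit 130618667965788036612) (ZL.cons (nat_lit 19988) (nat_lit 6) (nat_lit 130483051324094292848) (ZL.cons (nat_lit 20064) (nat_lit 6) (nat_lit 130392669764930974548) (ZL.cons (nat_lit 20140) (nat_lit 6) (nat_lit 130347487844549390220) (ZL.cons (nat_lit 20216) (nat_lit 6) (nat_lit 130607145310031941202) (ZL.cons (nat_lit 20292) (nat_lit 6) (nat_lit 130315571743493948924) (ZL.cons (nat_lit 20368) (nat_lit 6) (nat_lit 130069048886389115240)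 (ZL.cons (nat_lit 20444) (nat_lit 6) (nat_lit 129867480063087202956) (ZL.cons (nat_lit 20520) (nat_lit 6) (nat_lit 129710786226990838780) (ZL.cons (nat_lit 20596) (nat_lit 6) (nat_lit 129598905929536847658) (ZL.cons (nat_lit 20672) (nat_lit 6) (nat_lit 129531795296098777050) (ZL.cons (nat_lit 20748) (nat_lit 3) (nat_lit 64754714004390580523) (ZL.cons (nat_lit 20824) (nat_lit 6) (nat_lit 129942267081694106128) (ZL.cons (nat_lit 20900) (nat_lit 6) (nat_lit 129631221445513781334) (ZL.cons (nat_lit 20976) (nat_lit 6) (nat_lit 129364837077373768482) (ZL.cons (nat_lit 21052) (nat_lit 6) (nat_lit 129143009512815973448) (ZL.cons (nat_lit 21128) (nat_lit 6) (nat_lit 128965651760638608864) (ZL.cons (nat_lit 21204) (nat_lit 6) (nat_lit 128832694268781997330) (ZL.cons (nat_lit 21280) (nat_lit 6) (nat_lit 128744084897053253900) (ZL.cons (nat_lit 21356) (nat_lit 6) (nat_lit 128699788896679151616) (ZL.cons (nat_lit 21508) (nat_lit 6) (nat_lit 128972517722251522078) (ZL.cons (nat_lit 21584) (nat_lit 6) (nat_lit 128686661284469176710)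 (ZL.cons (nat_lit 21660) (nat_lit 6) (nat_lit 128444972208876202508) (ZL.cons (nat_lit 21736) (nat_lit 6) (nat_lit 128247355715442955174) (ZL.cons (nat_lit 21812) (nat_lit 6) (nat_lit 128093734307505343232) (ZL.cons (nat_lit 21888) (nat_lit 6) (nat_lit 127984047741373979390) (ZL.cons (nat_lit 21964) (nat_lit 6) (nat_lit 127918253002709204284) (ZL.cons (nat_lit 22040) (nat_lit 3) (nat_lit 63948162144826359002) (ZL.cons (nat_lit 22116) (nat_lit 6) (nat_lit 128339202258521578110) (ZL.cons (nat_lit 22192) (nat_lit 6) (nat_lit 128034255556384004784) (ZL.cons (nat_lit 22268) (nat_lit 6) (nat_lit 127773094411148698066) (ZL.cons (nat_lit 22344) (nat_lit 6) (nat_lit 127555616406680271564) (ZL.cons (nat_lit 22420) (nat_lit 6) (nat_lit 127381736257486776872) (ZL.cons (nat_lit 22496) (nat_lit 6) (nat_lit 127251385775274412622) (ZL.cons (nat_lit 22572) (nat_lit 6) (nat_lit 127164513842207017104) (ZL.cons (nat_lit 22648) (nat_lit 6) (nat_lit 127121086390859858002) (ZL.cons (nat_lit 22724) (nat_lit 6) (nat_lit 127731026695318565142)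 (ZL.cons (nat_lit 22800) (nat_lit 6) (nat_lit 127407364047734689896) (ZL.cons (nat_lit 22876) (nat_lit 6) (nat_lit 127127112638144155220) (ZL.cons (nat_lit 22952) (nat_lit 6) (nat_lit 126890162564033396202) (ZL.cons (nat_lit 23028) (nat_lit 6) (nat_lit 126696420903804722342) (ZL.cons (nat_lit 23104) (nat_lit 6) (nat_lit 126545811680336475342) (ZL.cons (nat_lit 23180) (nat_lit 6) (nat_lit 126438275831188079416) (ZL.cons (nat_lit 23256) (nat_lit 6) (nat_lit 126373771185438299902) (ZL.cons (nat_lit 23332) (nat_lit 3) (nat_lit 63176136223573813540) (ZL.cons (nat_lit 23408) (nat_lit 6) (nat_lit 127147752532421619246) (ZL.cons (nat_lit 23484) (nat_lit 6) (nat_lit 126805740918713918588) (ZL.cons (nat_lit 23560) (nat_lit 6) (nat_lit 126506773563677081992) (ZL.cons (nat_lit 23636) (nat_lit 6) (nat_lit 126250733225211095016) (ZL.cons (nat_lit 23712) (nat_lit 6) (nat_lit 126037519495340088640) (ZL.cons (nat_lit 23788) (nat_lit 6) (nat_lit 125867048760836662472) (ZL.cons (nat_lit 23864) (nat_lit 6) (nat_lit 125739254170432383796)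 (ZL.cons (nat_lit 23940) (nat_lit 6) (nat_lit 125654085608601603874) (ZL.cons (nat_lit 24016) (nat_lit 6) (nat_lit 125611509675908310640) (ZL.cons (nat_lit 24092) (nat_lit 6) (nat_lit 126229150238682859186) (ZL.cons (nat_lit 24168) (nat_lit 6) (nat_lit 125911833917522197178) (ZL.cons (nat_lit 24244) (nat_lit 6) (nat_lit 125637077633609908282) (ZL.cons (nat_lit 24320) (nat_lit 6) (nat_lit 125404773639383673948) (ZL.cons (nat_lit 24396) (nat_lit 6) (nat_lit 125214830835237915264) (ZL.cons (nat_lit 24472) (nat_lit 6) (nat_lit 125067174733798457420) (ZL.cons (nat_lit 24548) (nat_lit 6) (nat_lit 124961747430711794748) (ZL.cons (nat_lit 24624) (nat_lit 6) (nat_lit 124898507581937501106) (ZL.cons (nat_lit 24700) (nat_lit 3) (nat_lit 62438715193767440347) (ZL.cons (nat_lit 24776) (nat_lit 6) (nat_lit 125677365893649342644) (ZL.cons (nat_lit 24852) (nat_lit 6) (nat_lit 125342060390014341998) (ZL.cons (nat_lit 24928) (nat_lit 6) (nat_lit 125048955139978227690) (ZL.cons (nat_lit 25004) (nat_lit 6) (nat_lit 124797935200305691436)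 (ZL.cons (nat_lit 25080) (nat_lit 6) (nat_lit 124588902131804704794) (ZL.cons (nat_lit 25156) (nat_lit 6) (nat_lit 124421773960722914434) (ZL.cons (nat_lit 25232) (nat_lit 6) (nat_lit 124296485146601072594) (ZL.cons (nat_lit 25308) (nat_lit 6) (nat_lit 124212986556570896202) (ZL.cons (nat_lit 25384) (nat_lit 6) (nat_lit 124171245446087275382) (ZL.cons (nat_lit 25460) (nat_lit 6) (nat_lit 125150171497595708762) (ZL.cons (nat_lit 25536) (nat_lit 6) (nat_lit 124797229540554493764) (ZL.cons (nat_lit 25612) (nat_lit 6) (nat_lit 124486135108044040818) (ZL.cons (nat_lit 25688) (nat_lit 6) (nat_lit 124216766202247679152) (ZL.cons (nat_lit 25764) (nat_lit 6) (nat_lit 123989017188300390590) (ZL.cons (nat_lit 25840) (nat_lit 6) (nat_lit 123802798752863372272) (ZL.cons (nat_lit 25916) (nat_lit 6) (nat_lit 123658037869099197916) (ZL.cons (nat_lit 25992) (nat_lit 6) (nat_lit 123554677768033842356) (ZL.cons (nat_lit 26068) (nat_lit 6) (nat_lit 123492677916294338786) (ZL.cons (nat_lit 26144) (nat_lit 3) (nat_lit 61736007000106669189)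 (ZL.cons (nat_lit 26220) (nat_lit 6) (nat_lit 124647360307621544350) (ZL.cons (nat_lit 26296) (nat_lit 6) (nat_lit 124277127709986001556) (ZL.cons (nat_lit 26372) (nat_lit 6) (nat_lit 123948396824069334258) (ZL.cons (nat_lit 26448) (nat_lit 6) (nat_lit 123661038735798633954) (ZL.cons (nat_lit 26524) (nat_lit 6) (nat_lit 123414940755727519980) (ZL.cons (nat_lit 26600) (nat_lit 6) (nat_lit 123210006374844199742) (ZL.cons (nat_lit 26676) (nat_lit 6) (nat_lit 123046155226724797428) (ZL.cons (nat_lit 26752) (nat_lit 6) (nat_lit 122923323056017109352) (ZL.cons (nat_lit 26828) (nat_lit 6) (nat_lit 122841461693242426614) (ZL.cons (nat_lit 26904) (nat_lit 6) (nat_lit 122800539035905543456) (ZL.cons (nat_lit 26980) (nat_lit 6) (nat_lit 123781550936806681652) (ZL.cons (nat_lit 27056) (nat_lit 6) (nat_lit 123435529410295686558) (ZL.cons (nat_lit 27132) (nat_lit 6) (nat_lit 123130534868618771902) (ZL.cons (nat_lit 27208) (nat_lit 6) (nat_lit 122866447706073319290) (ZL.cons (nat_lit 27284) (nat_lit 6) (nat_lit 122643164359066173640)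 (ZL.cons (nat_lit 27360) (nat_lit 6) (nat_lit 122460597265500469406) (ZL.cons (nat_lit 27436) (nat_lit 6) (nat_lit 122318674830437553372) (ZL.cons (nat_lit 27512) (nat_lit 6) (nat_lit 122217341398020538118) (ZL.cons (nat_lit 27588) (nat_lit 6) (nat_lit 122156557229648475792) (ZL.cons (nat_lit 27664) (nat_lit 3) (nat_lit 61068149244196296521) (ZL.cons (nat_lit 27740) (nat_lit 6) (nat_lit 123310304877183914710) (ZL.cons (nat_lit 27816) (nat_lit 6) (nat_lit 122947331742247108052) (ZL.cons (nat_lit 27892) (nat_lit 6) (nat_lit 122625046559975865600) (ZL.cons (nat_lit 27968) (nat_lit 6) (nat_lit 122343322944024198636) (ZL.cons (nat_lit 28044) (nat_lit 6) (nat_lit 122102050414542714348) (ZL.cons (nat_lit 28120) (nat_lit 6) (nat_lit 121901134354853184702) (ZL.cons (nat_lit 28196) (nat_lit 6) (nat_lit 121740495974343966748) (ZL.cons (nat_lit 28272) (nat_lit 6) (nat_lit 121620072277571723536) (ZL.cons (nat_lit 28348) (nat_lit 6) (nat_lit 121539816039557328694) (ZL.cons (nat_lit 28424) (nat_lit 6) (nat_lit 121499695787266266776)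 (ZL.cons (nat_lit 28500) (nat_lit 6) (nat_lit 122863204728741378074) (ZL.cons (nat_lit 28576) (nat_lit 6) (nat_lit 122483612369857697334) (ZL.cons (nat_lit 28652) (nat_lit 6) (nat_lit 122144375579160643318) (ZL.cons (nat_lit 28728) (nat_lit 6) (nat_lit 121845361322614648558) (ZL.cons (nat_lit 28804) (nat_lit 6) (nat_lit 121586452339726949918) (ZL.cons (nat_lit 28880) (nat_lit 6) (nat_lit 121367547097563081634) (ZL.cons (nat_lit 28956) (nat_lit 6) (nat_lit 121188559750930038268) (ZL.cons (nat_lit 29032) (nat_lit 6) (nat_lit 121049420108711493136) (ZL.cons (nat_lit 29108) (nat_lit 6) (nat_lit 120950073606341870336) (ZL.cons (nat_lit 29184) (nat_lit 6) (nat_lit 120890481284408475902) (ZL.cons (nat_lit 29260) (nat_lit 3) (nat_lit 60435309886686648367) (ZL.cons (nat_lit 29336) (nat_lit 6) (nat_lit 122440075158087525654) (ZL.cons (nat_lit 29412) (nat_lit 6) (nat_lit 122044189442393184048) (ZL.cons (nat_lit 29488) (nat_lit 6) (nat_lit 121688333427749255950) (ZL.cons (nat_lit 29564) (nat_lit 6) (nat_lit 121372367562777449626)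 (ZL.cons (nat_lit 29640) (nat_lit 6) (nat_lit 121096167939295423190) (ZL.cons (nat_lit 29716) (nat_lit 6) (nat_lit 120859626243725340554) (ZL.cons (nat_lit 29792) (nat_lit 6) (nat_lit 120662649714617958550) (ZL.cons (nat_lit 29868) (nat_lit 6) (nat_lit 120505161106275588006) (ZL.cons (nat_lit 29944) (nat_lit 6) (nat_lit 120387098658459663286) (ZL.cons (nat_lit 30020) (nat_lit 6) (nat_lit 120308416072171040894) (ZL.cons (nat_lit 30096) (nat_lit 6) (nat_lit 120269082491493529210) (ZL.cons (nat_lit 30172) (nat_lit 6) (nat_lit 122040750232057395156) (ZL.cons (nat_lit 30248) (nat_lit 6) (nat_lit 121628890637136915446) (ZL.cons (nat_lit 30324) (nat_lit 6) (nat_lit 121256741265682326482) (ZL.cons (nat_lit 30400) (nat_lit 6) (nat_lit 120924156176763646076) (ZL.cons (nat_lit 30476) (nat_lit 6) (nat_lit 120631004944855808076) (ZL.cons (nat_lit 30552) (nat_lit 6) (nat_lit 120377172608691397644) (ZL.cons (nat_lit 30628) (nat_lit 6) (nat_lit 120162559626177801288) (ZL.cons (nat_lit 30704) (nat_lit 6) (nat_lit 119987081835361092106)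 (ZL.cons (nat_lit 30780) (nat_lit 6) (nat_lit 119850670421421341974) (ZL.cons (nat_lit 30856) (nat_lit 6) (nat_lit 119753271889686417662) (ZL.cons (nat_lit 30932) (nat_lit 6) (nat_lit 119694848044653678020) (ZL.cons (nat_lit 31008) (nat_lit 3) (nat_lit 59837687987505672752) (ZL.cons (nat_lit 31084) (nat_lit 6) (nat_lit 121237553091812320442) (ZL.cons (nat_lit 31160) (nat_lit 6) (nat_lit 120849429841131593374) (ZL.cons (nat_lit 31236) (nat_lit 6) (nat_lit 120500551395402252102) (ZL.cons (nat_lit 31312) (nat_lit 6) (nat_lit 120190780939547540020) (ZL.cons (nat_lit 31388) (nat_lit 6) (nat_lit 119919996994957318024) (ZL.cons (nat_lit 31464) (nat_lit 6) (nat_lit 119688093371849393872) (ZL.cons (nat_lit 31540) (nat_lit 6) (nat_lit 119494979127626470338) (ZL.cons (nat_lit 31616) (nat_lit 6) (nat_lit 119340578531212381568) (ZL.cons (nat_lit 31692) (nat_lit 6) (nat_lit 119224831033353631844) (ZL.cons (nat_lit 31768) (nat_lit 6) (nat_lit 119147691242874590282) (ZL.cons (nat_lit 31844) (nat_lit 6) (nat_lit 119109128908877029808)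 (ZL.cons (nat_lit 31920) (nat_lit 6) (nat_lit 120870023340715350172) (ZL.cons (nat_lit 31996) (nat_lit 6) (nat_lit 120466239424126644572) (ZL.cons (nat_lit 32072) (nat_lit 6) (nat_lit 120101387099171165196) (ZL.cons (nat_lit 32148) (nat_lit 6) (nat_lit 119775323286505792248) (ZL.cons (nat_lit 32224) (nat_lit 6) (nat_lit 119487920117968696170) (ZL.cons (nat_lit 32300) (nat_lit 6) (nat_lit 119239064886434960454) (ZL.cons (nat_lit 32376) (nat_lit 6) (nat_lit 119028660001617709124) (ZL.cons (nat_lit 32452) (nat_lit 6) (nat_lit 118856622951797406002) (ZL.cons (nat_lit 32528) (nat_lit 6) (nat_lit 118722886271464317640) (ZL.cons (nat_lit 32604) (nat_lit 6) (nat_lit 118627397514861450666) (ZL.cons (nat_lit 32680) (nat_lit 6) (nat_lit 118570119235417588272) (ZL.cons (nat_lit 32756) (nat_lit 3) (nat_lit 59275514485531180157) (ZL.cons (nat_lit 32832) (nat_lit 6) (nat_lit 120526157254531848964) (ZL.cons (nat_lit 32908) (nat_lit 6) (nat_lit 120107019743915713430) (ZL.cons (nat_lit 32984) (nat_lit 6) (nat_lit 119726506753052255522)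 (ZL.cons (nat_lit 33060) (nat_lit 6) (nat_lit 119384469061160744470) (ZL.cons (nat_lit 33136) (nat_lit 6) (nat_lit 119080772535812987526) (ZL.cons (nat_lit 33212) (nat_lit 6) (nat_lit 118815298080332377728) (ZL.cons (nat_lit 33288) (nat_lit 6) (nat_lit 118587941587089314834) (ZL.cons (nat_lit 33364) (nat_lit 6) (nat_lit 118398613896674683916) (ZL.cons (nat_lit 33440) (nat_lit 6) (nat_lit 118247240762935381202) (ZL.cons (nat_lit 33516) (nat_lit 6) (nat_lit 118133762823858175590) (ZL.cons (nat_lit 33592) (nat_lit 6) (nat_lit 118058135578290487784) (ZL.cons (nat_lit 33668) (nat_lit 6) (nat_lit 118020329368488957906) (ZL.cons (nat_lit 33744) (nat_lit 6) (nat_lit 120205819983816254658) (ZL.cons (nat_lit 33820) (nat_lit 6) (nat_lit 119771629930035972130) (ZL.cons (nat_lit 33896) (nat_lit 6) (nat_lit 119375763345145084288) (ZL.cons (nat_lit 33972) (nat_lit 6) (nat_lit 119018064987345594704) (ZL.cons (nat_lit 34048) (nat_lit 6) (nat_lit 118698394582771699656) (ZL.cons (nat_lit 34124) (nat_lit 6) (nat_lit 118416626770480428992)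 (ZL.cons (nat_lit 34200) (nat_lit 6) (nat_lit 118172651053290492016) (ZL.cons (nat_lit 34276) (nat_lit 6) (nat_lit 117966371754450049534) (ZL.cons (nat_lit 34352) (nat_lit 6) (nat_lit 117797707980116419024) (ZL.cons (nat_lit 34428) (nat_lit 6) (nat_lit 117666593587632999060) (ZL.cons (nat_lit 34504) (nat_lit 6) (nat_lit 117572977159590972616) (ZL.cons (nat_lit 34580) (nat_lit 6) (nat_lit 117516821983665617326) (ZL.cons (nat_lit 34656) (nat_lit 3) (nat_lit 58749053019109657703) (ZL.cons (nat_lit 34732) (nat_lit 6) (nat_lit 119635238576675118692) (ZL.cons (nat_lit 34808) (nat_lit 6) (nat_lit 119908885906109463104) (ZL.cons (nat_lit 34884) (nat_lit 6) (nat_lit 119459938457070212934) (ZL.cons (nat_lit 34960) (nat_lit 6) (nat_lit 119049019329015178098) (ZL.cons (nat_lit 35036) (nat_lit 6) (nat_lit 118675967377188258580) (ZL.cons (nat_lit 35112) (nat_lit 6) (nat_lit 118340636306706385000) (ZL.cons (nat_lit 35188) (nat_lit 6) (nat_lit 118042894615188976232) (ZL.cons (nat_lit 35264) (nat_lit 6) (nat_lit 117782625541188378390)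 (ZL.cons (nat_lit 35340) (nat_lit 6) (nat_lit 117559727018401061826) (ZL.cons (nat_lit 35416) (nat_lit 6) (nat_lit 117374111635641619752) (ZL.cons (nat_lit 35492) (nat_lit 6) (nat_lit 117225706602563871992) (ZL.cons (nat_lit 35568) (nat_lit 6) (nat_lit 117114453721115631196) (ZL.cons (nat_lit 35644) (nat_lit 6) (nat_lit 117040309362715937268) (ZL.cons (nat_lit 35720) (nat_lit 6) (nat_lit 117003244451145809936) (ZL.cons (nat_lit 35796) (nat_lit 3) (nat_lit 58760693927333494616) (ZL.cons (nat_lit 35872) (nat_lit 6) (nat_lit 117532795801187633424) (ZL.cons (nat_lit 35948) (nat_lit 6) (nat_lit 117567024114454083896) (ZL.cons (nat_lit 36024) (nat_lit 6) (nat_lit 117624086217334288282) (ZL.cons (nat_lit 36100) (nat_lit 6) (nat_lit 117704004487123493718) (ZL.cons (nat_lit 36176) (nat_lit 6) (nat_lit 117806810264319656754) (ZL.cons (nat_lit 36252) (nat_lit 6) (nat_lit 117932543864913834708) (ZL.cons (nat_lit 36328) (nat_lit 6) (nat_lit 118081254596200378242) (ZL.cons (nat_lit 36404) (nat_lit 6) (nat_lit 118253000776113125214)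 (ZL.cons (nat_lit 36480) (nat_lit 6) (nat_lit 118447849756095178660) (ZL.cons (nat_lit 36556) (nat_lit 6) (nat_lit 118665877947511237428) (ZL.cons (nat_lit 36632) (nat_lit 6) (nat_lit 118907170851612837224) (ZL.cons (nat_lit 36708) (nat_lit 6) (nat_lit 119171823093068253190) (ZL.cons (nat_lit 36784) (nat_lit 6) (nat_lit 118746146569754250712) (ZL.cons (nat_lit 36860) (nat_lit 6) (nat_lit 118358042074763184200) (ZL.cons (nat_lit 36936) (nat_lit 6) (nat_lit 118007357410253880686) (ZL.cons (nat_lit 37012) (nat_lit 6) (nat_lit 117693955052828493386) (ZL.cons (nat_lit 37088) (nat_lit 6) (nat_lit 117417712099601757440) (ZL.cons (nat_lit 37164) (nat_lit 6) (nat_lit 117178520220003780010) (ZL.cons (nat_lit 37240) (nat_lit 6) (nat_lit 116976285613297463854) (ZL.cons (nat_lit 37316) (nat_lit 6) (nat_lit 116810928971793904530) (ZL.cons (nat_lit 37392) (nat_lit 6) (nat_lit 116682385449751335938) (ZL.cons (nat_lit 37468) (nat_lit 6) (nat_lit 116590604637945427658) (ZL.cons (nat_lit 37544) (nat_lit 6) (nat_lit 116535550543900961688)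 (ZL.cons (nat_lit 37620) (nat_lit 3) (nat_lit 58258600788888568138) (ZL.cons (nat_lit 37696) (nat_lit 6) (nat_lit 116939646840957458466) (ZL.cons (nat_lit 37772) (nat_lit 6) (nat_lit 116962690892929159732) (ZL.cons (nat_lit 37848) (nat_lit 6) (nat_lit 117008788033755688422) (ZL.cons (nat_lit 37924) (nat_lit 6) (nat_lit 117077956340747172590) (ZL.cons (nat_lit 38000) (nat_lit 6) (nat_lit 117170222938729883404) (ZL.cons (nat_lit 38076) (nat_lit 6) (nat_lit 117285624010683421922) (ZL.cons (nat_lit 38152) (nat_lit 6) (nat_lit 117424204811930122872) (ZL.cons (nat_lit 38228) (nat_lit 6) (nat_lit 117586019687882239860) (ZL.cons (nat_lit 38304) (nat_lit 6) (nat_lit 117771132095353871754) (ZL.cons (nat_lit 38380) (nat_lit 6) (nat_lit 117979614627445987822) (ZL.cons (nat_lit 38456) (nat_lit 6) (nat_lit 118211549042014310464) (ZL.cons (nat_lit 38532) (nat_lit 6) (nat_lit 118467026293731219414) (ZL.cons (nat_lit 38608) (nat_lit 6) (nat_lit 118064164403481185260) (ZL.cons (nat_lit 38684) (nat_lit 6) (nat_lit 117698427195807734752)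 (ZL.cons (nat_lit 38760) (nat_lit 6) (nat_lit 117369671244354917518) (ZL.cons (nat_lit 38836) (nat_lit 6) (nat_lit 117077767625220203040) (ZL.cons (nat_lit 38912) (nat_lit 6) (nat_lit 116822601866396087506) (ZL.cons (nat_lit 38988) (nat_lit 6) (nat_lit 116604073902879110484) (ZL.cons (nat_lit 39064) (nat_lit 6) (nat_lit 116422098037428677078) (ZL.cons (nat_lit 39140) (nat_lit 6) (nat_lit 116276602906960296922) (ZL.cons (nat_lit 39216) (nat_lit 6) (nat_lit 116167531454560060846) (ZL.cons (nat_lit 39292) (nat_lit 6) (nat_lit 116094840907109380524) (ZL.cons (nat_lit 39368) (nat_lit 6) (nat_lit 116058502758511216474) (ZL.cons (nat_lit 39444) (nat_lit 3) (nat_lit 58190360230155948012) (ZL.cons (nat_lit 39520) (nat_lit 6) (nat_lit 116392356565762953098) (ZL.cons (nat_lit 39596) (nat_lit 6) (nat_lit 116427269445294732582) (ZL.cons (nat_lit 39672) (nat_lit 6) (nat_lit 116485472790232541054) (ZL.cons (nat_lit 39748) (nat_lit 6) (nat_lit 116566989425417530600) (ZL.cons (nat_lit 39824) (nat_lit 6) (nat_lit 116671851318157616896)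 (ZL.cons (nat_lit 39900) (nat_lit 6) (nat_lit 116800099590763678410) (ZL.cons (nat_lit 39976) (nat_lit 6) (nat_lit 116951784536675952814) (ZL.cons (nat_lit 40052) (nat_lit 6) (nat_lit 117126965640186954724) (ZL.cons (nat_lit 40128) (nat_lit 6) (nat_lit 117325711599768649240) (ZL.cons (nat_lit 40204) (nat_lit 6) (nat_lit 117548100355013029182) (ZL.cons (nat_lit 40280) (nat_lit 6) (nat_lit 117794219117196660978) (ZL.cons (nat_lit 40356) (nat_lit 6) (nat_lit 117413724514264242828) (ZL.cons (nat_lit 40432) (nat_lit 6) (nat_lit 117069916019647278600) (ZL.cons (nat_lit 40508) (nat_lit 6) (nat_lit 116762658806485134188) (ZL.cons (nat_lit 40584) (nat_lit 6) (nat_lit 116491832381753040122) (ZL.cons (nat_lit 40660) (nat_lit 6) (nat_lit 116257330539009924996) (ZL.cons (nat_lit 40736) (nat_lit 6) (nat_lit 116059061316748830724) (ZL.cons (nat_lit 40812) (nat_lit 6) (nat_lit 115896946962333576486) (ZL.cons (nat_lit 40888) (nat_lit 6) (nat_lit 115770923901507528846) (ZL.cons (nat_lit 40964) (nat_lit 6) (nat_lit 115680942713462520728)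 (ZL.cons (nat_lit 41040) (nat_lit 6) (nat_lit 115626968111458142326) (ZL.cons (nat_lit 41116) (nat_lit 3) (nat_lit 57804489464491901844) (ZL.cons (nat_lit 41192) (nat_lit 6) (nat_lit 115855797472435006660) (ZL.cons (nat_lit 41268) (nat_lit 6) (nat_lit 115879302405446141952) (ZL.cons (nat_lit 41344) (nat_lit 6) (nat_lit 115926321489089201218) (ZL.cons (nat_lit 41420) (nat_lit 6) (nat_lit 115996873162220515068) (ZL.cons (nat_lit 41496) (nat_lit 6) (nat_lit 116090985092162880096) (ZL.cons (nat_lit 41572) (nat_lit 6) (nat_lit 116208694185555489388) (ZL.cons (nat_lit 41648) (nat_lit 6) (nat_lit 116350046602827124356) (ZL.cons (nat_lit 41724) (nat_lit 6) (nat_lit 116515097776298283682) (ZL.cons (nat_lit 41800) (nat_lit 6) (nat_lit 116703912431919348214) (ZL.cons (nat_lit 41876) (nat_lit 6) (nat_lit 116916564614653306604) (ZL.cons (nat_lit 41952) (nat_lit 6) (nat_lit 117153137717512995700) (ZL.cons (nat_lit 42028) (nat_lit 6) (nat_lit 116794571827637063830) (ZL.cons (nat_lit 42104) (nat_lit 6) (nat_lit 116472262071310772424)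 (ZL.cons (nat_lit 42180) (nat_lit 6) (nat_lit 116186082052551248424) (ZL.cons (nat_lit 42256) (nat_lit 6) (nat_lit 115935919543900154766) (ZL.cons (nat_lit 42332) (nat_lit 6) (nat_lit 115721676442412922390) (ZL.cons (nat_lit 42408) (nat_lit 6) (nat_lit 115543268731187007286) (ZL.cons (nat_lit 42484) (nat_lit 6) (nat_lit 115400626446414085564) (ZL.cons (nat_lit 42560) (nat_lit 6) (nat_lit 115293693649943265882) (ZL.cons (nat_lit 42636) (nat_lit 6) (nat_lit 115222428407344559684) (ZL.cons (nat_lit 42712) (nat_lit 6) (nat_lit 115186802771464006694) (ZL.cons (nat_lit 42788) (nat_lit 3) (nat_lit 57676401598807301788) (ZL.cons (nat_lit 42864) (nat_lit 6) (nat_lit 115364672025174681794) (ZL.cons (nat_lit 42940) (nat_lit 6) (nat_lit 115400283162297096868) (ZL.cons (nat_lit 43016) (nat_lit 6) (nat_lit 115459650574133661512) (ZL.cons (nat_lit 43092) (nat_lit 6) (nat_lit 115542797542022350844) (ZL.cons (nat_lit 43168) (nat_lit 6) (nat_lit 115649756672617238868) (ZL.cons (nat_lit 43244) (nat_lit 6) (nat_lit 115780569910675421614)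 (ZL.cons (nat_lit 43320) (nat_lit 6) (nat_lit 115935288555505941504) (ZL.cons (nat_lit 43396) (nat_lit 6) (nat_lit 116113973281087163452) (ZL.cons (nat_lit 43472) (nat_lit 6) (nat_lit 116316694159860491858) (ZL.cons (nat_lit 43548) (nat_lit 6) (nat_lit 116543530690209759402) (ZL.cons (nat_lit 43624) (nat_lit 6) (nat_lit 116206463538624500354) (ZL.cons (nat_lit 43700) (nat_lit 6) (nat_lit 115905230976700829360) (ZL.cons (nat_lit 43776) (nat_lit 6) (nat_lit 115639714874022305768) (ZL.cons (nat_lit 43852) (nat_lit 6) (nat_lit 115409811106627094860) (ZL.cons (nat_lit 43928) (nat_lit 6) (nat_lit 115215429516175041652) (ZL.cons (nat_lit 44004) (nat_lit 6) (nat_lit 115056493874591459064) (ZL.cons (nat_lit 44080) (nat_lit 6) (nat_lit 114932941854173765300) (ZL.cons (nat_lit 44156) (nat_lit 6) (nat_lit 114844725003149247538) (ZL.cons (nat_lit 44232) (nat_lit 6) (nat_lit 114791808726674366752) (ZL.cons (nat_lit 44308) (nat_lit 3) (nat_lit 57387086136634076200) (ZL.cons (nat_lit 44384) (nat_lit 6) (nat_lit 114883176488644951532)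 (ZL.cons (nat_lit 44460) (nat_lit 6) (nat_lit 114907151520316309532) (ZL.cons (nat_lit 44536) (nat_lit 6) (nat_lit 114955110985632229984) (ZL.cons (nat_lit 44612) (nat_lit 6) (nat_lit 115027073692226170110) (ZL.cons (nat_lit 44688) (nat_lit 6) (nat_lit 115123067860767382438) (ZL.cons (nat_lit 44764) (nat_lit 6) (nat_lit 115243131136027843916) (ZL.cons (nat_lit 44840) (nat_lit 6) (nat_lit 115387310601644911584) (ZL.cons (nat_lit 44916) (nat_lit 6) (nat_lit 115555662798585494096) (ZL.cons (nat_lit 44992) (nat_lit 6) (nat_lit 115748253747318979918) (ZL.cons (nat_lit 45068) (nat_lit 6) (nat_lit 115965158973707617478) (ZL.cons (nat_lit 45144) (nat_lit 6) (nat_lit 115649169016524978842) (ZL.cons (nat_lit 45220) (nat_lit 6) (nat_lit 115368600370682308256) (ZL.cons (nat_lit 45296) (nat_lit 6) (nat_lit 115123343009259667414) (ZL.cons (nat_lit 45372) (nat_lit 6) (nat_lit 114913300752899635674) (ZL.cons (nat_lit 45448) (nat_lit 6) (nat_lit 114738391232089914982) (ZL.cons (nat_lit 45524) (nat_lit 6) (nat_lit 114598545854861560352)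 (ZL.cons (nat_lit 45600) (nat_lit 6) (nat_lit 114493709779890168508) (ZL.cons (nat_lit 45676) (nat_lit 6) (nat_lit 114423841894989476158) (ZL.cons (nat_lit 45752) (nat_lit 6) (nat_lit 114388914800988934010) (ZL.cons (nat_lit 45828) (nat_lit 3) (nat_lit 57217313487038959950) (ZL.cons (nat_lit 45904) (nat_lit 6) (nat_lit 114446733178189199682) (ZL.cons (nat_lit 45980) (nat_lit 6) (nat_lit 114483056538054063060) (ZL.cons (nat_lit 46056) (nat_lit 6) (nat_lit 114543611298127358994) (ZL.cons (nat_lit 46132) (nat_lit 6) (nat_lit 114628421205373822116) (ZL.cons (nat_lit 46208) (nat_lit 6) (nat_lit 114737519518580607898) (ZL.cons (nat_lit 46284) (nat_lit 6) (nat_lit 114870949021399954298) (ZL.cons (nat_lit 46360) (nat_lit 6) (nat_lit 115028762039127084588) (ZL.cons (nat_lit 46436) (nat_lit 6) (nat_lit 115211020459219930974) (ZL.cons (nat_lit 46512) (nat_lit 6) (nat_lit 115417795755568725950) (ZL.cons (nat_lit 46588) (nat_lit 6) (nat_lit 115122469714467087722) (ZL.cons (nat_lit 46664) (nat_lit 6) (nat_lit 114862159809880299886)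 (ZL.cons (nat_lit 46740) (nat_lit 6) (nat_lit 114636763959492838212) (ZL.cons (nat_lit 46816) (nat_lit 6) (nat_lit 114446193772775138988) (ZL.cons (nat_lit 46892) (nat_lit 6) (nat_lit 114290374516320646254) (ZL.cons (nat_lit 46968) (nat_lit 6) (nat_lit 114169245084538593544) (ZL.cons (nat_lit 47044) (nat_lit 6) (nat_lit 114082757975691027112) (ZL.cons (nat_lit 47120) (nat_lit 6) (nat_lit 114030879273264673400) (ZL.cons (nat_lit 47196) (nat_lit 3) (nat_lit 57006794316335172802) (ZL.cons (nat_lit 47272) (nat_lit 6) (nat_lit 114018847579703168458) (ZL.cons (nat_lit 47348) (nat_lit 6) (nat_lit 114043302112007953618) (ZL.cons (nat_lit 47424) (nat_lit 6) (nat_lit 114092220766630192478) (ZL.cons (nat_lit 47500) (nat_lit 6) (nat_lit 114165622727356011408) (ZL.cons (nat_lit 47576) (nat_lit 6) (nat_lit 114263536779268047984) (ZL.cons (nat_lit 47652) (nat_lit 6) (nat_lit 114386001320033718688) (ZL.cons (nat_lit 47728) (nat_lit 6) (nat_lit 114533064374963127710) (ZL.cons (nat_lit 47804) (nat_lit 6) (nat_lit 114704783615842521874)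 (ZL.cons (nat_lit 47880) (nat_lit 6) (nat_lit 114901226383550677414) (ZL.cons (nat_lit 47956) (nat_lit 6) (nat_lit 114626159083704921936) (ZL.cons (nat_lit 48032) (nat_lit 6) (nat_lit 114385710690153313268) (ZL.cons (nat_lit 48108) (nat_lit 6) (nat_lit 114179786909408184110) (ZL.cons (nat_lit 48184) (nat_lit 6) (nat_lit 114008306987045712844) (ZL.cons (nat_lit 48260) (nat_lit 6) (nat_lit 113871203676037522030) (ZL.cons (nat_lit 48336) (nat_lit 6) (nat_lit 113768423210379294732) (ZL.cons (nat_lit 48412) (nat_lit 6) (nat_lit 113699925284006066938) (ZL.cons (nat_lit 48488) (nat_lit 6) (nat_lit 113665683034985927578) (ZL.cons (nat_lit 48564) (nat_lit 3) (nat_lit 56811663463292149883) (ZL.cons (nat_lit 48640) (nat_lit 6) (nat_lit 113635675254777805144) (ZL.cons (nat_lit 48716) (nat_lit 6) (nat_lit 113672725081839965786) (ZL.cons (nat_lit 48792) (nat_lit 6) (nat_lit 113734490937114727642) (ZL.cons (nat_lit 48868) (nat_lit 6) (nat_lit 113820997042506120026) (ZL.cons (nat_lit 48944) (nat_lit 6) (nat_lit 113932277321977041524)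 (ZL.cons (nat_lit 49020) (nat_lit 6) (nat_lit 114068375414852774850) (ZL.cons (nat_lit 49096) (nat_lit 6) (nat_lit 114229344692934447746) (ZL.cons (nat_lit 49172) (nat_lit 6) (nat_lit 114415248281429151064) (ZL.cons (nat_lit 49248) (nat_lit 6) (nat_lit 114160042492618574754) (ZL.cons (nat_lit 49324) (nat_lit 6) (nat_lit 113939066168709298602) (ZL.cons (nat_lit 49400) (nat_lit 6) (nat_lit 113752232652319397402) (ZL.cons (nat_lit 49476) (nat_lit 6) (nat_lit 113599468675403228056) (ZL.cons (nat_lit 49552) (nat_lit 6) (nat_lit 113480714330518862654) (ZL.cons (nat_lit 49628) (nat_lit 6) (nat_lit 113395923047334973994) (ZL.cons (nat_lit 49704) (nat_lit 6) (nat_lit 113345061574367960552) (ZL.cons (nat_lit 49780) (nat_lit 3) (nat_lit 56664054982971074494) (ZL.cons (nat_lit 49856) (nat_lit 6) (nat_lit 113260016112694115620) (ZL.cons (nat_lit 49932) (nat_lit 6) (nat_lit 113284959735644996480) (ZL.cons (nat_lit 50008) (nat_lit 6) (nat_lit 113334856763359680118) (ZL.cons (nat_lit 50084) (nat_lit 6) (nat_lit 113409726763300015428)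 (ZL.cons (nat_lit 50160) (nat_lit 6) (nat_lit 113509599096250292734) (ZL.cons (nat_lit 50236) (nat_lit 6) (nat_lit 113634512927831276854) (ZL.cons (nat_lit 50312) (nat_lit 6) (nat_lit 113784517243859274054) (ZL.cons (nat_lit 50388) (nat_lit 6) (nat_lit 113959670869556256104) (ZL.cons (nat_lit 50464) (nat_lit 6) (nat_lit 113723937150388012310) (ZL.cons (nat_lit 50540) (nat_lit 6) (nat_lit 113522051090833964116) (ZL.cons (nat_lit 50616) (nat_lit 6) (nat_lit 113353933519890364836) (ZL.cons (nat_lit 50692) (nat_lit 6) (nat_lit 113219518509098020902) (ZL.cons (nat_lit 50768) (nat_lit 6) (nat_lit 113118753346687994138) (ZL.cons (nat_lit 50844) (nat_lit 6) (nat_lit 113051598516910319830) (ZL.cons (nat_lit 50920) (nat_lit 6) (nat_lit 113018027684537634184) (ZL.cons (nat_lit 50996) (nat_lit 3) (nat_lit 56458088684223131995) (ZL.cons (nat_lit 51072) (nat_lit 6) (nat_lit 112928772663203639472) (ZL.cons (nat_lit 51148) (nat_lit 6) (nat_lit 112966563486807043328) (ZL.cons (nat_lit 51224) (nat_lit 6) (nat_lit 113029564659187300420)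 (ZL.cons (nat_lit 51300) (nat_lit 6) (nat_lit 113117800886686520652) (ZL.cons (nat_lit 51376) (nat_lit 6) (nat_lit 113231306771746860580) (ZL.cons (nat_lit 51452) (nat_lit 6) (nat_lit 113370126826480108574) (ZL.cons (nat_lit 51528) (nat_lit 6) (nat_lit 113534315490123414928) (ZL.cons (nat_lit 51604) (nat_lit 6) (nat_lit 113317672035310399092) (ZL.cons (nat_lit 51680) (nat_lit 6) (nat_lit 113134501921202652818) (ZL.cons (nat_lit 51756) (nat_lit 6) (nat_lit 112984733316382878950) (ZL.cons (nat_lit 51832) (nat_lit 6) (nat_lit 112868307488064873654) (ZL.cons (nat_lit 51908) (nat_lit 6) (nat_lit 112785178779061061242) (ZL.cons (nat_lit 51984) (nat_lit 6) (nat_lit 112735314589877714730) (ZL.cons (nat_lit 52060) (nat_lit 3) (nat_lit 56359347682965420324) (ZL.cons (nat_lit 52136) (nat_lit 6) (nat_lit 112604024183311015800) (ZL.cons (nat_lit 52212) (nat_lit 6) (nat_lit 112629466678720914278) (ZL.cons (nat_lit 52288) (nat_lit 6) (nat_lit 112680361646989891588) (ZL.cons (nat_lit 52364) (nat_lit 6) (nat_lit 112756729046929033602)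 (ZL.cons (nat_lit 52440) (nat_lit 6) (nat_lit 112858598826538316456) (ZL.cons (nat_lit 52516) (nat_lit 6) (nat_lit 112986010934750920258) (ZL.cons (nat_lit 52592) (nat_lit 6) (nat_lit 113139015337099477406) (ZL.cons (nat_lit 52668) (nat_lit 6) (nat_lit 112941087827732763490) (ZL.cons (nat_lit 52744) (nat_lit 6) (nat_lit 112776266679748842628) (ZL.cons (nat_lit 52820) (nat_lit 6) (nat_lit 112644487257403407398) (ZL.cons (nat_lit 52896) (nat_lit 6) (nat_lit 112545697882491616454) (ZL.cons (nat_lit 52972) (nat_lit 6) (nat_lit 112479859814082131838) (ZL.cons (nat_lit 53048) (nat_lit 6) (nat_lit 112446947233324596890) (ZL.cons (nat_lit 53124) (nat_lit 3) (nat_lit 56155293471811034765) (ZL.cons (nat_lit 53200) (nat_lit 6) (nat_lit 112323434144274592526) (ZL.cons (nat_lit 53276) (nat_lit 6) (nat_lit 112361980784350064458) (ZL.cons (nat_lit 53352) (nat_lit 6) (nat_lit 112426241980177926690) (ZL.cons (nat_lit 53428) (nat_lit 6) (nat_lit 112516242932227131326) (ZL.cons (nat_lit 53504) (nat_lit 6) (nat_lit 112632018934988678054)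 (ZL.cons (nat_lit 53580) (nat_lit 6) (nat_lit 112773615390816591010) (ZL.cons (nat_lit 53656) (nat_lit 6) (nat_lit 112594036847573702506) (ZL.cons (nat_lit 53732) (nat_lit 6) (nat_lit 112447204882064120282) (ZL.cons (nat_lit 53808) (nat_lit 6) (nat_lit 112333061913124899404) (ZL.cons (nat_lit 53884) (nat_lit 6) (nat_lit 112251563178807436256) (ZL.cons (nat_lit 53960) (nat_lit 6) (nat_lit 112202676718823763204) (ZL.cons (nat_lit 54036) (nat_lit 3) (nat_lit 56093191681006551169) (ZL.cons (nat_lit 54112) (nat_lit 6) (nat_lit 112048345870709471668) (ZL.cons (nat_lit 54188) (nat_lit 6) (nat_lit 112074297216027568118) (ZL.cons (nat_lit 54264) (nat_lit 6) (nat_lit 112126210083661924972) (ZL.cons (nat_lit 54340) (nat_lit 6) (nat_lit 112204104831599849826) (ZL.cons (nat_lit 54416) (nat_lit 6) (nat_lit 112308012006801318336) (ZL.cons (nat_lit 54492) (nat_lit 6) (nat_lit 112437972357178174218) (ZL.cons (nat_lit 54568) (nat_lit 6) (nat_lit 112276382996409624352) (ZL.cons (nat_lit 54644) (nat_lit 6) (nat_lit 112147187484306256480)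 (ZL.cons (nat_lit 54720) (nat_lit 6) (nat_lit 112050335155961363398) (ZL.cons (nat_lit 54796) (nat_lit 6) (nat_lit 111985788030069711814) (ZL.cons (nat_lit 54872) (nat_lit 6) (nat_lit 111953520794032912844) (ZL.cons (nat_lit 54948) (nat_lit 3) (nat_lit 55902046990135606222) (ZL.cons (nat_lit 55024) (nat_lit 6) (nat_lit 111817198124936785898) (ZL.cons (nat_lit 55100) (nat_lit 6) (nat_lit 111856515697813767270) (ZL.cons (nat_lit 55176) (nat_lit 6) (nat_lit 111922062117558186746) (ZL.cons (nat_lit 55252) (nat_lit 6) (nat_lit 112013863088648375474) (ZL.cons (nat_lit 55328) (nat_lit 6) (nat_lit 112131954611465153138) (ZL.cons (nat_lit 55404) (nat_lit 6) (nat_lit 111988001704102817624) (ZL.cons (nat_lit 55480) (nat_lit 6) (nat_lit 111876096832593777548) (ZL.cons (nat_lit 55556) (nat_lit 6) (nat_lit 111796196112674696030) (ZL.cons (nat_lit 55632) (nat_lit 6) (nat_lit 111748268210729918528) (ZL.cons (nat_lit 55708) (nat_lit 3) (nat_lit 55866147165751890212) (ZL.cons (nat_lit 55784) (nat_lit 6) (nat_lit 111590582687904741026)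 (ZL.cons (nat_lit 55860) (nat_lit 6) (nat_lit 111617053060129199402) (ZL.cons (nat_lit 55936) (nat_lit 6) (nat_lit 111670004185116243396) (ZL.cons (nat_lit 56012) (nat_lit 6) (nat_lit 111749456828012926746) (ZL.cons (nat_lit 56088) (nat_lit 6) (nat_lit 111855442146718424628) (ZL.cons (nat_lit 56164) (nat_lit 6) (nat_lit 111728779879950416910) (ZL.cons (nat_lit 56240) (nat_lit 6) (nat_lit 111633826616867188398) (ZL.cons (nat_lit 56316) (nat_lit 6) (nat_lit 111570545120894980962) (ZL.cons (nat_lit 56392) (nat_lit 6) (nat_lit 111538910575760864326) (ZL.cons (nat_lit 56468) (nat_lit 3) (nat_lit 55697181018066298702) (ZL.cons (nat_lit 56544) (nat_lit 6) (nat_lit 111407728263691482326) (ZL.cons (nat_lit 56620) (nat_lit 6) (nat_lit 111447832188026003324) (ZL.cons (nat_lit 56696) (nat_lit 6) (nat_lit 111514689536165311192) (ZL.cons (nat_lit 56772) (nat_lit 6) (nat_lit 111608326526677303696) (ZL.cons (nat_lit 56848) (nat_lit 6) (nat_lit 111498615868335107542) (ZL.cons (nat_lit 56924) (nat_lit 6) (nat_lit 111420281829198753112)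 (ZL.cons (nat_lit 57000) (nat_lit 6) (nat_lit 111373293690037206542) (ZL.cons (nat_lit 57076) (nat_lit 3) (nat_lit 55678816512064614005) (ZL.cons (nat_lit 57152) (nat_lit 6) (nat_lit 111228459220345150268) (ZL.cons (nat_lit 57228) (nat_lit 6) (nat_lit 111255459000014097812) (ZL.cons (nat_lit 57304) (nat_lit 6) (nat_lit 111309469147500882684) (ZL.cons (nat_lit 57380) (nat_lit 6) (nat_lit 111390510843255499706) (ZL.cons (nat_lit 57456) (nat_lit 6) (nat_lit 111297419408860177634) (ZL.cons (nat_lit 57532) (nat_lit 6) (nat_lit 111235378726534484070) (ZL.cons (nat_lit 57608) (nat_lit 6) (nat_lit 111204364466599075604) (ZL.cons (nat_lit 57684) (nat_lit 3) (nat_lit 55539587814252288607) (ZL.cons (nat_lit 57760) (nat_lit 6) (nat_lit 111092809180614639836) (ZL.cons (nat_lit 57836) (nat_lit 6) (nat_lit 111133715183435851254) (ZL.cons (nat_lit 57912) (nat_lit 6) (nat_lit 111201909678537945280) (ZL.cons (nat_lit 57988) (nat_lit 6) (nat_lit 111125111600953284074) (ZL.cons (nat_lit 58064) (nat_lit 6) (nat_lit 111079044797853728614)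 (ZL.cons (nat_lit 58140) (nat_lit 3) (nat_lit 55531845601913149340) (ZL.cons (nat_lit 58216) (nat_lit 6) (nat_lit 110959818945584727648) (ZL.cons (nat_lit 58292) (nat_lit 6) (nat_lit 110987358720847054144) (ZL.cons (nat_lit 58368) (nat_lit 6) (nat_lit 111042449071283574716) (ZL.cons (nat_lit 58444) (nat_lit 6) (nat_lit 110981624872925051614) (ZL.cons (nat_lit 58520) (nat_lit 6) (nat_lit 110951218735733474686) (ZL.cons (nat_lit 58596) (nat_lit 3) (nat_lit 55428218070945508093) (ZL.cons (nat_lit 58672) (nat_lit 6) (nat_lit 110870342365043280060) (ZL.cons (nat_lit 58748) (nat_lit 6) (nat_lit 110912066487920915710) (ZL.cons (nat_lit 58824) (nat_lit 6) (nat_lit 110866902955470371140) (ZL.cons (nat_lit 58900) (nat_lit 3) (nat_lit 55425925206153112073) (ZL.cons (nat_lit 58976) (nat_lit 6) (nat_lit 110782620227257547130) (ZL.cons (nat_lit 59052) (nat_lit 6) (nat_lit 110810710798025120158) (ZL.cons (nat_lit 59128) (nat_lit 6) (nat_lit 110780900859602005522) (ZL.cons (nat_lit 59204) (nat_lit 3) (nat_lit 55362078953325754004)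 (ZL.cons (nat_lit 59280) (nat_lit 6) (nat_lit 110738342254266817162) (ZL.cons (nat_lit 59356) (nat_lit 3) (nat_lit 55361792429503924760) (ZL.cons (nat_lit 59432) (nat_lit 6) (nat_lit 110694932476824925034) (ZL.cons (nat_lit 59508) (nat_lit 1) (nat_lit 18446744073709551617) ZL.nil)))))))))))))))))))))))))))))))))))))))))))))))))))))))))))))))))))))))))))))))))))))))))))))))))))))))))))))))))))))))))))))))))))))))))))))))))))))))))))))))))))))))))))))))))))))))))))))))))))))))))))))))))))))))))))))))))))))))))))))))))))))))))))))))))))))))))))))))))))))))))))))))))))))))))))))))))))))))))))))))))))))))))))))))))))))))))))))))))))))))))))))))))))))))))))))))))))))))))))))))))))))))))))))))))))))))))))))))))))))))))))))))))))))))))))))))))))))))))))))))))))))))))))))))))))))))))))))))))))))))))))))))))))))))))))))))))))))))))))))))))))))))))))))))))))))))))))))))))))))))))))))))))))))))))))))))))))))))))))))))))))))))))))))))))))))))))))))))))))))))))))))))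

noncomputable def vl : XL := ⟨(nat_lit 0), (nat_lit 76), (nat_lit 208383496), (nat_lit 152), (nat_lit 23469523), (nat_lit 152), (nat_lit 23469523), (nat_lit 1), (nat_lit 4), (nat_lit 2), (nat_lit 5), (nat_lit 2), (nat_lit 4), (nat_lit 0), (nat_lit 0), (nat_lit 0)⟩

noncomputable def cp0 : Nat := (nat_lit 35356877905834501763349456991780605915703296018245901784445404602420896911821487315742792113265788634529793831208381569452227886422564003778153624957758131686703432081008171131037125941019738625298535045182652966854289238399416035926935150774441636609277783968940318853551665321258026786806529153758049666523695092358030296802096711486820743740726905757715293780050337648748391188579649654776803434546662346423729786224239684541031415074292172264450784888241573146990681863739345150970072489944021090560614106786760520597801188537893990726428533570615675294373959073203919895463286755456500155968283695110578956071681487473058386294023601670777526995239496846165773323960191928249260104153922107685749119587731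5727469607593450205639711541954636387429789622305755977373961913501805542889149529492721772910076809239257085940980932046803470294741303230548616122654535361123710876948203313261341420077946758371194745437492759030648754479605749301578577781183451682658879214996055777418132614627575367505738707822697991505404161627049380215786180135793401976869643068562239186609098733411214225397638281660292739715521207301211653801772973147523441670247373876909166870324890685349050746204298701902571162284607604995946184636805440358340858607076006372297878010854163483259959385066294192026888457766209741720017421606664713273459154935481073743452970583900126344353364284520245279121668918924601004458816474895377314399026942150444445949070286285227958521346379205571103189184520923653127796352531502915346227328033478159922446430907944848676594242162716067379348692495663871211882176102144155345737315369755527283787878892886292473952293402606969384128805517924377256585539258172184181799173741679877074816381037397648429550085464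8534698738394170354730807376567618745084711396817147145626345494605372459728139352832367591137911426603325732836521030809589615684930665120402625708151802817714996190266742830310713641609565830524384241938179540583988648372318024911002855886756172399911214330635453702817372201087944464343466291245692733118426389548473153519830169822358737913384156818387158504238216708504798734834171195220183461615064496586502886935992225809526141810071727683982489013710370751267645463215964297297297289069312293562152885079704763846388327086924396458870586089351432974704702070404944514285031067775940141563564838998094843295378401102243976632713031438186477976407798073996012797734789559857088120728950561569243945006715356083188382664316452781572570677972204999513433791262321294664334354788916773994865791999414114412423835887313702405869412440777484929986937581108158810918717172748961500487180908032924508372314766224568974977645405794153313424276388457091105634851267464353013992650666770155391549758505930109501298274556294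8865287733509805238237806099940171138726806827454740966973254677430288333842148030902532020575315012851192363139026009688564355350103028741640115908955802293237110420755909117238219297314831826152687552663847426147931631854680978890732110216507188556913767271689937607064734953970257280284913589487243631399691041261956632263155393281992952376122842043168876101807985942610061605839083182065925979617530147442536474195388391251438613173330013978471840374816888082470943790539542439063592448955475772322986531654644525523062650798487122917901482649359107961965625698330105666471831189353657517736978012069815749784122248880220249313639829221838446039601323265305442674656938647956687227370020332793198526433302176698766036135390131692802828918432961100333624406617980396190735791940411498845983285902210437935286727370480584618511387438245204960349304689776994788037764454330368204309606195014580783066832526838794709247668038795331274389816002635026819123361733487719237162684250860324880836992711903501039234975499629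9717499608508918648986453557278955251371617440620807852775325776527293759267331175830102529767502651847807161367550372065954766931777889244506745159919268777110154921191348375581366014989456524448051175561269028644509862980507060963666022457305864476104360373814453320499706303328538276564597647931569781830491505155513432119939633160856310292230227128332884997532050453163592682146272246939018931411980901433559374072783318863073305529340399231121013401282757246145941663396692152553594796197068660500044439092420606620605499683384708527676129641124785639042432587901487117916458727713721834322705637341607634000746802049180402116586542586342740106084002605146219869464268184027547107544499323197312332429520329793536169064996201883627079729405998610540083019246892813320480593116355757077507513034358018867124501117041076450053270207471813214627554264555776097816322106816160691651837653060559135535537709906985175342955879420802557097341565031776427279270451072028177075209252426996076855297772408887679980700134638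8692545776560288390007207367206498672061927459794727696786228692405420600897554303265025093030573152748697913749873861543334672504195243259477065122385358771605005055757822888423337417827832954156004146065926142978007916585653810138627517888151827272845483092908897248152809628976764785323059677870309511152069336695613142079310848068718942269652798675282966769132054216723326601655987205357724896394199937542480140859405430504257376613405611766965763258624516558495378367704627739006313287922252856411599276884026617291352837061602843320225335766846882532474177147361092849151382788587375269670901621264333919773726755730839304208505479564743887144190620134283944045297143892110332168309518933246590617350874366298753829754171549671542503006811653508289981351749888691854422419193680095406484564451295673191683908885749514980537724869163968910263990696744376241019311210456067945985055634578709711997384812122224161882314878588855109966278346556524756741094675484830567352686478264909467220732317713817168596883983864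6104683615471434951241478261499343740478815043202438448162644611441945418651060614129437353106726553534232045822470880986214817628677738186413485182507911770220632677111797130221790693179094024851903950414174438107648769520069959577270090585138125628818126721103371389523122698424320049498422905543845364324493367693151619959794382821566410934795921646572417403926258814830467071543542347693601482587162610781416441610569363855951152140512338711841741796132990257097331482618016228224048437311763622144732076282472094851720325523042624797025906711276184783859301417828826444332244725954277053241085001031670709412684695808331784515946846833233236357757490028895129729722030717660076653837808548066024232169994578001093500508540523477654935960403502055518208592778416587751219979607592826810097967917123852649733855718828909709654660359628241220778594546614320456051200972777377179315301355486120497292696520223530824383478415859037677603045372706125431335341544287641313645073722489880717060862464847293494719391184158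3969755950242218886851614923961682709157852335531759053959356996347409837116743430806456155028466487124051571188602815146360013767681057425709062820480934741172904454303657844976664586931031980892710496017227257559694756801660172772305313952726544753719498630890370042473202823815592383021985684306564713619204535679379662756523728625470660823815929268505634988643792447630885966711924202891810967107610879661822075505399013348783716559466787803744771935589453063017577781503280387397930335422875237069169880951031086187899321187876133418486721715652282996937046070741064060147284238401419799414452361035012829020018064178260402421408943618674417818977907415634068611201247823313815175754858141186009487050761322042702926200283991485172879308690202071326431191882820802597087857337972670658193785255323464097978339176258633434787947077174252942644601895083567549866364768671695729893832663494801364437199111157077568394648249494262051207930393625366793062182404280556884040699458218301947957475233499908025789508468661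4382925926899570863145756635714594828856963842602007543110335428282618845583323435362374663108536364233040589519132172792377453216764150381370117274410929570000793648700015839718148249706485143007410483115023947033258446156611595650408518905778814803211704230237689390161395574683138100180820029574718745825530087061820672712647874795083278487678158036630889169250962155129793706056429714420485513566807757503300418011123019000751088963089620412747480615018322635813930380020858449644806574103333421529917996283093450891820121187295172145564127543685769225392978518996722143770245340941807808282549658683828237374646095363683462201440022811469208316475863281487938842988369972220370369198389470078688783894154054243775262648126459576820659872599145190376887853104760668299648516066395621654071256761740641124770945252730390233619320382581762312898858828103548962517974007496832188338776871492745958937288761546723388535076749566042919844544096407305592121046394758480579824447080471284395447125790864560186972854898624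9948871092862031644743104343942277592518596535647008703870397918785196416628211918077733971997336481593270764122197893594214752198846414417933348565480256263905768430860355282304315635831625075016673368034956176158213269477826802285417038219638879113622104949716734882081051421494321054040775961213428545049411825308578647724505067096300425105350985964755955173614215142005013811466493468257958090679471297383522244255246640011337153817372438915665081587270832981992691552441392740276252687363114485720675692682207251424454958526255829727791986996700913227336764539173349962929047278229376759016467845205491962647155650674627000685786149039627337663538193373428498488732052886249321978701694983246161203851931362358848233670663102153055089399838266416934141393462060584624369044573546499814365917471568814059397651955086522130793879864109577924961208875983637142647277684831367002607077985376366522957687518981176553571438496975934037019068090976942648594739166008067295457037255178525980205285589537430001647138117364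9462756109559427589900808411622830351509266021417148613375989327836643470580066901712281439707326351081245195269889358795553022919706100766146577502990385103996072172753652394193023106091011746242957449745530336447757959104890237464229564642526263083470473014216137739088374366210878437207740688870041989185305902272317099619132684584932129529397094359596164502724869414844800312811772345827987333010849366775564195632345672767191148274226053299470769794128677485730265311725732973429637856493479475815548828831344497098733053966097700526032262765317920965804164076975140708100257960921970335676630778603736157787127171261113062024085681219483905748575633207566014824950041579797404488018817531073155806592386525606781033792964046061831385688798707642875590736215604466412785169718164285170294241838394197157682769696809478850223027039998411868615839087549582878752139228949495375799961797730325814549739809707935339967560449264236176723272482160505624795730858435680942625111575273666562853912974485471741717110496881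5485249185312648288810247480324999625578951152473259570234468884226236388804012401299535925722843534272032078091993895700176159998624511675694779915264631301132778167864718588639174004885485033888695892544939450834542023908204286882710976086793627295440023688963867598222022709178275532141733353680275475793329773125481887304407800800997837808354425762417150830206644870771338712162541636693928967474430574407332051792817827383901349752840568585322758841730168813633271741890151170457103121782480081709217268105506729506875647498998094150602784603336311692709903958637514896535540582550850433990175273826459164530553183076641223487866438753682844010529788938170496233238102050503157742994199754506583016056079958540110850839429024152511066121133380234591473588207149646497160629499331593501402528900833515173213493429726007504922217785698316489686798960076009324853587309388899371181170616831367031639485030565242102095332124139711443010651504616536637981578052400728370368157040914714464511534666173599881509852079490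5136578400558820524919592283187521226889911418997885393434199271515025486758977778451395958112510244041188047613318436903771864268267751499964344062424238191023820444468932427265883424295521321876375951630618717656823847481661333657806757826332887228585776254504046356676446382034424634562826384661688851883470050547246845462815674229656063534840698486746312390027749228820785348607370827283479912742090511554659332100302627015510269983060137527190668482109868331507872969370327828235782669080830200738832633922429089592337404202923414152022564564130504163614366767550957442698146851593076043946144217675856708635838498283110895281300553403471986584534229154128243975994131542726392711968419826216160169131732848553628780030122878003207526797106756911548118749455099605891623938961233791748844092508250360734280710040819637468865959404560621161147717146208393935958532714495719231589593442439052859076432064124930135767087550767482476792162818319251526245444156037420852461746284718310911096105658452702296508601439059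1562130485626231105084028331095656577417151408799514830400987715152344588057648835403030221201450966421807195581744074588726916855634857456664094071468142007244364151550858555235848263350423727836710492188471596086110700870665946117738433649947580043300386322946493739609012909216811262158039550943177135553258624391451213295147807437189975852725915210366228851096459460837361933368954238381432032361489223281204672298906699297904365560692229199710491794413440316118939896837205072541392722338694802035039569331001546014309873045637102050591496970119029413255928002853148681177364731609600639401140238652071833772895242225721590655665567190155029907429559144566330728870887760187990259543916412285558331902455452487467539215279149530849209359496733970810401420615984293097740656020321514955728952554673427210485573779412760982171635668008325970898462163930045775724758236174488481745817356889814654509494931692039868861974213414877624597807781962149104011292197645957349166213248971077174995619449887890806862860227590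1644433453031222986843280125894660222953708018132190368312581440923499455187678033052981434712438889971147901220930489312937019306685662095868104353823435663502678997443280244404299051150056639584332276309286556620399960238376699312377834881463000085269069103952071856958046441920266789081361300036488674203009216303314377922963562103348209804382330036582131409118637667374998860576351022664279754716875080629521445900183637011089894748899911568823021439385650137653881237988648895635636059690036112989014761593230650806934301395935179109723458005336028476712852516185538960507236607681406252942637203405106602890821667740630824110800127636269332851674892095629017259544062481851631886651135033699157873621535771626203705579130870013761488340731100341023859231731618484538910343198370754615458886577322154825262759296745236126263439925710018927237750204344864452181145674075983440063274137095869887602526445304325440232326564550258011165508577750300978040400581400657154903440521700530829980128954824791118783837762372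8309650808287861302433629180372740566757078672028873112187978505999908546122786971670273026037670763633971176656915192824040927117441938642107971707908111019455451325389966366561484625180784054855708163911175171190386362828344698956628624143571348838477583301973386350262189262736962748651502807562486269137581889031196683164293466729411113179937603089895774571693567161951821323533587036701241751710975552066782876119589509460373875372644183777017431872792072781390612661574379994796590053840139574694261080655530922434539955158763180946350581623966711595262383623884228353553489980554454150572122018843831591710738189851343742899700278323013366436853068180088856146462005368462077797085426940180926268154650826196741125704725057628034221080093847591232403807280627820277855104828601111611477912610827461424967542045779955251161682549029969370322489423255384399366293937262416461868589934519052112411407773416447771724478235238320447826082651460281301807615885582202041863456155617598941737583566470464519131578284902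8265233037854887930844426584723665709482733095560713451247160336093555377373195782622221750151061287846238049646887467391589365931347866278333241343245786178051714715627518884736888531364879112148708241044230032746808621669411217287297705135368054060855886193691023978675252605756190082455568551223222026316246845540856685880877037875753223629344053006327465273759838183408691692401953742800276336858608512504277068312623721181430985982289001380966303145965755458927269374207585942602219630027528486217790869701712041861490444672424880895184451012905825830283709245300931179796335964978720010534710008836130266510056092772508796345498244861800546643696477452856325215303701453425840282001434763749965801662773421575150264843477954219818389962722234446239845581849955403655325768546830691477028584193203387834915613182287257613787885649732761365969949698920322702281340803917331786427741469672081858872414636369820028372657084491047549903529745122096157859867498819399081550781647228159205886100640893015735266802558173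58505488469486375532107979487237517744449553914704091046676604348559384200136015364055826657106164696608973740067063929182263722908044193409473480443935093134010107767988058156910595659442184077668776067585771754721854332524426957051892867156235361820493860284781643075857976592262014009455191393444811098662199106472324551446843088574139525849441493870865681622611975054773721745408571671199036046501153531694517323675180726302538675921459594772502655286136229376097693056823957052970216975756311174395228690055204314801887853057708286769788802777189474552186479599045736266078364772027292142170019482664358192877618564348780534180607726246295129581633237750256475959564432796101298753844544712364606061633864630580949590398225286042896441459499501761571826384769899085905532437522493238652510083753899277537817807521036555079017701489611520871692889795130120486318225997507930871338878347332782045637687908800507312696702494977294336)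

noncomputable def cp1 : Nat := (nat_lit 3854460035833555265102389657733831103385878336291071427952705684127422749877478113357516808594329482859052762356956278857727207530644394613848625723515386354664110150750816673030613278350766061434316605277451928134416526322456986296355183113586612139479962478628954562678347168485534670579385457526180542506685595813992007733686987712578417045778299636808968916440322637020247425350245575863055700228061414263987387109826969143211618313844040774426300862914466152005518129723074347296107957305304419464109443547773306377008697555203186527786151226294369888342660509602763400192970964687864867548311947872079052559993103758679939697440920595044102389573065003709215970876790815989666473465217484500766536015508039296878943537513915911194080984892547525324047365561709517841369059299495559453441992762318739381258756476306408288400856018388781242267385813275944432132401033848937751795607478397625503569797734234929263064487317313244533292194886472613258983306739968373330189949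6240004735933076884597663678816690184900693334055815087517909527825287565519451159481036557498415311940157697036935174577536181291141356035866573913982240932298409205114835458541370138380051957338809951949547676022506509779282124574673257066996463563436452346227395748620009203799828627540007450405173577528502705618422837788781776107635020237667290130348811237297017031499162336888760940152844309490712406068030628670277603145220701169916578740679157177965266626166239073604585126055404388082235960944310919245945946484381911534355632189472372411872764112638411301593912760734680074275925316789989348534616337389180331223461180454477705412408375088791854384582778555615588172815755142285203192086602950482260417456059800156642471091039336415770971671611723079871991564960547307909394033529712567895804310143776809586032988532873357126203103976809835951400972764230285696825253863408379641245756086836200001675992672085851836797655640072373334842291969565712424144402291790431394482001601839393039019898438407032735128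8327048091526268832320239865013586549118804234539955917399198728773976917164519383759029943342457275989659463578714936169739429264380610405694544292697405951325993715755241603502692128303988563347662978159279334011732143331774153602851939507546730394044627565478293753605843025642409513416729865257921730164245391619819521835587647342048030389113377451052569557664442739971316649180126909004390307257186954981569365595382422454642477327425285448069056992496271478241721624067518965730569538178652662461478239332684734906219363490791443173132732780042494263942148470985481408684773254110216678127201333961008169348850326000568170720555522305142138900038606528551090408561763709117858104467611216425843890543490098465040678789178322693248855998135221174165691168420373046498758341894908301715076410767886604615375744384084101957057731119963912355327424160837911283281407558423406476821127034991673244283088460257192071781594230298976057134749717056229430742877089255414579711231192871095156343002916861624356536354115883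0774346556553897439817397494581952948785439251088799105741800415319881237855075052981978356087443993516394579133683014604178775909938365114188133665731007723139565372727852504225736262015944818507141297708719061435721473493572434344706554192453497171055499955031429932818544424874828669560855828774246066780759607589736475267544478456966505036813136438250502702286650668089161511347041361724587727708672691046094051084193237143922811553482208482019142117516094351276311550108065143121501908186705375287842538136182973319383755290577242803730755130082331562441459961635206019760575286700715268454177543318765373980521650408100033718298970216029486183956085691555255686042786342491706859965013824770875344722377079532732142198080586224852457124006939654782577842301819176556571718392217923088790473295013054265945601007365295962057063549428248812532937931989785981039799097238837075980801592130634757849000025666749331037963297801882819116497558145555761707813614254836729788554877591690656209018323540744629997165440970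4423412127271393059213963108035129058652813271788635737251588241703451425181745506693287901620251763532410681235855900020161395833229607730923270929626112807605493840564180943400901620645599715426003387065963143252056922356309728734909298591070075458579820354014521970585974971826633059208004130311132381530122430606541588229135310247490154340435922080839023408772013261978246081270404855843525151460152267204092668074053360554972124974843046330102809682428247767843404453205243398281874118938854609074432902952947616079916755217333981581013512593509879780510732861920182181272785609070833668697289168100252041123094515148023820986383421085103791721981848072050684969666485919253640576016373281795365075567987098989904471262367593821938221043494956484834858373074200496702045878545355733014153837378544375042983976899334455431328820951982644101717233163378134438834656336614380217815263047253452998566528133344928586692322182324771038823575031750234950865621208702692708876485599864657337350524321520380249531711910298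2016584476318360118682555700418568891700939801874254213346507867256927237888600208372289085291328556361236816858570260028277772729334027993762765498618789764757267136298608376247613389971609535880856790418111088250546408722793966033803606642996854879874910340652777611585483736253946555302083684300622171428699561458354283729588149572646769364245182115948548502540928820202817649951378225238902318625378160083838632690312864827868552840975070469471451799120334091401089425175127741560657288413625750632854038719676645308867834165127004242185863431229163211636768738300222980625267662677327329776208420942223052338841053339313627135010267712931546620286007300001950555197480009294920677955019318117842188641416688920665544690777382243403664372263724057156068323081866022752115864512123747277482126444866723067452994881582242800946685303344642069043096240550976600460687470209024735289635415025093120580652370897591884506817712320412185349220717754673381997371996668776333176426638691828621807233639936122609485480082309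7315330168758308627455876800762440373452694034902417321623331832213066794109195515150043410378828952428163715104430095854736286069401822174013145145118937981302722585163006761224630947308089250550001886174876640477368275681186979648050016455401353042678659110614027097843570581098825548852067090813050628231550432922291346999938334146234037357167873908651643811578853576856541386288473964225242929129897545247286755420309734797923756254964096878283837422428566995202540965360933280935032512292030048201244505648944493574478150057385543141049992712009222102810156355812352931349816452680631176048394615005533398860545299626943224493236120616483980601501227961027292507358119809477310687227273084314022708594441404097044410369254439043371299959242488313576960280544330114710570405383421948799803633809199591152981706361326611976934593995703944316737118319423366853702274648149858508162481408712486033366140334937423429025705419471723096164308013211285489849636021302903443660757492254432996885807750602653326770485515516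2396373065750387140753279566008434005327957269930139191024368795870555764585433755762965270544476568044983095073488362254084912557141270370413508051048723593028359672733457252753213041859665579900710013610492040386178680225256584105147868308826409433605292158550916411368799170023504030467498269224575107644412955263348698676740139111198464435249495939074645907693900005357106702632574523934616876962524558333791138976670185679821041107645825654383170354027458137356851091061109461414932929952117543667779383845934437330073349213086622984881750542734761341450615469727056949773274979778134701099339013968896518739421762797998607877574943667402439187432096116260186947164287657514597321749430764107516034996673585399825382602722258569432554913187877692541059204371499934199404475111472712460208297624928768143532947714471242366200809807812149612145934856263749507517213117782357736489172071272838973117741493837540424615655249974584073320428495740791549355582182374815910378977821173121589593312389180739371104408959843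1929100078060000588994753715636587691412754914279337880171798721720104468169312835854943949483177232046035521557202144252461958273956157342730573506640462799574311530351829427877979109725661149022868661413934670836865774410721397728252735354120239439937424368583120747360545431836729276072988215013825155407009504947869119890066879918940862711506489327172912942733483697108501168441629521138177671860340380443402336567924228654442345557029349438395510376390554803595294368252078560368160336803964800784014949510209411641933911089868117774713767956339173151881583719835438543718205389579598347617259668411312882681479074802979766936521973577796190514987182700509474319574410314028123185771354638591617145748749785993012375717819852917766720504459712875734402394192136146820361886063117107194823822277562732493454081733300142544056782479486805213720624587129578231371259128534938832612481684288007065505344995117098642211978380284681277556620042809880789655816409553491248078042191019827793840111017056878117096299309403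7947896341929510659520229829130666636671202950241696498919549020596836370575131021797235303101592802605577406745238656290703927043481680099016337502785567318384745235005922982494839035740312589507947678942053504699178480411124062818362786586929059745604700863198149381174796831559801528554611946526921054965986175389764475579411557062692220059563604797187200059083253780601322715413645345643375724965711556125238292821248026729608017237868662872608821605316629580762487790816878637517313903095076319499265203721158733063344771668103403509917559896261434600893018680003252922572545152094001530230420383512168639560244956026557694965814963316828698353147666210678539929593369275777791367774560776846557362413803370623760306733176928815283191197072178399586893741377091185245313164131683732713464942098186365812668461618500114819220884559028340004074483214495945786061739023558005006916659339762722158750699612316525327470191169069267190394891788183275948137133069394433965777056910981002510622303901591055565161600321217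9797428077382346106557419416178539134497831482574931948061706592568932376457421524357445607003113949984696630993816820683445528859663181406379875628605319423708734723252137560662844344835265216128898855305484281645814234080590500779823891868888983050454060525849465442146737072124160442011923028032707760327982909831590155679124594797839732333738651590622521340428691730916700081234234624550775025058967683999503742657709283768020074569574977132657352639709153692935542111684853525601050582773237819120033059285580217051796729626223831062748663094067042308548986506584468535112711649644583221106751901357259818938601019332316910154414978271090260070796857199242002533633387838742717551758158702477586594398138232970975786563997752905317215675868525354615892427993995293486870052842829293060786855398382211727716491134043770579003130651748590307378149715017306653832424922828808497270846132044939279978699837041003184172632542769136478020136714328348838457044166240628489414506761593364881843026828822641790702319055749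8667422983763325680214548093418213716115777631924784400775998566089356014223064118056255427887698914062863884097533956785852190595776137319707988249728923884801665693307775911146885933001206631675191411147645640241855072323380212897449200219733243067100792073905616452091175443013084471359844118105518524797544656721125138200861440952798876603285670033467683634257236091066536157188701112762078217055900288290270184594167788486577416935594423010711119635064095495995269898587774611665776359391838594011494060781899400388053491611206654445611531547435240807070834738412238874042037947741057876800226840661570016294736805186385203946181763787373723358109606573677293832592430769780030167775878695302515919524331008797084339651220590289022478979579954653621542384933010210392987177268911745075863866366245622596265772174991188093781000732445143165968501220775374747537538209158374935603281586511779223906261284668489004371384708343533751293562616140537155676034094076094249564094933361583530893132009246452954465302348899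7647937107312708196783258621178993755267461470212769424021550655623513565659376573212848794286922590593122765353363568069521922138588469860875020779983147766736974810499909761768335722105768049280628199280490568196264089789683612092716499416760203139115192823617684085293507539288581170791847240300195221454929585934380327970619967193244580525892239438304121077381891093306922420783934780358914549257343979931499393948663760917898003291174107733668094517644832030152685648162573877520903786408964526322419941093920281735651044907439220136740708520218384972308298996455997946435648523342263384191952230452182555997996520361686436047558400525688608440528134825358178006255527295140780402610868870536006645204451677548015761069423429029192663214269311320514423541813912930141274754802009889729253507358087350217817989089819978360315853206928868918400032281393160790801243825981605648102552269850858941219996531415979997489839904750801965899978086000212538201822927867442908164139265781158169190639599470964501659791853062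3309651947069120592340489818488113749219268353350998948479562682187262843052346045088214682290788414152503334946532668701269363579308673455378794749632204256524460031191642864497258102854074195176087161923968172778964265623569418177015699081274441991657646093812157035944999579969631691020753568850074330039448290870392974798415019643397592940860981727564307480693730440485063412443096729173820633449713908965073460708992485107103013115540993780319241568467966193243635549368604172764502757355761447763806134209398458141038228133432693647362146621174174216484786125737220546228060329036483432225769656734884304079033623778699179104031543322421380021097737632434175847547172044416909961490051253151729865786931904837357577556098787652608664068886995565614887132861078471016682757089916390437398050780674228692999126823498100732456531544601241205765317778203376617176209682042153690246270381703341425501622329425630357882438987747704699717705827119709749612404589391440008249029801133561347703772116034891343073443911389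8749714525001691045866298756509142117131597904008364522468326387194293132045666276452508750142170238833465009539292558441590883994734481447224510613502981738886896607037210887992941990782902081525548291611503841290243770356050007440353527266108767794288886374756437670957515347932777260376015492654678939253883081745926817159614510282260857403774970941341527386661302512160350008701115115365140193277787754560290102913811111525211705330927744840586557619024555434908762292820353131386135128896080348222681032751648214803589454655269319983400897815990906143005404781103346937999698263792268559978596242642442433511695061625588413612781587665446050555259629732784581762086305650280623282020645226390489020324663405541930861458978184726892716372540875742869737957227965344434209150872104800770232753708799252524568341185241111860860856401449951775080079093037139134143756330319152921238181365488196933208465423203805105676365301692571299236491520776449094127479992015623835992517789014218747818575302365371079915553312030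5067382413161107317829785167380259421347298573831468522337808819591596662005600857370094257283324212924705919069330660740729176000904630683685215293614266304919357502133377579899010476212531991418734419383617826976895822980334375461385931463566233241041587624830951597798421735499095948720785196298804696238979239928459450366733454095142286838095870424829522434498351547277437720683722922459382190352696146986212838416256423966143194807224755072970087398487004059605864165206649240281203887910394467690801621542956536860843931822816502329377299221363705343652184315941763822600517785801793929040307705949610792949767242296844263638763073999944013259847969766133751131408187616718645123716133754840722747491563033397875335459421253581362822855419952439468958841043851201398163029673686567431452658203955887160458931264228670851965158804413413959987728214686262200209279954474802891292125044990300930367494182774656528045711923156506623108194649133776664795185054103843132875247710486020186587530348281814258641023248178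1795734685436733738726583378453085375370689638062778420934235480410414894999869487184050178163899682827245975510968891475291697156773492708407559219174228403128304910870765716934933967769072820865901778355334288735910481941541960916449131101461913102839145560698147710490227484811250140914629778483619903395462569100316071974122554783359832302624824551661353228178187718732593197002020581970713567134282492654839373775589537809023108705272149559927633922040295482635031350638539158513106153204848930535111805539895693568676539833111785760381925154110668903339732071163256204188072855262532701356740091372660070386461505134281710148138530942375122883991517778364973579082528391360567582382895996815524681549012191873522724609374391912775729609747620653036608280766022814987875100614160235211712458814785581857341488657961624140888013951944098442307899094293761498890101126619280943244210666220213706202543204755993236707318935270628589344379910286208468546777731624715882477519995067684307350972215024764068552191915874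303036508146426710822920649515470163631040241728606877293924541162016202196753092023352011704572570977493666831704293781404441974922034607990250969856807821686991007499847549599270326682322764920208939279147591037414269469933841321939108812610265316151795752179116099190953402590643756648590972861080280934448891737271011041537301087046417998496832351422251904363032069015690177303184063536634635108702994771564565938214970937239973602547169019342098765338810961125596730689065543712548739480659327724836804612954905255690309308153229736983475291020238081738811594224705180020421184834268750851761540997900117028081330652099032219108356043915639489365601135499403067392)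

noncomputable def rc0 : Nat := (nat_lit 3543164872343383315603297243703495412192337626735975053613720516187125116812531124098108038589482643897656302431824579178317166822244598504318293566839235356136032001578005977516659142751280261990096486548382559660232429307962538291513203440882155469935729900459746231992806337998382828624714990767532121064136246910166658041057726412456933419557011446042793905580301518058815947826872887753398640619219026661232940232051358859561220681479311491966365235143704010465607931907415060959097728579304882331347424097001142494041208745120982789213238114599795287806942381232377747031503724475652586998869526808376327543969034376212418807474087323045371210972879475374055943336959595081767746909834884166419604399179611069901181728043102325580901194241142373209491467418492289269760357572901625314804675994045843717818725206901080542321250836113521246829336429890767738206892686160255398537091639449348678129743173557846409403229568342645538859492612103569303245638540928839330537845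6624986113927135627269030703450968015300111842525833318361764192214186927429857571327319657420169953549197559831265454782065492936651712624295581257615999600161027615287880314944727600860824640279536703499247055136497144674810171406712919251919515835451860574663319655231376284982877657325650359320888549360329071156165672533876322751675486471186516309607969443525782464660985911761280744461084240596062173649442932688396358277862134051839999785757193696404030728871377256278808400130323519002566433847729021345320824429415968147855545301847098452151357833484692230794690157302033368086254331113999190555889646100338763725554551138982633036344490065547907581228777394955137304311859955032982061837090073304784307286557265780986751652510374127418904452270619072345442947247794909240979818184806100707488304499753645658330949773709692715980585128836852461184089330813887464022674995065707247201789524829955599504161543921469909590656541750641779466803466652001593139333859396594130084731543960064156165368433203151814392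5204918088311224147890018784351266372949816142393676670447358629314451647528029886202859223603588129216730390178393642324155272369049204126795074276554290632390019244126464089448661972664275379131150367221044092576379108367085174362125867104798791844153489252478100344458380664784306095268556643140145953908935442986362969559091989949033675982510545685029250409171188032941729890808663322004774900877230418974409707396810293272500765487672426921135503279993116679055891455086688569509091617542830539902859861176974991309808216214200401823595907631286459818589525451460728120671997829948150153121097671920774003467217977342354935392508686493126065000096539821611632586956182302210282511216759156762366899518012995413358145038818499827903606997417808712347507767551894529240940491915367227132523529210464629457542492298457608376615777351023919163698479875711732200277474961939245972014144168668187807340206681107306785566464491586044418499305701675706408841036377232956138030971527925856920272336110368420908814237626949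6640221585325183923990972508366593073250554025762434460009656054737321179752145316888821239689329744991926555509032274862821828342418707430037679892198328527628289577336624181743597332180807425764150286345158493389977664438926270931904465301005940371211712602397330068039506465534753010874261104241175003803712490544428265868139673583306930592101809988510107031007923338733369534804293717148533110912832710836883478998167211859768607863914638150452264945261120474744888650402361011515835572823160129474910937449257103815187933508927169765434077182677650690674358264166968763165652586663791615153654740887535329889515787957302332923795886229092935735156409514037695573652607371009937416999338897607705210590373765306370255006280772595952472739457450830173004874396006569132061513625660040094698891186552979198613360820264757166747778321472300260786411678364739957235562595474948919847646820793521730451905709089614076819434019831006800803336793492530807687854888684078733816687404234931327902940188642595379479792888241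3120530967032802257674858348044927104666110366302271433698265836026681194805645373175458789749560733449758417493993048886857065482610876458328710501834272621777219691649959092273200827082539947723331012895736988365825776666223411195667732537172746327659726243829721425732519988033748279984003306494374903909807337986900374273781417557464013769743742003150224134124160423177113346234107429760687725275892720825223648665039310934886308521895325375737259339934841042102328108057137714509025577904269287570774272584165140879846818032589615704426480079175190295907981000950689541959038572492595418823154618186558026497275177028352924296791535481060593779011629844767295574089776085096485734668574831828421874125829379425066412630157479777823297893471817489759216358718705217016571019884039423145864154752206934318909320304415341531261025276953697522576521068518756246035091961478390697475781558601713406863475064487220323217655801582379564715068197519447690208657740454348563062825232973162109686351479866885744552476726943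8654392479132525297665739086241164537276918127030986935886702907260353310501732649244649420090787481455281553497468194944078941263426751965172393494674338116258494577524275927899286506250758915421476136349664564405120077117443015441463124319427035850935310183971232839014645959723677935416314978500194886868957230548954107732752542230593742467719497760386874697781398326237349337850477363175528673541225029245902430463340004711069710596848560540227557492516006554185686386970535071422694890188678553003030054180056339396495884985287539896526641030393931409895124293749788704790175052129073055870842971512456851510719254513116833801745589456610087990338680768175197601642571117833655912480405735631286275941996464528813443788448100420343259399824598055250331555329043388671571966170943407441666333221305996828903079678158471245259528010173966936402862150706193030645607344170963539526562904656525706088266158509997503780886768386816260110581651032814511535658192421867442394460726360802280780792869213089813961191430415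9562458598052904659029895971684369761225898880424344255853830150779536501103156313042947002497727747840181611008519495944287827163515611586011034146087761888854381283036134306390220800691455760342368016018429676776635403729211915717248864266892013113592349409163046347495467778447935226155476690930639251159098504569060733834041530859369830355233138728904427039409286522193143818794049636778983138492770333809866768853627099195687511009101056752725822498011191221910095563262684528166360594697331376508467988257744213962572410181834491646595647635041581272875712610458356980663402026320280306507371568476121839909230186955859524356498108670791540215447650080376724850109775872208145814935057180200263643955512002226249311684452791770454986531354981643046168434327673056989000129153160935224619188494014016139553173029930649873436032146414520394348917599533038923055161770477046114995839693942214110728904484931618065713917733130242750462277502138234839731328833722965074953396891046184869138533014397259650109044109724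0279551354427238330211247657295620913398972508349190016733238095480575419056033605565928783965653251917947142564712796603628411364853334573777210206590977366119695841634458508996583067576209252893573346694618149501657486534603287067793509226210920120579158420491928435269850791338202692165369353048411839429242648058926488776439944395353255476313191595135675150088299131689801560013356784128538434536896082092167302780924470675795575917426749796802356280797396833945954853362474129172468796280216019596714915827911526516369846038202707750166647323995915808778523244718220749648157696932221562672913038837752041255468863013427438715429169207238668448509047607180376287182729951979057137226380700676380409699103188889446871584652347260803066642119490846264842494972938848525733705648718835533495882307391605580044034858617828004059952001869166932290196413259217519184313572183307665733721683896439392286021656723513601455509096792102835386242254948296139308766775411918059904874593908352675737422378628427098168688855687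6849436645739847279875478356709566072416069133194613691621051301018944008696738923162454727765887753729943696927835661398278575750818977789502127447365845883834743370745837196404996206929595149471619150816161409310957787788518311420206778807082074720755642004843559870471897676125154276876073530782035617885736431823059457843885946290373544718954133276888506951053227640134594116897487867566570291797187126255069578133780407259106218394833923062977445004360628920576043442009782567692412135062307786381655415258876097136663703269733290999494685010878550611128164003736103002775535199317158497380640659505477389074117389001349485287543252362597672981678289976084999834539972191044341834765699991754526366770211760737930606182543430379699671515948918019524455500598092077696094915332129060711138392811819827610690497807520750198071583877986961552236437404420965104709247618407140431941201022073247050370250597551914424538698097255180239887558736170616980963787894526757992925400920858554250733949644784769455035126724860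0338782711674829739189548046024391198399304164385365981994918562957330182562800860126445886058911061467658095150875961558509042169341359236869960587352252188523803675042906699359694600842265960679130275691388258833112665106008228326447653139546999163725922724298519236437854114559644011563325428659752540416565068231948969282779766600653392306762203574845842023567910861680235777773264655841595806670869888524260025090602518311062417135686613702137336262036061926609590080182585084913356611501890157009771663177406419051210972590968340087451912887251403933116065583998898849114226320870203469341836088651958450697457497341271330439264515168486530658126644734484511096823787895822881220903286092643708460558227035899981564824847467072653359095870917156541160496652165797083936872412554527301107727885737507033950304256440759824898520085522940927563308951138109074299705914517349627063297858733071273178000012576603731781346158191194586828960131066151389508563665638736233729149518948616797082303182801377179293536819576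4868950051873737921661029126015948585809297587070065309199496666466821457213683201319139448299181841352528237038254446215754049354930825862236797193499725671821010340780487726667614895181532641276939728859139521127702790412715006596803621539278801246729357719627701881562402648005064453577505694558810832641590949484760191127901327132778761222349113590393795484764047306938855402198243012277803934123736946496286994678107586801213428230570382680630234909265462519574738483068830536047992304659965469222673020808476014711388276597924446485125285067222532642828703062605318858396396204231192355951023888739994267443791458332197973535816190934361859246244028630456682065884217565153727306792031475303492751479260278239348553924583636047064438454413825223668296905851087618165837979506688472735887394856592237403648908850457987642786523286988251472060558357357012199776049366512382538255779979100891694389474231811198472515547713453065686489549911446560581213597399634307087229864090484068496612581190222067628997189833417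2263673733828421036543337903985861780826101950547824481273202813639178483240708704828536167275568071894927430704648165484293394719143025837985264762514952266255335605691990364365107279102183807986428465844731543702163270332326056700327590907509487126060476474071472862340710315026690357961360886291886906132397458905355677560185869578984693239011117373342041186599419343977118372459468289484702204497571354079752457265273015725858871920839871257396660177200416699342316900366920529045669834322034300020885425962505628689440729463742663958172585062848582731678384197562639241767281344420926242453345350467835672918180682539801470988124216356757547071656461680669968475109238328717469376046655869848368281495341161502601759663310422519899144463178643075210975834903365730881094912616056026811461671076616373332034206499653847059016059286211627474325584185579458722818243082338677149818916954588923216810634649519167440426501497215496546404198079235627417918319976623524704903404084899677517609413213784657971504724105835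1407966054495535023050599205846466146450543056951732323318937023495920425974674584033228654112719451056179113696337876173320563133496323330103522128323120614365569019548510998509333237877582848444361332230153421516694922961346072536894220672812211558268680876255826965730865271185298012269864169962945197967857417982303438663614668865058416188806828099790093583029847585640348895439117552768642474871906887661189375803050567950137424269063659671123272322557907146810450027216546076970235227210473003544652678970596278111202337283064905586786238337082349138137657971776382746335446384633471119879074536323589577343284166348494758219461182891590907172834100061439147527903135652901145635769956750397088169816246986565949513034400668657400831635497006171736240211565891196289587408055810051810924761483425199322885043977775485720506661109074717469832215014294950907688900944666743704074124328939708885173690753047096882194998833641454423559167764255524729642491148965599158744706833884383124591274427602996370480630580437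5441747188631690878202625207685302713411986379232910855715989688376691485786235849574378660227829375557724656044272333353980957840328992988790212632672581488789101943524144704899165111933340761445292740668462936323964480046100298525903326958732294427067519019033191421187027626155827733655705051605774437149885984043041330531589543913054744408259899611725667663043462719424476770696510240105350977646879991605709676719805020142734573664788660064325512311460747205271862820822261362012476969848914065872619434661684162544465254884333278141903051995580565836266651191747663771150146421471563783405333716370727737872678166548429013978669060482892725252456149099436639377776469252847759661458802834213599797262565576633660906998985166651822831795318455974380414352323546728804195872878775394996538497938093438016153155612530324241726707308556303507859257350080039671525704297979818291781867668456045314978092143624034751933673563384384777564443621555184816890796692497802526200158440722975413967038626540878075008746629858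9328230004416370011808998387932902164005686341095403034476595348013485609701966820858538811845329657832567051046857518454578722169851090255690658823169024213339574318453809597384672164076028883312149959589361352984183197132780378648042690420124784791761447828983014240777331039163227703424188485563719318666604196155337925109764457217505656521917311096366409039877002574532040991875726730183201466662715232366135429720331776543032044295767845876891095426765769532342682454889011514242284173397101470794348647848525327062686589859416914282344981941502237911823748426781937178041407885063239793309705340599579004527170045616927208847742680926878175767204864425777642488131222891033676717277363950289471712438210975961229954142568021417980257549457388345566570943301076365911511592809304475513886376342154863127633114249668871152770561217101613344727116993037040608343236983334858924829975211184098185191649755015225335203616227526150276918555082335995648667501508235971156766285553135035404757349071968161006830338280647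0671923498697051656141128766292447219101903133136707391777564155787594463774826265690632214553414524526196692026744648447633476705461545244626175854230496124079899352860493888445082583260339422690260499891555131917750088580602261256414824036713651226530712588645782238404701990907826871462481327489617666490792150908290409737242860696801256266106558862906753669248631030077463371230007324714441204429460570145316776585624860227677140275787934938432238641234719865722003804186726160420188403780652643269952576957415275848421893967496843298407814036375050522261138796130372280859473574245657064651674700057895383098161302594392167918062742396305284615399617971536291597078396136279835361323698630137207040977119626307822579227107210768501318100543972159319685254543471001260732259376566283979437182304213887527139653945499149099180092325286688314592041405918280053954840019950897918988158886225757562548115761249292136816086740555452258672799846369007977273662698821721991371818935354534086671431484839621905433963926795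5191681782609044143712336150467381790218570338275728420606252861955037674523277767976604690997314108777118354714827782664498963746907591900610880584012149851838978446641707128038427580219820716491781112548496044556664051800622623015486112160358910653639141850994024153766175893817062791833668567119020669231853670518304405257010660845675144447295465853599119325506214030892018747747195741501828392382355783228438789292014255922314291007735368100000013594177485194814037023815324618709332851726537683409690550062340195382225135926563669895764993757604383968615874249046063895378394290436001392174029747747403736705012600759631713124388293328658680834986647095917417862357188967695096251986691892809561311183217617808600477764273676522417873197795327876500755493887204327372659977825204323749148882396180619083871523605814504046285138997398357240922323709457793453054076802371962626294748964229395823784928747146930939804917469755536304950010340774170322061993505697631362564348673164795885673509283325844059731737831793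522297530695056076632498771698020836797122845255034592545833733134590451700060368394719848208574969003469808084650937515434513405529749968162491413945156319261958410986690073591593267377137834092600982498656328693703350347181609994716219736682881658649369105214154229272687003493293433414418996352523403816375275378248435258699081076498159377982545104173254710884422638774326611010711058756570757042522936911955742876035960900605516350818254940370028867228054821886916165555460424053979796734591351021504189005345525704182195340727270473985484373120843425031910619142573512648736449242860983843020599687574406244652965439128372741207476499763802890419642408843226382336)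

noncomputable def rc1 : Nat := (nat_lit 3550577549354381076365030014541834791400168187311099432119279192853979265496451547559068325745602329100495558332935467296824680836088077994938946250147339298131172857738757242930578765330015050914959153462498998238809576177648868727335685377669830368055009821266318579112213549982578328385814877441386877313273169318750030286565119641862884967991774919132708014515160415202118148915302253828513339580643204800726010969794131889900071394234164879128611251449766340309789099279370169546341956852555902509379523511773557734658599520681074583862802331339263789031623605347335383175837930070331538954177815501602829400062945469601937008180967540946289434530671847292117802136634476749117131798670095071545861154189731444774620296916154999021769343792206232233191350338612311459324825614629716007769569016143519002264717507789138056916337451763055192525027801181791532361579566425512656234170704391376008736336718962628021543511684215135228945687941078261641374106827941209474394565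9743158705189116590046463078836694040765177949419117390050038933158618239652906249899198923682637583728830163415042754839975039943798277381886242872950735979171111775709236384222491443859557400199058665650067369541778229996254927734694173334716208067236670700992031469250840747921233589317471776509647379855601190230613251169123690424381654033966157415936242499900210730487014334175051103921923469353336841364850983897025378476348354380859338185821439890352990231497105026461994227910957863819382191120634520882561043295714814523169522139732472892084000030567527637349483999183908462908486323444974667902455974145204689892076599356777337391810527090543457847079291531087349361014752957477925953977364069616022890626336802174780546163283343393060417526614171111790031098193870048383154498156547854156066064842382506545853350986180305440221022228014552823164220795036716523332958737477331264749910927301395891856316764982961855910901975355515605213651981249673151015817346546965266511673032822294615515724518120620895695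9381798015481294300904034343901943691400630185666045646963297374943679482589589457285141567680678772685772504502377382796377918295907458604952356984803047455278884473061351100909027422145848529979792681923548802722319136362011684611355056550271426775581571923024593237262477784680713168789135967547953658565045440567501055275654108762377598880071228923989037362326005045163627536659775341356938048388971708218867413034191458935220093694873991439760089774729060736640129297141120446740342854320629659956668837909474512598559146304904812534122527093223188584349677262103230902414769528919498712172189364456549680237170771360760736632869450153520395872576921089452506210445302884518485525231047138614796488040550881881815622169270386119156408086364445973140482139102458434333655113749457987284421351632478660462549423567647274791575832481287917392309396697657200663910685773762716897202943192605179086764667782180427635403009918718621331234315891799961782080466773496653433574037410341041951465118076947464674690603494546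7308414509640008078155465941034416906494978437177831167377448879474695347554131748909469118786772308677846412435450715262279982020074242458769303761272391298799154115442568799569199832132645592443034580874020273146874074870342485855847712872081684026192337480913581206716006973170113412067205306498446792379611786282536099867876871024609434013012089778111372468488682436213650432939544639915204914906703994127684041549021107855542330167090731278310038402819259035990051650332997000350487396827318333303099721017228148581582040157304917811736247911329500684214740468743910542406459436589375372030593258407599059332584065100107547350766630588669188397459191778185079926090241564118367566312546189498897644695262455414997491221373560088943242238240084542329726119194364142252115187998253826809427273194689010075018083442430424502092998981301897034655855425408323666600113781750302496629709975558366626849344672442655155508782051380712107991997190759997730742272318646109307771809159298361120363349662771062924148221216746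7844313425955524242904226907693691827321923614443132361874664044336073354269936632620044395062377369631430935844973577165215484313617886599190143237468518379179076034768514017402711249438828947252137267270139266868569086151628351979618992585340853233315841212680988518512422463453782970242074249797925728928365515573969676337528612630596164574878825988500510477230462052914283326092952816792723358011501876068720631951771289237650988112532361152105541960835771048699741958604488359335682098323025979961121821476974884758560244787179366985547919416302563296901276608673024486465161468394895090089928352545323346832366872984354303683509995755695805149626173161886294611456915285988635380953116872475176645181019757784276242834964430248707557743264959070004474631258605596413036213092055273734511365814971987721333697740400513759510075084888953567771669518252864610040072400953872940286833493760661789953390058693936606737404568496920149813625271062213556910163643395918850812951794434792869275345839168791911066624508890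9332227099563972741442194256274728525894166806521618150062182354502138946236029183618537309812962958115701784284603350132794081970880479493951534854166956242439604632076161750616066096548621640624826121680140530264826528145996281008278769546923291612544184020794411331243947903251334338477549382506926094772002916130087062593213328213428472576504424749548515937286359965977997149020642665905562042221803883942354421349276381212808535753871587645502610478328716953765306090954196190746957493615865105943222746557304849790249564695932932669210607860499481398124736610656562321972678589273549833458926380252191486282043755085457377744350030910771777222417487991815779101712803703936110961012784096042205492907468588231113265125526035168725329888399616223090560094254805852817608069153941316639162212367915514817308174092751548748484519620444638928209919183957056973257677273388306544752328534058754134759060317068186075914675441788200686347701336784688319959442817418606467326313784564476242280420598899503715722656193257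0777670545626750713226442969708212465270747012209611899919867333297738892590133631537269175122702810894358365765972915800518915848525348477503486031803502061605741798236248385108319068375813824113871349685907115977653819288918873310494985514301602797961483472294249107129482853729735399257838758750898645974671073717119315384716821139605692676990690641104432445974967327956420359713193795610663972380101053294236870081181418076211160144484515534027035632206033270718939726565964572829064135713396876787737026206028219460926509534087906971176035717913843580631578980407343173605928216059692671685341323928203813805757629114377635987754551756318227390077639857395553836165145102683824179217453419527817125308302100113496355750304949975632215832030684933460204913506417557258572860080009539033901811037410174981171140890287662981950419050904321833474347275008570346895054448024819524101365079906747546899756132797982053053702609257938473763374262202746575417120985975810822766332344400711248139240318788623937438580355852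1238089027479427368981831160664310486911494987887262202278726858307379713142669939641799849059733042633363081218981030050561100370230446475460291707283296806893419484681430348596478776241774434304537910371544925812906619320673430510188399654464497619924329334594790512016722905843865699247893817004719195026276188022734191953750947566095574671005284358397868454806375185034399232640431742580326498804748578678336849225632049134117343758547259855118685931188633665513283891834181554922461695209900044140451721727899530972504898254626830205685184953193816284235651712537421470740793017361731244879583922297155783573972279014116358470011942842708349941625234530115815292657060735188791459963285122478447219138137608141253387695703205801462534771834259813820423794873279389394034482137679810521930601466433146347948819400509700580144382115686907559632862320518775853922116444147770327350590569143261546061413953910689922882954223172153994901756393118603455936309607336258235363132774186041018435848338701202451388935010538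1518756293437968724033263340193475415586927663043808615882515676825556690519155392605418887887385124312795602014551573744300939958843249682807045941988224097325538377977887497446188248061525349055421038183132305738391918717549245267423242089977442526386965306141607673817458331375063795976361736601302808621255444954960968021409732606974779966981117550274375182645454054721450697539962338294965792262334207153410490263532811400977802524409816141528650310712113743501663581476121993920037239847490372941276104996116675842500619563443642520654935768929211921945663278229387146166828090556955815709059628262468486681581060158602900666663794559951209697334214641194041682462349779987349744495137235073797594357088808145835486599889897457304087151154648292220692330916606492411557368293463777703969762027604092213979174177034377535739939918192878405569955580826131711662687954382099595821636147313894579186236043048762941625210945751939612052610331483292766967836847167176968053346617241690596812142342005279802200527775395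0820134930640611516381250400568121059090500788721227513550985899081881075661044771052694254836740136399845182175647863179934403590698427582553125922468934016069043322312027950981774977165504838260285625592148627539201451600325197672800342654498547481940800804256648379902165055559565783174832249650387744735530685021768359162138681436019671568181406025658129895986410059554090116148086422699541698396767593426258130286311064950448250928883456657738676313431584083284865424041600346367596567630079389448574208568919343118133322268709055266811501982634809045619092774640969523982149669915147323264265171708153597621315244727616199444185989783762273433222212720078271122427523552246278642427565667768721063436745120935274959742008801621830218542757017464353366731895197850349817160983624883067706751364877706109316968958911913599047882087764132736952234734872923384457232575429526415832622672647989984106549425621250936582879024670717605562280978123871395904754028621006759199579609887334000243857848023282540952418095353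6743248447295931573939315607342488227458306113280502064574489650280084563172588766780056551605610621323020302485333451323157602883909971457791098945803543184000765529915415476938546073441066227107787078748394361722878337229971601466165296171311960055573890087212745946070359534754636669118971508008881140028758099053127157204895411057241676210844761466317384143949192793998788705542894054847011923901607953210509718832087093227858604444477452872681125975462272197248310720709745141137046982515875561311998761202009125223861684894891165309272062044520129159626577776606302023038464196570488729792165554208678701778623396703204786386250691635913855141462051910837718949626980591079204704516057411632639635935988532560892594704106315055745930472455658342347231448522735982604215411675182848111382579263521218244416923388208062902918359420799300441604807476034397281268591988552194706074708340325161709663647974828002579632575095039122023275146887329828147495636026039724192331761723803544276242081675851972631395845629186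1713382237193442864045399787849865110703444781362409173659843659194128054874594218972149600809938428667801080910623037329544575387366406866599566438197587104831625885002156217700134213946936021263965758909689237003718430053742768526273898682426942746448300272284333904819930917135874295999818775629941088453366721251516707388234301240792593230322877537059372732448945020468011435090208830540877540741685833441425897722484595612184518996418130860950038139771064641098064659871970327644827069915990618009948890361583325709855511499802867523387701687737546899419154868863063262196395528192407594444378260688764334931238971196654300643627445304609723627549017955853232727218234351230448222412845656397205660221076543131418445509470290979517767262457540087444080900935207122179874159730397089647241335639086874296228431037493090047434089748340981681845758748092830718769730272521166559817548147426672324585845646244454310658828865314056640719673087774832654194350266123051312493937821775591525752031014535782170550354362936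4301089340136319924371736835980650841935225638347732856577486410977648612782571167162509216532993938201148129038999012936202307500492946762962680300406108994426131072614825781000633928063308969111456593110425700354944311155192186288696103717712911328186229914818027526287693148899956888544641344495039801801602465560585050647324978404156695752498062674694145873770732215971794423567900154598813134468320127073749487411061065033566297730239389202729597164677747146034237668333903125837891062697289627977114560139550830528123010513064242384018287565139282091830698767938823585923207201317064630427287140525580795760677708119058034840707888708076814832188352653203810665336518808770728441739269193352852004914180143040762849001535146205786709981763685056510914439217866074406273277899667991571779588530437006156392783345467540600712799560834895590478694870321812566207660000147362538506427416548474283678385546411857543790263161360852863412847045028667842108165886457855263204200972770951007151809734567639848766400551089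9528100605340644143453028574248584710152681481146481629108216836113589389536441508255409095028701844681442845293585814322935526689022456427635776637849511023292926778095439636284285387399827691270293672149882170808976477369551676790594066932610587344139077767317099501845290763117878488961942936512724942714341822225873195935222378563797113901290118716652584940598645836859439459646686922052311441028141969494287546863180838571485400644616935662809720346037455849458272153649756586469144194416120126476254328534961403469255886890000884327635469448520137214298634737538762983373256611637821258182543932106514187745022608305594150506481021846902645124567074213764389432526908179299923096702116205335781844082444968889922818706848341493021025615116384999701181833991375328408781636802762871781642878150815496889494194079100314069912542046073584626105462268577601404252648138873665842982123297573323062065972887342970002953580742036714270148763491487978152399777681944191185347022540016672098078869476068891512738329948204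2048750119915210235457304393109062114096901646263110300950285682446844566467045326689873032403718069694045270166659744720173453883758402915005417107932266227258244692394219860821003757265892780705412061658358600546832635689062923979697513721984883254802279431466632828437607265622471437749587307440717160598638453312729107825809529659174083733359612450995902144995143046298130607703830284088334025347412580032223333898111702397257262563068633642810243644164027464115021466587129241907284275612116789305569388052155332976268616047646154038471483471206436280832523864025991143296075466353294586404556709328505222040966227609768795277976851806727494941617952146438461077902302777665267270061134392632081234645771320872251137463779135647227095915111134416163616034894179903827871717642963634176718796080375657358553177619854864061069894086797691019860648556705591234750779454322558685827048043105899585606800143179880623186737367535711537237776614239743280440589663654826800910601999752892246507327154577757787553129646972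0557597877217453250659795613427604746635785990758907456859161272283149771369844801139728441439854157252220003266184990381361719224540692929942782863230102920260631089506383633072019710629623963050758417164774413855942756485362745747165951480661385930855618370434539962244235298287323953502446140943776143464868642994442006620999522310825317625655587263453719617804431468590850881188158539451000706476533862199570403933141459896572978475786420659581579476631075368554831554337158887170056114730740592260425711242791521963718978921883359216135335080794914139652048640831014292929248286338625325126498654892189300309868848289751379268412164805739132569982193118497769207549985515363198867687942060819726630753061498065104195017410525280032492595561126859004763739902024081196157083960031319839778492781424449962360072458191045248593647641301167102380614988382729186040622583681722849020807029457396035588578827234730946546854888952657190838440004620814586153838819305535088110936402253369685958318275480305102612455886748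5609872739617529350068860938343450147524244583479448457880877586764655652313777333335612812214881342969586144148864533711223941826938743373609981275655599066128379809078469070818608058941825156377047654792586207295397314630802527819945645299991734956821633350011398136706712644009730852723991910902797835770914276358037448345664197191733982261899720417774733968981824314356465947982229725273663197545438015032590753337941913945746787146620621530001497542276662433510248420337282440457701021069506262815810328780561207434030999768118254077190519503243446911354203920936722563546148809048267083891195376849511039749254559082711597302724468608555403477830798695818557297755578729654608444823622102404307583345173985216893375405434066751699766071323073662157956581111975347494261448012928407333953888346059885610207430172500554616109030108107217722554499988225250232919689461820814809178400195215269980205864588287170603951087185709190470078995850414357709785529671220861996494802693651102711524842851595793491326253407486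466838324177471305918784682810542379083937858755689021016533504777883756200488156149502622742021014643675107427129420196823160108625662291108333072897644640151677955983577230739727995152510361520479665340741684557254384863625819270393021915041011122685110929143028207514060085675988747993045343001692096707526082913298749797389905884904415416921205793955360488264072861156115342459405231569557563972100139117962671494827900525503934584943480511399895835313551979161766377511679520969721145236939789814139269842676464447810425746899358512035054519184261682398764558808003503493301719162104674178788295684719076231627871309383060514102204955585349899194560962753479049216)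

noncomputable def rc2 : Nat := (nat_lit 3557925352088955782937822413235460075669253066490256110568305432698064512207684988154037577177987767135814826166713021246619218241507709478587846639157282710205151699298258598562201892466469520642269023417015874218794138597504152749448370481575917469039594189422616962131753193283799017002179809058262548973700927699591816424743726654943326575277772980981326372059181029414750437228942220419572043300395211101382543255691119571807995899516730082073040530245408479605344397458816914443500700314389311197178856315929390056185514963558434800703582220223797578299944205050152720957351877943619503879738854619102287542286156492252050388398245741415404377819868884930885015635857826650768582155020384987806923813800723322960775094932232467593458951662684420331121555969967861615213039445151652229469031675687105292440176055914851261690033681337351911281909922267535062463038240594565507468640428334820578931016399894555916495403258101238422753075259105655995008326972261545574116502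5653709480128054808469293931466762248095377147389024002281213772195282204899189605822813523506557083585852559284549182510500351374752939300654536976524626145584202613281471759781469942888263771421967818201358328392391361733191923228142349332776716526569442332731320325169230953868804376377040632257207287258898674501234404676474155959616014432750662214153068050668507699763037615914129640876991055306371233759943126221325539216814617075288235841466546564965189418840059373121376030064050252354828213289391810351687834300832997292213133963097690839352775198722177510267959640274557959810324431095415863807442876812084747609816077583596826684797009240318241697564331743418006642400560066805542326706318704827181247952711116074564720424953656625236457231189015373364786061185248269772353118454622634420419633879696164450300446056389905331936782664193716285236971175674801476136568842381240064279153982983623039546481586142221662422731597582027161352640578848964702340667328496961917124725892304014114591687572780335931722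5742221960891142592410276478106408391469238016813901644087364449486392412459182076389675067386316836986551046385681605562731273249190227369581809237372622216139865754858605599264218343494548700222389136101466299560880146192442503452464640342653114540481625524529100398383028634626712623652019195849779542630216992070058891750347337206927440028336942623197281748727804132855072775404526080040815875886149968451886112285690765030360272951904655880662082721996890418286947667814727291357180539208360079421661500685067307588895163633325823233606105845550293833964891425125514599399131243427680898204266498039876091023492635759129268723325768568695984295436576111445383331091441980882366550141020371888056812394603294388086892091960461374869715760152984188617694046084529482775609725223870711818419001038821859845240849768935218930933717974863152469327979440673629647245301134767803361654781601273458891808665897043758239632649925432456517112099622962436284825694787040170107456162272748572231904028773090409824150239497495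1132383470914479037080769918910525166185332104606734148344103980965825164705992144144634163832115480927817781477030808552527926087195630173906790602717689910820608809048254011286471812298687967745977446009641419432346981582989076477438443923925253876116235229285631074919594816382750936852342192921692450312885732668225701939605421402920319091253281611425003577346713645900522468147167199939248012267242765065165065936948519656626510666068574199407336240983180393825713398015530093679630805058618453640339736481401373539194122721029979148788580363374332220204230817300294476379932444251290402470886624036042103767962962222045029784751142025336810542599087585749908298651428431751539583524667323327677077338117942982522954362679675498752176623638729663860887180537331570265654773708772509377600821348803643300564895967242314572297720711583889890016235096156012059246003057226088463998975372311492674541756834802826876072336989207224702234053861393576148733714050949245155118318301271417039674371348054831804744758110119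6812061151468873982853068929711103673069965490356722279016943302958507243280303636976897970380638190610723754340793541174145992404330820544135855016850186254915504628661243450722965086796416137447875922412854872622536012590437288199146329526619896495569197456315515517853157199067038812655973992846935083544774772797811771029666857737515901521750131344983498027499539282895574672335807392028937731292070389633504152412367735039273571556004508221405850382845273215007580828822055961526927595476162884537277748938625769873798227943622879803740739180783871596550667323742991280178615274985046643295827331309732651034851749168336596578510581148126731192261485861540524250510984618851248252068915559172533951189075007771005271349034864443464686900176753211062976144164538077477378488684909177907092043232850528748252705674073957890188848152245866703732496089127553119480975739435702714929999010302140918890422954079555534876704783391816600119215786195054869869668746625619001902932498398434030493252862694701275379673396874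7052897333134229963217383157802637140475169575859128727362337451774005057729334529448074460217622427765361053364149981551229055413823818328449080622044340722020280091719870138635773165798248528387734969536947686722699220819237099473849639873031894556379556740804316190170321907573913686742192562076279656414868811252017137577757779837441979398994732647435649450596355246230569805457691267646969735753458479548566559735218202277347812460899426119599863450542579400377967731470213081507178700833990610248198952576108743903254280006480812413764332973583247890670389484872771821511456400468180901948081724394802852103815321006151084029852239809461220465773806314359344081149862679796726241052105285614478382559171206098905795658865204719578086144226650470109480727027472460080087000308008194186067265965189287879980620666575745481848567651026157712955055940929087942717292974541084335412926546641623616664084586972819151063976845112871727103554968120913777628299333127705434854003834121638535383887183682176847236190188123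7056814556120524955569947124134267594398061611612200138979065413873613288538700415221934637921770999680801142889064771303902383763409295370883957028946578232153122955448187209568816302935897453583433481140293238355397409571420814121113775192228583142871409260651061358484747573362926488793644415190627597618645104399996752507261758303122979654280245490643401796007452025335211607500360475930483097486208247345439217878858599693131665311491390003617760835795843533824153665252607612798583585459061412702191597010542704560917090847849646167060686980333750036842212905785377328663370570566970699301851979540189658652713949575846783025291243167368928717250926382769805875481147351859028961322987809353682975881091153617951016961343758870287690868827525557488286242908057070390959085257331906138796281338629645493352330559947731809055840173125936542196602531734962466084066880951375419435562914553814508500011875101523402321359965441554549308557810461611104285527739191585369990516030500348221593823651475911065655182638820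4361549447868595101264780995154964591538245948226005803119019168089887626762902935704312439666223750726632597435871751706167557892282433320817298182277484027408384828949588042924908720206296039438233421000034685505607285739582971265298360077429927093896105946324420122602487710153266716109803771223786449951916688453803322434901029570977609099284120319342395358625403895127924413974510667853976771042791883439155788740466834833157061010191044437892297870763876749662043832618495545677298733498535965217941397945459522088168938799829408826719846179246699005310896853587753328773167073059363037965292287027211519167337620901466587794884574231117779204153543255570622562371939812253950714284830645255021105966069097836052027059961437028490596050754860258284063516635500824300127590635974868050260587251881139881861949582697967375765481158009239767258880076481265201149727144661420826318820541485799711908906531409295794103292040667635603619641244627692090919431088150732741642265309850291711267153477725298314033453127794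9361603261358705720471284839779646027336738659800473507321500355657705528509450089091798050749631940259993340821980895546648200014987888509355008655687749100297206062213873301657299216150662055734657870924276779125092959674206773598842735885351398080230588841603228890419373859027004070376121216658183130034276081499556495984863348956289443410734782701742095355931223500345852093153327863071103695566908964783156241339107491767077911689480041444637549155766589226919042759858380197201454316165473819167230637805514959066418859402027943423314327622083036082899140318589445451872089227673645951274686976535557119008607484222562660584047262813903085574778875693678104502004240472768170348514471079260636505738902152289573089652230648744038791322599549068425598728750467560411064446227668913249875785992874538866775449370746907901951816307627924986893806480950409683832216034586792361457517905634464734591258711105728861798326777038096309053546850877844984673590332113367210094466069665359972014661625392756222782729813846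4300003094586816099098371214500427386274957872519443528139786787170070410249443464746462438361575043773791153976814510393873448273121396276765331654469288587893910371020097865901845646587233834216687074606525856086295978842787309957037640297637423343756942957711982071714414664497974386062430442336989310365871259788055237727153137545660437293924279389236221262763577253514530971006217836138362653956485230377845756108532911382215204458374667126426362301687769599702307057703034841736503056495191562268223287593438067246392041661058216527960564898762610088477451118612117244883325777781030830746004395793906902036707831387877176275238307395056627977453955740889782709382230095609478090704419401090056868921551518132607769333233619058681646373600997875536582539394318564864585353509040010767660866986121815817431901981722192665477495176652629651329036801424872691131939353010750366313363779220784382815174896629610951107435789267364723154171611378141649557677571399677610227715867425496183624877653851191719543792557564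9199379658253016980838307255371988493869075705574645672746106516790630277489346066455810589643308759138010474592328087623495770220293570114673271595900379118988781707463377046091847673005837165982828568577635623297192486154248936591857204542667568466379590819835196599568956830050007411571297203804623166000203426050724654161651235645007680603675523161638354024693622579857160773740932880225570538833656918509135176110988979263321287325890444054418968173548148933363938276141763560143136703170399736110527922665002863694558298414733397323085678787625409546809968471135553432716980504315578405217170074095087990756168924205499522301378276286749001331353760126884690162793321275394632339882640409957127970718963992209848139951281568097772270479240892514171727141549053105796462494796115324446757512311747773888999740818131188299360755005680983794590579071765475159668301944292710220953861768314348953426102480113445279077927986266596646902589434697771653043126204808278942718167879739540729929324596156140161358296537691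5850717133615772016617709662043528944316842537974765511124745327062039949511325365401963614798970531229948936220880536916865370992949012703701405691871768753868995954481963582209404381562289108024312954787737674233742786664902225554836133627795679437508366472283269007269280304645768909833117155515359900167947651007411057417281383527231379026160734435351122962472470321688522646762962606948464516198021209136783311784186938246034889813872190158725584973834607321240767789169130758248770968346875092271958381161271965398807621646832506632481252003051109191367678337721579205418473589278320188403615111005850008775146224887590478538946146055902551744021050336634429059156051741802479722395685237448396943756056584209399840919204979051054564358123847362557336123938520384545308463302967874220113634086226964716384204522598388469276860770272909866451752736200555271333276285007870283251613365468406674885973214865999266460538886142139719338230322331385206868202960222017975335756357902998119747939942869613125448159241758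1132425425653698574261964401640649923765106651497662192077219345775606094295022767666498291996018355327118001288433581489176290440948035118082285793459509449996416787572285258357763922271938172859741173709147251293711954768631118597654241818226839595559468775061226949209202208719634112964756507240843053720784410307608769154838919015531758901174569329480471500522840571777831592509393812820407123163297439348247991766193330781371795747550107593775607423447165693180493931067679991406307242817874155563061373189311360233036423289781384484880850407476694155123847168587209373090878010677879096933367243898648443091218232459933336624929932955791754201563704930404077606603429201794738259572715900207140038240844396056926011924955840997977310442019582199150785516238250840907750952232434865467896822129067100548554851541356721514915887354901512492000683428328057251511166162847521808267670934886567009687207128570118682752499196869212022375299210828465049769910579063096492208252277253479665684700713723968290385508620226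2339277082571356556836719126676511012594079480461186621311421628721537471588894454346316122895825711451362641854572506765827863827523204658409235294020636091457226572872502026462986967087246302603394273445689773208666867107926338024875421550645685645428281279928253042482960976594556428934100539928304120728906070267479470658917599794024834770351643513924371675815665123415231770279871578081589844047507126737949727616604843886386722853355662727401543771506224027373046627576198914524242689946055301656110150636066538643316201510518635302269056478746009519943792177674730892513636567690092477966323667940929348604724666786783667689941987979540363530280132997072829500067221162502619362892348784484301789658789045184960414216405032023986951226447139324317965940131408065015488617680528015701868761863423546593850110806307586312725426883799107428978793692618725180347778737702953763691629033207588883170317466288810739743869151423418387477958138067954764299694991666199779651721546085211732392168925338065576674468827922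6898186521457692839472154356703889915448210512254387050670948614832841328384286268267977547837370789727183349545956065439992813901451969469706174472273676514118846106097469870838475239514216619584870518510446378409992057257772591672262887194567002851025528450218156285579573406151337580389667061662198954068630935446375634397164529140140722767851395164689051649357841016635195231203829248043359682773875106409492889913668975543550789733774850736748355001613189488954847186252615826575924680635970121317180312820979931534958010533955701645100063647416228573242096190196026553972510668425466389694670872576772378402283682483836571660197163391956438074860252102674664326928892658981787598672980509755128845428094289192330428836373782712415261236460790852908441452781413191959363203568616613204112171498166083332704627919760300943421992016643453726251730791458239372098224977350268398803287486575516531216211339882068560719081409851642110913170620094894346999774706589854272008548445263082700554265249750516618367751972796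6791514904445071690541967056140438992293626670843009734733456770072831964370903975478332823228880486022133656515960676502431910112675069352352240778850870605554213558118392456948321268925487399750463363086657187692630460968968900979393207215535871647421429721283653597885809644213491907814080121378430262509548023815744680781774440564975983246510993013516727364505322131889375789976860773204481244811389154103263136173658672568660281900070753979683928665698656100956448273712756078868609426151851693023293190635914519307157283745993121241946000752311626562862340231962058376369977998978613012183860954051303776984958275073877206090539740080263228974516039002232196772264571105542863621162112801808478762598065651477206585320993838974512159335770831047210853170451222590150474302449686630551403316195108386560215651492235518766563299263114702299411324859361333910201396807364576192169014002095192995719883471710242892439121204495156614985517457409899220320256500242243152370050765166438180169822329059229198083370593159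5367808962587467282614958676454943335325926470207139948014196274451406099134663247081361560357895655393348550049323663933237357412302689437964075833763104026657977013226165252652472825758085445474486285414398791991812222413934971298168417159103983338173626566176607733200494494526563617595799114385144630567049213638800750801818681771442189104701318417259337897240109705145495886041201855517928986795922961084206980808611904862769930214748741196101139054795761890431078790436183278718419231585185126415211143302881276920864632640220211609484217183802814292800177136603051203182120606144721905783109015677379563037366223506308989328142844281644115257900648787019567019648127176975146526477964495419330376423715889321149151471556767205878677316353188551456163174202525085656689335181112273044657698972161920166090267653230053126536797374664517764273867162612808092482874836042409486731151981868158839687289607254681226119690877336167599176533686155938276800243492033880728871813030842484154310858773075358209041984263225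510148635653042241467574062398032245628241300038864073139810027407332997738312906391880767098926994170268920412276472539591341050517712370558149341087333740116595974892191401107510456854400836189595775315482881427469264137463482748119970320145255268930451540787919830450481071255014820354421899596503462959237617041523584667472034132195650177176413995924444330760404459812185246824838184344816466095465136963590939400260948498526062744712419025549843829120225732798754517399336175709914763355156157391625206822917213777220283886273347009362629386857071817037712789171076907005931864067177972342361590181425548855452287294763336770602983784930977589391358781406780063744)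

noncomputable def rc3 : Nat := (nat_lit 3565206926286689706989416106563933104909047775652768052153469325666762155578666030111334543350123269085272692053310205281452568077833827516149126405020181632533920563637115268080800725195702122632708376053422591821551793078728803862554450105760856004952913603811869365512588370652508834939993337586450603076613183730445545448546462805589819796883030218696879535138676300696530509749863488146877396082960731706345316919182922023724618055227352984899521246113818597405532705591871393211252408960385181333655243945884942771660896282312442632539999402349030647728114012024892330511249744900996986043013482004621858907581356579153570081636921243670265213565363918865684243753495329125717655074605832635785045972377639009082722416997639743652640217484982823210077358293613515489936753431256164695622417178614233629001148523617439539788581637517912048617372737348506697774496163498633419593370320861485110019004375649743045300512486098825230495202874796501783761897548088083468308828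5492060597679945957013894988437201363777045251377283320980569010048807093456798883735368072590483275350009776210405375851900052442517934260651489944501019687740084901897742610451794105921768192287244117384693909035800919653222684842845005960721284262098522909704348612017142685899110590675732257627325697481179001271176175259946003744348702764714624401661553820497504837593564287420181664893955678348550195271914667929497135304123976003128301821408739268695168793213781031614351446189570577206879506120673113974394955631605025196458499908102941739630393900147820723580846065166878150605253280821531063747692927709611020944456767785241665918930240997055424038131005938046633989865044096914228637027844136195222469570963218666267890078982925979509313557553864825434287225563427561199822762191672626159109902459123767445835941074099913382878276839924669959770984964699634357013522567333563173007377058592692274992371207289744734593618022549386239159209256656107240809875025335724575183526200435918711384826801498594114991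1074914645512303027240599223003280105101631027119853528864855020991725970050397427859016936400376121935922786545200020319133150140436901452572670159041464882592566125062416485154599962209645456152658026471276835333328014310800514405421172229670728707121422564197535888447228269635280945799696861826142936239041938201683273393014651229779864539263053460813996894627661713197829947707106761333519680126382049803830039825894434240548587835642150014729879331576397594207473999288353208393133496332806537998555033444748475349772693407555302873602841021463734388043799275630831549849613849822380379059425771676780242387626607321776042623997533121404275818015283804581747362471888442475188256579398847724314441420569809401023767432122761809654763011463981725206545673357372515547462523304866588994379804250245705019976041445758207857053791153922915444306978075650719619578064374019793650988750623853488726143318000817996543308220165410040401959477700944476655801799287652116961770162121994202706479593359299442185385010912824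0475459756499798188296581428383049846995211459851669971591173486039388911197093169558992514210203633677222318630825814734811386551111710215625553281045153129675255154564560498876024233615775780149535072779935613466573737662877062388267328416422988455667284761989232754212343255003113722770662853494864500454523408260693627268236504052226092237461360523562501863604753278331569663124141745196158957385012262144194997831569144451362157068125984553246644493690501595810619281639522376306951364054023396647910831326408210032843148302995531505845548074307683401663531921692684085994018387759848248532218917524009166322095935563837016338267664230132114322845680209515032615580618594215709079785538792003165934604472369335815088812186829402599196589984447397581845506314438973446487351916758322636038636227376856091831275954654668169102702987266228771769277812901733130639160176593797107247393358561432086138821726021202716320415926631184622151018931241919913064515863997641617270096262336535229993766402231916046763173075848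8277498007319664756878579157418772579559026144388744024919779475663937900848057602013226546253506207819248475391853042708714521333136736356153145050837542620311898615189594881420829501919594401848167943902498676741921964995706279973002177998283445079481921200660302908712965501411406736779395482679268211413987736154147883279390248734797022323485288562939190347937620077915080118700922748129224405560566057626613852533413781854396464188173785599320180699481599754800467856757805850711992533550762908572008860712254366239607607474837968767950902310017957396323803393858741830409052812489329279532417121578445630949250218886641721299685754880584107508586588425480521926147204290673503811616141262446052928473342520600655340322683009185121649111737947644652628163342110855633305357544012449295589162387486669146258322505309523758954780603243679587979381844471541860604950874340620388635298538767659786457480742209474458847278554608909114623119897437602991312487302883119615916858918378681776550957258512865886150778486627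6851803828486681465336730970513642075565717098295760958168741332618553717779220848384038920601485276026432682912960047407048659350360557183609984335266506347358554680054090439055035224870973195922636577427658293698470837043342401017366694258478761612746224575414638283209833489835061903300418178970607301449103994391288660533575475186105067611024125994368421465609520186636940943950153774031359363001503258274084725696656166800328913449240977766293441808933727807724146624782213298209228531678957319780034477429299648854243446084037374831529518767361404788008731350605333882141002410466196630165028995920244080161957102585419406499473489145072183133493923187330581797629598520652087640255774999847314108760966715667729794295511992111694489482902376200227659278946837437119763249514555171642997150630461292390628439818708660354015421402684115072823714228178631205544427061911961653245489665705051607127588883101367555389116751889852754708720566618443545861209083069682453293266431791589214747842276634905321661996534117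5074813555382062276901923657162348556994344467532710407691045112518276550188948586345234515839535530007705805733240682066822377345519191122434767323103785174164229849394750446642167410550477201013669406985255681906428545008911316543692492372200730663121687987363258443254582850388508806816857975751865936415404178297010597428772349472062958224768324433575555429738094101883864750573170145297093976375358648295975761628936810743424527105456958690469144001578207905815003437627712760072558624854314335222936836466830482372835437895872290441784987629745996954888923602927370862692724459578526324640562797326799361761550400230264816674624771744560123723996939196084582866200159695298149991661689390571429856024356138057318988829060045637207874663446400613486788591536124156235211879334153132670713810178522907513972609549949433215673160976010615554089165514822091939697730045958553728046920716410108636590774484587097073785958876352564280049772783524323515542137239221386661826957913030200375761788533831218672863580371438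7499870750316195210454310392290822269452368074552910075200676569953986729078040686777589836038277734446881084987691687042081347750442085794275343579839687837635452017264018816557274600070469781523560906386161927920367286608112020366044250649784448707840289322201444079207729900348016821269393585688503613429543099816956677776578098446728980986144273072376979702654006453421206942975183801244858620402900158124181014017903041384870119349047148721536861618026147522316248812109146357156800428424139928711396371305154651585154412486706346205636296829582305331456917228671943197716703486072156738747079498819849353817588435645770095473064613492036457715210745607221218639475347482969601882253344828505330103499333259789235221353978086723899453784615531551696133928749619955300874319586951489275821754140424469156057673495818780432055692241405812273686554590017383461082734500301385874893123016556554902609297295087141958613719483398345114924304892181034970278606157326452453597774556706974299327912921449713007464719901782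7645539532094072287947019972422512708574670797746119061402783565898506444645509966173207491025360461730917681220473317563181317334671946886419237264750013502064759818476332452325026544152559127615365503376119821519397645790859147047797216371197647250523061960977645111077418365165246764856340120744474486373848455324378893656802091010263922890610945943693631198721228561118165632155054545962951933618336845996849726242131849271782380464876630565735545633791861298444862445865706823354107475180554827625979562906816807080254680291337899649385068264524745389304571872652252247218109567696549965889636944498299762481492558930403414652432018259190062589002705654715254814387922183040517735971884413017222569080165766346987550579307687497723576115071389268983374333709226013979913110240622911276450434176549214812785582753513815540645815889314920752761358792984547065461128131553665260552515051640942518526918114525749041961657977844220781913613779391619750448455997403609856390401023043775981562564554359689470099179140452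7999152935464176251196297286937511033043070059168745861807096759184094706684234239560716035034405676096691210976149479023786927141372202283043918342476815703451637609023696103384574531688691148523487447518517009878403695257852156350663529957636322750630182460822152786953413417380263545983752427174940786359141305054402344607661864383106638089798647601907914456822118770260811687726024423279997024581976796233425516213562863872484292313935505636504160190569631219876495660708356501411265618354732428099238531058176197881420253625883006558602345755031504854467122878516185602613354527217991345127042048586207666661233188641962138647161617852073555088947140660649328827357300549770509859832819283062138472192290559574037410314496290054314294965284187318676403308638840750495327507710049560812863682239327944468773848826321340003722244849109343463032251378164468726055188112954875532206370813395687217199706107971310492317780772623271207974526242776394413197749255306229474247848790590718833032588607857645676326097358182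0964891117342653089031807721032776405009108733346430773141698085059993751755466218559785503211094013491428088631692099730156994120551966428823382878474986008262339186472031736508738485071725290684558534281231557927578699183827332454975923371706159486683106554477552206453830483678801947613746570093578351019286881810021511825351623261673963043295805350533578818952939711861869993895564731756460285005534514235380967917983224399093321917485255447734852484835899175939049429124922389339568384052233081386744658206370448792071065143113173854248207499097773551408195090983968055940817501506907935762171398795550807299817529388956110818624997293903433867303805575119673206279730077094296002308804351127178696887453332875868539468921782121088216195238374934790834919539554847286936767754170995877120630571935131296352039952581266838129235853509589159284597490079147951938126624437469292112475781216785834114301850522702009353459835224794249046859324255191459791266505428441541409562619084103114003050598334157827153632880179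3400854295885156635624318707996950611998186734034271500927439830321498019938486016474004490440194455583486158090777349824377279909741904530180560214241533567422059166385437525290450103461045539283112477349732435167891835930531434494462369018892123398274363721686930683566744485595824003270290969852734158151244460397439264124695238688642660658700174890255226664671590582509941310547899946204058744599462234154565065819469102897904502416969180720478194402749319543028522750172019353741419479413342592987377639455317165464744666849958909110000238993661879890186808339777061658596753420168818843540435238255472266235766101000573292546030328833845545270945425019025115340235412820626039323899953594501364344255381764224106000404083977091954735188794083353000662127256708403702007280684653296596673999308138636350672917360641957458839499001730455623873829810044219670439973633100950980560408424072136216775854426430118605392241482933343441336790012987496187584226257260515651393503007493562575475330608260927693438817028521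7569251386202040353312508387326243874279658442077504794578555047637225156670462603839731237870363079282392886921180298162087050300473091796453850548787729494233956479131926283026247420134615644756621278593659702592727151989603612984779031353308154642310730592602343581079845601737031758602710879450054523416612318504567638228450685654922277387571349403883506319066298099847808141279055662512699830797462926320698963069902765810540812798684468794061311342195394808346757778875548061965979924040110128063579137733378902045186464468670686795747454041348899345639502335172467497410347182150064607625412331115794331625529352774767381492237642632343013165720554041815624343953593925113407675564296141386828268522303298846025596573551578312187795545734313657145399188804235675237895424916543005684502189217646788347850216556338640262600621199424200299047064150950644371926204122598455923825332783164387111130832636095901285857947541234139469539118526078412045696279503446565847370353675601121779120327809243412231577284382184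1114738791832058366348525115947311082129399342244869091380838177393300141436540650913468641408438127177298143113467882761656313874545702028709855755148076427255005359567918342676613987508538951022532468646187170510346867845424250307321041586099462167711156887930012602145409855339573548054781604910450125341588966730723355781749248066951646419573339631337616191153751666169724567222002514871927611969807917965427252093661873829760562528328241269373522156985374530113058463645282997324713550613482940964523417213835578492367249220053329239213785231214756771006777450426218886786162101385500623762914776205722698987026165685309284435885982595761512045942186533114392026974690994590041802600006785022025334809606087328589323895749734888044675206041353608133208363072121408452264030541032463177107147476547626658254950157036788516173741302197465518044893313753491073606045291729055288979827017541658741777169840347280253317927416640057134061718640891573310274412138236001381353534430615861152885360448588399156507194329558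4847732940236833046099228727459847339792866733893767091886253621452160297208016634371349970968094344387926250512705384892662458382121500902437944379113350796336141121347720836841254286200482450899524576061707114471578535030844293974659689655337950165490432897337176448914214474544681898484340433724784118970586825565174079318178138443269785083370773114446454988182791537915316567760021377919550263149156605767763227073172990437979634632070485852468813102777184042613137870246344383910211984998731638694830154137258678001104044353558008053847317673458869714444507880173863835367438705267114461154217918151750142717023166945359376842102904292499436171543727427108972467146968665647926056907921312490991867812281667505630218954703442879986391397124017799055698043626587771444163441901634561939159068559069166520968709884861369233880414651286451217291852418240282882634060518218781251858873599506076622479984381575709156152744591057180074642933653554984919172449418197157238313334353673388095862474322773826540908683919300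0023980529676123456438945850095739232869606565518104478413127816478242890529273267344200829843894526224358543661404303977494679441407236780149209368445142491555116358575019470194839596407256113229665041927141169255766790166240685814692404382178568865654735451906370249621459083772418286459427605652980315851587902677915544267482068978368504577885713620274607839988376150383602564718579611813668658552377729040370147683171364356772647707400686849322254032217875994500365660133912414720314295852880732852443605026154227078023203706922990457181005236548719277429087442681242920662531274667314889612935421606504877894325484029618253220720022436223036132315302636674986369767466565397412487647462907629221890336728668554718353130873636215623940806687256840762517993516341757731571510992648935306758500146364289991524812932943176964232857682281106926809661578583741604668626770768325189294956121487828596136882208514591109523498444840866224727104206839907948178138272478440366603700520402280285748751257748037273180756725443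1560444115346623921480048874730124821684179170407762510309827792859212297648371184098230413178393568735760060209420600349795563737578482256613152906151505417701367891089262515821512526594097070741551260506776518885012136449457520404515334729052502936075723205663837282238745012367894925492948447900381673048352013975523089613475823784841181335402869178899628775241666973752351445813861073296219733808020569447133089534212493311658796767142197006714369701710200980910561805728700000600868470400269302438448906487581716261833973033930870805698970314277943958548857612628232890803102287166501014286693448787768374644461509262941536147740533323183124669155603041843374674275697653355376587659864910072478157361318740529863083575404007130237208425036581620643801373965835548192874636487791780332125079562271179038748459419752458876573757912119529897478484808223732371476215866152993532320011287901553916588266376192328441809581186433169955643208675357960106295552342584006004915128014146663016249282573101132445281234810954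019322161389446410899583960494204265956636163482623714599776027017734428917084487992320731179001520638332605718135661112598546885507332305122917320580664489441223911556354210141005330977250890561002279717745097398184463475978204866359976571942928397223924048554474604526048303187935927404973193086019620514928629165122138567712587533902300372878159566291035740599654347633680416574925673765083336009659454546344563892434213982388465611955113988578090978488753169876565646224803019843080901998485873355700549395236024118510641604818543317954620156960139157378518871060723569221125243334322084506052162238105576038493200152599614332336810992834501057691309675460159340544)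

noncomputable def rc4 : Nat := (nat_lit 3572421112909112790237693007447769269511746639706825873775421274576910838997429074027264548150476876522919255599206680714998542682929076855942739613374792092784203428535642724578087775452529213754269600253560845271136284881683762178208063954045689606515077063134813207675969643027302206425385254489646801205568533229798745794672800691385008459437097546056990358026828336490759453592009343486599158744462262652894598154663385429505584531163115570995348932188849668357007991715836237056902000137776159423055976617689179357330597662068186122228247477107239450526079589155468924079472147205330559810151448882468286094178435340584275738452263545035543722467066857226647606119991568668631916931015081407920939917084788292013110352234421810345582021949983371278295438242853565097853874614136327354490611917954597203990643118961834108909828456232709823707918747577910522431877552526565180916718105985096728860885523352962326556589871411356009598775124028580602020804664732303894340804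7364075614309233722518698429601793452950456795771489083839297102392316771983563797002615679768638938082142114547285137167872633343974960634713138451289529910496037577386014007875425406559807736516723881219672252967984142286928071310920565896079103910359575256002306913698009834882314544489725023308236484467768011558867730301904834090536840881034043058837640681544992983176711749659088149101087856230244158181685330027492517013357027777749838845999288113660750771297161831634756778284344834978878708342719918433731731801914846264214500280128681418512522035790194766411633734936236835529595381421627419213841370664944366442289656416673889417572659772644015111642813357663408708060125818018659764001209277648875255484530913298688426704752840427324428421833803744966398324294274077799319513139568205705580089602943393499635281909087755375128212991429711849939182580644484734469620827242693353141187658346686566075703881351774210610733895922409346901521477197331485616371331695196886590532097167527309989135964305405863549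6617166823767928405576595235312139979370005041590665417495254789811817434005985552705485044394268514744334416099463656164556930976806914510042662094163925485214333385442729731607692018306852172947575610344609265709811588855120528305195925006652011418976035380903931368580075495881855537808086864365610571747345011127662428448624905381124408817164617547222598157575969790591534589134854170837355420301580955786780983816387201379709246319099233038613232370796454063687020054089502343088328921373690399197687369508581570059255299586710436539536219805190135196495398732977635181614081451223271003036679012080489499988012879257368843644387732415840720396340962640727098999572952296558015939785297349367722584647175547336329313442743038283488235402365896323519704803688736074969841881075301202378469183796851696493409994422697279956678755847742389539272733777380562689376011647299765057947699059530392601890081503188582141277872975029135341557067675800859025165673313312732963599699110308222478150283283978302693325592171780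5696545214370786024490220447267602511673933724767544068735860938967339018554656214876685707202141762822108354990021793383274545305709147894548510184305863533886476506975442394334655812319384969984205697199188194344802179862449849727183793190328486914464364692265515631838827629900408308133112988197302723869800314104531288872193996505608438388140659377538370294321525678619031874328162235712566479138419805530732924916658227893140039753279435543320151403118881144124777684413891063784753485572520883950784380721652961536895037062089251125154764104082599877647455103693600746074778566297660705109648462301888775225330834032002785773826078353781919479613935857603824174261269831273006590825371865787288657940210513639757419925331283366400876578532577216077577508436151560206746554943463561082455665656473809302437073631993381525470485973815672653536239616495653402891202130083045476331455414367644602461343503914004490781288537201259675309764067859976774757964328049644195068286122015041961804394565703994602343900801117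4810085327326711209946839107102848801386821359471227698174590233909136870067049286818356993743850374841492115237815330266791606551633141757629135217313878625868522616022875788974232958821514822103422634587364774762885913483015245845039948163783283248205537095108560044526252707746718497561413879950765927508390685359534229759749232495505625164763048461808361613108980771766500280427189182036351221354874595443727493373855516409739949773754192429671479339740899464987474921016207516944084618020662028522618518943139227281487444190943277845318222380753606560269251475631930214330225849311550653891473614857770062286251456111165767300466379932687121512625441995172668190169592722808457168271666089860812255017075929316835307973903087863065648711737144610977373893314264000506280902398664651692463704303798502709380148158684067554050190217041718879028634471809438262848571771840335796494126762264183699989992212720389451158805039501198904280368596219307107878470668352834749507048362630108648935607982234574157729648377865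9070035270537711716011100055855264883205355613795976887044502767493011089516689640617753401989126917666380028860933857526631473574925481498433688699266010713104153714613423892195366494527539463591662159625429569412741021559570478682901643084111715058905323473754119496740722153471433832108950542919523168608565809315703166831499237938218132368134449420067674649937305912902906762899485729710906918681501177881976446778423795088614158023931514248994053551322563480966262303694312994604893786490461886811766658514179011916040758212469230171104011143184990208197156463791559214714597778879873054466046337480289661337561358689447668109338750610853358200534727052408072463819897925741043109505704595921788950605989907836240224511174763516465710105628371724155295752366324884827949349529229337430104498022407144852788432543903381831296406120630545295844791573954686195152889196724355454165598016058574424772009371211901676680738397031146864599685707618599104195513824791128521786799218717065963006727141979973578058335346822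3771550238434954884638392962520965222250019868369348315513153895711148267886052022923083160275844521707752189617718153123443092379059448038635563201993283253328997608413965261334669355150695023008159230438055315665865351959283300630711638542629490200410479832430105562458501221311742691041228699900324893273689235009786302636427072298849618621973954713694740934638573109709913276640415866146046397960710671397742190441221473618267043851453202438000489168516628373885368717465610579930103985367727460596215043034575775754666122256150371989180659018469972450433314721440704674020914088366760191138571080714676025739637122672481118856247133885567519469433881480558438965641250780237470531480096528177526654416918157986362563531540605549371805648566643873392464486629871746427642074963271090081454515722988555461255731141739240073223596130719695338574832541141981143392889151891811751753546561552751018650938499263059831072017775080112109108995692584877142803675477394470693016012173335811882895617225331038192527829137011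7179538630677240709345181713713626181989118308901751235171513932386677670493515786969430866625574343365392125175672241092562033558301838389378366735447350208124121586738998539861038761967394784185639488783402218135483487080278368991345372107336704714323771526957025721527472670962342187647951744705383009080147447498691369726282421277043276609918939708531104526224360523284934050638684286275952695818373804205984527521625087768679563135241392200118989048821816256639489044209753155711493761288021941396753174696499199523682064793864170745833990938004841116440538557340541113040030520036613081786043229945388733739657226322223726684120103168485896197341545358797762682924855688163296230824639283032039592957825695122132761956406775695762062872143963738735422117861724108073133934929452661682326903850975104909711466138835412836641269686749800560163259852041039248558704991709700971628323353579989179326757913021660791422046605105511553483075113532929533488505856123351283341407117290946220328632860337630264184567858257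6402319797648142485598241660474210128893556038572256373587790029579059339618744104592328974366652647623059573752181369283290911578406422088937855028522223117275159738149439069342967267407333932437121928090428484662659114175638107398027282784981865626236806138495804966085147189185565839746433223690268977670872165447797474514688518226918878280305696679486364211913737835418837737194751808827436792644414046888163417783163246345690823488330805871850238939994320187040629448704648050177148923127298050851019572758301281625629783565732917236002340150649643610511742368324001987352597229462357954093007490142909520867711101561528918824210638193791848661976815478916381070763825316760157744227070361679689779557083451398990497342500371331520488110355054978331447296381807817716919400618303710397243145263121749585550645459576272256213509849508480220372926778715266064739753901365522952526418339479959750090654038081544560605384138396450953813425368838957512081509046735795947464840951570779959687311198392441343206356866703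4794785940419976800071068171038051708710021914856543636185689198843865994546251112038117464158374711006182806408855625464764701843451423455578087313373407703928300669791761624366713094048145126836926893926480563900018751534658325394980517151410124618718416219930641400265912881668330211950295203730148551997862733448822510904389714490221572339439059757962834863522968010403985285927869263911591660344189524022216011457544528552939845193533703809205106338987778912662188905342948914976232456043204288405237362482862181317837990494489861651532700777599308798531975139951578898333840803151820940891978410364168869707617448400416297664801421190931415804528036728365875170144226146716087061461886425232678442482828172270984730583291265945739377460024494279136263930308977996389514081616620530684516123248940981873988426035917600453825305289757815197606099317110650337085052830147453598959536551698814600967912352487818853550481480621300711093832927878435540433444965115542286524016746103400205851888103423892789038668339409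8299845625760626365802515473575812249655534999149798669654569375531366093156723478470362772534862143520635312068724230576283932177414824886692968664968969269050545234118595515630089354598533903138021456547882959114104730704542170945763181586074254344463399408566699691792447332550800329961803712892367541486522133506415997224974149098580093765905219936630711559018394107586688527249979423557700312987092974792434936520233275175065826144482192743010728773717998228706261931323395271295712407273676557781241993849254726389157391645832526920611785000577306615654927627528921821774009392677162190522567257021862919915715926360972248308223011384112220702312423356731416620829717651780999225242724181842003317032880348997237748516685228347045969792351733392238227570037216504489755215038619381186232899593709454878305449537023528447071388904605069995702002974439931553543058044515229675298617286690465550674320530230706497190037018719151646385045273253406548909893498912859423167030771101451749544453441390301855437723365368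8319874488046951155190741696770494402292875828037887676284734734197549823931762871332102808054936580936242221831786234466690053626358072529432284305569948844265805738499115914139575361266620536672174146412123415829233004943433117086186981364670378805919440895254278552362774675161065643972838296389196472741398635622669250482092922133606055660297874133114043199394793207817017345765065676742711017262626827038178010237609806717551394393994155129399951550633654584316385081036024586211380739796846378396770375076772125673343964520325562712701545289065052443063891265844775477901569375220715554772276292111181525474972073413258553634851361590279248434782492053037021040030387680925862034712320922063708626093098582124513337802265762691658951050130356270218969757460544395191899877848086270177908483361629157262224535817480532394310356985999816769604176837668425014021943178399612840810136041991985360511105605758939754938955512426596798969699316696652883645469684896263990751329602330339530577077831848680597064466328348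0805951504850353434037691124104523868206671977081822662330120662893432727415851023930424971674119056000879614639205500179892974799514979414899026531001380898501521566982845759036311157417034750826977500861970821133877022845800222847180140171140336864762652780488061237209718169756405426652560063792611074017339196841615391597585349163467109429604038735163029846327988496194376340516361344519321596239927339788300745675418602727534977109851445337447290512952552486902433558077045571667403699468070696794114165251937181549211976950863930881183819205970010346625083003177369839837997801271019381848409510872034339957430176275232286579399348569590795503525872781759921758797135908581101335060223346684960093192038178788239369049819606845907023438542343844002823664510126703537433046976516658015693870387134195229578663341710168368915809535989109431441194078138251187877306184188573023701493903560981550941144959179033925305979192375781326683505036364102106604091824738756279824228686925728388302901643916372088575455340754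7074884845398365096969498442811778802447824571470976743645092213264565011370499994240254214267957859089243451452600843085803585397415840134733900544634806104333652982332403359670292778588247158488383368750353029188623755132991014679073384276538532091107508056947363623636280390265017386768921579866139923877262382632426993342730276774018634712248791166167022253599193205496559154559265415534911703570318046594893437045573161708672383919165205819322152316688620139828548880978460952876363480324273769080800021192525509357477366669467485940475247158608024955525926965463836213937120368099043722077761578549116289215568572025195776764884239108743725477401825620641506645513210330656463001379107541133912687544308950553880530602740038521374484161634155183822866871908286964581335874038490395115919165571723102579082376330070223010195691030942597532225135725627097302605573124245417654074751634653482888187114609052883580430177793347254583297635190519859275235815796406447070515449108471067493718676600191180290862298271136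3820327055913097743186414765002830539996464201920020675629379905722819821843607157191245396556166194072438746224688867487831472727336913465691854702167793113598579257913353334500516472026365801137878471487637659483853739708382976864500392236510401303675861433549447377161232075598645441734908800915692939202644086295284861111292601928054711280139860662426911788283422464681279065094962442331425632384809088299400313599783479565943039200656940016047472763519045991355637272808925150972144003089618706733874207349508812028543206427611270747858518918751337612114980350284866078700725048068573153953752643899830168402315637135033125062099213273742809371493618570234284772404247670160764186747149075548492675603897654855376654515210101544046391562414966785096373017018641500469243317633945832913769881516306225975185421292658040215334640104751341113365196351478950144247541214484772789529558801163420993610738700488907591960616978421028369645746672038353736493104275603621726320990212349859707723638562296471211802265958744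0048654329238963490839309763781441542485246691428979652459579382518094871394209426597781646170756620593850136074805815597491075874691848156915830952547712123894173628095997715336982592125040402977239183988858358915806844789404838366171062843407459806090120812462688911574960836807554289558458817388809104518048019994332679290825886793835539148956836716751250947838825454531881970614804247599707264883781339917161701872357025277486807614188480817457947498978239738467608793061185041196265225660782200432011787725222163981037600282385574424008835111279819043943825212740719876295411157148439309003673590625275571169694438110668559901497579684212680298711577595139894683105985339187718086118168362613409919451970359188742831012467061142035804280863177838417208868708935136535590450204243941642454417549314805333865589448520163694960408193118719392973820801612127081426744943511723130741177917072151000264760369653094929684532817677816435527047572692445142287233810587876335413445263792322583066148767920255195319483768743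3004351262525965385283764428100447885608906888865532448209726016813143642040844975335213481511340993371664244394569744047649319009007122946618771298210486165980686207750045420485731716003480293789542274397553901934850328343398975007750630649538470083505469546864328542756517737265097944093989257153560652508689208696890219447114659170768353767828029206455763298545366625403585815218644137083567373346508160117146763539556847811730773144690470771905602582948554265256333219861070427313584475109093450771714082995307515341532770883424280050814956238119246360775086022642912667977518227666864074922901353176657770820237325692264560712855981573219581339675325305079184434686137659839946699756843328367236459713481261220178518901529570289262800631824682408928956518756424283700156046455046288751940243710012373052450120959107570242997053769845697802460067034755690772775336194565495951044823377198045755106972459494797257299956057127416497041371665840333871157907007650739677353631568748251984728064752068129748627122543502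440954121360701036535577447665984670014275419356707772901542259258324445634528557570923805538514582474665570402195848679383811002571897556838502432037375026864600764501316006307229402660195630046225273963618690655407427681762686702387732905013192049187112864468924898693865995794982990166691138720022692663182664867232571438472539173101218993835606338998186415426517762128136227095450414208232451586942208781659452357193527133853993143813443820813859161504594769335738996441374108303822976599714405316323456845565950496517029460413372563608121241177536049482086474914821951543450265207032405106025804358679313444562836039873094855762411671795016789877548883394953216000)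

noncomputable def rc5 : Nat := (nat_lit 3579569299222282510396729236457517359733488656846032305869119195394527205582451169408536200520577647377391462016701358830304583932184060126663736716598216027891690342382804526310767247990902808875789403051604620056566868318932653516680877027003689582107219546015627087244199743362408082184262576174934614996988791188176121275380602018498569225060355379531437465672846783427388079940751810677015071884741817526942280111235687237145007243150495548109440571315871065459221195758838282081239797237485187391660089097493784792040936392635515093077709676261357624283819829187601380519568784365946184907843462213093396426997640889172497217965026345929906637996018243877779695506058976188837020503938180749750075992817015111486277845621942567151838502070581376968547743373061517668626373125590952047282129404641833590858896797604055872244041729712070193316451929762211362376859110060660064280522908835783044718054673565510231663893375898992095066628735755946777714580048377669998993482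7248987373663506018052292575596548612891360043544644512261502178465798688571496879467232293762191617062749614740409355869354385132263147448158287641140558063297236708240467348988268073026424350852084131446956545579513370346005775236632330008555979809037589123867711380688712916922329287980164883673841266535425524144520671600200472927567246728854820131620748473918910418507776642149552979709795511552604848326591943123094291308812420513542625437226002437721018339932502492138259767597805063333289392443651042680328605782995596213511246968337122779139972782534940955175982402450358691861441943266279647201966687134474493765889894723710764113530764262263383507193529232204793121004603974000997094094701223861542765743122916689426256425947158395987304782159150077802575674818114093040946282612020876793872124424670437003266204146320366835106741902971994656248274167099993745048929200839550073499522341795696324781032609287910666791012122719546821433485423393477999222869634648469567607162618004896891889051837747294897824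3113503992517116616900000817676640043350989224342789820221455745122370214373004921536769359475651647537732875824125026810041458854085524268790824108430054098196174374791216518338712480449484958591667817790946984654295829427401267218257925477313736992344226671116800844569390101256229152785989124178906064157355558934365760828187487094970679876885496108843930268868280588963042778610255987292259908962453420498054986010618357024456484452271527510225979418716972093018719763601768842267412143705540293294635784623376028413991883604921542434474904685565095561818440321360642191065756807229749446016555538562484536715847551727280613218001773572228543153528228613855788103641815648450154791868191664257206953115774617767055932122637127819185336699856413819434730175142629742020323137931911242380630315938714116264595041597897524336361466244781285153644293142961221895586778008592226497041155678579145246715093350689934243120079561037186861868763237309739436412892433842547597596759987667548081471234227397640262732914809576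1087600573417487117468848259117692226679714315443256148875336334177786231817605168611332607784654158670640861130521140378424544452982492714501337217970710055947796498214622400702386298959296392388474525041597591692979336661819491011789317026686328165785464838075123489408174205549271493169952648253473279914330013815892865661149462561386815475430235649036457728206478949848223298513089114533627614448343117996062270373710942238484913233370265223742172712413274506906394934995687415084002393210482029178955191908445143091845105150375328726613785866575105950995954058879630431906850280915312241023178650104764919047138406150461873958510372773329123026521185517035482933265148568039022869029401960401723275140510199592847545682602619823157142185504916802893110163532380475283035170797085712916004132473337994949916333435257139424507593806738307766524515213677915642442502789199679750853002386554051831147528160063550924987367199605114158163240475792027488520474705266324629663587518012116430327312075407085781654548041608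6802829179050223790221495959915069324341113339629967740802496442066415313303198090709968346803453550341952297868496586573252554379789568512902569723292587381195227526802084965724645631139710256581614506397084177068141357387652109552317732614784295454910314920818763063601369057572020676165065294050911246445116766149667499038640754562428478357069632391967675367298207059873656425053636568676695982141472048264951074796547720184505436276838318462078334384566464732311913257496229678957409499859822798542899677921766074879258791852832567941080252851091680347563516036485200271770446140910545517930585873622033540807968808832577474877341020460016262985425963419847089158927960177092567688559048824449444822787703961729861956164963762090488290421429534202349206677920589820390742226358334295659910529766083864264963065756994623622255332015881120847142751396391400972913146248975998057302129066096393620098368153210107863832822535071108167244767986460758323706454416365753388444639879794291325143581129663462971238909649317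4889718534225278051336893914198924621062008705484113357420204069292387039760355836922011000928924945884238193484185085658852491759586669239859353904860564260729513634398238737601770648510945840772260298697725725030677448953467653257947373449255302530169654251347766261609509501506329224593313120612358495392846838202667378509373027121293542930316289948384412498840801620370989758277073304883941841150798492389184868524423968519820977349915064450785626465442736601682346825535116668778982476064890858209138046571197948213245171871264219424248167451737088868279118208929390158896201630152153396296493765563414027462128298496462378796695535940719366838269122961139379649944446701408465201642390141043035867982346537780584101184280839800103397681977335350673847889880020293238830153623324730597355329679757781364480523557065996892387363456023400685734531650876138166316608234224532149953863493962176800051651713677324731812152923385339065804880455202229971027524714900844477370993797969855377731074646320925412563305832522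1404424506924650957064760322775645087665698132469494055630712932212274993677562418781702097892421271490031826395238930237234279880862989362547692060692990494439565455704704458054385374295628301161881479533324611437082286769001027019943604245404882710336347518356188497215346539494171752633891754326333375796631797584156766588908562444264548641024897214096931404460021647283348303132975663689317797788292948423549823427085510843075887572150987146092615926766542951973804397442746944326567012727897404065583345270200259322991104067625090774096449649539558318305657756138402663218416622375770460885087840049097912992614581957598995592965453639236588517455917271501392409364110842101429035920351825682573343977155362371798460158313719119997877734528254314323995192070293028651713774114336916509427807813622003569889976507722770217176596121047766201688193842490859640986273287771404326599692596342640857848766638617472693544825883128480403806643598713709511584825146023019016109531070639647252970025782838743640448253465402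9024960378754754027251219042487508958178833798419211335391708302757232610722481374988572603771336682561894646688769047883100718638014334715588690843721192718226390157561110557671813559538112888502075563059432020710750302568891613501104466020356336813028118768741171374370936473114957968457392199732956502283047222624119396250735348707437548834408810056174381689521205053310810877495345509473450967710288126923196171466693441147552560132714532960496628092678844233297403605716979147886246148581521671277744426402039897217910649898521436020170034750363592814850105922797425359932430590284040137053811617968968930887991279098903028286465374705291654537277904718819802132155404958538414033859074010825543122355579922792949058212832601538208579761723065683583938441470932585631469793886105393863028180090232562119617248953502469204259392016780329014879331112446292563264499263996216037978787337643040047437711019021777015738662042584795196645026913748953721547496427044523663279774447658887327048467149579625372045993219028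3398808884891486649475069607340257785183664801455304637628615883715548180781341291968671216600264157121073992294284630905263230399163598311018259073757838498741109742435526056937972496690609338553695796627796690661111651363705805284337780456409318999929969355522927153037378847162498839144755475690866571588388441261883084655658068064710291800347345522491651486807518833389675044304649087282154699460012476585489884998106542807624507311286942609749387772497272890863757889516730546993555021812213603156852842022825320900826328405379737655535693483298483763159558127107303808042885014424335759004349100557077710482233703066668993845610900869888774222257780508177196000296940024644409394625179057934557837179324086104572634830938080287043677413136641743400286814647447902064800377722932163610007867363267793967510862893484911051454062784996132852087119320543623744433803949255170967950872042223934995004760606273258514494229224153626445667342024792012358603038234669461149316256106899781706404144286234704661336253637018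7496859818335901912062297305705881096844660131776233454693848309161960738037437478558358154717721600050374679023211636668379944872199351925572170348713467865575771985078333785564379186434500091184665279911051113273357352732951218253894875337048120158345863610823597665236010329458868650642610011523168056836782912184880627819844788481191292853554373451399521126952656047331310227847475557871075855912526277678288601093658794161211672487272565461607454311450471981987660994899564873211490431556104894921408689768420596924035593407418884246399134344336098582107372678918627244437324777877296316610070688357525520291396786897307133828177982274291360987641054891034221730038518930748026029633648860761688399333658641607435894008882712955444734752199371640940376729673398928380044663206743360995759292323889521317317397152292298333387389395920837867360618341004418474443137206888988838842610996055152664993666673891080661393385778605056829257857631908769916353105736529059909933278106357400290561595134737269845911153654236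2513699894696902516885088055523345551187148029563350224915327696959355367814094573839941258535758166701585685950461028334973657342633920388781776850006705441435645742297195864512344809420771997006909440298392136309726835745459437219299999963333493832665875124944277761056641135678421789232380802806457842663420934446344342794080949728052747121116996247953899436505551480058035527078532114733639648341768301244928675731127558556589144097291183489417186738416969545683169382756787076539923109674034718139096026168496620591054105486399364722613689520680518241823767513297944733829370745683200878563320781863699319558690422808695114693585952961158402640678329228051379734155282699450237873942907772889563643907364030212389154458352324479267259692251497768882851395590589382384339136031274901078236519312986636488186204197338015251409863138289980682507009778170088521162541903147603908659156687912443927268415681082710785902769522776669168595184378764650388789852209598125699321337081634610454972427920247539729174989684909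2461141448858785628163301630894043039391568330657042301043483453180583943155723323926534594909453090599011583431128261534521101360646738391646354168085192056593654832973329042172781861338847993667441487191720561920696451446859063764640954729648537954775746787892518488388703249351587683123239128648083363750012637483965851383585391245905202563298374666222957590383786687299589692167331337604736319704366302159672043566826226868076114900130495646685067070256077617467667077717667403612841240759368813053111247635930047603440302567214087665480142949663640581470259098081886821536447613755954843199397910997154423192229671126876565294787094457473859876234744799073794865940642687322656716427677186884390150293203284688961202157199807247208614901984062131681338925859096112360356883606762101704541999814772339591885180869835698192344619825880911815188265138251850757958520875291556592501640592201256687786138644111841826775703748123267478592540880226911338920778051390341797884727003198947777255014006832942083497078046889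3088633386142532919492398797868914625292101958907889067397881717741660804778761140018552767770134274498879668452340187821124959348366471639968822270396652051912269399061456843431334848791300535662439498835460222745169095865060430846919444398161204943083519892448165562074678041591135846042713645866338706131136751048247607155073242487428726280953168326287015661751970559973025880452468833799169843730449630547501400424131836342492205807212508367283281221360793166778080590300394372924644060320752526342747955543418593263410474906592910427068329476452530437100487420021848711305289521428085373829100783912780451007239124870355279214938818790276603456065189467325059655721925448326611681558799100793015508522433960037850447807944574678778738403533837913061143048014716054579325968528112922624720106088415835974868091479214604888773073014134358074927495322964641870415619657598917611989804272704187017534228763232251346987517981103306889476420420993086199277422223114186481999196388126906565902884713689322196302735997845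8131027388113230063385902019891729180968675625832291273690858491661400763852015546320846008483634980507929213685607216843375655444247846442703557537214034107474583175033734263391305705560109885876334097696811681334946348456456479800658111842539508890801286314055309170661009580879852250298620463687991049035852713529443870008992424154904695645900807502987589868650576516887502292913239729204500592329639621783059097571433032964740978103706374630413114918156450189509068972539936543914798550090798849448019558727632278820318512021352270512732690992874876322124249113696424902696602858997513352359834955069308638898771818108330504423001235644253141837732779558466043481429879549518923814670619158710101259026934192113358810478731162581004999551213579841207297713844908538725255472436270731486347261737321155625790061369349281698295893169052529314734990729792499384268691117765330885675780627804905381125130954457225332648856087773723201846677023654529569139751270339415870506084128404344688469471534907283798012664878238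2899400631231258909273918450584920269315509192161132559695994750782573451998227642925469680770309346433515685761329248604172585037249453191569039197073392083316462870764736956864226229355937718028247039691903264123456034336829706366120183537773474190418384782250732052396415409596582219617478773903458918829250526238611301592652173231867820277858175385728586341811328987775937510103199587695709143502958532584130456031376810372901649327755488943768991774756917981076507106915875795962346708413936488800940564958641309181608036389917001950743293432676123419615040954602064019758625931614613450323844284441249464901491601520944988368693153794213589077911386051660940200815992966942202622550040283319643704602344892904651084640668164546330779862706599909376337018476112393618996790082564246688894826237882359176585772055443602615988369169582585138955895928602887755140253873254392676372339887392699202865537936656782496060875595495465230954229703737344716557659848113866569412604506698605680662356436449460819542361430373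6317304074145333158224220231902163795742250964667822590345898853011536615868452522245138006474491095945216019938205559505817489756788965132393141697649095638731517247231965866582596503888990314008510142237668874434500390759178345880730071372115020219794085538784574616532319964488251186623790862043467514858597853405428362700842765873846276570958705844669066933536628800504095590334066145311868178494339897511717443381281741300511142763060736578871671438752874558384958033420912563056206290551646330436460199777156781939149980147420303235650760275868960536366741613923117239304292044083625261924408268427939300775284862747860196869987953718024827271135521614951251319757961756756868045050739952381663488098600542494303585156438937784605855877651980920781299342336259151217545810513930940393060011855239505717936885268266097156640055627506796076880996507622199713869383272031587279822076488820716462150399774212919933384713675199431193113456745338497494116131900724264306032861167031062014626899733969999193554821135038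6720267878593373330416175053164190367734443189408119492186584141957440715187874699842212630074540433830901918064200615117045383347579656297133423066333277130903687045481762048813551725734645777796794096635409228142205679870828337529294622741128241680444107805903011804669583678219768945578952486596489478444653455641723628816531696631561545735188636817141862518512009441834429996458893797342910983329387673333533279977535704902333209500361956044989276113878139916011171434642620338363100572626153516722103671064681557224787862103895603943827938528433829026906767557077726750094604892852148679466168955704440754417804281199639943639579416822058411635763961765623696496726472075450666844623273622955986681009926269962377725652434503808540847831541725277326722255378129197987180202387712780370141847966609824559976858591610355939173838157465075618234885573453365645309145951542184382315790068846139856228615928130789131557297400323316771338675490482357665083821823770085778868397508884861259218803742101606858302212480952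871411953122751398294211277195967314256668785444295314542479051119641171377589791650292938226613074034837803038191174383450236190699002551899606769636458150675513223525413756999561856554914601778520847408617820145704961419405882435287809542761449968854940713305369711356069768216797539956544721290530401564009167564914526672731405298286293031763826239349405035435969083356047179805293110566100326986084581838549565316415298214221646852261030263061912243518880657418044490181644860025782250661782047528537567647883288831027887011513436285880419710062315916861804955082123792704885318415686081194227546904252240568554628478056589897021728577602738035886408349475812671488)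

noncomputable def rc6 : Nat := (nat_lit 3586652458105704820484996595517900824014195247316241623703752919163128566908984888157676437027621807442263984168620594608906557892801189318868990779186254657091224929148894787874654354749390254135741723490064243273327997924899393047641347390313380700397063985841288003497979483396185320783137557827013833978800839227895618354910884554692645117576075955616695539029838889579610557868729489773760378940189230836531823816642692488449631563604500214015624576762150167149405880197854337068400296716983818912982106814936393387962137658927904860158903617280186354599364621054211561078439416699612038444399501852317394157121761404886648889516964187592020348936281608929633010758149800416995548152378415050548410701704163914563990735828110214487629568628363118650848650193193894866141048152670569687256810492517531190861465456937476601660883819696304805201381122051768228247324329437932208301529689219263822771681238763028820908541944003098402738890534283361965994078764761691520093493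4226428857012909652047012044057802568266893506883437335272431792077546345983701425746114899044041274628890351803499062183942710178599311061974661641645114346450712818556967947666148459321045814717207504407506143167214294632077198591823948707352979035678174659764573193632095492250659808559855546374499194122007566043054734322721266241884295200717986669512567767116653974930933306662283730161876078419266165016254766182131160421427920284624394200560037757166191289064536597384554037133273816659951212751730673643135634701486845056577399935268830968050506001914360902462355443569067337266160257553396196261688078155712070984495710359917202152409534439196410814822547739804907038556984016989712491936002169690014000319002954981023875935039731264283851557795118756846856588580909328646634321630465217150904994990467579101695734891452611521914829554036441919395834913494587531963966456106296373760121244744358986326599207424742065246943246248645990611088114065115637482483276430703241858926723431867672353312702347758518908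9145006450613823500900593145489279511029787468393661504342974811854319600660772340345821027808346265600544884176295453299065693666686671437919394647596272650987907152710097922175254383435564873251920769187647631434697319278686147728018128604345663010069428683746526839749107793867261079064795135257582881523928451620177312533071745111554140473669551187177871305529444492520089777104470279929481292715669542611936949916150937954713440254709194513113930523344185925047194532290576545809163547532754982645048540684155819054071252882173074826708838623249235836550099972224761582224699732808166534792439787777928547441155818478147896293483753667123303662439990154912671053046868900115204259225720397064720227758905450933343709084065428088387947524201716175076879138813245746660848458841193780420029464957177022673549542303036915848588186365017471873907011085841751048248813545767684807211706211658714506689243832674582158222351174881879210778189596317759301500957911168323031047999037515383216347781915558676761028880245973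5936071745573847906890027951274450623118290668039531864989649437529239938328906015115955572346882378949592765486975705568992547281034822478424466150429634451535900716594463798077823177647009211795809656262425579314048346063900655562694667053861660985756898870571828068178890241886707951502465949869442423103174244497571418350463866651576693241912880801307563651951024451469610924376868431037372785260279499323552438263124809624171791691332718948747539152789538255196845233473555783755538599749389346565293023156749080797292163139376083129339265555043770124025337422766539063508180466020132357341315334063633288091783233010775902333495834163052858100421911171594632083789778871718426113789977408709719287709886014165928004357037629510788690028248782749467658362722971157327580097270886367340770816111307464355803602025189877115641261865058665423222032748927457188395744761258188908493694365170858493525486384552146226238491297687306134517808209808426325660925774976711234585946653522423101669101204432236678000916004431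3634622486805265114077013761649181803114798055669922461935601943763487864455276357109874250569011984533799212703529809233518810221994869805894504658744119415077767781141035252614086669341882480430691616888245985801260051863185672372505675076984411760411528490823857835408124216536769191669637339073081653097911178103549614668166968141134299573626555724247507041387847071215733655852142243141320332805714530880637650876005583348924358537453566646748282074450207770322654642182637517057916472672341688320643249609627227202584798626141926029204315052577992583754052163576835069572744598157708989691106868239313673392868998349804074164151236934729149765425539445795157083247699953558070486779946959581628425510286072068806041088804034772380945311748640699914648887065205297813500676716930942335867331925294239366643860160899201420544282270879661478004837070452245553447627745916377734559745260108769697517882956175635019253355327502488191122649145600324327321306220270800104748319350391668297557079343090616665359201846814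7731089729988038327300138792047280166849487290410608034988623021466425901367417794154092771870895739013060025899443370015117758451723399099894785999528405927348263383761225113907642503794092444106713819771547045969030637222152056631988995300176091065596632651553298180122979364921308763643370347974590336117184529153687770221126144306600121747903673561036686976390506769087686020015609018725680073586760041165884735692390529344032112355599469896559611866768322592434946058975691505209883761390639623550218489196859050208102204572098521770094221991261771097521125352179464466765337284069213496231737892911543514349627728224104516372762276538760208116527036753313061720898991533170345571861711428766515210563228205403769217661415089066594342932711275216509068413733489769325048595015679157076770905387617377399221818091505421083202859794649042628009891148726521351894460067774628734822594733776243331202951583245089769471199969046141718010711919348565374812427783089446560757147495007789416447873816400432039144452020194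5298423424842563492547660015866058980659739586882089029804995456334424385090683267526795648945131690298603044905901426343216112768578692254730084757347447958327817428460336940177933935122310022344679451286922547011147363792287170286514681909510605871668039299592685478030153728057250195417698765007688060054841055030396124186508711034284281985215179251982031124181850467787186569521638977459492435330585156074122996935983490512936112629246137866830568871784235858077199949144191592732458653247591535788721871467524595018940856017221515849685294715151518148684349706690865061005007060893883825306961085980823224763177965684583775529238794725250892523070665622997400414828373259565310190685634594234185122631027112211463035978147517933649680912739829720648171430797309963956779187201719693381144168047960658146769506306439269952459985294795713547197689918778502647524313680836116333471394431383874096002789327767648887338373480381452091128555149891558748048453661891305144170084598359963636387320393527829077789063468826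4087047760982757238268152437958168135451264137059611304162430416825941657231173912802026618766825437600019823398135022778082765003061628693465568648032161650306774237282356760617543050393714252117374510013125352525355204404011182074815909094951187106483889469104034642742403583775454546069681139893551630132355957802894628061113821504919494990740690989889906656873813355905559244418872238984126331230246485836520230300682641153206928443196660326177685263259286945179780955727633415120972824741066485781335538184864659805359881327230717581520766488686681734163695895960303603389858847787405453360710181065831147329549843458627028340929894082870706314587610600597482389932140347708803046508648797610654090937719947397972826709041202659832886027926900165576260073820566101138711184958112987606553216757199786831914712806552216210284365966503224745705396699123443086492926292962777081584045607745317398501432663940464860375690549414258092800392611210488612167046038633962787485772799795651838177286134672975530477412318771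5617187618638238044854033481019733320809282702468198122423474651325688764641372619575614657193610972174494323106385965334361151065266370197252074673337860217681096711691084712390236478273564720371984982973725135178144918867452652553326041213328785853399568342530658247156344533440336731283089455892208028924480682980018387090090419429322203074768898093295491490154264168029983111314303466388895959903004803396485224620868882442208988313675972024731045472191172956336250234068533846399747976748931129485567424188469525407150432754692613618097813811325504422918661578266107813775846723890649759010677430334772026918806995654499301536222394116275439095805652336899931007717913945843338140388187257850207973957985406364234894146654349536592060799525588058623844057638333370366876916764370816410411918085515847426030740678194027791562871976839646213152168097578309395011800449222020840491617256427252561434878429874790417874387698934234303586283342799873892578939492081855014103079421054901620831183255371567608916714658468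4535255942162227770207525186055889833086423786611074475513897796953510765931855586082861890733516781679390243972293772383306718874865451300183203735744453985636430351150968362376978840750495560141832012509478345339922070794987444946459278341234684203855362321409359022506249277379850424150166807543217072362186871306729574529712876692275431660628405092300370458155304426097854901400319032470826939215145421379714052306358870425576741236523895763419520277491407731184090977685869365261446526378046981887015036560074778573932923081144814497473730010948817040322343437038810585287323043544247733909112829466098064421654245833730337498363528053696276550555709160996399545846169098913372677220627117097767726739979027983451043812402843207838597143347580593183818057415998299563058328683206124056349480814440246573651779290226013679277821906389887041061566017683950503630960504517190289137957041715810827902285719463551318878262159415302558118205797542580202597329621450703323199187280974702450420024258286989615206676558597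6235295631818907648597823307527613289090511363810185293201927415846330304136682582599207922588507012516824754482502417457228071401432479705387512602145789330417852030075970811613479527106254264376241025414580155826223739038226393759350569524762870355080689869885936007884949001050635168408020084165364493681949699316958289480725287694070579924058535596017984716910371585267289118742711245405563974181210841215502715317737405887915286284747641151449890618339495193652385764335463921938812847675198692112682702565655236212648125188814549036251504944669197947669658846588493292569443364787795769595181046371358156326701910712619371819345829653701586647512537767012926423643663105816893873155918634834441580604760191885492341212684352288614729403104420089627202152480472346930441142444472739174491563457339193340725402506908261555080698593215008806818665088299393755684235371867624965407697032731492812183118650322412041286038463470809956449409464420185100710712356861410037893941330677205423202428897225536012109042207982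5343930489973304656626157831894400602761421518361932353343411677703052448265621209010735992157132787098406950859758138079207158707778615136567326660475431678504723641175813577527985173462383537935200696643067485856104445787203140674002668398255756581770622184326043823316479651472229235746015896793936407384891282884285474222628060375413360711702235887746028609727852616141216122675875419665263371487607609011962772303393322297055074495426310898494425958604749089087810000173873727235985845390030380647446022627473766267841913170393019134267042182188187436775881641380855880739865480210241075642300960310167287199824648934228835022038133767828019041602272474402767766588633152253779121157024320610073345828982352517060192224123582748917954099526717758312424619969064482780655767680254138128346248780868111302413629548824577218310180694580693199728412282684787080326476727156686542447781889806286534850412541260635983589518171161959050961681080604130508916515159121404270726303089966488636792653011889167335842202792960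7149853944419375362015430133426470074531108157973955672295982243533016939022042431354452728563639771527602779850831580573077914662069932302909340421867036978222584436819959432546611212943449598302841665311937857085861019989422591245144422656711792842780445744432829391392472329149440851644973552193393269329151293692881081868042847951811770699888882666065365590350950520046962173927603151276563498940592126900891475539073930337483967841794217140774474958555103294999644560763107228006513125872060712981490032100016948297214779407038273120758043915406466201012654461697001831902346647178160842919961422695570051599124599470797661398496520953452943665985281902853226213743058422146979264892562014299605700555940282969217563146440205043528307575408751515986797812788776124333805360379232618716051134217659906945580971414571875836098827296333615461222650431791404307808080013350299409347666549129206963905276621267895377862310420694560317678445288348462470617275325773502458594095188302839265753535297916277553280906914262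7211527929960187370093926863325055214240094761835969473689368649838972564440350336068127110214255201935989110728061084930437695662193083007407217660325959735492978532607522325592252818837673619159552969109333271499015092034194222426955098831960042206295972640768008032981277440680836781581250927799195863084923988681998305173458576171487648120702261746709743476732161534498321555285155273595304712690622321032970098806890123394391817654098495529856777299584079077217397202285121685081330968309960552474910715502625238343907894319703627570532604232665624505486106401401068920173373643267409837535725030035483530432928145692485120405901454917902301017315890867300940877021888720573079397768677053324933005645053883932352475708096678801924994029695785833062831119811194117294075567285615549015822965765922374883287761439317762633428586932184865470674141845236212148013264023294048882504023940880779609616818039394694324441883221846230130959174631052193890940941032857042963430039706340020690014152100579148735716951117451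6079070906609719537395589195595432459238213948803210563476952809732163351679840050383175633427589074857686752020806676659629858445268188499256778462304474457403152580246621211444414879556314694181163224413529419237458014338834337079968856741467819505665175151213626946290009392707235772914950051268509746786805467614067040294521657011498304537426286633264515867888547156573465416730698055883373610037368061152833050141255316029257320936401921537277492759167214156134055374497859247308850093693281358080296972596240687766832232101472341278661004844759910490027731343218820273507506053809423413305382950805026442160107991960844905873041999632111469240449505816035382717474066810195061875908840980432127861374909127447847932149706774544497199738981997040493547809634406816276148283526344346323384262948019807449577356503742889622370300946533013483196845380309571314123696409606092712455944281775743156406028868083097352788721957039113494228988718425331477606454531657894849499845266993486942939878404940225419538502206472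4785405035483412947320888370023005813003594900982336540599186062393954804533339234068666768808194505504706153331841025998441749679042451056791843759545712642387031758849304224120321461967556643641680121488545429914474615743308530570586677093380330593882372921959997200945950921602860618590259686631606055074365332647581517635877369722626532275119683757354825242453682619845777532077366777205647057687085315304211388961621471042193122487354247325501062180531486900069439386198398882906424325958929579079472639320453506172742244095432778618255304120465473536936945515082860655271390881220104464728015748915114143804258255896344096728235751419667244727322618272648133943585673116638063841107831404833612051037994661681193365159206959949645293527780237773293495025118805371969968258344317662691139824881969409728043169936929125261787628882313931689873435348116878084946381194047898071637313125172871486367822041358327427544005611113565287641075463795432087001051749403140963150661030333702430962593020517010990262158680812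7112433534048394072800549771493664962965518332791168024690727996544088820767517494743660594513173471338703626896579304970418632613124041779091173345755144971550159863946935601981634574510688666940191804254369930534158624365954078765520913529540489810095344324154880336428615169254791052548279986328702341318941406812692676199624718781979476687287688711597947362169826445938993291775663206469271064116676127054584467807760064271029117111587679709496335633872556947178827182268855667793549291248003989962033276432620297956280861708073485126458080446560537241071859985170080227988960728093582171527177454760810806760586367082116775027874506053138262792542992451449119833435439170173162128365039531618903172600622460217074834196351926120819276528311834295446115305507317589165210232819808877025244704746945288155034517736921856116816652572889580812899509309127336160305081993628284562494903127345649878970648653923237714335456256449904239049731330203744321112350010820287469835555074150346437998179593733396205427449586921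973210078106317705849478275434347790512578981354272053252239683837204109036500484453281049846661655495662799369067603555342616024165143643508898257113248862560878463104407894549099580933632123948133456702270211065230576779445115627316228773265043508087223701445743036666467352814903607766424802730606315156151773941746564901055766079575896045733705491877137653400148924830189476187215641566450265969731382681035702261374962110568596426922478021641835314623271987629481234570729710341310836878493595279036285403743135096201255553648029422744495049771163174266216027864630427737156562184885645028226518364305295244075463607291133521885937591774637370296315318665700442112)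

noncomputable def rc7 : Nat := (nat_lit 3593671333882379113633784196643306146970260039169066921070100819037051969433393859669552934984067160525757395975397151104947799111613800003555353992765191761963325687274765617502041406246284720524362936444996834310621150311724599309147287983248299300335541919603744021918721321008113787954609357406069801936810210449218248919264783330574026726955637992337527015695616305807336757175752803751564508177279241681633225027656962070129578487345591538856957818897830327124673442358552603798974808416631491815895530012501724899758525618184488626397361404342887478113286177687022221910652741288494590702385504860561363483098550373210786743566014265552970819740211983529775740942181450556548305667552534990003194943014236983182304764979865712506434771272265909697096948770303001303022367093149729494498349112379624848580434794611220660797137179042228917043186086196788094108949810638861054204129056003000915654916517162855161194907468470512212713529973783673825102967841216214436990512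3831574387227282224949427565755488524817285944060070851381337255423500650200702483748873628108823023208842195122358972934002695982978421856911909670111494990132856072912728424895153801353155486937402920089223668142550142094803838924078888299671452701612420724106374056254082636226088876031086134945991322164112675051898384282921196053136670655533278596784371996584066001832912890731979680192735885516669768500249644529188036986522030021488600975743829035856369897356005420749445357557036054801182432222728178424709346967370605347056077464561445411424703204322863541492937005472465955647476441863108621904630066289271226289231553012676734117904059416399894057104748945045163042525346869880712665070659634706944546427691496297353973569829218008886458031752610731703672181966105908388900286494406034039003599592606029097416361806429775460461578805794480235858284407992528613524770883767098626200830176857325255345708909707647212520013067245075086598555799062815626815795081599626017564909648549360062740185111056837663019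9912042134529197796153777201583912973344183235893482366917630483518157249207786832767866490687385658431696012065678034772111781514456996848711546590466987286263221458556314740224178022287196166329805409085828270855382991789697696638866305091081785331989149747588173188075547099569895938687247893836972165564739377260669919507572898276622413072453316216859727388181641356405484856440993330500414912659631911796364969524200704093489743119787841071676242967072032844760294202498536797189160459929781483166391209251335818484012584145244261041210129577764770741415238556006859032600990990525257024606295155831341209405937469815616510349976721131153210445004712884298563113015254190801620819646620909255809250129982587697830078664952605833220572750303630007100409057679535628832956788187671950255344482043189155575996775689412377856877196452775727506156769515314983089965193688612221670330751491435068068227222035812253316725691879050151775195069672805752910592196416606986803200253827822736618270254430516506593492697114694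4255362898842042291533908270208073131387494717517827650274892474772558889683900464550547157031292666760571596911154931835500493919234396838246313724562964790060427716731445370092782853319785126710249421772090993841144881284977135042765288227748445628102114373436025887201790508494392127156167435758286893616131476956488331214496351782591425296518897459044097634066135435667097999838247125592379599778599876772381124361326522861047108267048110343826669523099460821192202429033118996264850962031172789604838273231382287289549488077737263365715895996102573296118146423724990469109923706638219839529253644998609166627372280421898030020944643198327281170700967512960089318158211987230944727464258593807296927845168544244866617697009086803379758215429302066566526099896330018225682265307790684486656824013454632109921394401451534589642430305145981065448588654210409219568102240382006659885983353686727610251096738973625543531455083954838488114709869146485148013967571926629994710985985332325333623955489360478275975761337408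7317554474108374854037082404456621223525308139896171546190162680395189280065883185318892716120295766913553057206423203333359915917304835664871666082626071366067510688554738935895227427261630835849127610872956258758238611161429769373593574079344913489417823991991526275382288295071093631126224127480211316150807598559950220847671426812775443268934570736493960232125819512735339233081429302601199768121097089465291088370500574574977491358117442493606899577614388756381001010268299539881978549434429228876284868093665495506464304553832153580806449027133516264702967120076446066037583636915117154718857264670325647048555269665884607876330876477656033960223686456945431617043882787404501314877726410577314218005554515388321413604048476542224695985457757306181475595113418404123627057068486149217575155512731318329421772679239141289344324787527675140061003994417284232399583183934192590286380854137572373006534201766580913397020964223368360753130231844426515706536603641520715361689843887535133372627182650737099560720573257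2656683225291544518083894596530437948124691801898135421092275797020982757217651956605900829091806737537019937112137949320455691675661044147981756193552827986001140851707093339194185155364831057719542577340272155071001280025708579000778232879660689091123505755932776137987731212935175150663058434124735573309955322461646822307420475560633402827930868264460396620617520172915338120800989875531813339424658051579680579716900816116806404192933221852738155345742369498791881328514295280245381275396129984605925691240807791406187730812807865557574196647598368008367594743173967363411409982573695486077253708383515763977928605789942210056441975614329142757773248027943173020818468835575500239821466625349213254780477847037433010382771012829937776109361477739818242753844487149118619213596019403323705167159052698645500179535595740817084996943533233235603733026437647881679490013966859926909013847472993287181200046844687663123907037934673977729736443072777614669666318657319906813545651778636241598482417392140562685057704953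0246566833815128052044726340197141942582717162201942173712401938828130991974753987370752813901717997057580025512035573614328811055420019898269370684350318287873977224435632796718397195133572870922654795382952572553489206847756806887350511341477918697104688977069142692288776876971953632637519667699472192935932785370125135277127555630180676582674971183394763750545028932838832877911614934469028930648783539144677215341826119547395223457387559619261050720677207642872338931450344618093437965281627464330716968708673247798522552029200340977733708334031821045317766866541841811883499777781683165509544072794818897881749731475795349582565896754949671154174388014987294616042609834638305672466784772474716783539085082565096879210751106760018847318892707021713237490783478897318903794685556936360028675768521988148519931722574051098530343251938497442485870068988662201129312477887662846710578489861562453420671059226474629359213221473650647809613486266459073511853456703317828452980173977138293509295799171706481471753162858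6675203053693102255722492627193422083996864220877760819699649719987770973103315038559464408636322806494450076908902543932728932193607621391666784692037047548851303117392136545026705404681567187053253585172990423928980766100060256111518239174066555308370297807441768621420411178601743697420391339172225928540148128940110883352518421753102925731168840095794616052388060101952283292962208862590224995911367614111610865764748133455320201556493806096966674283655608425667119848824922700754118602096397406275853914642044794786477332758883483160921166716506646464338920560131034138890098818739945750566999853351306424971776944624392377619988075646385294728347667132722402108574782588901337261198151574179671623797425797733093281147027550654537888823250579430977262148952364862578115528286603404412214963806335909406133076717601996324889307367635349969062638387881172748168724992367787489458166824401615350869904762359478769924990568190263005837729751684676826328005898665545806745531771516674552349654606871700478682976659654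7652451794579499495424000357079548263903086707685459485602270868101249375686117558828360867699572966542585385703507843246112731957382344701891940157147079062363446429414503787535812266454281134591249977246030013632729273182402755722282864164095262044849487598382548683569049243728552542765361873918475873883930370083428090837511174533630109428868255252221665536539510860016717230728710781425802912073554291750423361953467451979338415741301647560707318199131870338781751882270801847357822636969532772325545023520070756914632445503536545666702916310535462081474693251952213618874465597252329162762343918368023243256451869919688467780237981504724561087593843078024228009946848090043202759569584849505920046741043355565614251275526412371310752987314780344626274429007405997588125191547289879720287440411525131244270867641019951955995718566763581426508900097021163101706882028322044172093132492742088400061954605838785970767666377102957348357552717729119734239437312616826526705670849554312819508572481762260011575918686735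9412571861658360411614646126334422558581953752138426436007995493132441830110441403149716989286122105930086039619701238939205550500272382519313894003148752172397501908274927973295766209172552912252332138851225229931804819261814549938094643093013258567280423829677854595977270061537561101043483250662850510445736359761808718905818902866078566667364292059690460512083519395543317487296004291878258879509052648403979778514822752177950896099548393463536394127656380951681357267835986011907490829817753444799114970840733293883458711693181664028534883580527802789606480161204453106994219282927415153395696529622307183231966888479849094322063038432397493968494425594987827186297446414545713230878889272305662412353259844596380269813499710089545972091589323303126563690179447433819846930917331597863481323855105104498646292966780278020807046060303575447296211563237718675946694552519585615659509716231610435225035489189714407788634643158790762389067156387118538996599543164033224408233998073343744824669456453430721888424276543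7019956063799919348420128737221853214822889219220901162574907762570095820480174794564823881657919913419113527239967372206124670914931114635582220132295232493435783657931871980158758076123781312611716118144785072235958049340478322008711402298000813970453107844285872330667838245805829054288415419666981697552451892830325631856145586861774434632532566863519439533150390892765305142820891759311621911313180769200087245246960041443520069076520254612238505248657643772517764936583185685469923900578585159804879630366767214845772958054275004029298543425521066215814021337698438110549564285115588186743146385611525068078692089741522389069386619404328662333910644734536700331214240906787671792621544201206908665437814823557581981476190928072404542169290743257121389034136276535379402105561064328432727014234848484669771182974894207603774034329805607824229251942851638568893345842779648581948215977585257361953399185526301818904940183773701512836774023684130154259872812120185118929009904596302719872336635902924777621209398754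2469689858123588965165790678708167970727200169295436705150061480345243733810387385661796509002425628572115462038021819131350475603671792594973707868816728152234791979046992022342470967182436727466612525684989329005682180704795778195785815604127778171417396592357684160567468707511403860203326704479244267516210634814685092119960618412847481062543138448892177746356333527348496833350192807120812893239158552232604360957002098130401649873047662210857653444370363785024904188652092413696883864317921241965688141634225123952572603236954062530163626323062168746488941891870668243655456409678002372354133983131246860088811055730890719933897419419606565017391870866946689037006762598484085184153810155482292654441415134512578326728517179879195974131273673868113444358845586663139971644895266118322551399387494922782047160557429257356502376223978847817189690527248720837069516264777712671229490721215029206901450080355186179632713564140627195866311052489271093191809616901207399958021598522889394782551059766004546171617813895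8229072491087391714974594690009218680934998449564105975573083580339855117587685385172096384739714637840806968174811421242390070998891292322089814313895013970221174050666500403815037094071051621375130550756760496977457552459027204498659734669255565436632477533993889721802329138695341484808434104841484712943947605447819012008281380789953206449108302145991668656649586944747692502519515237824771494949401722030346389679252508352826355699728551839150152783518905641987873725088186416435017529990724561707888486927146916843963265868776198854226995117688518729031300993492487057280812400885427322679297485160470967487939180950146376811938432418691186534505609440338806167338267482542961566583958918257383501558628004111236088884154767728838623254437257573128589155135465677906644602701145143315663316433505758293663893259191346218970984182367939859673100436443289257342978531534047071797616092005851691531098428725003397608798321172461663477376893429177521740257595336727218839237638049664469305588496792454450023641402583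3969957720928312280260067759702799193981021959583612186068534852990378533057860168193022369332802651943150138618417362181812091254806330388409145308204639669065300280211430006571464853465620957998224975053111383207062384500516895833308370211992366896421234711307019988969186119983637990287514905954123095953919972879866733795079771046254377565896083536574981676235028501461972133295443875261606362166014322262344790675398619219793840789442310086691597117334936198206432965432328535155758504215950784509621578103616501681751790175487436559201204528877015517848438938250920448140726480897544090218696198415157748592181997406470350765025224080922192770228174039053843418009455883205869250791315336549424434371538637290737424932304168189930513949558526500301345704912526048590896936980445179483673917117901301691799853222736564915843592965341117339057076072276260412997509853466747347840106652495559834238717516803448961945827074162733889795592346262514418694099955688314122728088342152112473390101399157018967998536099384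4969938499167287142094781846451653612365526355703753049760727950826357245068798645748448596495837521867302359396649422826332444639077795867126450090623267864963508034102835858924547373577997091595163513392003158328570150662609282247580247889831069712397897069281066519295440149116817536722862008381888816316329036778222255905154229891852945614936589559066970696439166803139229421398477403953051235945169015823232660295908658223978258133325893848256373473595161580156494656224039818516202145661565905104864516242392536031173199749787403753949053947841010508251908004784246440460914376336867352038669895505120964217209866329642380295459753784691543479733218594041466924479688662872441373861344126229912040987132814300833977463949892129597852226592803821580981933226825708983420415080384829122115960130807842856820502894284581612997657735774841872643105151596298945141547609235353312183132681650123860903439088517630677309834280525102422261452771027267530096378727609209982272031626523383768317502668192141337489687867972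5537681563799563041202959670478928638643416180600879999229782768665521192440062897529363126234803354684247357588390099734777119813543146502172388555018169587334470897052711203316017558641168293413285334718227405571728774969670934341601874762652657170047894538910033787547821776457684918454200306943210533601960921510940187758355289262617870068749070981362668439125133716521407589181495835457863691428876677363930302581379886019624982830706151807088832798166889039078173555427475440282614333582085984081774219512968941541039050354483672709431374898030853135460746527460928462000140728431511798750045959374954877373535139599105621815238875513906025523294788077487743788057535713105615564163322514219153518712632570771203689453450386085612483369717751485685708856553719539788881393969956548225039795316793422840005011556122797865139512147190310070284504008185950221521791748404054275348893323704025405416029875155610679085671432669215724281880147754776359437289628745743651404681468493644179659919577555252145511382003752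6525946783221664972521949583796429861283893523000886810806350275561444912069419380127098420397888989487589267635687016357301618262279236673019386363050289455420242703566696402723384019161587582779294992625351535425835075047953602266505990130445193119604600485976488350733106002587369157330971188378917008431810676987399200939623173609429228594952801083478528787996965073898539241899984037373847670532217291969101220084058421961080088629109484811827006194498280400827453188626039918637592480284218170602128986145267976104424173953668406648951491283091259601197266283098575439287989330627138582155197130431667056700907457324390583872155016497522667356316538339612494785365928560176994139922976915815034768218934740975362032596072983259783825372580144659093824971550419290971578997416650454595769361911084738908567188378687133371022695075536528737824418766657809343706617757902697520556221686446452528208716553623371047199096000124502413241068155662076823209679065756165889757718556174732471377096171620841355522256232366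114042202624177165835752393396396405116207822195312717596945552386221582720484374653381442933012351440779637322794378462871547594947711624919011119498138595009260161756659318831305257278040761133325806688385831086045082299542976584549238736371879171619232834521968156388112405990149407212740086011795310574174570266975179313683320301239193705748137364907636655141537961724653530779598501563695712842544092635435785328238415149998811993039226998990056042594417012976539046003622242091964005609019025541272443606581679756219699012053075215688380792732816390233018075296270347058201476641302919079144409430691824701394668916877011672209092705142278636108954419010476179456)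

noncomputable def rc8 : Nat := (nat_lit 3600626189070410266693639904924131057427884258457881152904838602142684239081307205215593635009363265974877667801086623712915645317159145833841696728973004731806399570412920813383190999753990144388127760349590475646319174190637833322485150437189110466271159625275436560175479388031658147951194735621390297253635985855812473117732160829079976823024068616237577235810314122113042841586713213626340136174168360974376744976072417745159481760336410031748285365786142357812354347482014462654324498192973083349857973853629742488802777574704818293355422971387675212131195062817499741393546677875378598071229700299369220975979181764943488671344009148296378425464670535099753573496207111730924336054946033010863111023492789352422212537299902691739375582675692163663210179753357420151712303744042738073804482310814416966533702037848767437656609159558390349347239319756903223479714720949745770410869908567030985176277411241927191814517126048196561419923096681163374580979053046622135488144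7464676314483917846772427877793893135361115325927544832576127249710124286549348816713905472820504143968733127991076363393547866237142269419319890265388476369964288090529860960516365063175697532726744150375240747258409074518835184909936846733159077363874222658261703550753748460923243773342768875517392903551632687414348584058580202718417162026859099980598978824167704129429768325306094988352939123788283977492028370687387055561338897594881239795129812271741103838410439791281287341496143534530609356820993245032873269282224210364375272080758714051142942364930793013111074561151834446842168171082510799786167159926542486288221592725582009926528238591979436296233589706064447478955811392387626588851086083869265562347173732061779907821095585385405399968322400237017139236493723986586306451308499739848444752658982040670652258766765368492130533603655011136366422534555600259691280251734661073101759524323242097771887034119585742951558676299489189252836778944109692604641882068223259933191038603348101393531240004968697944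9080366469119320161973407507649081656343274144562330248406340043431423787202738332674218553198131465424753599976843892961790872954579502135714612398124650302190538551492607272764690716683127425899907626186411033761334408829760977138320991338233214268362314394270737761066488800056770564452631199609516782016484863700219560724283842242171969595749750640719363143867412251468605912884550874236116400941940984047709698940638282397929240577973832341350347530075175433752328503465341963214520334475718557890116924381371270042735780492844667344055348191850406692084472812244537066638716064270765332770167129382502502139633428369473224673734578681182617873052444452872023884873085264164022996284221411264675972244590274135158542885560182756244016968034781033470129613423242728216596090367139125212789213377185772928987637543129251770658325981743461295198262322207900558868526216017062082354564117550945640471320314825485622959537101902252800872551238271878128920063883573090906658102804746404333173109037268957447259159940915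7714443752633247058630848590615221086182838373163566952428609360284957363613839920258567339179931118289409245063580188501011437404286388600297653343134834254253795544982818598560090508013360874112334650190366909245526754819348978266446468631625227391255268239551819538530903309527767767403510217315830704178788118701920708999806939052384395730002557142639337959563433924998388308113032414854941157980394481361254345937849049391599941831819759388259475566064478138402591838639862518175390516570652382080231168539544991070437897696953454335491878480646438004994679507032488486126938935134140039619266366875078457423326629094946992314364335093150456234300823237067599704760257737781484785293350457372806361310071384132563973889911993878305383045925868401403167372679177667502237466729927047283786528376786341390912200075265007831644068301815836282558355149417554854740663515488496182433320753938120682833996565919339728174682880521091577147291708616067745509488107078458618128433141393070495108651702375189071665897417019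9086414002267368574640080628361474562534387473758855373801601713579039733325600617998480990771544656656766535786238950593871797965056517199967145703673890376066532696397841111244741310579809292747039761361065552434895504744107160602707489777261670817302893499031566582917577518482892865070259455465101980216460762351826908868208478064122135060509578973193888540392518388067624336452024970464540764716955718490543587371175469456693580471115296008158540585888201125764629288401318386543836433986308501096907233008410717802096200441766678991192318690950592948607798168158240042628769708311138001868382529890403896497586784654620740042359265374776999790116260100995610542179279874651201173692198570133681952315856964004890491316921725516516122886357453996690993930214722852480175833310032527828890464095190151486651762006838239310930286927582255487700926446474468894431869401802791916910010013133912431603509038731634900646541812503989523885512054008908596961156074054676959056451099510809194286624316801275305690657186226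2578741123761280811000018858389936677484522781616685761585343311511165125798983664036631971814975798501174740531211764891211808410267589518756320720332958530596919270002229884518578528578017661394705371347698335793503263888484037435924516300883999278188606090277074770039487571580888853004208115878955253006852111145289662632443102064435166639975329218575705266266451705468824701092982475092304921309010176090090906934879717940787732618728784579548365675911490079550705315332584963487838389186554874198992580172632765806629334551512099667306002546328145824676368396029347704432012368033467188610215481474180447416950227216499434187244430302757839752931041291947265764097669774057894751351467833252858166990552177318195228752066913949688457816289574100673374319987182792801481028403647661359635231475616094979230394780001727306743684945474578742518898824814264759246728572790480817493469692349730432830678754879528486893481316936415431615865665251465459621889533684928450177663101433983881572636368248962078528503858520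1465713944273858921830672083893180891243223719538911631916704460980305093994298859635848999051123773263566835104083895163994804801581314623400939981287660831308185953793626646764374962969660680792183333425935390411185439344074520927411761824227754249850113220555252651494782090443615585634200108821826313400009171872104075448152291972777731380696173116704864319557238250901810527523977328243183159807870120084768018110896778731059484586439219502006391535080215270753410452556635446708048271841212590010586217416692884853320848414148639988335271727560605076307645429978912463622569586909454318887795735622544944324636315865409215851462959659282268259325341822655200389753873285936964002841002891116817922412935644955573312609781471020157166163847876638008604146731328083079286926501772569216614834083275933559520882961090381391502243154954150034629967309364038875055877947548064581784038140760907453335238089648445728584199254690047689354457615994907360648685373019688909969277969707587360832145023873458456547868356043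1915867425662508295259919462870802778223768071617006218415104470335987917919614612947317625155588434662375157770344719967605508573660740748922931771319559636421114506048616212470726374614646841236790161886548719152222995233888063641899518014205076982278615745374992568724983916696502210913935097548377643000195610341271824154750659834714469282595535251802084539189980657552340294673269123627510730112943998007941812294206229606953459246713067541629071694080038102483405832313776824149816966116472588234090802957418310658526421686956693836563187721160785712225552172963503146675543277238682895851373761331456801883163019331442890672834426738048373271006716962741269248766329192709529764189297003805538928977810925148752186030449734856365118189811046456202068842982016977520241999257398046301570625370674921047541757294432547871058470796998514970736589333274676231790430401046482403258501274113272434947415141635179298066572219181248376194943711911397009390173623810376008620731010527565988205725626042536286754792569492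4716503866825761803591919583307620834045965695863626636963343638967324796469326395579477396230611054898323617739288834620392074859580650960711955092930800708334176582708253996871768478226978865652573471773389680626120531693621914356404196020940109039062956093880245231535532374339671705355870949524634087522721527529734318134153649875426290231572517966784161441273044410026363449968246401294511400488595562560721642058995472798826661990628002343299161358572226583849522696961956684731447532603686909354627515587245572211114684557546653987896462699598657527240281146284641352080797384045175388730113678453062114967742421886947469433052458531213708315858898350769676642461484866438716107825409165682917625203238922019391747493191003599816406528453145582102542688329910878227265284890807743666201512874328241520340473005336088771129174622803733558044313753759481639259953343920812825453080426053075471142424416377656808359586601561200222783039077281227041243646756129812512262070186547759336550145881530687225541038620986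1912853013173863675411058026890609707044972893761775250787296780709541408601328468216846622757787629561636515268969017425947303526551854332282045516280654045973542296313388139579237100159766036910231387450754545756814618645188542016031860505501780453816381525946350043328024241400049229771526446852263564061108704939277194815588235206376073564462835339964526469981900121131416849233818703604448814282425353039927631050217709728554835359476518076541264196950698658427834085686434905533549064163457456900676031918089772455739991356349984576538227772410807540282464894312177252919101898018236813569092635085821981484012341302192086875027822700617109335279033276361680133630995586018451639418938098321713229166592121765464636353376781451936896883071591386173680300130860212378229840793820388542114030712681954864374057907996027569907814168039028031072412862387587161114420093917206602877937807519005728034924689192095240844811687066502771862879758129347467907124887235404166505515370873323899668860962331911451700073260642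4689421194688147113731775617993537696077546869357913501709778470713543877678832693627795903154157303209254698073105199765495279530526380443073113664587884855377414537383158004357447057547770534441821117264504170248045596031840090690305176025427130778564418023489266136008928762818860005275270092774898118160253950266440533942229491355843708321083451489425465750918204204180493918543767534101999928852380168438115486012206663352144565180662576717817422996811874530123258588443673152528020281132079866656118946963497548156201706442762101616129273507300614566574341586956760246368156388124206017299583541053373579822925251054205317054354757983527191270238345967864690239138212234667333175059550276919717909142570501337823693313026603224279983416254323483871789239308848067485136830746292668504836314761840600944499284354258448495557857439225696210566949768050792245908682198844332773054349717347168555557210549870529502415566245221100115273254780132140067802460610861810935862587205524816761672100746781879816266123290097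3507440458114234563746624678048854155865223518931042546613608454598788631421950037053633831364624120682473054414633840712935681588000949023551413294110813191073055083869016072155000139105087271738866248361946439887229701284128540471229306644723671500266754415048092838302172818925025107455413837276837590970267137252054198658245290313913189914170075235204914935253517191956915202897627000669371308779982083790070237238164187702780662075377023281765148183430926412919532129810881357694964861954136995332225021204374607434039715876784394273942751323351965917305217776346592713276040940888269107881759680036360348548854519257741480846336910754658929526864203987764447524645882330626504524265607989337557427846757073068253702865044628862055164807205947109028359926547124046286269815154828026260541773588520421687712315586234642445020851764531978138693294308679451596274593383028320114352115212771512737897573866218370659169562084972826798323839526699351735745173440272785238455507983296142613318881483217320996727295952999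5304402892942870019681360909781998220746526045663782998886156529935059792231870141634034525377273784824402539502216359703361159947760220897954017723254152291611536350479957828521009910132123403909820536312179511122197784437243522125722387426776584878643690781523032229038362915746667325203071509893571699801350296106105850028946397479204310862157056842635007937579679281516001510824060168500036065038716434801058494641171413460875073594987118543930808063860536445890158456714200081807255793437999995087136331877345722447088939535800699931509263202383765120250181894043246059284301442532525138251590731208857113116945052888887165482635656362037865769639110483795216607886742423813923431914465502829564549631055714686220330769892662423860145796931440846238514235733137983249936266365228893173922874500225458688336981155393889067067396411930009182060805536365766218116734701879325084126625956993044118228667527375808624472283460000482204393569059736322222805205270861163578586471128827949167686426291335180185464223444670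1082430857846096031766369849293038673831711344043220050752039321315401439195875420195761955590641707154093544862649284883174190673291547862228029930814767625246580006939805518272916804503723724145409223831292591871673505141597433351838752513876538567178576279650377285095067696543728270637137009110066409781887253984239995713092746580191794581618769915030983315130134692772660543567189038047827505732705694511108268401326988830314260317667695365481385702716751476041140413845392465198587342205204730005573992033611132458827014317915030358980845845783560792219240099627378783017235369915323012630004745987735846115990813914223684992039680502868037438272734440409495229086776257603317721866627645897757916945656160992822624673577635183088602882714136813029088999164283857132615534432719315965516761906087898776302041003574660178621402662858099535556174803791708056261825586731285933454980678559609401102435776077689948018233407604148866896654186694363481644623196395151906414251957519568713322388397082352092536423391301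7541099735435350674356284456088106714453500073626363934799905552340751915716347909818225339458532961958781068828771831949773549599524669366487790230970886680945836363536478992459180118201539710047313749011562582213334646077465316884455827504301894734300534057351546659391231537177354222137417946431948518998276229344955827105508920165631388783257104767441273829658100352125035557975214400040913726891812745538106671877185078486082516633310832621862528401594715240413409740030575568411931537419277507440597713934822914250209923331219957362001887235785046634660841400236068196997637869300568536189579448469778868019274285151455231130756680914688967251218302373006877790355054824046410717054334138614123826190591289123033327083333762921849580945244013914568075713832932873586189945159598224611164635024028759777314714375242332491833068217629889558257044677159129449057223334032929552985559055926625122736290236080637598281713622174315073021491658560163885978728651457806728704111185255142259885768644500249983207810708070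2174981120659093843785007643820497533201535954259436084697484434897839435787864338910597159641730774950607402530248807493612309333365237914277546467271486479520289204571512660212210305152520226088004266686576318354699327872418164996404466174066022626286202102598610402353179214777236210258684073804552579112944872837391035196037698267896681835155400041604916131939716311779806672170251895774360702882873318282345344334028619966270540410449083187282117393148230450372953097665069062324185251968821755491476218145432789254749582739863938118776390874604328036046385350612233387576685991004461209456840712593828006800970820390507142558627836359329056348873815635937865911925555759801126464798589729650350474240179601365518762063525607313171069532483025880615206605177515076675224681810964423712613120812966310707873536257527145758471405057033849866407227511622613838106535203744444755292789074960336983190865900126950405357990195391916212704382872258075473638231994288143579023899267681208130750534031821691498559733551436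8147990170882463902471248982045987997075384958528723981043111340165136041572653495517547635025129318023300460453440668433364118148132130746102411504973173712854480417875131821996545116887206514663800962640100947198343104954519693828605517258792887789481985600710105289218919661361920013692161673131320096358755138841155492771768191210596480507243429639469548707875950245058606357517586701905368337752013483968938636437001646804294634448056682197487769997307297330300016391521742672357080304263789022700711966770827656698173984894843558626350731128196000324181301249785164836288262476924885290070016685336847277249973537717744690116063648074477313648800657374247245382440766550425232240230626508473823758767837316177711797014834846009819698408582344285275397735625707638941792762912859962947391186558631439118437899275678595387723654793026010499256346088208146225500208338347996096749702621714907812208417297036720876520411813166398905036170265670399841889395788043106303603472609367203147436379084582313988038109227215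154083625226980351320566677966173732044021020198755098480428258271848734976753269445469435829427866734583482000913543674031569394018603895113179987157423663121662509271846329485824988685408191179868210276499284578067624321927671763073807133927515179538421304243964056954481068278839726509503210617245317562919527204648523990336115341005919461344206103942597583265349335296792763433421893086525650551009522757720421947701343912674863534800849999668487678611019711343259835053944111806839234951980023909988188351318735462419064860293424455416837650098008361621682224317609438093058993667570563674320195833143351742657454262864994941553829888885727749348626849694545346560)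

noncomputable def rc9 : Nat := (nat_lit 3607517249815982923627120425575748395805248521786369482319428095084772841773108259393833481618621915312537466357830096679099089642169175669161542188204323380910692148975767648054694266528899032248636583451118234257897208397347511405710849742005520472059605637651985844965005127961785951466925507958000466852225259815179757856057902557184901116270600823226476800280939741595914556056321190459608645048686577977135239396896386523834568191021030138567685504477277713580548724696557536540942733352324149244610018444509839368021318434792059070789737553023369403844776184971186340691781294111094295381605116598818320813205404433399239614484027063322869859086695372400325213744258412483350710399009049679308713850368221376303390527847945671708559049644883669999217579505066158370644260566917508827146575504765570005008771276181399695146902773173360894176617434991952434545227218849695454262994900684783696657323699991772776857446624557711528494169930184992712402274549620158708763580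2129422594753427726836982323053797314067531058372734809067514260445407980574455084777021509159499368166786492214685373853609795078512583502440261277195952764734130383718133639358049488578270652711968729146145623218213318792074945958192939185680982537098724268612389408286300562827228215400594338239511310526300871594487358526237951342853844456087891940156012268167122725550493513930242169422908339337266524815302590533426075371452510148420847425554127844745934449604089965372695791270232070386696067225915454079244859493771040033747520394954562034528020618093329711925645977640713899651900348630774211902807538355921880756011057459963472871233540941642949084996017057375357181055441888398548746570743331589308219633197464894211405944152184132395161763939842585485166601868526651867070035259515701590300856951162930716237046368936481445041720344767917113674086333192001135931243533224276238014602493470346229310950479647795202368664567686602619459817522547598210294546069894249119124066117259072343952907198192515700659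2120735496819048183176751018315119598714144560481951918882145701897152339284239587692890718785536094173445897088766069476425856160746640157707499192369852185112445331662736794442047303232026666524040978531504338934993991479744528523703554988092562480133390662287191165455634124795049179859910419061975253306768694918692699080538609754933756368101923619154859139116255619210405578417986732820964806875293139158392808866607711650913158016781985181872647190677689351899349157650973216191023673596014885992821140246642730551023327407481015481193147950783618423197256153841741865198392428158141645381230907919544022043996049790345277918731786866912414295967360252548620645739570796160776744548329556569824534548880928081075027395769003086397870474728321734851412735785391402242812379664348970942401813985540370859730114817499700944762432883752347872397157889985507472684260121887612976176123909925998269596273369304632587941947117665166854672599200294837109562063193641783728421727733302175143847510043456088083672017934886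8533729634839803681494749575154348103977333019010576960735144533679601272664431272332066765088460539482080034157473313344912041503973232868796459229257769374006840988812899598609187929344911392571633842654141947806800528595680723711082054465359482789222679307055956716810204247766277184353981456368228295958410924884835843399091032032836624973721748231930898577922589530745885142295942053910577675698766080567716935835338127664798638347290010977708694441205590603713711700501520638196632737016755916021742472273565391092611416460562315881995657398841549687693028300905819876165412069482995256668654248057235739473093328031950889733726342907661058027206470663107817513121310365142138110689352320944692534474579846961344628969903700720336289980763820038876681404908664814826226418345038492514431556772706024715262824866048669346752523051820150495824720139148330566681912923615507167932713860357557608614518846675091630697038175203780055526424988043316932866752773057363944316819476636853015763588257280514269075885234561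6756447055015131666709370572203586300050000886313823258993177127526930925909911326553407074498244316639181964466314883796265912197135761547800956551039183120288646902947393793625587124334507066620145079934339734656460647639485752931255118108797999909919126270256664660222523092173380927980903532956382471451320254947732422005763806441812302224255955114029903217050146465508453435458457305815279115567166454680435992894218460235158130262766106288253136916562846901860980374982938455183999354059860978079644366947901032736592224122719362954064845360245141040031258631793721398939887803883952344957153458754035402407778877750591578302738467197997717886695476571397049273944848180578276794384354333650075084179266323879717905859301896915855230022435007630403096765805502095756037443928182189089854548401712351362685474796417134428141132910010308676046696473857227711991783436134664210978801877947174404078464642580352772319937285525315741359537170837622356148460342924225760296342575039048941672082822822094509660759597435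8865875671056038303953017567385600858709618093386357460612420788974386104717212531856276706723204059286110650941592832516256408879018426879424908804816646061075569841816348393805836489209000373942791379922874248931482701035188133709272707761141515461967427616521824526663156676611839144190866055470676138504373157105587369852159846588703947572033876303226029750128224795146960459139220850138615543055820361827789418499035714708154559916787344708370195752352650958836843951379545306939851918964945360711123101716186325157311394853853723847007787031310633574321289867474856566329452531268441119989442818855356188971661357828728222719195775765970669351317395679694806209483867922916570405085296237576653018158019741143319226079107685531835701201186521727667295982479608955262392300555191655603150765930138385415851049725110670373074488993338932009426220309612167621068626651772286461564340341847928495082606268506854134576233941297969821499698284679560791516817263443076392528499230762807171506822608749946594631767024449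7718749731199169297469123365719223886463334484025032627847499661602285636912936978245562971503530159258141770749564954291036978439029542165004182523229503972142299063676167990808442804326977868034731757061697373045824470574292459777047944539576378550341368677904121611465532951883858994776164639560793756283975487711325858710589294288539705248733618835037333128875529660900625197792849891389680830096525167847707417163365890512425284374806067095332654111356865846289726167161590704545137835526113645165888717233457745009532967904868277943425232618186062957838569348699587239724176015692913868419941786057316333729391227465309733848975691252400265917583556492228739144773318555646445435752217615654447021952542252924235895726335347008121658181743778736795178381048470095969782242600506449399925890775580506895188910887029017189653082865376146134052114661738110196907731585904838842710916354663928531648666526935229397546547664415568508135401648447720469754403695231706662594315596579926990834348058500874914129774269466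4770268355023577347894318365576750275784614903217691912446219422577822544975760128452084637689983906047106449970744062073348667566475902145582153206773049461933655747986996078901840815394919575208354953627862218715197615059949831169815210856369668077217670793083417674712178820220337709752816636336792763104392223526468745431962206438826307638566084350340162877134905831925419480191313651259312005715704528181456208430813544629844403919655392328322599532235631232439163668108932592819907489808593366871061926442616693016143255160204716612947585105153115030126776395794452950335975279320478011891951461690939222539197405957351570043763322028948293487367678952181992682253869037963807677656588893325294769885425481134914744354874010703140035698922015720399854273224072025900754149432903958931684748431446579335195490050083599182204237040158704598044624473294085473848760220968734546409448619353421783362149563231207048888406223687725280990476083255791445068535876626181880078523121555324982412526642364598819712898513918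2359091321018751023220722199272360483295312957682465924810267551734677950055199092767976586145559320101539985596674964057940097616180455810869926523841680372893134056388773509732036247725157534040499605376128220731840447490594984720217431076665439815189896427564090364630831418622521232174782268196617125885158027742735024051307046673106180390305102066582689957875969467309524053375688415915103619722053442463132425878523730027834376383520822381473103093975276386166330801568408458005672857857578915765021140539468996437826973803993363362312383941400677784392918323864969008787107875094959961425547343606004432017586196955118780933777075609366714517142617120646122727935940159359464300862399669351038270728974080209842109428630230364865294543178217655454017068964090044281215504635052722244994079174521034624870039863099723362185955731302198658720358667328370018529973789037119445706156036536134645274941172356603289210736618854254866691829558175978882484987863241490068898818626336347788840531806659313687348153820421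7306605757841324895772381011605303585475780472542742146967254027909879387899372907049665001367432978587043955021012705725901606774824094674870894294512332473707746726483179923585575395469461936613530391947297144102024895587549780685965902988416146843066230615890233881119979122883159855421526054476669160571753367228940555893390124549209025683664102629258203919623378147794411046938769065413965969527929198231208687828318397451665222030379243374383706418774655655175662725203953533288628074982466173725688717089450511133761608001817713110198684680810420177204755396338130332020616058380226427263996151908006063577402317239910088710693992685702388591968318226240015102231856780388574415576339819877826440900365586237419382504668975642944907383217744851040288428154004514707968888810381252694548174570776137504889834220866971960947996938636901253365271745743685248431174980131041983849584950432131540272517906382781867222633191480157448900824021627473013038719631203691725926606345969665288342228645397421522313294868303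1204560982864332434867511701125936601941075927465183403445605164993565255039340024237077640521251970872460000242861933380319708002177736402055902505570158960088486663827582301396379890586761378235107560497096782538667571091805305104479652340024035897236726994942928979380803976291407867396357529035306582912128747784364182980478668020078835060668161712289701020437789058719050821091349130728175477525955441669495601685028201901934461853218384819785426701561198964292098998795808409107892069025165275168508552872924058429461193591069301021271216879625904708824505298479227704055669620478922614770807703802622753764802733336165279250471839362680104201365420361302460238185841795393577815378395511104150510669055017390635094259203281650377616720598993737884134996607771311434933029677530045289508871374932958149067970465327965089042133187106731006076626758634806406170616094378731189596297737337376404216017021703545892157364345086364850880053249429345605450519718645450290322622276409989725960863721552645452929509541831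4785249445947629434997160652421703753492747979845870847389351550178830578549625042436948121634094846751170952013936436191779123613317032645596920036820750786196698599672792291438632241391057937561710271659440467764183294250571135960042321394085920325759092363146227286180543104919263919115689203452675165734088936345588046639749385542884653424578907912210897074711703221354501133696345291272487569550044202446467165804270069240977602466854718716447159329738703629245947884642875446661977899315874338791977596144967015498752467495710054596343636716398943471562166140919028643653814629168746680237383636358084182145049410387419266935820327704097770314359379370539015506468215067828621066419595042735086982998605158598730988173289300668463432300276988417968258898039433958127614370130877224515014078095912409057003693323266264877284515375907263049625789457744383023037221596817059659729606592962069418848301192682936426858836822572626146397209840170265395033227469919326770670292176750304243941871008111098906297402300049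0244609829331896942063629409404909172443970793348583994882145370552633007726521340612302566995980311536242871315942367703630945236967569304012114990396894495142231917528567348203972566898427707098738689140729247273142615410156089211715826160772625094631484073335834763839152816642069432490826723779522000355925866658219134408774366693291331194060947321442404483173737885103614681588929849406663567136914337128358948225524364249203917645885383829413240112104884055911721722842710039288755707301414642459382958370587964896857523214712631751724614535261398962895283923206505058626027556270178411476307552562320967822774174209213974755638816617619513612743304846429912078719153072585534162773582246428961760894855876675438006443338486189876107076853926604923522366940636140349200206798858857191273072980884476744521750619582501161375298553731881790229732389531954334372487392796911256611206345235940989520075366923808338243464543825395811902418235370285845817188789160421365094782432676535380626334737090072270652628996990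2366100883147197727233943017485021065954109535228335196652165730252627444248101162458017878931330712513504813413388368647624858256663252945082416938700722779663998295757018917623839887047819458535547401016019179789427787249786003115433634329436364257524120248873948826681451538655698157860923449960721603181034479926076256125468607307708670468143253936975571200666379338785451828526545564266770540913389754763722160709172821808546206754678314486395187546704057034929805412692093926640322180680664533649874895548496366028231843598358716747510933503558047971029280811361109432803234772531146749905888680956549651317013832537930455897449770377392890371766914531948164451810848062824856582297716107290884217461335333854273775494421271318763217651384037037486332315806825319722269441982650293813362563330340735662012560503968405964399977381616941547878997576994313706031116758621379587045646897838159170413772651066169466329960702474805751485209807856382142058569995497296534390310820506965262006521828802988935067750756598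0342650856945218732444484528628735541465037567605262615825495978199553173216227260860331711319285363141881335384792446411898397134092149052518521632024172381721442445602628927583578111833250442919289734045032481456396830987929317391327072629595875122385567620177625003349743488976470359215178006409005195455991527325856950566656454250631954880668886050981987831155034099344559140472462828045352023466584026799115922871597512579747107933255489598669194361968745430747626460536670180024414133894390340823465796558533134728871713585872374658904156040887117512545431019661717733635761487437056369627823899033345851511199764620172933461923499451521567604395415014081382325229966158615467444315826351723781933735766074324741193720682827060993628539860850157011736259785158701142366852885275033093380944169665104817060578795423038437673718325277135626083994749574759757286259242963748943892368088839301829893770075956767362952523305858163035600409041518307842992586290849530673901816010002133601757057204108315831406319002329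7469629748854081551455503228159245399125580184483177547231067642699499171779908594606652117165118272661200347121816641767365534719885000086688031302828580420990416950967136544054558648319484567440860281477251307842405842975611999812745348848507233788449930019481551342352855282627834944086938194652181491649970610188156620471920067221800138901317837556413650091749771776572390600259995499969342280140645730891737459163351906255360740747551027852655208500768573675063919655154923356651736806098107454318486648369520769101608307542257982715722589326553348315932465599044047972769252339620154826951997430672723383556625843628234662535883445576500348012013931977238539383307526776829903737154650259925291323020904621904671089941036535544268831578756450291730375369546752584223358401689140227919531589749179579583618551784589134980284145913528140365800456148693918895952903026327986247922670973980229948339258001091331203651985743703316375071678685648069788851242849725475773555220957626445619729871940380427303329796583657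3011016722859038170846093005512505934038011019965951904082585532037452370745782228267247601376104588795791897494899837201498321919871475928670785125563831854326558572896301936195454107115606654927238541437372045245627175026308607321262303512199653641922567125845374894316053224488449523612583710603026120543129831097270728085788828951625766715362307532807398132609618689090866791910480873449937408734852620341112140420520071074293227734474575216914042581724463627129869463508347217249975876234200571276455543894924659179295157491244490720994472418961890647814913919985525054053854746760662345564658367143644687460425072936955368780187091022017916930265807192964702961400136716012378662887971308316252675779644636106346050188456952270208112550151135324672118361937271613767941914292446076386897939164332799740854679307700628620989901731400691435288633860889824593333068731408132294904356140177925303963860673941272212554161546171909421029062564179569196635995948727265623882148563133348916220294706042345095781849844668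080586940685109902574074793893570585494752212545693406133042141251609896090532582440052023471635215074249997578937290901583631811549664686223719757504584306507300548613147445659988905225087615117386307321369394014496524734272543277828304833013549029881791982563747304009330527849340261314686839319346064162507181706406519856199369914264829802632506940006888634525768528660246856185514712128585355870770361771299157842099478272917658883811383110606925640670097037912103046524960814389477705400605750206330176339685446531328152689741638074445655382593254573255496066952377138685286326795842562847671963547374113446919372638239149893234666323057232773569326989928034205696)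

noncomputable def rc10 : Nat := (nat_lit 361434453849990785018211150883878038900613296963096748537242644488877966749343197293369921907370036397668699617636756359723973458162222702247327016254747055471098150101616357065443363042589753202672515763483803451475473117147309093594538135890935188838883406781370078802709382495078010165598357573935778388774229921535678802103479595866691481946838566127865483623222083039027488635266333382952113607088045205233068920661511753196358047012024635186661975586161558533650536231839541021179989094278507302282728988272950305152919311745916223975910157314196994579753737421794209882882475519376824456484573338387636828190165054121350360281078191824689276640256416794826045923662236690964173207140861278868133664784383110755247572896142658546373582933386048323661564001408859197575702045621917653094322511528687455955495645608413970020365114399893142495663798398131997830177871961101116556141351586896660564164816952715410210250390830859622579784643887750532862849736772490722923218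0883440333466382039299013066957790364061188170030657935559562860092872540285667577842114545748700647058937442065834498412357929705681088083391020097119170746786292458822746755202011658644500787219914515127346419333839060302796435736913875511198594315590178484450800046635397406978183519647455877013643790968572851752218179029963183311677265855181353885082048932224043168765269996814669298783944080518364886567461495057918171412335187743460132804430650982385686892445939659173018061245382263749333144630994755898187735584004397630351250587560302626911429897352928117397315817883777543908238573966841968386015194750503076499318438592200330700529160644564819138091100647371685310589951201382536914797480899758720653662823695276129966551641848830201365811518668342367502866602135820662466063639147673488616787873066202682052753135883404524361824803304241077985526347029731481996303197467867252843768202751523220670265441068706589526058808668778964043488616638362696937623372911465723738190726830142814859401172957579913984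4247183100213026381373870811360738841502042460246865746924331325053829302001238427074539115317229335117598039801299558136609056009199160148454688862987624851570054024675684825155140250638426135026866800374076381243520996163423707271085263340471326454710936952760019771694782898816263376306482827741568686291275390601164423686480469789315939570740324706570221394362742239099853799543283396340124091231451882864313501464864712472114709287507374227500903626153722680307366439495151630879919415278663201699451134352246354943774063694876367753218736972488132313557376077858489933689529695195993697007949994197880007084044530257481888559077390884226671320808012973836906679525740494490895318743647301924697143452276744972380652766648467597817968841772299519214133333915593224920766344650628649753456573894811813069366440684250437865143422644310755363593823619725020326170181562081026205078420003301063035643946995216997619252967483534294784563365440749854853252965507013201667422880079686579926846687748147365153060709758295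3254643406995641371114624501951122823772484582720187047949960113977778962267415965617355822066611893201895722894583755169523800612110682179644573334348497519252060895743034345426589262979002776498323496858368510529605698213637241241217538379255707685047028559796718249252488130380927774112731607794023538231692637437281225404185875586574225652905007954433078273306942187873244131513485031645408530687219920720083326201972515775445947476873074967145901152166267216050064175592641139970049458745661446310485193547602933571518424007591782613393126572450706289048073577509190700094078688150076534624828263584485657021123768869622072850649403529658548105211545263353131952227739157227145003063333546397056789644060670519808582409135848626008956181593945590264173461609475952112471297638128931450316535276826827730956862514327630629825201423389538123421406355878400187249129891314028762152891466906355460734549272411774406036263761033933204715840329659966578653323679824785678854361831301671375911892797576174089981290462055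2978612702724651007095602828476441687436202992893091605186700819646671727996716502343488357273337513301510984463176631255032527873353929686000412177057093367411788299384982375374113695242722200423305123115224113279520868497359835545622810889464285167906237956158858573439135649601683337011424207660461591447771218537631934887482484503892693362245383680795714791854725116446940808813428801732625013814918234774150334831671385641539594721367401746615565022282896560139521278541770103100248936268734116469683495718412809112879762429861088778358745368094893093469737790580912630705947274641882248771581426101844590400937537307416027019549083160671947116980259145213782491351005868336826700872129539806754590885490525480493358317412769246399539800641510339688852859079580917310184745371368825946063186477122377527134194183525137075129921886499722084850341002967880092639911526896684603601730994289510867004968456733179018928330966857911564734845149490669706395190942191701202857741327069659807126910122396404615196050030276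8275595009128554555003542735366133087061325462017375202017171566068148745774265576992283717306643030682198431912955223224720087743909966488862828610924638179121231114566394453574862405098403098177337915456994881467204449290499137115393920916370238228759467022012765721105445113244079621131858946234088909596164323997629486264953316459670134625552124566343444391435538706686114766292252932851475882480943347086390798388491660400668684124280933966895689370074948687853595266441113408392609388818101272766083718030347453848881236565170129245562960846809211621499999551428813314882086840788724818251963227422430333178366389422693945209830230960749678434011467057016938376386463508635836046326298270391002379953581041377558476311250992807243492562579751315289613376481323991579780186920103643694334760165642772010700370206325249061154119237607014578354360065034793138226870007603642289146093861581992582985835545849678151192696327071276255820913636929322011737332150291078354859942284770948295797003798757852306022949707816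1389044469385773870220692611874109846581216504294446216324034246923154783246774657526562873268684810609157078677204858740439266164059673813952045675552360170384501031971196107838929642725830587360513834948155526483840818189549461584369413469193393579584720946552386572486405167235540187886808313470348166563751352219284843411463320964129952915541081123758984197665484472297202533363915019850385030011203809179033987584705001183607256888559121902365972027695570780610506391838431002569726896710720129224985642599260159246386784249531109065611389492740746526530709391187183180478788479079038137955107412632364675764897319970408814678468377308751749851860036585575214959003835232235488482589577965404661298940100953462957483427951676956768821437093284397587460451198510291357237084503501619898459114423140789100311620888760624209730865053761587497113453130859084513561010850549062141026178510632554408757563951942968104119698042783397842711645253844211576337558263556713418786749827191687938742774232090723715181573612313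4350213427044475934770017463642259535491715497374195640755636622518682793433172041239774610525876543094184839186952504042028359556236052850869064529398739489833663185897384295933354787651225966786167586382908614488161476805001959800648119409193083545532503932303392343542953221084931740705449645363024731556804904890836974175354836851794829972308820368876414938832217568461014807673207113653845921675604658721912165480749983821744421129858331608833663472147815823139917416650561781693270746824276746161713147040972766922130030113824670890593708495350109804356245436980633407335666050862932064291592026706371322980036958490853053901586105154174503299075551060772120353390032659344312870194881382014194083952657878796484107735725300334495091086015081845576125574229187757440269814812148149181498160204945540416483403338980620004836072928241266922389825505162927780116413912357126496579539974724410478462725848440449645636606383727599601893813250235122823884629024400328547571742149864480647018751618851082514866163157719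6434824722615689895081413833284708628553548391925090424526339502375060858776516855689186753460420195422345042260025911087421613685121294746379633765663085350878531175189593166390613305289384258435846892430705496387182944619412598173075173736400788509635463102301052962391771132605969258634780749449614125373152153677690036051120265882480209030125235239699864904691976734415514108093039712851372294763503726262244068634835579583315099552465624568845116906112450721445751267232213876033220141247485831348955525560163009421407609263379358897141997036269922737753600270304393093053249737792929196727894596363192447295608724256564047218731851056664652745804973072699083050213800103016535643676321052763776739260127395111804201002169932786791445812057140396883933619892486568755195251466234241213732873560992128404924064716882713538266186188406670801496677932696618368029166467877768357697206139352756853575688366778878397609818108801240309854352322579366274298214170706322890072229757079174282929497015293575808780655479766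8003616188168332313254635690551613597788698821881303611255247909040469437647333303783900367942975225821152159942297956784195169564857379828558993637377010941444200543794539770670518956402335070391512751097708162447298411720680033251083214667280237533664749874165947180527229583203620519891629165757232327580511894085113703060832580657697027490599631940011234492346397966041200731716143599770376284289397447312985217967053979645039322459889627788158910152859880881013034418623770257155486904794028111061548152500487353488792948566324378516934679319603205314431164863575197898352471325772198419741729447041670993895340406936387837947944166846747646475086265107820274829630098832853973764501464135696273791500880536532507634639269469367184143691051030720341262074167027537846565552994332986147920340619875200025126283700819623834278994824610602955904878727150015131020860522722019076271130052378256706808029785477515948198875995996396896392047949007499087054850065886201858038196187314795059594505199368684902501950648285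9365451850153559392444513245920280054511146846904376749114982767102258591878452574620623439668059854305257728417068428988427449393978296742501862141385896363531020293835373701163999888885630715272935981552559667456894037591918147877345224678069258792275935545232361957480915486472016811984660741006238627483699445895912084538082716478706815714961528431230955714639567482671549726565365165864799904624731990487154451168609665071696197731025865936029390651317980159795017325064412233150731354624752793979772567306644481105265084549433804773439084049623197673681682140636450543587579660617987165571602796122702941259705817461522489438885159706798109363352516582981614117850576347889791831494211402935839852936979600922680488320809262559355271333913450940920583272463689913752797577325136469304532227957288850591778596948895328198037314466835958164325342481433866826711364316609305595565298550259215620197536187240417423655188891006009293983469580871015012059127824634483886199480220683464125148333924682673929277646974416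6229516760399571247100872090305169525607286386181286014416993996023889887207928328209275635692227044152296317612899791289130568516475857305440020909755505769733350699798502979668201974850986156240106525870128220702416172577098887806912396078008543485781530590201680371514468120715201192939374648212261525113792808941759205863136920078937074761200518484163863609047735481715344866054603627526879779704465835050009805422596923704501149386540003807542395321602329269001433547186073161717930442132761175852423777503355374922460775352476715374567070236973405176767938851868646238303762276033175243676223210362558810061081030387155930703844374284984197799216481569055027599114595200720163780037396348201463353153343986520831708788569854648721356454105460229000112307138266219427413604175240044325574087026712240079136257973975363539239267309936338822174853757597113072516939550439541227501033662291267290346729447793574949525733367579787172749309653158697278649880754902626271869858156208461375288746382624463510597430902316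3996125924857668967230406972998436610335193197814500514331970224012171493247490227063704871125704990207590214660256555184262911138934512748040268292615795926050054726377150317712661973499645806635163030633786817303928646118918392228581105971740946325215727298695555303836536526356950916947027830865686032538487777148356323880101397574955572826492128823713764616698067701459855839725543717388501883801940423970092611102943125395197123204799453111336033803547810618913188202828392551489929574460591146140013653533411892379896544161081830499561805206997787333675623279360911019003097123052635142919532287813716692427671940423321611231665384608558922766845425147769033706618540716324886136701473248682048913152712341186570027218637087273341067608342359122943397232606862430581521267387702111584492295360065129266885891228026477873453341535846045447402038970855881720281806661643056343460436664935677892209234670086822666165225557891078732686729583097406261459471413434756261872234473252780016558915010624388036984542127302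8283961793502563043620752698307815822904898707555956001511972214320315878871939301105895398227705399294554190613815698476342263127913973928788631056851446678992222722585115435853964443405762001083528364943698811079171170090468328820825112981478707726891694522504643281470971533093189687272640564032386842865087017606179546556637943220603220745418377701649067484742107275742953369737576503751811460081107415216070349171908160020490971957421169268060997825105514729780318328305066059054761162543785876759350550412632653341695021208512783496125302419963939809902994078232602503221652083588968584372822264220083843505051496130725362954277848205227291972744003053044462036763882237760438846935839829072098951266960182661348984493279613220033998345142113100800455267208960972748726988041958416964167222189861288320964038566089619917635402544561363411433653817721879009999038039968002539430566558658221557440071354691175675641466669154487038682405083420681201360189608057315703954903008642155405257174604718360386860830953842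6738245197940239826553143584644074400602452309511130582978360173675549622428665826249581250166105838353966766457312545276063485540081106816825703892100359562100648934286614680230203498306854979582865399392083877223535731570831253973563489530839902669807530360143350281549605598916293374258948208674170437896256614105419601129713692711752286839193698643774221642873331541105594223871316178541767265586502663144486301710882706698508605744113102342182636241351180509285282398107587441878570882169918502506248250867851871791832955148711097061057335625057417471932521576085799257422831389306203005483702271325216746862471726837135308137397285016280699564993666699259347455275926462330411709581107636371222308831420263847843465881521177052001821444202324389671160726210711443569010199866838151898358179518881375530386958135749061385675905020968050779578349221295578185997856953750311533210799641859030247581921811014723287755206519046366063485273438629618564332352943131492890459583499774867276881720862871868356851307314421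8193618451608023370995507882250536771184992015048234800858890000558558367690961563988988520058761868000027880291985747215597534140430834803052668605561078585602658091500722525107734141231188203971565693545757398611613653104923813221924319870652500504570250683018684399841833791150609730015547907789126271414218434310834622816830039765420923399569333837457083385602353748221456711098811688457915139166277751766265677378679432175082536895603734177369834702402756573935210019613675147213781577513823263513691088034490176610618775995626226187173789390272639355227441221194984930526589006658576160171783495839300707233749049886910376476102872753630431659409378579052733800106653045684869112668513623509870885709859110261068071449612538494643890502586824195387887814068195188950703143783775168533708594221499373903328881535355507002757182796353061945057651480267707759256965009807417023380600374843111301178993769958340701320352351072770989388109500072674163031119707651223346980431436897385351200531023215295647095533137618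9490635528207735004239592306878409441566689617080607766818518734725480152972505671467626233210258299584499764357764871683926125999900952650874171070791349168665893860419381748158732669581303760206431265787764582879871850170922165735438948492629246543503372011427679587553949944359574653246395630436278233233368144316073029055550450470171743894038353107236230763696400981385188095288936005936768989908109687533887802056761964183290234991683307538720850741963521607969428777005683284941137450133019979382404057663182792371396448567848783535404357900785394410629591437789907593271515961709870204504935812674216407438444706032956279367624152635824236558474912419846849560231794753850910524384819444099136062556821776113901405999868843671987315085749289024948869638059010253845009528639694088131921248868639386807126139453183143171552859302199802296345351470112338423435890349439177390416714510951408525271910704718536675870377440167362986202722247750492476459196949315798226346887142629729727822427959961357508143870021335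5772503967019144251754138411505482024674633347855019716810883401931817961611330742537550314436771389222423116302411134536866566046940519175024462681233292880292595255612699827897769389460885649103623413633388312606097250258538338648680025827099271116086106157203922649566380487025526479596589053447222007623089146745788037658394750227834035604597106118527469711647769780232819720505879186023056684332628678538366199368558980671102364293537663591588897261999225475515551098522168482176675318920799355911163224057459968755173671187725030405694546120046930625219452199452138373033936956070613285585894895892708935714421637956168895628301693891442216465239918633195505975296)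

noncomputable def rc11 : Nat := (nat_lit 362110826855137190426899346719337109972630533142849649998160822810077515223642362279029990808133307098043462876705197636550993297398521364762439691805697116590048518349670646991591153436337744880519201782884204291766096132247183878170623775864803747963261132974257649560740695263293857232554597038551319044104069401836839041939668248055242871774234797577221864111212046409199827748671241881432258685155799428700192941584120636480006613939019568306788925616762366940017141567152760616240861550456309220223342935538695515629302399524175232292401021324580469151027188657992640615628060361147457600891434175048299951165316419452432709255919164409185413606714343629600363286118863816696209934632783173599469747693546599883249525481040830022166292335898329831384796624161340640864806415639108213922720382328667869074481627602809715997895810713336314638425429648328369204172389819641999524899184267815806188783891542075943122006552825484677868180068777388101557754309285665737616092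2345545219073630087316979504471668969673959694179296221734412546058838744641275238171719973569760408491788269353645893485093666253628845091705557307054779220418032383618685047214108360528298531599351801897150101900730686210905557977733709362289154778688751628570285977817810435466460872590590845087197725184746970408061725833781091035316475037760012805844971713784786795573854864868624734977504227423356873783944586588495694006366239760332569325190510953631825616868227374932044156429920158722693862549617240533928608554090663160298811980634362346957080874028200521168626251128135358559951938644983289579609839052623967537385986818765355971786125750216534659021429449446445019200270745860415782777916642318890492652263734159244962127704664419918879225319308680560076265613730223744426638522352342197282614374156958312617523299805063030600988077666116409105854801132156172850146908882492606696874067374563240636770578692700650440250209832053352865690746366620964857948654800453820657671430314677619838882211248658475005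3382350479722956707121836878744883491787008067000156769536138767055987924847181490022441226015483673618785304526521943814037688780168110747898288083626303958214734198214032261180757779440408399598121294461956973754510952474461682808933023230685825857692401643183201015589676126195168897626319468625886403957383949382632664628500025462512855108797842128514203477203534313081541332630986131540811802575953714196790027567231195268787289763330671675178712180284454323782711746230975663564077700514139477939545589828535650486008257688146993156642131609512147600902693623831224336560742747796152338544387718037576552478645341984864196931978079678363508628150691615760624312559875786754987431446868466604668786242601538775895654706546598017607992712775181572409160484375955477844738966324855255101976188248262161068787373076917022760926274165684743402202419639635536308682863832710729824090012496776551340774369752713800220530570349318182122667425059468387231287654392979231662774486577528626848913683470446766224626675724671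4985505579780329004990524712302122363454600378171334321465150976329651150853894588625218799345242165490070835294882180617984644002220931068260918468193249525480986053824812724939196550188097172773389263676957174379944142627353825392825629756637888344113177364513437429404727411030063108712448752911280000475687650411254537758535464807252007615516581836253890872027516932506989767135453797101801047543502465654401656079770092744075420405370980182985179039546925098032975568953394940005522589034486690831969348754070599545501013677244345495055232440299721347952540822901666111994548597580321181482698993305960887651212372465666214387120855506931212347839275655951465032766230504131613639493223055793082228614891754880998703800079599062923027050736772262980264791365938725352545018405701637410745671239260396440525758006115521776008159375184082711166355247518125307412133834595597114708742913926066049886010832765591015197494761719990714457817246452868740483495777202338052064683024313245172370422483290738337261143623058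5515065165164454323608013239099883323269518977682022503537223215509036666193405617724599724757189684286156364171891641819655258984128755540702064883169181238827522299026500590064065389851772209960752323833969644213480724085786633371053462231645314709889383530329655295691162587880336191417823999104769201096910034550712616720379226642732940456885426715699419911870407664705470942269791432976601410847076364737079815965948103604601357208582705646860808484180931442901564174377883333555595108051356584498434860572463321863678103943813313870774663840127563069019639960279055116023101425836668822339824715343024664879460692497661328175771719327106913290790846668769031838799774442492066768073469746665751026170264779250586229038455628295662574485386803111867450163162420320101299151852332404952182811456476385158878575082621742155663754077263750270326115092674154428381755799942971648678954169961897878469926330686592585017022403169448070087283164417348051414700606329529199669046262749881727417078542171030528865956806924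3583129365143147138961187868139701575256908685154869049684212768504954391924884860839133532553383474070365509206998154547866007559837617535707466470380138341721898922436520756354603501862886902121844144247074642325543316218004884875968283398594236353913165896266823427484396004238663382335647834537783949393422439753843703616708810941219359670214337443601438820896980270659301108897844521868180028865406968112930759196308658861960651382925094315424245735684615957292576893502173232936056668566746681669573716180736544995217761334620733953301978706408743332736006518829520531727513477679835809399053672498842500135694389613192715777285988160882044647778431273067038321714237113149464396859541115734449921353608469111715205100829754830797649169568707712000623237080844549188239318919596597510806118289172778777509955405159482721527219371372808524992456299626445674420112094881095918103695854910119057105285116723775959978413328010076499872024945019709985135275165718658603441863068242468744890598158068576573048295052844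1247554455532535846098061496118626389390371796676071061021368346349628210824023429279833249597846590695250245970536560121742222764598977080194539645592534259962781084901029593316525875841570667795300112595511294210493851490345252597122942536386850942820414780503584292517654895594177809067410817598497906776288133580293478029611960018114790187376378785521793938173473924247827894844330561181523995559915389939925725507616988939140391547216108809275736320992272718321999852919816154606353800964711150578537730080115433727379082569279677168364537731848783391272209775497234073096383908014914050974963421384473144386347266142989012847929162625726430906582345577303607670628526710669314767893247153275750502270782010318393167333075509206122076018280791884240601248979999230850611579970487698775733743574919360203582100057642730354034795806818696857576275674369417279686411634003233541226703341022440958252911314229256753627314251152002512124688697889644231607737501263035928063049489037379069697403233030586682162305585068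0745781006412925879947954423275223055894879465177292843989665188829469497025527918768809963076382716909514916109734731899376473905645814475816770357044043159604019187186093652914070427403650342804008714437257467725988744690973425914589999355480628975812604191399169256916503232962439344990456015781568073997814297215926243619830952278335319932372732968768560426534831370135288381307534658097573674318754842043855263201843100665963904055457733957330589905910143329693283104981947569353852933556099858498765656667364573103225219574113729563644794117081006175803736853084261560312186002016838567775580832153936548879071206774372542147944366223429302167877728073157809354514848438825233216908771855366860070082299136817868756813829989329654744580734934804384572673328045043036951391923007513948422478774324240796777912158317346576607078618542485576943424260965110095869402077318545407059559160236733595429050108285457519803740281692357803480803922543517695540890155441639495554191395443422746909481482100831451382222036789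9447840428774256865493693945501779997490063148759723486483909271045756799659110944179704063875904603918817835028761164444165502028891745597558064944862343198193174965851790895510111605103760413010532145803575896105511283891049444223897780515474545458701538786769348173140823653071645019181965123969071947779921858905818277234761061094034954535943309297913726899684183577199397287090443158980283802532168211072140055308031848164656411709502709434688215465056884678557061664349354469382207869753193486089427697927975604665611518446613276463347311079895046787499208852065561653574350161018669835919592206242586970523337960516326065122506785508016746714331467986180743831925192317986263058664669395800906486829902127178596728310790245439746714218642085079365654047556756025823438662785348221824450257055797726363554416949696503269404892611287959712227286914279909770535531990010524082416851288558299275724782606049961127727302929691107277971687590123097864363867241896159785773732466738586919342418131722606108565361019776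6019533320524384371460531504916123601138457535914067607958897667116917877414126616019741890484291500740705099791387310982955607884418778806782665536987811593896727849850893714285943878835347212750396567674149673128992180077257232575923579139933778547564957103745796751381684826416060510840053223923475291240579527361394042151160653003916423714211169717484304103922414192155117185734623191400600766767447687622689048919856865208905989765670466063164249662782276864852441300952265025698189458848294284067076655212804080813282667563532369247322914941227974644328113990447730225320209415928392942766872079723667339508700663374927661931370045482959649458460081700796671772771688257624080354824114548328762405579895745211042864650052541457901874559994471611211475574667003854173265110318430571081479364489548300188322520186988168510804299222369083154126849605925168890968173393396990047428811527031270639493171491791052182728076115050744601657854236805994553506610227351060841683060265373981330159409734537182406396405613755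5778972696377999563154790154598114698865438015990869950561116606350133811699823940880113278811596761969912660885583518495370881353544952688306935945732326235291293049419622533663284332720741319192682932997928066393178996681408890402264776667079949499562219091118647780851775066475267789072745676737761193477004534908223382290770360933097339972738354667344545551657459349245673440488982072700407525501519735401199882226055426271289786683992373187239245889130717336408113718723815749813757613644854725815388960847301708995318451456318628539803337421280583301026830106608981623003285961944480021218182981597335719626042428336419045145802512056283617549226121578468351483478933806538297670896560206565420197938941964323914362773136675020608213731853109118623975080465481064431017742022503100548783754442354969881950832891511690078767453024993279517805096579377653411004081776089363933652339549852374954463083080438049072930186587286503596939556632708194684904880601890327532139782868675948530302066589644306192497868012768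1576282414799065412799475754141701283637309839994465908358318958572690194913810196410228038723111848341432606898715617422221381076329678814493063142926363012101829484084452130334179795210214115606716921064012327984125685160724894135008360979553299698401693424653547738448571563507992836418725898979567534425597556591127004232488647954527013907021257796822141594008950605456707077362045553917538113835939834437858188457263669685285888776145435596889012644430814285424712865772273115720405769131877307518738525608913510057507324673916252104636517743911995409677347366254878422459787999005845435933593868626114323343089184867987188665974266455761244830124179202763880810888393524637635634255005070917215716947603278671024665066855095872371532042778603786504747458664239690042114925210459578802709759701778226132906296586923511215120687340595749710134292241897274345044217912017856323859861377369110832170359900604173089814673491057769110935225544651709847898519860545055614484812968560069877845161221611269370644881390330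8287636023232716893254796607748609814441951767787224321439410676456181758305435774696898814926374068331474884020874442320674729509151251965725942119248005108375675460602087820097359147293815269643731408630771296168269153120400363243197285936475999654570553992292552935929532546687134478841748292967965091376292889781649246166536825339667239258020021602317395910883537301851667446901711210555930386480653650320740544797368757217792317817542247271065515711982212348782992630789382100454006719767249697705494640933969510303185186449587037000246906670460761654286985376159046783537760303812806131945034172643003447517264966780485375870277192827093688994516277946453322731862834461097208232041460723438939875967686483236404509942681006673064828826977916457057966035240709157671298439051638994321498962904129646416794367465821619908162796148859034473722420039457337614285391278619575904879033282691078718473414161742150308123260524997771840818385175706198333351406389609067547698702121210913752673629460452559243557805998868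6027440987589052295730778205187736029702328379186258031200461597506164059246390904905662522294571445164187999843828017395685451628096953754742312093750594441198441505365759043766108467204804899809089968120846264642465902965972678292590505453972901797015909672049825717560752870605487570957877125868737806038832824608582737439015179120925252040458420357109170758851978178816275208207562986861420764229550867757382961277402139226934301028439263898768786241236485054800894256689972317036244558106704856316050432359249515763036310013294329700683563365121340948683728929093994959826920750775617482453038320103804769924476751194448165964945654198563036136976752331576885032762880144721443057786752938019576849041521996714111143932090484438660610862192200859889228952467805767931200447266503927571321749759451726091469340368858912467870151226661681216845024616111323471406027434832297042012336393031426758502791959006834691181170975196467246528164365404781292621199150480001206480151681746382031742625429557018057014917527290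6296749249429549527863091573833690538830830951665212752798935756740050752408809776058975732829876303247802531221699674006123419306622611321833176229148446638496810844390097739292801367448946119918681375932848155761836606045148876404284495904587346128272369146524305609272924706402700001882636703233796558072432751426595403568223333616715986010676180806471938895510237387260551365222563117325865376180922194495110516995443194621160928458074322630872676353940809781561319682160878974741249833475076158246021636077609935163763579066417013200391530478752005053600520134954901451863987964835344922201310270581966470568214955007155127865827920923890495125528878020729770590345432568831197672229742147765605541019842877001878817561060587346282349004930054948409543072228008307497193685817190997487328085158779428474963406083461394123250752840112584856940473273840348325583033228337676415651657419574789326079797461346238269497142826432240331060738641140384489515367169597535059488425519641315601432279688961815122046170126851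6784368742928551103883809075723937657738131206132664048613725258530719640712896587941265234804881729094277921798360491410683945997615060519146204065252315720744394165889463168974612649077735793246482375048553691233616078069557243826284283982288237797146560618406201464129907827812428160582123333930818419042096130519835781926108625892523244795580328815809451437360476556141357600976858391493589394583049929344805617771489049849490679302369683058130189956147812235013262400140673240915818893446461857993181681032378071865829645684076732748584883050200198782428997560012014549656280381696465170407377426832885974162280051364217081737108997778157544910099232643999770045781955699105646194812602694644288810879274029235767186692242473279942895225948866256354908687266001597789813202787418209124484478338637952774361465529210342659912510792724687296200899791855357969366396369591029338599005032752364786438393246333102597407715096840875252497442252778044993889333052021613539294109135710573080186065606475366078251593684508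5001902529489847111477719043012023059084860143160378237468363463623055661013186322744424991342256543335237760667181656369693561713923990326396505557443841791964865518921372108673045194118734768713975534923153421034617187270750411896492818870793339767361465889142943740491163478118926972686968272419122841832533327478864606245670621706722852708388952331670471054473594626127400059731154216574893305300694305898925864967338627148429912906944911978416639961245765299542374940853282896972865555618723104379321314176075886771838561541023325973466679169044689052738491008972728653760755535608112300181948749626509867476063613929802567817645827402462832523489706673935276783981146405473063690518782366919995653238206307591291867769591607957475961349931070855597116017349135036214388112374473922834498872565359921729177171318710116277401978389412424527552944734647550889379385328912083493780692493969480947534533376082181372378563270810058360129008446432164702438583791548453395826866125211845110309584278315303164448076532551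4950721391800958476777731979900754072886253204663080928000610283370169211245452247010881538416987975652448483270683911360348326307294564910396775849364781699527758920517317087791344233445032131614927298275685988942604756296795883096443807917529715682662048134595318216835849634252894969537737078301530758574949639299615889106258299720921740091040184223228504840368522121103262525108266873292150092138321559579584737693309603565701270511137587215090016486451454236858860817192078926485028098377685099353410530243598603296697889478346822365234617358265459020071493341987296082895112785828283944070975782302656885529185305493697954930820204555116265632409108792098965946368)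

noncomputable def rc12 : Nat := (nat_lit 362780853357686647227129347304705596891369597932037479562549658897094630950937325216942194808291198851637841886764581811933060549112969273908140784793063152227911489528341680761548998564869399549678928551289219067051112114746188085238078982118968324865006646793561046548456406283143036564133203134777456943870315167845681895066534506618538392747614354430123369636963225961004118472035236632947846414756673225046632552159174743854115756100961946136150179122078249532226003767755467835166646742298879272016943616244107905302091191836465321528851160080272829794436594668816447112196854434260649553154646539599174737417826990420042351176836726871916013158174499541248694456891921347064635288984945803405471598887695281044876870782486178050742407423602910319919829240520183644252845240222476519861989399128008347947142248850268644916626042576602705987489736942084586220889154595130254248776391346831092201263510816557657763593338824091614670732233042893651565533540511173224623533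3220375961641354155160036352530534398346798590837001962457723422266302203679363945240706130840553960601923484109883942896929331223071202814406872773708404827005561146565282605602663853966420578291580577950040076280212794513362014173679806301140053783404642734754864305469476811002075874874981660618290516030660287309334105043966845068307371956890721762277395647132674556507533596565857291941467439092654425416674595507368744622650765220080929476021691865639450835508729354713112638705623771712834495941205455780083738871637188275227196924223016950144541135125918928790929869724834013528517156041269085745889705978405991136846334100475054323431663773630504838659302715733912309234528717094109042461401725926998741872414305170061436143905782900464523167273079877379653287629630327071883989497659064535239369944671169255120397881453183668269028573508200831557158265453857361578888386628270496769043812432337872032337600050875349874797583505538104023960366621466192043457059588693602305008996928387050522267203766433800849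3926437802247334993189490554166940742197910937506400288410738168763744423601770865510175633384394635384622329374257043324768801351061351130217531187391543061280541211521502407557125588607701869424459794123363399596862139025755692420571786151178712179052442622830682612094226326849836566954156976969471877211210280749195764889943353968005828726714781826211179151899193837034421066851691853855876690956086705437641151173615511969908666774740656368193986113364536520525023479300137554788853014354856858990010325163200982489714682203403765031822107062412340472340663630372372633742956185262400016246901076587082252376607642933970140350662683453592409557658874674974092618606177839036284836550165912816242237908570293336565683176274566990182566218526160111775966259527468905633376167302733511325360308531659733071694180196665122407231760580379999684300868245054887692425580885304921577345919002609246866473963933925886675541725913961394942269117702769079153920878682438583104567959081876805141848280031415193762025230213343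1593704338789192744403987623913920385578906736922048892057046574357724250854473387509536974978567436870369182054696353266487531832224231205805768919957870182745350062085109631597280495782998571990045174914586663008777664484220182589170874733651348240723727027398378022803596831978523033166295469046575120272080073265651227222862312807340907465068029372765560265562932802527231148207723653317519557004353467396114522531198811794834416892162558044314844552637079602928030065370125352388072609087052730936238750518196687761603357881015846056080424575317535803447147232337415943805962307054368687455127247345460605473258735841979806005420749028612140845856767922604025355615399448948582195203085793341330381368156912360729161329850232242446430297027512225303671894765492587489696879784012433184667591520971431436372359669604322140568097930633714778369677805935404122616144682040404810328575697745983920628930217724282355648747925982401582511871380200525770554079711341837660169399400429192812538185713205722452191432572333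0418501389156156061070917655421201375305948642007873384222636140476134951045931842649143716184012791299611986341481762390228957872538949434459366294618309877551926520303886114521623356104550620213395098990880718164776428359478886862689712216675481897252993154249685929561952271019113769075865201039682220252641615486605195102507584375813874281571658392619522889614044768474538011305433851353166068808148224949964909977037220666770003197605034588894231425138677089371856190845768289395999069431913859881586863950030648178672580937991152650144282928294442560999398190177795309214672529710529768807486869511179316172251634456404811937461580279945683066895733279697743326472481677887574641084761472691293273036269733438830698859691577631246032987148060743452673568158363360431446144075116313346128268016172573805744553946010808300959803955031187873925908442322027100989016903892349385007919152738918589622494720141403930042457108632819351082780026436762389629521133451020788079765834871032199821608662789582793940692741448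3369505131079937095198718444929350411094738337968302748535655734850566250787728565560130874236545065899774451209036674148095106908928528507272644579984519805767941790063747087823600772933626271593286994511349477790831761959902926447136833838111662505343940961204092716093536195173056978470257679508838630937787030213713359533201871338003927189243945860229762474462917022349510571159241495718725409462210978900087396231223237124274761844249023248254707606651382002814333417807168672861469503583088839984655320108245575712171399687588981579861541234795193160525655387850539187567170460568102071754464727515556721628910819529673132124377696868672496347068182807859772084720332086730943526180604496449221983694862257591028455159532335609837257879748697029995560191930441848600646970291437012264175947695514251719274764179685213724857536957487688225943554750176494374360610621020293921891314156500873779610893689235803554035007478560530693860612228128109983485628657227137750257155986485844316484575851814137271810663170226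0199586445411420384409217951243386521592034197708703464997330294890437208666501288928002104810184198435391239916062589163546868587577705750629559508561867125407655901221926882757418710572240243738623127965768983202879385874421307278750230985424403923701337057668218595411692774842770326372968928205580416511820161027015114180456033792304979093035689516654667099227455149495520621767832193170367128282480067345004608189599048350713819292696493019537622053897219053595819637366891378439819365089961858788082950756708764774416308638583251646844882239711273083360256032691942207433589361927673564536439914746848664932312120086087073407390483891777268086122059355821891407293187304808271020401280897331308208700865251062857525538275351718558643338361436426805309994945831826237939533521612595946308093390317363690246443269943722401747528958684885624446226549247306607803947225492888734381663657061582393083292625860952214966750234887834482476790826151631570041974231672978358121708729865046881895341576862679187339808891610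2827005812325803496803139435381727740207509793625173374650393425401301549236406727174864145617003260689187382017024608416526520930383511988632760222567410551139869240122215074357103287352743486303823810220091251261256086410480062346384620582854668054355913331981652507504473385327718776537977725005555327196527420815336122591414105914465819465709511043974885292727848829143110783183761247955408414169957102198894739057210842601061141163108079197364834423447531229665907849739419347509721389927553360784269412487461715639246760220955518374985382369532503034994761867700041099713215282851547323384019183448356622984096409532064724203668194965908244147549244091359739631950703713907515634752294740781049449253124901611062225314627958097023586290012954112844699432217841022909065171079173974420991056055196284526791132421563136181268984919623974418905794261394381004711372195223914283839839824507025700554841111633168313812033572264747447438207921793107113923523760451472846777513896733284989447519166434271369035194085057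9764813644456069382309296836292990135011224007157410346154938722690296332932102830381232526847898782874134610104295255519507212173500979652927256982934274656093679342330376801283195507264667466071590683050844609553134747809286021436507031117942164167259593799282458598702410061334569881043036505056174001186543089623705537083735795996235777427531200066917122741005566847963066321286926435723637065186440748460314480862409061664317877258538564839229932247140243734922397020120481632993564290244596743018872480277293559727381872821693481776463868764862143653747961276467592176679068297406928219694384885780989096422171570919225915391454576844409848457679267329225764398052484321309504320238527771896112399765069480494752247461307656691874776050067489951652406022839217523873988810240739620477830593198118981511543573555773575940495645218639832605098426734218110108062846060482693507721963712795767788728787699599310752933589635701170879308532477833651370741140827599141515413450162569256491273791865066346964315490421324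9384586839529274035390405690844432645478191197796897042900118134693819613892935792102671966751231586056679959195516623993025073162467191765830642809496556438170834075844414648278668066813752747166694940201739483986922669375348916465804908229574043986863368596067099404261164520636492318390516579078341463011536026513190847114572335193598457527583932050888559478545950173725997069024438213753057247642602225801121833112591143848106212956245067117959963172410017298911954428861351208391597172203949372770595926939737834723585572405792537100307989184930954347408807867689094627617641836135327635843803665732410542818403771424452959144848905895488573505566317827836890697628851255867803042226535430242562515988661353802129611618334302218086546328925749990833171131440696317060006467504969824066167487137533094276335402804531454498342443011709864674860827364204670830724863979113532405421357741351487000824400562510424960790844857611894841616455412763977808988320807658887460140818291037169282497346010344178472075605356851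7389709706987332478492018451501024093895125739262842282959212816026202737364166013214998174062868311347887653212100243436115939971084217317135224771356424672270006370720461627025600769735719189460684011145326217044948539463157046193124519140362034901917533268351977179555077883631370675729279037229157363070786513975577274357491748859959578202386242796019806042463511366384546886260764597620258552954016217629952976200449683975042666770863312983307751400944467927386345829077092411927698421900281230811958134744530703668839999589649462649498331882407382442269872342919046226141258393453302652165665111806408970191175272551711084550405102301049938527308379834911479004736552916654040265545809662328498806256933845773781533744343706948452842300430432997525665244058694853196193037547832148298034498285616567143778086669288061530145190612812248535469735937443612991152722090098783164296591765217981412036593667659349126351502782678459348913291145998175656541673563046744912553525542503278464194427380734837392526821146616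0717456224205333401444329154017014391586575827400287680999175108490429386731241728036259421498033581768568746944162195985085955108298743056924267645915222593399385918517022957820226944690302409839959822253206596807095383942860276222157378745551679415148124992649017086340668548589992774552536358793765773129800549775611890639802714211589545646372850538084936429937834908498551940957283438920485876539573858646534442676058053526971469542275304109273822883905840496181708520133328912732889275286791493199538810829730596287395229845532583455926416643261399550116248921390311007648750876729992629252419663139116256774571315615255517776868571090741971703210908041857736363233267331156691497670069988768759812150959860825255296110511433948780725709969983710943971401758466108917659567551471188507984672188987201422131389151324365074254637319500295328610973520094217936683596116065751377178291493614984822374258498993696144195716518579724998267462683893179251987926081452254758785252539817029304411056652861871119149250194633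2373737033445645503053189992984064762801796025733130006495588144326959102522698504296904967904513208998976076200078141093740015612190641097270979407858264868968973846627248854871834808144027837564984528510048276820445753322438155905568442882211669224687616260347173134490697051370139895500134027713442809664280451286972709887156893956084555781567907423068746440903630057839279671962173443088857115113235546905360495633681137316541310103911159038796197700617272641228672510877277166491112661010340408957869371850777628719468331084668248407921638851400909495485652741533543431181693016361763470905380412728887303958954283738701416308784951253389061517287766178332223896105252171078916417868728263915744801989254876574197041259710499902224509354342938273895367267336709548980846949508324441909404838553774233995733616031374452109460865684602745371681348658864235186754338179085272320525006646477528132295808790858125553852335184558168953253399509513354943464764406633504526912584517164242978543032558347560097266137068249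3616523294788627082263862385619333104334986028854328528159844684531524157485050993748224481118140722909484598507297403682547089692792693755199822438364852807357052258571896449380346178563604637628702173999870949214438747933570978132107547474715651273245071543212667809814223445920185872188449357385252940541987842681131954606675693632516277689201565884151682140159558314560542170489683101729693678983591388452493077569427345490914152279719285068710738754956796866365765622698988741093827346043349952501225617928065459534585217798383684546199126917178923641023945635264269537463894596395691498525581903617667378207956506147395983319329686940212644563361574515209655815228417734299093234224093153969279870079692394590271763269622515134429158897874763329366648403938150857062925571719833849114861461343108465280821502275295018783846400056924491638515881323856387471522787789944673467429551332280017780044593283564425936389423790243194677087051225815118195068052235931439110159889098314147936492188967586136689831023693413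7305160728891246335313246323638838392893255265902440272102474788343626901795252392983481020855874198745949380628185483809676910921092289382168346220261840022669016794148894122309219558239218542969168122381688726059538248659681384479167047910966140397385936422887142252003357970929399810309024130569167635862007462614032519434383009411181257655524156840701452281592864980917591695255187923515656031223219825731109059311028419554693831363670574304869415074767642025494249792936740578102026686240265277679428749774401466245043469382624777092717046729168689846281550707429068640119305507195143711368355252057012550638884570014314899711709352976648278437837491794999685232330051478380125838042713854733980370968676773038558769434147531995689294498290015508119598888206514890062804324232704554937836715474615592933333977501901551443115827015210821968422327313400119098546084801698848696119457141317587325244474181804811264279659078727209936310357019723285559233702448927028676925189026297882276217262648476992495273811835848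9323549227369967166167931132565182206103417947274371236475342892772452364872473422387661073732248816182268574193236395843503379316208036982152258001559245162845533335299640277299668021832439294333636048182818796409837437177197963279546715297808295348230994038020929400932175731423414408011382271647867003754127971099989480418405758843040503760259688369840363001422494329280954215729451848247904086891759831238038593628348735190982682582801054382042320910236340389269552400636807286045952893712945226455616082377724135577717286876615105368399817298890858938442504829616000850022156185057326550758340916771584676203690103023561798520243522934537248159199949159843670545433984194254773511945254723140709056549034728389971488930443987295160975212007525488330089423121539239726063166850166500060903609266491814355187759571192785732145365648698744672027588841023406903539648172298214157549412671581086698504162546291987722219461942869589839933709829790241470821424653735789173293278480462134965859233905853638353456834360195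2582118394895876264250269634718815650828761633637024591693460621130645162734606804812681475154726776818557946446496876304274929410706201081003251347746324743613886413956102739424583942423859933870025845784642176721037502066014056794147857879199276213570352346428819141012793714800068178917258308946887098450500749162117947465269102086105832303833103334201117387388665189871535668385260224265472051245528323476232732884416466029192520917740502308791104759138781771986925337475508712527856163213319791279439285386879576446223973832216550031737286139204902803742402963089969602749385039258819899629108600020556918963330729697069188611983769765344956294556191789256044778752274035403043064076464090277804020524191036653249202383008905303267655784992581529949254387676139360469987579332791645940490785486541943086300303233720814193636780724088738798971035930298227428015586608833096251907317525613290280819591783435054533014657567374423273128769713855743973157782821053482637152801091743269007321126975747513378790398607657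4945792246040762590804391278923738021280382171712128640361924007781304250102306796672955724842947153178240207032960239413723457903038871804676212166931772362315022781630356043343427998248785923716208337681747598651589413047142126029016324669926930786102735064378660975917350405294668491172197128428686940247122816125709545043231764279629702651389092260485007886851152469965986728989767201750621687321688648945945369755412265187809044920107267996486162417927040432588967828153676925967004070857500098611185055330448191715151885440975329074683135468474986162308337040181042651512469837653944082643095913221592241720948924609401443052301341558088661343411155381037702316032)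

noncomputable def rc13 : Nat := (nat_lit 363444525604467495401366722004237221780225977848294050481669895540698759457150440410226088401739853502842529888463612624946126869219133080855998080820553250974289322490492883721209561231974336306563419849201587802563187523404429511840371088824424859447620142329934061364945313136421230508218068900854342705318363345493568636295154902206395284252204061097598994448713725384527698552430102931350258291609629113404445626447634782684786047422203266400048389775635305491227493051944657738955386444390377014563405491694361448951027453779201199117211149898295623713482516673550379678341247509592216644079780228395941029026271137129022710465215029209683841772064561096506190014796153949493170136790043642702585264002562310749867695433906800124721312918213579597254251760024522612117039413705899048711980884382051146019104622473054478965606938108083391006543819386212740792599368781883933891577969940990926671594563157451310695797908021178973649654930271208577597637048445329688155639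5209201992178483645493018312459946482691132055782120114540453780404841089147478000386993439810514023650596019682615214463737054864494443883904623673226471535394597655232492002802799530255003075891360467726512509968135866357528919791946962958294847037213546686720524872101335644935139517026303853749155100559227115525698623703730870005593523879312744864026934197248748237101175838377006256875903433936508753759846614792569467395056936998719566727451454246344898340380057826605354548088164754533859994836355507171747912193882031591539274097684200432114326265242161024502049231118577748374124985110876223945488158967488016453562301906513820790973935204692155013759425326978812455779044964198829876244438235627424665869542866257015837469714562377714891915781911367420759998594554652054733036630179385536728668276193721795894067266325770680859470699129508982783090607666778172407545322480503774808736528162768268683116779115760971400074936767762482623589285490982068069354431993335117249823906947280181536302582226051669544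2672737884025443282646606773687727777981462584020736822431716861547777304650385599025389485671873341082256922786741811240308465939246430126599222173742914175082547346957969893643982547611789392731764857205143177632234105922089254347284036368254606564914420501112286436616991372896604005385224076078811294936131200609213074808340082954913638466970212290494346012098051097911558722157326144413501503054831450734150562901310733190598620192394728902987751676734927334496693518487115238893564133064310455459720212881901411246220085400625134484305086003491615427076659340458962248007949073795067465444470375428591954417262116909037767610316821543805085640496714897888739003121663421219405387946945638661060626443021004090558985258368622401761622577722175035317204420614889040100527249718413418537659757914581691436283351016054907662537359317644512975446929531572982760853577792985615326677460078184446404593913206747458948670642991706328219844825185482792201775334489638425618373318096831558186874462976751531988955407711003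3601711559604264553337263218068000983581338611534768897393275267243635359431833512673395321873603226390769575912358349943920644820367935781896712956503005797643858941794573465013178754903969648696743286027218018961215864218021899787744967740485040944507314827486862561382973697286307679845258279542628510368869556510436430215784362104045611053811643384303271644960808613842391573149340157538913862153709637171014463013295517012497018874391707137229468195833386978706542145851394621711442815667843123402160628802407647984707130100261879939336482138386199655461702037700288868743718018999607701515314256739792312425166953284901213359506500400230994958127928271085010221826099789491308941745614539006126743662272814116791714196616555165363208601374946022478432901116416840007739719987087939223587302891349023311020435039219007488309738566089084883611457426075523214050392416146307429419987036812406682155676353953454633613016912524238015474899307287966098758873579536790713772685776923270120261733543383149888928399049607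6779337446897806242283242733411791357689302549337323747084723161745035538513614327808657327676636568125489914159686337902759990025260904207563199141046130767035791649592128055364127333653618693404771369191670814282005232145997778534362829802420953649918650684005859571734675100719756835648818867726456677790196402230052585833537287615558923007259486896031281934440561082216304873163510618866594634687205964630987495930057818168226065828636125721214300308811981506266437951911055330161401654323797278748828615650157700036757634052698320038109379959383706284287123015967656904376808723036008007032845404068486357044635435323347894815942266835698153327894966781981163479784105887209102798529410875056492727199762738432030896139832147779542570502308964559147175722545986457066186706245005905547234262375798466872162676759759199999068773251925891888808834250623098468647940181362920449267455828652436696946717785984831853581887274481937767896238058096189190415040299610978594661335170241889403873057334501534675881602818369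4106074127560695242368750988199364302474016510449186312494437109227854731503093500833212755058298340424596184746358433919320178069077687417423327005220535311945458952450786967501618900442873811924239975111207796034350510817234353139999544193553864319344664104856424654775727189219506518028149306445250117105589718682260444327991439862628593136513123107978009984679684344651708929622842623467142234222580254034949726476090179013058304818181050352566739041216926757238375818538164462041908809985424180317021408380547064521819807352968460189531363337429810813227371600045295249118360029050458003244403312855294625191169407622996502293615784213301200976623316904803322641879772645430503365521436448584667183987485009724882923856001497427875724331606604080779696091533328235040902424655254699435896441981979722408140249569357000957508036241470143075710902491478376199797785264834495424594254041941954535955755119125631015416824218212050607248902178093362765547414835866834670121414303953921260883761487635176648443863080566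3930029036046661979219662073872876701713153103761983195063558961958188012459611214829036862005414814944490983730513195703877435826704985599430823028033183174177849238656761664598889672410305727814068580816269165504178984579447892944795115114217555551128025875931973552938022113073403183910215687064059260794021833764317931796770661453531628316794940262472285637352064796628407834250849954523078810480131463724045591427462132220804316034630861679170419411125668334714624075223035424886615494923802170118564335020074652499857179966537999526449667595537842914331064135390946733129885186250042232100204075014282975248289924875835633789951684467436698088523880043937152594695266487498483625787068488464482930633626200751387504970967241010965841065448705112895638781002223431644168305210647625144686821432161220127847847349762228640523102188214961678765657740652884615380819790390914016089364049301259038021590671887626325565851437369760372426478932841184591598719525535155081205589305388557074381906572508821083265871388071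8054469689024204748140249319894464034916445423004733521039039116154220098211865773528996972188258231526723468579659519041512982042343852501578957120176122988517866849049894645847218669545588184051793597659236388931709217340691501496406021818390362653028033325525801930962387787199449470944098534349585078542514341312350768860239256447436217506689179647114004966519089531989020759896972421267654799421066234481628961818023055141441359293638300049175135684383678078531470687180874482491684530882645066260872485332380518081887749717608416908051627183154935299473476164371409328889025661298217325609772350404013962859230426109651282769039305478646259691275626775657952613149159200216872122511468706549908442582857215956938509331516144106216596162494801453611673765943026219383723666452002362667263409593243592676234301197878955312974160859845087365978840512125355484357998576033151071928832006104303418768544709443688283096707142249874668872159955984205633451721343938964885468966268156490198294762725419313839400545516630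0629430445051470148143704167041156209272373156014783951878760192399836534657051029992161943484003122079438903455475470213665632234666191391885308668225947342483259607311673293716831529461088661566020589023803949712267565394054473007096893755649485069551313179437979729968354927015895622483243432696020800471313729802855222541823971986063323263413761538534804528432405243085371820214364541470925683266741661051251797032551737694241690879394198251808870019452230620596628837004627708789322160393764573130803994167640017197483550349753381020403679854440148215827173014890735801837505889305250384070547684657119643096038075754012026089589396766548510342250360454610515982524881140946126071200250591784659963104500569120670424110403214891265599824929559201518672740021686071160599311323257292614311974291729829242275620901767774392074616520444114399087312096656074967036040629444936612178515958428692753954816970230201639852815440167254456151783182347920622873426571801641321765301199658202417658371907685911183107827479540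3708121027431302973293769754125712486849199969317835764884925885158094513594011608002262572447295118242622791489377695836235810748014157139534769354803934045263656352250379680825404472374169250845647409262777729539991627116122446451707775954046533830856128010420551607812235986400110397439001951990651442279718298116970927040959859027340370847750585425972563008300663449721539258657894025598513921426182935883241373903499391801292175076287350783136137475453120173599367179004811265279541161184091235074428367288718367499155541358996500788658842010213708447824628499174450828706446925549523307527505464773254258788116810019948977389856218434571718021025764073056439833213472179862257259362618312787818218738685330402057975831331903104354498155795836218234776244820796234242863036575107714275998397340329796804895346175763657436480207923667961104593996722296136861191227865081258811017549362502145460000492611698491605243980638083306271976771717764884322190909962434417645363475504746767965130769001883971461323206733600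0651326278561646353365926962815263640300458539949938124599617342856735840401915910805162841352097108007242377896309232869522809609903147592498035993905312715269171508827016802872562766523348333145792874178274518690027985214171202296309376895406979944858917385081961917231497526721578019381085657103022529317307457238603029344190915366432938225206264119021574415601725136618753588245168310090531887847250365809121929849799271645705825699561395279798803610330770577693489384258927167396484458117162247647769473628263614887733005800366192266388861314416362978391268171550682672104573011309966257643285658333109385691737978534216469670261711532719076049648528789783592342929652402219039619127928573905465029051597520337922447262530905910406409267537831769801708066225949641585567937238713297728272474992989220858026759500495600753234278679133452060039385889892306521958786118247643548899207946577792380586055104772037579079685549412159781423742180640316407488838440325979178587671292205361157512047979872939373296572263706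7287748421804733626617705280201304995716885727241747296550573301956831981254618756233336773131422697976165413931656383465021083042861791210698208767106444799428841027124139104287677734280659513515615964029447563344068019592342982014413330552952233481651408594219656446750378670917766763932952193914337231346671676024248283873213833525713311803938531159239684813316787677764396413892351295084730385908648595632661058113114420467608810383045800687655028643945958734507453730325295045411548101776668981042983993579639813344832057393193296832033890830714908106272479023846052220576653137161370939382346537270326162559736233619092211899217563039890930555916302730756337150947673906670856699874771129496768090197322862214586152268799434053637998054978335520361043797507839032502867385347944965548275799036026173900848195252676293975586213749256721158635842778788536886081038470115786880251135189425726001970896550447043933474066658441946146155002597992919945946960514430654592197118904342984694230570192558014969346903543822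8706710674688053318412156202995668028217403914264876805081917048561595569119836001255429726367848196570982116369124294087192629988663669840914852873168041639339100681263147787309716733635785848885206039340419246043378623634980658893116800977419561805287550585180467063237516550618671558453038423184198773166829617129643298151126099472264854233583145539592337054653517036076565477406740950369175074067217410278848400153489783195779669548735053718426642806594102097694371272035441870909407302422530361496538662979462058738745462451393188525236651502053951156713025751986834763277165779848101822297338340942356331257831549234141924822129985528312258175061001557149089705853811296748434559655151285223083666600311665995468137329130667227617384332283638031997210440572057439971228365820383910369666143235503624425409731590441585055589427814802110885078447412407686538867488215759961848102047871439707241040500830063532125065438645711910753131021835159111527452272076523965564526668530534110736095802821020223894134167275837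6951605571018266524168001264138118897306611545320325503180967869318113628591147449201010073135091153267156844372223447379841630063427548088408606982000728466441195985158196002883271053186675068774498513215045124620863806819976824906609165354466016790938699894682124952642495675551593574543779846241735502595224501100813785293670720517516916553816975099061452531129642685046241363331216505948737745938178459466870867428294341917494991371992426500511451622899668506076152506611127611823920015219230114934553809236980277780273068723557883494601953679533615922359152918082067392683103644368978017929388008938864236856207585461639006997769848015129281468458158867075398897648220312864133580995517461855013806172909313043766266394786791116579684145037595187013758812591418325661734877921980301615083184843166507117628471283258180916758914549824659280753794337057386331004699323738779394622510836384943146077717186717844267129895879285922193055516233442014827735685047883001112313122194151600371220364150066739460497056765129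0105134551819928662019130600523527862219724853568116557698799208488766623691824685924798494018142633092487365757430389966345511527095130141397770205301102454171174102260143784929459719881701368091519391703248355631127427118553013223754005070579643049315292702544052101466362235332579055760286447413673802525538922230089270300218998025180098802939223038588966451409670121624598967212297505793554848298843880723564015778572104313165409819931215079012464597000567645996500429328864688715200662235342564237854138459606923429672039039396216659042734728288620097286264748414104086775899554360900579612409138836121595506772270267479028282568224418235117142790790271652824272125068557727598629516040799313404234778034182600674553947602867865787418568803891670710300698274956337493665886391350076019728831612923657973428839316940955080782977293354469688443503327448582516835196585939027255310591558084817181551370987350309957409498995296677807398102459275008838470371189953361922763885715121539067802291976848122110529654089914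3861860529469563302731562889789250937148437421567382478971607172504461825444164079927103752847900973647465545510394635749753010845330284238605747387590877588366245657428140540075255536476000026550743862294826012142099587812102208221142998205891154698761844085519885349331081146061018386856754910034312085335695275840738112334466885734159966710764201919205935053979820523978732826883012390022342172293248102177081948580201357042711105439363558703853998434934469741822403089832874929418718073415319504679967509671419554921769396899878426831570940707172488958086500694455238753439883919452120360113360206936552895497812316823631674992990753205416450351632710700135271774443488701627539478893801580929371548106995167983669204927335130040450478004047811295042610852997263768176387066182216379545756692259469327801387912177665224061099742899771417452091037198114692073351897713646655697807939341088220948566007102475757561761723283454258931193882929907027792615606826638867591182834230646437479752495683629289469858249032154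4222573267892047661922993551232058311560825320809231982291825084158487545927239372225615362153058140930902647796640193944261311719809358724878458329822846990136898913014505975500326795393801852755843691692354752434018006071635408634802567323271717131171281166866100964012355162805568261457106533790697750493573335849164991482173708835549198583902403516793441788947650566684755818586724027522339839912250863765057230383304250343045775934779186111207163875645878891754587553168200847872020985852502501065499391836893604294650297141200748626561494324952724858782703294128575414045771981460051728790614842401954251469216044592898243743625700771298553938772019688905089720174281247689487478852244986922922610135019255327662448705209310386294057797368740694391585153962107038928130772076681060755062717242512743605364933051125705600806550623814177425710707958304774308199308170854252562514573869950580684253413606346346829026321534585169620821901710185851892596481403898821901892187557463017920994689488458184651817881354047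7908223949540804413129985425740791211624763031342419727661140489907466423432528022238604557423818702788267953008095280774956400190946921404181016076278263725919060475064299172250850296304827385362728174651632021527928851864287949874012002822154602931587036871046707959671855595016579592650640323756541959377940129062485300980645037048742127266124740479515931462827551016449224897986498410797268232489392756161847085780405015069814075724344225438590824661469181840576871784487417883788908214359942597995429186988407624791575020425815914826170727151964005587034543955428708296927797649615001939093866473905903018854260655643518329605235922389815240757272814600875042406400)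

noncomputable def rc14 : Nat := (nat_lit 364101836414339253000355602566474413872288814431375670517058074443639670497501967766496816145930334634015974616059954860848204325903154545172163502344943377740033240575143049368645993188442153440688463943863354295372746996183298440783559479599985900852402495882391947085197753619784319812907306875293251650067864086512565206846775911057557615296160342388624526206745491418690227285949307297823061569638853964145003807394559682575258283397991757423627359541859657133219584222828340193570905952189321001876915551813302950312939151724674655308477997683160014711734305962065615863314783664795478131996101138710105292133485931822364860511807629121555596466776391751033405102078751670504506006869428801872907794174657009283353128371563692334599726979670434855666478516312781179564783631703294495567775934151529494267006267389137226168625059964026486753478703823141845735805094507741555461644532842362616673928219690752255856409691070880795158063541363041525369135592766303553328315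9652960630503906614332214507098142744900066924335311757370955919588751395420564525800525779074268113110586077038672046223404287661653684423748138591246952204983066345968175745495879821513976041460891408969241926670944420279117177329694478370566111570683268782971794686549921760706355846959799046807628927277148856120707678082987850536383229500662273988701621827203936043803568094196847323992384688860979592035158836482300283510122451087101059107427837280257511125090462281531134345372783126225351505165530368553457192372958052815906986476664317479301831430956671823852044072952011496216830405346335587152460843151966139627037934035630622162310392851945303685299753019914448076333416664722945498379194890572783589015492973034347594774810887716415259232254569875365496406187758637586113694223768867664696100523355988319564217147263436168172961618905470911391770398791952833667817999132710481983248837231780193748509085110923800553361058422628469119543080703441104282462710248917949585714670160888181005601795029813568547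9851198007256004303851256556068989028734616268326702728105624815507059617312016426580852402753332970132890451822031889027658373901468117075202460673457477596923870602171208531715372100610565686797655620642079239067289334680734847801040924002319701117781624078190454973310176209550611877252164000594550509487309824202896724402034097902257673552002981212197722880871467965163763964893143382872627618185885063999276890340331031150726835931173408058579074718916306237871490576080286946488334299056519547837642240359750295467695053329213109959115881727277458679506422693381830603514671742477840354987709638499366129164906606951447237216465004469149561364349158633042954388606130884716258440471771656808149428488732221179394989506274065169048905951604578249258809788963773243504455631032382233740435678119627586043880896441873533278119439745409954993546096326309704882871192584201967301710175350797165971576850661043372909006858647837135053676882750256610337308620792161141107899475113683305445510450594896415013714700995018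5982408875493438374544249988298651721674181311172080793641681476612419863452261608459027042808171235302420409013145847097001739444942427992563336666050996848533750628787071261303165112506952991738844959428456064287274891049834042335484412619836013535017790279461740309731848741115855243512323833216363834784512664813490010727740026532803007891029289189180124217518556319657159002310719314705891976937963779293690521833123191177569470446166118534278519511604137517134732799411594697722002228677105495488674399533627404067037936463077577560320535851082173014915510823332964387339745429267895490982994633604990527383504090612657515241386516656469716515664395323821471097047574728326417818573211565323385999538042100465531188602091765026661451284955669389994914013409900270409951821497129391251633262839071159413032124887752506098717097752126666916758275418359157104948296753481553598806319197473620596666788441304910215602275127584152831148982786263399606034956831151778502923453457410672559899060948616086971073346716077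3416678864014297722950064857387450124489240901186235635260909821728242705814392548347493368064077956898819762130103252402198029133819660771061557163514265063566363657239645868706341421200113930199924517349929155821475904864657181320852587102579362852085211095491618137012736855315295847115060604346652553671073848383673439873120556840602147067099153093509968001719125895759093356192435844163393559930998720162146187596471231276793321929678411101034659709860012705751693813375071685763685633572459792440578880919179882471687466246846814280868811818612168640680919382103635886789634139128106974311170470401420881926079932382226893737306462130848134184587567049588858168531628493304624963649033023992937689138736709333376733396135805585777119329942328472121691162014386080026196847739303821809974572113989883082009195247673537973449280090137709476017669474617537841756685893695951391556486341980533229516116833907548643449411409825528147178598268538082104781725638646426093586743861477177746631446766891162251806588447703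5536984300273701282438428496506266375691942476778272571806128082416376926534063986048135927039866669739155054462114396829132538321811923083750079857151064145438700407122800285241663615991023277398254057989378160399920479325856677991150649863873384643912929530481428444101934452827656536417899877825428939699592987373715761242039148653474928002204110324926449222074025429102389949661947684918943780222563484637128719739184942251237040196818623673911816392180855588992190985519353193013872739597487729286231381997271236428532505831314903699840409269578767429164330299938069904263518431555591139323249635436152251580934697919748638192448583139308518899539144160320281297419505376562833211596351176875839427106764585632421806233350599515973532446762016921138895787415610470980641800050520926000723140988269955417086824417042281497186928202057637387496143459615613835387870645818196063810762641786429799128991113618669912531974720529155375943512519635820105067535497086730108157219688951218847525597657090357667619046185011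3567472414553093483557084825846848227696834704502193615061989635079070216504200235998094629883182381284552275585841586548896260563598134394866648315996010640662309908671312420890605517062552784286515553750041179658155195682934096328033545487944234418045401865251517418406846745695902117405611953752303034306217100602246747073198941383160069601604426400108773400252691509332692102247836922562998800730900065978778679354130019510296941767341253808036875928104746005237524815057157098068205859027176489451736398506227679091764083615333219256754814244002934613781417391735032422701766834493846530644586931401140636606709976209385782333475862994781325110203937928628306470059788358052699968354215545189377177344077918530670933448415287383368965423002496109708244953153938241916407672927913128708458933016789071876534471375877985129701252585627330443937189575282965641193302786243790135021260047596318316161979198194827039947226475750756643249200792995163667906976308565016951871074670902580320214239220470158001293809749439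3821932504201479813388552759289439274501186472139293437301149191809934891923556393275818702968049072290746508415350520901497823734185110648829262778671966286190430904799551646155815330550606504181115501423863454113473048664407540097870881992520734480563246059682025660456688223728789304333320447364052932061086599084710433668730436369537045269844807240458341190255620806049837115113499175248779867795127005179924966818214503869005149179982708584097683383589754774287534615398016184275300045782230815632875444961825385621544029260062277237631943613811858908779154661000256123913893469597398210201214437566245560663484298156416676439785929706605774201001040253933595820831951361664748091118361626731933045314041957477589884569900334752294060903626886772782779576618462053070675849090951301633876901755896329857667852367349105361713282599693646360886434587812012956629943222104824341413780936580883359372098588584304171700314385834234262350225659736820128238982077354209581833985014590717122706136982686350196468164120878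9431876873261337082427006832244781142111953671601574681172838993911156244113726912225568039521528978038970317604213677808304505546860805080703870223473241997984003312612191301449693232358306505406386266514993572469303800250023071562051834570253533885373898843365292130964530621286175617302176826623982959278321842766054278375372575491964644045196044290086122230240409553958184091271889096343759355086596657868164809836794269307566013220185876884226383506545197989721731387773789224243774372195841481393643095629872726742029030591003054235813361161965186413019139832754849817105378240939867524521678042085892796658089238968419137668611338258448138862650242477255799587020273886585540648129369404066854162927099271138764862226045257997032909931466815187795831194069931532261548975372698357991222467668816604363314386346796276310990040478287604555910294795489980663689481557733440518153262436665787393972026246868250765431100290638633253955240885034369326264126060081405173874883647071595935211251469817511414513354382283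3762546736281575866934781491928376175037345216173041460620666847256639384291049094422020343682673692091799022230145001840589454160517051519363970493522046846491174440078124815963659209442356889043525871882261055417600364914316913923637592691011881221713929421306787986968622976790311991732022699005304766174259832895811912729119226401634169244989316747049747333024974900403235189703163258951832030833857408586066362372313467099190437323573869506344138796100810552270034462911419941664827644202538364680235006222975040663139595262454738035440968738085671386315483257780335326691894929054608476812269829036759527573431124381716747776393820736131028777925459466523170630828774377489852481497668671315542614890150023582138661692855085548082054419241307819913476891739393751789785084266480315784342331190426374175237509422244298311328183426649970571210749401959094985860374697912282434054717625147360584754882096502297774567498588284689351397665668545853114319866507529253350284760062556904686616408237079042377553723433414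6354928562305701725936409793357757926465823629990021883527072660624835819072106600039204831353491358068384847061215714608274153562083806484887804258640277423158914229320403732122351902649950946503636286790990933382698170027329964427680462126020836644788861524365493722577377694225944845805304509750398677600839962973278965168800814191533415288920053010928488969959170816164270604158662844521138710017284480603998992137494771369506897990330786355661273842232367263648626890895200175097228122367274645944758956747490617363236843256380345071671312921996579469729620437842413224037688723894007022173558414506553499408214725411846488095684464899608116563445175035437781946221268282930986268111113470584710665322470589025807386929969223955089957454667066923082671571813798201810505280915906449172818318235023051280181907687828131160897403965282762709284059565716083689430608590071384583898511584443945045301398677135711309274612916921626256557079775134946764206658203606451007081392255737089517803108827656965476614711600176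6228522247970679017572478361487453994002734892347857637467735658715202321656279992641264486840456612663099739590085229503727981552300910262675045864144287127908163063121701707720375865435446369057871160979169413783524778139446739560799954642630016564269196653122814167079109076413679893496815735115947813565334105617131222001602639804786889072895126929461070720829968037053810940607382877768525937365729794093560825263517094251092407411996919095492066873552291308097576231554200781584251381783122581901373053083673114217026883019347921157042246554052258912813637456153932824481884948844575345748238768384015281960180127760582737318498214494480627436748409970830403463279979878384583771210753040789160871524576848662120336471254821888249015064586892003533240984147798399133675409845700305008193564207321071826365758401681588173460633756161200497106506269216006553292095523855453749263956106380279580231789065614007359799837666083447147427482321791122993893882038978036595623605748801424817271412438064473505623762494012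3818023172020945648729148520772632214033586586122194695133486311487951555511925715672698757708175099290464691799912843596741055818804256112909628518800058156949193300020309664506038181691279976243090855296981243196971685185188713643308832911801219263015060536805930801019879369893026319618937851220403941495626606306928563397206591100797492625201224373495952393470516428647149712027366666063658690250070658208820648604627931566590709858673687839809619483023563461725447233539470380148937227249058764376335830165742607607077487954486718064246926110541429522986060014984546861492596979778794820510350632971613986169991111322606279127465154025366691947459664977004163721186969453332729348518410227929904464585131961310636347868900294969334189068919120662462055623175076478985097563550602690147510086551294869227713581215816446278637033285226306507328400478601479985065315894254051657781798735827766153963737007241685897931754843322769780055887589969143546432220871049486215327720874320774984679728033045752564501434123362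7187520155924822002141153217147555933560321928609645431403370889092893334760134361287773785938632905946434783027058661654711042519523385683428738504101941134393983626324200092374273880835335320903040484597489355874653935730220037136005198024900287905447711331455330825411598124268520880956579657259496513829080903486499616352635804986852514941090932513414926970547076356058067931858610615360550260582930366688998365190233882995701235369825519989275516841115028752075436754724813288420106670957174342169559775835150031270197386708126308047669532863975687775360297509502180331240765053590128804077125111608051969262767930216682767270220784441309052061892190586709526275943278622412996411806651221614161791275517231256138440482905063796286100832114273748382939888222818899067832107180460208968801212660778053325709589577670085418825353118105894159922827402408576900318619101071593025002094827589979159995836737843350693864092615884235818372352986820855603537738906047389430400657507728883156613866762000555126960330348117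7672522666300444463936704173138459663294919534344601030340446103203921124491089034638424370702844330850230134120694648578155786174216398051501077653528052406327346547772540085114805619109017024504419971466327278293751824813927451061809799324145954156098192492002630662962119564719942947762853556417433401533425280283189833233371330399540782326076295309725922420787960745538680244185529515308431253831057977072709781052998988787650786389457719045681398185243545947818858556495277180051417853517455812438242017809321466545600973122578866943507409845596824533962248230827919082558519199046799837507854675414862266340876351875744089026887330886163049924430051069747109071958810317098008948150507191005340892837345038144585787321446541440834413781527899079178942842914242622642030996891181592268786390803205496092430904767366389287322501344966458989862701209956591128247755702243725644411810093835782662463675977047658000453205624513565769375667998518743999539077995549391964958551746437108543353770513517909500440735907369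1840656243071430070627937834868543196378731603711813279288626622013765559468052563542439836361180346775586847135208393040601944328111418064589580782357284652828538309866015249324188330852944168326764946429091268785674834002268577769339614761827668727160548920366440403055121240394416927834100696615524755451440663584174012207902837520436063827543197902058729060233711769421354137928960828900178108971113911092723711008838132516779930267328672137967529699784784564017396732147995320166500318714038490883007087630899569775782395794490955634527633235342405543726468095640280641429929532135994410123522503277977215172833841223307123088368904126750507371546782622584317019483017139019716659790228134691165798875011353397194473554175657639801414330458488903642501835347914752686822769408844125581157824377757929751595826597132602377789937659035724732970980384256192331799313479975880483224368442754005729323971281440902589404507307788531581096031784580078207610500392517988830716466122759737093580534320862163355955878559140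6946156110503771569318829289427606574558589404640889263779825250456494188504884179501586280007617985560742366004515078490373102939003216143657594865355920895938214070637217767399231686054049373508481508135095759851825512021505252239220149728449659618034201102652919225412699615444759010277382970687822804299371639187608569494980318481913494578282099278764367521566786217558915275714134747979020069021181891489398738735434042259905839816201162894390053987392157964295692348892072945839866047225960015490647505448538322805457684084519005552648695624670111669926719804178531623498635401372246511556338308940140323538558143849223328248628069274758814358310148208912146323458116289799854157139268693504671840350484130862650435557869713478818963558351858485331201826468878879031110019923763141245868340633275951515645135550422337416384466261485520566652536250185754810678590991609806514653025537840042254753189846110919787830940961027949547912396514519677476801438508865962360593058080093696335236286126638114980739744695703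4841106017520321475976431847638379597559429542635220037860609162411121520817525366373829316239363191681787073307423755201514198096880866646862966994550253037855966023367082898850763543658362292815875948063612391527902737074435911819855715879807444095394040179172050002664622734042694312321610501892718986555622781395980820710625668387472953281603165694778006036022275617245080289366446608710299548242685104108755390057856558431435213660349143185376195699471807344002737304805426954495809713158926428671063954876455025598139353662278907328250343173976937075638643729429196844390752749415214853556993207402185356543539786068538695207656222741578905419002997206417726767104)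

noncomputable def rc15 : Nat := (nat_lit 364752790790085911447820702072151755648782277251073589998822251578314395824746216350672856752140965907545602646483507114120183253808426422771762849493646882065392408023141813076326494760695315373891970503666533734004567736574596949798897450007817902561901584243405144316711722459404429782266898760635454489004929338418957212395654416387518176357576583487546728842995420259697803897840149368819950598212321060729603844037873580958115594369886310517401070552389398672277710968059693947583132252296476335730618171646948116117559886057871564668700373437829932406562783571885953163099866605852782361066386696689366687468130044909372721321159144464971437544307161965425498833181431133699141412460960883705040927341931157197953793529375398277551570569412344755764250739979710235416125481003416197672226347920932328394156975213412656421929842246698876932996922278180538400167105457939733829979798866837113062136614479251503719221179557468493638277889242612938651914785361062196589693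4804800040109250425802156561018208206605318099408822072304384099203224782003352007419083179924856390382820243380966173515964593889242251849161332004681309743380813515338621048859806750239217358917931303601709580651123587261488845086606200012731719928412474778551212837908138421776172960724921019121156118415552780821682255333399619385156363357118535766130436350176598545845210767606996012177032468826684944273649792138919927255569100361868255063516250393285949208893763084492914295654230382603398078647325106555915956851868578825765775785944463980384840530416111479854478329665268058187488976767849930613692369294530157976161354389070520839774642638134115208979382109695001671425104329047113501062915979597059545271814746179674977538223874384278708777224281436961891148682601676532771144278377518629563299624464603669317056344716168253066520013444567057209107243885299697172250786226216940784017384910749153255424073228609818351449055435005844447558904403734364957381026748131873926608721171918774671170638718872477916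6920735818239814196348102849361261575140287168543248446033243070107580365666263385222631800759587704226762011703764680320257308079914451711423273560167940086145669211728997228946488387226441613598947320854363604922276604584591375951707291987789349499707003782265479549689883504515592535139055780296199525429924688924290307427523125235464277585498102943803824476954689525341875101818087367094736621401311667947037887631383169044896321109605786837962205436820163405291362043663084441890108320114910131521398499918680257068846963876298220385611052504430517693603409672893733871595042879773849927702415683959997453109736062366621749312456362268581753191166154747964790539089573188169871250396185795962580544355850249963215739294108805290312339896562165699362605467477769575521301978887903841046825870964619992197207318924760463751938938229297004545759196191913658913134996489688184564241521874343620452147827177231521199286413316632953334745020928950851444987863094166524038836910818700584140389094952320670809253957833343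3231677466831684453412375946311426923311767830135040591084684993231482337913014349534891400464778381390624066083798356767194899117816858311014729575054643920431707576440825174475572195391561239493015077277519447272140231526597709755500420609601828961508295889381971960248556104641593382061794810070692353660800794644583022534268789715203345687775761808680823055602214740633688914902619924653400551991102454059180980798342584891657035791082637680554755563590933821713633624723212610915925280925836664066601155993733168631297147749156234595636369359293289649648214377229968769087877927372576314199318062716002263533616157531563272718573560382166438769034363614541148948849852760338872357648525085294116755892073020308261504243788052828655933999636731385264777256126406345398763028450507963995238793549611880445366526926126722833202402009172791585709338821159893661663875174696801623285652598797946091575466766854619672470318706604841183424167895461600901629478667441860942943766300586618417239063738531221390818254625107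8895156471386765474240400925528277959347433412503875421920687711923107219986502769829813185289094528653633451862106898331974277983950548482738599215602235057917667495762231786852855040920425036425297195591084389025941188077903970093896567040053648739555196714124084498848000427109685835811079668166319163507555390429958690159990701885951194310808263111372639353961708122091354683126691773836144779777309995942189907591623017231305620340151002387684684370834958503602397218546548188929523755115671213363854978301765158800882452149113356747623459690005640480146252432602573594074421789796801146388923198894466974056630914681252127847700643277053553953607172359260021945840535873107542977366621203883268439115234717187617198790176652151931214781962250756544039198658240772693297387667322197030069025909437591481765785599618480680912289817066184811589510849928105804475376230261992191646018027956666091317975730274868671440280785636576475954608974042039454796691884322137434585452258574764041757512721958790047866381182474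4297122691758543392341502169835831049049974577551576885329032742608943777774242233218726643708070663661265114467782385243461861783048464427657118168051923679082025035788138883283878206150921768857754782490715107219266859832701681955869754479048184724000939128515712792004414466297860056570145234076995016062636909806119742887535613629504204121128060324921590742336255621982508866399896175915111150615187033698202727340665921553306890368789425581962647114393600493170543001983765113321168932947849336677151403772583682154072043610346857290141638029677877549413019172372491498824767599510504406320252887255130784852032819736510362098484495485827833295696288845693565808159167591371456392265805421297555322961628867813112269550670530404125704465396062664782702581046183153240884776883133068861041447037260421588646515696343775655383347391465232664088617250331569648405459542459196900638694681733581712877862846976755775550146001420587270315189502471396782535507667930262539451327801765608217015023181471666239166309480573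6468536535296803144037708914500640422039849123686542814196611420743207820462697119650950285591822438332001165638593854437196876281466094648080972142122037160366876239489064211043642462058988655974563880447881564977495823699533014753716088380107006709576915433766163308667082163205130513464869883039701729564294291802634583293554101442523374444938851395009303254345730450663475953563523924788150711195001481154176331344464384038168699717468589954684022212223240891378516610981943328040313813397236698965649224378049003329446156475213288524981678001253491382194899589124833301586162249232657911836270975697318047430777981575700850933881605169716304015429142336576901837692411657904775915713722438732071521081114138269454290422029352571763181525757888022996933425092864052100383473695228214383437457273558295225302569005736753089254323480353610743911418309179121141439831060117772101264728284356777274488444950660606196803618258379467359309115415630043654115119486031448136845752810992385347471427197583888721865522772944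2095581235317147272460660506903447408063609431138756309431074914871808248009804906487526239185347246490649641749077294418959866099477424970589846688740683036923920878897308818349660987262211581667531540635726503429311886019237314725641386932742976642199115264341621258722505508869026397413128638368187016300600308805370016351627222511261029405964297855636742495735992305319002439035718946497140458518017404681864225729707261418139176226577583103942836056609470903096311945886227805661006717093205369825834660054808830108921214135027333179918868984296064777481818736373346321616294038029101948501989739828489970172301441439192829094065445244135669232443375780940626371414415669610622043986224742877961007393868894001955572490191360932091282768097297863606432145881189508331229866770806514787890351044964047354338022765098425504174707556860759017938501019116593399002419953177322816405297422631636666351371919767439018312544269549351821050929873323189034334160418196593641252831898445382225633465825301745885221239304566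7363747321752231431888601065105796333368330189051597823896502136690941766424517717867325835701421995822974926658700111246321332657606997232219137259591742023187964287248370979930514979082354021074844066717134887239366568902489599690655057810673765499864488361083794481221522557490026009229048372231480604896436567159279527377641339544866176153926718055096533482106814531842010340991204777753826587537579296866519449749867076153892750656008388663767123940954957200588937364865846206851970884718537573034443040895200260941773035223906397396354376178612863789342661613059147717183824547419728533569033453054654838505967308985068181359210801623053069272263265400347406848622572638460816697557103533550924406964344059189620475455771438315319120512615318745703215043608652356138517574761211122181584672959730447916414497621509933077347973316949876928875026862074009845186819566738850189787216756569018259027036316429004262427876419237311905629328693902538148955402692359190144315250646151638435209130644576695465181425437594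5659587512693700668160886755330442571557192737027472360026348563621489281608490144585659960750177579312591178078038894303304551623846385227751723512396734805776875895216182998260217826822798045929653866117383362901333725490795091310418004252513216388159143347278569576603901223229372751734811597195005196461028668697876937522659592028338091530908295937006568511857835083901635381709357918256821994805904096609041432813615565135517304946330004216997112895425750542988999685810088227117392734362972567164206455094870180596838512119438678988955144633382206517506746548889404269684259183989480638809744576001132749260377523423926423463106227000668630451368011393626236030535016765518217162143946801875611843730120404497712982545473655144431438248624574761646407622010149023972471037274130931834096455185904562416744658387261936096816161210714672701442630700515103813291498342857599581413474320664729934694233498479588310746256384858297660304256847584482047850169545219250709218827776700127716600801254164577698242549285681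8315611663818994515368708374406434487003009619614023148945744970087373924278874881540692896724946476814166263117682229751508116719184644660339197341330109850955835702519900294757128309453318822418820621817830013528462033814835355723019841929690191558414297582001306473320242609403587301121529857604780865612052572160118617545875345880473993203142758613025966274124427248600151210572268256323787880582549721796579302724825925270355777648661863268302990722489292378572443021554189894383615604882180766910114902722546117100130894656564903357232578473375626718933956677420831212262839831978009291505665252294159244732432482856399676300623057599283136931189270947370829175010837724089171232728398960603293813140268839082281869490038204418508987012008669913993261397042379633413143105936012108884087857857111907550172676407211346653653255004142830991438424606542298895467673279359007782375851611969821550523374865768926508248957809081317072368235177428645425897932293594371794593502161750787119644442510408941399054652101646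5206855387837395482041386590685969294298530656433223423418961086478095779587186824567828989665938391774156347400876046674430180788993729894456072158568759906148431744490815825370237292650979554063952835617487453192202480030599209779520518785101878943472022807790834460708044747991369549199934583327770316965277534355764405227741149010766380416055719238089378979341091924285271454511640887487448581905055868986510995100758050351114568604614607499880586269322877473352257267584618942464925280796707495292784574419431938935082330712399463901389234729587705846575057600433569916936775589163727419827698387870375762619490257078770226628824297882452069682880454997936138301270370198413615055551796181262785708154968060404737347258487002970180989671638531327449897429855101612961049134571769560937187551933358633594361342380750771863315028514814298135592700967490462863872997199419269457071713692892165111229418813337120002960060056312563750877132900193687263088942018072631863419558866732800304427585875957976135314553674467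9207177736832325845595324051761459312901260223403624845548129826185317988855767062846945458256284484693740831675088759806613555047568813686157065992211719609085967110945607100115578175877589909419730468109976460275409997891620661692049120446483621704185634037070834879874760573320162448665967181696554951882646878818281568547196041547328993780897563263423475832131095937819476669954699390965370772114149962426049740649046996360838723025658646049649603495084520710214046159807062017900078361931673272699480850617176813294455102359677268365921339182526883722706799194136193663666169405271183689242928086666912338394027279098514389428187647123351910926460181764525214796067848116196790920295669240601767781474821075660854487019469138763968728214694995631343685521593079112433556836451917694603829080791551872445734910029283105198075786706087071702941261017299426846039753401304101945564817172609501377946065286498360846527684226341582435588273285346894769758344691215621462908886548136534546606360479911663020663051898486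5173817898863146964853589431479381078050985610636111483304459026884020398908164976717539222995601727038359955553147686748940353474906609578921260125180192629190375784365489574293234821252486877697396812258356401711506964163752556266016701565363628410416393116412182983472609963066101617624737930986367223447563444781349191887626943594531767711717920351616380532670292569528670071565811440075479063065347857872399495259162059390647009418653548385237466637753673987695131653030716627056485286871690753271781378855244961815318719954361364534822846156797366219822304518107325867928479160185333609168370491342649125193155949799273690983033858279627634352038957864559820494606469412982702541605245178253596596656485251379062986917026849141297262545898093604045695562484798947331307181899744632062823766498941637023319729661271776346076294290398666777943245956765626362793341713053849266986493108369282092617836019863849545796397467015428737125403950665325065553757318245801058593477765763501332370066428902820509366893188015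0675495080501290224847862502930501002506954698941342443703673312273069293126057061939838340142495860050597160423424333169092406736480581940945536294327664391403558256188057725947003866979059657976492883743456769064211912270356963770874168543155518900251145093940585911856467805398225217080198984138783218746322542931612048670800255535782936777519952661520264389791249162680341794878643551600551529483174603862628042791522534618559777236820513763768854699550967538011089738948579973775934426770945356387602859128690684797309455736828408659991279764888797076856391549844298614453229236706244816391759320947398771403008577602014652192660894616794894752456974709246052978722347707872118197301460976699089452439357012741640180100728678497740682152203118345212326840566804522047185750257095649006740629804518065840898925577075518044653629651493457997304023305564488307034603994674277696241983960007927969932085588401367290651595405055962495400057812537672603261686960717159181958818291021938345624436304363462457327072320774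5661110698133196745205866416245537566617142907316467377582295920873823590488668930911033306237843888066199585061144998327661812775764205397561339804818691773407362883869936851550864846971855966242581450952194776216122246251435194513197724127640417619357442906647407546159708028151869351509844236673067668122457179102691963144335854934278694072371412715412351759132351697772427160619607103921356019168206979252424313618553665098793330470767406695518341572712666068319011220685859960103397303124326637289258069111821906179160946527187957713440193808703238627642200515636390807140053796511575848818137917853464966353703662019613863532085385345350234380325187137147016731779034433095566610948042748939766220889805558089886734096572790429247241373206925997966257168200946915932220378733877551306413750668713300053699468028662853290540536707682558851071983345531206132359556345790060504138528899548420659462919211821971414359778150192032401785168516538873879860686793080350879050954815339393929309530294016729740609509185696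1365889541253434895723181061151568290868446195429388184087618799812723658555562197779975890578392321520588715036598352954549650397524426812207816016389077880720322885893512493589674929191578770777807922701645808079689091177671079109981085490984851801889974798797389973575471335552102145036213682540752496549333731478209828144271513405616985779263191337663438298186859032098371695965913479636511405739773771185649071965183174829596102112682344006952555066610032108549765385310280550354093505875712238646929839093079650859584615335488419184078659407250744798673911127140268830892019205708517047890272650014560215423906185405577329823961199238707895134017880510136883636354271735766075724051324410429713007181044172140729934553781494191797579160799519568970308810223271244771066843904674820426768731544260830620788739780325333743245764073987470595659140029647332743913069323571360346889153022731178400288504752129947970293387206686840125294836004176317696113354493605401611161709963444097184777154828682212209161268425830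7694674150209587248135468990429642827961387347998508814834192405185111113390564062944582711528043589504982368006386818131660558756524680729147755126354401267044871440368831027749706651413152534119612806870768602719721254554721969385014081223744144033057584339630649660542920661403210776269952794572292019719495494378913206827167514906583504193243896527149379824884619848702188375903227866658165151893371261584130826339515199957332908148352087262998724204292809238585088656553199876501726024726359132737164726653095881189757757597586744134232393169799275127396578919135459029892151860543436062610865268796603646520685219317596069583545459295750640299970749790225419993088)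

noncomputable def rc16 : Nat := (nat_lit 365397412579748147805647361108535868721669931519799224698581478791006052686732430086861137917646647261987957519684714807862322254881772495114885137228227468347928751512426089319170575589526909212522448077563394697949851028555606321934830715192811592299759105655892674656704272062788482325812043543503382904686419576588824705677251704671179087129208331160192662852673884102514715159496581396347341132678913938729165181908646963335203392585142377439594720353237174466325899810704329044793367079539363876430349159166571118292151266899906140265346056935603289868757932011835577422269228899702509684246671673008462316035182155585590243982486278301776629329481243448362072037632381924116310338111169666154269174260411704274058036736109830240798412229157247829693946119585795985909377925085372113808007482351049885234813009024900924818762742004174355798729097948885015164210536433027232442278370645831956247474988057316038438817762946450118835066828545325046600197836633605769018088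8985701062434452670042917728773757985014477031192380065143470227684826179126579765085727012109381336522410640858619087680259008944630370722825121486810446305021726664319652776529425377940671911648184945814823680007287429962457181239583752714461570571587072015732498388734126124301578623580248641812704925158197889002692043819016877174805058921435519926198093066491997964401060854325289516046540724659667105251031400162069144782962248117714637200205929375300438879986750920908596479162161333936222762701151738118752178843991188615676364484907393855498694019237249838812118129689948807941493554155012752046312475344583098502906326718392542803854526745054131987848253665345865742364041173322502059050431772720461092771617814295343537622917618801606667684290036839559104768400223749146761208300409234614783902561872875423506799443247727671302742959014614584709531450554242268416381599377408811349467156866012420261475493119154281275823780109200683555694673719813322265539984858041181394082534866191940421130835570371212919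3127332741461558843544541630566327196926745443946842912030183643538775678665741597698647684868812544790067965115188599711321961483711423048797565584121706650283226600294301726050707250588455603133006409838827184765824678121151224019127238658077916914094550863791993877507828467357726652762349488560285451852618865316891502169320211420766343260415455411796178144391317716143467232007044751417835843885456959557001466811290251894744572901245011323312535724652515225232249605338075450633992197947806272344372495324609129466918753148842845925865366435668625205010717740401605099938318619920039485090785578217487454034640820075504567468353035135318744895111151013069741000763072978861762233042795310290949471756324097530569301253441615364072083475439896819817918048885716656265621413504940322561954683027912826026699749452768490924728747843030649917863518667499822044029807080854630262803828080385269521557778892126403002029799208619980317840297602054396185977247929969445017074129178226026483054954822907574437677588999543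8346024384108918315886416388364019437439464729978562075175093149522126432317199941348602515093463423320363150928713527037466968473733741534365367414070618558216284504891874668003535471055782356136070455633556954409599946121584353858309056790862209496927657199879132042036307251759006319565978404718361316636249673316332460868425865436298516156044735392513394322487443448092494617571950837022334940318163516691125666396127046647992488641151184975683504753716499391536646327393583928754707835778301240152210825499809745270226352283799922093348819152041371567033525262376635852580540739298262462631498874055187278697363829447604030456101496605183646447283686546584601749599371279263813777174820287644481787389650504752858112568558729548296267593739688537965992051945558059474574572812839106949662918128550754789361811574792878309474473031460063176441269149596419824414789930515042364470708450864746742194172643003764214047262081441635855732107908433622490282902796025844547183265525793441659530482185385821711603734956359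3872905234873442371810582762330134734470383840626678411234176344915616854350700362246196754778718153476592975147275491956629488703003899954333921075406454416439871729484436968560193231303012034460567078407816600427268003213747910794830426394140376349514030549683979360334246065209420814690380305893359055266017943182862600796776171700566033145105672611243375515089139450005591246468443889286584767690046301984224306330834767256526354452890475343490647585785910299902028306827025399501961896308939320957589360458294461642211713533495152984276056921012629404428105777989976091739198900855380238085455622982272743150955768964794812382566081243629867016393675637708618237489244249212818001324204984944641626652201783382918752968597236650664769535579220442279571675516341387475613920460128748654618538397631525089124832257497986913548256687042646726183978872987585853789249877136034947350621344692440500072998923065196379334256126412655380815885518933974693092311832189702507617618130067253464235768137235863273622160318934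8025972825886470213029262858269695055212454118250070953149563801546735714605136205923270525633075257606321341366509010307095811699794352398012267272809517210949577870974544039947814354369731821062844342368614664450446700189279550416887775757240984399143795673372947445977286701634866243259624610716686840592979219406119861233319712695482441805975145315070186002355633715057260652195347827394904813110531445333264322251477469399397417690758222443665008036289352928207438455765481117520697288092173756434054765992024103393038660812551011382282135360132997578279601712066905724005002469959764143052971067124659656886469155658117640803286960601788149726249961416051159063941892448939084992431500275118186877948188910418682467637831834062179450043688057857660682447774641585680065250248193314279414710512276151757748649878538271736740224902364857963821476498082738099245351222081205429670035467825823884651823878440647166897069355581951395595300543065775556110810692348589462487223752705037040880873861389913065460294508277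5039530309708328535622841442869333900926518918018045516353215479062473478212168714145997776224114603420357446942411652682843317759022590237284821893026066646421543269810346355790305160462376980972041923533612009343253756178293725836153187845163894286695259990268883120262792780508803810879848607271400653579018049652051806707075220528841709105847967983865672897653483069734568220732495962389010310946265006138077563802639655602634876809655431409866985951675143075605990568354792690307560712661289114169060521425047154826048508818320970544088932379534146336558894047047392149472713753477453933877452968631876551026554792768648091993520427946010621151783474126994684728278889156581068667632543270039643826319715271048134372679694434104997961731972507664040941305219189188979518696413632216242298720982565470869172925556740039564302030218335975642649985520091909756420880470910446657935888062440772114053759964356564792091160110189853988942677303450549656218000362308777304866156206095725618986231815348217814665930898165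2122023420371637012596197531072238338748523553891391766453855941812609736085083585278738136868545313027519679107662681668419071861209674410106731694459026723079983905754018335691964424021746492995465622162901017038130998018804638644561239276738260386324921681073472352022707458715501116853503405163292374493960569111191707773085462850993721528920711352353265886626327731607554989659539653503746074789070384114231037784100247377901981549413853633284877614984156963363071725890167338942071261329338054892703405934770831529215403665607943869827546345717850705020400714900305131944295534097036173597350531827647877028247319308343219181934287131688140916356115415759129268998809864742974600261883549984476246063977220571104978400519049341235708161102927479213612046988924534184890328740610950133408513955100478034103537272921177509124809984839346889931381759657935117622846671932635328522862562449533663333503957295770268918609555724067244459175207007140713954592813790719236094102617748031530124901760375020282533254565905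6934289785785959617414421743850358507754042679159300123273521865751543725738370224884990199531146697456018108522398927558769165281967133026990083042532574019154974632941698266786213138894655007768154718847910386973572702259722470108804280948523074516955517730530126477310857106478774586911233580189318849598165121819625574980295678080597164603876263118571017074431566639185437862128085252534924269142273121472178758128753695120166666599050410511143737197482010884708380698487503509682170099027144336341592608418961856982163231837981386855978021017403926769076948372697447558411592596986399617856651829496914865752204475402669248601240179984862000172004433653274182154802203902996187815122686785057755228428320735019326207276230354341063709929378250597269951840318258490843809781559609685562044919872630904456792749984469993741292135568751431346412502901813120051359113303473146581218619808234204487751097978309575029274441464521558693459378058974621827127691219929258014596215377757851624808831833555538918338537118285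7689831890659878491380491671170211809417284764604426043218399557591529414325136283139075772983511779330369528992203119272651795784910050853419529711768501520672209192460869168425946363607383459187156912122122523412014849717463238527862182273124313126399816017660330834202074967016656764500033291778049755321482055118141865610884473637076609610985292902171432816651936472045740769771719774002357510066412571874177864544283652990568618024455706058449509742465319168935173603687661918097156608903651084018457761981882954085545398098562755482236034535372643029681759931954085122947424361059768203669143047125386416786127576643117287111132740348995856825429841326253711892783929369447399170640311510073653789057706146137554709415571410914887352488981851964578483365668367194013386001821927311190878255665393242299840189448752927316371729715925235140173574601001893559928056590901360532937530459448749184998299575087176416054776806657565099923975217866368534377866430695539041900071838973780697172111017385218838864175266804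2696694427004336117297878635744607902207271199215417996360352606091891888193369431234331130595838387213673107881165319755478470048601812184893806786696475311815481749759555717002977610998957572632767542302312958250437018552338261956403592087626696614487279387321646543461499441792876709775217760732811516029760990824759875973486254708571440340542823440076838428437254519641629635179802118177804771000256556803351373254640510043095344664849815549303658517907139501021320808763167545540856131417349291138343719251335925958366372207703745034865817000432619733982514084177612420890172397045599891300638894410529519499960964537487413086719492053025501319640194947606048523462338270642880220099172624103390692514819599385529675036174209930821633426317651679516531645172383325159053140065573017110271401529504425053213764791291275962616527986514557853855585233830138027898543898925059840212756434988832745804233189252767344070905638774115617827098715120230187337883002406013370041905550894030382986715477075937518540646088736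4619836716545405631839303671270559985063552019749598405671933216790301313057335011766465457472623268812724085967027729306741952254689769528956937668508027904215256856081944564858657688951136233638052089097764748221611485375640954767367248324408402688509203692743155388624581692803761134312231096182541393664700822604357813828900553109151914905104746131198773379702150373337084516959368576270062687532986316479900804769920475261427417999323426971880688651428414402145296092171386008637428235928770974848198145248686902831700459914422453803442381108241035618793089569672256385670389183119086047046831991231818613127368015079706172089068931650290900826431486894028153762653718428720299518582029365318706717078889524027188683869097094499123933980180680468046776616257915645878219941643238933805133716903416941387480296425407609087591860649968439596328359633147529077234758478625187484192854513906796493504204928820092234011501903091894511012090774701468738141091776836404684039577682554061822593876773092576072061286011862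7418163216878829713059719117364767547750421407673410565209993741111292140017330193417357943910482916185148314750356194702010238167418246986641880155817756197597328788206479972910724377045048816987193861381555860820134259765072486650035719899223492976219302630558101791239955744906153826883564003968527343539990043380526129646118771914001173466265449269553710398612487253659802396972996224484584711202413919887788831123852404269109564217321087620181041540059896684867804623818118404807376385541301778953573430122972481691518686951689601622628032503251343146012148507234058997821760474728312644436611629257712056104580072582391700164982135778760705787102506809467130599817633817479869145087418398293547794174844672043486184348748649548035616805155317663102845191661043790988259310807656905554171757294275989872661166424185417394571044371190488959776262147812445169894035314956138714337563690778900845919486198934883322980273914372047608684999709627431302568805460093533441388490500244524975384987418267781114741359562487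6328146059391057936477818055062848502819713915762153192013212151207649723198409827197545727689196982739342267535113873261066155460714006069164927096318470528079757658674355945424900878528840865533933292672844990684672763802387448664049219336747952856059349486563300622602475922590126208423908219398801311383094284211384949678510472520657804424570966066571645705891793981876676877030293110174586893428094846737373788148368665511482846943941192391275917194710371953947853641070461131819625404645315171261329537240482900793414135875081969180972779438837517962609053325881334110235514202556022999943290181044940260941799815256112107887175361789335769503231219047625388732554731369452809575770627656351583103325076516797109660397633337895063152915521639003072153131361873701933209065201458126046449575870803306660369836637598046670650443255487571211036164444575109553815796843215210595695491925017817901678448851359577165626716861128087751542468210799280552882610970999701617309492234896552117811812192614127001901115635441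5253234206993612567169172168005169324497270936722273451183244666003150119556491075488084478022381299837703331882310797537134271698446320784923649060254680442585160653912657935480899957397099682548971467467382695658485293749654415567294771290967767803674089617720048781834541382962720106799413949099461005756740148443580413285186778711708274431030866665073681082725274197416077614622071390224000224177212506846293063058102191430649435328275590421490667157621263979559495588580738264891404592615420415438751583225060517749532137513154852920929498193931351413474932786419869484966053788355095829573549342448962759636884776474341232863607690670979173630988440028699627664111320958665097814107374546548133334763034527533271252210093689682570268441501739462846771106020796424105343700956099562071016101685076694661707213077297332857552896758005932590383593434844016324472965561035492627720146413443634977366349639350591543005038563269164689098493189867582170265299596446627169527843734221906827093901786990456112891615504990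5098544163878094236316632942050540370907464746062114481031372034178453548059300297917800542638632385840075796709882664393581681507894087781560220213579356552601930544607602242590839481036923966760773456772948611500230986147607743084625021480924558289927335343854351604480521108155081287601035434218205875861962244483777551285413753159818872657364378041468953039301070671311827341092775201661288338065132455453855127012986067059027524006248536875186758546768806055287235738153260855351387042780720422501021277781790027334972943378220978164587976561208831126409787299848068929887575171769850623371277634106332370920315139129061444958465675703415892377439537739353222732944649016664745741267703235377214659803431355616558325539684707813093317659644708765964874470267489170990188808428795836405969216203203849723086465946209365860633733884127814098794634015173994486009900593910738447500421657965007212527722759188190331895603459120394565942910440422350765464877403482127928304286128251828476729701893328831727268316294517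7439743835931734016587431022156191281157302093792648116722977746950821817157755859821696206246449363579944444603231180507720766146898529328318906561290529766154364003818578557689126087592946092915220752676633047878444845625887115085417335946697675585307476913244017270113899161654770825346519568780661544418645605369834058753502415992049364068498435042313326454073438296485022003650800835672567620586967933379941191941037005833357157947903900957628045744624333913805225909047549781692853164407244622933643678194669891601825188858657321166803737900306154085460174325039439148939643035210558609321674948105755078785608307786110284264354861251996752569718755831618312580174130176316240759718247918854753772783093894170581223800792436180526923678233288179163531801034314085091086457280830983712560350165520997355051138638709625655205799445482206887087278356134754433678058333817211167433201007952131699824528081221090557244313163183760349603991637851577263551020341505534951756437926287968064595040473437816551441850721547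7363348270175693748665538966434204735414580253284239019713903684125238642663325355855737992816623200240761811122037719167545999229224146509232807300374729704304642904961778917722752926567596304686179585694925642588023359874115962955969365055893759726216741913655985385918313690622653613214212812117524746407209847381050507810935205984994507839796973968358421483670316730731017997941606159142726192962749508959088622362397079736319828241781581899696357467326062383754607859067711037579286130497747624562833200169198717897911766660954676352778592000171063248238170428845943280301900423436404405581420569322622059166120250332419856043410391817630536461095043842591086870528)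

noncomputable def rc17 : Nat := (nat_lit 366035719698866431173224164380975373937467984983260027303437328612217312224356795696406005148621415293667324669180812146880706091296680390196169733742472851104933829507438845344391721131547052042487298634625514149188564096268623456039670049774892289796004299666409691733583807706056309316979720565938025366856196368808063077090793567576271737372728714126679235063093668182197690084454782683110727967015182213956428980955060741773294540601530833488043915351543507417607447207650067420173718883941942285207026769236665552274101492163121876316164883058499029643421417724505169106350645220861303436755528276498096471070926785472305307345710763620168393226475333321223469190717212208329470265766611995656258692667751144511827116817612695685693603359622252493911791456714734441214109608130202767399688676066665839603408311675598204818101038514744913093671537982283718340821220707825133653511973877902068758816236562915976206442985784420087928032391704025809011492948567630796063439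2542531528592542486776498676393069392153637589735450480486142246638963373772336548137453060491595334655879492284937254785450299656947428613677166053535589841925960103294166949637992415182358308794136339794733801360105778902447531361862113333869581636181730778257440119584507578879443587279650713236023363210164467194753122115946646667714777585836841013962144789324115460594826404352727147894070973056557079397466357338786070252376870101006712445056907118889126178885798387193928158801756611528593741239252753189601857183273118958026210109740296850394939235235885633955488544767579018800970677772139826793592544759083884187596217624763466602592832208936670573254823525706488002735385417611011219563272391977409953755678290203565809128121690586887073143142501250916534199407689629101615561338846368162712912540542407795239070656770829185769226051009163259054531012014511808638789986477021068010917749886800463127796627401555575350327164757186401682414346701307294436738636858345379450910432501304051651671003076950342193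7051407894604469796815210939803433270711392259888305944405524387608789619462056831478010132324699253543001751518771777790886417242279664463752896786589378406803838091824033608761394725007810492748304355225382296901158477319168223275705639806085214415683058095729957977885235399914219238620213957290442687754286830364419123130036862744924455779702803952598366073537686186493625444341921495023227916779506067371871220075597404752412076956069581897064349605880434288903608255008223629388916800240037233474206184060629609722245384186888055646291835657878356365884355715624140582927162198054286538671225267038042878691498493416142033208211066787218130567997217759183013445626050658248755328856036855966459326599464795351531134978908648598924952216604090040743265713470364387805384724070034844925392665027523115793535805238212241598811660658890090940270032001362688891108951910542919918302839707216060133060286140025345960837397624882829908596445423429489031278999389590818066642958195971254547477502828433499136953057265713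8929126655781498410034294967521852182138793240119566348360754141313814088513119382187871401968232932855991800164532665733044671456295745683616059962317107945940082613189597269715171468644671568255865023896041888434567770012866364850115358209663370897840295034330778594312645102474567220943275998706184195809278117194763675587492140395237477946568551451231765394450787863383862997052176395441606224922967889444601331637374127441590665275898698950397569225222537342169678480241483029985294326483607973770188971050260349296999160680770634763018581774215290480000599947737914674719302572487506014244054769410876541248574640390571052495293296715671681977711946242751159464677133270346226887474856026369539112784874660387934198000907586296489011948343641959576832889602944663899606965751059982925034062923709089904411713318267136505614313705830785866771408071132757016371866478214205406781178802327501631176272339085550961276570635944437262561680006688654224925349009474176341919669547634314672351011569764234208345447337805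9582746319636192152502459298790937276975706287028743681833074442406140245778970597485672705847609648747591002776102759654184469717279925705622146185675460968110807089083125300321740879831485901839717674587502821181739082997301589693140487407630485750524990341034679151367468971397777878344746880708635771733657033024964005729840973016292129324591732786891952281265214342400876235256700962471937933328485718412791361883539146820305038962960945202527892947945223271265285446579896772490160088920318692764012465270121179617036549882627489736661909931065990699650897104276554342392437410896234912884246049405973597028512917153918655059690404275170841788893285623218722743005297324786921439537465278268519009332270809011250626944516093190039170755977723640384705527068677193709536374139881899484306635175613484364131734495308067786633066333698767233870571936701362330198425438802278592520974716214353315559842121628487352086687283757590652465604281197546402460615432313381379147026484586939710389304752339291162197135237640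7920002840207843845921625648577685701313163885485430205062728789613617271188527784497642883762275243478163655629935377809355404291396559552916129474066624102510266234874472348631882344385878972766987949699260022249456831889503664713734312293581300041932118916398050691319255827771689930501053452961590005841828815165459976844752481201118674978103943475336925569676910138061857162408969890191930817806721679141708460773346002048120550117605344870260564569459542125236638329387979087411503226638777002918452453367411205017774491853534251472729238148249341236516564549694541815193954226230363268540637837236173451372709397662235921112643558055918527902561881862365128986866036248832902046946329608137003439762138401018788978397040892698822774996545806155545591192527867325787357865831353748922311146471690720932229280606000508727047913208046270747686414326096054546403995627862501454108446609878224671837260625920448137631542249539552913399169255571038577156793450929854071412625052163800106622280685917214930076942554532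1306887374488291398757683764004057604259051579369673452097321883061681912662646863756403334371776288783709398592579139822527642426435526975301391865321436825526266095076135015932737546044320349787242338487735611419394688557093171138696570975652610045809686883443937814450373672942933001080996221812766504081146169009907187089954294291757706687583754472521876625611390352285734986199774555090969059300786958542972879805560657017795709540127630669272669241038857032866874138183715315830459316566670499757526535316447444836397628398303242992400456939766679877752722137235112567256447305416050882975963464990185414625270415398294396850157812398953113159240179604099242426652091830000818146795522972174531695585268376992515854133285755503034750820500618617957574104078415238891096611600434388970479545535292546341246022002252180932815850623197752633794081195340922127851906553713266754822571712934034715626199879469745006801467195864480734079123938861795016875942145522585168258252346626084306523510390860981996421665623779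1186381850846055465145510654332032833020817602936996945388766525914431732535277986800133661161412617739359636055307851860140974310109934422799863575295893646081549243459320984118405328770061591071935564165686545558584686125994309611894410942828426637489294014916575076195223573610971302822625912315513373138490187258816724828626076957883359959269096486022295782849961940544928883883249035890198248849409151803258641252218539665215679797242688941623023865138533292049373728246418067554844353225514036353163947297937136883474164345060444403992361001891608445461136690064797548126172516900087455473929742904723089992242119342211013986219813153718749084871814805057589077182789187909937573416209082691365303550066889239730980423453568032968962507549791128631070942102115578144854587202004907904850822931110224123783860567055234116045712465017170747206821203725597092114612592592031719294104083629818946389336210165600086743159617769284550575234519821596738797516001134856524169470973423460726342155091830966968343270819414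8457291439763410266554380174661803488467343888291661088557188089081644133009218164041055803002659985093566564173138606197157910399150132399298942337054875004529931009040480086756492814569180474213495315911798258998488768744428561686978044769946741613435715999903093004123244250261114029375783986535666390468372616372740805832872615259631961154186270720344798771064657817741769802144107023520937143852442242138732698418712542720535973046635278254229676064714104047827775195395075612777401348443900211754601792318887945797456764028837370603733694332336687582381277686628011507099048979335902842933402365303542213463431599462219749747903904786919487086007466974396606080202629780554698777631311181361959837838720481074776809037889135410430140666176711206687124159853238808155134208993321550832687250114497366379525653079629856541623660366629210624690214656330163838851520183142348141748706297842244004733310769825213761717866571646585478888542224512566164173258753846543127361261611414158087039052376630014284554467169018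6583858134409461748731182217496976067470006052215820291134049346992936452294876866014596597141338249751219142406250768653921213040246004706394787276063712245214685220642761069530431219853713614495486849598791518557840132334082512832091918803726180357130192089957978437952801986054355801831543051014585992050955937206206400397181560555973342944973834644603755449603156488090021994299865107795720055055339394831133415334930555904109811550470071906618713500093080387852078465634199004688462023835999838796437369272356443983441522879139974365647233079383500827019585636996416557855766459816195675894418721897768201384504570987169235424373648135971647651974783497943350316129762410315541279275615098027323998248118283955628662060414116443674504667356077574797409943743999895537650618607307498362449681372104675565063546952551672563064552335243559119991429907807127160501745794215704718505104188330429803500594522986046920111639142365682276184671529980175161865373249396680485712841169543967263323343745699177541905402735665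5187503357419783239182350144382227522685615482358539697685813664698131951089314653821507013164239529058885795528674653999216736818230056606748710536338402886667288284645177818810851429080935181500557824306986302291094346425497628622712474921958096387627989684058708689731678771585641022711627769567224987914695694915145200724067319850637072613174756112587461442021055120226231781846848054736526202779443977109163591570611428498696694968677557689752054244299991738072777955876307047518245043691211751649370950135120575287995233063110805215411935054833761845668149195611126709843692709765240493478563666825275444582178923065778807849967523376060331052734509225086254927108266846785772521299809608862822594087775547660639525913901262118602736438535010662513414865295640038986662766445142963408350658526060313271975530929826444735983139227096376555168536912421396106569538340043478874741279398406682725091350423131530489640394854443993531755163988130417159567818455652680570778766963662297122479191185942159684154791427018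3783756292649323769551402781779465397620257283840377202568442841136855658769336403563996662822349170119573455118847900759319012434465019956992498642917559927879634868956103835105247797834080494996810284641577946465782273565759925823298495488466960344137599386132271665465503810539145997535890356941543689676514366862112643536242862151675013775418156475247256559692314112339703846708897866719920936757696243741432027678490779160189638005066242020546935857561722109513875829536326784379845998973491562542171458815082152508461018742965907673383176443862287464956301856375370397975833846312295391166761683370625696778380213968469487036352623637564546624073870052606345706145252819439114906433977137970647396692966588033731515394635304236443530857184532694276763680186323193248577105266556582188200915578572643134454502383224475533692681831789075926450221342337607788755821961494426194987111485103360990497115396131779002939504790455989053686604971580880043007366829404791610173346884011801317179508204747444572551620846305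3560410052325591883441747863676418640075220042637637798822853892489179195007681080996524284856567480222258934412065295384587974108067574045277501059671748201438752635007012789411837810137756782519528608271596614238207364288900670633878892296072836154148421988639849147393163339335924506241799911567710336743247095553491852727255278122868164259396547585318010223114321587109381976875089989349292479651674185971585601588708628807516242052046708890873845215171192332031454134292304141132238526424990756659409670875642243784137564102266883312172025734132907233532008401260949693825386258230529290049949547173277350851570008671650453929212135130943844942026792638427868724030082212660747164117510986033198313882187211164578998112008277360303687899667717571372068295433196778950837813891722217963115201555856216558613649492827422232836652725435942053307527683905728087023813848258929554574584982531098767426982164622806124130536074220001360884914293574869716878330002059695012344330143553006579954104706885416185483606159854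5512851877942397959347032135059609786269993555299110199588946046195831116169321267656614985573316842616750943776761468274142905559533281285319990505141597824286104385616708864181498262022701599510202904215817487170099826586062435444504447111219396529826388536651140511148686997351792203121596044433446882770598919470420237001711382491961195419768181409562161291776604347725593930013833220678379078250243824589321158332756598815365408660977078982504128254312710593508702417532479634158632592547275354262152462240802495868197157271006957765686430985551874860798925326420349247255063117439324113204946018401139253122356444923267977311209972078329454604120752718504484622450148654748735636989600426599670039861438187850555805416925554843007955841619549881632957578940590826610768979750942471396534105778165850812185542230922735231987814580689741323587157143384184032167385546751737604926067065923109301242339939030452447306161757915590490069363344898720223715068318826070733650521085255344822286615756422953405078921227581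5369469316234501990486686127096899254336273060796801796354362188989146003682499271934891503088130256740751235704918170458397013540477382938553752410444498505778585613589752784498331009886634001082824623072420146960821095644103210182827654039714825357081552506185099096699031905200267850011537390517688467654474196967108230091486839056488888350882071460022933969599869969251988432469354252395494539855588982463228375841189296532007157882861630056361745390962996083316132008807325214700270377543848051938567102622223144338429346203676520156526319240047714578884371955722618848806350705286344863983098761991810311988601213256437588106405090178391457780102704917659813791281292567800910584412995065294009987592504715109984814419483144159969403939908210222914237203851918464962002377242152204870541342156031929089177834079512205095809801191940846777729320157803811562642982514206308321267310024219725275399171347571024433824514316839857353311117547393475780897260929556951127977827282546560345360152496541547749408416981375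4937562751350823732637236310774607459897142116232468203750381643310441250609944158344197537098116054781703827655011692514769224578062536998550187894339705561246820165720951194044614697073033802633413303066292066156110775807550332038211812321693558129156642438249464446558643932728043538869150223858357825938534544284669831642749622503632812716638828259107633483941986749475259787994439841125983017804505319841463953751965201547052077091184368005868808788801757668675400747981396351672686044820144775810885811157740265790776521610421645016704012065488434286010468966053699353392524534799495037983885604330209773556960213974112253131436354597010564379586654735403422341698438232106399147177889066728106111975091844843264804988675176936053544454168223240060258294349716586192526893404316399863939099537790277602409657231046615593339460627227534110294253750269742649298020289349662381129433341006635374168423971760681600931177202358290508636355106280511334184947468206040515393059298324935027523785597794020579194559518869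9809193892678552819638662654336617718256095545833584797831228189804253447200165983786870675784131781327892155082131023595886987177791288262175206969301687490215665644770836665106612981774457552435493158464526485950581965890015213318855970764173787939007633277087530080314878132725920017176799350593717767799684654337964664987638588773674137595492626992224440998229217928436739076369959537434615765384499087542598818710077793587989806249120310280640774425097890564841437263325132526303170024128673316500693193791418679968511638589691556131344232592188553147545772926377259648439946755505734155933302087829543616530015155348234762804319578312485006999942412870129653229337248426823324972238383401664911984412327294896047988688608260430720223647143406886417805120464433635542234610703983845761716975881589677534277618924344519338466381680032931934046581680079295758512911054465170105962244722936237309224464995746961523318304650520572099265632334143666834292594034108825898935595704396299470087586517225217714698924463624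1220039836873196370469737710911076603876629537819223429250210447972871140108336746537488956703906224460815192211274094464079666565184299920992574473741080080473989724420684011865251903943414427879826863863375334951626692311342091263453341635783940068734957827151475081474455387516641163038386957967893542458513570505859059639566999629515826173777694462235766802650929054101128111757308395909552606827038468854112150688633793120309909110721812014548889233778607656540323051193142064605712354523351065276441058025628509295077828245707549251675020954033330749758326443833305467628408933848685447327168779188929930259209878041186352178418367760067600590952354035169421688832)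

noncomputable def rc18 : Nat := (nat_lit 366667694364399033368831301332217887450532920453823459032877261374639402185904848627776997565969311606737986038769986223178512884790599569777766647507378078326674023138938762582713717949318870034538424219712997323515407505283216628462772958105059104203555354318122019017027935444751613321052110213152821037743589360596716968145556275524978949363901041839001276403103047151521151798917640565006056961501807564608150506970560802511041056729783396912140055167651464829623027546285890824363295628575244994913238782890430170212973980951479149499480648923409686979129860808747607722379474282413048160395474142521265140393832745195712993901223797546084525566675619938835758008373366780022908210791752628972560947968805647434518825167503219262018837510958902207120518065821475107326225772351854177885670125611675034912510177923811830189076149087912764839159596742590091502893195699798295495993775487272493609909210656653487285555815377073600564283453021352734047859441948812647853886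6083082443332022143750438644102935216723528462001814360976829438714868143494531995738284982507857797595379650631287910538646516158766798218882669766345631705227041030440828964403047398851649873499297625586934647678249209154736782777171030222137691646465459418709498319020333090745489233027171526861434100140530082694415066744849913482385949930049088068544003252776276127942120158771341635083784337439470049888818086013663372400947295146980503466458148680876003198656564129763282722713400035315068344376419498072901222760597009740080549108442297246328915294876290495697322474248323526331264771437871071909848439793492277809833048333137752477279762922069287792633450671417685423364498609175151104872299686920396511917353054715450948584843564634535622952275141201075790126059374058951268339784969441412464731427063360759069293814680217200713916236454144823219217678159708246333327720754198030746234931343758082932083825816888709685959918838533852639732486871104249098454171014212920772439961012212076514014242796628300476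6459102179041877391928109922954136478216349623125154195140635408281769550892573364117034362177852675955229100674026313890258554246401514472572810367684311072640132162809842591191561786499944438058590770389735380403364951420702249261734551089302299294447992031375768741443154894559493379180438975801781828695806779135353398717048541870353293823212924986971050628837778103186577363536272614351423760574925024431651984677781996934380601190657681374048173882941333454341603647340849841575638133810915099408818528738555437650560018784573309072774137928184973284794640012662300354303178036323857208739394126704934723674453198438149374677633761328930351953950457446277275935777172602582046116091664867445938204244812358662538506618540398731247631204710452808520547306320619978704225468178725156902014817398032268223356355036262000269725271499250782264128387003413327290239876651394534966878098881612527867960937808293650578818559796032047308314691994314655804202012996773991892309490205829197172326215594821281617760696819267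7838465077750345203611981176527662118012029256161638563921766475938732682364312589667809609112243403078976007253366144260345683153781980483371748227010971179260496541719499655263146341650860139322034381291517347125052781023752245048740693721879490343984354880278117457296457994020301710813835144499199632128286878418123742524680631414523753650045697512157965111978465343230182057851644398017906286473380636812738626286496984624199690907733492149732461326746647455279798709498849202409418881756692291068157158699555541853727152360721155462723750650262791776033715007663937212741201794630374694828378974645483022587368331202662760486632806044412866704410754458026150442219916887863452644281713570361266843044785173561538335271927775304559879650073534224872958841193981664748562019843836790402523286693066059531307089665653007955120378583760283091265032625917528169671805119689255878632420694234656609550315929104737900290111746849328046437199143949082393229763451025822777280927569755549467399512223508542830205020766354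3071886228294809135609961802517810249341863395650713434910961490415581523514765702802853007481075916795142873083423491039301911259747986910286606802842036686067187213961500672784821611098134738187305205309065576427044094836071618078506457586620352579656691633738957814902887639066759243109629261838352079523642050985915672173327947140514947580425334798347753189954426912091905280441989125977167401867664499756861775183298621110317151702347407916220072824268940885127661024725174926462959066097998594443595864929722075861613077072622573961671418879087410452406446881195566188578058510470494442314368621955472433535232935471315435950665841662618272025831155407401104491527240238981521417969964569621986753506248071508107175508153517837714554767533355726346894102002510962813318151065191141222903954962021420876011799288370356293428370553356947469916795189514957967278594909009349471977394337353667673149863166649387657705282798931251864969892160291280442581048148614183800664772757188367607435147133101618063457175806034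0385854859409499840427552471236757650016294253760581188871690954118525493591817963529072489286845747048964088730858696204586544571657419312458511715506327768607512904469813076466356276923354805592815542910216951738686735322876701044441679439413528294467954633282227782305734112402386532504253830683443015968460797241478683554943757769059664341936461083282254907847648936240598953251308166138313403023193879481256749314450222803233715250012947832124217606195882584037663928223353319007753257420097712945186945199214809508548935979487878679325012935093277366851527005553416208011900596826216542653369074509563088640800751921250240103119421866496463237521259880972889410681114596406164365904043671278637728157970871484894456195447808549170553184714498580098807199408483555501771387970337636202497858802009618108709325170828677033567551767476771938783749351281971325378440490143375087217602255133386423222524630789110420219321556064132185670535905869238213228726535034987169287510313566060504543979532377606772662611029451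3820292315302961231482661960096534042220666785805362189390317877773196982778180596542872906424047849680389723708849710927737089249359502549341802692359360730853001956743901539236473082985925850704147665726151497467875771482204501337615748004159157033228986151649085550894876945733470142932327239165581407808472312470491437437968031773598417644575561303486334586698803798471478120484962518546867610093102611173689507003296130151583951767135775550226541062892439903438237575358378089831390231860334448134201021551099876648826846781806438872172382197480805391747897300909371873369796214095513701086731203565900129907640005250780377448520436599585513487311688098608307253785402025345185684821311851596607200562786352694942402964028073838948527856554499635607361683821453630017946998321083652362211426982612470381873629266813058311444944646197621903492809315859308680781363950466191561487267791230421210873582331899384895360497363249299133163594423134475690921577514247174254995318428951511891566958828752517224267191119023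6983439014555487917880016434320531813536737739758790809827690519774320641152299498458631117618645655294830089007442785901412707766499026514996097864793874694062893978645693376717498140207253866099181764548649114312910517509869047032622584900076251028841569978403330172701128788913899938007706978851271797000955519286081694879578995612415765464436051428846858631239686592893220150811627367749249911537054864266531916906945753614507624169405119571218055079444844406403327620159363856584205744066122380896755783071635501149062431231855253688075286924039568569511141810322865599569152348612201537455800651210424218460769788362159794224391996134518623533774170189013834007603739309879893633133978879658883995240490411400139537330359533556005399775144751924999010037931325372304808530094587097643747674127132779865018917530441783353820888792528331215563451917811293863911921709923496564979141517931326952798222966875372822110947271828037993188489714967349253621507944473535281320360727764683077442961011937139911896814599724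7518595598610918979057753427923732970526170582614027755218452238258912146201323920995692481173266998836885566665423854996360276331712169402527475908883425571730772512524433016480168074528823459969621348613362084735823315143069888225093889506115715565411027049250088821964842915626770391141953018717824834940224990057000117399919598163194457589698278856480764396768995824521837977587674723087729099844946786759880976679815672581161070196684785404489507349690036519895332189786197881967478707143897034081754046442369641844268660492237748425753102551588830073485973227211183210496745155775350507121447578023225723487385329300069790341023621472800254370203500685192328383801881848711482366062887897116972180249693665504336521470290049329753924384646088836633605850862268887003810335391158561893142379576094644645035618481467276647945445465482776394410336138320653557912464090681605459925896844034277016209630897563810457000346768351129382001449016545875810094566901575992149591219180670782807323723584037508090766119255987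8960834782245061524829538114553641019290065345424586230422555481012289998259332235314312317335963815039927969182832553318348498582769150667470767866756890846280313402528346010462809483061947631145030746283006985737048863703742661283590779264997389491847816305199075149800223216368784759637730266099390539842110188639464252028928596338443647573431914907940379654844339700728941579559105252866683232767595775068647724681542040102741420972060077394601803791365628847508816689989639244408439054069621071546422708308250665292171879965979224316445876127195679989072207253261280408131254319569842000356223692375349326709824153794147926956880259156938349761693607524198422961304496667964027481800651453040375212155435714129412185042245839519693539839210427791766803665982125634260109975212775553594278629829617523288540737752793309847043980398860102921488862366168531022147738514040671938826235463706874193820272298409955827975179883789670940911169900737823879719698835971120858557676763276597921643575164306649701831097187771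1867424700245044938084775656072445015222840243028414344839223299130049115842802222838243772408289037463357069038014493019536317669305030466406805400297570650889273359933867804559335919302175983722776651101679645787347664035610849350174523551834074077061276449895594006560511381194047774465753602154493544088640301064458161553240055632611348449582591168001179633262478044690143455777992356724518275971788749846050399936709066461559902800300929275211762827782018689423675881660476656352297970836182354742707983832414432896805777942745938878711270339149945058106677614906674474559736177873939159552932971916958040025282826203928346145859549695478881581963523084408329573544202462284184653173089418139776512955593872307585333148304026301704125842421355757765166710293481843406498958565242436172092048468870541806971392313217066562657235409248233940983077608985370841886587954565833781312507822210277147115344469347539718542990870880136459241051514635003355110415506927957473820751880522932595544808340947177122088378242807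7851414767107845571099971375377861269111096048584684308295556830697793730220418604364102287537306799401483953317747780424876035475939117661971590672669070863693259163802450842985613643930719406894857898507261846391365630810852854833385002018366817308934159148230543858921884909261963859767529202355404307465031652984284563990741383690661658840484741342508880995792862466556318590088303717928203318968916891963759687233520625803472218353950544315135098875463329297790009718947773882283308283981687498783456345015720060101031064243026701285858634955813559471749567309493579564050349797055401278215541578263459870254952757318940259084060719223597460569424086841453858327409861286490465938218977647876677242583037188380328461986186012352166534436775530031527173382851162475474256971532874066541834388234561340660397876699470697473083025285725050689192913476560352525009325795895168540820631773307837208788328351093057962113032410123747099394764819341348963429239337464812518406595204608278330323288042886769840547392348553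9974826161471093127936737864660963114540298790456414629716443232963687393326615599004343970425540493294279959748287266156998108837947653475082530246653492591434487272368833025818055480609610501324609104969801555973344270067817921289083071726021321507979335491743419337874574166235675924987679094339309565317690639249060105699865396712872777085908819318600991759104718829312460040731005610226282988209749071438437890311505769165157368272528999450748360969235914029284417632849878712465161200082549522324605306692753050414315643864778129959277855124421888990473419023766815696480310334978507668875829522641952411539528277497595823529975123102674575651618687261278631682003046019629434438279422105841771368070945768093735049980969233868236147420514922673408189027351122992974028591334735054290192579222377016159231294075571243693144788728953350706501215278741231394470214904727356747635883045206285139196004350818549643314279838581519795515325844244468873317571948669227741509083587275325420749057344795022510818442270394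7791963779722192638910457726332410662912940221097396898245453485698591731696910552807490158089646734116292475013104093890359541234069975289287374351861527158510272946538396251491508633738874036392927784025712242434592470895547742251297499708893240520096772495015673644154217031539296688212676702285168239099786160190917074260301430478155917591595299202909798327593664217384153177256139637924694042141808924253895389828036987230339335636431631578349533474117761482375323862903903575751929114040055788874977839111926696700570119407111258858091063266687787520138069568577655609652269810987940976412438295456094422174659529671901158788629549022824588326149126796034792319609456059535371397702457955706956909327031646682170731052266436196265025921956742941627867315506448976375835748177063359336813136400689897891297511179244890373105776590948161107434746709616579023751793852118783765817185323619994313583501163829707556860387434460693876271519780277773251054659660572371852873698185709155288686650573074376793777998724713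0558737435707560798865012675533813615628910804982994970574988645887127497202486073280027711031522260772897932581223092666477088744395854933133742823769012961525822373053494353757721162684410820031645177075328277319646471260818306368901358959298753368228529808716723856725921252774489319190554167020003386744730478150431823391443222543247392773181930550929988179198127745477302263442420761958840499823813054703208702807026686824963361811346923959545202073065382050979325014353249179655494644607229823534554194828223770923598548628819191460116054080670329226392999391719895973368214383159887590199119810395945693747196225301135938674547732989171949739059823092698343225268096113347891729774701942206961230140444339957804643813418466115327920096548749706395916456886199470024042960789915217777791363095903412061628381137270302130659388889039785749440958526445401400944116121744291252011981196372471391775854475385632674091901964257091762818223864251096431380107575154115534949999437101646113663947746268619191610121955340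4099658229401490299538138192400638737117620731477105675048921535558511013110382869381990302356567888230114178816107030891362844858095999273924749567413122483935434185156533799092447619350241745343148106862425338315946061918937914537625155505441975386437295738492838309968490513333396329932077263810106261270324287325040316042184608692086014081433714552903086819240423086343760949649574030400201444350598475019453562591251535391927660732906114792354427051535471206761070515451795285651115039329876020724252278153291722823218640077501656776006128270241570407160895659208858923897426707128415946273094453501407940158030318210774475433064006152418099694220957797592026354391931621431173698897706687011748695377433353976921142842580769224055496125498194559713657787960969852582079453385758301985726546045372163224528036683561811188578179399503484736626257880181515367274640098707641605667748620243693107626440806716131069218638003038929302849990777539676563730783750431826788590097901668904632262932868237939664873256828559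6459289568374724853439543351631143008733105397161800290951621713625364632225018435010234108540161830857094415807483800709716280609964246192125780512466397502906168632846453874402395387782423266066952269038586489392299890116620906028048098758625521051650742377348844124919762476067395903909748734035780100752849381412797944545189454958752892661479513872326471310645276223470214675514198537160899953807663771190248325217114464878579795761857331454030798118117514851005008459490737844510729940063562109453849248818984248317882709246242392471190306589019607797684924458978793614701949830326773748711671761111342733309146059839220813621533123581710325995953601122846298754910876279384855669277441542935020738137049533486642241742194279264888023989605961944881623143190799628684744018375819456225314393125634377506985200771318225971793693295349967609924577633609627949338460812213881129954955906559766784654685131522604082169752860516085487528964785526225456756621373406003313693714557088817179795594578461501320878177168520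0347299187251385564088288071250903786759294413550999188050961504348850578308305311200136631998386076740292374148611427825849828986643265709554375225601875946888791867961977194965728064821356661042779627602806850729304774044081010097670169436786297644525974991546860604634891612365731302057090617709169025949321743548073538420966812508823391279339062547571849963292776553139875815779431615739467274600417882557406587535054324705664520039925259935798612342509366538354626586948549422509034839614156571919723460134355020133130657067812818618775804241634217214035188715165309320082979059774775205125425413701399014516257686125533912856977513320845144049837653401413869371392)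

noncomputable def rc19 : Nat := (nat_lit 367293371351244009556768792630399625898051782470802832995669161104802767747553726177055742857296619175236270406973572995059224024768242386415667260416198278673417348824710059898066047017220951057719063218351719742432852259627307312021329444213629442900392439390237603034773976581083979133160449174248411297529758312353983255120668005590905009892563724039858319337600183051477725437480026946475076355098072713032791604999638571563243256922363052564671776583520000941536447790018540728115008488508375053041657332285485266251115507627112421637183422275632811799082265554374240969949808689203637738881663877514367870071184106448728211409193524247942557154703381064704424043548443989735508376089512135806439569735807395197003535263452665074908939761499497738819856350084216169877037661292239295275891126866858756468674660979379000414236464644754825139994947380028946641314103250570568855614113326862611172358939824210567146138510993704366305721694236140555979714694214431934890400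2644131394940960686435364449449145442254263264773365979759996978338920498535002124231472957257206457114722536349406472884431366911114352530608066388637085882101651411766980289845491029714926982808935746055464812667825258237092965500887612432036950088405743268906209572895737254621169410844622497596795020675097828091331418955712750287894836672120550967957470184120080042031379643423563585439260474333820751446983970315530995551100599670392426842134132470416687484333019457787644911650517859852972727364445732203042046378088553511279974480895837448390336470530729116940501197208411963168917901802116480315953415339580224140602681653601899077434402211168637925583437006392772935419533578703698313907566726388858523299576713983557825437147416689741307228613447334534610645468163746939580839848755236345655336837936318833224232643455160223995169590870961715419200939716658132956380887138189147663811918947189185480737782419919118174449765849724313786653413041550869533246063312226502629052066565601604185599801857457802773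9648594723383854703992830745477274096715278346039828138317594239918850979817506311360626510562762047155069087984331900003054364663809328015589651022441009055169666154134693616061358423651296738153673419296313026027223778042459743720724404168702771568591910183034448254569763727379867594342923709082112611443053878774493259103227579348768346615692577653268716030787835986947614886959222726212920960439403384846234723465663024987247990456743177517562233695078598700240067358419635489513617831571113810926722701025196731746530551859947294346334233104601754819630743640134519277054745141646515592689080002026302948887225529160038699611453489548258115373589394594979472471968405726935205139858560545993126233813160035529252170058398668431827197546114512497414878781451681079136276224191477604461356597162161418569690289245120005436936686707687142107884162140058720279540654151643529237447014258420268955850070209281391629774310928128141578544724566145013020560340913487830060907906999350980346899966240439918165545328225170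3451789836216065062467875785057084912645127801382987293957967742829864584783715845727808603193419953800210861445272611661500495325684209395713046425762655542106411751786499830277809609957832855561637883870904425154319555385006621057685346753325505333991949889728225007325761199033128184605755249821021632486276117499915993001659143520460499856528284955853303156967082101923031189759883309212690230382970053641283884746289580982348651524355303919835560040435595457991077811796736671163796163668223967082350449246559348354827076501572257809770616119732919777485071586061696446640869655731478379838140673127663780320269647877474239218721632599482143822437675004377904880628456419420376004686292127656920035658634675756086957953101787999225672829384679798668703568825671337506122180511573540186846977983408608903475022530585940718699988532424449657408178593748824396434055814944310033472405807136517761410271343658408547915367970868311600532951900382823539216887665730510193137737045021044670985212740705035699078167196045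4175777675915393785409855805490745284839897479835415377051927477180504458626765867893502733479342806666551525996662924729449910000258125319431588359234397118952596811642025972318792120729637983781626490622331878309924637190220586411996766806191138797071158047037162045804162098388895005536423328057298044176026153853882014429525866216741996269539895600291183203234342437450617217184465267977392175007862298598176842604738105203512037950378925716685598661846447212226957847442513830280732244923883498131324688131121177573426917780773275079118203915556097147069830253116854735431025296174890393266026814088487029878567106556777892544369557256032411441545774380230659693202891984042234488014615921087634495696352154456018908021893113325981351873823255808529748890369285126379506622091878586135691995346789555723198925665869453556253572364556111535404846585634871192766083471836329718728918413241543079341192487906492216987428064575193463712399002535455623775731459090787004115735602823366114192342893916971167432712946778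6300166974890597302511507696707931074662934637136537331614787927118936354097776328168112211975056057389283494733378675603325238779426431631980482739898966883472886085694005571226243414034755496595840680380983123710997000149956944770665553880179946692928932254174785775472323599502450553354825502550828057407267092307217041009677641443525951040638835786121411880952955141931721945013468461603841443344898529884311110330589063253466506937728092356453836528457021304679621257961865845483770314426058043908423651238748389133964755525896229684050286427234102069848454665140551927877556074670066930115876473705551817871462201372519752540273588909044138292207058952559349474687860121120731173114041747408037756587162604284631999172092311305662549621183571962194469924504877046962664054849400534488688005382344146028770639513244568821703361016952264594149225515488614647043531287245445657324506706797586095010299159609014481149976958353492960288693370468319690556688887478090124572604981792603949088456693893112150124997625447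3206961033866935096327955259826869681336073053502902221016255252039228100831618120327886205212425625130284597735233286938999999429444912365477817477485300388142720213574438626523014952373492019150950170855910495080963930034273822459592108329030945799533711822981336084018802673729542687439888195498801998346437972840104718272541597945967304166275817191255316248594670106825452906044644252442343152084469300160108542773608118700583308916925848812452114580211264412998438164055002435826689165882454308663629813973159868810882205143988258086281452742453200368267572438156811651661317930657759977964587811046293167551786281596141577519596777157467844856159333743145493737322055556670429570418480551702336934359404332926645776876395468040287736983405572038724868731731742996150734046254530397694088791412289344288351190380440724006407723366750507389508967608496440670907677388912878419978686194281745636342894175960928549696318183756379159098553426708565985087307982296158205341735669852731623224839418886342447020633076743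3461754359530175313740796322279368674538177273889551777475470581749857851514801924224835548069751769221058807827646844483494008726956565893766896769235065805601385184063632808273874271781680871005232456126879937352069882588815099572982632501072553744669131481173552385333598574455908042862024266718209346171055454521238829662203583451306077242471010176100955435313167330181648136999415896564901325224457837257087303728780246428899557221285956438014658528512481434268715242191337030850016850833261745984968614641401764196057694760098789295885489842946652529784032532205961832388618336064001018318500475892394380793628892652439604848589793781030665308551525020778583021446810110323583662619042052106747959556237247833706170550870667330978015766160716175315403057662764259091513421111149958422811140863941214416794464767796461976676152071192662919295868823851683761982326870453949673271365298898902082545525631594678662286173472036321935843495136218333255697100641501270827834622005969681469426537241780142802756014417324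0313334405839899474896488916850714793255224195962817333530628303581347826631103560622191770545378964756825741667875465809936506693892999258744145743418173364084185993508166274719795480591531604108157023669718776576435981675362044743968541797866172812426823844423124900441921560258259110188235874693495010663345151072847174220513671404094797292439996784305710439936699513392575800963056981255272676320592592894842202874859777481938111709319221338930027905455927991861663992194726695963219033359751741956111423630412827234644855587348408329332074496684271514357028262467808542114589909468237604617538865185335290524121938249278644481187056251981360737810155787318932105314221516767441312571032828387239499325003955688086161826286750373796891600480986333428111362642841681873292795110061541824370487060004131765298726217005266707614166717173545437923964480532873312353963523171269015636085343806689817531650043407817234175120256840629988717664626762340759367236696727845494093308731029100680611092254304835389737002454564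6832960644675378319469013243420375036167554696778608274062455744593228147941073723403343531764499164464710354521795299711039055379098930661283419703985451312504738127993653441669578961594297815647519512757043939616834108842105049856439839940899528631950214134726612006981434756844815459800692346857859882869721230212937121220604039240801907626224019497092586243836336972915597319411186663330883877266491862109562575081765598146520420326324188234906395248481655448537689022447899827424879059523193738185057747252849182911732760472344997586529187038437311108567919051795931459616277456438140420542677779193854729406393277836994303761177098148195779615920586237786217964644500819461021729117493007439864959078571119524709063560392012992321019436974517702661250743998089266922566516822179934671495941603216631413561897366460586585653499475205129519962350343882592817523381180393379531901458803457163759697287163635360620909179596161010103691719143290883861855873283213703474551535259225902653611902010228760823785573811781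8845514910461099041628303378974259055386997288671744595598826581054532713671095920469647552714239925824929646934226121448102730599869504448440016074364081718279704625339286209875607986040936300799809386891430078205417375475104903329094381309603849312334305378012058019670219612394238829765503459872352566740637821820629880685016357651657009987864350007712550459711083869361473583452907372880220163863302919424926558773499177044728547387580350616418189360371873072423902856112079827740156442879892739348250110148754776431115931118109828345720337083820694556368671272030745600672623636086329547054647470277449833387324011722078268453657490778831787507844329060823685489341105251594603711307511166765535390011666530778742085478144119936810488032869712478824340909670215530866412323413731833114295026742728189761082995902239377086092982096614196587808860056707871913472320677271011312579403952328103815150332797214041296828130579345767146227913713959238527313497679445416961904027321486525793332556375700198711749299800192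2204505411775819343459858708905442726315423967930215382920754423626181501710114350756566109054009935428779427905570661124265884341304988698171123075536686858350803802726780053172497554651842888986240266782583381025870803265806287684919283392633447311658745662680039450405946393063519993950530611305687840909527068267218134844071334169810139121272648056481694389775877373635101766812390782320653742254382635021149414541538674228815836345208704120370960034008423837192943401178965960150947074515993986004287480756092451463143205827276429280273745516123047212515541337100982182653693063465521741348067854640682072750977317137041468436076899921324674683299688627837323831990835244040407773424732726297523837524401964386467033612455382333125176914367699592093026237959321147416037339552516420447911104652922439757109559434608518331377137876952866412960637813362334914753503499187651885408839283767442061341177945640362902097373593146951459283936874522752298238088072945222315031495012098978688444462263124438108263830812089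7654732404630384202500899886994878436690584936508527576284891344079632387034039871413705399044238362469755216391084560368183321182678295565486604024718736965056202101811217568212206564000422053717838986708729085353820460671967468275711711587015300883963986330201376243419837017686630721177644401380723578475166540708999119005377871123932231017430933584598471454201608061264770492244755667385007664560021692550456913970302205468786266701867025526936256126235105409859939395978777395492807826781188615475279356831974876242048451596116573541975546557513618651200471161827938914353373119733054566649732978873644811568002980102497178478937960050296825227995139455817814053397911566369401115406330936918309021544913574019078269151739331241909212806402823596380123579796206338388944183730308343417896556764107917720303001384588983226368111459289585731867616510071361549483801809550803467387600351504891791242887196895969936570929857703340115789351202712516266516942237442236018255666812547290304488092770062018393979894164689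9223423305565935741195903646933741948503140865450049452959099375246201556934826244118323575589549008989102935552960578985495725508065397141762334910986368768130848850711439335179392513708687713582651270292223959788246392877486933093555394338991916692166648960017146099722915568794591954162302675023060721610526538575715815016430158775157324067918747214623848186724136952245420800055635157822235280343178770129807681615003158148174673107325619463642048464459695474507066994781750011731206807844348320783510950162293654817365541517042064572060075333373210608833319537696166457904781612214852700004898752732211288437384717829050779746566973444600247147643914002306207664378380803313510132334194976883380287364228475086612236087623460109679844295104324850714096436902357916241243852891207615303000602333124256589716537124964052969604474484442392954308521144896413901466061475770049369999148795244544927499529679863359264371883774806681379682290375803265097020783482244537899963852921552374183874903959017961316628411370848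6267924130456777658561958572365509394310102405260057298673622496393631637345466941090187352630654173487372501216911636088286981278745690268757608153952778679951137449001338861067876107313373455302659498082510424104825975177932567979172546087265991044474737507066606825063452215901303753810438507690623093376753332109442933107082057986165801650895364000099828026583066745932228020707288228934498823440097575690625394413309579837845754362849123080357794906374943338955957349108906390288598092771654370800850820621118188078958016628716528231537417883051335258719539900637515506914428443281176736142462556217598331868124844568940804064898903533172524492953200809943770986040403279159683723225153670169501662783822612424671922354681233574143047340688827504385185311824459753611112172000177358850796835422800439890249621945966367363024829006584661212299969943205603837547214435753478235328885469457067447784970283798065640611313149837867980809916404866755931784345996581149731374268092727464122011863111244883314644053844820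3515321470108599511778049471628031196979585446767400529507897585169764064085652553850372610953935364227987753335841882020771160504940091228902808191336892142119784344807939987174867230405220313497127461357644357789505001326811389480982000778828880944845772519235189817073754073335651144278100464135208381949827414888692047480266593030457793649118270407872318612159671395667976050213965657283280358047012630737969411095014010429342987855540255663890768006076955132267329650287389723725374361853935753892657871448940958354149263421973338199867411177442047041797848799736674843163446323630660288764513926432656482568689841692082420742835412429890624330510133185136734488185966793591851115530490838642795768163681132103749152779296783330155883600693533565983387517291125878955234989365974444537460301602524876229221331924373563730848993758123784856570635371270680088323492393669065586492984847707721321177025843552924172931746917222654855278782784917298080806055963083470830512730839653927111674436944063184202352049076654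6890332519231624066622201317104500587227191690515942477096093966062452287365512171235780707934763044349484518203218187805367177397107922838712632234872327562266655421451318281242110916302725508185046763324822498129604947558202921269300289375978080004816972355908585775007762134394740026413319264587848827447377229605271291151842896893487113069224482197305932875728111770465907062172982692671350547080888869263932278531573951240108969521712509491420060855447888376723526559995267483403940412128260635725312055038428613990315134744178354113166216080889008657372530918028619948279362650500386615018892401886948034604868043866230474411517277690942738287271721351515749950454151147932302170004879745114314601798694077702607801933443806166950165043747111347552199338957345244545538596171900442892656484043616724136272898221723399698752319178777087315254568695308705192840222583557452716701061573506263819394926967910606033840215787721570283849722567889395313603232128530497728763043071901354723693436101722640415308081358004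6813015883582057311551111131019108526846195402492368769601532212236476340795984801647748301853650228853368814364355676698908064282963186635137193816646383424175152922933394962100779497153401474292894454044814867544076671097187303088329275744692396930030201043647110749771577906704680800624861290307676444928661857306359558224312812111895113476847242811723233970194503829240859386935043593731171702448893620362500333002685866712779050524677248144796341594209757864232099619975293660183345129904506388288029480413777273389203122834069532435521944994785017494802136951966556373891804531907224163291779042913700521039105850325470698416832254018974147145760458697565106339840)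

noncomputable def rc20 : Nat := (nat_lit 367912773916102192944712229347656153541279404593713033909453414772111174367382456323845765507190527492782455270570276206774782111445192877157696244718513568376710379361556525669973790894180098484639387955118647911092615026878337400897515896414916160944973396962189086944556184192438238099454271546577686194365128033206502436102302331938262837998812907042665447322279734851123075133887216998052380394295472187629371351800807137024935279158348017412326182769852103837612828918930517916278552071986108242631840824408839456536569781921909726243183080907019011257344377985154798586309323528070505382002782987763556659732589444391630279832641463503763276318329900367050538886061359809377756291489607740047709146881476893037298234766047607695327342244184456457828010644477819199062055000912842808117220359517779646677869289962553223153947473249372480539592452502218476825377661214049500189481744090964287047622368788299601294232596267672360715987633594423096929832917833362412093130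6574311089666147647704842544486511774871095490953133034685807741767488056651060240548516331942678720974491411397818310053763634965801482117446186339300021980576334838533201604724976698649997918862221016933779188018959155739336413096333977797829706188167406655587674767001297997260145535940383958816649093979597958888898484775759832554652461875218892511063932101060129479112967793796484653065118722501263829402523427547932587300423206523302245742511705727429144573835709105680789964850531123535338995126701886874205300871022500517076033402790638153072139612579857855593702584819823340850438073741693520866550288726928840530348256135487753243922521346276590514455875195837110914432744327813861496920966663503363389065087655425147478131682782742864386709042053534311594103758325875831366100694466135897821189287375326224641202700676878794080157156314068856642061211001125497878726828836382259650262084555698193702146421346090814486535332661951480650963802627886307983158712782172072913190624482597360952546832344913489478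9814673602583664549037274970651391256976473817389386776620773031576857394277727798780985490034125231759616262786850784355846200587457352761492168437004804435130124702337074223471178312435994138200096964062209944811653137727273458401332303726394042187072856500254973556227686793772270277147446128771448893919905710892589041541411211698611442191792466091269539813869786494789163405714817818792455541092422038448432475533788553127414549636382100885149418628308324064649059945469472793544965384644456894298219625035652969576994491247300971379235765034284110667489438439714747669638499605831648992253350204285048469047455194077681084134424585549241727178282001566972014051862566281009864071330075115157466091366598975486976990341387991261987998304763248154318582488196011046725927282649989237223041639985278931553532767004964253135387393013040982859821244376688572405707169769712540196202352002288564105345102019160327905478705675104655283787329703102935539850527035843260926755430991358535346039473388038159031668473446633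3431190804933451968839883895217111570436926295026417258480157409887580667749529140062069215253204063734584285497148244137621854775846025769357529891567703977796812356349187276763608929432574023588757521689452999801243769459294467982637801315952846076915882975578594500140376244064306209752466018759189244652704927998938202729253318483474233666938607639068766020646224320522892884516417604703091138612729952841337523004444795677580082437817564393508624825110047498988348830662124529954900649253001510400876346082940845364555869603220191944537200862258733238767819925060829207604101946284166334276260955870372695084674786323621605366417777120701943070501872619952104836070692281446321464886862637535189038183621881862069669601649959803043923083304395757815776351219382334335621845659769049447772676952277497278723606793306618730117284442731339064832363035667814555844624329848845992970396636780927568369275194363641014885555217214199778371308077473571961105320464730010153290365703007410100526917082456978649560709164340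5026139437809765657496711829887153099434539468189580638093414350500644883058248444159499574027322473002257044123363590691839929153141743363910091636371102301137013643390870062164614132811259818776136137143696489630299375569463254044829439724370752522549854270223754226404066467132210146362134259568849320764441064511241653610236523901966026098175796546836503871682827707409604319289495294912611182526651998637227569441978985585765676460517250625581142828573864947434542789987889138917911908123684955049090514825193428891787083779409668230189966152441193109688593103014954575416712250370596265248098639481527984800611937980309197222974892731328834821393270928642844335590729997767439402643150475598453145456355719746423560561595186256074003016456405909285773673196139713797881338922415519580959191231711607298901210463225933375806717731064306960449384418336534881305867430817418512494534589684955743661154496123778118828455037607851058161936418727645238297652658543548889943023090373090935394717206082951313020581526543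0216235950751197877813384528886602725218464401623987366891020074580950937399322592193820309146145160779632449111143846992663274316096951714219440819218962030341284333438768461464744060602735129933822362407911548710407290517726571499453794029525401703415834336099261832473684716189964051513179567683802414576047855146421431061673723953938425530963645310492976611168508614371383074032983572959199348715347070336787946900854880467001210341115446549702908968121510938825679570069899992190955909586966824084955796049281702037283369647504196451269530067179162582341957798735928334012027258734086864845471491764109229643524975668214286558438602565004582703956211176374361264056087909327037030189347165570072635384184109981072838619356747433765699328631391144581647030177327296540846586372053780971610592569320612140709622823054395396428069872264349309992858453214769747461350424163049856736272080139718565406763498686950977395268531996218559239365659420493920712689094857954695821939257119376152954467922208110594016925726451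6416635776787934353482515882804767641802529482391011506250777247194207812930692859616026381655470767979303445098458977859347459480034729138678318939844783223226461418223362820737581832422542626356463705178773739297695336856708707656506574699094170783028375170319163164958077064879556862617341595694675639935012132284287591622506409775608753921443811370861153154956284002682439883227646746057656343539518429103721911897247437007146323829046452716133260353096693139180223688041700926163707662293663584088415725367890048030447710793266583626805361345670529593963176313314289214314895412247704698336283987717825727392335502860523177939828522884199771176232713775553630193663903168841835457747026441750619104881775521632776520263174571346237727417048741102565343525814992518381162142420873678667103551211560899321187841246146298821088433332331017452086578462903846354275511557343915334172259363525454467245974053493067520828784312258590989447834768180686046552726479833006021651946609946970068262344273063329425285163412544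9727388832885254225890051375379954742448670408066751531945022484191017458956411816597054943293945283931271074209568206640039584071100886463749564882470885061271079591782796607639713646487004152121052854156531191418400576238813704476008930417742301408343498561046967956994451342453253123361387955069783913184411756385143020097934417737038619689297324121963756094285134459607891793003691194624686348129662381075393447616254334747082868349493892170485743633467138268746128145827641342104163052636342204148650021420823855422915917758260235751302364375300289354251002933871152775621750414341671510083404888549634656307211485049427211830289156410829685729867156280351641657252012802511851685048644401820582584505512542287391536479137733959522856265411201597005396188375698926492439103310086917976078438409493494104493086177700508171926116764862430863844317087145524878657035848410074002236567776112320776983882487715095910537100158149175954617983537362041529316291905888922823449890148975738250389537970426062208439371226940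6633470012159081152424595374467725076437476767411779463778501210309854006368964210512981862049494138570620281648829998842208154976035815685480889907555833460048614369903443514201156573485231062295524650623809106925662202644406853511963400728160960469399671390338774202449608803932402137091600003127218563267818382536682400485792589994841981157979507020466261483584364815243407473932252584760613846560703891724345609599448898311202550055037538494426764173980830121035379078582713271520258770473956561320047653830652333827613113433116986009528383627957581915660972816341958495921099533629535064517610096426178059590752808640753805920147661374004565160918041057054893714405707731251750698699729284812891885146507355921610623380795577163592732035396573615526368587305985324956378572605933615083273968030096622874822921223325353868549068651600594471541531721248472549216714087602975590748772636159852011043650238507652877082395870992426348750575084432714272598372152375579258590196675590876820628987439354576189856314572241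1387216970542728126262555125961051203873100303104967298149757584403776460001778355571039126836142099106314867680193134376026077945209590191369134559092192443878384468846669843208068211365229453270420463472883420136649480183882493814187421686855292378147301031689964327762084516330644794189101305247696286307088050932775534658793006788916049745305854081088902107965139490196174279674554926895630376018843034127845458957606070708044717427090283210884555763049724011445486976880382321073190098771176272868739648799180170181756512663515357116756079736923099766280670847910739245187499193620235068200731989794507864093491765305568876972705916310866463595166922420808992310297107835552151053623743526670134036830681648455655313511422203637210822340127144555427562103292042783507016992088033704457844152740316267183539892705401602788575706568516441444628066545730907903615464497383396870132777600761616455148172570689006026375810765797894925811183654257218397176495509191564420464984705789070898961732516282078830797512842228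8746671380123582360985732915259355536826888277065338628478348428932894292011736205222284391272295994398126311730686913012003621257394573536235357865575192509988419914056483129938649347883086717491318392277897054265618771905233790432952616777069682721732461660769459695003131524009221354840937617966328983120322442901598685295980074271846410654439850625718168015156865491045685037632573710262634464848576625655002950583020765442979155857124364984469108231076379512116903526763337811048064765712775403735039889439226139543630439296138002677089710349635934525963265122315499639865672855381034013129946490132751367342538731743350014346559864958798057487830378769909713378797115399393060987785612857203695209808391895638079618166555619151451150935069614407623187344664497174973118954830296069533610016612137329637208379522470981825568258248948730931015466102030486898265473873154657905561546560911879672211135047237387176594284225814136004315916576086646139719610856568857452314479844181939252413491003486644703587292404543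2930100766382321633266590083219425874403570994005403170915955406466080659363066156142980340851956876720247465720408715495891719998547760681804335959192168382611924323825129624381140150873752366675014303872762900134770865590618299139502863797039437986597553897474807923516365330268750677539167090362119182186028134258800577878447359466781383021848130146479986296926452579176086546500244813663947164585892263980525437797147758399529656228421726134067290257562703765238205702488517428816668219091047732175503981440053097983996000896034820586830105173626630196607531955973284833508589084361881357504653579735455088619832467717785563896411979887408104896204597200200893754587941061372679608640966638587545514861774984361632005139542858302619765124509000927310298384035315583950820544900325932451165490973911532721470239157036817723698334295420091517876772550879598063408523570489230641522082676031079396059544870485672517936717804006270249355620417660229979433699234691189134768933924022319898619783504540265585461213101947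5995700241786970806259480399010433677944407046332956529616631275634016533100593970251517824379603080193822418480966180765805953410772936605318142936858999563503167931578205300853217416298467309263624901400682592889922026768670556803151834102606978870345701504427425240292003698153944015487022058469100070794977075311792619073690490490853511836334555958344494788896807528518027943722934491428790223008565288760064892726179382471445052821078291597797994985535057638266374742274297015127606101998186727736435339732058652508541205703484938562312265683349898205855960351016206285612369536545690545828119291295023338975753774151572320719274035265954571090273094564709283180445895288180014340183542926398279745442733153359827721823834384061310724452127732235355131307167230642876761472766228488276801541510036850940245280999339985310610549402069648370985024132649547668341335580883651807445863571911891619350809312003450725236818915591255024171231033834620910629146108172664364195333444392127956524703728153022702051577635307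7822542146996792502996156297416307613971157621347790732583654200182632505173205159072130881530949252953096921531498209401994166449511624690992650661734836230561922483685460630655283174822947351806116055270164929010141621202244783639383555594424148281772795484326987546207796768109892585119670481272749246036757283471774521052431176155751679125526278645823908747571374392143310839840723629003148685900668668220157014746704936580990317928712889684650214308032682334591139161877938709347541867759469125721832224337046019320823804060688681889369552764657111427529728331695145419512224692669532321521024185998012832412107743140431082896341780855638548123488083962569372143231892419129166256938616067839275264461361193894371784594791044892319189748967106197409918348511538340581883061708527169692533554490714037110864163160918499742405481244221672316813899775525673078808188584465671361638958573180213685878427716093718654805422618745413710149605488386025313722553497863624154476678004801030682798438424474478351236358405202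9167873686435267139229027999288602600660183474437982108860663127175746645168552889212244125224460146675593767709289717316534150911221687418413130468834956680589927995482867926859938975201759098965568741109493266406800359043336277885238425347553758615993165297481660393047162326312047129918327125343605946332777250790942048648606225046438784657738037662297961689318932553513688463849757973562950018420018728525179397183257079126008058580995559089202075313080415043203407756531589102235980034511307766310471445121593119293464134401717316764223365353968014193217720059158592212996660396175878874526368671415514546635503958921698152880263018002238372356745635634239550694266099589703375991281194113556570094744600330763291040952822601302942301404723306402692025978190529100085893183728777149660287550808476479518931173425321506187171214194455891526223526656324710691955907126712563248752299977554436483402800463272258366444965932615803486585261309941836305060480779581889386834845245871614053576390795558293712735187984027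4126198637343222844708046435251490780507287814866428979310620316995051092886251803875890292557596014230012189633919016008527749720273148778506442714777339191165298805679953275784016950208375641936919036969958994377115519186538870174950341391930041095636252537819084029253475950742824906104996362150908349006678332767669157593976699378541776484290708862178952369589218365874635423024723605416504354313539380648786974352650916937770228449972566743869474501845026970693937933182632821479260345247118209126428821863518126970879295445092517513326650194511584169527411789905593777623208799533656465383071695443748442667019612331247706088605066556515849622874534335520406781967327177673604827917392520950288033725060495462452954996750697662431650212126889944517903658950132293182367490629994439028909524111724452324819671518271083145827462836058803760629916234779160857532438351976443144197188363116276006159697312750462757970904865734782486700725031459656502670354300168063470702449542010283726116793725437041956137017090383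9928408110887695290648671899717137096755757682258429557446691770694630580436753647722598658620889517612960351741280173557586137257729010453637130239006198976307586854986849953977362944713023557171304477965625932945788826810903507420314663122793556144765978269830688086781771166580165915859540552033975127783052329172306923920183681410846132677014899394559865809566232755535893249390982623650146528772220094984078400798112035710523290123877780571052730461293528680706504053252742362852644803375299680980298191758863335057560439649076328911326692428851850707913444292043801808510758346913888027460491134154324659433584425242769925300657986125834112764443612480111505234535782609212367377092451645997789390855183296022369404161148310233753991062052608436931326636876536428026816448297611512578873983046867217076972334020918195067754668653682093021144689263902372350522942104376217875256210411982144243572482695888397962269466989796739311721828365969208434870371011943930692680220499763106741193882901151440138165937351098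0092785944858814758994894567528515958389562490259534170459884729748635006348249021672177581958198107456621473158488709942205323009113627752488458881351020621233810589521377600748340871748510925393071439708477685916125806656435149433307890167975109251190382866075294797760242634745184786162245015384296052037636916856069711676212634498899906177578236134714394972475566324549108525764681501132301032089608496950101331211568599373881498968698355150256570928172417563242872129115942797115469025187595915338642523032926345043818889759815626838927911770218168129564873849455705520268249628241594516970839807179742059495392600311156536061388912809270816172679668069017378095104)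

noncomputable def rc21 : Nat := (nat_lit 368525922898144599670281796068344496060868505001576580098304577389001154694581964044143457265315825188863673040290899248336278844454271240159998645554617635714378605165345781620247797093429224302726253085432617284186032886001446987421844347035723167484458157772335651428305495527121782250936101746037151833852434355167320755175473957791445628962603012600297322430092741935562997820420697289213826359401373565018396106519245762713921123532356010421053889874963862863274307981514776000737842955444302483274684695063865299285919415154441032126493605911283870477748618469986658612758565273516812185730690909573871114858101812513908136485300683679300354446070732599644805551429601893788751081073388084718503290658149575906609539074798014668751085851144801338503159562462371523778102993853432288156263466535454251659307296623770081459319209371548888298153924338922479391876136020188946849272565219096212177699258591108083192876934123826398391677167462814485249739020399181226443053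8162156313390592094590783820875607377795847335302543223715426227975324798294082393780592004958907160440760618060990494835640662806052930916460839970177074489052427629666361652106937359406389936989346346009640226700615895133260023033735374465352859359741171054585984803228507866613749315696237518745812427819380354600751742158821144006682029975818548742957389159520452347951946927625189874124567754533415462241840509592216277661288665910919118487117200861897545374843628829793131044243017943483172003223453338886639008683131239017654078243887275508411624564423257929341638606211440205999169148556833229324090405605352994411073732705764963589746312345740700816427401669167995453629344223954553754102402432116028490264379447618503571934762148931796108657951601154916031115692399661014422313332010927392483896885358825465155161638492922494604924733991820629566900679351381764825023967879544358948945063985352999854488878899897782338973056631793459121514412847977044963538630892865074376438073082584079816166405661745701539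6593668020866403404713072676628845908766000333142152884430476494694819945653009461635873311815295501067319283448081365620131668343239036438298006799997260826040264281455713919411522180386337855564025647138099996570993407359288599039686966927629166623372706721012708523490866891335493060614349537632192551286454573223435115401082260451352444621333939816198785159037543031331621488062167845637477783334593649609149279422500728914193831375600010490458100932246595465744284558154739508977115980452866618900415457031524310407070673518226463445717170887292375262256696750162308012561529079544318415904605513115517064015138404701801870880503594710814225515360534268812210816101574319673315952194808610949156947141682390028253376541549223415363575118809033784695219350087276607657725342869690729447863420171303040618197946290342096217920323361196734405065599957298740895967304463938109824963588640972694209157850941023843961413708036189956001404816750887933727741478248754542744956629038660533201169737331474030221376916962486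2554045943301443704668102219561931185630759955543487802666623748028902816995711666447146024931870312473099016067063402521825772065022153142648885753132195963960413623128679884916747724367926032887202125164016266186117052018971852677783436280001287462868540994155775613968803777954222717973389516877754770463807175038360433895277916699688062377866870072992027443989201425764652359638308473741117392381209313693599413625526389576641935747674052151544922321058684889434764886412924579498323211626327522518774368933622924860752284230543599019657311487953359035451451552789824313295400301137077606790479980028587009007120781888156116963814006856394226168406909751841569323698055620184714841482800283550965397187542924501904532021493041967832213141520666524638789457449403629163300498097669291502160602990702730294726145987432445582493812752423522139637134733446322068026645767076388011781190190252019295096967874885893778485688063290071820612092373582068218194640517792012924001408666411014194373726425167231422634199361925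4206096488683723371849295904811247799148035485645085733924762933815586886340507027263325612327908553731068263966045115517466214127132291662065612509653454542598381310406138227795835204325997605747922534172716890257746904814838342579392578315811934768456916301953223339284431724657484536713591258119398303643275349592111591573282697137700766846551362636747754950264377861499294453522495791673243255183849541621652873072741697797076092037149261762225099120498038484824189241751067060995745687166186038086249813423346244465091766545387452149353338844076006251616527264739516075582128485187609228158844923600195413016260500751699781138133617306138595862903829456635657733402794838338424355565039688966542922058892762278819264870475621069709432309169065148001464120746336722069047381585770283920326456230747473005743877249413960090589253645262728573711258279235126715700998463947032332362971138506084882903742579740801212260103919724666131477156397460558698333451674565503257348781776238227061488044631372989576400078938887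9217114299487318279583148062887419505342651517420269298017285472887435428367404591641251115245466045505306064346622363541774100951543887712202250720018575933694662542915579274149910231116233018150865911306074756662024877239150693101111266240632764548382588807922644562512876686692726054524008950878856539438901416638993952521124991368589075709792006571677029145133991446991715293002364988763056481772041019379190359497270343884777724091328831819359868096050365592433021654913262897342327983787620140424395317899934819937102391149624071824956355187036674786955680208636204197417354832356623931577920537848644094339402651405087770199230327988255735653321021605054825629124342884434673341386770572112845215347204677059335344827049626589381598600805855140992344332623874834595920139991381828596542907038730202580820660928830344053798003847359130185230785814493262096440623447338345815658249851421207233013696844849685748505232084595869512382773723564415996504751699408329578914483431052419051323270966756829075766929272386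5400581595806633654940006899837248603837460737880854008810899748572820903094254650174168609095539140576175584113297983438897292322898208060405670647329852233768855637880046366678034271246297252627040658248393879160527443753510200366209318164035147875416545390918185285815922212389992020022046550755572602843096093897377441205806953445408032316658205422749357270178819701432723047954286796975165717059330509187785456837360465335113619428345502542450396014162189995646091012863341533413950528440799864953456576800628620860868219010316915714835879903484969418480832521715524511960954731008568628698374593437786453229117715029030365868293451373851373746314600986740540681593214588401206721613610702067715778170207766129119471473965206497891762372332596067363372544395023875836576147653816417390215373564788652110516005948175073888292144567792267969697458518650309901656072979221943791719087696024598342328049457032781654718789924518020338733458936251082523706138248863033168297850595811047159689430954759552153608597731347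2375306523466323223984206251788016784488373402223702382010690271770791229888451127137575842388961146306818360313651156783879747730981655698512796944885309669802480787076124103048006282984251235744984323468393078349457142632767477633362656104750882064013895864877076960271372619792623926324085908274282281530983586143764909174062834315531704849644222394357033530799521898433841071915864414596139155670691661962764568456540080005400097375159141537558012503021464727035730658426853063428307204888427715860574245469919271442412932434184087813968908278830883270216392276758820913638355968400565885971000813093132611134341758902773816838057844902812175287993890830161086441761287765356876388188695390100650147386735357352476288823113441342649039464735796240517492606476257265162990178672110175343309979793061831590561221987230409282776068178767629805209260341147865629222431020426185872659616367241521808229962700831394766070965226518331855300030331225444346187525259428314864204800458734038050352649351261242148442977488530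6186657589949761024268915660849752893149863977498046639994911224614131343256606757664104315113590720030981729428837640085433535720120167237213738630865465844620956413915037214068858450604608843030937792785552336564987358446368692130476719043215947199494522806037464791073926013483798993025328253984331997422399394909286892851758066692899873776727815068903196330343640049991757339281744765411086401281762905847830908880173244214853670413672675360877591376707648554003649184472714572835672448675088180127981990678825577337471249739895258653092779113269168582134665581658984043104933160625334337163133790195738256614006822182356174317409348814767201602403356192274232595129040107891850464800922818752335511049469320348317085171099918707018005715985571709053675907836729106189111558482526316909722265530303566189384848749741601964207816877576766896517805675212647070251524063782121121170417354511717261886090083642604843705291677462193112765048586081902296381237540026137756349752528321125638735378830238720393471894207847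3194717202602459283274838690464589559306289299655689506339480990327334282665765234385759546182433207134161972667979149534209644251704940728194795081789808791603087955207773991559112010559932468789938130670965292476847836518484133844476156014193468237302545537476647729091754413610380352989394541974131426351465343269129916720107815092112052054625804619223086422032935791885237373496855562012416125845836307662936710063630139516444985896648060497866006174896722493860790121085636657659637375148504722784506027273064884292032013011864311422202328792145293790012600897885656334896585398116300229378103600840610459764405196906095353987953929390422012196606679202834899002632893953541148137823307395290694510353700589161397931720642947232098531174521068631519373946670995752707645726178662756189466344855039541893603532147239703685371071116448426801830498707780397241789356638958404426996091995889685149827078783013850352366734810674837925491336465000952233241368834284771363232968119522185032575781371839291657189969346801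5630677241116727467606897335116696502500749102203780389366952888409874559639694927562825993410032644923896350048399401730428049429012550136624245624629844282589668784134927230009096307983386962899319441236360240595221893305388742029002840430466486964450047114782975022653052002341626554695573084967041290233404656664335136958233863105406691834339031814715139410781460664656663191454771646222357613861957918055439040637640406778609929018619325028977659943002759062102831262625364418833857151732973103313369109553680210763705165534300605121322064517564354857129972376457730217577053303156207238151493574380023701228927637163472518087654940874247424533634784441889685880645110101380250086275762127424383996913129291489455636094839206167512780970561270857191109690556255580090397891382093056655057139546940102799705626203628776179421950816146278366917431389814624971729098761105805660028330326088389829209728341866295262222971586103156943636990547911964319754898322253646499455859881238705968177711433789443199264636514661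2622716617899696598499416788906484407025148915541987299314750777851292429470044219826556430269784245313770389417786777274407697454999192250683900541262813208655940672244159098441339322031654960970068553378250085798370382610111129304183321381353036221702190462628404628311599207673813846308177484161923473897774628933623128592508297764723251007183956712768142754943013287171036418550740147933259345389127660102735834611614627782642641142718292731131641452648433775665752126307312728394739566637177232490056433424293084005080461506646317454132539853297841855140920826816622408358898146171144522887125082765137966278114289835596213828422491275116489934722937136110133680796299628540985319415194502891717320597357997382121233223013278834313025106674689527991967725485997392693764752219988180427639213506228041793017802347658708799514679425132794778424481701859637701076421547868166901552702067573954679791246828138354234736532099992042042111491490893651499044601397293763420233820167813206706561642267003578357504999769854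9541406985606690231062012837243677797500563134543294629719833242322121899973210144415118291078230293028083636775074209394027549415217093864408289987946192007675891314529737321802932801964435779307866473894230740124248493541110665298636517539900185410964660783228994056783787602141094970155424739166304216934667601621134826380548275132013118254694458508864701626418159628545448643080826443577336412919335508009008046251077806267460414118543434622277418654653428657785948926281382293706234846636122618793908167671611681160082869441515436321219229408516518524208119093216818633951402164983293597910087438342521675695392153115857425042465964120306426281083117539309300541108378688843882145405907664670382723718057620589781614112003289548564746190872844523896738961286267964077702861489891312406954390690992262659828141891055285104547497177453554712574151625549906092107001647548941007329599485836363009673251130136173044518308056698290415245068668446895933421560658013770136221257341961994951485912494569191779682094974299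5979799610931386600561819462970193833073250488586103856118930671854577021768586677392917823758750088013931370009293279098321424003268771633940260645416717993248226696025949048716027486642325025820200857345911036566987785430069087225852930589616942350445513847753295663741497562538632877438292383818371968637407990928744597179733356307746975382741834972003698136036948260833034834619821103574480975254930883804250641281020664472531188061522750395051302107850112351939968199261784400395837460343243521038839467154180402572479363847630206372156517981947870935185484902783374185434356820373541982347270979857262594334886476332783862337542241135194328124081901809653280163325269730460509577299084093526845504737982355514823737956239618067809937021853614354129942424666894687225168071073852349086693098950473527160339222745240274962568609791539856279665099834554180866357535148918576437480792364578122885940993074749659616581118666039991534612004185440708825801753038361666728419139663945083565369626574905682882506518960782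7116662869593180085961547054669688076436636530073501637437891808106664693212698851446156912094370700687617041206569804516640390731107839916371934431600684317669962863326314761692393850657513012588821027553712266372234713250594051441077413154429762836429495616590890841624458341543394936346563401718610147387872087658963023627910496780996618831187829335511936309678590990247844079318361514314301987188679117305936744469276072352233452387021407046665756120213564421905319455419178703862859174666537500211081637786372129162496876348478690446396844401321488107952886132062518759078617272218166648496868967454385985182247866600775673271264303219433477896247157056573988636638327134585712072702987135399112453223648757587808637492506243066682286434631849272591107032118914445158096623498162845024790018216222773811421222628813301568301345393090034026155347971319461602624329694135117209806674225685890715305221902346907308480593052871129689706429900108079584946897424393136180013892609972845129953678834747372568878014581011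8054397647632656157341431452818463966509503368862242144796313604342790922247232649313951370143173822534157402243701587018236708043962288495885536189087082959458631519241862006661030400614346982766962421666854143504819820235673557150226392860239526336254257788782595628600156746564563729630619752148203973575643282026269302991782059525656294493200508498694885048954122083080605650795646560815655052816847342971499273670423740057891682410785592042557888390337594887553503325498494752064222026225287502477274479287249755262965662123218185066893754149234853288125445930719469967132596105157748769224844528613156966917967601405820985964550655176536493816187718494350309981507178639471797430739942484007222451381877760061334359751940000694675777591084116715226105003622755231420901449425428927826859654477022119258847535594157307849633581898426515058647106378812207240801169712239292907635150343524684632017920095324079759638812948492304536570624537040387818822516282989804677925592922396972902529751340258957779414007865359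8246265681497898657721838053261503304556763954677712508827784258845686209378272489285798333011102162121447918657733638499739508406257496742179423611037623768516704319371720541743729011951288063747035631003556742449952531824622581526455492956728747255797465510905091958808062548969328651976260756082690635276724621566778699465921822625107852589451756195321205915404428401085150287566394395293093599981519299037628515815272592792295506791974855611962609958117102411198170739068132514518310433674294969935738824276392286619442128978892627764389533697484052608480163280840559062280929278639870304396015949783731978162293162863497765122041850416575169340171219347989387051766802032953428234230529360758066528882836245682865366592515844045908397575763978623304671140265260188963237975453472209673822486997841353691881093064734189571579086609709789556757926879604003010578523401304035316415388348045921724389991969516602397498967257811795672542296265709616127029684559073937576222880350289933603084629179616396276492247102246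0160925215698840852084762119089392718340615521363794904064705323494881990777591406530760816651089636103660006089641032569604566257139279809987751137289483963488882220097454470948533166192293356248375923353706952799119047140212252124292179798665574882769527196025579303090354048887468514897574258974012196798511494660867684704691748751283115246385516980221448731988925356421478252612513630216155707195568752790262590506023904347070769946378567996940748823102101155691095141509615756564555786388712981962711663919452425250614448298963160616272271176286733860636954217269514381475177787559711249708901973011337751301792129310074367358529144302262421960108918842126938144768)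

noncomputable def rc22 : Nat := (nat_lit 369132842603667631745426104465085910078178401002909041243390328577215129149196593790606877081741456887822915617510291801503581521352080368178590859854021800271683413343054733867216380104492065592674395507512838239372233007441186386789162881428447012335374577215814356035777992787125049695849582464111800398542885504999387773388150651942815398721400203968424528938998353736962188193803464103886294490098035571714766638000361870035313733538114423233471106386844595653947121325344248718850017584386579195546552021721245624885376410645545079237335204155245006986684519175847830983990593214986253244265263037159955858017729037955521747172188703890766565171091654139249197965798179124654259625929875182263656900015638097003066820529915850114518878340518928303938093225549770464370887666239351374035390799783087770422895278858215026110731713872886368491846655996157851724791495638642657090658972501470436879942315506041793202569612890107433854289542178469593672420714898665027650700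6884002123280747145592831864032768190782402115538791709988477428867506967403644338126351751082512012496727877818022602175660197220290160676715226875615385383577179515090874339014308700989431370561657344011992275530246701974927812814773404247068620804424990533392413945727974648580960873911630036418069434987086965621988760122376368837434591661519758185472675353974226321286175303849873491974841773637907876860754777912368617968948432590488272549787421870797702316978569169948841500903616218515875449696440878557471644763766545541386669549356424297758734990487916373237430793941095276281918747360151959274666049890034876755563625774279179038766383117221176327891719488320529608761313425741869913852595152264662691922088618521432646841936822926937495374294630361587913875391729003444359998772797742526480534224194683624762532198972097413228260824043668209230057794689469288700958227700437633935555620707327187647870851839507262961211241350762843469312991432065615749365132511439278798943386297570062117057081838274215590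5353890916459632709252179289942122602071197553733620981584320324454118843386070838875752812930722696343359314488072675724277273983336046080405936313373563322626656926307969709137986771881732263878640579037302277129924677357390330017954608782510186840764144683288947902854724813194830512101059486306578198112985186414980686949598826953559918468818049208210817441423980855512384494377356340324631862167601527379165768503427163563228803663700914105180887815870058977737509267832373337323483228458182523965722254319445808311852319095509985459064213607442916105827278776905125019733134316772172465525017038861788109775650465991761099758931721373652902347936342485567109435749378042827885900068546736480014280789996741059953006339270537373215374421046588803740676915286884246373761063601372352152528979745001038882744004132726832147570429038983629493760637194747639942662647054307980288083953120562282660031929803072012164180573145589671972107494232363001575642533228557114041455054628829358134699135250421003797913834721514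3805009978899429465204106534643086135233132327678564153585483395316640959234156554971065119012242426188124668049650843510426070738809171753583240782408588518336317423362286247365295092689683535899046571218973018659168032242657039608352922311996857162324619730620087314168702330572892591348804015493425153696690729767392384001748967697050013892943802625882483534902185311283331656022659163797662752014251483975731967187698739458202331942426780254547953642237565446540562551283821216766926818060786528179387651961779309948388390400645279801464535130449168122613993006914918990649966666082789648427682042792291293104726139175851413536659246589570019432101916133121821150351875071212291059256053395149678141173180267552736734677768158699704354934777436754469972602189605280332757081174384264547016420418771119564127792581233056402320865644342083740558918393901323955096908369053333909352699780325531769295277607521616622779158121555171831728576077331957253341102419504403224073426577515813534360871947623828718966225901386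4398520257593381450868469399697761271757416815655911879217845310641076630058891794392411374367268787604877285860188159897542110373387754435255617067735816088132806843385141085177719032944862519534646722585443138512263458347891063769796094900304307827070747439719470512016988953275213087143430889601031533743262838023459243188087464215376400839966380526265270087736500699404301627592612041456736748953093063656337497540804132890496762574584613833847425417044113719623305056998370944685268555024701898849135340992654987612191905323568020869118777826148516306716374405089459813982450891212192308904174849644776343065747461112915140348014098455346242074457209502810094153516924379810488171312130553303082196492638248692701653026887936998266073718611328905483717285439602787814284818352274569635228685947961599631852657937956177026600567870918587961595214410305183735614437399570046380546219885185464019753695840696408781099227568505813085030528469517625001939168328780249690428622752820415209764569110513220608141765296819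7273782099992597052098777305380182816416607892835291913901547232385664561992425695441681197863525795030571130855372988483404141156533655246742758654627143930793470954914206222903931976555679824082750671484845079230755228951417881324036463808859683154643408964225510348384866172878424771116902870376789456709209333789851424860325075651672462619633393413995584676637934965905841393646246614137518786937197857418488183574545627940721274899141247232976294521281930374801589282229044308998243869081125529817974482879994161319761176817903447633739680776893827558560699200423156585333837975123291869746038664011451199251798996658481672877990746315098607013032008424365670176536370182097687436585923431090923702354221625168990823447972767793078218559693827679883044263221725628129285126561282076648631178359056338439405133472409769567565490531886182458097944288200581450790040589948748072292264245352457788320453947382401075180002891334119543007368424489616068156249943169567139520696410995090911838346754639313488453753213830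9649043867425784805374260234438864492710507282588727273490014725814990558060845419194034734810846116814669385069840241486245010422429323881552837629921410012851095098427507424291335910588648530084717512985335321153116846368774581285259163648405996040610232546749904706798157753955767627544134028374209060208617742635998266844497040250220998987105740486077588130198593889605561574231999836452383293569456285215607535978788941370265387784365709320191437514559650045095984682996734014537918671191252083352017885733773725343243548311604742820960402376598598298698974378868862592584418395636107690978243405580622537753218191753689062602499415983006042613259584089521261029679418150814782125458346050982194182140567762364460607015212544798084323709093974861067192755454764407331548011729700564602363260130275445182978867998907911378180059239369434261186463587115885416066144351465187777626248956050543539955637877988628598522543289421037962099223849946276341226658707252964636855619688365058996791607352278243171134253511422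9035168151887884968902513476012743113460312682317587693116573791159711758452590805372002871789010685847486369467432578856012365815652711991772137971192196076448601580573107329981447167844160841397105761311982512277760629357299522284589578588463507771595094131370556833674646768544896636661463957606986366212378123685570914115008092898500100242817145961902525316251328072114285291710729198723251613509450250893273882535211847504184631054649115724644254666290891513359667025054839891147322748013727149432797915963485671219480842001384776420981796112402806344110433907112190977155785409628846443926024366233193255470085580276571740037198160507101768610717743702429063599937013431867228048441725024559271058169282375267765223583532500119946122944237255358129784422248982856215775780089088364646037474656584970673747462629001457905516509587614891276014197048240375497503200621790958205676971413900902460606639000397785366045267011043732722895120206111728522297635116831385913669717108454777214218576002963892918299605250828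8643025576735136534531509894624503886122429373473254449309619503865460391137778285646862064504132993546434742113844833182485695202027002603187302616813506128566246041163142445168515197533681147173049601924737676114868015584450995430625724876705697045337501054842037782975187091369129775597811080693612660566416253725105112860949218426650702502670702375557401195490287824957667459066386941098682141327962113536762839539696615389500415082413327495882076495187642870342743468148479447067025701620320279547931033160843873735516192465033892719593604575513111392826438916620099176184199003100330973032085618053737929191944597540109138682918700741542049848922184948062499958812999988426591794328742963839002328716084039036453122204070115782200713640446055896204740911708463596357895520154324210255505337698388425798268158730020907267171727831731554881580201288838117207047588334928926587691657209418169952325978547647425729051940625205066758694964398683616593100368390878055938483142862712266492215094770348080089073461410113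6316384810706111545797223900827985078780023903774578514238926144921768358954148637853151397978041455958202393316507720449284748905395875156809466763601911180607137118912984830564546045757049053079894665980976761306215738266442506547187464333688126857341918224568178269816517920333711189101949246200989322672639861722096901961777101107604159190217390005814041405481454673004272431790449466794504561395008694575829892917876599387886818242142158660282407129873231210273383153834241577905921609554910237864126071933002342650591418743289351617390591433530131236461701460798525976890526142015685219968709132535854037518813939978225376664647410445107022031705833322795437541003956394651394438933433191563195258920840740538886359956964366502165053696846473642213927764380034892025297373882670624380974148896658866241532434023848498836255831625588421350120846929192536041154588798109426004943469577413805033807233570935266454830816283916227109476923687690492114135183043927321130822486822055871267794210797168271996124603944025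6759162858623242047042202175369430811128797219214430804104848624508350987065706346305956713709147715328372564158534913209572777643352812916164840609961282750220109752037453746933490759226799895729059136137452089978592898059941893978385593771434819572715579642396245905157614186496025114447606587301387448593183016513390214695155532997332732055735604295554308151028608086108614832997550201620423359768760051367657362913361297618197185633010926323598651805687294751484498752057242679995104000136165643053077741322116110540316221739019129914306706659443658626230431666196860223083623180468362754945844633679685620476647769705020642878348597379592434469915701615448444014126188125028072738698948326480763098176476281087709434784206109260348193894391513327389521722000938472758510192698125956552023185763642490859476414740800246879324992378421068347223519918103658399657615130843786461312870154652761636681908635594212072550449931758670640490977203391813378865060603034633105858916591480019751709808696419064360567474131503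4125011108798588520819335077028157819599343261575184519896705491792908230925463922536200425406082678666868474459422456806315959287786087930928533689008465298130019674805264624880794298461577015884383904682228902134405761878427265120178450799706680265125253211703618714451754389427762763156240464074478085190254463236140401575165782354222735393577532286350679928622200786791242135085165300285975114027408445067868430459398407961029505093108643321452190446020687314582516558005364180080373997554315466258243239777999826728319886630531264557314105896910847479985905920343484558518093739457683003718956292158011916620387993049744469406621385278022529597377697742066276925222860687068684002429687734882153569490139852251960326266291712227141659953783284410504520138711127253148149166660097704845958497464521391023516823540933069862496210541631559868853890679157944821656550761950399240487477111683325389667560802930601565075189874119668707296669318044284127193387647130420409521871519623080583019449808783742346656506494092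5058326301633929102886258864025956619627881426508465622180479101335890229712164547788779450286980097502056089578672311921935852513466136075424694772312707439520532724441142163995960360905172219715075335114665038343206998385259381144733718686808130952013693035452711495193426346717617494279532060235458366880941293368390406476925386664971760944655599907073770012079453031100604114289125733023433198526897831345887243256336699634492328255325676809789929717488760661986127046514376570540738065367548183720377188569159358969561206149925479039939447418640600649514615685533923087322434667558159962401211093757559085867254544538740016248849599042041674655059317094355695357866408370169489902670755609221458090388762461947451339695417867566878283907795029469910353591279910842282664744100811643524138769919994841564139771542070437946679180904755372971286405565271013664479467356544305387995559599710263949771192334124861835112911449689491663920109551978589133692504827009697565557638235889056030009636315750920438126576985483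0686287940248938630539662452391361702979013346763531844543669916078102472828480675036446295502220553397062244748969339523529737154659967379107119417882143105747099433387914736611637095427785915133924365156741180952511080404582305943621885424350550434332709487885034768344625663558074399344324675580114537066805989788466376935896510237590687032402801290023502316845612308914655044305497404006499843786169019802681790055542896191137070719134000499524900272289407990469039911680108623356334214397691951449825445365731669357949793452868925232190970259088771896354652370612726074592383236434575836312689008385184885609093310165528473196860893332547028813916492381964501311078796020366855310121758923412050923038566177118459934445733210964317938595939339736716842180936912786278706551321146190534071128139675462291157919580602493997798012367740868522194874676087554502045965409148766644715253587075446406767508592294862869812292795849102830773995374401812382493834448205002811731451519421227197263235606290170830177618165251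0210701522725185995513212184831735615189322532270595216453528529192392345723884421007091723432017676988034408774796189283007724945302975442084180226343138735274742520942561573753541965274064665819337354847492710817117637291361916138051973433819828188891681464145814812379915751268371971898827012549969433064655350035530607513968506637250785494172898312247610958756301409611920516853069378243832797812615662338926759316485314621929792927186629679139460998294835470235278670554415750601404177979709496894130154081793181819345332430680133748112993887154231208413435513475772702033931016148177746511123097173539395363181947217689143636560867731735111724477176832428355002064956929928005753834434213758730144996332126768808773510348784284953737378800318996324617704828175552783623115611730428010745369457191064916017314089824318594055910187593932534078723319082213957972959981224758102001700949471701299324887477045611304359856928639347501882577901964907511297182487623468438776587648242373063383358604253057940552579215638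6914114213876642461014096959387791337883596375999142220080842140095393229845238045806650525870155616685109926414496083258791975741350988718112292761271628808159661288768820242524176863745079086250262961513464727506302385314516445069563343155992392412422892625659027079235634055745744979360117157749318448478328952188411735521715494442000248771588448978654081369544134403535687825947522312834885721849049948753853969483318533928645432175303720919951739627146365627901783522584799652849758102266436075060235004490092659272017583993597309505742992229339495500372576539737173525905172866647002737962602371310159840820008274878404370509771436912109188055297382041371755283189392192005828316300632301476114247742579423494364640007949957062308476613114535191666050259102962402533227988368552588381708042784551589836834748072896500146516029973301617667313577693886078480751103792565142353619587034125024737428307853642679892076121993090544356386513749959556919652686177198866856768574634505755701736929083658023752592126343157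5694050323941354520651604769200632976287108866275318245650639518532720564455015754481778460031314620002238217035690097522195218547981845931311024599851598807875596331927290356041076864307565149727293800321241318434759264401444136324050810799013753914486788027771370174828358494799654990245876057596169087135625899844469617780649771727397732579247893056523869127372115951094559320789572690804252935243337728541167010593624143859145900895045980234406301933109387416214655017057510721734876506619877042743702675963044384637912879253132807830845757932461441403551914685074922696379574690042768535527943542144633674824013823268330952248033387963020658576680526783476576508525903930137728522062227843425864647120026372674157109878120771519846912979974300738850636582468745004955995747833130043408164822054126165120985216428448436960870548232950929058848529703373169985601978855080181757168628013958871866258042938462366022009350092880558310177312607982588714412870940221276883917717073769598259084005659832506558403072742818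7877806348328513354456035281265865022639860844608752638165520604499052012394777972669645003393739230298563860717661465643630834929264227877102173929640167999382798111085831754522424165660740926664450515043109945565028044387891514916745149969420649686541919317154202716457002105759291242236246183217692522856605032324726410642542458591350576723177398818377406511225510562048582104683050311280576942768616118499405868611413118978373484140082244476417566433143200228500289719605653137398093897139217176597399618526480112750718859510244024457047906776818790373038959173970096130825232503767813038662174518670038442311386757990848634214260121698839745083912935594244358275072)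

noncomputable def rc23 : Nat := (nat_lit 369733551406395658494274992035226346215372974435668742272576877135041246725655122464088032080072613188928992525235722019578649221477818430467304376336503664562431853385041137803177937258033887304672215381769951723118644424637202554470658114603668066505295463187380638684394956147451045913563919971746188493598006127317987418990347487909084515498199184229811649338336968017555389302440299644881980371197734852575060907296173079100710041452344004167370775310688278358281131540678937428561035086780288096363407575535211494853422561989710080712691536139156032512435419891370687033029973642648455785794143016840611806633195464897234838767463956902668914354978208887039587114052136721379924455856793028404858542983035978966582289024497869455775564322489091679189244916419164439967403399569699298468790030159510589533664209258288706315808533719722285995716360516883883213679641688215120267170351275321437388621549378428834276209570148387246758954666163575889037665456944639214931400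0307617120209402083161168584239073534757764892004750038386676542325376441183422686597251173468865443449775172812666253749266520405862638372036829615023657906393715438167338597638541889526392848483604592055447299403920056011463708875838670895091649157177620811001628820149206909444340509144957835893121735327609799104628282702765249655943541909939694479015246283781817263403755445365014066569673107101391883817748414281528845469947728089102723903541145073117119836279325970597529618744112587318593526083597304266156057050435571847946696779658149683477310153548686213973484804480935229497169417004385816988190053283671787011880847476636960048994223910328952489146012239579518640612019740843440835851030404649545463206926353756733970162249818563732672471902080232146992870099056178274857697319556402806367841221478852368698870933278495422991293891982682300107388995645521921266528071802399636806068167573858374474278801027917007539813427393744180972629979445531223743381781117153559101527338234060709698844207360431710475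9709806170612553753109508960291842068559280053470865088185311124392641502139120326805083337853595713932025042480218943956799068858438458357604177712877607366411791520265413071319209787005157962962764879047281212737441557149763184205344011419507388539758897556541545234910611665888403681588899663595809460724889208809643584604922536732412585374384288514881796696028402503714032316482227260358271446397101657779656586021975924611766108788037752648167993826439868381075432066278665780694850973342094835516161603109789021988515392116385966102958294682302506630582734637351921123370115082448858742169019060326659346343998581576227524262108556530586815673749928516919743264127498177814137984364140922332977699892836063627809646219882225138469843819838856234322891300144285420478253953711363484381266283986431808235857656412509852918437224988621699328615691577856740789834195908747161506740016782383645859352064923571602661988402697986148040026617706463436362351986864708144172144893667186279889127617809000715155188299822745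6921429517036426780856811867855838635835471453897384112202847168322528165402355675188634525584220159214804095278399793636142515414051947505216035914119686056906648337761815809394346979462233670205268983341202370526435581736206162669220519577009642148009080264638913580066505176608654404272043881391028063459864220731717795531207186778153014951229559660333598609977861318303718888192904985213827796932542725358021939268976890972686681630615599068960471315421055014852116349680742763819947712209697743201483464324153479608863937618077955942175882341705331338406155889726389943802655746354433357059201022331194900938468066101470161085667789350473198812207742654708445852337041051589025178089806549015673636397225236270746437867366255809805353110223721763499680089739586290461169692413717180461146732318522199640019530921441216327836293437281918565052207799740567584981922488794129429580152015298161371902892166330956220988083268487267621834944933634307659301036770380550183897440725627766685474054868993259341379402140451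1049162383534652442291540274941187116965054632315838829375860460806376697901680938571076502660439305265697817200569407108765518367914616940407105000266655115643737596381326987403481610805911958110348748445031530556621074086319876208325036818202436146713662356435265580271979798088905349823705205222088580341746676228362614029029858241682650282793151882638712436730509764421664609841442368303690231463666711874097978501405048093892607707656473246605779058011922769814850108858351962324221136154975414200240267365616789684621280350326393950333406958170900354669948968126843223661952297004817154468681800263744273186016833225935323823706462674068917850928447799580633574443906442187214009790436857096583097147996328202484100751872792661653112946919572390083199864199321914176905100051490708434969332510400430112914889829396526103426350436893406657637243364402605075446514547213828309543192575344092166942166137298923722426600031533196989319662283867466273722290579172944515154223031016956578920281400067320818742280795671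9757632603757471220325335372281617137142743188002878490016055476849166309943993545707958171438182413923622951862024433272363282273244288421319166506455474510005778254487223667713584917270577959221208725624657792313470439406316710902397506083173337067551225385496773685853730063224543050126066458707058569872098852544154386521850260869209438813299779413599288312763866825086815566077896280872857737684429753542647526756447657724690942222830104967393533312022436278997083405766701858334391586723900169543230491145111609069038697783607452421471843341716729346883604991838989387382356015074208987054640914780021340733347734594946405184876800357330120675313583311030222319617691722691621230042386047598308432280587595840488705051680942916135820885958364945506502408172074464641612465890115886928329458147838119972261903993707478191741806617574918528143605210101957854539502599006009448039914789766025584594067374237572408235045317271996437783683734869987094903845006367609349932389916237178718766852361352660287868949479968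7370072037918754340497613778802035352972727660961558758801684313453469522536553870149322721163075836808147358869142917772715709902403062474222233005135449108384214689548653945774691236004065004615836205927290230150964048499900616549014742128000159728967364317427387791168360775717323183941007176162256899153814355571379579233612929768366658570615166580489598383176138218235381287248820092845645216267961460688771948333371844277512780746747952044132684312279009050874022829087986420626409196102891103997012384033222009410438418316784731215316848923856968825476277886080227011445748995292120175882377952010073680059387839381604351085286659725246018114073789595778202363639647467662745819863118686207072169704897224975178915833399574825468749210746841101826567998301433635250902473123165194308122171519752985657951933153814813472942434154497211212938039155864781161107360447171985939424596962026075991512768005031409958217647850613091546689996877119242354337304461522099549357240660014973096287000249684459197793900062405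7077487207817489847249858239169449184937525303307459201188080848899976483087446476647341807451360525943120241599886037420315784292690453044984000447862721831212728056038161822920881284299795508619565236153203756717049370810837451775872684555793345726422847410033215211917763484948879359996989009487914336306476363793840669126057258404689310229643628998785333268081481968279574152244109683505041938124563641941291810640926184138294350586635637592600955814073096232142503371144180999280834616524618849259553301598635338463437181550721032695085904146973074440143833743893438167190627589357284609305972020162287992938515553423114246554900404131022067123685172503192815289207268254710414268110683259775700452699071191415154144162392433875692637303344423107311877104660904141288959551051593286977683519882941454256004457686383548437546505497980068690412580313820295582309579494725855625091504789082587846351898544327759015732004054907724823079127559830401506754957172950977760697097162531776634536758094974271182652496403444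8415552529637029534009795157928063251785912447711699263829409513701143885836756197012242413095788736617390933947706955331249584638631118494355762248349436321218803084758070301490243330489655487373232883387353511276764488075542195136139033958992541301360769196356826642878961348975452111680499005279715657904259247071575970502667887178617309909772579871773491186910882297324799136089106039183579399203292873763990069319154903742597669075868009657003404664933777246369326422977480728471907595273656213464169924697540073182538678272145083523766970909500271558673171652285599024034582039150794589345393759401617415307431556311851173204172953694410048171754068265263033786960033419913108085560657425659413660051594771882456343205377953544445851685861739624168133529675824163093941163807232988941449585289860411748023044464201285027460672486696243730320813788704560155977628361705267324960626550155106542717389521064448618130252545434980868587109830951349296074957429535226244363851176998476999809521807930277194780414772458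1166595284466689908742708864510519348440240557054554168188614240719194816995236346348358763407147731630412838796176699120382449668016083396586292744511904408925303936241433484379877941856067719970141846296820026143207585962184641299593656143323364189791005678168105045050044797917394847369115887255962698655585862521861905209667092951739241908256587220727981768757409385670357873754892312406315061676077058515449763912437415284041630955892083413739722868656793672200349733449640519037999949346438395041027851878591721300569692756800255839799562390521180681364495948703878663153117125379041924573250893024409217496294795989577627258477637272819512954315578030146664102007059214877279213438062411580450412902142861024946243007468771779422533015737913123462319380139411869565495400622855910063649002092027984302881029289288466024658614027099388140063378670990814432847411869955713727097226807131538814948499074037300105104536839466049266772651759888249546969959683576197026467747103940871104399888944904715730871603320919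6271968225165517256022785153592583895347988484979156666751655989272842224570783360427840921002360052694323750015260992518266812901390093851264029916883636029106468867139658935163657421640066604976914635671335781454790729150418802400960836670867917978870717984643543205786824452503796378219862842922584568330129474136878617758853356874739771935260585323065700823919907748562056384979807790535372994151816875888798916495967194047855235751365158323957569418768358863512345765899023794413773516007586287433700518453738863744507736593931427735182496659171785194378381237990215762233741530735216835450976538806690351250275051066291890982122810694176038718453445548534649672023946635518425578874401731125142873027892877481185141789492166629144365674273246953332178929961942492820127163487043351645029895459992701220937809139225376557584852672329144581904577532401832732631853664951365435530990761278839188975462205847087044936133585051922104670583243858366280250144924055239372542587366544235945731082715995450861095017027160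8189040736056633561697063568692245254957860650930792218104622806012930169636433406278610362145810854154297087599411094622391725208461562075940484236007868163653559636717423785288174228054246278354181305783469680329786667105676065252904233560388503123197175237251260715502281703086329841556851394630763811560995262390141562720483083148386798043647873880271691670604995195292315014029335511683696955428313743356587105748987491272287410061597739756305691555696827807814944800882803011036145801492956925263583670086650680079734592219638718207985652358555696175498436145416016868729943089074877935349378921114884212020109584772722060408276042953029147520936828421859039702755633918451118912362095727180568327554443312103373481342634736333372143137658915187938966339172032184367133505214964257054661963802195413914043403573190873897903031974616888688902513601074956762615192327037041580089215110916040790843059589603575166953242732919205745679459904567001211957020620523997098070936922401699692145536746953476020378177929961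2195688026046635617705399501838220787540535583206448833977845841067297093642650930342524962163420037985698515334617803599589868222927396100640300249822716355633480503485370134622201482491709348420359863550136654897411391076279429262850047860988439661326677312629661768120139476429339140748398246998689192997542831187922698805742611973088848205132528589207406160776775302144173865294467521686270043128602740078726609417469126455000593077596254431846372560512508469006773285987845645088113583116187835993180399871672823840507388686585303590345514382951689397514084183987476250822862969157087027103031095318062967384735510073524578998628578454562714871659850314602638575436534934373321766989348302545591104374502264692359796970847807552780927588773370668483541677322856241624428851857713611860915229033561170652202267483969221682313313326197826490368530934690922849368004985724143670901811486171463680351640089184324328330723631735824244027863430231613163296700007236142040478984259141773534859786600457416087517677323554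4443669269604979492892130607785567249745399201104157611743143852439262429252150352579608293918292918845556831420821001473184370022149407694371758778477064092969035684720261053372522025835837672303690045298264009461789102588851036916356230661093863225230189362915511695982551748697463968934344380463863497770348452272954091201528943442596611341597658112702443190394598350475877623361458440433537212179185743184209745879588086382087535574292112865349593300850268172180157136590683650811814890563549443305807097852585349793274962372145130572393602289398648020486991433972474876732974220064343396050774776076582003822188229331491960722530725700876145381320057071383069439952030784883744862228642680699245507688384464629898221878550627368431313172198539268477013797006956252267799910623861527874103367649885534781964680745951136069687243895678840049861596702145341615207803280038825960154918853151452322504771611612812748995252771566848919368679485857654283405335573030813086009814878088188890356109639887069748434104694719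4429924650705286902619710128906167904096421446009785735714285151415732586140406693545810329782676126008436464276567135174385329972964374353012777741264577360979976930091140587666815915921270903183463432363788563678054262911077203341295780092300613603095047979727143758721163975643908161968892356940154300712853744644230146803377495957277481138451340743570594490043148212061386802921594361484254516454289257634883840540669003059095694637212013247281037995706051451672066731518372728580801218784723510873338870297052668851330437038784552044948407702497988384562665854503018719350318511838142505635605054590211138145636502904139091450504647758044592971422274861345621051398501795950359715606520819745230799660508037380350257268215944388995123635264245963088331037236538087753458605375347981460122932619969275978930517625272713833480760597317408420491664850343612042047560872559470689225325001393112809074173759938108692603643432948466442545837968985403567873569486284009524417213368705819802201772922939881995008459450819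2637731036008422772558200109915666293152136369326248777324283680441350460770041888330209237372207828907797376399794376632199719345944021349042664343778845147796743587411504538612991233273475186092889874021714213795423086391202671499031385342720810864265920015726307169039638312854687837699642945531942757124167594995661494915279337805986597543763460847903560465058493109585554477733094187733135865878555390293375269455560176372687095163353633216217164771395492705082448160659903452321911863834362859922226684947802996812510471253284988709150071335681507321595633632047331734894017149074582500603829811192870370571252421463519244002116896117465147887715036321057596808908839495398021448555687679807925068042003646088240697970109934976732850541791341442326977591833917152611371736576530187374576658620575387623797539120070009326429864336062286955402924237340307596881874823483469398547421293124824013912541458287932309807463428042151196479782368688110372060120669445271639557000412533033200083777663678118561624685956024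9506900280723142953938750768659362030806251376917041729322748558804722230586351195217421876189486382409782431019963748517099815900302301792512887912390140396213132890240079469814698004866149879626597630673975249673135455725764487872027684765798034451749074085828952589469490482920898876393965947947829143231736334202489887408187345134923383271171729685171858997084067546523610259068435090611639201786631756044197559497688625094908494602472553072886120340376948195596295391199336189055481797543972268500623765620358287554316888833938730324935191128140324471601719629077328561883887848129399002938235169057396815624192757234338286907352161744520770535765759823566345109574219825956460351244009248919958469467243111418527376216528644739629920532035199297368133270791625523662220524704604402180104121269068099312882922459481366458358152243327909552435946981411587132644089976846058075896823689094835754863150610079865310852897578597124006713689607297764503224795982847089886203165026274691287639989127052040288255766233038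7618407471579833927711883220800407420033828883411462524967943614044548031931131622530565010682468717492025624532802536689149093070160462913960161702736002117881623938180713763242648251580757587301864468106251332841449865696226393640545629751522760403920553630486219676878345999819194139041882233611401194268571597662941867833724691840906885929107908838189745198549234071957142977978610597424799554185993798511692991705592959349536736434603517373665734780422624335050375031050003755674333491901180671498171237099820459845512618446282859785876256693573262323309484427333110037652445373404036371730328249354733169739776474065922649937487088805921563379047660696952446648320)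

noncomputable def rc24 : Nat := (nat_lit 370328081173996553705829260035620573729267091566225442295723643199766094513156223074795763111317015866974612037201860321697380414776681637300947318494225830079126219683864698645278806557738820355905277616708714611042392396748781900284345990854403411249021145143584555676703452904525754079577972886555094617635216436506948981074890772391424912687685207940598717391948192438838541616638447577935427029330451943488651201407665089987495692661980149522781815699287587643418411500866582109671017561076021609816556195751595901155896517616830092265063652204700800764601982260581366457046695805221807096284086484282959633598946778907368824063275547911093846383710153720018337214147779274951840024589437945939441241683348922893212152624712625700707353875879301728611219844277796291117653218058274311130647960381986357722218928712982394598129281479452437386756867358732311927731867687510726783592209641552213626125436034658746555144160626657697741385273044282342953547616286547950466193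4450597008893167620008470333391133806580066507147571653252815269642883033503504158616213779447581887535885027867944995140213610620704548205191083219400890203230938850611975195646063952543650785886104040554909283304024892017767968102740119613107845322735428701576201744044108420710235153423081958672753560399589617360863304293785870764276305282161310012365863988303706119099964331419441339941776957109851390387664955813452472289257866113672246171670964986985284622697652148991278393982277635029602539384431907346781086210714935787034673726721858133759948232997092976053512484169934500874438339337197942973577439066643051638025547328634847495564745847498424293175305710042002781805148883432204423875281391559287957215470937520258769222976918125967711579034870901372607079869596521589352460576781850191343691394609143647258522737854388847111507607975208818607626909149110222798937027621553457176148963348298845751156259038344899633528519431414413344399361742011901395636773387264270525405157373075062448017983614285105197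9192655551924206769469506136177689826164413350868024969907025234956735282339083369919277087336640897029908417745621806196123417519384483908585827657773680913285995540255364716275614524714049297857412675422886498775958605017587570170167556209065156402374248224351017334460054221572432817511027169806407722564461999908206731893458236292714871065574296718600567282807635250269871842018426859034779069950895345590062946268440681905687840272224944286736573582963691367550927205064445324065092549054839019531614490499318624272057877870741354103823121404172642037348338334031056890472342689976670241789263150405000471024011546633853943899388461981278046828396996413192206206029021057490966733307344219223547770687732996200238412707722217834177981863271145915629455056414796997221913629945150019043306641428131382023615554819362320053647082397267235181963331917426792182609407482352972393322904491893162705604153108937755660816021368024518220534539922432114873943834585595144160670793113974565128942557043346828542752967717003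8571738702321263522611132505458051869620332502570154847868290759597862277783929189099588327937961975791889693142598242652188649759220011697423541008407038621101193462262510710967143264218373106549729636576267659382918968839226412913620279912698493714977073738878627401980641868909069646829643140152263948115270591747108187465323420276023536094094673293411282987579049995777210308023575444594286971417023391965227086984641313499551497486146222511677060667829077165256575229505298178650676899056027362409012728890673959924460909665457670827347837078737441886698287154329479564596238988808873782107728534427417262874008680592012337290533595112316417958254648705689810562568862823956587805794966820085482724471176030551075916980803570470106818436199851245374241043640021754280018760339534917329149344702387260377131647055374051729765106670614577902855455744240798191173059688104453522543826373690334141606894593991368275683100398020406942092366217410895361982609388596961262170698417285575264631979029137416141089929668330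4397349206473437677219246767632513562738113032447948179273971392713157416285296664691294235186187797382579139312390910303174043796225944901303885579891443903579023036924120305291760466655082139245989551050664287642332817775801004434864660996748815356379066802136647867409194247599422394431273327425037700071954666239705487401413424147855706638594009108411315310060364211847378162799678801225161792149087933171964475010001132763378524542484795192571160863782893211768182144519003140830640346156522063633074651582750206692036778316138492283441709528113052121337823746134752743501947453146406682240338044506178503971002381246256272765972823181449953645386046665688089952819836901058279354021826859277605361822319318419587171768115533053684372891209320418040740653897440641346763878409015985103964791743483501216387004697214042067820263623546022559936804053408841827334710673820536784722986949145364526881597642470284498159946378590388756350201757569530767712653063399260296179405152535086618640295682203581433557422313153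6913798380614872620356482817683815073159120260282223096106291872494863365387516082756105742788049746769120339609790770613795412524545120688884115568356208368230269298499431342911775429572644788872272715870686850681373508922670214842818873593782574168310104627745374431181601273888793123412511146835696803178442585557945964397362905466350483956184726665260031457580257041497095507803449565558925169852904862088586427133739741172957161186840458095932625713911185033478999232347787747179677083953580392464621098875712392347833180474261148640861601007828505110264018572481380459397181953138743600919987893333666342147029011209518707287386382506558902054202180236824683575297162617237560900595572571955421707637179377358992021777423321540576371202973787907040520536129015291505473522990582511073581937272908140349693211261635636831593537416542214170606075640806980710657709845231398758311982360289549381188491025043152802099264947418351258058840802079961226816444509229972694206221721962199475318489771332090936440364528036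0782244238450773288043136201665950049997907936531332912271757822813462432036475918134068001439535232468473627915204626931156365762695693669152711204611194297960081162229888465472242032926619194045165709558086772926859799660192028478760003875549506742075349865226310626537759891828556918993352098777978977942454172174091355390127304241237811983322794576387454437001108094280797928160111475082815822651576379202489452730411104424312570297099864125413381274120844857272461773879722952580966471166533933698647066476457807848882381779085284300746202536064014498216211135578229495159814639172743506608609231550320045801115376073930488628506676193710114325557455198379880003583265750287922385330119722487276026475361951252940627602233288379790650795055130815126410653653522511215889519148920068878558265644307439457681309711513805715110945632535213026286984034426499493158584098657078539739410652637682680713548885957349960125616148823337895584099011083362832024922586087705519123926820873562210235329310065057436792414829271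1272355593956783774996963746892463945093131884374373753274541935988135859285874728116072957868607020135984366001250695292999681659536088474968313382359846646530438377530066102847876314423484857134042356675588144093396417131747460837136555449950209610883020604138589687512944307672877549723889940129588285841113761369909582995348154118248610172525238787046812011015673687445685991105674769397525234372413246079290571220693047865497289011127762854301995399796680063810997554017095046571484096217216186789478731556251109446818750731496868595087368532533325366494304648963354579537454702023665220742218011077337280772171065841090434073261037287820670149436397141315963639054043508021330474407879743441190729799482488892023238299869154489282952535419278717558366582319200752985409603108441174304722951217794148323252620634601846191109028697014592667440865231859033083557940982947444177067085292254419681650790663701763509896127603512288891468932902311298720538727501801766714233639635479240224426637981298993819566336834023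4950472851552469585535248951956100739240695778695878326818403057440706554097415479010215758474581460388302235321994541554372152342352628292123025298568826470504908220585759049091991782923620305011866835569676962903358268077824464714433711039610884788860782661982846062460848617841328489689250899031295286335711969244291484257394141566057388006827811303077889598774875401455234124860722164891621768215737256046594280867705501668620475242966300714542694495357959202592112039646717288465229974512566835544792592742527063429948996314893936821582295647915546026875721840721492831665207241443926770989458997884537522614496414263289465868061629906390967873195578494112533764885288511409136194408181359969247453439002458813373279179374973451171310405148982259263632123459120623709505119158265929325865891475219196821199909906468853676426406930952546003768483689155431771740652042247177538580638016007026720698258688829008788707112566875784235005779542564239303306616623511010893493489310663272385527138778584375056424184295728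5352763958293056691039596451917949002950355333168440995895481680395423146635116986595024967622966596955457621644700026276752600482404578331748286395788381899139395513355325126419611170743741665397752191650192019392792258460341705020938827690629282773535812782384822869558169114378133402556097798497088654552951633184045016300151744193584282051506036429955889430016839406988137835893029183270070326633988437432446927419562080264136157624599681296576135070840760930559127580508921521597495030364978224754335030045244276130917908539331503484207430542928832860651042798219450441921211713129317642682531701568712742823514748400170426869141372912066871232474572135468852061963198730084420747518835815447173189907830623187871198628158476482849475751705359903537475295427924113947687978878126692515068822619027098360634468241200111817792515637667533534049185514682750406262349967351083503458718310546688098391483042337297843701026924127710758838498539790709098110756835225234375218276714074424144448709097510210128379694593050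0544528636195683613840255019668067101939629515274303851645973459294348369125480636892222426022009698879902572052233826207312859871574959729080769222054701724869843970163928826703086037734282730855521329365397757230824210849075117058007900399743074724030830515275342053030824303754657945327855922418228100079280873092324941472600875844320026309495426650378243280761102049758844200203352339261877746964055817561042970889800495790855259217228492860541225923011344336301604220851845206026496746266719733913182785502571281291739021467444211496517826728149359243187451034609052502911229165754908237831254693813956852189900019430182092878970204698726951274881317852277084336181788640159993675488256841377764859230826013081548091835036729383763271788397251377966072686239545669480337465615342342542378895293965461819726459618383609493740301432341414135836352547619459370625548449041049324666737484782779893929722941484477966804637701328299723459122958841074240328426696017324606577279175046825634802230981716523290843601022428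7366754230188925582426536550259568405081221423930730182065927032158042244992990994800600267937355818496115214300547317405832430071763927100738788447822045322818647503831560090568175296945489633944983333829315757330634759199333831734664983361445325257827293422241207477552114081939223918452919422281649378550624101886653504745180497441931240769233713447312737131477767630538454731863521048189723236572663593745452515588701465065682889461441351511146962912205362609008324167114034192232577391046728455178444767612691529550781386747483864607691430984885299018289873115761229409498445912562927927574500260206346257059110168540790405485605914509299851326415462252964664326390300778658464362444791816988981397334633059981375812813916089714646434691048553422475598809567894754691250399481841565703154900249646697914146882874770123821512638718603071500638652931063539724038053893878819854504198286583239999958261114737894315723430820792093701574334850771670124321431610426403900327695065613742257239084309623777531703806313595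9056992502210441269474653304543337081805506287298843782669401963035216017611070857508367973736504916349371310329219555501897616664221520008712741929229865660559928910091102608752723620019542230245255619836797171333076704773428095811171724224378528495595468453311385818886127252204928248275255830233875253328427782677941792466013902773853936772159931336333853565028325549770857175394167035487281200354381045700319845352839679445829711276702673427431098269194034526282063612046660613407645770477254881169386024358632407938333800857433339746895067638067952193477826874553727014931515861914378196641748556078469466995832311419014028142611198169239845340036446131455794493033926804560929731193155565610234756268152349811566819750527607613501477237128142175635994113536517060283389584908243891915508078835447321051462069434176497513712822397985087419947557719430376994366462037943987273765554410556045819659431252036164619716058119919569621674365623138795332109254028739190286235755697447272033031360894543711716027853271823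1137382131497132817744990123432337221431186487118789959596736390674810911864656936352038699605200059609095520559409869187446629687292110037416641483336004602068553224825278588225191618754603740599680813855136071510109711314953340719009931220354019697088210307122612913502182073441779013916279911902604826681388172241407077951622440291488604986979178282177369236816697007025230670466025922230908448203461456820394968017552911638111792098802147022714427200272462180411709253494322265127706216534907180726041393268154243729398460671906427581463827619254622382010091537985367578021616548461168599779096090118763391064363109616056382796417455844676097194923786585850375629269395535243571065142380001833215173038573245574899442306047406936177296387868436160127011073711377960250965498158273718506580556215384197251000383496730436564528718835395795705794433011655302416422673119797828191000666509198339013778827735888840693074451126801745934345304527275892682955783885867874038540446269591032558262963332897302476934993604986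8394610867261377443767709072305523139436832457117478437192881523691379893226015115362870978107472857292285269600110507064886180665237590642266924168285990717624403012867029673386526731804350571479903632583241967328057345238456296130361233137530824577995238388492956122918088678418042382972759224853260694688236767641628229321019333015611967980873258121817809053877447704559252309887437212951514700984235309633609756287072897830535966623667795550387242506810292811642728090287716956088416660673414437814904134528132137748829978257658316548036693798140316419678804480961304517358263728049723464786371465980786119835028314023740809324335912158000034482397858542709442503360950957076714914051104450591176162749423301005005654442839254640354339933676085829538131432116888344077274364695522451699904578623309877743192593349448062998242084278805453893792774082717088290109078432030192666097654363016588981151116723369549014065823473261784894673467472186319137117276521466503402768445632025862354823200275818369343344971840021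5844176528924690054374949561413878911183978767324718831439860989183132229126924512999920284765600457687014363447368723755420717814822891717303762729472935226183383554039280529801604198298217431407756391364161601163595123320496346118779980831572778898471944025592093320058342784115621165254881295252921872097849890778059227841703075334827693067115889880948474431368352861909545934543504203385138810592519304966519253296286704333409502656523435426534783206183274687709430582357486313536344892322319532051293823564804117860499057833360473451205311327093893915848677265224138579614932224646546442270476878092296767466703830644984832888474248784328110123726398387683242358793769424209729575493578785957363314960589393268039740006997184556553682726310139953874398678135346584933283631975156956826545203408289972101419379199359889656717648394586753696993524344644540598132581054554545509934200746375906809397913371301382634774859219337323436107329675589994102503494525190212023893367564984125633541666452926387037272717486760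1126443740551145996334552860450767678425961050097200645144718444569625772354913587312794743463230891667656474629696095247848938611194542784069261986630536618517621122140154274631426810887217986574892118506241595665661437289367624988946944392139588827329110399436904688894839559092048360046632323754867900477281610654147032221991390820732933514991538919487618199349988647495929315286448463701796924682189502099669493197283581075583734294722649439474094463420132191932681584651361744884818950545599099301255472803414720945076624604989258601691610093958668463292902150837008173855694169484025587822237139753342991435126465615360591996551718533552111984799609690741482858311262536582730188580719597823495547368942259935329276032265475873727313728232944439014981415047322594760829592199013457944634148350217616891912077713363784948573232807544885009265546764726851856683557575877915355277944989454262291999052382505318006467103177637360656420033388129212461711334216142035150621960364548707438249985428225398318544851086979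1009297442855338601961957110672671904718572222166809678100435128384723496419374002394869630136289379279037911455704015672575561043645777057404460408435651445674947269488662197263705185921030954679251748105059667430581852894414334478087218621138386366057237326565157684329021301054728910670118030141897956278799914693201958745770311424620125465348810738499167267884602200290767077256763057687370068800700399123250181295431778184420907481131880783227831848809675442384870723794766823458317606664680131468391591614520574523195497920771663050042111474661869279723463137053322172933542509587092356694647434613385536157261962333110377557198595817445851918211344387790736457728)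

noncomputable def rc25 : Nat := (nat_lit 370916471603249466901085130145175889754508898841406430792261142028405578823516916036501604134981265177868525722627098435900586807816340769670895394041628142807493228787805333887323197269373848714335523835724579943376290826328570121597889871154685828868736529315017899884350478716726436531514180510980247693374921880743988255915308381866656253337705020775084830078980345177700759503420664911900096630307709244988192070718426183491203583950995299572116782771118892818524700408295372034717551643760694745218694561835163633684503206421539833779850972350154790222754152240917314073233751286251245529930966188176058449787392336111234015379885658314926239194166766033518720492336112803295671004747712017827911327554127050723244555745682982569068585874505558856135398685609775115460446437310770963967225760863316663229016568681484851100843826436996692770363323414393230831969772622775262117174754612645221503664786315522306352500076454524502036455503895176770700381498410875399746523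6552689212709907260959955128710994722945082739665523627025408834298674398294310875696988498713053090607263959747395438075008651181942648888307808031823294027635736297648216364015056031576427793463634306955453411212291866490134110840485155698471166379726980386420658600228873006719249335397150935525589098658300834319660080581624247372445878010633152147643406739531337530299928571051714155892827216636312018715222204437198137829097298551370841767296309403121051389499609778332056070829419941238395346964884872041528293932127729194498976946561148632583162925209683308534725000604494701360631485744607954316381516841333828594655282834999698144952187994382287239021519895048065406512342600812203522448526794587630589541773814579416399765013566384006651683339884088678362564538048950488412827553789864762968821531701451704216007070913654040862778909755226957090631174630782075633469004283245824345128073395467916804754029718259084798099221051865635639095947777910366055886840985124208408597935534416433682003598416753194810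2416454900663478696803408871381075734248448568176346933238949915524568526498839641600001438372184837636894314384105729343389822844004601961394576494130784498170058932274761627254045840251540370576902498598649269538206180900382174798205206062330672350802542495233493339987650469229203698668006838054265150836530620913023616908348775855282056420540022350274714543584457054065216233357035904805423726479128434612163266718763395001247710644797278144560013008604796796044791351215129162093203601230612771920562156466637947850737207920760656969193286708710959406584609877699312705405140174036652757284883311024597766550229434470914585243420313506222295992948965565990513539576373784632889481938279357067333107873116583404005116829577352697165974538656259298643185557882979417908963747580995194256743522148405016680354147710833423417179824350129254966251401752920386235827606623709499018315238585410005521988232458211584185434839546535813799334325717305251242755998407853704881665729605770225969231587309522180531457643528973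4252671139754967756279708570719588882333878560003508883070057674474048165823636715664578032371548229772763293174555219191380308892754499459269858629844466450149986153936112654055253434839345238951748839444912403274122554211188918070834053490692460842411771176438683352669805544492536614099203815029474470365672951993533002730594237506717869546772383038810918855368639399982201364726272301791571778034684331858364223089400702001335216062159277924351536611898087662837321730343875690148823989781841984452751727165411509680012343839594537076193406835406660998281873890763289431679190226387067199866599153958519450645465951215321465157179202385988875694798125758887217235536075161382593788674734775046448158571897255159588164285915927424092210532025337511436238301310004427091630514624496837808744666238106305260227357077047289985651820041240274570209806431120509182790244534591609137212219190404886344985093406089321724133233535380213104824028225612411628410278014317050569782794992881535713087409853426244693165836118019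9243377155054394871137859976549401797419314462340560030964554737718253250099421742167900075487305765844903994055603783491964376720034820253601658986048081378213814148710948192366729064515211398737551329450035039562346315241387931453166422541454628464844057686332108707498431577013529291144530223529537969674216804714921371411633279482468198194451460203326798773446498388361461736564361301611137980395308620131419847341374452858318431585858331831520251791407403406792733377273651000640831758042666065643270724882624613025137359665502294906396750374436395356906178455774074229274237296570093695748174441637189969276458304211035470811784386636211756455250795339874185704001856623830850538122118965133874400685058866434776135930319839420706532048267569831568479970415715028798766189695776568515370228163802331914764067692963894037965132716563714440457452978903008112111336793556747548129265724164988378975310364497554826501973712805545258386174649018988543381848379820005771749813415629551976480308431801333227294476950388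0065975974828527222542303181647120549416978475472703800332362691786028054677214368027190326296689934201777936507827169479304825164282022098417968246107475188621003661873755461591701586514837384138009252714450966363516829621976027542500675253265003021430156552720752975921237943536331110607484891226579203312995679827549915379248420981042812699925804080496797022484633341070486590804640983677662198108237192328134168132676401493666224918051624739662637092849865088050701290696167189239534925173042772379759620856649029614949936824938266121546363827332172672663934307725162751677067739735423850793293987230803803329881215822197553698972625520792560640963040198286233928626159319736437563173238169068930592880578093177469616881687423539867551987696186186712660828387578945707796806596160742373475393315071241547010234547636414250814421519519751599034890795664815732957703730981330135650295356973608785153296499560258839755779977056145516948736766433828167436685194884610893757814996836879642811912930220790780126236536001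8885958426060650873328298617168959369599838952118035855140777440100566933285311731278849613839460481218657248379277674740979930298060765441548565789252485760867625688235565674936090238474044154382045259008165113833976177154559376860985164951699987975456087800313144837398162291187196334567028611707431608293482241253361185152787569549658458693130479797464452119529054286175379008191638135357935290757786427888888339241410774342714757225902923906488317234468694296249269953437160439455608774665257899684101230862683107471799060028426103136468493312453734622940905863129533989376519070111754446599259952150647321239388723840589044472529521340966031215126125470617757192202453055298819763685362589371900260310901893640959223796153793659979940497797382777917703753124866492498012416899977742675051944946834046577938050167407572143566350186240821809561387662621510292300987242716652361124374500459175460295844557314118322896020868418868985799001940470749641645219857676766180398974314996296443086436179328475617541262715685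6104530315330152041727367442748558177404353465442019411371601085962980180275057038731356620025200615813328995654929514945798029983033276491166919887481355679486096013368167684325610457040894245244942913342279653083909825726224419113829870235563909257112428305657560716377171579471538810827300088218027236408124487800385067861758844292629972912061806796335344226738045212964910566884198267134212127908022773343591340864591775183493707588270254200296738935118494900566766017539864225576776413883768065636242062414491516066615285553987044466028102011750493572539524102049557257031560208619398530976543378588108531589253650573334013898066317456322408648584300419457162601907696461203661861298620786470744092461419084997657893634676453136087165388091506227925402649371319135188867689737247674123052159896585178252902425093884392158282423907052774177797695258406866658770633606437896308215015899280910175343127093302614365603862792328051637510857287723476770941579824413358705218820015416919549047847526956744076075359406990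7884540999760907772594529886070979456306379246758163552202816189956408994986893890873254529442139203031469924613034049574209302966240368810454363004688985085828880337590196689436738498770186446531433111485794952929751981488413498675948117924307338510443645202765285373429158957906540758893176035102561944123993495996637674320143452249988859664869828912912482191287746232529437366696679910942463786487333402315767168181202607907437980769824303616907585931845641197845199996178859938215783369469300837325276536870505482028322772788736884100953013426758894517518668350999467919255006778879201022162661684468709310148562221211229926656194268884648507810060686344733143962652178287014138074762964879229497563340415438662107010495611578491783135997160163862043234423345172726873898686152074971970682081587768078623444704981983004059056453234147209627403328424571135488150528238477450896784501304318766394342072696535805106806166872580731933342235501590450393335188620452573871891237151553203686009119582606800955017069952809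2742657973602378559194374996841993261652690422029044544901812908747643615176795332914495018684594030624920081054571505936296197107235584420060920656831718358827814111627204922595955836894530803618317536397972833909108104464910319426087068302282169325528779149542388145405145425803314023200712285294205379145438102493168769581564539728421324544800647561927827984655511194147163945567035413471079548519522208864820378538784422534005112555817837304550855577019011453122612992660705421154651872052845680415793514023499500345049322520252106443357335095422026564305050737621763796071720934517639527592669095370686608786766492040993752151770600595039987807979742686837388797936691634461077833350079877829233871290001410367032148125713142543009645062472131551125955503978773511060312879451072255055951934496346996274452282664663049647477825314541091609214673269463526612336173020090434179511973296949891836686011556018771037785680651341442092056977080487485897861681871261913321215507547965856343711994110431880828875184718037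7691047555298477448792107312372924506919709504467974091765567505220393017750203165046239761515423857569486323442938005873156926849012425506310565639692741437676908636218275797641962788633699576258904830203866443569095642070109207338225977070292538162833573609985664783509466794512635319822071340355336637102246820418453574467689664368754510929620257784125781369855964367842431043853235729609364679200760755886316527514767083118198860824497065720066287512278701185474625873742875630168689254384984640839704716418101297876404852549900767236993977054938864119360846740384414917803443002721685666295828681307761166393631694939779305744828420174095149189337126249046142024422269150115437922172749611174348932755494065198277468273583250928514215817837407881232127250173562632298317319425132352746297852640299861327980806165884719486033581239335461163952962722810840350480372639830432561579619655279536666183725317024054979312518338648923272728035532479890512566300602794945886266798037402291899646254347322237980871186687971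3445129740209501262319929232626261740644656683674018071722894984654408296728515594629268905469551536471952172185185489136344757878629159811463838442747241579375433454991025008285230112555854772561988240219431832804010423651831976236818739839213686095321001439100156683977415255373651865455095428054021002007136778842641465652866935762082920763548687807768371377245842519699080860538115394918805565126867064396254041195096881953668370012853486163267332019454443373544366329373198409631664293480301353483901610478245379115568808614300074255400866477547819735505690826727497651528701014022153682498429090970027446887544929647465322799159741526598293453203785551930703307998262075265511795400514040579634033703753198829853792612968135368548639315926019162522901491498351298296585163810445940227684461644410747341722928224915224819450515171030278133622655011595500078707227331590013083509350782034534835051497542863818536517636913830126673270933803362233965835016360713763999755229646196785831094337123387984517567852856694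2528333980660067870990959900568040588740251406655265965442095030953343706122003161577358221541592160129895181629606630974960400127087755853574511895644642145548117086874235098201295593119136903534451076800498778678668083653177723197267304878890228524170020477856659547945766521109286876095808151848076694351295911783707489762544897564490531536207126951367222435727725769436102076460308028650786861224582799461371038939301755642574708844530620870418347613743162418900381402718952728131426682930360024849106782552100336755457283372306214918899379673554384500341160986843232038503241670949881625362814366096986005016059652022632571848532161067879538277384659338184989164796499068762381202469895318933547382426406094617108833148131249251482743221278376323088926329062435727479284441333346166245362216943546365707699423685025594399181839140296336869753167108802500294614659856662830796339753515455411807013645526443016330982210567398036089323659181035425422873023040025274792788468017078903737678874517984324329015385494928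4400462175237642707648203945014060925814498626853947702882482450693846462379323759076385553362389784338472919473497009225462682607644409701987168372120545836336750014840927628123709040760861875794060456273194036480415874370704592454508831160525639356281943116503042956713248442534589096691281506144878398898628674758621590171752734233250697892984860808024344327515163394456341255813919928617370246859317926172025769719197434774891933646015894714823499731228547609721401237796368050503253767478017347216849548331485213352971007976912321395952701930323502323105746689073421020338588709246594070114355631639112602662984830283479008156858246774313868995243975719485683031523578731578310122315161001480008986782159161896464144897217333856163155797012806816821137567333786063699114967696301215229513246701317539163449755482994267103670643872974134122349816200814142962905393998315392327833769045966860630027978219404982730612614242482973565574760444273577251179500304209222252604491308995116754046235484784743794949566134771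1651668806891891250571028762370051480853126231426099294581661851249069440817000509680085518759226926928417494203015167056009659239547521164051040950707635242127409004911303887654858304411279354255214764312854698990314552205970564721754803046250583707490289862342060002113563829341068478345882190487523976139204027199469842166908033312108409296371996639169113398359998357066025991306552705516497153181027440850574305343355752602243241833998977644341820990439409833176199970468138171049628255161009538565771282364299786403014597064610603799141552739878723896450742741552510619127372839633187538721447904316875342871541213035102197621905988265171530975865266466527736955685263193464579863319744168680003259948287006003348219541263304142461602064153915199146668259000134245549252324756508842046826249560569365228292124055405133774389667791748864956523031586907780728635726143399016633012953827073636093153904413716621300663334697795240680925601337778202642307933045719544885421765783466521851173186824189013864454663997507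4005168896701658750924844900926058743992162188965907217521228063357625821727529461485439263533292133456398503375609173838822434867160291627165449563195145049433287104269425657044802547882348927036305077898058423481931506776434064974537710833678570280102452731491497212802981411492219223604871929196409130969735091462855833481173969912168181860409707531958936654041781458923766698303946081260465062498439176002752733575554374428387453974305435802961579706773198167801809991760014342334780775561802228245364644760109612137610530096749025665319832971112870027412519528549096867128254107150837257048152906078125229243653273872141217693018261261920858944353459827745409757967006229601301584098862268258883444235691190926050234411388034575012420664656433335913518150234751384597177215849275512751594023296171655410062060591274522369097853736039931745892550652659573215537948137263592068441827754271568176205810490612019912332821172202201149172917460891855814146142999389056261800580160405769722775612298914847418091922293511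2904691241168814255176519919644649271118692791954814242843743629977875702229904849243861782109134370363320123720922975771132380562597640611132723173746913486546702542737721027556430177483060122390453246466839572116105078471549968821392402170809603528190142609469027991235460636799095298388457998033032535156601869672848035516554048199259596423302348443317895937975433505584085941536414645773724778455559262352409721430056491514057351096944376464672908877150891313779677741296531968445732616670588649899580695477433726515747049135329875115182838929670785483970060777633549194588662935638440275055256308255719593433981387606062812166292450236845268755046684596715902833183174014346645960248273528939793052272649426867034867680064614245456055980312472265523015773702339739713046457069904830855966593404747039145781918662902978877628113985685056489158503804049626952223760278707979326936057867690076389979499139373954588968908829611000586058119689904330091468865439011395658838407467117292747643585480516101774403330825628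4742393592438356764863960028903038933415864235569245257465241941232007363494557524450788329629295720626770585707958256287431608925142432788352613414232550132290399349682576504230131566502073193341712673367219590276618888993767121388772095564658025318959106182354309656046281807173897310866563076612304741503870986676953631376422107706002665061843902656368263069728898909134848101457312928820288143782719256804982320000014967110353607192970811255482169296146269203062008393731328714285346085000599463646499741691470478845574758126747650108125490899001386259338913980664674927377590967420480512274651384385538313229701026566739461387601703629590830201261409579723349032960)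

noncomputable def rc26 : Nat := (nat_lit 371498707940647088579203354038104143780167115550614468927399417108829683704322660207311750439480406726354062311181568974841681019267962735347814395126776023301294026617601952099586461321283318788944229380976894310367666658631192957967045096778829611271836355470824711063486735261399908616549443263545120970099953782062048156679735915207271521890159244836838661930679192912437089683682890125204747649811190352588607233469162772977702641902696985227613782371382582184621443139138238136379106455459313505979361232756085771817320045098915196704973440778830459994348586538902538845766220651111238925614322266812564877914565638141941519454757349655832731906887203540701032820020455889415845184286275384435488361703644604960388096937222514672688706842743840681847394916912548563847466990615534844868669834909429768286014968362185275251421776974965112036282210001010572264317726177830370185465787438139573709324253390200465475521507511797950575775317289033610610956825289977450438445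5971062103020260630948371773500169728283428707110870125815407661257354713019736885259698429625547440486114533877239212320888265494161465051102771757058491167929447363654377608394839575784146232944051361484493248462480376046160634136079314850253133939660368152803821069358255464208320210240395621935162753317878546440293515975998416838532836185343928339472390221800126259562834802544799077051384957367878883941846286048575303434906056208183725681798375716399859474228567962118028827955811343946261102286601925253763905173314179706441521460264676885136743026205497509763656917039810332845146137518206342695377403327950167421712658442965129827243100035464865481791735492340096696506706876250503638462805259441971759566084406890525245961056483693424541078628308452410405639143351109813841710834767763568828572566110232472207269413797773258704806220073488237735413947872367173310848851251065938507901438571401004633812758107479459047488119763483803548474423767502469184295404680972504657709982165049206169534450808721743574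8205240991646683554156703210743270659187095360457076600199076337537008334501456571850426040776142429539286409173559544437846016421437566039960533430127633774828041698327207927782413724984610234667958386163658148104059937584479561056836711879588578909513960407263372797896815561769915268424411741818617230546414940550481743875669595660137800899643809637568531528496200541681050574412108426903460672000565491977054936049455070386150767976397736412371449494188563754196900825551957602374753964845079670261184353031658673752115833562778058888580383288784169453225121484880457018513306330322528393810874091989483346476780902973569709013644687571008616940544871551474529764040285466692240163259590445085854078951556995937633613516460321856814817985186269461481748445052045237232307440430713478920691365293053162547119902735757960917507920594700903466958513435250697802734941187670835048481302702284389765528198377559886297234034990147585261820472305467278495548614071765562725004184542653194291852937507666526113776465654621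2647511531571602373088277449683079739593981136481635551176430584329383939311363641883648230393389956133198119790485690453493136885364826336891038306248639529885114809743249178979232816905389600427904826431812090748095506470903400528601754637591438294610659682092190626391944124732432859153381243020492162500039152811898193839582135844975187937231915308307926872109011912432396733371452150898048579058816852956907374018566769392303434198444772147074346666520463462166281013814171784826683300352889590305797543772883880611966705252289171541028544391419532726532089893131532062421848118395821722711878593313799335150187136081557396780960952033845338639796060244880264260762326766989360738110957014425147670797366062350710642269861172230427613877772064165775962349607601220452445516647797478881220105303158389035017191282704860996821609968763072626757179399767344958032190610122933504852519346160810839454343333417705744684209774030234394012689952236227303326352179875242332484384319564871926400932608134433839752311956863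2456480338370821723944287235540540534073005811671415209051540491668906990842666033197085979848700343756252888934924135468547018707394264019438662986748496465817993173793332261680405184590981354703121416349752908069668191148348798807952654440171418153585302493828778503374233097741127193551887497090506673695854432669711013436135198285100212246894241771602048601224479587702516031301359086331105191086996606975752329921600252423891279970958595378939246212413608376549201134131714045108968382120625924637042865589835126320438050522006209717474845015805999506302521198283550862955773734573312823063053412229716495078264428489240821046539870758581675253326770339598661833965356418079186193237431973271207091591134750431040117207287257858993729668775666772722161893682091120660275130415408457786850152687794499260828747144914471361254726825405716113686009152618906624860004518673213268334079329829230628707184115250217206973653190942097616102789547191674191297683242434595033546936593142911424137330160641954868463571939176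2303503488241440234797283863861229964797847818073521393595985581059314117153782837042620796962543489815414586093833865807513478370671078710692043377013663987014745139415909105827380363237278176705858820859007180621889681702923921978632126273341266319223629463406706475563830057526204934855313867386035073022509964683566298366091247900246360936530042648165961309502237752520706639324443413551382927737510559115459377877020431135693855077864820138450547876373345127761737247496206815600084770585757180931647261276871200809106687713630885921290835916300848574968098493783678209136669247677443920486677382701620574617700612519649394222360006521074532578505954660736893333822592865813112886249560758741971757006811802626425973616271163625869340434549920410077550060079117041522584395549549519919103194405501528652799219586453850599475452954879446183127113116277995325403557773997171734320236448935948801921078559079110928151766765512495066197702540683320867573619608352773514564188912396813247998439308756009110673775718053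7703973658656436021728381000127580499397789751935509507024878888734815070189981717938620251512340389057598869635309830978145656747757912459066739687402003943706070075588137136444122176842854698207678317378689666182580747707813195640097011304870794154203310979658870099604290441095315364245543182191211530419148571341686500490444732444051136664733183319161237177584305214429586807096059559189767924948362074984192172272380652595046785593175866746429464325815252831582218808060921051174527949641321689110434460017974584939364854372623579950027232956550873304320543195102791834778871171007584194212098361658113742510241295582219090615635699146343921807704300465618446296498244464595443949796204353711975177199212013223938768582237230503257470356351322051297781338443465469148661755162666937377897741818442254945986403526517449045604387657736649821823090079971021164254147075516009821175091685141043513566080231777693026916823544813358005491808342962404403700441564918928873922403272558880256948020571332728216000011141390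0501728072084454535174780844453016687891754031677814704025926060760210945411418164664636414071248143273103993715593863569119879737894434268594610887318098087933346825674536543523047080087687814365690093351843404502668607769015577187470102787290971130564528770049946984675470433271004792998637915890247521773510394340222939947559279441198354249412641002693020642412116551428351253759279492830310752311919265097876142531261474089758358096041218545189939279942863109163236180077394383334343255374724709100577076212344710762574365627324434212029746685213867347555874358297093619743455515463018554864779565715749433372587500881283339713447124914517487849410921614285158985677393000540411165891813500150959947788718496704336537431235379920782234426070529715203433876812424131366895721648133634996257836758784249414773686858806674530918616296100917011301152959058726508675693304227768995491794114587067740752542081645658654224178085669153428189588496924591987948544974660992488334564609645526788013934135032730914710218362409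3710466982036997869521960893577031523050695819837765366129910143975537656275225748705188318948985247030859052300239062668417868564285651357327752484257069012753131831108657751872790930422213663448116741180525047194139227889394694512155022759730840086553420357863999299573876925108600741621964145187840248397992073078844316188808304354179372439361407793430091895451386376930229813972574117670303242362956720893707194584889982128495929511053601929095793683884984717631983553115346660029171138180544444400898219474824057347905189293072852109819069146797594587019322142636726771137696560039705727938935517986738248429085845187404086590813344847160109911598828128878259538980662601764149408390637438293317105903635478153390111571843755731682239583974962273110928113176226563625735026113467613408796343873430978274522805529326660161229281574107717924668154956694402382455998626302003322584360806430626736343623707423176471630932417836315489969071077807344747283075601553060318570451091061446598768107704262426501583600126630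8201783009514373867870617526270930415261042647189181568086185092207097675914676170132276184514182661061866573283417931856797839717831018721954887155401543976354669006767420968788690141615432118117907270780477476545586020279262494912228916954655302385404333639588908905607163622457950748072510877848349302726097613716759522348060650814754468654981144321651567320622938849192295841219593112107895947443595054055720760605850276975554276786334451176020272522136443937772567387634807414800659560064544955111280157921822432583681750804578660333813173390935749890747902489246785700336007318986197096335214063997466309200287768186255241455217594156052338206500470642996200823173058251186814210716478025787845054340698793465197930217692506669278190286462328104063848215819409400427227111868542664477869274694861491259412760485431053426732720113739696026690384420525134566689034757482549148160435916419890699926436518314080805697688474241211131883125364663013442302596182811004350360534215284525977107112986449729521047785986820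1811806690702238913839639741489967067717871254502988722854414523720010692419210167433045049548764084447719059623364184668259126691093047434471491111582467075416564261690349335020825791105572575463433482640914892159008191706681218777185252989929654637431993466577936230727498579150093202299800232146988305186313568421317342238682127348730417034092021900658116655699044718694468049257240739695146367316621681710616632279285316853683009642093060408897155347776090529476685859724305931889021984120576548717988509084988294995737676396534636261632385654252201503123455054881502106637945881511699749526259258379425788347781979516181404070531335716432016140526325454625757852628357146922682254697364843910955960800132916943568072194309583701666073583787591753900249309640891755097685442662362391579556216117675936115953812334712917079579840592224975578642804705829952114173942962085219754621419443113822522804394905792136661204160799907591657406817977782366345523838272133733467409654079515724642997355896358997485785146061729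2846999547719701269825607544717801694409483031391918710350846800265250151344948580966287264696455082536288461392830133665397488769620251377044734823878857860120156365332769332540135084935089389647554058225339580316323645006254310504983090927088637504525462737386911513315101472673393233881472805085616559392813702099270972702502341034985129442168745620114370805941268862040196102187835461289879094019834263399725182302577580727947359616473601241509828347403968650823758749034771408644266108711539043196536796983334173315227756395651966024384860140730546179364434884432174153703097780014742307158933969965404567239454660335133587103659438104254025899862691379018852820297855273530680467805526666947664159878131417597927415363154546477605372972363506420477843838646033523178625380667932789841458323918627174144933315880109255858957751551231075753623132097052669629568061936808469445565862769955593058706568075655121237168506580115202038850977862674334043595942376925005921706298718727763637975263808277591019377701586754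4219501538804870241524423663768198665637666648607791148944358396571101537458511373622896170850285711702361468151226740502952634079629427802541108023293812282248181560966069147967973525309725393234519634116623043412569862983528065811405633206406849435744752606216551534699085675731416247482251708166415451818432505721972118999784043369716944938657195407923580632279683701098347320491898134472308735213776846611307866498277355314417793154732342333105582424848641737078965655189161049864628041987229310268397747902954645351011330609468012932025118996935363082267346653390791690831101217463481300999680553812371691303453768840778050946535759348321124129500432612770464166314900504139562196930531484155475890690889867475118824952688924285903764780938130689448511388032645621730825769370945972689962646688251653832158228102715209479470323666109099886145262216193524960977286142629531318213922702470967060088006632244313377205745414453101688900743641305843268696019777658776115147785852832976295859182796996854469149195847037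3221845494076518744340769311076042888567263626358046071275666781780073539191375413611792482585760035312407736165161448107064575349060658077577322956918931959246975129344336092298377532853017024169876462953761670598557117882411489076385601293102762169850633562315931954370685985927742388229178559923458600990518669392198456359749426989865194836265923934228839561257825602278226980751454367702462898341077284667514488791311599933585691568930313049210538341983372220382794444950367331664233758050189528983798298213197236247621190060730944608757265953476322049651965035679384084278785515190356320425107544270964816675219840421572555446400364971632209040913373099115417431018186210594217181725848889352706437721857077588634245875867626463179266538620667414209126263535159245747996320820166484638763091125838972893067387810650977990265679417189023607434852000453611391419401436789762472057153556584974828481690858247733268805209196709247537044673012459332269881637992955386334648233588284657190454222739126103689067563219524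9994296557170187159336039706637118424531192126669387686932225574740241981267679645068450939441074509622266216795404571947369962247528575340926105968015441627778880292334050299001469274123450395839871618796754585414844566030224649555181319156012650146178894474655916614820536614216437885289105926670988081413586211168681078090923355851056366431153236968398936175012616964907902017281496078552587562350178744946237783719519817623584766718640232090614199577563893189409951516810261587274131154728579117133882907303110489316506820641447215451153372694298233056299747038123149020191142253232934788316966447745657047702605338978498702125899274183118053524980419745589454084508310542629170277836059820547470136083760785994979701917654759162771009905417472166494992359482760238564572452053304807631559944159161002345626524644370247931495904756318761641013855617447709466037206945671184289880158638230167580926693123041004508170325027324700168852399648669822673653628138275792931042337098166276532205281191635048322021239211802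1012014603225578981495179430719975330811655782375792689487644087301546795317276333828415889490830214325717034601214612563003644172222994671124994786653912560629646747389442877501636560709812547848724269338198109967378089157503770934169719275424409583861945451793228750141821308878287764151992891967551153419666228725972990105043483776296194428956696190420472135823525101073746032738184293092215186813467702084324021355541097828091595066070618316964232794212913393297605149707915023790186195440656342361407272601689840935161548054466481839761992579956334727051813891210711187718641117398655058989992567157584203056854042095641169531713761976152784085671258188364482027035271017565674222639749518149288215155676203840679811727510799621022625469863707993125164005927784023018290959721493628260691331492142748428649261026617580011671977339702180267196184493168045364506998916851210850625924542574451382661789247716619208759558828537635697978235759599511479294658845577645714272094120197116169920516209592742568966483579948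5702991042465028243226269035149587691534899919028261055616397956972844936912917313094278993905901465399937720450643791469059303348574111806298965163946353426494175371831263867991501277530672148804968477731362176477819470405795513369848029508290644185393703523544695507773403756972594399924760160748642093131293486537734929846306919555319016027443358019455997598399477410434273962611379109840048457166516980287629487199227494394864845021423493382998777865948390608140270849016350193780082498902996469067346547404902305040914195894216643029021430454441762584799216918812456296553653491718441154025818440113823370867232525676987045368126059555581379741280201635622382707371739094616153195656234722288242364708232648536266657921650591567290822174525641658038708820204808932372375717342810813069847282797420779714972453855985149458235027441666501021522363262590336894744649503607726899233947219366935704372763881187973453305259235353434046794385267198540527764234217280573956128573023087493631083854184038127904880697175887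1339916826478419614717059810383007597499038764338873242596278064315240594753841469948925520131932653112806493160310586213209270416473960640020289758560912155276365337759467336877823295751426936027743903517911486984198481700086291549617813146204471337342879159803169593908191363504255698427586896623779636139776586125526758510607937418267793775432252152064917719809682578730979432991323529541102558310495020959906263884499033728616452469753125782247379845646195254056249018265782341290912183242819781331523893849802081777380522028300130426146645953705280745710182592414939977041444748375455516941958932589498243767703761776770263451058051842606310976074285245400541560832)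

noncomputable def rc27 : Nat := (nat_lit 372074821758721767136777931175563045727809929580480218976769464458692592448667278210722915747838629250610967308403338676065826008826260526562995069908947390170666395007700815391460175480957339055966803533715527922774093096883531435153298167922414568856775481742963738670736415955240044361968886198378959756729343851079121925339564199194043100179865129431818327529806228817089548293675822072729018670514668945433906494117772559564042594389120751909464222430590541843548206154307274083994209941595969532675538793261615090548783497425526413217109241411884850462850834238668263691847401646833711299914227045295632023427899521668271529279023425628236805449189192191911713952013339337734833299935967449401132317680349930344926458323524073759783432815099741350314444594714791471882803391063876376160812096226435649472768854078660660340373162024076153720048366887407294917489738075414717979024110859246372689609463599989543945667019197327751056538327148435542060786354045338942568052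9920003622251947594469832177114799818571701872964501400745881506700516675728520941928413947231159710542035400567414470110206816642632761219083769629150244681336983959508889978842348182858131120347555662348921654831526074241944948222425759858203508257723211971105414810968313670032772429882322041544616716618428845193363418171396313307510981365728752955269243378745540820420967109462682256954389076680029272963051899577515512892098816796605328962907715112102477450557220530254108892631712062126107494880595642692879464769622445208503938953792916673486289954687954994501528625968395689508715570436401429601467417058032534715462967421470390750102662078090870252776476286762657019530619989205147536119170070975879654187334046318022492151877019895444079153461737458608955366017954565537465622339352637615215187161163656602179367228525222779883691671448200424215802364550187054030585817972219186520966482055049153793894497284815809746171674613023087413878015930759470211753031250432983152444546801734245643731819091933676633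9722194556110021704477575650939730385693833983513427245549122826182794180375847645173698871461593573409678782757464316045500137042529229334631074856091583098011663878634741530889091901639926731212178097162862703246057699760094443653974340217319698005933859738784471826170836484058713952610119041906459325468582927087632333332853240524105647864675745629730672073892330507252463062274406804436287862927977268120450171250795181694971247316983457471342929946267214657585812910568034932050202035647719289175483202100296729535382292497198850268829783715295908411571637907150706773929054077112177623515078192547451937038836110444053903207489322765383304688704705192490336846227515647685923636604461766605659748247024497262739812245619603149661194100628671390760264077779039448868321775511817373518469157428432796304282006988935473898637054067296509433968073032653292158992860792415469750457703698022340271221853532907098347911649117102588111497361894677987909364974906157230978765143324016574177500967814560356534360886428229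2287598549078395299045499554126772022132427284314178677956017300939286479966697830718009768086787496409519445368135919254458673876575892166331706169417566035896539274271846676484703282783933524736250597609149829314851777153955919297827757295041867272883145034948187303685096910292610217370685814632814177822887352728038001600522217321012611688581968914670318825269807892054339284418698089613847372426209852138808753816905440902381311770585517890239871660423756600481578109008833101284452720888939263929357424380757172717159115305622950399753008370409952598695325252401958121307145329346828992119674165051613171643052182486923143315700685027925179180840230754238048022534156207028365481515142793393431889773766987972641356428290441528828736273521707557488627481574591848432640301982308539241370497719335277631558479226669641104867633888410457161723955234544923977250162069840413476343517506510193734392072458420987996360349409469045166313578494011082075703651539930332743986366639498315239072881118299344702307185225275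6288539053363281748517862568451846425499958432731462328042233035461880987165250464131946584804932171273407916221078190983910795323354623888280830559167915255685267626648772024069965450234256320029549932617968604923096508020907316180231430029875145632094454228711286291218315006162632923118278144464554189360781473925353339849140793176640470789401649407092645406387251565937039651109981413186001203880939705602951098724414111557064044884458877842734303553370842566355798013821228429880287371789414736288777695198268178742190048960817756198552350523164943713150383630212884672536896227612547233106488870739144862844324810775734914401367992117771470377092666716433516608188257316017087594725752178671301290392624094679038249176412345981574933969937915235432051166480099469359649123337769533274391299272388220920615692757439524083051548765128772047425104107096529529497758261952188333362435517936186398362526371482361405748500339333449698175216949622197463053537389940704354513396602963758004956766581611442151923306172537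0134810780351788944663058167205330477297634756009179208653546908063622527602222442494753623686309398213523978864178832552645899457307173368483546025717653704536778093399468623293010470485626921252568184169877665339023282700991536435241637142389237826510758055256793192728545731111925746269948861974097972342882999894397970382394276795627938743379390595472368148929259107267480163826903343637133510484325239189863812189121006719832208468174159678414343325464780441847182037852672919652909163706143445796240401545919438203638321138167760952153863912834728779703293285960788820568502178875404822483952735747571375452731553042110656385085075612424216581268924492340333441110942763191989940437275708619462998350442740934375331636336155843061093507632157062249686981026858016831758099931133103655434218240400364457342955113929431112622555991863219081561186725042524476238996670457423365116951348154093883157464242290950767045366869368954046927719940948066629638955474522905993679165744172244345070149917147975693410142838034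6794012082555569191982254117938196922012999003669371013835361030497819502936519188469601023148863184770921326874211221010405456807619796093880397019444418488490838207950930322440182936895522366004193033808771943229852776526012426511013631807704667303805563525129593886208617580445620900423849685159549279302802531468402695390046358819732512765305648394855633099698543782059484359966844251539843435411421596093463264176139370441783302433854796098889342177228191864970757176012080332146559344545580685572624060640423817186452246614264353711965517999485679538032153035260416626025002989071956848483861134832858262255922518092052151032512438644846912105159779368454298508020139342319390137810872618380110618882377281489454400424548913676969279789907000489938700387962159281362864720257157864390422542112968001670023953556563804059481773797072980428089968301777414800731762228542467612794553028980161003591148387394795229264322314200750305812498657633217567896016686484026501955864817956212743184874902751081069226961855752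2414158463065489352313964025602422139812143552260405058622023903053009818785824992920123234709201264381595166312761718641675656856774564142393545588379227944243583873857394656778618228624635488772635128239670727563480134124156392865762989566685222158647541035251893532280529062158124332606626786320354416612896755725231973345684747406626590200072126231007639597443283321743984269002297608674661468948146186475716151824986383049230672490209601864151188272074284383358275167597471886590255647189689738613250523870874962658690270111118906263638298274286888181165632654812800852292255496735297143221766248772227984886294407697644091386519826850898692378331151660604824655370580064374458099962398520856438598893832934932367176802965962123990702857323303856127399436325028094302392315325004615335272117395560185698713169366211591390440430502615971082609883028579187828832604981240133374315095810701410773296010104042621895560293952129994608023682284346539102446042943877387875836796544649715728727739867354068187530782887662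9561820599345574855770608792861683314607959885283595740877763114069379735377358122452766134431419573204864124467579631023739432205995298110179294440282954385179535184607037539505346079367178329324201207711120778625113612649518936855546706659832595906727732192221680155327720073283541033862137123694355117205193523095980608427392955413042486277376290463567224608101879208272553522995196214099666558851382932619378571507911520767878412873952134109767369528096398753431428823065406917081816866392999275234566038861161480786115853838237175041850032095260142228867301950002210328964971066157654519025038462180638538577372165578107914299889689193465338611402680819770609809100538557428083948875963542449897365668670096411510220015770441716151870038150633535733193953987022790484530573224232635605925681686338889387938505475355986717527974747532270193693510571440119825433311453697116350468132675463815951626276474386670950235465356480043258676549655157932654177742521528612236584748512733529402712826844267378166556643070881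7339453003233102043906939931250934122569709738235728219278955754872628120218036632869160092907723548151164073408312809995827547095215151472504928624270401211109726040887550114966629923345719045274137359197569926889894318611086170320569222373595075360945800435349354329661741330720251773640456080689695591765495270214385981439077296883211618316353505182479993627021769871827970002431771611579840695858183921523180627156730583162948621164679980081675508384872901966085988396178976292096581030926406519267747343679940576006871398454465968501853786835286568270982113310369642013741035263710327837115031841152979240025098750369407532531953820623824498135801535400948074325514918245490999514235844975137568335899950882152161440541116004018932531295810266516439971374981624576222109965607807857943831875094844079642008443264981922525784304859073937634256328780516028967998701332379931946554725308598712868581171373842447134789440260305116607877793320353486126440149288051974903255913308723680761434362135804673343346796053944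5681178610201528191184125465568566268260714597003432575534676858695329618011102163940492149189671848933092012662148890008251191881040520064715877488909992184765943612177019344763829190377756180050278400109629919388398301785345664491114814025792841210238538423147437667811277057334705419789608698884013842839395925247433311624150819643659859934412812391694370794458001916288007117527919153065559627620524196967550190830729716664778922523223214789619114732317082558368851578018541308149878397157375844252170454300327127507882024877629372526130982391155228263739152702358974719945798268577264836621627539121495506087409880389136451272004570547609149396041028539175586293036856561275911113680908832084981920457751571861340521149367965692102652071367438750192574887348557449719607939709399562701964549315207537393379280159699303071956797815788782011677096412922060856354787540679873298074275908771103604810926574432643302395535475308353203508416205978062905660158008055205098588388858917632386230820123179130219425740899397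6447117677904228503154590529721917545295196882189179669073447095811138700649710337792700676386581194491589751526737776331916194078089452486766929579571389610161167341079088277705229318476757306654729051532476817648872626539052144027169716029653356250692619669478580154981891371169517664846851638826536995803091902660141513054523645853680060261194452068152934705433321160028198666159989947420036253099907581764548028508321415431350048184972188477686098788518473367742956201094786654856136949474661762400342805829391515483125979012323610981386937652767594853476177819591510200041612674993491175877853364111947702761130101081037018412692592781237116478591386861615623098438483297438617665039680178553571855530276201142419890999110152830741367756843767377831693080559777194309765827620247435767284560138597983795106778945782809299519226211415775160211722747466914947782898696883298007151318914686038928540275819086265730929484350790936988219080571502022398946317773790469982141150940134651762056068956960721874086459916247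0979803209046687332926249545174160263070555560877052064302646592278127359716966235335666542355165430300194876014098733648775655128876716956144968748387913813475273166036278502057454962994820269359929343681460962364239805678214076948681833480911877781825022882534254926939203164405097854016315937726901540938314243393152490518033939970117199656655614886588890160659280543730962525352968480144254308320614744988011653679942750646997897054079498296027206779463340188611932051277219236498860882673303234121239039065064367177517444274304400693078019041755537097210180042441349666447489746523801305599699851258274039939576033017721569068746752478484925676205070317505473056337596580804759604426003424222897586642658700413023829271505682475401375677494626194921449226182746378408660939028598415505354603497472390562668783669335511024144955053393817410714017865006781857219248876968849480234124968126695967148099633659785625604461306108723101276210586624831989388793573659474270572924269240554763425499216919728722401528911565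5832356361655276001364909490919900631801462171689736192921585508794688571295186034209289424145590831313131166732620811418671733531374731668072782526722250944163773298315272568465144108366540663449682657718616818818605286179475746646015161479440916108368586785567239088506610061185466183497125021961212087664391343499565964490281510645558595169624465737219456348320205705457290929139735961954474627550171855206921603484543042353544929389060730555863034229889474326531283873580627165970308906627357817198034028451995827647455031294830161228492489942287194306963846943894854082437808208933376893093707516028638557459582441771297152174184402343532454230713419777178503904744654072174736877181651470818284305440667316801525100580208441580523683212822925244271591484360496487927159354949912399066236552364941456957417202214755509597827572197136042924612176007720213214615404246418180274057578276295315873168586308249566051638181922994476259391572784842513260663907553497733129693810121295786136537478906377226933907129149102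7830888589675223086570985455052033975583895064965198621644618013253938528889791209996431721205022639309176595221215988680603444651839966182158108597760519534434324185264230267903721326658965656945981926431785575744315787057113321009207125885873532894248232710492080757346220284312849776925979904438299835129792395425345958849954315937022140758379845451235587059945550242937935530411013883303875815905307505721541179173943864558319364689337826381797565815910758411379672042649570918914977497566521145888256076537981969361587754164018632589540366742501317182895337106803928855787460693476652568182837621260018880369812812901000834933445028534669270921182948643330725729252194487100097093495507300975301480376217260595304348262521728932311647807884304664786799563749223235399333878198141565350404053243817565805695045126796874556781275289492738006279144534119955858633942763614251612689102406215279069134361520626514849334097424180419493013018805655787791888232271281679145530432007384390826552379708869710662259309870739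0094572409085812393753743345815743951896305933555122776890156091597410182237810365289985208647943841926504163511034770948316923494099226131467027076431812461799927996978889584336981869818031023331436149863829591997704415980745298171732088380726262641600040155788114035487211818888056283559325610037128979199616149658653624609511105681266774927063331856236627408958423751226609847311393673415443692610388210003596023852033598689021417498693641149164348593991411679829835307281553800484486931169224538372715017914631367802034977396582861741632430918440676828638396004048712224920252480204678391221671628790705263046540042198419968496130251890036327823644462481160199317478306119718530351444655923789839164211374704297389636419247615923933357072164739905456464767788443487205140555911050983900807155186886932893884537328777596966528840323025497998291510889213508448416061326942795181288345864298314382545608982528254426124652233181562428348532560851178602112524268261470101216516359523908396530878753748507938018348775961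0659124888008793341986878285457542507959097212257209860435191465504304027140807147269016236852776989018304053445389456110825182004651285295272718151335910103440454794068903276728830711437370914066449354915080131971267177686987048662250393941842859230464329416772990730056165867538781259915857566901895764682063942490267754539543223890561824609854067074903459974299570249719187415189034390112859981098131295146835502280412962990420740761791165227509957574599780852022105803582342647949359435678813274484578260797112349327437581690539779824186448549875703193323699190953702619147982753318327996797333380206050500556901436507510205230840085048792080747396185038617869124676024791253560209901339174529521891846441875643629820583187109315348116875521702103617846202203711223925968243953037868661188673215161397478910368985102101520064537652651478820267418435067870261707924067670653372342124338910498024098334822680290803319565550465605397837373074801807898459878940144448656306148258591041540237574492195959298662638224280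0309293324019103996149494734141567015203077228373388723855231206342333270671073939111063591122362246944150828232555399184894099265899452185492437829136510918813376382409364722758815363682109168187390195982391737047226044404243151481800503040602782714464104598869447201023131531733521921815953191289154462430431724991248091870336059999211184135964251252656459091696537306905339167256098353109399637093879492860071798686613593141654260586881054363095385904010722587037989197218932240654581076699310968306800799470532829398814026520269499905042389395217306981204553183579062928518140076171547093781583463424187339237576382521214505825081511703357146687157609744690724208640)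

noncomputable def rc28 : Nat := (nat_lit 372644871424468638782025941627324834863922260406752821202193156705674861122304191256508705773765885996430300060942892233589311356422489133838425105627969620516090981078479440616862752040993857677517010901701187372828862485203145003295288331873231932509949623298413943680197513355437542965850275207517307615737751977477222353900387801031418878111554421431081397258860664898601175295517372412673551687229683043961907245203570473079265526458886123069356499818658078115342952860318212372491993193996577178012233130201373065523294640469988672495163071821196608423339010402071844583373878438790537002177597038667566222063149864609659628149494264663431244531011260013027526121374029068193411278311031943049184256669730429328978853685755110583931711879248046337279083532739381604855861142702276639593211672920049712063445635425137138917805897908484251680384860430709613974887170111086923789357083684218770244350931706429149145567008716978098665742574083692035432604848807265598295514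0032290627698988547305121449225696587618546166717257352224794586953647831570318048096769838291971649740903311703532517469351922722559156325917902774491384738087624881570403122073330275354111560529478791926452238370907864648730298932467476053892971532783917359156226839062189966401767549511081007688305066390665060950215609729047308808885611001148099443596347509036962882646047687740659489397862008029045219885782811267815626965542662702817857194115274836794688675691354775317385663846510836565602171660449166892679392827790955527690729070582819156115722782176749468255528310611251399946436409862782325881063757320984997780161923754230458988275936334926978176846128491077822398111020927152840767796437972948977191271057758121955919631648372747167513667472072615645229222919853379053097961525283505509883630433394428652744282290609686908081818900911983781071929834492786619382560954306248144040377463111945082723618486174451724486342522343652501849421035938915353762480390924605868859752739609269391737294963648532090440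7136069804320029881529455630161637315564126545872304109184673177968061156011818825095875703075991369952771466927550476318996750738388281050102104406864712126718951501711773873801789540188420807700590649033301866834954560660220040310416388759983027461024568406862005001518110713305469908181803032233290715211029394758688388526452081037742204557067184214517436026181635345842758638420741412987464048628899938314344931385231580280165218772250996347806094723587960666002687116245622960163975708463397510034899489035662251568267847683821554199676252832673722091605111364700421052091561588496393911385927619069782321721016903736288804917399884477294857049295469944190794834558104906610104347553290201151287741989148571944994665565395891491024602623499792921693856258906361773194863422468704809586811928147991814991955043180508276268732161606812792481849538713396016758467442422584880000298614898024632710663371684505876978838853152910115596127969706150776673618884493314957369743721629588575079429084839309384074612787365283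4203717172693618541020461625221482287857403942806468790912661652218925345524138889040745271492797005934285449692460449303610031340374636305198464627422004560365485645954892397498009143618127949206039254062893624893284297953384800512806378666748909550221563466572004347274142321875084879913541685232371750651962700754491972687171548014923214085436543077763419450730425990548899962492595043302845106668625525572660808585653900092721331884915945112806476285052910655740345316401386767411000885609610462094193317848283381096352034439178454251551283946719037731311158547434289295020496405888856666545919099933599330452998508732982034382821011659994212092828757682079150407739741016097666431162886016495479400463540900589582009899539019933915518513189538024821818363533838848503390325916401400926212013832042488277685378520175955480276170320356305950103806169997054884584328235208471746488133588435286978761621107854601662908269577914130428947471370495057334696580180471269660892431833007903433179000985708549610339336236568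8626427866097169828123475880338700236801907081391118810273400487841274837085960589232721003985031320424439155914262636714816984147745095123759824255626884018009322205500235798112817523088521319489013339853804691324215810463872584379498140197556231672756042783576840131613378915127453591798982110864311712924759817335818921302651522126134287469702730996028219260456451990202220979076210349675497375222954321029470513987816275635176670448900795307666214173062773851691453698283617334894167900230608015784847131840835327314889907043591140451433010046428632083410529415925216512932345868267902156457589791011586391599165388571649647109391187251425470241432005575184347350687614145096608210185512607221460212360001841284636641008648221114131495364822050732379218525858724709875174116003449911222302687026548998677458640878677258159170682029311399557485157899472802220718651209718551374876273479949820893438979587436062265298010308952677827232597058857083880301175449981719886406312235261630745806623755503092301184748717569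3969548401814069811304370217005891362302832210885560827063161931228954446958953656512405134387690247031869255132390378657510988612842461645728789888201486659735194565558187544063712531907058052583447630417456374849705165170502546369369843821566094424711648230725431921848282620851980102176597659431543959732923724739849918765841944218189620836904927556844658492601047633599021414749139480420715708105907674763768260199100475047690805462465041407201922274557141352941623795277887240791405472265491843465104317696405965853249103801649466072590153969806807945430008968551307181546067065411940489830072137776479921552641539046635521682790213857662477937677176115061058050925221625810680702349820831679275198890652021573238475127935047810673577487869349678797505422434859826114133083554269335801110478738719478184178924538600948952460667074291387402040600131076982584865108113614885084216705270282680687165434653641630580973965621170858888364058421259685494624117251567557972817462988699283395314818356114412579175191018676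6475761830589605968850390311349367515281051950043460465194557319784636723203699293984263314771389636110920804818956529076328084375550745733908501797591157244454888139158104972867978064036665271989864159695938879687906683323881822700529537593039680679542299169358802427781154806145570842114352585922935158339104609696073212607433241992160962547837712398078985117475630328636310701277883866461074121676874427047829825250543484453192761052433384487310826103086961318017361749559486022712854299273570778471468103934266000115880889061364652503998187099649647615039884168398022819311948231711202631667548655724655091526363253230668314554225508613901829367926735921912669545530349921289946973704149927724549418529422411462317115148621763998357720040090013623350058141693703562207012938995869105928575182966194773548444196248681535154697939854186227337477931783587685566822209777025945168440826649349264169090263410156393693400202958326446451224255346156444543720840034472469972870676119400433381214095311045632069371051676825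2564867545104471553075723273488582256693991947129329402732863146610078965628596295945604948263001652829899601101650949644436432760415556394984651322509098036466571067341972004223444007849448225349266235015042058879397896590632728805735476422917420745368413581080675844023379876547738143688745147526827221391529144600454151619788005847339549152655480465315793817720345093829121474646916319639990438668797561931709635208705711396846493211972871497200116857425890930192211888734988263186278341324809166109841587389186730068246531498132110177800465831657942919688630113644114342619415658885740384461736945139310292363832017673574369628888736578952164164095085684980990008265474754708362626221127498853547728654950322243789170930904095211636920164148486998676776013993862504348456667070760866794488991899717411832777961057484424841188916280049229355873747651218958449057617840049191750390527575010551380730661056380548446775024676388970167288274975593364248325375419992143064713391313896211821525188870455159311248811071898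7008468597933497468735026327143841679535999712066780627046036166963178888158277232818526980170292386435880798808751950303860745805432104711574690383117648604295262562472240090073134004948616249128411302983926160973553224101253116683879239352757716284128499972968930556228320098403424325360670793376038033409815478257325641497470137875246747443995425292673200959291645334896230960475691596359869287742990815989114142529781175680517037177667530955195030109613897734621801667325545175501966100072716415480455722780978703188834832475999102700548626455311650048545528368278160174408075512072579008097694215605402459391135659129650429943116056504072883206874909219538806509575459707545961099323003726248659298576412277144503419273581958413828932496966232653631208838201643041405927910980650212857685499754692792947678623318308879461931560981623024204224625923757742534468848417437191716064092362954162680291382253849551422774912959831794415196385571916777771484770117061570131636609583506541703524940958081770166297143759855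1483520664872025602203357079353387952796519085297908621575410192611550565983656354173993507808461884909218194503494721416086033390124232189268201054749576320874180476200626860596406844307077250809738289768760020993827486802491568413490940205776515591469712475869505151313677485026287385367552367869018801181463833319049693573211029319418349053573953595172273552189027111617499267291061793381622212094046016443855841026968243140041022756846482814487517727336137875341295657612753731194957032674392526875261107005504970890714250560444527536133474757582346233901128703169560697471836661991774129470047761958649108553607892117401129540505438680451403673735875655067233312158961948102465144469577623486503841475922625963731263269995875897013345492151533383272145084928640022290620156111089554533847962818190733038463042590957236632025448514435402987607483935369168263484923363075355869458365407390005116811379149902208052486677096602876988713771645271341227907945752874707141215812561596995919866387739411908432555535788233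6531475883851846206258550750776722636042596649398948341736428479539448101148935133546680441860800869446177235129320149054686922912943975345086435975726945629805034893691175800054353700814504341836486814723790964309178400904117855084382947903521102612814588038285667807434553695610751705230612805998416509161016224651185798054533824496137107992702012014907572754129041783667288484910106080882384282190171820621044135374259947654877366926578437888808184153396920720467647797937408670188506940584924117359170419303655025182643709629915771227314070447086407220054275744661221980743945175525087574529769607370320031690335884551059652128581710272803730755015949876702792675295979484507112153390553310019878064856519725226174424656733044958988564360699735064836159145460301244245048772904640063428155774625274902879019961594028189821793687825118585332479030118718504363521916711746785330928396271178493530312886694086751666185015890599513326802739806540498518001725406370440395802138029238866875429930633830765277699687863208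1154519225613468696564824494934455595589236418805717842891336527847291372191261069368389000819367765228155955564129259088637925075463532640996231660059968883931423990477402622926285067057535661949917238031945329641487211582007171805905293231836640395803998063530857609824421167409507902702871303272741768178736819203399079266937563831259825744569770955428498941226977329461493326852295215773423782342836051175941634812636076573349840677931057478545856584467802726461603355725993313572912219985555176847717992770782852508273250542213942470312512583176940753752043137269040717120555815303251284141743207766753699381258223927519727025609898633080195507821080967176796454987891810904159009157253180436838546128845729897195556516753325026657912022526814310079230073992200230880439188602057685821042351917041291180684213696548689577553085525478988672802792322072108684454322622090077306696138698401037027610227282912168669040239581427709498012745389009996226891898291596297095756923378894838948907584132086379641526896741249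5096643856618745032286209075587662981326902584741449005429620841061759256183065370813359626409238063889097456087263009600159962345150591261473497716746828175711260777324193411349288990720400553420496291032069992332810690539026289081061562428617734997059049034781602547119743792122439128787545589465844905735404045314317650217333177504357581264540188348560646852181466162971761591868447574325301032613082432964022875590670159502047903582767862966003892255452646435704428014889859034669671663187782534830548015429955110638505240442488590977241144905941193314688955339515032256281548454020719142894856703745156075907837662929229709483990314567858690652457485691400204629508681957603845600898566324816351546571262090092670685893225237571820141479312267028259176812182976084601438343686034726403856854140101756290655023388723523320362911545691593689006980882639577941915608347277051788992776491731087857053759532586842142094526767076823486819346835103339604293286888449524374674770510515365890007725351421790757444857751968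5949610274000191319212173834365424047080963097876112242665007004385068835013604613609083227648128302886507955032328526959473163115595607200905707245651345534898643622374474575989310165316024615270601426023295639096781213882404849695964221500654834822050537901990776119993756736642555516615280018251241026530196289163835359660222899486408313096839556888089735583455018733281151171068226428434928770371140745353974751122974364009781210530017094782545233553049810708980273558450767566380092157688017542235216958811608629530719453309880879756605946279491453004208242142370246027101137861274151250906136069954446995922493060724827471915361454643063469580333043217013301166701340387658213949957088076631719598367266544463175615594825846413796887845909578629241399059116099577524663559570446681167654138041276013899644180869546874177991876891437433324943278123384302645422387204190241613811454556503812227994240403870110744876913105016142287112643966439778126533104752680298766620737714121051671735180571506158345507592860437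0830129952531802673482470216191975501611806701086547648449559323420856807945921859401990249222239754493994862813314123657126323510962619090906682734483442286069201339439921297949349089114275933756625140106981441210791569357887372303532610375430014438261087132696780016888190078567787064732131998500371181344200983630835550996766565614233120048052529972418399436554270259475289264205659225890351045247947198970762008184091530214448691024792541052378427543903182194272358142959508215014064741834305900251976262158099764741775966785168472690885953543739969673383454555880319102157571810318661420674761356991127850195327506889879729955060424872814809436986119541222130905324696301741500620616060572378502109047845517756664096262529716313599137619101826057770892485077884269679858521071198532920734211550597555436371824112616395938900993401332913012176695121155577980632121269607364250313965990789083622846503421847622545756706829721816909616886338317069498555824322272621267794206084234250304786162442861495942474502124597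1851197635096058836216063639790996717925781705896681958279348137109524662629090873820959867828966739132570036580900334708591780518452393275887239836580026989766300232556359141148333458014537756533629343781366530556486520062548064245231031081250129318262222773343839527852137869824311306330738264894373319292113909478185252894446655844715517582779408580863357076818785257931531496122673253540199951931077427630672796956984127465384058773700175752192080318417101935174921986452426225524117833053520537701477750536931983329245063162831522669409082070041808141077959551916211262697689972867470360446411879608427719808484220343111228400675598830661265761894196897346376130137357527993533269417168150073685745142351004406062850485010074414621958709462955773108157061582147870462783735600369726705668535370132643943086781819752930562238888875083176675642235043149180280962553231844619674677981867744516219486501874443155226482047865894896773002686195938850656538851524694872881622302505795229321583991891416020515549528663959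6798709258849994076874157513187359660195509224287806430131535024298735605605337774284131089170589223948111744222950423028801280411062863900832467232730531285459347394589400026802982009860111253278287541514171684393194158099343309597334334164540602875123102162330423203565432740327847323930706484206567187075132733130869447657871934040619444326870956625765032686295065355999864243763387731982452112084478352804789416328322066928716972293103777199490203380615192728141660611874454261462615602532935634736886465344929958804682949589650466682570308682905519514432494070429525382891389104479844526225152914657583679631449700353326384602320887946986287127989705617414703014350446808869053325845081923173631392609562991373737672656496520914885379163383761593339109707951131293791699068174495720075925027429571395496990661082112980283108447949934976967378088507306716967065186843596413780526798928675696343173701111901149443954213972394310442002267600086135142744690853790707666981109601431567968922658510545502889560194819371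8953761051377108811753204099213081706870689971316790131980437708282234758708191036038472015255120811767782770834890545950139483484998431085018926775207175364047513578872906822056388265493686272908623453732047537781998363417280851426602050668604701701355433096703339725777492166809364478514292715983068322930347993348505698725997307064077386949383959480113984022282587791030419996346363162670182995277009531510762310028595179625269716258965729974438861177694651135961543273122950628986252743292328734230181462633844390436110925681881586599002802591738321654969138346617068443167221939523343074038464316533018025029570356335988692873785402730673886922946437892274076516352)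

noncomputable def rc29 : Nat := (nat_lit 373208886391077709807535623412583097715873434310008355301523780194368924460258031774839983730261331829318454127778782282618940487103134688953039019128979767260697002942461040457735987179671392651697544784086775465231740915223338191601752050870879228170071675630260013063041418302534630316945810238888094958472233729807615980596927658503248505476342448157534271925084803759146064493279660678041108543765763562074406389409627407812401548123552610952175156728110430991613808657605781329320409479860925514954350359592618337653283732703364505842800952985982254729099259646089937307103496299516261167016998969781009420774141979903335591212087885083815091928933614580741914200529044394563607674115291850672697168492156938905519003840775404941887272937204732075291304126295358571765973286556165316745124613346077714668627595345850922580176496769677015846658477550371361034467936181555136735596013223699150085053950944477969640967058905007595672749533491514829435382588091092094471377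9223520373480999462075522112276027554895998902029438435480520193579352206511559255641958515703203179245396908116624634961313837364121828134063449413826038155478978799750650228237463565932707004452829187465987121575844805086238548892158403010131024751652234530827325082353900957830270415523940695965822454105916800599075762909891369005150946347827705272617542916540950685415105218010874896019400996890718742743741860705479998900129592053654802467489903694589885515828594806718735437663545343398666233140901162673527610152733836084479639598578658277495635317253444422759578996686657183983977409327720605686540270637811545562794976722892188210197089672159754644699915796440468528510232460833997413266252494442647097128357965871143527903643483480599901172065866136763435207816675335952150525715731789732386059095635024109841358399897632036711911662403275512796773547915581771540761424147890061548198450701169225727197928449756570214466463303034237319895980251163459865814706040509216378930832733236598184275717889589055536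9427571890870251480545659236214359546614769466152401654837180982331622067590086226465549096290048607528837186124915832232734366272041150449919928169034588070312508166639680081562809021350280698487154722051697109991697009010027093219475993838653297416650866050466777521263783693343217436541956673037506985700132449451397949883228832696420572530203471331770288042311198257275621568976418502002508579627401469961920944323416931786361275341014561386013964176296854437168893971610769695562967149488640538444138610321125446749609262678354778661236567478653170386730419288575547888857821592349605545210203640783198625293778766349653643245345614231553296936048051246261100813403948339112587165669440812217479343675213595909625489001350018371788833335844104923983641648133435400284227078109940441507041973794449180526524163613663358667064778568780111541587916773372148777279303654883306446134540559935662519983162438480134622597006919031595013909331334763540826083591147280618532416610398171471869363665964049019750949499981020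2929926336746906919595377328994356808827519016254192836589689982982145567757375950966131255811967931752192462249768266802089501778182494692735961070040611243167856341575328222613343092217138496731749320301421966461621503102326394025087023302583155174943301273345795648298264851052112811190644023272173628641090892213675634575167834018275413821484707545825336413749227855664795480670548504963320335896859912022129377148403456116296646361412710170923086467281440547840535156791761043004976388263906086549458699759575749295338437415603212167311548349490652506463785232602586395067027375064594079526119797180282568901326224607454728735877300310945144001844146387316860692841150432357928544290115553857893983541611432513601015227759648358258208953932994635320052650507236488636361240553959058661750178543382210071927553800782317258691731051664449438695843325530142143098710389796093452507292668375175222107405640964069601963561954934214064490121717617777566327925868132976358251156514555313914317493000529799268881428190307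5014498527217239081254147065771963009219182944729928463222714547300184250899427389697209808300387048120642329036917858115139061585563512407796070023350519684047634170256872728031523798897634280454917178030789607800774300556562370519684394063203283388395569043730772126097913199998512746364648242134222045845061747324608574377527406259136091430098395789859479498973777939865461580089672302036398801235621189305649451033346502473410251275410069059891638024409866010317096866058205333625708669181519600484074330005818402838998386919966386883846540035482303893087912487476265699704674620080771187608383804484410686247685624361272708232151760125988914473610158696878129637899353562347354860506814917119164839356387037553549565004649477369607049071178977822096692535818350418422829546523855496994683592626950281198170488467617664561770371100758512317774352224923585725996824732248932449272454549834143172234153322299900113178661531553641493226474579058060082855342521896756832824121417214698284801875211148535823076561879848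4155114277053854217935571431497857906691656991350240355683741853002153911858884321345378625242118943195248833184393784441491983854333462882119171831636458705562443764816435376658944477466652650339258538755423106274876066897664040920394279415428442653139300726005930957944390537512499233847378688868854509378040166882896050540204024627507540399797523854513471931379163662892485217573143267372536584577417750509632591237765023218060241283133033098351548261743933455315734641362817681974186550542491459318625034287991236722268412922831667912202304418100704525365475714042465764629771729759426073063666489907843384493212454899114773275544512269033135654879655204802187366546706456293018150446845648035257342339531216894159567025402476376580308319297598768594266049000014093774189254847368374517278013578201064221707051439901153866523831356937706569944281066933640532414042897674969587509471422801917002426099689964451247094733215443291486509858348822305457590475034310181999886520992763577227465954100669883730528624004802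9627751215690131623911704664982855645028879594293919851570648936893942816320191277098246541156534183421333192977325463369956895681710474150225589874833675861829260258624743332970126222927609957155103311675017756846064530024060004270796579234448862350246699370332902561832926414716551992969436422620911183762965934344340281950589369536359004305534802635626831811407474566590576019920872075871876254864661724193722655464883265786068062830291126731585027143165813411659352969656763618939800081312651446050300703791464441723404469657693256878615512233200583060945047965991012061574337089200650624870502767374349408127666253371405059929049401556746809747761668142280211301272321667174672270606183718319282314425214797663646939881389211149007373005925255872871439368955171832429667324630186561587447345712149738029561813092408710478640687582676993671047464779668454340309712538712507922901418864509845005077937272230648505512943670626594469670171106944417970853485079095455823903496816163279996719182604224736552415357362757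9897367033540477871317666358317593873634195818120652385744798790042111844334842501186798426541547728820042933217988104426010235768036210892129336150348930920938498564057558880486366475003423951109871017801574093442048392548862686772280294733496076007815943843867668624697328792736732951319647364368566776206654236482632678633459790613444900833655251965472391971598142023005413629841131921601410430567791026202722841604631537349272066382543783447942453956187071541251812962375219194522650437991055235241446399151277588357145479288424245666026505742771877375053146819253840345571203092148744098547381947190913056236257118787026955142739086098984146626404001817563619925650022160886548103009715949074536720613992916652368371533337129592380891771300486994318121101298321499142988890372281274730800959921305212353691470908441808326461860399246604739002379299129877053393597640115466281410303310295490271037721446592590277685889973158651984408608300932453590400952424501301416301612234598532364902073084597463432079538906260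1521886222974400313620159506218012293801487642879956096936265987181737870803690986874037754535720190243110426863085311302865585392918453108413960764476518299540376679628509161526310398152289627890561882645958804417585149051812678942452315196966437771551556249248630066415537209427137828319536423131380729368540229432641265285099830198631355618320845089161828335121141641414774732426322099014741057105485816405273615613453435570938576561598928071395218278138991023873138779584517722624323055892007068989143694882953420317359301709732738373714504172145320125384713700027765686730161906984444282340591084056305901864327959906127648770019456580477991934722114499708906988492326542901981589409830397456243224101573382985271348593339560831592364336324248151148647959694163301484859470432712411821991058677127939986890667724931760342886917862243885220638723957321073164238414632990394333894904220769606536459344668754043174299521080642908769298646812588692178926044169169634719267914314858367807119701958989586969060415606932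3303296984204663422249105911951280209238486064735742418216187592290608048136508298518570629116359384534276459418525938257878517745753596524780492003990607221440368672923801735159101472808665971499461894377255212600592718579214458898938595998106855677530702112007291943688473444289027159552792120703949473066089208530173298023516277501243157005224983905860108178216742216760077337269075264490219258773914532807160744186385914280969825575640187438585598937163277454874593212904914035203700510305856627701090311149389386743270602592352957133014576675504529185282999001363932857314486712561252153846724949837639225382155206391896699377905460156628074672749015680331263159880892419734762966826075569069646757842360954258709962654761232264219072306139401999876511505851260375537552729644047978100696329807672246984178040407056477405382835004166710511859590918035338338461511116848631664941975111565678864877984451213484142856619265206804579382479784657623660816295479487542184463715341301967334022421406690290633669043386797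5697236972513557874239242082712218774514011323691790023078766949566745777555638895537074852677825056509684085483373001311142751985102092528443407002296840864061075849722825997304337167148271481297711652557035419606091135313700753111264625393756276485429420249688306058548985396488930593391696459088332996085021432682067235942473252840823311427593137545667764597028210121134359836922543878496019443525275490780699164282959443925240789538645589021921600909520170958978001350566285602662108955245228115042617304134387375939513164136628427540273316660443288651965938445986616845827430631147830722584865250010510705784148490519307715308597046664144054914571520979013237684764708544168635925034653537384363959712746703112497228158789691113417254050524179396289934428125852623175265065255398789420347788454733818577895280460785080216194959284736562631106861880388907709408113320793763879309069471443616757268615573428956981372080955180371680383999319602780815040664286451436212157050364719882246081820939013445103517276709325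5331694239630595945749282240560148854946834386156999460256957977773153547954623279373246916792688462676926568988336893150657233505250467945051318437151492274855337361081773392950801162796163112777484469535430549837474704936856309633610590803231299209105234632083960145178632447903576525623785743610554958381069551687184897449791042355184232664009075121542830556910380349076284521913809260143814134894493336263502342983220453571950367925076944123449488702644781204325804455651069483622080988428635909626488591947199109333315429833265067574263905089156484053022629288094995844184128585824520229263755596641667353808510621230915983100116523426654619126473189430179483244254381790407935078175563778390838588078301897816764888680296385424740703149382141215789177386084451680742236649548775207763611982280278042053873229658426085500770470243318678443598928276674611308321431602582551059574891315044254338051363406053660393659368975677581843243019709968973627825221673103572706895303633587908362333450451076559944238952486111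3098970596288776982515608992193403934627335212206328175176729130991269422094959269116643439915503582381785219863611086144915398113127603771851516085961040180957046829422881541032012031855424478500235593208534934991631105860570195373651584147511187067460395348865803274467580952805393267307301798221822966037828069589750625295322327290083270884866660520500862871091063372629696963156619105148948739689918521381033059931041129500605625303915846967251314166402052116523894012410843088650491999952053401106858199144468058867901076676612794105644884858521081778717695610713689874673728157331038897670757990943259169695807758949542240879530438740968995345263766909445604700524220255687519978223126996869600260089690177600514095025158507211435554870343202539297080369081174462784531290017992529042901970094538170606426308694302365696652167463483932009770206158731534287605112866193375498593914746759932291045744099007020661883347207338966856532647375535860445494894620653973839002514359907617731155325974439889574893855401980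7538876041998815710292468741774639847286653510790279406044108388864875787219672863104445550732955627864534900339952132492136142423255108460576055348816184588857767306498277155044764530553568133095940472948057515983894021638990547747787455965924955572704052188375306889120142371198143673565593430880595080242010312720070257342478978265782234473102207087272968416842164668902680209597097416975723105140313269531576221470832387693277659365552237261162504290215567008627363304305025949374834579810870229607458189712487964418655511169327237271042855383700690364283411817634463635664918660785507071630507984451023754681914927112212866835202774189538322285953191830838976570178027386280529326663354888226613463591530798182495283772921149832877101289351445551866473979916196978681147489745676245468487447933085444890834714592879853321198118030177583243425549485954528277855478675842579509441003184751894208731946801503660431315467686808346751734647751033117454650660821004199920800584209759174144239591885332190425639535678671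2312201881797723898364392226197421131081953375208207404746604872291689366314605572678165192075848697447026048525090473752902726155875096914884508344634146344358074792827068631334681514090336055041039526523191985405102114113746416385879058375664288163089653925113182010008257355440104690771439992925110046529503472537835667329777278183840756121537732899758626895788630134839580828145550153955622529194777819446433800200986701681633304574845350754278927392199125602530641895416271068367314290598516051451330771164542839107665649112590002546007774907763320613237759620341167003382451389762272053622674220986736932156297394913100726498448566166169462313721798660769649259005594851681909429591019925372048324737241139874738666424879010621048194533445024394972409969165783242028491182260755105789785257178833249072868224176763469384244252740809489574521570470100050621585206614137209851412570347123290124718160516102522442605439508769270389073411294669825402460389194491259066071466916771078594899789425898772680128446120058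8100146195139579637751198976759688513597714389332778154509840903498278245834863601250953854504928293591136863414262022758317062102204482541362210177919751340884932591179582799324251781265554012284953357888682037883253863095552826781890162925148661370276896560327460910634967272298905335324975664911965951143139071947634118878008829310339742667736275378156307210981672018182030123501539868750921611648765150869249815215708939109745728788962186145894435620471828320487404362551588021274045207785062301466257989861498394372907271040119003839693619042637503882562301947257757448002087783469147569621060725404898972226193728600114478539983492215723950297093870650767354492132826242317426423084472216736152184378581419017247259023055743960562610132807241647048234075763482298224340704987072091823672280721620562547383318355849195916440489030002799629369583354004122493911472342496111159940179989988364511055185242220741093527291493655040252743651178198809635749637512770960295313263993165774576097682277706518022261315924638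2059506993817080235600322206889827812259261967044016541647634841425381644288153081194547741120784831947095009402018667036491617034137389606292441325420154904252388099257982728783017919203509974893325610628238656612499337771719102771798885498141799533167831970866732371793497599392174049546525238847740708424726372681276271257378498777464117841070478671779008842198774834730668166599966303977269932864397465433884080710838091606007739508796570886937760259640127920047675404245448563616413107411792853532910977453492953094427244101437708799807472718624638990832989873329116821564424914505610758656394998233340644839316318053576402418840967532663084088142964556222003629896756526506166577279966891359917296424788152900788315899777159869720000697825532617315620382646461211381886848043099878391149028615569899187163291087710698016132963457008339603515989170498886269902059240280562355829292856873708150772949264770415057976371304778399420357261657801166865290590030438266432178817308058987925370480899180347058481083351634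3940612184411932687023688195983022318620817257356231542524334039323470152319006531642061754576787193183250284825046897170312078069917193969794196212768860434876237428415962865431297805379806339728331444315734649183740203277292218861583055573179306726191643763110179218401518169812149013673268803452785211316118661548417267552058150785226747580360380300064665568155855613435441414480446576983418449621028172047449678263169774288906208603031354265278371500160783664866366074824963014071888148303903671289145164999518248112205004983996951310331657469696340551476256983840950196973654074669763866300977975513833621481278856388658587357570129407647490861341085253769480896512)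

noncomputable def rc30 : Nat := (nat_lit 373766888930043264748398886363433697316685584706004829201112206293112351983491277160028340321922372551295104009885317115618091595201742081806430236500972053605477204413874673008998548701343837379475118837496653248060389244763407795060791121274263867536437816664826787234153568375238254711830853114222895581799065071498836511391185422916786792055526642445350468385109994286849420413810176589807561678890146713429408323229222801696061743196956712910384168130510137988907181100205536011217840276509268606132025802116797326537123251188966632176306858781915312400280570094803582107482113818728451677053179584507819878453700816226885322693559562399750187091488051395389158848921044944058209878005425949990238457171550751667141119033831340693931708668766472501807140718933608931433767391694199025925640114806361907166975522696490548602019035004135105685708808956092258447240477801757863388833355137644736508520045090402519702518388515076619242209354786846140714023154663549452334168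3260072135136614973467458853025818548047078217176395525372730978936687201234616876603506492363693992708266815536100123669277308791487195325565846182609997067348329023940845426547953363125373979475508431968956625488079661712471311614681325698747200947039403731791380849640295205384823720067539335472917202723934671077278619500996832494249004717354368065333575971567713282478258933483707450071683775377481611160421884636498068449349839554494614619939099555915520847100217123280962255261442858561567264141794406910294060197908631579611204605112763627229755801567253948117247930330194842465438819367418758376303437832586460592328139228943172689817208653984514170685708428445158664002675375849363592917890250528279254559476472390306200676369416492142753514102708098578119010244959676210997068883039699579526401495976409371300814224950620986858828503685276458821671432579872464980443802796150033685434111748876642947274006785654105463905334691385657219765673265214009578806586622129863079174603099294927578270154308116575231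8752456301113302176894122137112798796614869076510285793918567424141117257309117261996465567236125019250023232157050070801545403587823651243057413907218787677507967132995844107789369927125517885237120508925709220303238539801097091756007001849599978595377780755531884394417026839176511158026136642770508783779549093585921016841454463434021402985395871771090224277614983504302567670292499846152619900325220477809402668284979881729882392413431014455802095691386229757967208457963405203009870380376042584148526626622454682730064139522016639854296888115659664448555141567981213867980421396337978410961236307400465665307967694051001160552538439391077771193600249007536842020089408758232358824533043059905802660073755315427918417793174959479370428554335348610656144365963412916411639852650969440631134299304067928819780304047565274197193967836452325625285769155542695689291980336374571128239859615904391025161948206029530503737999729493213291351348302277444981571215118194472483744340550142492145675041487954964067290238401059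9167735958685206227620567993280365899569114747024039609978179121131362496070654337797434108964220824422886010049044045976234507907973296601038427601415450863425651079434175849880000445358301666387938248677669364132323034673339636390987029465300627546486344931036392005555656748156839219546026532423520923409594377627457115935278346073179106710448743418269208246510792378324101757041546509425828370563925139493899239362537653159631329415508899935635097154557911301421839660077710150717454681023621552704737650747947505367590729935673589657886133978336965261899946159615634209430370336805370507427083272549354294023505941011228354393171689694266598957050339508250697414054882713025695776156680904082923984023163606549779709131204765211394799835508888029766172648531642094794459705669628301157124311954199996418708138551600718849080015448914044694706519584289749567372438346344370341858550024732727694839073962241138325151676510000069565849020768184742148450750670967798454141049819280286769912424271692892921833471482546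7605814429433726760192126038454974574584730028431846936451844868707130931104327520047070633865485810464687241565473696256405881067461620771197809011009613856374948445192047198766302054521223283097091925732701423286669991584645143116572809664336023012949479836495818349522533945125186056402210833063645104108525092666907655280858636226237914017371819919149608006026562663231559039673577364319363857652496741120200554904403157264769671788640116281120705778430561619660531093035967734354480334716740449494467926533973392805966233319136125336217206837928143563982278962691551133470819386415132003979029498020105364906705497945654305888739092429999838898121317674457025497746817070982211469744350385526790575257823893533961683740507909715434948526703311508046666049442607370449178179847523227067618285081944581658430389692958698664722911893519202784469218769211252111461629834835430950438968437708886396267778601378578738898710470621869859485284923755704964303014760894320928642516799317614977345557633711136294652931848404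2751923661218138276695470458293561210097218111510927487923132493116966422727521111492430971634664513120300511825117231930885223378508377353653684140228521494668228185924253983175223693885472900919754232071324794605620196204280885437193995929766943104258688838817128935963086592629482043321093225852592072418160389273429952039610433311065539080968606309341981280634882000090683187979582491357940897792088915843508414046354103617604616357785553158838892459033552729707034490148978542310795592048636439153754907314894557816107542953250247467673141402968969588940702054216479209901267207374815401255420823195508683706965288211631566637439435981013373862768458410598514330959258882110996803302925454474367668548518246808329831804613221535760177335388257755495028100583968051044829856896104853546372052849842439959257116519986234486290681165886305957228870339564047935498864400329702215709364204096582249382941920770463934812390193667844472403871615846238871302724246013530398663993288405307705716525121862238717238580116754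5247363800948549044545705662312744155712213367726411426284571775401126199603014420147144845284239247408821158495780943048113988567404134059198030225223385205355317457119186709137504512891237159350032952922773975531502866411775980452921148157926823557086505925102331263259974771754250488550658225389237678416982236341938619522721033175471465516356056780724785751405604286883716658101363320047679012101828337874522421928170912900747364290338874040528712897518796320299251136002764182206766856799051314993534771010036860788257410374909571659933427542062010715935171510744971155756875522610240846051337321206125870053485773963079371001735454703224672716917913776248892095594954497359666365413991485025805687358648704171366181757637555309175323433189918109460580271986833425894933556024975082903624780134009064581729094432158011430974168387290802734153559133711213148734082511237738345389625771656342660200513860698577378807089151311262411115627217505839053117639281515764398968714799751586106461859759105403783237016100829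5068938666021604221882960867952734397814128605940787285589053965083385015178350935328533774363232491582921901942604608470280533605025439807231838539886931654751600284812045088927354290884146109648268315006131366503753315479032452350040400106473652857873003944307472283882816144637025231497807969973808898220962067520519128757227568355210762988935438379320560509807601750466350296789572671094247830497945992262006333270869126289768733957280445097265694784267849968002497743352333475336687686651126470531234424700424481496858085012764511947707605242605244683639210895488468643187019288183677543131916070833919293648104251418606558176138403943272796477082191010393335712534971463993989593706650247561650042308292908524380236635284828491354400535131173047324267828847724951727056449206286333778967863895165545490287733377534067655906482609518561555112040495530653711936300299962125416365907559612524252495812074532394730511083821982788678944040490797954775427856335361041397771893620360669790002400709790508173313365937988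9965881195283951334930777872250118349600212461482643380558266374479626760069966602087582627186215368185032652685528076115026398323020225871799052891802305572240792748821046035197368205734402228934916662096541208761904039616668425026199450106968412959645557100325627609615432180275891429513283987669717318403415700072624781124683564335555913756254864583183596305324975397986009848616473498614270282149744572945275995193999127755561460882254103326590073746801315805047539370760151119358827108993665994262341894731797282309202857128527165341116047442458512317848306343844853367310824048409946320320386388309884538558557654210815222616320132377098466067722127652360732441388056942637004385607528674488241795973618270513633494845919265715253380077548071477525779295031610960574366746412558777357265831234601466954165851399767259086097887287915631067979763193590587556940980955613498432343747858557641093871313153977483083714918220766572829598216900158397175599383524778283279632522189339332914532060337701805718241711088093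5132256400047768597493703636665000768231220413580930032514657816274545544261725811988859797063274274320133461451613765565731174856815335833201038109283891569067560055905734113659866191689562404911656478651087630345082027000986796852904721246804745881767834021278552761038243336254190344084180488853980288165304465886892117238500220472833565776944006539075984336627339372541405643473829136676850743038547543057944606939392649054947207589200305388335451893184022413720989139985289047785726591159775005254164313737099905172177144971912425350611620246796478137009842432059560246302457290578353473044487650325831526864612904507363068955752460141344733583602799564082102742550184923961820501409497140873025000593453953900871593249565496988849213858658860561285935091779858251962279395296962524752008740078860034139153645777570905505808995453030002880941430603381703812866218943027334839547866029535836745978279931466811207138123996307899191488586709981434985817926189164382548897327832943210937640859851837642156754045392239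7864036731764984463358630484264387276218944279757381756648701679968727646971941891688522342768472092353149145230749989008654667619189792619487267485796229509369594931306209670252861795562674224337953263635154959351838825352422306034001951060133666471154140277032814796753101507409170416363962936057320081859452210781969895185763085833939046353629445523289299959557874887901281191882125011860248867226651313070919700116009635703767070762508446037466697510448066357844594780789587684805872832760602621469285496003281824353727372085376351875006941810349368630651438826362333735904556379719437774776153097610397199932849237800883958137195715993123291758795322515224079573884954601913812287800300475345628751810888886971216132813635241064437625257815433205515480769343813429306754028774976171954807583737326714520519750545332515833509771160081227901856442023897550703610893739221444939071820227633466185653267396558813893872603941899059667732014247466943838748005387323737179866653309054778008402643391290304738821244941147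7484912711664763198315690780317557802621604178277458267955051225813853948551497090034378391088340791569770375119469875341600205811558472187209855336326701864257769564045284588335511925417343667847953858509643753423181090122749951766421413310708508933279367872833979126506281545000716729975824010029300912495738557022809637052567434139241026059680439194967185221419848510319587160973805113861073005313306680385499993580258069418666836884557160737158267594649772891523187805081758747065921110119632658082215223081312914750277836721409417260775342880667359147982326989217665684792826051166641149156547948623399390657235859422313585076490657308226168309296247920563242897189604811009108951871727912572704726421774900163842974123779061095981509241577420621752484025949191582649427757831824794560773579500685098550363469874977623197640544782086339376562684825947324264904380955009802512443194347420551739285276627872583918946951481260893901173396190715064745313224543525923947005298826863621198263692193804603869969693323306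2779189740558197496281528341599332501046502120747964436852785882453666648796643527720116763161252811579834271243753515789460532897070861953688004403880863746217622485976289635565484005537738741225492737594256131833318180948250178961106221474210415630035059604720663773362774183281997844271852138615347374533900634892360519747046180435087652306152870252741208702192329962049919748787979438606494587327118203542714989321050654370257419857883644416914359625955864877134630392354103618487132012364963597758125606987085962425792322761300985705759394824559905267658218738725700066532223615452871072191490032036399818842793047756507544096626627095122327236244329614734063897811707493389781058980952375841044435762383306891904729047764449364067602378543772329089410698173942546608859246105950974411559589199565976699923147640954940145181740549635511691159334229262373024596968065367526585062768777281947250677049448711875329886075299031501004146668268445379581874629756088892803453290327425099687472882516542379594932323234305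5711100340101875279343815925570835138722292178235610281535443050180698357323411970858833148085043788745401622441353986641326684331992498881272235536225462931896313786302365286038840233800235149743657435978832808819006582004678090642935377328312392986098093591618544689433352849492132305909761455388097493623713629156840101963609936549187076332820859792059904698179519643646816342142812055029887486219421232077375263869257892638655076760545441379497981323847465865383715925203449661881689410173175100933689872493048817255142746514560759687027434229735760080597352497158487705332763404985198537462672784790313702364245445465324463798380029949821137365140154694058605415861649090301590092408725117436102212554451793844270621553624674920583668213677892269567448850677799504010796154169077101534313782657079144058353191443469292324208536615050167386166594504999777979083431085068222415713596852029717754879483083140689123039763988136309383538862700136094534858272583060469568132176215957992482385023802370684171375288247747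6087138067501330560444342873519562040514168003534037215908047202623766899469153002736042792380729492048703758007829428735418629940120638220814733202752725777915011025777657312246503810456384675773968241999100273050536382363145002851809766580076473036002795042804014129114533197430283146275716939692186434267737752828314170746500420279458811047526881295159431940156934887598929179773909052785405892886149821223340470165159893923837614136236619234392358889867083404005642233608416787233224174953347841100912657648851442026127576575153626158741944107095315890019720512220538114045999849322530143142261888815801370916106625087745572365958879733588729136928637426866251743172354336266940130244346999976293587199808163314837640937892695508206288599375156571512294807467637423416591848191837075968137429893829193543621839666862012775060425229863364410131032060363173033439834179269924957101079658262939690636886710027629694459867145885186882845209075523477539732646760699692063850408589670781034609232918518855598421279926927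6296855186999826930763332740164147548647710065883605586195712395204582077729925495714381710403217135642432356693070886272213701950806350203241410515177042095351662068706487570497863078123070255781985797792556126499703197204684561807246662013152625376413924466476063965029595242393123642640242037001471629582623528403348387275870007447793516820975215326885685218344048499640445185428446003579388824791525389257205080494610323589928747783179695209103988412102060700373821022535185994773521857467269835405013190017303956304062367264548210427253384216718043076519924471211910060936497655699072505294808128166015550267160837740365475641786272481691747120553200757663007444570837956044689579279756559493387462087847260746356709723058686649159213492693262690962921685462262389029774116138777596680631259574382952436318704933933100854438723184548783622552311937082012568895450041839714962857878697041135355925129675908004456309085877575704909267953505550904546376273177026342083684129209266612432718707414239943587026196626355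3425653167847226649496600832614664866299303892655748455872818123821166732223510024731241189215596513624526296710395176271693859154236922770706304775113574547279408813930841318572123776416141658204840787795771748734116883063748011841373866562605335233431674326142941397054095077880186288225540796695705714908142290741190683576136353961144489746371985247626962242490664861231686181900359130290012396432504688262745383448589355109296104716457231707810722716399065551422652150926129606066623653442331674091396279099778077549472240667548110775241408351836820453684913575429022738576021572011513687211038059043255579477235335288974157210618265865565205137099682217048808032065441390223518205529377800609692450162932107429738621036757764992293713024882566630454923981735456725976167494411533858387780710302056064516715972527374474822108326984512506123390587332768235669611225312432243989323726792471006767690882743154182236561383668646191357096461026003321080595172439573620474163994042358402638208569786355219868438558011543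3402892878303274389368960070814567679349246863791337445727220052262076256358903374869236711887096856003696135949503669478376757007553466185496386558376389589785663292926725491572697354130872067579072963987782075550200780337243212651244736056470300430914050118155549431374279224336703281624651497882913291280423797478893264056461471840201326480025375177242518837787853255792463299873444075006160449627522492032925365249835407028420302764951206742705406631433771805144579000666888256168719547043774466494541011204439229183417125229738555523480938653319916554620384553915140477231240377854145515764922135244418211628159730338588187817565000806428076863699957543473594236928)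

noncomputable def rc31 : Nat := (nat_lit 374318894946734725992256414227213371521801133360848702904704793178331149489982642150342494182129360432295198022531145113807733100002863691032489454554051415878805887032371163595017334790992328395127412795381058294327146031803969357177475193964014763853758297950821599500922800318575152634921935554991725625663363358797632298228601917367091153563323232589566886150600731451686130711812681555069414659423041546837868147467327325686314044954509263979129229051830817434159248957500235375905566583398432866971844185551887153734878624472379490833443049084943940561140880373067255769654173240455773627736244018509775869230367032641102863041238775692900240524589373407911596297367561304142842852743922989885531549217857593565528571001070347948740714011060188343099788983083170351094047678867332077047026658336591239963999324720049206221244811912919125288877745417125024857506322254574588067901516566947373175421469784814147162726397251470410854257326518189383296574290140328663999721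3992286252084241275877454913840758626648082784843961832019585783027631347314118117598814741281467223979101439412890878058964705389576295100324601218581830309638367089502835015597778859244631136651696084152648944258571489602864327134424111690938112715251955837394313812878053140652445749089434158688429632577378873622153447758233704530465725658154570050875837246487117053831747275972668424831597257982623315555075936871642533407938599772642714855123196406341995402529336748383905281392557205278513839569684812009687782299995483706475443044819462544019293789778798960583673983572527123298762268774122149880203499816634882228750547906451817307368641076456483086207288921944310988706478664746832824090091005048197487679793318773188094436646297011082780866288802312008893283448277644847133639224403466264689581986824307783600073587972870334177334195710972068902669254943612140655792250401233172642349807766866213279644953770985509786208415664986023625525681725551661055698060286042646273309232320931205271347747419675724117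6238775756437630965242415388281667128633047071731099692582615957934416631868593313556359365932265642743159891666477993920207916344017825583132218875046999995562219270268807939326850482419899339546931540939971794120413414944297068701762837254441542643161407410482399724573449312695223605468633739011607894180694596985671386163193584300278768763411070907492749942471032381784344261916251213892611971598150965149558718252530195894895246855950507067666027974642220925110009199870264871516328534551040150003807559437288820980145431206931224028627331787530733433139757145459258951488536823696966053862017479099278436711016486484105993120156426661499180162111397559814704168969921230406627470309927254753635641649051171678146916902736027711910256775166177973217612134297925324142954919138820741173880362485736235064364354479657027081113664614847736186364830725920642807289811633767957991180754356241461890198903520045236671536235280262624693272719688720447235965443375741189026678927032850364871798943283509110698985334659962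4554074310247655517302617137338403311840065199787480626199296682631942890519302894879063421816369614053096218000227956989964597130249797054163706691345149488933927528381910067036952125166466641910845785931626152137464367603628625231162039898071588202081692681176057585440084407885609386100565244975430108462100416483655401495025376303411768355063514531902793300204287684661088885758886468142345611230749127895873430457001796563800018301885354119479555727286823923172792592836907706235047309346900608974077170694350496358816929582528542014377720011848384678152430687229691208190845510897910086908094747568003478507467555306640880837665566045134003819516458531662596873658376782492322572673420894861767463115389237078289006843686483463991973876453827677027308503965975440333001888923537816863873602982618513399181522747421698662883075659252507490823649479021379044823936433327165521004255237367278321686822726117733861996749577422828138468601188451498410911269401887309234125199611277420612488515369513953484115083731987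9980740689205276841550817471999706102651416211342617649118770270264379993112542055390065888766297729329095054000240036355334883978131746220985365830561583020693950072332019959337322692232866779882145845800419140798287380013244155482612102672061991574704425103706463737250060355294813683961911819829442534954418021743426418308783758541437489757067883118082349076896214389128235668129323272806836169527144616036655802872023684318178239508533714363280366424953060724683931479732848120776611541379549770137710815633693103246905811800582253331151011316511314085594592927687614068551366314695712837892197467357198208648721710929807052795327849043551765033906939138796457212933464335688799584733783025125612852144718744168633377007535085274155461009339546787630110485384779114879604985809925676056425800078445257392959229574949827255513306262898920830010139640987750607431203305625109631161655726871886291981671696144298784824735681093167811078296299558961298599961707146391275397194180765861186926980731525530326702464995444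1714828946269640320947855632430572842646741241524184467348798122967427895431765881062305435993906321363580364745543382605739573529235164658492327626859451937006237426630624216681411558523931912792955015167851929006802763910211908504874149682655027648916761706982394970208356945610248048241607094813911808758735759012386404355245877131995127321477731811898458896884359138224581758373761047830816165105252660796740524529065731071032238528167259392178403340192973862226066329601753835005656373835008304766352709843912754074964036863276353730164580291504864788429535451238507902156665845870254067602209364554196050688617803145333442087916674329441143325530900485050853393474525910235139313572137867338602947489757785549323994468470313842986243216384779333396528687849527954680723002211628396283026607214074912338963136982395373913001542352835937393727919021669458600855990151438543945188338884911335978441248136082675687973173249478740462521944457250065578018316916917590974455034474457103641499216686646114970721847270022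5645728343358577401420428119429319178938868354294689688605304912923763949276198084414998314506558407096167015529028072901585772070957777097378707698133581015301569627243291120660000420202875600799450988827840484652928722298045418748902273007432991756305693794483926772925601628516483430276496507742453178636710786807400822556624385554493938812407755049677871497186268090697712970523765045307115493474654003098218788807808633395965110650745803045590648912309624677962470794304884066674507818472907460229173772278346122191808692565966396394709562705333848969745383349667803637478765418587473245331456911881762407840297272418966386882987499975540713530015773906886020373199642548898511604759117631600269703857908232123792313906904476749728105432365216410523847781895566533466191264160338065811446446508283043326782584275283025152557293151706799817650404880441776024859351597814721023385995038780243396186977626813669759211624972459639232941207829300782030491670167803989672223742517015843537688643266156554545359801409424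7982161365972337671231512356870189257707850013765976743692086677504192375421660100773645723801878710425301493373033105320074634682074681427074199059953153116976215222980592481711774131133657087719731106672172027530634697492651263630753263571351744067595809349012330816713534145314030879608404226955172778589520902509124129755466549357044300713913625184318161781573167490168150552058993531604207178284026187278491767272786085397786606368970427926848118442038524457249724972225860891420658740365038905482387970303563647366781938454819513096433312943525536257328734338388370501652587964552589251325067498895024013189525461793136162458462045252216546372717832281773643347179314856985304649525576717650858953086152034574023051777864183991156700232283784798680840749386949852246325233525191883700680388081743634049118353552457407006148924500372686622967968188552248931668464012237656254030499578581300429317646137206849179098473169371498146422912972501352724964414200763327990533393866113029540064187303567444470431835134309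7196363869771984651007016765610852905419462000511791556252010489613475769237486883291226107570072065427837925603883223985477562453151309724039333427611264966734255152068907884721982896463655786871022533952915325232049147039769972626132143367475729359920766279908140846560412011388594878653650764069790196652861585357351527424859064173281012929960476040402982593124177830675512792784507209972987456731966911186602883820329449342131971295652666211982066702626673197564062613241239439585304216204098283514217058549443338472989494811403173960930970601580735912342389575076201473894539354967453467249278322840154279459509057244169466941460180229925907251880560595169073039521748093780128129743410559578907568472869661301623785579135597923514843624907908504151845665945368998468707644999374672684582116196673804306588240980588583418105012585111640624716247023514265799739072241055725691303620800756679615123148475842433910297716308865645536774222771685954312980458035600298834011847007564248261054607116653497432709785825252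9730102664972403538275794294081655606607011123989618658682059851103156812962551885005185303294934966439314279012015174900204949993126763074393078421885577360857551958861554988343617192215163447407544191263009388256203572552669971304102864852599293920274711807702245790352609191022272310938324931921500681590582207224080051451556834598857822446571902007857925831140531862871392279385567384160091878789963781760395341016657736372128340079798466527358684613098127159445792356931359416232765915778049163238804371991627818785014586438512457247291937772374050896706427072449594353804020674727904344078213595082186494665501928868665606268407077551137508580442649496538222512962681488268398846389150153561912251836901462390112319306936866126732849662533446925058646192993939195328584810268113531306397411553243317514808656626864792904839482921354404508455285723838887635719200882519400698436679915205731852205079984160514354479790512547134634515649510668123746280084025506188958065860339083832480930529159898283996815728081950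4500668066815515393742603196742029297187671363568571984067201332332350283640005195747898313945173305407448467317757004206793970216435189680805291663667256720374469016437561983042331722135154348342441097603215478823605948270890624703363074302877936795907326551822684534463600549014172503748371525214617800397862300858257778246786519550533213459678967072423687820994202024277204016177201914343656201413182441785160357258125324237388574586105933239576222636228057074712671388492376470053887617982726112389510396836424524894688770711101916407910487189814880873597408635401943033188379051970570141974894055891190063455809290610475809792706228871353001657412821643693404396367520340309043282690978884284015214731753927127286102765452789154217268482098582862760453196297498010264923585161732912192098101415789975484278745860516209842944758282628961629641784423766253391506817912612891035558679636818202935035999843021499327884619010345766308008304062656053337433274172140181415182880525813180493756274036241732873444956532192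2913806235809279519021766391757806664311076610580003385300583841588784655063929344342189458041046087931021858452441042763428240127689398411641082047845761863097692770792347642691443925995426055990876123633908896163434781627230632218447603528144431451711338201094775656685424258463493497871369329448917309234237984168430052381668229429299444733568040755862010837407050790926814988696898888566428810742917513791537051583972596661927427134653932658986341394429755998875522230671451575644583793054642015725782081122575110477881952133067686023964942793653882486433293261448952791905806483775486931205490178679362759610905518717061369222782851210960518165690630291705955926974917580134220313409978355256648499497949782891127241602412135148724400648008270544452565965640443889833700778054082065746121312340330353511037049403419985880531553537050488911806724066391382225975129321283407005889858005103826413089486047829989346183506896601263931328774716983224557800121106760047151282872111471615375868364762857181773379453418354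2320997735583301480198512035755933007340558057657452375979755993723674414572383588757228201338643114054247723550875597277224814646070242656837991203669100901648125715774205279541439771890725644857049685257072857918437330372121424536483009389985835029912829815462748782917229102692291463344275238121332405657254102687300850909163960804475212397451521424671825976863217673777491412461042430563322664694012607372400263974266858000011092553703550875787348404118806097895602599356488178361144311045598462137534817442614654714216709350954080889561873249582353323891038546927697418814168629979819785983667723872324600711392731339114716342829362118553314311284961829333973673803125144553325113381802066674631797155974876035403861566084207479873169561521962813297026358759265202593010989215112988720072278937113097451497180980198911883585607078481460273137605946978180474578201513168529198906124063983663754783374182246495926967828731332255416167058106591691442197394647900863958924811242729189017096818711669712153201710216212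8515624004670799032136249544410074396670626203063099995149514180390173409922121281480534379136992618370642770721925043206992074114384374423838318956552318008595213350155702603813120151095215243873926688969740748007050895116383683845431773208735928335144627679943101443135433438080983904882551991306991139085502740815788510547536578465434986329032284846367105866348631737885564617459508192345306939508317321950942816797612874525923664940579898276723076489166261327020218007306464682810543381057187712298341884761457163363484336604311005856029398602093184653350551126531534751917942803459760049256560743476533324064290612518326691659905459157572188857317238377564654072861767410344032319079015587474269819444288891693217683875448890527256083821661267826582016089909579042931477098872780002907473414094446842370876626396951849735432479392187289405140830212223363543480506139132995549863678896805113186120726279627858852892919129066203095496332197973992129520472922199833552282798117978562276125450721514478175170727291833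0173656008402546144022479533502128694114512168346232056547914133766475962828601170692700078934523658798099617717891908645111241800809938719992151467114693727498554097590482344954211880712186842066907655006223597889550303727431450458281151149841045771524112584441196621205549016129991590690121718623551163574803613392315107183981817180157740282281752954582299833990874967588597109242582463584348100736541007060961445583290773784181027117126250505497946455943445994771324161512836152784947188883729246404200643718967342139067590731535953411937741160597497760919877361809581593850539576605719819407609818223512934175924059950975399763255755107662087929230057943317615860801025815931507639322598647228405617487510887671714957348737703378377962054607237753122055854470851223151351500258877706054727039665769027890254143803106547589437562876229705017205736716518087948324911073909912259908271974470044852853059406902839373339348510336526200861282573398900561076939940469668240405434385824516811619185375158748489548037308130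5594925521863759190418684983211069468821849772406255609121567514796160510648044788485015309159060232624746502801724435557975504683632180452010114704370224586743889311755742567484152834269631341139169515748280558478275227562048182543520674399987291027789650573784604239737829412778167851548795919297245438646478676987958249333224729523611511154280206158623555845217065373262706784769629878227756485214463588396194825606369062950988733045818551112873356640714335632617275079255040744553805389310706819867548122701248690427829940083068243104949153499402847631322565951016526570893663447416809737746730202471641533774107287933829946829245435642116294876339688449482709928256204422966540054357446323136084462009850733703465502297490305486170407013670968488196879404774703585334776310292689202954598799487158888933636150821452755741994073994016215268648558073717223712529313210042221140521870478455833365300709604625965723989361962958032121779377139203637586300287902331888756244658482332025555659499018518192403320069863909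3024661278110658402736654725676031880360567725748515247712306047318137984353754469033817215900478623960392605284547850498121000193276361139233938351996326209718846966973060694711878067592183126178363989208080414098293256971719318784561035635585820118327069325882461660879917120059341381945939165203803503863299109366967949811083274555652045585520435247513363533559469253770729019702453048801174401851867850191684949021299862920842710318794256349399459483059067212370777840103094895463964900714656937986395099256289537810957851763719457403768217970137215833098818062414862875052216413075782336408742027236362309817016650953414681105445383298825197233361856022649470023687712830007241024030290246348043234815679544147431933550147781365679020314374883523567326588756154093754623449546221077891763518475975332316754571257420791002018718852986540977848677712650260011788684859947135778178205686025599174723213813387419609429909770738262278658921807676080231932064288660923473045958975767825291287858480628559320130788691996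6401639433371627123879459258164430094518727045752276372725469916451826728640672938880989284596169595712110706156797538116414674121826751931818398664321614223170606319393602377377622247035569941383030987394564562487532742278199648795177708308836280509076738051753938596797187623622024835329887693467267175398071213875056834312281837056550124497368294070857554471422940874939773486149920717619776522220039189638308416354680874145740152346662132610485653257114150692592845433445155003784661757185430465169791455043953643969691159285077847233713861175884155917386357753998413392188769189260050634528090739069923017261394313322663004727998427427615192135211094756752992763904)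

noncomputable def rc32 : Nat := (nat_lit 374864931767755240785686832864060075306183338237466748770294503750840833573690960387736320906922969025506988523244916856074245422352508165974377189799228917860209995300956810719743925466715904133162786150753824916291407120639247864922895239700084246923987300305994744751342660435568824861763289176438362681666671043133597890471828283919891962136232840719988279593193403855962339871044820142403238890106744688744992457778227933533992055868997385419828310604093972525959438729709328430344351834435902824751196578021863982677503991332418064873418514302063632730824234562741101729964157812247595715995296523046288697507103617167874676048946468341785395744028949603397092549809473013962060575986448106371187734384452872408168410481573137606764328667341758092844864203732738908546909057469926851753487454468069097479223222998286653810591797021454921561891844213991935585615715668327042209790730257680243947040234529171215018847370312774031480098587907658784468410507142660735210108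6704009526735991993287333822766428539589397619427668528355507173574661694168330671967758148399909364318955054935878100140112570219815415564688014341444115489309636580096975166923581576001781982170599611806717857587530966844242088207664124477998326757948099103746195782610418677547642030816655897869711980844148821135486589492686460675112405543964621551289064235834024392342675102705653901606587858995935870983857453144845443205830058590030388726786539374599835087299327824808081216977866973558265738707482107076942433206157496096928012778093880427736476699919894223524329840942897650253674930889783379321441724893640813739520644301584804057981039072193476197378067745175051031392784218924664440657963120959819855858433630173791336894338684959298928832897710338878199224291707927251140302466925849470532197626712083989842041209609809835442824577302341119148985496579796027792230029170067733507978913637775120849623643142526068595593160470634493737764596223629538961867248903956475199088055695992235059379574507194599234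8537599053504535259925760371312012700843809472879703027149657247448390214293026148128297954098024156601711666271679574078105278728040269250184146798492181577903854732981761162825542357475836717063792766535835397557335578167654513921193922233195572700819921375704002444238398346406754126713625618713737300850203554974029305902825517090548713181046135834668212882632127744051705455245176374533883495382602692123469472246241628545311977169042655254185458029518560975433292450704787802696018864564571100783143178755159135276631976243874525014594914917381872024730395277289030600763298967211244346361505095040749903265962641797440482874043835795143655952995352997166611624578119791242690918274410745455147677424176559107930072845676028088399968475633424537696712763089166669528001509154606351646743356025204617431709759257919233273221834860542177210881233326073451057875066134538840310026906357155186228231456620801833598710778938814002369170817715363342113285786127695737841013800791265109763527117811722354703604459926882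2464790644258889695049294508451458590378870794288009583193405947808547078211207728809633964987791808783991532599632906896514927532366536019971351407552751287363021138256368053417920554571745384037035422519503950350428511430309183510676968652829607474867775197596974710811944057401739656484505196312368463289666940729899979301112077196469974054052901617420566912238674975653116554041833895397167801381973928090074384969210868037658797796915093749214138427088766510648920901056644211542148925038622924124706328893647467965110345188823744945777989179183131025519549754269211522399951058374395145733320408336632527266330572109542088701418165966044478620824997707443480152232939713920275916340314876317075825166932145135413589146597626242487646229370583713262191102860087505095012177975658342078897362421452117696488222931221170816457480598325420856049146180904248780555814743567196850158417982442901711880651992662641498720678094082084653212723909518882834429908220431453293069520256278346704715627658632297567966387839725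0550946047962722448368429311795779016328814736597516256044505075128095177927949009820943712569132951570252564592953724547635704334414465122102530543103960922705854864560263874347475837092390330110499644045782560236956741214976383040355465092226625506594023016256298687029012785371187305890992851114436025029458599901479753117699690486998198796883541245142342934337229105791851265287829264569690656458982996712824843758826387626529668832236558171322973245826326688766054434440251351535349297990073204015077852471645553822394131666580077584308278620182757805336471089705707908552942636146801275212301047865062319542528726856532535199419532827315964640850528744946209644481059086242504997175927548009411588732046441189849866317248592317048515755577984001235226714311175257268248999409477250045954065421042006520744609589997316811578054982835438765006915515985285369164092749590991198702247746861042106282793827399141175938299019532141402091489159149889323760288344568395692160811471385652002195443045407011006797846674987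2646033134815287520122760133999424099349892496512790154516905015586693093015371795166068226147066390956112653488914216113448934330733413877342562055153506052529889680891121162129126415519811679838227054364629559820341163370575544322455725435585031870651618713593910447182477494953226997919480373014386914032585689701538026010984064717113743371817585751812507880819409692578904997848828151624632743335342929019420827932742265837142354689765517355655680757273060733368069309973158308172684074805147052770935145117534946229427745044521653400445525135424699917912141322692441263892632087219997807397404427678580777858122418800719945532876195888649718391942521579833977860381594026817745773173781227433632827843078057797920881586087496104291569569774230752182691005058391525436022220479631122419072548955220870538833616626095905295193244510937927935910460471743117873327345956932277936366543645638925490848675583130408600067873853182810547835107632590136457919441230484393923405020502677213152556313855520232438209756743263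4715176744550058860502221979591230310723686427411391100564405155641769247246716989522550703468488725391565790132242080901688894578547742438969376072309332482622154671262743405239904642147718308287332311717828023399431102654463385024619489934031514375776319973551221330499136537623035273031947478625547985358202208626272117590308292598014257486491236294145051537599959427738921094758919684980065560523724753741826318477655477583462458180010804542411246232478877530370162765580603511275207633393734980201498297613953618942292241437046709161252457794565207958311682859051536973478742325049144286670829853353572330911520985883211021159344796115526759548618353179048848604832620078594802692594124265706360479403978322684497415245113555730708413149558801045132394357624450151839214963381472457267929100437042652758743862510027279557979370488830754596944500320926460714599298675993627648909976100451854166130774073402532422555083889705587898752110174385192002223742756931540835755471848692210486786428732150035091347948436877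2621412757159829854282337323135460085773132263299839985062930890790422487415176145547114306455861098721597927049365182287699444967180365842653274662057540125193230219255560939340653061312988360979684199658776837524019826250306685805127568573580721709074928901859369327677817071876207319184773913726220838010012194645048180395581185789109440468859185929657040661502224972798809443592417999268277463998019056414782457926944869286965682163074573634529992880460064580062288580659748558454049648099122149491929040275263179679477264378180738820016505156123056675297162014299375083941050866126539706331914735916228468974750193819573386018745642301424124945568713424479424865155560522655839098945059340315487748299442944079541623760266288965423861874992044778152511524584852578619687725469747507603843763045118415141998055341316885285170610394150249013815002030844956203185399469441269222420446725356027357141181018639096767623787679716486963812075990051800735101167833850671013468157770006893721662686878850892280269052675650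5290617884378858402222133916470506515788174640084735935498171243120158340937349706310456544066741197048666396172272836354481375170592846571423677098146571691598871795200903624182570028491635223351019245480336084067543146771440722778537840950631787157826124553187220550783205322181122215682839677808533054944438901684415302035509976652749545245054623814622441646563735569882195363425233468930792609583440526594397118776555578559021314191383996104891214823691349607949196551188470991637323189975884661850102489048758844860900003862162255114100565045356667742354174231591773812461903365242048217154153226949060513301259884781171556233359989156875978864452253643652059181586870924527208353853279062636916107567958366332716372497246351732244613099457792769997394249615694719369140340772615530094354870276993811772789002522976843644075826975013205593775508116028950241791489504600073413210836868545298035283769713709646860084472014643711910080346492972989865215838969208321257940090433887283182719483067108660226080301916033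0124699650978833949757147638887749022243678462122850511589793604378302849042216865715805670071741025461226758181224332133360700096068203351492207363561625230597283286078010043744907253891254067991752979856519433598419710063232798365232548190213323538858242796104318062908442619100939824787732410000727029449267514104046385917390962042007508632585164713924256129508538902885302479140878712768309233527228346713487985811890304008886085433852384260380229512766652320350052252194851052954795975878952135535310887913009949399695678429297947084905039105332396070346118647932896069403562082105192744255651989173846370239991902138049305047375451608096188520208179237516277791622146358297781280921827707268254859704685553295323460854438039213668728437490648012646764147740607706085835213402827748456950983512155649096839247417956559511117121019836921962510564230478944560885589143266729506534386792699598224245490435317373528223731064712204198606091066210265868811203783457166317267594487151358879299182530565215191432312795678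7090356685986979215596310294936367210871703247263303419131914834819648491608433808837439093447970605360939016588607212951285363960154114317305943371239275887460662322635922613416248604077959809592242845673501185517297715412117504471761864064470324503903331937395859921309133349712530609748412070200397820066363111001275786334280815468600077514356738101742064345320178661303900379255906417465723008920524757201342042768980602932052560185669311935031731705266238112707612444041363472115223829190958007021841114279120851987432821861624040287865323052806919561842049169416653496401266015730220666513802940713225001285709202303331426448698572498560008173940815315810953025121747047646720401683222719460301360193648708433671053841032276499544508344259571280845588778542944433579911256456318858730243362487206049230703384797881625672700940895258546930825070326965393889832230652168042922069187710061023733847399686623971095420772023583009710050153340566673502469934326759342468293173964212920331507014236370271746513921822412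1546789438786223701536326026733900302115355433236525840966239711766202291887449899354115472338806925781224803491470297084511241296952757051892782372247678379551443511156281228609575281845165482249605633618547663569996166254231263004347905549909968258028462065590714140599776152588750317372272119758520430917220622048649920240502333201999338872734642716792581881874388205864096393534283672955646068980697505971522174290860192590025995552371825298828571076568892695801961977139353806455405066093228222295082000557810555693633269517805751204855758471257984406460732914900099522814724675180354162235126261800465769230344352997007332564939544672700129968114140335088390478351505516467727970970809684860062233538251488275614835549908151262147362851123881005947885928302533795783987846552271319691761013734649264236679342302926632577246528106101131024003703864957962295585525283419770380383593089472944891261985089743605394540215712307122036644901260896619494032882670901967790922253307026510091946019546518335602378931037384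5854859487786660352769283286322441521557050641195020127489580554996447258831648506487520891362331567553225079322299551791745600136521123059957100721404932243562135938809450049145841511934830250667321550178725265413388850104579325304952536507862919458987188379580055687941877129071514578551322190377250900817374160108098998504480453634304347665911403746298678468833115526174709615989894854279421438310330760452319425526828171523385312493647961681237934991080857904459244162810460621733921098433807097465518797728722229760281808692560534184815177277526404756369173314893430529275279401738058010835113442504958805058334376308529470611638736225436104099153205374973653561244297733621853925692269505611681587141131602793499863154142027410453305134962973780652325382903018369492815876547157479774677321963270562708481885600432250484955053190998145290831553428163311495908148848070551368200477383913491784570300502691602249156909888231905871641749211552061102606029211130196019898587331279387377638145530112946187135011238129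9383172254154823604868493896535185734714835153550307541593875418488334446238170417346214465462560181312172604737243799163602251378826376580420653451410969989833070660332555267288126891377922669715831736596732293263417120357705839516701005018815501141315988355762811791253880888630653295469321820864122955834141361612772200857772022496932508634082829843184460404185995121289829641912834403199254531921065373355522579491062260497925065211824426444621668232138512545897970879844741862137192668207735617118467789004040513833466925507807877811800426789477247363904205476878605671813960398373214088199537767536586448436924651435782281423322777781522318051593379391172558673788959840647621098708115471418372582621470838269444613598082391191177177485604564789033134435937770276125447227524359084002114921324564532665846663673343486288293336912022621936928552584416388478060412141827785487854414403254247467970158646164394787308526495540449891030264891955312884342707473365735355022161770464410178487753784366962557024029806354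0545843364216530932407887396724294586905506247945766498607917992034097090869056157517656527408067660335593172160379812089790840353723624921021121874464108905188852860911768743220122207594683563701016885221089584970259666012394779883891474028732360041444451239593134188327278540861293232484684247440729656630997978000699015854923514771337888711033845590784355657843480507671205698888469364812278641278408421309668563680512987665857581871638356646841434430716420283967075787627996653772900714589668452095546009721547460803922653277560122944874827016099670567114085926801072467195544513792187952317549215499364803346191354437223485762083008300691944155141203505794189967801723017299195236559632511607210009015388273537352530256867533351399846456331891874774445801021738100409305982252174207244104140097266858030553072993215870677672284186953829508046006850774780128746935430373262511801833705891413021841923649239842249728593367552951816284671857143674417947769632105111691916301866866225270955106964184498370522194475424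6855692663555028719138013204920164722299558806095652064480173366941756784166151334583269006749134868911645794963660256109681773963106785841771954707414275533608087276566229106202714509236760982625342496114629750593991805146763570774177895785968952706223497042128534130077575508833074833985094568499207241479802466638599719937183001328643715572691702956630077058979793405265196842506783993776400843809760795307929813229857708533938855861759804953615880007274001555409505655695103706343115458193503528284697251049291801523501549168667931365091958888699235671149427080576567352373777918945399682684074134629538360703029280140861464359566070241742792165521348824220492921014566323300684972410334586642308986632986140250422174187905225220913997699124912494430483576632205843947180390045258962136523832455773369310339326974036228174865371204613176983823675788493802530314147676122896434764012544872407758587502668517709603492700077290271227425807596633493643448698662550284576762642527164137086144154479214285313710626114433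5846644770201304251067407818227734069518923210168526874100326940297649378341117665691770143745354618878344475723668654134520892989526372159640933176208226588548100964654444953263461439597223727462842704909804660162265112980896892607200537283078713767340979783892633117527744070025253697348540856299953165491815152649038443534040751127137891059080473742356570846432428729768225115202405158430397551282231612735277945869061327029237558121019995020880784077943413836733666586687269443754770358969316909414072194836604829282136594054804765211107912016132031184615815325039771519780482827220735470136308240590067148835034118572578845865642342434787440178583996922443332757811561133441556154547154239153524093594315779314881408097113064971439336083344232581464226569490225661026525749364081195673734585728982482058607506052581441826006218790945764380094532983335983670212885983184837517964588670601629391614350549883344921151563524716027511546466250511328505632851702009820721663196211206098533192578097715319680629685050225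2510366222341360218371735354174459715534281751337587406352007921498523118295838795388692242865663596756274678675138118061833663512203884952869893838026929918321558078695412811020730950515505209183958500258658204649545258837820133561616903087394432979628242725223375991131640745499534291101822907677468776521058929006054981048497126180098068365425924315847144011463923751732894738007329491622063531753733228588589090781945500288083810106773410819658027652445412892025362097951791343562921734556637617780167169670963234137036223057541712589909685456036810058487851407538583524549909109106528547772372120592485169562118782520901848274790060310192476068052598489519325446144)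

noncomputable def rc33 : Nat := (nat_lit 375405032110840131456559430720558990832282513843452256046604298889769560760360894315906266255673400961046182298983610853680226996686569494121174019315244191474162243101618677101212570642610916359453385049559805338714835713640229164472767995930307772065571769918219473934595818400780221567691222424422415070509712409791803895804485189073110265726893582659598631123086625674958347606048475769661116015266227187095134798172337659284945443222148312924169026686175910037627888287903123940502653820663138447477166324311256728922960544618796589114669213377060470616074912649360448410923484279008442754365557802994017969201233920181204303378013992687687194207226136375076805621232454182024205165010850598844767019319822655542670865239256393237478467321821507444024001710029535506455312394062484264220793187030779347664750343972291613831767586390886295526458919896296122494670940770527709505030520962784518968024996913826423141764125272438751659201589095075408963410931246295547166413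3294474756483382177899965758351095665842965280792131476449527448657279625985311553506876120117885696717241011587511846990825832089172031260210168170582992007213361645573728832369134476697126513353219214115542247749280628796721388043060335868531135470099197815262106852490607906839407846214615036100228281314551930732630916420423099637658915342994899313346237304728512735827294148676354795966930081682788834348913593854522883683846592209132089886179414898810845792351250207662036663708563708761353738118805240157049054259202700521355072442433933526294811206532212847939993193496254058077464658128814304065198521045944334744433400074088472373958051538429497632360479700312548075639199362943146897195031866787099089613909156383864485800324893044919221095304253332483228338151749142111167984205432695793786030429664308497026363127140931405635701751254708009850025322230507625267794261693680463200709192060966455926539223444301787413229899775811519860293598301222079285427556772921315850807253303921398236641256565839467599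8163998241549158979082511272117025592682790860672350521804178305895360922887210575529788039660615633541004051231631129082820445122730573548981944549721169834648406953529444554373417660957769638669565399113710673411641109986547164405732561737294887006874568047393495908046961271036289250880582036332989902694369917379692327662994245948553750045220753925485291831558350348669233621829241355854735898025510472370002090597257149610969878730039086570723937698436947232971886640999339461060621551821803314552435557106801535888485588026622373644873752333837463251817532748390197424057931720497019385336866856610652174176978553954706907058104488703647417621776939725824620297791937210052574556371155706086466264642758266522662178682641312421423213743524276487944302439031323778199234875444141679284821301995389848523157116869422456831401668342097433135238759738988631339452496952770732451293273869354437128421268044846367603368062406225428726287056579585331031353616419422863058770476523395440582290041000511020501571374458966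3198939772048562891408569408678050042303065461083742493545956623864647098594430325358825489081518523787090313259272196511681315818634949516878360603936702753065633474228453073796923746721287279307423613593159480756076888765980234812118249846030987571814704633290572456301073940339633523666960692355238654585752380024656742910129109268650413813044587181473804351328801462720727799421706803014335719158278673549508736766889774355320118836135622560240646571120339325726361707320521072701792466289214656225830637575465243355979944392572231815714111477514324259397974328203821026946266648392013210273102639524628476302634918291297189330870062361064254118847500318839386788212675212264101325435775339525836169529610261986229179490142010858567082622784125384188826849205448070880845524404684594332905144033693697028695662368614656325888663062359727823217589537137212007905086538535646419960819145199569416249205037643896049951987064035575049024858032089885546989167017312700336839035586907929454433148648908671081121664037932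9721842368008894492274051660445261989022008259542276344534734435479912437089716533966879181655689716557648434632354912761445027211138647668352771941541411917492459810460838383951833879148960399522459946275627573029627166832497535200592387241655295189867094007846251007913476516109230186333477812713569505682107416847396580601511698488883384909693793138753857642040964544098237464223007958423766609458912905290414198062769649360972180938641247204865045941812923680662743472070219308554038926616165039347528314253600569516492698958142513676973270085361467548861605664086750706880669133528730257401024498087238889722195243987669149855865943729165529327188368419158387792629758104967381907723892615409973240134321239499107477824201695409914582186390186576250999017450304428442452542007445848842142802490287947477697412120989481646665075596274865295289729878893015090324301614016364279459958756134153141547915824426684734246988892355361361651672871253311576722795549163259286604664254927512450039242838437960828384238135219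9797390016468161969918005245329215794320871026628306696285209608683674099298576676670532196467772020675400435186962288337317617568822406708696643159573922512879365568241445124862230398584817179539264565789970311535576525722312758770892951714753363481486573497581784501700779127804521802523428116478373210623691038879139346492733768468222407351305795261545611178709564455480030644391401861630290535894868280326899490179971973254454152149517496899552477428662508118843384185617741272211338137414014973265197457611439413631238192017123926925358411288819113967876649511660295692775489219778655405595187800313889878047995063272017389189748955618362706587880312553592414280038332643726086768872596543463605727365362965921097598373719459434527578165329221113821551062123347749043176917840742774150877109097853115820064514501624046034055377797549690227961604934534100610533317891950481044100067084957885807185269659624508745043932258080296651547407629081290935008530080270821884034390207066084935200842456514653183402069240054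3824859673886468533625740458666043612846968597906540974942541650568016504249817843801764849403597507382328479314562344283952280881724459641690871645795765149486272669160603111797731652494358717594749641907764058420864926527422876310088094050158235105774750104373801371619285835450855922699250011681248223254632032545788236826796313065603973287972109798048055109228338790135299050151362879363332567186732182112206521345736415659055525248287546902586495128719107675395471966063846656109478429338629621670373139102874677540177362154579685746494666396794920107525573587520660340588527593638698839114816580575691067384823080893468201460831633826140394200111030088040960914606933120484870443648390525421728383907476421223742519176909957049322921832450379687827023728710909701407412663923532210403788362553463908265692772000825870633139416822821063968804180285838592259135453753887723147833959968625740596024561782316445156909892050608359189637164038025841034116013332036540259971905805848912885332546018094900696048254586154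5922623142730586985573222120753156595265204465931501214983488564163990508002173918318389279361636895663348061847961976754104277872112521667418128546098183019311041712868579412840094886206834950158420525279943835082300353211979910540197877622868349021351682314183418531530937651294315373729396352698452595354503249135009362822135908055190267473633415664924122510878159913035056358249136775134469390316994323145525577793449493889594206093768080453495130452747206556927072865364161666497701786054674810574441826899715326378809509561240424445978656968771142380086519735005156418179599145349314323576511960343332453068595811966896586474130898973864331366085353739924761518741947652277862115219949885958463982513496058366109204398188318085499145894486407734451491596437286294997176728582925520661135719702210023987865049540871361748112511213533021906797058977296110884821664422698104160739487448613502147939726644624823249243613235089863288097623792684096316127543196557352897147809888023574417611146896518753346931867894324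5540791478534067634917520211984996523440327078991252656965382549136497955594102694474989270012306481705850077225519345630275542033953206155728140752006493562320952316320773193779141740014541489581831191625848512579026056799932880809648769986442603456739752681017732263452161481600575127187745942866375306330149190053980869091814037492636615917679562648676202831029137260191606052607996205684448531375400620119859892513952065426215102500091749428935954996437990191052071056666211252195566077927158989161928683323169737618350232570696126349937604885785022518757779121761702087139055447181730623184039916454577842295378881900250693220369242004667306227493226139308404320586523462103504330644234763800733147200745902876727531941910517599878825530332203538920174923969413446904682631967957523312266599175493794000299144136170268239687695013954805438281731573477218119240425953156217232822628771710407072793621971336994224755278830915145705149662732780333654438015849551094582309227176071234890525658024067503507626623448747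9189474484028514647612116103532751884067430967022224782794017391671173371658932565597300888552938219303296958572893633102827662655945778549177487825183673682571674734543390432119375633574035980866315099621952745983321357989498697888523446282378432491509688771443135270085316520305884137095016773252714858545654562198748296928780224026420109197841091852429285172367024492232370800855065238484193945628678720229366492583271225030205354188125221107277758811776214828683473208730187504741843558356107672441568308993941380055896837160787741228078557219826926973722721274463538805291699305826292808158361559876433185750646377966896767591415127603845555555161879894251614601018681335765235561476622278428782720272626403714248402550809614489031233954950680055385021289346942256789867519560798945584155140082617352344778353911057409495207925104398212117161439082080755137336438744871923371475222622607231092542400946511737237908977154416804134108048946740806869491215634227946137745276172253681101707008232296558867691909137765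5441784163438960140557333550680782264007935448173417385364757768922048633200221009408462921625086445971924125967095089311774401510212856402883996317944800882974387658511315520188054047698335824765266150856663459061261153192598248825234824156379026873788894042517183208389514481146775987105081395123818499589780071914247519071296138445715489148166800319308830874579856158164983535362464635841347631347209214957470706583100548780989353527775791596482209627016749282818143328032269097679885316542562562656268119023772301604762642938672495876420158140283246033566698545949640144922075533451637455704694809602761900664841488452898653295690160227014924325185527171844766497491287074018492008259806685048743382493395815253824741525265865569522652846914352995891348567479545217601766998765666303717700933401341506379810186424554251999943029869727159359801456640849680745149357494136155369989878564972671428047855083807288916443007756382466347731001334792702904144719137316129960658196693261009762119498201919053914480119843348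0641239647468503823418981881781752804757877353510643778095520410308842833060398709435831132360949336656308641225526667997274587991353209442350121351385795399982046053691284028170672617017155406074199505000423183064860926096851815371233831854117150069745864952905333972674287091268523542752832949864145653225499184526703830755968235897254649811576229568841853514545306465986758171130776249938640823208416379398208427109141255961153822564689700522105625026327992986719636126012463592059271643765238271069537372167386622329501032329665514992667107659863065572502833948449165970978565875436052316335328916416513567011062121045272856028874359447762806448206443528313375404365968306432150299444621697901095729974972392453098479595005661195292735602085558236422675520679296983294208832395626550021399958433651529413631870337882883875982912949166370985307687954178896997696114701239954628839157564185351600305687572337664840022609183470783894637691836432910858144751782953475029432492440296030920372144017607123206825559657285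2529803167517588913816606447733317595796338582279738655619911492801928543438295155184152669872723386267464466794648167206237564925476824153936886976671409098036893404865805493851307823148158226919679085574192957361989920096548686859387728767662964686038184865176859235330951894184318993358410480731349023931418971611362388055210854386873724441678402400132871067470495628950079065302941952665677441206886485846361289978915238164921176000071614392081733107856227725331804883168840393239226946514522491597138873141668257974778706779265861059327900511727794777767656917814457034538449360019027171739084051042570946956205349037779762120123821132818289913041773323694573955593893162752395388005949544057588366629304509731727696618111600932835978629915764307063072082746364107677485598859433040964382429707666638159234798973537853834541237860562780016540475094261051141670558456016850034145579051546199771697221348111338061876246460933120565022206725956460196308261423589841225878077518766175190443941296288186231150883038855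1814655026111677075368928140140760537567960559633507222651898240204117396262355056681532222233867299750084113431260430964726860078266059969546700936773049983852874780005775762617429384738457173771148528436807495733793565546606439919491043305273762028996537543656543234023528560126760058886196738991506815382040075759012065956756027628763505152094979614738172300308379654439831863842645396467706642535695551462562016294414261047404437986202905711027929285216764351813776069470090322649546073612327296893418631801694146837025121887900483446601522892811361335604317599742844712423464178559806011950455311982099333725552499768780017024222867293434612573126847970364188687201075978833974426008799614786598742059205752257361921360622655280854325035059621533017404045334644935133228671266214426025320584474658595605798609982266949922174014513199902104255939265893646363303401087413731708958164030781451147569447292749894523618202011085990480376592601219583841498016539177949520191336714627810987528494817404050209919530619471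2704507611403806768300055287964663445853674955239085363352894728860848305366444112252687733064051272203294518309197478625773262467742339439629147884421185895436472367472989399824816485140666539292401935374535122659396654611792476845131047653500822315249504479737642747487424337922041679029978955969491326812125113729962706248771855737184393925548883068572145246285986224840369067591482266871137954291562878140207066000572228492651377914409039435686060364246229346508499260437221542574743130191611551766296959640030681133243996550002950192663411422190495998743378759297003550297405163136723600058066141239660329845150782440131350202608594134283816286479648381132571691977009517442754138508198539996122902220314597789510831602259554364143475549042213467838093275790442266250282281519037613924498521743747846752489692005173071866439722454246832008974704840354561195962925868725840819215059251718863390804248121700976803636416130246627260789886378503634611148330707939633800094751898049312887690885269541463107343449124409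0550090038008456526791136639898091223473830474307366929096869038163652532441871189696622514673998295925863853559275960847236582630405945223495508828816420421094956256907529512428301300203456364782698797530482524907468026404109085889786071544879848559998886141991087147820555037070322306706748582679202586158747477445934619424068343534317671495875344556052651411316723560807596853516054310444607343543414194654054264741140425542921605610807145729322489275830665920709528189095586950607768239490327572574892022718264525417247836482827815721123937255264121903176595761609421276086680008125397279633662835554909993954768382065196491038979151804255818651105813676200870954049423582597943029208730101025941129262335514386729857716496859198133776166548322192067051158843729553179783656668737727861873567412336046772046928439077100212917708318794823188085989701308162778616826514587681899364081453775530995585042816700544242998779677325291448865313317505453035304657695578359293924794977125952485818303726091940924938503601928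4748341448137827226554093542907471320222869248641298473981655568492243070141786562259307805157584659651294745977726431356183718713968376500504715479923663790512745909165728357724210379015435222507131674246519474962070999805599565599127546549595465960794154574715088683456510004227186787121968437670323885023740678335953997823806284305328338526248481343808526849649059229966470698143648972115504019666962050861137821359113413613575910527537180723157847084310656478614377513009986731478395252190271838148679910046363270923309888894986401209077517217600495964387437772925751928261139914208645985290076031598464267937180495755539028260141638772589608461850960993231641012795299354697552420328189725951238633512865705060126783835691265230230479248382510590024465326923966024927934820514084451309791649696340451379028455929455498069391987962622458969210872065543485985656044467727751795847081455402587763196363195303836904573039957774430356325130133447627648453704199285174747331041553867169971389737232691578978698431781548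3716952160944059810562182549808535125085993203494285072980476990998769461083494590441554884389273981366890736675330534084610579458318019259737715569672367727451508608805912591711691785521913407202351278930510116130357131168561458479711787478811617968439762499753807307204473715698526318988764046566456120748638386037779458588711844966205175977291841590733624227643510674269293322326956041105581095835985542022910348766142842592434196063330565124972606713691177432898155638157192957983222853463555470669640153672190589533207002142590554350121644729532585105690899264131336709180949764235415222780414890986134005762658081349687644352439811710667071026657128525707383668736)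

noncomputable def rc34 : Nat := (nat_lit 375939230602399936946169497196951000075177662542817625642340839428831012860818575760299811689178307520623664142325188504654351663959197017151404543339535227971438734264690129566816216625656704387602842251490608767513125462585202016260625436788506583732697788125308924730408672637397392129849946079541285054137850354351420560066045029358287661069704187089988912073309308513014342659874626928412992568207864412194481578716769277385775928609911018784336637873138823431887453496364437184557575007157936609319838912566140452206454266719224864545495444546414214555156171054557422547530939770944968490397408132743677396620705321551791398775297316132160851347488275516271546522557046046418730626138262080361576886354076021802773298879588957109911687677566336726959700588932800257668619227757515852557116203561316135681979224060701640595263429616056806039925420506276666944128307029142266050207081367897688763765368828479502340132212694986595988902832614509595996757566511952782966318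5724821890827443935002003814836136540795333913756628999375466869776541751136082322494541064096326532350147400340922752635608731693367548443905456125559566322666980095942091660003322490666119802583061905282360965854384541180102397028583311267571564626011034671318630747385604678137125483174670772002504962153893189353457353633347353214236375027370690017662429421254304475246802013315795656485283440347994483666229372405349319732606154093817683907289433714767972768182335158569827804202815929242164327125662034597444690002990627083158277622166090666657567295382965887085614793728162354649568604894533616111921101258302717625152449355602179233426248457071354924643888237757384004434657265428611939038634819268528947034433356464246018117482837374522901391151030047256244019719388103679102170431355847785911910948853871086389200068578038938036969829881674549630312537582054117597378500637874988796849161324643178367896010187558636529849409909868099291321637022118863218280904579047275897155541465829696973397774803566995859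0277372812441796507761769483782908366784095950592118049251147281787841713083425062238430137168709854959651716389103595721654402589813275456032780012822699215469800178915186065002208238706739763133782562650736152057147954217564329467732940283856325779529490495141478295973206538772969044342365004513063246569922903433199626968557338739669632802743705349120642100709089222884553847210243493031730604970532735444983033873630131969216469797612572707132604454906254699690296019785164987720736198751961441110063330502149812459386565269422919485573878650350205395359332543208860456500774997617946491590549176941198044171615269661543882828604397701677211684813000928026898923766992643701635394057111109914610043302884490878225716957639117278761853096255536017510492597333931917592848408520969390204485848018706685138796494829548505847510528778950735868267142328962099264993736413585591052365734612378951597047937505278840734373844614124330177535273636494600985458709660268131499634249268382063429216981960922776922303723057846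3488992416734330009948778379548345930282929630890671617574784755287558889789107649170938494415057234489749104816172774822587043521799162586546564909504753314732905817157894574110533240457289495034684525341607785124149003497661375405097093275074646048740451263950794258333626105518971859222160648194813121813503342074622815258753318626616158536362518617960162388965656328836289550805107158839021901688226796321305736674968818897096652489053850861075451637104313165554003907309760135085472318429966790058582358084787307853929371100224798232263182573459414962273126201895687623614396541101299370519263781808824827345032462073911035605007502127135807225277347587064077480822500353695859504908960017338964223498754365813379774120026176728151206505040914965431377640389728542796425776643701907659521724194279647178627822049216407732662980198249038778133637146300413228030472359153245731929562710560471260197954451957003782397796417436781268386268697239265373381523400536641924664334652003151578456511653480221163456330040375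7536859407413878933616587626750761145371032915267494499529463546033896754816151708792874979444948800357818125048575967253949603879062681687621461420857703837955742957062335391536940379305578549402935326281629977459231730951363983366305764066955012965894977101159775759352632159180771837328938632351305425057311016769163330542527453430640744737535310380527536382079108458340483338726634972543093986674783144400386164632814852482364592002613367292697846367710374391049024381790045705859252619424701184244666609236976378427666360142097817024080640566866740766917005106156979215254247679048480982189498717174243297917753112166812218011810412601604779458101850883564678391130680833487589748897999033502405757660074071186210373758342593722419939279394774084022350847522689707672559407407490632992495771505992802577207109081175065186780322554008916237112596740789604186421850499216688405016166053113976995292518903766042219275920064154178638520539921327866493392367202701719167624505553512548553924373538266150523834240067878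3027183250818738411793455770660375028684620054671012799315198569653230056643986385077592091087132930796220899419907041515378619403938008074336180022773297876890768364913266472154462252174032862265074287200299169125140840153041597654472103696683558773761783910299442456454361623875535094398318762844789880330880604554150306578548629255492234947668915791027227339231357937269842317564201807864756998149681991701537247699552875198414308799956976107434622834034399601575264546712992180297735954085139529908634231358827095049442505007308165518374317087160824354919965801857285107603889072828776195498754343233606488091870783421132297364303487725029050827690275278955958028237431865799524049910432014141549842713689358652513144164156151464713273423192271204883263845305898299166804619039551109804751837555596763776390812794142871849600460526616530082024737838309245202112346366076804431494119251445832295350023578119988007247325228775510589416518593625994466822125117300485039148813040598462315682296889956407462953073276621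7243677616888056943044356347381182446318908752409216398625941982210038961478451825329457962335483407088222385287444205509099117700667316736405981307558132060899507926573695701561266540226808108319382307499312972377060919266434191462220124338609406558221635983603959262473862483947445932957493573588394350108966661327174327783241937593036448660400378124577012755769547552629752232583993701336328343425472854218512749346014697327589589961372634422861051881535510900866522344360176332428245761383315279321891285083814800909212839326991275062158455897199127860372626112683403116794585981195862605949994366593844412078249063289243175184088051385762451878147320738210738934978853441517654396185489900949452660982127710341563447956993292103127067999488043073604163669638786801408932845967665921415764410915888902344832715541842753622065938391606875024097702239211454864575959307758578311884237354443772624033606591464849960875634200656976067904823290002596714956668401367388569396716337318549995911479292724141126508461110553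7968322335251964891914395892241830513941983669205346000492358118177223308188318194029184817410349925339196124456524545761199740051517829267731052011523046428526468645767366206779487525106250225065155195113009616570692169239159675671299640503848710480916053197325968151725784632513065745642678836819531795776431245850549284787391952323583627862794877452034583132096841557994714641816151510919106360098746960075431060269542811322093775395560731124620040551273569708971596175301118966148232455740416093087199199804253684943064944217212256533257567805315024524715390938073259296095649738116573389974092668438490887923821924210429394297920852904355547320912837442516237465929476300873714055087156314621752814418479215560561860006494876399975178616897506175961192712007904739143474781144485137810649878535713983243621918400055886766647003318555872412967690508784958568432822004185487963867993484929862860236574290872392465259789311364916382276033146062577871013509683670905946624751326418462323662730727553194931057014025936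7258364199507849605602692541240379212383022731218796965107772047101231124022164559987951889840932423187803166754917883239053756764619387954967279960667682508984434710702326791556870785470685729662770327396742548179990341884232273825285009076822161640107552688584232843281079566161867002760092156990820035679686521076684861785487076710263292730468430180410235983003281908330873766132902939340023940428277346604229278155719767946528699655165602023737233224807487884458151942432624015716574383355951888292344095327987651494716023381602430671797577879401908100142134657703203884416631524682187602106798899253863779732466900861378114939495889294289232108945700492489113753666786672595696073219475345261587909922922006426504776897931097703780013761249647016489310644658035797459815897405281101265776896809733921419406378520609506199360088655620092818471137600810583405005681840257768868571468134099812942184055134808911167689791624724827930189314389055083973963758146808256257420673989932085928040594348150343340126194323877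4804379556674725715110296971109834244194762896279650610108992922068893787129190522932874004209350746681423698813503829791697623820256655158687853832623497072581027238715518013351874439835528347417441645236710781631150042725593188750559522757503924305092627053433171534372489873899275735413070136416747592188613065467704041865946229449163671394112764446210551112199678324191188511071948076552462874066741971615287831211028803467512514795355716178779750169778070464523815599554535250905883225390979235352679978264771875201965142128189451938085680568649025086192385137763754530170553681710934572675779081985023281905293588051073712931823713686543961922442278377830975001847429754181055005880194212542994585854459042981996232655692324892802444563878859242127242585635440769918973476968339318484317323693570672468855917933866914726450863042469096805920951362532350071771599787044998081124521806162195191731060810340099581691403033415345754684146395945213613578001077552621766365597654319007648898636650913713570892128368536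9510430552405106155955649282709798748144526018036806783385899678618843531369439855915245274622778124632330106893626851495001340988946895937434424289363947097103588383682305144735091192279775064019257033138022677960385647327035621211816025879496455424870842272172186057209129802149793151291800078898463392178657910605272156481515028526814877823071564061014252167282069401601692082841112660485957190477950272757517686737331847725709558374841556816536043576581111247424684511543367540934445567535597679103207784024517555593166534523951161360481888552433881003364279981801042046992259061869155406867569188666898096962679260728078079824410379739707118902424312724399993579822313337649342562338840129094761839994333322881049989416462393699005483133955600898866779672658761384993867441323790131439167673773652023425647032563489762685062942715178093168090491961289949167023954149222043171861525131174056500643351188148400143430616964591463284815805329251385033927364164208806829254487772537622681919716213711218353753093514766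0799897004812483825674228167928667377641414618583346930693942756084683841421036723460812498017547509099105347501956148557753488860782819406208195859388269331875817214506030873191631871487565467500985075983061361731875256744667220404093130784971884602877732141230850766138758870739464666872982207484081381898057191705271219386585692040373018698683232827766633683867294451804892983973346033707348146008449521211150196691581604588037908764232626111956652048203388871783456047222901553378744300664525319879090124630481476974767147465134910432657064875765687401715693132243912905394198653042558167487902355117963790567973046666412596023064258127826771232653311402489616435228240319892074785388992931359427255543314120688128650916431437878293646771760991569361061461567495762839705253522620490695421426153092532644400609418221354118157596108177971356767973261537769064155229054100772758658246357739395776914993337332158584652319926919801532571925930404797275874658898524121181568337878887049090858385670926215184458602075164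6089595854429491969923431189370049050898903129894215344230668436446893226160865798816011698166718537150375688634935131957717326959735339177276485121214553228530378658689219460282079851727604629465300713940821545375443156676338363126541020308996761994180068872484650463391388004364165205734113826623476624034388121988417976209888159370708141520053948809986882631882977933571825029597792478871373110722918357195223012385695923705210128582268275795730450118169571534935328796001262397645606446311135688993688740067961497458924037503024857718288206453229261871516829694249175094416355409101290020966620971321894313613668049331984567704821003234952767594515083976295997766142817219933366837136045017342460341164497528389893420687808801648877131258663852916065147692161706623432534971216827095223446586004494115743245369677908986675036973853013817369488898995213759732487652946359617516707372105956763359059162199096523583137208458030356745965252952043069562740646338823027464508320649109551383840032643144122956476556704166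7318994311222402977984718989187248770484017027571197889474995902658194159601820644105719018884432374170520170569858237394664207403461011120761580445421452316116870153672454431125637997413351213236568009848542466816858105516169856565617012104601990543122365775637427478870936242833407440234826571371180660915668684185407432945155429469741168519855104589222819963671696309754916736105643729616815730804554663077860940329158903361067538753265564523779821309628155264746008009485984392656796715817833150705767116413647710910069859762289171254006411633130299711007426014412125613179900577122784359564983332624088751730441172624814471276357652970399807202719113677966138941439817572921068845793056687026891107460124348492605040659117513132469351421717687042397687589444212171009164933581456137672150464096779496835045203926805817745819703645769391399136849210009478383079601129377032522004351679550726246795505751222323780879211189198677759835744988113195504670582574014101058387802002617647388187056104599291174894910590638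0582034993023933357032026838678273521793515825762113716145208649185750235514319949574487562994119768830940432685943217411919667507085491464916245764606134372661722132050689312951853788948083148093332645492664899898030593248206944435570074355736163309207597610951869942224934245507211507196368590865164645616666062649486220713967275441656744241931120566097797088074871133312491550375098447256548640945900897271248574350535866993764249078162394263193381563947389065523983590817717717597595670480531912504467780436341047650175288206532109650624335348440976128603660861191014465997988871867045612582304067276866472398665145832992116715483961286371502952279504014631631918063021664614760900129519740280921784771908655544490456878840183925071667613184884522915797802190744223268289400352310100182867878301532782165334504232316605890165467917812650406799920026568889595683345434410138959803026836706122492585705705668094838468516085292693138002030249243425980972608829081029212395728065864539594293175787694034181829877214649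4730875504609919274255153274193849508237602667607930243795707306125084203576373327717750096491608734696140634504096464143584654561463116531196352831805384781845644034532789001681167335765649564756262796700423369644725226690369508131986306773196149662452764717133954355205236528184316898920157016314670351975975663055392217537815838669338204670265919897468089254096286963968288626489757471301889088984390787141850506838749477461090661122673216235101003059325107588526603505294657637108750012150869594901057032752401368442303969696253382936114099466859253580617866630916607394543698019897793937651090083452964359710948994648556546665200585621238420249473485145602766711228793087215480172150223643326163570684463756632683439751018481702013124653189675318695227231031124170456794048288442026795109922438837847609680881844439051514932757798575729750250207472372167388914843811981484263855521008042679661194534616595372104609890881913614956964611447471940676380189665647887040196913469436233471825621392788960260031126113912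5677100396955217042673929111672178984012254338394059767374131675952653777839513283590386788718682198485593631692831575103857451174934076406697512815994026800000022515537532713231756972509757881184630423727305137117543047675740599865283167372667621865037003164605689583566612127554695477500200840588570652331808157340368398861675547731820500461234666993767357055976727017588081041333328898087269905712056625161003726344153060253127562337865673953931109155838922166109900390117338302785501832495781559686594055864836929538506135622907147914162948601140973695429309952481046276580289349043677312888160593169226903555545173115371708453399237372236888780024813062232432781659296528011753163653469146880655417735876667091284915073923580686101947456452512627407517053553635280526594888537656940417597805876769880952704135861073976319847146771552677774011812537726633418019739049595925934482008648290919165676042060486287624057743022979784019240831928692800045485710362278452992464533474346782166620107566780114702279524526862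9943007292307745197604531690075954140895427885214154252648410847294513548003066343609401162065783033750632792759242753357391587183323269785455419815408546309703135945456749310948937466537978753035833386504355171681031216122124015894713836009823184994491041954545011803723579992003792141461421284708226356818897964814187785611103748400119619943004021159920461101199389461483535003427931593859278804110350744878165890334707600512170218870779033865547767442079817941135906070889105427045349001833117053071991737365360949773498702439546983426096977167151750405997255108062296727231189331086022887398670839463114589045853750891879875731171858479542929962330364258931374555136)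

noncomputable def rc35 : Nat := (nat_lit 376467577754063414087993285199988131370626021595751930899399899200587730454180128234050428460151232381000574136136065525043307017522282754369967897064383099039125548566787816623303788517705662094466096530745803038342152212750577442364688105545413424790443078966482825467991928076887808691755934538370196010736833113789333722335586460499056888998931810898708878362989500468027699123348663471562529704366628877890054664210235563253796085796499235041650588075630899641498190636163611242520471926783284180649649308720854224766384309033802785227067976279821653647130411032139000370366975665008216591172172672664629298092402354730177079750837307669061058376558598752790204245006133802676243135445513990726043744813270409351167908158482936872279157354060846598684157238764331592876600290937647873551673885337999471143909770231220519033836996610883175295201302365305047718257524049731197260450926351961928732377828327923216771781706493185182359773755811657966332433024350836529022913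2763787833365148999864007418045758398116842741492472459476341653041151545711297287904178502046934682932652660112727934020971411572314785343070260409833345967947457931254467097356398671422286815773316245338137319935748280070121119901891237407708790956632497465759174031959709399410481988059380106607187926490914379154414428679162987058254838637728520724500086471739375480550536389420258206416048019567529014688007526951644419461163210890796230866190167003699126681849056743263360628893663702836602375861915736947840476562402698068974221456746618959274237733807681745461029479698156937010579649184881329157613554406826777843471581938889154913886326871779041295529733136547033415900353597392072038805496046368270155310478134597611618639877051102089510292230048675894268016552524532191931006353054275137469254305979357560982720488427992785064852552034408872428604153188920493994581954340991138415284728072499053960765051739400806972960656277924426980246211580205381851712052006753356130100718036466850034009413331862690966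2753802862601712282544174526788147708884100400258700385981386977876389193766742948608602598258604062750094213655956446410669983703714419687862906849377652010237974556993363527036874640551676143593310882234575723342099023354591639755140576343664372287658439820719414230774599875700860477688709161816858106246397437264689989885748280855825974151549962662773389210026840549764658784091508815121125849779422990091496331303007284102447706110817587412262805959642939447333914937147050834388151758445827728186000936743812578907160330879414466061707136815037422532016656202368425891388571455073689153308801799441252149484229822543610930681393117406540111760976484591867219568201863314716796597368181065118013129607233336853633679349881706713741522463359917029472713104745219873627190496354250407034532725959684227485660048644036691940552450454232023708474510008848546965234810562140879303844320152864048725869609558849030164032294622088163197801569349908016252966800106626386387963027737402114821071024225403907006108542825206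7394837384265456513252272577256845725180575362976365031016059739433153684729178651846515112852678807708635757719766377529948224492757016547741077803125401931614339530847204618102399424157806519563583282908225470975727566600253201785667989755036200234908450590342529424454919954297301718063962655291729587287813862459956786405526089201895290482904568008917553996535883907410538683860286136628490808423836121005285313797204972754834575408103842683542807049418671304025456214427039095301602434558476084712386249020603059645830076659647478840205907592425665218452851044218659452339524252048632668616996864388443356210136342514156647371604142217921874703821100002287890203661406967345292387699527741821072244023705679213179967648528625381065319982295665398217077834167409764726043770425756475430260336004313138009273480516491905040661657386535767241255946480509216188577970958077901272370549286443540001496032201151514560317220686012886938131220190938902274824917183663264236966681760819400751162753169617023515021751863830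0667276649780771681063683211014155967691423394497752382913714829260022834987221315812587638196645514905694309913347517855956923699512433626669998915765752931090449790395757338447897846459541784030494191110803716357183130735202710474092113791228862578929017828296794038782216107794669784989393432471885816755300100224249810842909689396544905845681333206050471191461592429269802784552260254875172243147752296329665381368691287444241965263895080808166813810441426716788778554023728922020749567888212786857745037251926773946943857978631003513132570469693244033358848738465042149846563795214407224950740563465945095656790840954453333387436314662071160056512632498162424341223004801390491094019184605821452269111803483589060651028930422928975327523179418883454709189776694853604992156799487661733410257577432792172632898263680645780529931468468440519824527581066572851272368805426038008064601239829991687319078973920123777122019526390363039233352443988140020116394988382555716058192773941158098866721986340189120046609015175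5198131756803817115931965009476195172270509709325990226103280386818611417436461786635557203669488761176228078398402792690098812372781698224644443071002529040352153029515093344120953288671420767889990649164656436857398982522514871200816745121617135779129938133005904287891599385147795809633732146291971515811101385136091418095675231860853096159798691623681900554253946491668961044739458569798979730458770487385951282069543912856541655100694577157826882158784203170746905132706417752976078439414599872265971289961039895520539376642489408024655961142573936141799567350562829339939129109184773118998977572191727330571387938435194597821006833998335653992065300397420403597741196348285197140531702910463397158103125855491048925968198237475326345046573040772377342723171861753859074586951001834834955168481881547926975832990680337559107249297625846162833580405956994199190325282815965180592457403021509663633010319083952986451484713573556683472579504271290422261249433700713963859803209371525874714711739026885762552053937103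6639643042288896075467945021872016318402703788479569744363779749347469930047328222081821831674859134096698095117372214356295198309691394809068461393235645631680939742439365153715825442362748203883983964027387786105509345968294878873072637000778523152783541834101713295520695014765516951500578594872224707948948179718438864228631089887919687114073652606816085047306438051537816233729311842209885816299451951844294078663602331873996899017104164761682377591377179777019659000570581380615945148126670772234274427641553829791770793334274740138454460679877174202160700005371818646531180168845709399935223492389289738195740963229288938619999982624449268951524265753258619329510867078344384951476012697159705939071371638557225242765313513865712973196793193149523679597657439503091567636122229134729175218988151578888197040603681398868139526027125935514156248684146528079551066979334323462204554831069389799445794391565039222542161752470863554566880324195334272361328494176804245085019737449752484532890650215809233880726486827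6757584713912231367333043343412889168529988740980463142702110998340434542036222979173398458306191586953027008755956900151558525989087891031289464828599674467529844796315511301006365660331090055407087714044178065274218132773079687456825760799471310790281227544943233043894049963402239839626643480017519449939188939142061497392811968589239310840821858182061618944001360320728754048477626593969531948820250239722173262195975427131215971368903292726968091329721776128734163238480279427828592085755554040202643962957050958269253134444192329184469559044514609387325523209734318339389653522539780916495542824618045499719992364610968757945050763656741128349143996277007123014774237237392632317875028610131276350519789374670580746794918261129654187051677834701206586350190197395867855163731930924598356381776417370562676250763012515871058742285044512990172069306506748677609977339614943283731514354233911900818650621648387255155831929828061168249031908883734534784466119579073891037712423945950177355345327473370451544214303762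6561707000908903080909493210172145890159894799296173287701400742904353081642696728331704874763723627892117299282909984027648084775275607940416140655461173541884830505890270774489136516484478815658253837385066691373724230813997169630082387945662243729967973192816095678648494408120202522210037797011841790171722227450823978108695116402068979882163947489417609081031795981955974715124141307719765836015999092047270096495947346862072688881499374905214611400467710733656644446085030915164563809534977417213288589075848249745597535767005083919685002267395684984934516105197381393242193117133263890743821908204386497605672621126070121086596836347672886590076248216618054596040355987615420083474887658008526367594680396274386007025503631866717380160782256031566793889112603391097075065076322931718196894847395691345605825633873335010405495115996449950822915487682782327254375160152618570470640951063959430238031823185870721962711645898780844836249626371680060490991410830953717273938262866635467588374876663369693322913143820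4010696150217022899885130894591420798600768786308434733907102737252108445455405405290347698847288526658809223787608509051198023057792373549529269467586412034489738561567417564570629360250503591983193951007219017799503907451720870540790187952312978595733643516147758949927778739126180698364591215550969289639069898382158737498605644315041645362742468041532092534636812659642674436521463110068529129842512405542796796998987834104349843414762763787853990459129042897706720959832428825579888862126319299205828892701076243355618040271283294957637904586724161179163183364781993703130614709649041475251667671178412495998724899516186874273660011776141802735973917402673062371662547720172712681698778658200634221867006660285051542875474311365370906335970933884028346973607315188907881991388094268484387270506375791324254917558573243602756779783762560889078797480762050649471887616903248416716854918431333770912609290581155358017869240114448565404093744948851878607527537230508180664206170280319933566200424602610147483959001424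5059655386338127067426685663507120553178513647692990184059985964359989647355642407925926066778213136052392955626411638736964312335773059810438396055746618266390942630567922812821516593144735858543351252940039387934396672668513933918381874516355355577146860388156719189030781690593950983389019542936736856885339865030956308861339851181282058049096810632925673092156016272740141897035033180817014972295158752467323049448225356689634722474078636479599105148032934064090133062482475673632234672864524556656405404124434653013994921276760246392903062298613126785096337634929430455775806214281874292718829676737452350295585273662694235324468897326212166540156675175536024075400223182705098073065738063555192223843543663435483656325389069928391648498143640318708780490974071277261495186622803216128991117004918784369635331625642440556263993454929821393471100255178048516556957557054539489327012733707960956570552678808160367607664541418499849578622689719924368846258276700827900507316170470341176136402361629938987127015391781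0026783598740411843563067554485725906043683854706794092821172946574412743678590839262125185486212228802936066127190269081666929654809371940487519911926077208533911237445127547093571480458045671747093920442892637212752589673514598511913200208975833056807039873191624037458529524362933454413883088087119910234532875968510869815345380839142940209561099823378781678468472792881118688223577090410010639195950498977842729908937340226851899369413718509536427133009854579364447965968267858897844754670517131176056246385949760740178406842855559607477709917804337888210776547410266732340578671935730578224123586648502946714608676785456145640180748447538909668962370480974304054375746618772130489283565937324509069989599117079980069084853681551613157291153860375806350036493719384352931008601042678535102104031651982641409385474880087232113947328621676042858158703781459133347407573250596181481156651439854830051842804515208344459702305705180072395219211777215378975057353510002397599002220297653250043997675646995315683872779676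8942480042066274022688589212026147450494736079450828986296775286315885884224215301812861496479983694275808055556023482832180106463930684554867969662154956115734085568986116571680987430629728320291105939785185679559761588747820353242763557685974613048280023862400473115435961502483806167702329279438358323596473029991373557014781215387127808602710344829282802237770968577903269800267615549073216079717955913399450368165021093642926561519410829203248516402526477785144309659378725078009780205838014330039933277002786459136116429590929140330804015988348436996769564121740333117598234389701575753538119848558232570373664591701928437154069858135038564336504759210184146844570395835178630990815605492128144759155534509188755729241886560802735359455456578919822020340404559478258735251885869058967375246927456488812233102671235346204725257642660695249294850510136556215898224643436454230372487851731990016981959647068477687229247765249830602810027282649423253714726128853649549866871063591930146603249602359355737245869822857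5372972227251572431887172805024724414202382583888571419623124957386955791396942418198467638007004781335165302981230222091113133426724837167156785591834378695908438343449034558413922834353819830317665206061245126796668928740911642841140546158859208541990176794893483996711404229563442816237372619978226420299521174863703462566635271625848110227647596621708539633616247914231516394707974437293160128706449025756608961758428176838668838446254990590670774400894067143989737960347841152597897977125462404915420251207231264442797819184381362342691568733919031553302580888573261576765461234180490614635740834903974318040506437128740676175236343565992971423328076665200202717133228387180719458164040354703185441196264632382883582566416312595946541894226808840453518911329376337748669547083575224354485830601878546373690855064073452937776975688543178331916745017316356548480246274567798606121493041615902243824188525512784410527628394035084841561884283441774540486360613863995054375476956286095026770964303197543345338208984499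2339698823075827419173577482034032756720589725851641450827004638112649787603139613205875770594589223596839845969828224377345568151788585191831256806360988203750687993584247286776455505491738350121068333469863301731937697847743980108200070742454655232502279974174520931154207323783940811495449679225688994806969097479429265611682173641707765196826992920231836386276317542704889326108215787365377389576139993090537847595774497221796092638298608632857167282108955644911621861598892756686003475644362814001968408342301220971620525210241430343585094845090805283580655114511256126332147452596321587374862462698123621202316347772881835104781513368085754349174767438589062961010389723015335950733504887101230884370028340843203358516147863895099662038288544430979939236148919073610233003553378330421502159244201991209362841651675258974509320085267275698062174046618043461368752472115381336883763523889240424012779274570177076074017300561047295927571394332436520299028189068755969220027938410428490644058061616897790391167050635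3747561642388958365926627065881127735672464358615714773685186888349836513521436514839477386036643695795968286459902494722640269021318378196318271021825949230967498226082787368579964747352616263010423333119503273957195275497966274297980131173115548167394746058112932618726465859950507848056069795155456913947390400185698968603319671600390560317034404892329464393870887063958478284244381076685692360533526623032143932871488329271542518353514403424577714547198537993122375872971085459601958748536556395154462705741440523110275042543666300460962355445788333352253066709659748700343390217248930936375820633338068543535444197935461821377622982650873699528334178650364614920697903456872056374185353827224165898994923256912852716768882279998161806050065401947554572135146591968305914481869486023050369605645536497032637716125118164396164762903589817714426672443828419434996441030481531415344747729105518732335823233407407993386832795547267218143748801203531482739703614446855213083969195666751979008108977288834636377144426544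9186809676281116437837369364228330556286792008688059564138295828067737163683870236787520899284936536510197907728390769661241257722731214379191969629587458116342344512709071467857332069656274369727162667442060131619406371202359380309465274671599528507536428716400956227781729949576876007738653403067320335589142126219816969277714628179522808801295295289300695352509534617720776208398270476244339121582803939142099679260352199130347622530048532300111640283786548702301057494507573531525664443930558029061423042097585803670062561957249026598790291064414149764224280131538578169473388751011590097406733774244115197901428447687676270435504734402079103932217139554709990735377557050508141601889877829588407438298229977367328248090627343619248723162770820972815606329711417343621880921813701160040262760662293754539516307650099426167434931731132044696515365100338477931319054528648568925565354229155188709999128390903767605482430357469629883259830436427409372075129859239279612492025829277538578543398528342881461329434333569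4240356188057605871557823026951749273862158808720805067568067345387537041554829054662786880639770047760866803387035010291883355433716134510376641411319804298894670884050972874810952982640467057879351079449417476202796211837729004420975337256358273644145323450712292195927157543329129433043329454388480874447777315946336789777324605665578446222681101288130795696592493587988495946393209032816755442037239804802452147542442552218450127685806512935363680895828614588283828486163344527247074231984133975663890222119040038427554174224105936051885618322341597001558211100589476451417686507166088458134881707540570838564868254915220130537154898545679342419096950232992110870528)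

noncomputable def rc36 : Nat := (nat_lit 376990096537764161938268296266954640744866051008997338114468558393064666190007038774938798206183925986267991002445309362671095392769637738435631223441770443518066956299576020231382227348540438416233067539435537689919906475941280387447040345822392790824478868274111987737485084331655879496624702483292143136560086867689495673021230610927620110789226933925373966344218974696396566094009293502059556874717457793104249889836996870505127427203545911463356710197559967759863204909012132490777985881398095742102133030684263392545214274981479860160924666277588556346716545314543902655385932800667583139722541333972703240630967758767961584489151307660764139243918744607791241763908673157439951699749522748550073346540468354392264811713031570863139167370599774092265515363175415890138632521134180474019100545282086953059555265599495305712823424292097477335476935628382256855713836425792153207817688094014113220725352687365656065297444896476073307959547374791211832257191879435843879743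5207213386123916195627164206872041230729212951063960792472866470417876755949963809390180534570152484637567623770600539173175273661323893452038091892457863051984523931358616239069160104889408486814866886650747170043957728088704294194730405831268039628406305624533194203452531038629464468765272463121493727655918877914761808882284697082899199291867760881154894723800963271912264041386262040486940195131467169172219061841035377345059297562109026090637561670584755922785664744756709670826010848763252447750840459241618865704403332788975239879053228620657950939340184488708004205673519974788672808119269073147136506536332904959894500469701697607976242072800490287143291965846039591770042354629752819267354763138460291877830990586208075663382979693751164531829004530889625675018487312337958140734104895890151564847014533883240284275431699383105342572080715604201366361181372972876175733947918891273538340072243636852720286324921338577090258118660194150713353023175935840862416671097405736809573141624426981536809151059604678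0646403957937177205221687854431916208056074708961745047948770407834742373091089067183803930613541392694334188342864332493059548183437764936419921627373617875188390226982216148232927726368715856873968709216819399596938001051894851569028492206359474831409716210676611163258277797435659541870729431047531898831155355371106754022385005392360580301730854187396942628115157754610582048154270898982634659676659184120714726396164361113916148254863125587288248140564029500844367723334324453271853839098370950049746514590072462136388205165081554689598631897182087263859950768908222805108204580288247984293573714850702959921633177782006767968441172120913384338205119032857484331181342260386983647832861284296119812256518795015123520849912061120693456594436992011780308834453091783819598147061659982055601406094858863234117267381360370181407707442121579421041492354310464429227625283169130451901813325048491313550483884036407957063033840874724533649779533618321080652697808974704271680157948686299165704919950274380970806858921186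9338554451646342618917758134380939183953329486809406815676043794412094968808141179199912348012720049012020447127160041155349052701165216708575936654508107858618089692446532092093150810736327499342408563238605071301024497641810802551414393260889418007890361126007018844771337025819773256750431213484036036656772853892667895273723659516979795743390909280071475191928068328090059843231003565243426537132913412910710894453258570378666367793689760916057468086654996793102022488715411280778720520490732790576319008821405736429130877258765485403810330222516606277981827943753047253681229501950828033334590838256485707248566399111842221647428933744814214669529629069132792978429029993417742194012310372980103701768533809553224361267813504507757658027697716477002968561465574426287405092342686907969159597991915436074171850575579303792573127956920601568480365534474985923304543280018525532082049476892488731446289416926400372995193458316487643174868637850493018305923807038646323639314682337116487051171751043610886077384141868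7665432673114936718122347821400759910306596075334949605532145959048617259257089882462703784842773267549762831688039032799544923103183483440646212229807501889728559671017085878182333617872680053473861140072257438519471689771031786429671056051555547142112378868497172568716141348656085839722042857925376523341637748126826992137258815455946839033858814625229085914443005051109797170312661132069227555887593124412815024618153726197125465493055467602358270325102775324592253220713334221385128108732360244569542564362278630248864087635752635307738344619138061800528088307269126291694528685965242318094384809045558484212682485710400811143289583621868357852780763839201158924385307259147006802458694401516785447292800797037924518420979802538051694054422007628465893615444311073040318043812498942086803444721061594976447935316534272728442977826270854221847514183187800996294602359891128533648425074230470793409538381272999389938643462347941086331767219392720925870330859957912446095019632444557970995410078521625832477197925066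4281393571734059384663074148799197341027193599178899769560266531490835316605788288471865654984953009770779849520474994957567682056457227010337261482680937226823283281386522600800171077622745335751134456272982956107036173019479410081943569924337662458091741069326033417270207766280179528667427342110408560166227380340261474508010172073822160238832002699651321487143980368807051788734763853490668063965664268661789969471598830521689311291741794916441125837599107967620274675648106824819302160471116874640232042450745048829036166581901383759892418060624888033856523868527382137131997732868431145263850964433214776402770639984586983072778395672406462954216300925621851308497943818775367154371200136479146470774608238474041519082517667592441476198935852347147583918465869197852081332785918296417106516629738612277475624507228725055714783806376202056483239035846480563964607141389515659959228364041637514577559187296592234901584082329663487431443267394199106695332117528388421208001754270452576408701274708097684201198127590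7678352374701470779902723227474938158510553109013450292213159877422988218111721060211990790854788979796816155721304311316085460167437062626948003017286883235131005561645586073906786428340960974385356379713813536726842804096650115218974129085237553506210996245265452641586021237522394926786054417866160385464805752234107511888098343150775486734579089433410114192906120005150729842260813319450251213007351976111205964419933803429011644819753210982333055325534102305498928801397008105143056198136668110695392773317397497017832137954786814576691996279122090717306098754947774098394944172182280778332974222811402858381688963657274761834779714401401757326082239402720314337066089260526647945965993892265444418916931080499256766451671107500216265383319470004928787017445241098732501127746389576760329155068770094421339747340755086973298742315549768919311473952534700606251044790826568132374323784679858139624766917760475297018878514052854530287414354571293604749342050723002485643940165995142583513717187006745401074107297061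4056412441237173300960379194239613923108891205455135153179243508239512572648591403843226155164204397890865349325667930696765611164675821580715198720681773203250858321735379107275232606626216509965037504034006152796858641111548962550075308530857598648929173361247032967158619622717515988736169078848437308827160484283178256763636380606444782648930485923469581121095769333057466959593892606811040588347924392577592496961618468050551766928382752248615206497582158980193760294048223513180822746417326326817138223378494601725039469634382146452180122419929752173988124500155930009068175154331032200726236537117922315498273885142593067358954247121238127435947060890674554792381713288605425551943628812910823193214096660170898374815753812868679287117923465517034456817685772360644613653262313181182781098436089324369855983207389926048474040804223194508741251463199878487270726661461552076125836341092303140627515223913328913166181623535884040925973231694513100439452455338266143055961016226136332192200073786956052194199298881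4037498695323647642683028517285648191414614452239463089083917440933802000424248973343305408704763032895254950928244606224900222668091833831718640618767850400256343043675909131895846977465936004836561412943411394197793827753241590333675564831816082717968386034557006037015819132306750805643987040979011256221706975103354083438744649654792809586488526681312118339301485924939799852317133447436824881956305992731702828146556156540165358754862236636707369510535992531029886447274658435024140029496005384747842557550913018163781444559105043643296262645714321480934252674895523455012508793319882904189749922319634558828493798085312179126929005430351190365875731625366045892549454642997774892681209190941975682279903171471094832532350084995433127122480234285238507297826215948909277961707965904190830806960567971520223684230645518994449832134537689232146118809173078931360466756234948962448486576074917090846652121040622061237957400325545019842134196765978553789427973563918592216460176079321298074286138804265452961952986386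0446153921341474395391422653405165599261268913764037738991820638018667666252510698855485296892921805535486643667160665782394215264078504361154536394175934860144580810070759520519161973358549212366009696939264590412503104059745649335690878705897978781521628092916365961184924312858974313323381424155637251061502213033181517796948552035549597143979077951470262903321747209623930245203915223028852912536140871950968151233873397713014319133830486349443244687813844325670543226794100314075096920839785504371578647257755955408734042120297699997779907457748120932809752847419620189794671849774201559575537857466545996387852760927006094578583831527800499821134281455299817501566228215496921970564924707339033413221220829351340753874384854797797035288525658965620606654202926704012218944487641083018228910356225264534580907141230046014958110552847695060360420142232392138888285527035742651971057083906249241531586241388801171509314927379289174646164478265922809866208086592925293200787543328370931721832470441645634962212285232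8260745972028651842150112123554769718589332198013419914345507015214042847954054009392938168863422879720137859011393977894666624163165492612610102887456162878553758096939581565273206354098661831579433175047164549471855089978171273163966094574537178021472665991973053030666279441882594047076720401412758960101293363202462862085195399387886271480489099251289475318060060985517188371273662452187799730932531549760035329017119712031222376834717926931718092836974111324177149046149376664412668843292933803430502419723216367769414617800218948279713096111808888292851809696056311093694364652595520140616166853803199374023929328996056925872467614054977820036148201422182965734490687089601817263416263215272014931902932044793632512386217002822182323000237808179368920468779858319339130149765223814446279034354426649260969383225655889453329407521282069871798302329936061252356362899170341110033723534484667369390155975955859729076447922335256098805176001541960371034675654313485071123959552474462431709312212654911729237327516428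4443714422512840907327355439354603148953481022090354060175056818296908163268223580925857914194242392942388007469280840595430538614392003303621127322535914010812492753972193964729214623457267806383148177434844487971841585351348382477115633268185291879628993180312898932336157066579998125684767385535536149341335488620625564199750837185860560396937987491660187817044021508273867520824319381880844515835834971260334047607702580372139378679122827507441413065743856443102882256260908808973935417176703073838543776834974306631927010127452879585056543043035552279667262566849000205906148767703183741105029504772256154288255885261259495746414330603542516405102245288954764467287819893076367466251214465042974298996377169518560050811718593112465852495858569715750640029206877239408433089667492622754244553737703873504923124858331713718967769957249709304685929641971985591228702996295895113040614679992438309803495757881341811265392597966164646420048440580682731914655830924489087441607715724379988260072629895189469074891530448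1728438676224159689310483010690976927855214977693957854709239804203408175595450435223889534710392343226738257087976333787275408059532023127238041103795375353016338455161617301716747867665883182975142952730278215771624119219147734598545742437925128896317664933719321358247372466741638726356909349661311134089133190586807965801793253242303190504753674685362399767804931365904594481564858601455598752524882434178307500631070341890531424664289244656638077603338689688776713713423361887065053897183000395319537279138782504648724061225619209754161163374877433414504811588314364984584840853514666589786312399448469938930563694129860123598826913416070773065264174503188116685880756708255683674379857765234162923003793944703626962705826818931723270208856593231868024522306125667063025166208886479705611249956231947659379545268988939171893245222257409618467533003182972764223469245043899307164235470381655926823170349510226894954509570156535807623918275549287103715630976140412910108648028927868007138039660280193842929730266529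7984011365047563980207609111777551709838926801686525780118712934955023695705136931461144757385476694574828025608360884999780825844755155151304995927898095066700941621262376524620792572775286070686025130615967998705081315234204569751454145788306733156583681200171024849408534426878923109242761935397018306981180497247069512361066764987751177723752959320176409788821159982871721056611342803923152571325893191857452050557583232238608163517279536736042956460814033030065168893665554781603263529491982992019438663065210992168083998324421420978698631380031477481105685369692485813553781861032956218976857522620147433931611307877471955953984396309961624660391983835224849839063032387475038501128009758200683072009262722603184542265037704835365304954150257361207911177323867104485358190334998852811081582092340076846431143995654747685286513688427787202563517367344535067643384892286180745918455479961550721037926212573136625686240562336299763041410605710363817930332625149042866911949691098443458313394223566856946311527179081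8783419834168099068427777517212318353121670136909619700092695099482008619014853317415700029253972431050079699423212768660133750717055139330721943984088039777456732701461838392240511453000169083253149331782555260964550228858816490681379426066446397282998345110922932027423403373191296118192441101139724046252875336839039802588395866969775811476444574723736460011733262527781428329789335522131969384292868628364904795622517632250586028246697664879211929492408648886884558405585823503770665822179338438480627754087187220297230469778589087122784853311599789623640189612838288015678434423999153696936048369641654794042269924405523220037858601358730854079484503958399288681051677345688583570237425675439992311416617474282579067338698922701947821125439033354135849694751914820201833044178253852213313056337148499461039781085382613564042617885156625558957737913699647991749909695681948825441709874535705967073843971957105013727494857670971991455899310537352466167349002896836493308965366500765165203349205285063089187417959994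7863143143542099385548409101334722231451215721631119995034303709640084619902509446604024015501365874443625870538910762869066532442949433563685317757456356878801322822625658715770100618223345738742170691095068227560351178129038758383301328170636966588034039553720019347910484360111152589240764352831495790484542258938066761795594847785426157265909826005485091244394435017290527692157596897311510782691189790907486318017069646030350689480106553004412691119669750774850129882460699185241841849426251790191787772474201115662148150827518276038053441643045019537574554280974435368753611970489050927918245594214757468051705891825389015248651050898007265968650589311080797005045062321430545132337642305420259333779202590164035908148326053148465356540261980838150567900174987555321410773715267380090954903194786742874684855924510299556034951703166122976860320579910837463596831813877840359331299153978242302962702251445788073506210349726555363070374167102128722212300844783259652857010162006713262542800276228939312743702128729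3325905438148240183702571939811654760962512398271999056328157429537597189949561863841915731874222101547077331410830449202450567142806763316682020546390029525915712841685475607919754862168546684511532076952596450232330681693169966170197890485160248455613221265737955231851930683283083210058633146451599202172741893187820317615611219601458680634143496534729803448013338879389790691677297431098909339622624892645027951031082096006696669900179785565613903460486068961913104306281541783934033100324303083853587997958710231235095444053479585106746411722980130460040152824654831773307201047382819073890590548379156074709959032668109923516875611111710807130787633396093673057660908806914636451975303609739988729965113437049658727722230869593237704516894911582178967959231391763236830842430838285668712798651702509900100060843102687114185450480998206262191982298543199110663762069751717094538959995856341512877302017540742888371301455744770318271727587588824525031364212098464669421072739317736772376287343701126459586335762778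1687361588418248073329286381715833173049942381954481787106569295410076983707419588395457775606138939962490882934737799234496419023733496356061658172908287482247276334375238896274581313500630586943687801781677957474733324482277737415234073458329271366417444347229210612240069341339542701212667147071462018626269592499221580121348323807157840198156432596595368241049654630475880582763448816568907003035096700767891802894948332755428080574986821302869428858758870849036589495635699148461274106536058572853821199003893005372170806859604878025591859982002193696197745940191813129832276072409829845579469592404464411176846341731107383967542079200514003814019395349154023604224)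

noncomputable def rc37 : Nat := (nat_lit 377506831909182705088565027276210775722248204438799583707001282885463409670590632628202025872712302527902407406986187069110936606459600980840060045772198482180139598290578848156341115866347461818087298867162867914981428132384966585272538880680674272328594967589964699526840241204195117722441757078424209187604423856396096254044445597754433211362100964179056683195745261236247603373046329794522054040413711416540646200954696512213818460625768592656565569427348815696709535548696238317357342816342828083464084753371585841279272006157870525946209096049943626535323700627131129935525229710618759246777985829276363119413829445612031420390878455744965317297966703189805046843089668838795344433784962510462596958369416081803236559049213637128598088500978803808158572509297458245785204714263125656777824828221156872077015377121410556288414870288262749657725010478894942995277413261316752424874023424376685906426073653419829836386497921418631019810977497148808310836581301440666774227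5587247874921163481410939259430796198697528441699945014200883874928597240489497592882226851083165222984597220416284477805879574168849691900068937464405061948872140674964630376566805937951547275787588542098914409769135844799044561573481595861446655624010888520986170269046688303026212608663748012077873297621291081325960338077243778681833972916011451821185341763979608910107601769414590966425121277423108822228604015474874404800941361697534329355752102336965589730208780722622324183309679895892079058688153658419255697638468679520186979850379398210380732463738025039370144837558083860267371732643352549584213365375920675658820575588426415735847469961132395016936160431673668500627725694973285114696360019769743354445485776972785891345277125379772183350642881939379337432084130444693484899466130368762316291628759589970975647933723432246222392657375957375764362247505233965822825926876302841282290575267677155529365836739435753594841307716310756845718026860269889863960344261198751057950763537585883813439911287161566535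5082155665293335344583169454483453156323248245739435376661498178038326387346668670671743743928744212673937964801509147306355457417583715952082654809214093777678533311392604512534016760141449522217023663441373010175318433569239757356295718937571811238273367649124035306336038456838180123431457327930580697187935550113511837444104608348153878383334835866644635860385517953192967250684360051727862237568466823319679355871817465833113122165116629913352495495835571668297821193110150098113838014611028696891873320525713173477929823633804837060437369391026821011091957187302231935295828595353833284742411276437478668826162481296140062908481090581818105183165939257147988207420737304641811173894464489817943053833032288407390209419750016044161679563769638274235380312065196492930386573331929941356075618627489778048186399495438119543698804715476878164417325405526829079500231798734525100573950944711206988992544836345539615163246091991354602878722356353502050308848589847254140004278948076203736578561674278881228649806065448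0061016800429330173165475602953970475803172898322167097836526059011036573934235995679132241470208854484345303849159277842570912954344725819567358349483776326860487079095045892305525162503770898830109321726677011623444008040072156108449236362988257871498471644559511307396183607365536961127556459993196196435413384374773288186027254117901809458447701653781032671084167782233276977440136711431098108165639004255408912697875731899047574622608378506050749912649486023892767618297965839649425459026401527043548715304210955470762311966414836774356800019636816423250333616948180850004533781354813499028149727484454093846360218393233622036522652004768822412585518615717456983059686837142755170829169184470505230433575722784721931121072447872607689919654259254752347520966619968240369436547491631055434153995791887198592520034973535177911120356128606566748668723372140391350916825230389311341679407553294885793326115587653926930088721546209570532694683103613091853889507544312615182032971606727385117901074432359229532783833757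3980916232145234321240084488372466099560578248761214926774614844332184302975887346147323491998479481968919759039381460783974008977536621904618927806981337537545073890510255021302345327876639227152789712200980749379291761384624541227063508784132310676649445970513205505037457655228839284126191129739904434418385938644418178676686587027348463913447494756626060712637902203381453398222055560665452186662283267065852492735847306254792742644382440302768707640207969874952837440001494652488480200010545157854206131098232970333614100149506451986643016562563256845179842443954423106858117569119340619952616564705237566239582365730351244546130050815449824184243194432633247465116581701307499798918218342913169012598346509862464931845250045494942230403348488588564182920721415034812075652526204142655396830883364403930520666216083762895927349277946407247343240354364801178505007431941681213229010353063803676645333525581361633494140654637892655183866669754431760598625057012884988700222156366972083290733464971886834592801305458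5153356624295331852363529537796319718173843700520063152734370832633049923562286197056069870801256488269267868416065835001428351243982691041800261008095610105466661731217464471704306545687248008299011128165842997407185566170402028541126775043062603800980624202904750023580681387793555988987859693730785305943771993138075183053238169315692768057392787771605294103193994040989728246842302204848526509006991938391053074457464088778849143377404264499712098650696377077279329008763513662824086542395366923315308376287564172170533216088098316185452287161985815929513925148270780696782431179495872579361860154123465022098106520533316424352001092549194700530485439583799709143039941990982578925496952425267451724532150630847259138572925370940494046747435358725034743543816003042892267615392660893269480974394607325150282201850231145045976684192827356584883013973555029693679507400748764606008129811360830751912344835370412850193575685840400066244392525802486604942679933818949775072085289150801522414019247709917955700603093208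5459968511327300253413486561894891835464959434511176981115605808834033866735948418085306612977523676700632984079803216282406477712021529895513997912151798820156442941096045175652574544748880371966890785758059333031552499732488292810261594153108335519754424246072225096271652401985298792325909584311537048245807129156911629689535026513066259771006235082878978792333168901757446375413542734301904055422440414851734025476113560119701541897008941488786599045543169562947329065228653345005615271379546256633568194589730247008837124451003367772592688385827375891083074072314625060235451864102029484565260861984776149521469756629245247412517857957203321067985392487263936133148831885329146336073890301817200336511794005091897993971347465714987426693790299522383576218437556628492578910166843700102592169714034269703180534435090436736603086516566454419459152396004973671588944018724244881292277382180241575613538161058032621907398960677448812380298310171433862011737995733464056155873834167915563241520772126073643329343856463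0110524563315641035545467017192043445708727925125059428775548490814538586573330521828530265651439787594932560219740361683507287360882770352887058052900914846892007668097495289203827065871256197060517406114221406285822960414295273162828822738460072208520435308071654871215609444593600621896275851713266861258582239161488214913150702395180974885942156860522763034170082153379267829305924685708175896228522875254913672771000789146780119567840837394463168258213593683708973264010468015197637075838964387037178271827988604973414929072750512252519302025794322951845029589920350263323675190084411264546638121952584969756882251412186607032965913323489202671741767674572341280235402440693928197549609795737612304086116460386218049329431323329634497552150743384648457860080085874349487728820853216186420186175297484017703248034614379012561017870910725647360088509416365952311486168401095629617341715100412763927705261072371909467510056080406474605589762167388498547147072625963657499350214006689267250241840118743289743792145290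6121927895494600215435046783505834479210374785008053579348878003125621343616715145807612882784568797463977043677844664674233495488383707966896608532588744255821002865796994108182912040659219952921929313767486679970554478428772048766052313500182743461960856973332311189246776013574142041000161620415205802712760136838384543343407632814394172262140242924782185404410717512366880275754446110442017541151711033727639694382891329036469057394251671484352514890756704216061126824598062736366115359318469076268340508629086403693847231693595874885303264015486233706304653011695858624373108292171993090181789756664722180800773510657814868117463814222801706391460103781741141314423925595581293002381203461174090781420581707881127043441885594775934461299989918496469249804040782131158338418305391003308750392655495983156778777877705740475316792296918392626441737345754178112315859626578048697048914351862034605116446120064891364193458512272661280613833774579402910753372296304795958417139824188351864041973550261414004523181958705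8254267839220481447485259714952171531018526877486120122391365769597782014162344769350342656490604461772825059141764176108930836705640477788458827858154900428999086418993926295126964722483960644286954677683054245039452839182551618166686410341609736587596478733673697016406813628629402940083068505601217850629623413302738096136966722930623321457566602583576052005514118377295920900566005738218325182049873058482573034298759181091258508129905324573879777145186032717795157275654106867870557323037950998658837168362206001667399535821265137918218628608045332862906386689063401338005243846872458666414116307552775059202611164575864505187072009655126472521870772725854012620148294233018374654087219462072217909010242895444170098879368564969937362048961122565163387709788248587941709780069635747587907687016954333988285703512454945626769069413569012941205358612056247490554680372394674811542151574664604907993702741221360083464117173529931727731508044244833113438871070321865526530551745623086070705110325444721397024812552301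5620067558342035319733629109627635258820176834088549958411949686196267832085433087387429236578915584311393202110087590015083133328807706367114862525125549828226274320507883541463312180797376183664718720468962665255346087267801044640127010823100385222820129832903031428037468446935432840981153088916144507330255831589016762167082191484524841443054755070963775879988733111712778191005585817200285809954174956636234251197712888890745338286308233020638560689065403904762005658875766018649333382622263772373155224843739464003684364470585019810076628278572243613796842858463073102439418886807409635518480634303246320238386124453251378639837860446628347525853205803285144477057586438450662494756232894514072367503411700659691870481190106190436118655751241804079505725623637887707712397577865592478148041653212124647494194206481801894869861002234311511316771830482924866333365840189681340889430319377427777960428907870808635365929204922796965547054016478230445463648591736555471994365035856686796646002634168692890039639156625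7107342641173273859390187286282665363931708080454431262950074493576518568264913968627111963869747192265888790563954805600507235442783583639776968316429318570089845158319209990253667700783766192826398212038841603599131692926959849486585168371015294585241302234895077777452951258660537649458958785176285350846478996655008698642586113696196536100056758433645890277669205470800674452557709364622586920508382355360381002084142498524700836984590390984769690728756295246083867622650646966001799337244855371167216300649712166681166286118946288556964109534805247642298231828412223986312993462521570687168637097834715454518586332214244862041393356006895612444155476257617148543374626309385095979295307237536316107604312686264059067699432458068693765353399644406929523296174902047502121516941707339688331896037609790142429037445976582375382337001230841609939324541618367324050179762395567023027856753091187848411228375911392405923656458506182217184025075437749169044524440509115905107026389056858616988511284913091851167865192810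9928772579178615300713369747516138356073435447292165189402060349694386429304180584659672787110842364024355495630029800604946437455311563216294382529700528179438405711678906241775729972118757249823975460954458672264955996981960127802106310580491943370305776205945568846269516891091282350271260140139738759633964161798580275130582787838692836229000699563089930154243293869135762187201273233155067779569972862989786529753684159640150904684536563617873684243984984796402782386109031871521457879998804027291335791626855163444512800892242703567295773515101172741385913109005661092603075413921825754913604995348737278625417620127600989693821966208969975425330582512819005391235403570021424653966413258747776322892466054961917947278950683521931905537255500489871832622789970851529135819564306023388729151166524653540340336364438878529095796549397821403139560353874394956390172091701295827610083736889387064647888058838548784564190501725441893889064203169378727183144719094535599910565676173938011838172717685352335222580690069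0395366932128668164742473868635246161592244516686980171733506325465469161694849279851908206986057078821200182600775543913996018675072924374974281822031948847852509791417181419599398829752727878107448454697877798049442740305571650555686997032458004821242101664639818697454278097884551071864762157152236440017683284846495465837612157780790271329858917182130025347959233328924281248611121562157257625143869847611603887162102197960187963115499020920770185768224149542379044860814932675329146108963050221411438559130105808308998765689688684126068562131920674760934608037350123066768058010249725554928780831324029461183729464725472580778119472842908039864197209992244471610414212682264404942425958293321836926897153121860992907567489386199009907048852008642271891607630736451237471749183861299359768246113344371668306117197242191036453275472853452533037757463011681179755016630117603144027420797978918768724834650360378080807022082024625347920837449187622029362759746847583433318890769204457895278239062527240828707682241098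5282030421629695642768590297602907462978142767040577447837040652469864295665260049629107939571699794407070670715911574183778308837001199350061609906013694039062516987697554847604119810672320631466129716317270765064687951712688681944935608708095285112180872307590501289043756136173584333138143347136806404536378603088269930777334653643234872033132948334133843723628381147201001977728669901204684703432919316836951721878632902854236362269051823126121881115334152890978878138329030311213256970489614251805130000886480826796483076528227760740109317158009529964261932153330165015508079752409056425464839946486527293087619810097529472024666483310965437078810496577082109289036647548218224753668510779254276104617945502346272296365742072665966432374914020791558130027214961848083533617012920071067823830159892015683334215258583579513034242136568562013189782881244416100525463189947013683313598548533127821550067266787106037906804007406140631971821643943705628303332467722350871140200289376492849924505290224188484296802270347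0137698213130642958250381817997347294437394896029901940624924856320924567802885090162079697099381232972443208544413223462408221727950158525035778674585307448702567270013589266331965220578703436379162802786053832316511127926642822910921124200501550139381521233165170725854017886504458358895415186929356239606356378308977104442538669338457750703449188422140825913291540156708535455638547110184494091846256952252752058629817779529219125115418205718125767044844801013238152547588787716796764336180424090872565966760542238980799528350935740937702416358251104830749903752785304184127203538424885311033877388114104109881706297561715006044703587251333776146754760076123858519169735087762679675602646702638982896403154283074682329519677048338535587401375606517185961965632928179876322950140578213663976509072431128897771368957641985364457283220615218132673488204807367591499870696218437771575173843162256185069351091198276381102113742461102790732227792196969997436752175538002923993371467054941044984591688518833463883297055418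6781213165908725688464531413048492253350257699994697110094783771295186489209895402353428388135838976407395764157760283965764431146502015156693525024185274357984326783097330724003171369053716224937074409655137047202564926276333736929317157336190118419160347635772182961140622978023228874341331592515520406228922712989682983786173174967366618485813062369083498802058331614787765340710950585532938936798246940044280466560333945972019022464658211120613054528746128902556656444832763295941538219027873951890461522059177911535150346239535991592566327115003777106787195182498605761759320197648749470212767008002456697890700966781565058856329978682487620517297148995175845700015048887160339730223682472356545871050636260746361731151729156772403431197931320368479278550887955960081489640980333472896854198262673460020077669438040494075986962807250434592272086591343346314318456998373761800667544912045436563490042377803190585088955524045232212345368744943739574573582403131489212175405480109512000865542779615138513643028847306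0875449653661190358307152535863483059045450865526969576402604832503317901449720544343163049615051741552266035469484182330500276688357882521818577004325355625435387880040238512555640076040884817362817618766876806694953325302510715829614543869692567188074675659758009109136050580137116461369433572985071336176639721825246246652468414427658818821881401504928469013773852846453733151489360756578259096899603113167859518629303675108509889982692407152698047645349015981607667983497472441659294337547795497361203884659157389185764814347868059579863090926301445939841633551872679632134949290278353221347869031307914582754530635453472657608502772712932454667309661941638543441920)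

noncomputable def rc38 : Nat := (nat_lit 378017826675052093724870332565957574316367922649053406279464686395581766431707342638046474716137229441475529582035694074690179696355824944694280842700050298742364562325178204458490910060639857120490901854635615820736620744015385926801776285848654820452269673031448207768650406102592511223365031865743299669724149629803420389932071992889319870920381539905878206018574844671142421199067420195923557657611101227641925878463794536515949514970536565275409250468423011700125955127839140207066436041176679092395084842981004876720066938264564862983692170262009827454506648648408217573610393496566841350112139517482851286166211739716525216029419611071545007878504331176836089736648996632745806688629577416171194345232380682172650820138135860954874915985958509255595621347522858621249675924143096896471055453664250078383086088302273900691411000960383168599706654418220096225486502013281408455311984203872123793479378349261073650636474158026259300441354697570774230852679558623607435747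5424204033648670649095670458432768114134907873626430060958773067180830272523193791213714427279608685030239360484634499230900806812562078205208479131932235049970290406077648206157794652228609064275566549954947143840617285994648168048262878449473733633860357164272381642274809417285676576813899250775617797719933757084026612266788896451076534171084252065226200223908198863237701340169511483911992460673240643914350898796356364918938267662094253487749086945238710386537961686631136565079916532206784316254835874417180808414637876360726518957709129175069066857467526734706176668294899545491227355737224882031092622087376810078529825154790213651594842063678599224517557868479425768166179388880378175190839693210229143180770387039889494561156359631554720540991225619548053522436598080837518284349088056691498227260461703825930913485506124040756011315185540107531252221217576447659105341384827078250936022185360616871736802239064712045306836609970360616187905353031607116843746100476119908250193814776282560380898876371528140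4875403704531870058066013349033189237385583458889009639606398322465384410878139391143274394863680677175130939378958568801948939523615133892522092594864117283034992387771721602718451921081539226035934871536465495418872106807388852704256318683842529638284064059150095103762041687008798218515046660579815411108624237584932528442652275957048288980894934818919341070535418662552144653991668532976127153840926066979558198734964208190989700652594665905338085345206980684280882946457467901055691341122027765729094108029314428300642765697357726841068739591759771224728203472603269832236404770801712917343887565069903256093938127820295478261148026201442024462158599574980042010430429254519483684104710928623206057185578564410819567318876575422394688104392703364894034037012872110729304519857467975144501410411529783521377448673268620253804716631694825625057949286399234967345401643784778813433673687501636404132081944874610620887438046513325296498612118914205063912604054114888175209833981067030200957411286707140431385514394542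8683688040400074334768506002952129478245559929185276768065207237242674856005121170170107447860129598375460903228946245675462019162588546640624471649211196406774192331606084212401195179482656313560891647441209880212897252179639240755517490715210599539303503980047634522523480660379008496678957773437668707126974044824731739204900423416401819432974240295292312400317239235248450521749063946189557523307484240543712603958446997698088513696027914151385437571456496377416617698386826975014488970773888804746778057027596611197423750373172568714441411930238764517740557805171554234488812282970831851930301991934004227612418562087440309104348680199995526766681157554274583687442114886561181743011401156401565811204324910041010866616019008130276281757576042721814436767586888793012433986767847201166166269962314620353813471462815955213960886717638383855506024311468441549024710487012769669962917640670026696311580979663776091650518442722273539648655628727581783159113323819052600148075910533047815398891791141237067786295895786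1858198436885223525198186408232540606885831333771450241635823338453262462180085386758386307098637059853581523386132627704774208252142614348551100756926778061570698041267445349999514325338122551828036789997296677116561285361077176157046942900306865210202047004581075575534502365978923781847561138237026314572983570252211163772538685274296506372287049194845851807385849304633332483027513268527910729651479522053747912513040176875887620305783500559599413959808494937637550621950841675491256494789590925635976308538741094659305571150454749882137022958924345770195429759129732891505316045378457365718374251679849498514367856044236462386999823603985747685829476969209623071740915873419680771503147327657350651183236042430264736231143508689730866769872083688892061523557986740316235514493393728140549998995230603853824659073596907553087577982859727198560406217397399133576611651192909992259551287204645819421818606635445385795306885935129860794607013100133693281286739139334249433922403721389346981206251089786045331284607119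3077770980603271185069805270339465102904045134293020399119701112575175595279714647816570861967307280642086962488194679336749574529181120028922946266266946773539970010407685902085436822406207543746393152181771084859274640114236946066027746935601876093492378984681761076940774220909452068677538646860842593605385968949687636902509962449334833140623019531818052388595835804726157918677672388751411279105828328405163194811760925582108848013851891757999707541687858792550320875768051581132137713097581286161800938321614397383325321023110041633583010582793982150949134708879515162888272283245142120641994738433188462729568495707988891240702503217798744358760548472396771473365576733238188777404533030142018584076295624983478731186194819012133653018268289345406227330912295635941590688097700892350156746870116618080716282950058190794914307207666317818816985420638415459042210442104131813031297333769559923748170564962776821007881115172108599841064083457458567261232718601012844045096330220322266509619506747993271306103117039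7421349211330300298223727932761147072207594804371180850526049635543640255093761910467395804677772772537655063284654424090655529367158127015718585637317416529252881449679220542046492465676473864949217223889742196410872580510573091280586938623492804296995472281486900135044684317642418221333973372258841555358934144192136656046569295535257999634625268509809593427940761251615167353507945817939668889679246872010927307215420080473822789087603764492930508573849960801377425487959978575872637651472027557328223988230220411413068900345882174333680501990978417537311397537976128958748608122017104509251206308895047225159716808853898347457890596198473882232840387756563205655663268195570082797933220983038975611175254001629432644450931866338943952452964806776192234091036486328755370974142949451407711956559186994674904078363621152014168701039234417448835017414390578715012947379459093210114636043692782009192699376133138379782370596461151108488681005440632340646043788822587007484934650354011082989501282179369440709239731363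3309722325175074391801481575982971345368046135438718361820796351328208259134548054453977793804194184815519845299611581135483167668647520714909386471929349052659400511010938145742578962141980616564528655128874816376394985808355065721530448150275169752134378148468668952768406255877881697620758992220499983974224922180042075370422277812257270014248842176898492528871209100918007675369684790028902369203750103634269465988560573621592380538012754700499299881681496168175767830454026354503888452610023593258556043724059279627207226404422160721555227924957452776039450128309702384765018211681318431964018451810176110785331695523544371469318743971073564960838953296705840509622686627284523730953347130848428605340583179297046804744052899075620432769938547754014219610613105870788626431112472886642207957475340741015060557088164686643590217512671912194562263300265668728832907851541200066598299311397405531243361148590973014121389376809039616856686990847935354332289971471908638776095740308707352200023305805543659425409631199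1519616846877000394180120466328894962318136323771536307792034217307423614411833819815817882194487458858271729713069207003945813137624655138852588081517481167076821421758899771408638473290091728802587867198418713162484874103916331877264044566912018327517243646838569257484070660725642840570365687646689437201269418222859209654727558158257472525588139262287169115709265456537227173460915791908543508060917282479695745578440009415748168857568015815706637333470520959374982134162931233367440052019172459380695905492435154699298190031661077653653874696081801214189546401900023572115105681706997405786642826231758385571170494512211664375457987389805870347174008819063674248327368714466050002272379996102812589064928936237304351543246986481944981362510263224246816201898823560711191242186961558586648805298657480363002805808511163976293009555239069626097673220223058077035581350915948910248567502297008647004220148324521148197406781155435069563344338183398504122461276657500788080354771755787173241975230583727171591358278591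6399107042052549579384271186276428561059737829667823746941272187114386904324852130245389089609804212328519251866675802297287805618529801848196088404485428197192696035983127020318377282624633721953584127436396577394673845754556872556186728129744955564145343537574762994592776398312964199399996621841635854960049867921226011480185215950697667057479538688596100192738447667064492378794358425439886477480044120094560525051213784151526874887558294352030856589962107176631464880534524112332224979163469476723520641844026775950465830276265015413579098959882597440250518438689528835615584979384966461011850769370094327319490323299271792644398372104287542848399530569063611426096389552129286181243257396687795343543121347093814594003971584608301662773811707788747763034090007255958690080844857212583316121361920684299900920584718449338195102506896571283752634104961612384031872475894209835991852065118552895823588308277946456221180112328652012326810107273884078262778576332319528846297754915446329500954606590075298958084552678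2416363438123656275957246511649073777009135151505077687276362113759032544991377561794867883312662673486712027669225895973042182940723132924126386116166703836300661510952925761136949507301014302173093697833043436722429695848313007846171644584100199479019721227346181397458829572925385328224815835475729657948025687993099606470422770549550861058077294100467173125549023415162389263123387630899279552598209459834537513836335408686583358231679622669680894938441835526096270560706108294561171089685195038152624353665202464453555912554215619574767483758776615814948736707993879639976403429394612049637894790894925307227196980818014510767340543122074588183676099635241790073546646898404159298527984428210217212010200980282794977594084610583754545172058127683547045370525717558274549056441184882707412053196457470485550000360764572662480233258003248368411282111123253381660103789190368041219968647659085314079859714586563282395938386940022567156919905795029088249214389619464115221687770802263099914204853985877395616889947830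9038052044452446731053111614973511583389007897698291837384542341556144783212764389221042904371271698356324728668398896833933959511096005518572782546007527567273950297067622143973187225568080995040514561365580140244281808935289010115568624443639736531406900192766576777410334809953454550145682864050016620304695111468534333879270219298904141420681687276063251744154970186294942189454959576255047346521913588527960943986839220593656973488985075302064170296353980565962491200363077291066048010343793380220336655581109387088608737455108290733821976581032638904306536615901052935539787520319124784783164290240098658901545828611069212595160932129511069013174183194854445114356842704606306176882149503612215844789573795509931221229127823139883659455714826709253333214917345526554979564252570963286586153306346182314563927424797162026546716876879962952926700977281861482825815573086565879899820364288269164013661104252710978031005106464318009445926448055809891629686291548021922569333895770362794705213207958547844028697547334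5607099124778592443335797679673006426570375288749516916542076661421757414888802202659655407370274423964978344423332295173627567014455537747376630183154125932143635591461993400403915509342506558040282214313842126570240210509512167923880816933229828790451219470887254059494479944082835178629073775980686328097161044451852380677929116328745895516014717109425492765518590279520518580417448547148459263783106027542984935349222979856857488055546433212142938737844451153948928684480681189393413419014691616535309550320721267667322508223707931133270753340123033091131708201859706039216704640798187720308452019277368174284342136023935169060958864686935754217194097103178435534168417769964358594679466746467779528057895144099458866857133930601552947835163284462338577904525807100713203057913613153048513998428660205043843515084222917045303483738950889414205979532638821776087253762965234030889532561538081698955943262764213837622027066998073840852740850566886241794105544834190588075575052168270081635506727685200856599438274192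7447625680809898041782143774771642391941025666926219268415416732918038805403549060522067655193624593511276081502125704861807567332659406297824973179384967502274132116670009504223947639349323499337466369920227780598018323340183404016506264113327430476912301736338889282730024123037315819262011349592220179599150691438761690504241157637973700665661715744210663468225751924817711847080167782429150913660998596603518666433630900680188554509122227155699299552280129726723321053826922532800857049725610782669243127990143230444922028303793782833769366622937567279116370583662463732580118525216679423469447809253327967023647038373416052542882386258426665231161235597192302986452072355273696558682520805922974277412653173710372939724899160799924894657451468224734972235867073252034551920610192312228536328072847746621515554641799242464796157852338885105281639227046008796885146406809437042961108653046420505782392349883022924876655114690947965070354201958444836237417933307234902240390801836805123915905015342414864113788337246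4833239568907831296531195139203318406464628271048283311494947470474208475359568573801755892120210198009073439056333290911279654275637307618773707060334218903012719833865341580782073835801842900940489036864449706169964446689235896527047986445979542486251759864711015986142834407713937783508931699495284359932058538360640215922412933862477203162396731410962272779402943267786042790344167478673020314403170096794583587816267638850354862003996944090527466423214297294280050201741598106883828378465227690531290515889319370778797736169399542682639905519309381677835648753893900933355790090914908725839077953202290177454123234343874251466930427704281518629565211817759081603704974094674710039559909407438298910865965707837755527305482616386214675585600850258221066453687039970830965639783300367096598346889711254611747752393187307436872590320054771053461070912849897510980465292446014202365076571626720204337346955972347723441170353289838000466485474003547574666702386729541943764179867907487739202317538519296261577354208639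4631422147164215302006957233940880712733401851512133430019725886162884268844723921345518315222385517324283841420711776133704258259875645202427120493426694375389478919527624419068142458243390936647742817167511970142141462183876568400413435001746649380160329343411012561452180504878970295797465676849951036218724819891079279477169525859703504528056418393216314542680840307040005726970507893218441953540711450087621269037536412307091055543185237144416282987429933216684258465004926505223698347131925693622690752672863421200472116686300270757232102041739516698318742171531581165031815613200218045077675712227266891298395089266047427952338902009034090164317954132576081021782818483320801964701266481547066609367450309236680066001952529549625299177810274005123895847089500873474336604591130387110153967424675473580161629795883475166016542425151656225045664972851830983390602202078809525236039140773477897440381458322948659881803809809220216766585646289310802430350270844216165250715394712689301834453673844344046683429141232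2230839355236551679415768341070126128838499489160669440556170297620694990084417475787109550006507478259388099603988248727939726448209827704271894230485668105191003975970072131156713186270177494411043116763121338197254627589053350538552231374684555933511940280017697551878832099135194358983438870754811749335928283752459992576718963841649326357724072693066651127894320218925671897258870163352698183845334146721144108634042699197442570860210170694421695946067858871974470596370316336599861313178513678378375598120388541121226505432216199002033324468451854719591706596084091392552668660702732222500491484895941584033210979862370127192796956494903014717821081392623598492501507480098518475987790606358865667088906817025932597651963709640794661686336764569674069039594852868855974254797152249141218471358702601034155172841142552446709760668527281319162209058603311188790409847387490307526407307009736035793218590924988609092030341423887044598300775012929245946445940208787591785051191140498387240656713424054682312602190001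9773638713149799155714090280468462404268581218485347486072796815198666628040382204079091802296832137986492224669246018267043989782230858012433239852606311628382633671777127200254801392476150130921241685530691402000193418354100347109327517058492812519776712114002953207812702147170603857824141350833611156415865147822854982642983220907068663119939490994900492845477615412916785750571190238125928799562905736864615570959105632018841005064462514964230464140121662070817981125481350686222046919272875594190956303476890035867520032102962555631445097721390166223114778555479855672320665241597866236241897051291559061082099548299953395019090431171556212051056535995185687953408)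

noncomputable def rc39 : Nat := (nat_lit 378523140381368137656615469757050821527206533071922695340035239423886331696578325479085622203477175396642058316913320015535490449342269831991399335741654882565674035227640541917337595930436026836402978771188398439779125561307644706862727045956702447529884192910259388463479677808164572628816503540919488026403900633065705839907219699497010010053506192034307516191440507061032059086179792945553816035405002934156817335173929877686039071883855779358566063577185301368834354731265195251966339704201510562123993619557239420643805728546560280449325861822125103686237989805853629694485912994432251463278789411759280136608012027275557464856086850593006908340381350419258755656091269646896642705469139554578006907382295236406876458088269512728118566220417342715858477084353271920148642396210791322328714584725186207315070265762189277960893456269804023132066735468620014275158367294330797659546475880071649190162869691156519948876211884838112494261137172068514601645281244424191396817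8383483213093749015297937969771659830030790854193205494917076376308393556580876577450787770083570712411996937227180444316619973426329480777774072410764908613319856781743699244892959753355135810941205703635206651778137393444818976303844868823519652133253175903882853328273607398254665034659198292808105946684066552172348630115610120486404193078787461722875444093083305551266986379230260140717696019331347923073991364438432974802760949161747328278500513424502418910254197694556182402500281897293979788505090442926754077962750151326899661032410467892453235023267984355410364479760482561942397548268917958013246036060932463077978188082279383563145756321753168732142942105312379924329056380661996107399608112810292780052666536615053030595178102733046330807062026624023624571736931294624497655100277778181948208595739343431387406526764718840168096199980077817915637164941469435524267158830094539538278982128830023699340028992380180157554572210454361900735691384426791461420988662695200024030960858569406211059346776979551198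1575874382532830237931342298040826969135499312274952314691470545544747099686663118959699031623469065602867278222871802751265457582594256161761985941076775805288843365106645626007110073662622827358020298317712136450219756711467563191636465221260701382997819547804805105917404796839225828596183707480957856846399766194710096135449937847987149420880833257203594432343719238011714421639424064617326276503026724136661080440546376460118031514372605003771543728388126253002686716794343174666486371888949600856565169400198941083964802173337147934725787815954368442252957704950895502074332869052853563178201924731220997569696918625027942194976079255330282754134670170505695389685611940022872625434306181331745378092881000113741620643641736053247903265379192707571706482948691507846875164125693372460144306808574369114348799650430071070298809377812988683733847572754278972284076988680715464800494961607425862737917058036998766351844985001439912597081835000289530557477149731242537155634046738890315787604820833267955849039448477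7680187668780996595605186057499035902197039645221654444442369090296322881974813542930208535258066512768286049878709146752704485716555268036327645672330130925527081623224387135533278292379702164050531640727317724367341587433704027932660726671004350700856159123776495789891742167731243918080977865136896312072382268382290359484620284750510723752277033124753733457439687433013093803443894634597449448213251195535835187105840451699076562631358862259653947964069875367799654410909321502729086827376277870270701072935826503120674193210268223026166168255490791495653218876226741711892520029717076341263995674705030478422484532329331179765823602630500942571620317015854250403195158680526724268603832395524063786942056685312785228396277536017739467837107537703493399063949031550588667068027347744197241562541487922331213796440095685604321214581873993329455001001768452820689064155466281804139369929754960911649022672312057677764418179073898820697987673489598817357591663334697881021951865668248239047916781784275869395728588922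2516769143965957808000334857530834998546743415056486280958445129590291071854896541963913338424645536535379945584722300160412291057077818037220275642224300887575986023116609724194827331676408146645676487116273144027932164380242102203306540121485348770330472973488746341507858284141856003150346257119115981686211234214705697677911796951696928071493474105565036832465487462449171034953072971536891968401672783318918546082568269534207162079662026577926775410060111804516108954818266973015751733159419352996893154909190279905057779514658034226341908039945240514807864771962872499552512444809395013615515907235478894764363439998900910869087751124290779402540445331844525042716924395209219380035044432421979932241830208729009769297209028893496580172741110952600744001007043721365639612328193748426480925777774355569836553462611754068305342416564590546359476497793044233921083023932676562779677701566248784116834972965013847567590228755297088066531649852902643748330842491183854507158674395957370805349338632717304320037777326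2850207498088520035701766787268654425921143482819907834412543812864339038740631113210910616757224626488216176004974695977680585509643725316724786612865827890478286620286734496025111109915576928850291130919293886365823134064536479100127994211269350325644292639134021373615096790954228896933171152603269417421663596038040191816665130751290235073223810858290005956706812740166764677684993959228630258535172713363789345826052375305458396139552846542986913324393419982131166055243166050250809221429582549380809413056006242082770999089525704969530709519119959212205202295386342801241846420916623025592181536770197663464385504847174682075119431554062580312454292362189522704729622913202327733917824645196231053265838216063823625837237424149422776213733239240352571142932149491703137471424791393564385278726113239609244187899119914683661159445908795629333251794502938086990467934625450520123042368952329071283485557886685682788125073732816035867089313492441853429538896030188314399912975999141049124184192057981635058498508288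8776570350360617540903192554099820974963208857321330040806115949340307322165795962655315478891680764220669790582554166483256389574248015523086447656318391880281486516803565236882018531912278658067617331281784163130213233053884183557357649981033105336565529871526371167425012912976391348713205290662769690465559268408547970901475905226583612019744903133537048461731014833286611286244893416478983442940599375491507197115478732289906833648404890495904119376170532621190970841857927772692326624249824551744786714697879851677109437268221602726896114665127604703843183257439255880617728753892466539188610586052192247274919407339359749450418692492538649709862936356331194183905462647598223052022977041906873826141939299341479895785459272356479039233762315844367263596880450834543789356475859672271000684406321895557236907247963708630970966401318212571885300730455568496786951541603571470422733153360170004393625991812394369574318590750975863225135134310350107788435614191744807623338311881711916227625869944240157828456288463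7876293702161718143267915568205047972456492644438347712973233874207365118292289541513565323099692620702142826731143473601293044033824381043603995179735674880221709797827283452650325182737543885718631447524617082316294168160448361663403751537027032321413203919582929235421407742683356726793784964141415017808626706694509954166467507691417308793512081531801639669218716629938868019855028081594103591901422436240384174538397191907097403541042898012657598925094592599801174935171285430533073535569972787608335871823535096309726842735916239679128009821092075250492172175794780345827523499233215982649541204461742904486357332120522403784125194649308981915356590979824014444101811180952137746348274547770300293175240605221809707756796543228414489318588908702791853180758613969542901282247223694970272180407855076286401544291935707717068640546596500878627591926103950921291213649012109010818930599380774021065311490974610799780367232174500551277381657475310294558904051278116565225532175017480918469148406608754761936616287034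6766070540764846882719856989349765800683851217303726084542366082634966248391510765545392143565840712493542555060350246627678539969934778978524014990333165945480211985747560780026038834461429969625895808625025779662822067187752550118105291829486362273012966236744814628003759666682984771894529849681630409489508446203367376013061904940662243509293532789925441036158903011913354297600206083963906585211652048343609502579413819580788830504031315933706510940590368086331104050633740698413460277474554134735884129180574859908742210818548351495559647005003202646773029083855506132379914368207315179694106648398051408604632678619068899684506142557356094948074050591635150228137354677769133399416162830595745600675658399567173337700984215995716977675719698324208106398428408284211585323894086953828590995645702849849826080011728607932169837319194979323416642686259785364792109322092786790044175268541279416203786311528837790020260015685249960897440670294327883347013453388626532230024247996487484119626092391502710713345965912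8984688376631177946521790361855234807040472352098863507696186450109575353063588717269173449458043999770069656102057903007746946173204908538206762360460159966965645162286260898073444040566039052803878282808264092804405388995673076395377641643951406526974087254300392587660325546292178711115917757592170614969565833669051561642301098881629296375205798346304069794323584190305728237030069595501086489948000842633848166009467531880884128867442006592922916518317771274181986429520221422301666283374999520119470245566355630437786241910553283521683896287165604397334631843546438895656673839855318328187969301330831150696131244456912310144647165559344824875814360131531525689026550894536839328774648259324538780937403780807790470162901834178444130520687958517718244781280955924216076206041374109727113756096349364825353420756754439270063896935178093589425753626909369852722327619048113060272786194652684248768170067314762229119844340704537983594845699659478738578232576249673368932768178941213959498194696154810454316079476302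1541100050486737266957993478425611063969820335155421616724793959344030508594639862596939411049079682041785884725211040894768908020152221347177015232979140079403946445724030773678333719090876976527261491017083857573709329101344389673019201656938925323953436491008937563300486619377039464216803193494178502841843589157599905109427644153408895487522940881372822699784074924284170132351173543809013695172354273299709699737119612079107253682584689636373298569533226387677200888539673497229214903617724737331822985488203216074986079423609649551742885219115796185766442385104620535262951512541434187102268493739151402534385879738232600633448454786605054516315599735848661056829851427588600898903084217813730365573920742491411084746531286901380498237777246189221975168386103642530434841786699275713658651395913263998047628047179134220282240003907203642635476244387251726209662635576877664705583478010771222769370408691439750384078497521198073360912654625064835438767741383297964213176841679210759432968900990572204026533138004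1231197183114942161466267231940604043843356190565575825511895517254156659110514168575137458507081340596539549240994118478704871971074589490526256010924717460694041887774587168061923577359596811001007247079672410371747738816507968541563103973846086188123368585520549026942894707823524145314614168952953366197483152116219087533815328696901047651767268415287179096837793077416958499299825851675832014409531634100100204986675136311522807420274349111638359398669741467379170857059475239190619134195653466386077837220725014752528436703198246014140276207675310287781538283417736520214364198138032272067327518764655765883889849293384767496949438161624373949239975485711354870757390882189836723994319105705973442234228616110390687507195454677517577443935311074106700472194725179940375503778669426980039762046116924880008565436277854460548090935267095368754667388019159791349125940165497053785883838692376441377279086122746563705903355884669347225507585125468840823235071791322696952222146402892915589324614347857529559721576364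0854031174112312164081430370985014129062057869258874802793247286162489906395359768595996754388575298353460481317480583379493793105403211154767906927278488675041669426966212127042920154921726004989522268533319992523694374054774302402109673308901562394341694517657520021958726802301243546252084623346416278096622254249034401822820286742325979020858614737961156095669536685643738629191685873540270165595760405248955174934479281884450905997391057030413698729148998857568197878825177049450426212537743261598817875752989499665571620202536071783538265478893458396585275565307430997965045065070099934598241745858885045121409529949176117539391421712441187574731824112075164149780793833373440015848221874513605780073175456490988795654112187902073853724102664912440732244934179156973563510346276861132435611383933081328975614379622291626314089676486285533956190744058773104765347990858530850424087369324512305608485150929466451096033854088082303397695542464919283205275855848033978615852693542606485370308372716584803164407740040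9094246347206961570358106934364812782412314027014718738530471105122337639317742040798286575378492240119605961081445674416058631131894679113807270822334468839650068851872008177445932691926864500908538832646305866244854731320010847752734263822571087463359564701927894077563501033985669867876887411805699934062561751685607531442269489428915617876228967603208655769978285223980357353850983941234168474977476350785339018998050213070818857438229408967069749988340731478443140868784960694518598577247697463607480660254813608734066438343287190224478219355918052580688798709757937614307153403686155153170340519013540783224635136581567891346739119125310016030980046463756725984261197252696559123431921207413492756588633913328227513448120859031178814714042574318647187549674255657627133465922103311739400732246091822326715150646593534514070611126184319675071459221201388944041559311033520980588749669053859870223644423464324972497765507879572428869773449581822911039968888766173596067942516020434302644179704562560615311797164816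0936388313412192445043680636478754003951476322208911245635292246213147208115301134085464029637722558310306855099408450350620883342950880702551527402350131028884875183147271704025181591116927301490474763575573528920617727976037600042735783271337605338958811674980359311472891856775002441651050674584268646823312970627728186392892689094784174348919783630119299989072293604207705796702076330220737645341389899609553946162783529082593428169829558184892767238956727429523388678249396734135815741755617519184901331564608762804503106989000697011039817684136984849452766339682991268231342324310362559589772534317491584743117011726567302846001544366304017945474775377436646189954316480076557207400215957043003120752462685866083864125396314685691288758178509798344066912528124752584586431659622871777006198602062878897038030568469144725486842337221738808271283985534034661359601174202791684362078146735193234898392251805391940115602551150200518594595564938046810766478554956021676927314452345117150167857245886109017904893233077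5349780033307240220577618925082416759654941553952889652468108420790709097068293568374579224569808891987269591238160391597471308370986489517615090952554461881934227977527672345037119175663013526072359333757499390778042113361906072468278123391977420974251956203286404105750658636105838347563164404016704820040638370479608990855074586998370824610544239435300618937439686455307387325254107386146215353600799704829252531050783223949763730662753890465373521140455000710277361046635486557501978849621396378151155389908447991511050427046336362012237201212476641789708512919536707213536564422075562946041815743921785991023084213018644419883838349133221065384785505182309570514195144193212765625551634151951443478770850833430589124885291011203113060473137486888982931384975881849857367030499616134453035862865109139568991993568143688044299547911174677411148320195063741338639787836858918707909750666048670604536164956164962864012883015679813357099121241127469156323331012160028335945714053512447095473035021708860458537553602547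5255323081087041178933133385459413111918656005866577563814263543800465550891251604610225380367623382390155567650835542947228003303795387398105207541848274197255412076355286814214085853492592460822819439822492055943831915390682220605138966525793466654060922492130674177415278480744836519364705076256101263181606635496680659615972284217424147338563470313849212438281590885762172162052810741831357568444981897044527371600949859826042013430259313537441051759858234737068899796818075234887575395875477639335360139223846688506760061924807787729116557398723379446829127319276167603988773543035378758913881116556890034072579146810640460348850372190701736343238106188530507896679152144623313482509497786990208500501450172217843806146048227440196007879380958862095146952659112087087519875272678690975631818366138714859622892810455510931343227671116701942170408408946260945162436209557385606566770816500331984115598314755096298748261580907785836569592372922439166445016613559715769384711043072551258813161656974178082917705124841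7909854043081223551158463142134324903873780758334055452425959088196812371059794747590156926700623988392038777688311980834497270338077943753825727994390704296903357683145749859715754540657685325316500985656819976633085831523008658921807455877016434240991617881664559139448001964327921105599701978080853061580489710842626538694692042047962055456450978834674693536115256421884445068050955085686530748340698801623068055875692469853473503152749061976901342586393413161032149273907766667830187267492360204081561632922356848811165392293245364967837693176452201582545922094624351451704346195902239431354336114278628213025213303076987118740577813533839347726937286382149286494208)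

noncomputable def rc40 : Nat := (nat_lit 379022801902260622342072318647769114006409625243421043950872254093575408600132651956702679552844766852554537188356861246495222033371130513688965490275293382215534945861230564277717931788632735679897177576136233052339321337713983687888243971013206339868002788320570688818117484805472212007165404533767389195806775870262861076097576135597988313640842791095106151149288236041632177007714069156301500731343372597623292684834396241843349488731251548682814487462454284164240373666026586530273154999484576472119983892425064150760114081470726049152881126386771590729241491593389593375558767328532430825562267078790024974708823535735197101030165538570461803139866330514840170778628553804297794810965309152409736605177100293047178184158257402968419685701529466832737997532973959597404578526426959151393556289054352890341085839689416537896516550258775890077507575742474259180561375755104878054904665057314077153961531979726808733901656334860538727139314443338464618998138477405330712492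8437620646920272146154084545899735596697053442054337323425831323167722318102368141976916654601592334865698682462955848521970613617815161715322447045709826234408037481183619656668543007898860372872530645927577761528742597848161303160037813784127994084450191816503495369282613957686437886766649765230450686101131053229264927312286431825625868355151625458985167496612067702325289957163198981285470944983115654455005251997473775746142659595692193039048115826689078133490683292378491012911399526642676072446085848757031360361053311204324724775237760846381667553791260421725588276698292386925975521747228422821109263319342599377955176561372736556485111197224339660425130691137456500149435946887309522430205381656564696116949268799798711050342792797054686642974130968000700555629430340732743699047948672426605779198367953043763617149470815712951145113756594838814226884852744587961059447745116414429806744968620149344634213682335994828430511922956641409108411908869428335357208585254931419998185366224740337255177436888602718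2708370799952632580721219589665790608364933438761932570227108153668149671768017709669121141336033671753950463093912101041256515124766641056422769963987889221394158764451359303575454523318926834344814450930620504870287776923913722970119635994389970453545313241746686928487542494668636878590218859904848538155165825913990686430362865692265591211497689697148496002398150299359067243699916903606561377752295844602857307656562317730449001264785719814333616722095365220563152526598171310830527171485028282077641446456708390360335426748763284076778288389124669699018442894772037337755451911053557099087765854401309804839872257212351900965303910196491512942585117678133787231490765680196420429779296555675353565838425373676484771224962616842401441544180008094053309118401477795771076785383214940934530552302931181790757950880594011990854044688734140192670542954808418049586064901723767222732001650654359498310871483394943490649546994506875740265117787547021901995989090711371974464659446144919683016344752003138083762018172018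2632749874760042886967492698630275037125929478257355180839680769885748343351624424497330017471928103629296605494235070802596083532721209226140379816592736906886580350972738606563028711633886715500947715215541519662365425387286721775006673293939010140392922180776596063622592269503456294616634124176044460739432743913460544519430289946873341181968821603380559411446226159727374145399471128927225932640408225536620217168267023507018271284601636580001323478923291925847302583500847505770564867030441113351408180398837819378256473188639349384528591141803288172392257251260844217987307550875173558812249117380684442922973778706315805046150104077015971253764172959613567913519442708681355144299892539927558997109153176063029589253974543068829861400438913838683296786917711874562915235618187967055291518590822878870312372672866655479717192185382141093242293603990937236281311839513880497746678739984312053568335335812828023349396256829450664968179920658891796882522784064794981000264905058340115391352356483189917669487520620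3995243994366850097646846920746891764216370118715218456645139972730319840832646358263949144941871937180828137813291086133161785723255118476619941212946283398822171555244834510956084183979245794660751785928726013464483078066608014070447833241413378217282215815383378120677264854713848585185981802802347754965281433229269063077807519295006142225403980156178103049799958501153059832801791803386647236072274851203155480432684972655978596550766582319411156227839142864532237301576275141314073651068326658846890567970896528522479894603555518236219504941764697074827893792929158072201001909906277010224237363618724215122152492063875906760275507388477133555137089321832394844420729206351102685218966920936129514789829514701420038175036446921712457186983680867106976800066843910229082732427877991850853135868445581364413501641050256427418314880279222316377883764756773514393002316348367769665032802444949377161809126072341475686531238370787557464806822645360889358804257425613046054672180703221278168724854753503216558352380109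6442724284632582599200818263196301850352142141672326530561372119114505494697098908691038076975014273286549659375780303901519039968816189728191340751708208609477829563559207046584103006947516771057589607254263139849315370533962000377130616017863411288897028715940746038892501962874608175570397100356897785357746050514499896567638228359890066704457852415074777304567974739970035865934938940710830655490498605316471426850252459751992845458984345275254615111190700357816194534657304575134908579804080131643110651948241367156463181206861642155173141308655175705249110712145231543689167104116560770289431011071956747223274130529978228117412798140671282130653588362893187514800342825100707805478895269775104834642132980381991395010976940099058184571538590907892282493502724563099856912129675208603182245366548191367802866394224658725816653632846935839861417790660555536012139623161675632244178513131205836679894969233699663148555492641526476751621710132387007385471197279440686413840075991443479007406166721003680252596536068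5177533982577607095147607278478874986853129421725700193018073317826747188938563826090777685698590761740509009045803964439964680913157479574747326611833820510884675157942539030574473282587626466128077753662772315649739567690392844529844144086673840779700748455579208163750962228820196824244607292139822172224877323157559385537991111745171958829920095379701411687558646443978912291727268348324563400933305013779393877084329456873096713861890490664826389858524259389872194552021432326643294990064308425143073609365579517443754150948600914648047676625514290372668361820549031842203732788894530770216606264340852312303601374738564881638480122341060460104252911348213382854035086769316370537026502538591570030862174563443838339094587437555488660440283636172016100408345155102928545284530511924127055771224685508510913280907010681366275889066869172046443028968346643947914459546660395021852989475024856957631047347607931529723161516613959081557940566943456972710580631642343386940449477054120433990429234855662852810054192976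0561532496306708035974444974356271819579616395638109584649295361502820144471343708067224505162123718586659037807301088729351536860290127117852976394652127287012983834896939934981279123423282826667667102200027803812356247648391180125477751059519654099406904608397379288910463808391976498339661821309497758976452351866108546356457034534530545174002749077088330296148992853139276205976617390646475677649430184535197471921722486594676093381243364709694197469811026450104029501646544233550576960511068114825058605151278747662112031104358099424101854999872806265697219153272457646910656068401540285300736680702532408790026683036100662203997505909666450769882735882232757129911934051332291200414035552279091455839218929525992316700079458085768946644750476545815208189085451522429939261327967200524173097610353951173163757328232272112585664418660566177104645410663934778727074473601899812808522381663387209184078214935583131151696984584692843238897044487638865687744034942865041443176189048413804379071203997625990451039692902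5305486550045877080086032435696490096207295748685988959972107729452765532777176701660292236116546621091820633555351375829787380020005461112032989925060773621519910575484300338688642613748658154009918016528738127917558747151617044134436884472251182462734042368442960573713786823230649492634227224784448004853192809295070419923589124275912744901863979304908251076362622599002411148567732002173758439678757554534268868689943693211578964177328605811191259862754117682350915911060920439121016014256301224040977657542082940928071265845000022836698011754587844120417977667697521808522500557500793165648055433207958221188973923803934184677828985944876706610876012731195053774603771104718243316175758090463751807791525989859735054092764080834389886242673781132199923763888925340021638545029154823596196687127480250928931913253430608675554557958388523285406736722564603277742514853800730083459559727073206658861353577622108044710490238082144769901590476137591155826827852355077136721219802843008679925442133423924643832796247998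0056949277054145780077935269043544434742918255953129561027008990335773165354695398488692814584725823657943607873081163298761389411457373191257126091538490137011339434570207300401763741073462769522769089596012673506264274727965694223715659072936878808830467790980967144053596733844346911015527659440049414442264621473594349297048506214847311061340007579318128802702207626887974752253003570390778795317869028276666278181098993357211619846946740595287926334411258771377841851383596744616041284376616525557573427759208108875850423015217642078702793323029314693262179434832950031478985922720511054756149735110114761827610275442697596318003226474888123488100246471934224930874783918924523365204507289075628879503958840344495194610602393296136991999473431306493113535589658868189207033381737689902648581268691446355937941286870708822475353345193858178809084434007864051672736348372342924680841488664482505473618368471291396190705769551223588005590803493711890299702304281718353444273918761412528539133870122627109704660217516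8472583585534096082171809736583812669113399659291935336930304742436113569081766513967232458975485952997676912433292613132072484633029532159768016532394978191697870143878133632091025595794419298168951476820767511395287119659705067912811715657273482805473540288454038423568399600997095463544267266437782073114681812900932615433349160298765426304647046301401286995266499208725687880771104810917275116754727312346922972737193606887905896608525661455439178810024590180013647779405561515818256778220013394659443334763236997875887549142503031344301729796393559623911413322359610063917704735734738018604400428219496076729278069722527415125730104826997059473873973015781754291969446910699316054088582781475595623981939479689551727237505085330079685503436515080391415725687114932918253522541305305346835135768790007643022285808713268412736008018346513676600342678604233720619624441398111876808942000033535818344750470677363508622137231691313421875213734725754227388751144112811714122522493776448969042343609647800099029042701511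6917786867023066516970787987123687492108209392575552466375015535415980573418719133985047727219110241340450850406282965487096730176031591574895125075507918498035694604079052084919383088522250188012670275042863629700870284216982809067816478347303813996297926332745107853684622731519650149664406865061213260833374063648767439929842668711099281292281680242825922826911714021835025378796527777804270007080776172348218711208199720000493630429258528793707798865615160660360626208849590759972412810515372310770150697624488239057313674452879902613742584389166682254437625130638466220351635392208424521524756730512019126260071604470040771265888624495228819149781425750856308664742979664933036789040903098246118650674035636803300542772598651104759401368797919447005313988424116047044113107193895201192755269230044440090354263440222878371136147388572283670038016126648077287065066281624830440169165899160408029752483095146506758077229113534926053589029054325738764746100449532057040444212172943847292770536844795717012583809992620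7711385157973689347526602185522508677135566624398747339763535527145654481895804861139748509599631246177136484995122195495317019076416434486434633884749793524749504543114653043638703073259325291553784847844271205283858187570627763798609441804779282342708197511061922758488523617843723187270807688783146739941845154119092864674846958133301700138951640287417970027567840077682361077051907568131032628891910367970527833811995868497863749537791072197720585441155847360826303044460745213412578057288963543116082881963573371788798725511392710225468944492933497165035488418499768885100906021116711878786765590062755983813815020580083843034602544320796197756604734943280169835128928705564147046304582835277818332315303831747850287152967251704159272672698110729499655491312588886007378513500816743208659681702658534227069679748148268289039411688396102775288350115054906336442985086445375702743011791551890906136958694305558841672485066364931301389975081083482379416383972573909495630384767218420545225270747392157202666571934808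6135809961887627775293954823926722012577298163255936705950223337582991552226943732692656860098881828001950568622188321709224970993486012110066200452868243967305178909152109088655040649836894096895782019246913465664502002580959742040088642945674165312193362143687997624844196296676098434986715008273575320261847010694165375041581325169005763173908350119876310381049143290631448657332788486886045694095322432160540164749131861857930752831645727563064082859612710971588296599854195499354603094761903547013485425268859258750792354300470203507030733217236824109985931793386745828456072677814170468071478836289492828984915464661674162361657994063928907064543092524545050412792579444758689340381239976254829665373601012539834005879030056624044021516750507735153621201407210139129858804876163231288936363453830740234808317312834074499781306190878256468573779432794924738802468664087302682750087505897201843439221863786890145501406603382487816742823172781050051376377396691480777572390657438928313638664735823572309969538539597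8726493316140041603647806799991203459661072605005879659599791090130561801209494848936635944557359383228641960070364591622728090356883836153568817589670850312432304873581768843303272748431406414955446558585870721534667961668613651881171657599588715950408140978138924484390108778796552978476822245085191089994612152039434439956151489765155245391808768307401696204820208221911926527133250848736021237759684742294720727331731867560719276396713414317535838138509037315228767363917555504864498861535550870087766250980946166746066203848868899954529344998668967786692982557071520851636654677175503873740029844635153855362880829892104665167837266500592048573237836438626103268969156581976209385607914487527999672227648948482204405411720923653099174182306339845756751869826970190494289511753647907912567957234253779254331851845720169355853534348028695871455817334613730514534369412902891590186462717663557877882785266417739035680742878529059577487880535685985599956979999251181283614667864832340857684369271226302457248456160801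9102676452059268970582090814767938264857483114728749106568157736646604833136574947842588322180527059705322079456930337309017906197320329469449853412916928907408957482902729005388204387393387079965555953521495163911974112519722727463241938419591409303525234811527954436474463539652060988780616662978709807954748428315473598118768077973056423941124450800370426205425340281366607094571885353036201762438152946561397312042389527838408692192180787817449326229342488234802964156467785155491620138265133153812502225236838929253026660522754304948236269132983573388820854307581626830459292014002471979273143166977325523936867475944316957606012403507304705122370026227064201272261791680235646657723874116748659682276348712663544900197519157652465125013718085919584854720426158172886882082711100884843301698079170079286554155075870833273218034702342438995995115212715307520547812041714698123777557065476739514220060507189777038040480555876632054281469467514014835897682981398626126210256445366423942088154220040176428324392454929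5541027133388952677871067082298498466422068250665963809134271538833125234949309400289877317576360362298320627891577338407845000791251906369506175143807518063042240720632365390423556636759170322725727666695501842131117898919357578113124951361953860079268411676247457025196746697443265119092207595739120917561873971324884364563829728086966739942129285277116140502053958736941414525320081955661651114434354099721752701679774674405707514969690642220455798902262431295540446137125265535358550817295831016726411266715547785211927191687078450051539925850770003535535147536368421652884908866637747156615799821215253193681894028752567276876362855531251739163722096605032540056693538447459039403749441355537752955955223139119464339744014887730332437059677986543013947182046605928835816309756610542625678592446969310177356986523127715778287661169994920408226579230380018698901260014174122622705800423396077260549851376441984462219482080111826321439744811126605150302284370868079011402004936267801594608974960230560494948951781962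9775369433364288473584700592349048940060711791165131084881395077614423417962007824428512150051059175713343008217088942235378885734911611459292545167180615503319681156254296369402592791479775727571351582375006091339812587705539389616232348010247587922582126364104235175087222000205760841475072337590107491418446643816673608281972317159380969004810005017112386539449558309755318762758532215008174171539576259214205091060026428545566526709680511872747349157582580401922479090591379432836014864685052628473160400808361891065832084605372367553051262855334630001556879172026657733385564983333586306166284446006647778828643898798664121305502312003728789408686367526978351792128)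

noncomputable def rc41 : Nat := (nat_lit 379516842923410284762487691768993092786506338316216172135573987095845868242935665411137767841291695020237003396184131064166673027547303870740078998136204416631292510789485754902041271766309497386499129913038884556179519032043181031951914745785716891278405201022057749218252447388479989016704334024205639996116890440748490289499979864573691124754674472477124378942641185082832536708220196213290335702971887893236331338364195127997699007313874056281215132537509892220791003418637249765682562271610528718721674116039577378232049061946564507060986795916241851266523938014601147988652067377330462290725608084348158480689518241327253553568311871213783867964065424277573603584117352592173501433090165862534296424655002456072938677198622566579795060415595479769682848703266438135618959347366533040509004203728913665275169781250141881773179219310768685480986689722751855490256049686381639137816323013869298883590995950779152268160734762171103474375119381774509306528115461745183722542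0221530691796402082819733655402236678038152833934092582203975872351608627148502854253397662932935068342409949069595939182417789413966735186456146095877165024343574795021771139504469044559987938374056307572769813045943545577490259724465103907099887293940099898517460762037046875499322806322339066275406040819293584008637392223074121277715376724164698207428473554513937817706364578533290664563372804756148610372608960837785378505020034932210382449015028362328398806398509060795258699626913572967772711371476973869252532315920369586590938073718177874261210100152095403658111563375323705969441372718420040412416684877431458315921729861509909462600599609457743072274955848953672835460278619407632772558218063914204050511618333656214941041655628176228840977630921857609325308574604483456041288229746992361072064730638016730238097040307914168993964725548849181984285606739084815606319057339987597405539104253467403086279277421741265247356321003003931120616463423391459349128463588999268679585909443239663398670685164805449208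3104307761345287890245969349993998265971433543327588717169033805352336273801499046092999042516087737444158627097651318192345009893435510722324607228963646732644298026023845785494473794554205638209772759686373201658920767593056091929799194884065962698973565263530962301194101880887311538758326311271673960605919342634996196856152624014397641819817123356400814390605932849104398860767923090620977743589717287455430950987414534183819867603306750260269433606797504498968868508533128166384763293158571334076144288290615560846336893365411874895791239274205577922164050369032375533747836205562772587564308670472872317955559216499587606278312721285742327751540407784721417484585103357019532625112650271237271346500782935843969879799096876167300763888070557188287855580777718373937787447716618345724512595510858641778496683504350808987900690670932386413877458985651358473306158349747735311561532849153543670834736063144986948090447138561993337029981497321944743375969360669025758083135774949168509414443244810421191988611243240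1151586240652478163845160187115842496349360364870684639333706781854822374643024806359873313667311142109095198679013916301929017078023797942803836169266493006196294362878628815118509371641431659683316687648419730006605188317078804375567604262575464717859898123456830175499078370070570009575584958068788415007328624671392964342240795962897270401042510824019758998107144455459123339029199118627145872935481779061363028241581889206607995420038624450215796289991415704113890851929246217670113548850021051658410952860697726891723228876757752784745166973861104353185670524313293106797181311900291730027070356578591925016127228672136405062895552547462634865538042590920000831620520636468176702241149033112009014234681841180378106982020933362489290983763220151432244935265914791119415774732417267923127890485312536877787695594052704568263511096327531756806380335359546710469909105731191798411523050955846859475528390716203451759883291064438039395242096124250115182962301247010834425980346042112677318246668970075887280654759763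8070111767771928404682277619760665521901415839691410453143273434557311461044060570225096874222888648109833877855923064066829548293513669726420445229698474341458831722342192452526910973172930310430701225845383279031567547085701547103539399335686776351767885352590467152523126130540566651224801397065617666850874747103974465363323812402604896351510030808808263714480733213371083557742065212539207658033095277376400704383032885177614258850298774133670221126239439778316009739176878552855674312689495683697545914070819509907704274152901059415914396401028633665411258446216219053398664579167229843905174340836375632098976686461487999449474337945298991582333745618506803445588570685955724757957072162298648786133127034772259019513129628238641807666994543430061480508816248777144620663166513178070804504209387307708572198358854728457705395700774174202982979025509347302288200193297215036627123316772103465996525573747701897128025993365407690100658762311327811551196408940935321821486147161877589619243593780241249165090691508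1585700347717088105912950932483687864794741948647567643323693623894982501612987357579843495618117487040237672057106158294662671926573350834170095750118974179778783079880465126519045465334546205299637220259692484921572231298378741891465033564077669875443111463574716833153359071254256904362115867783756633788535708021029686807080368932816732865599558277964925689255081747834645628100542376383447069695962982592151401996490336593469502240604320941502650980641547830886399310180160049377342471235146321625353207686021674559407998518793370479490207708577181816998307055098136172109990697688890453913050716117454181773366599390059175323382703549588714729847411507898025319552526091182976144393206816230077435191123242844762511290011899357626177053851317045203906513669715807307987104018049999064076661689918814317508697413135014648176299899580216580372338106796299666206690065898668902171352990151903348501608293891138889608922185714920747917608895983158217929573870165096242906957362580162766704744422079026664506979898464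9787377895143387603683185090651462794999391916612246700795877146516792805032518849681452525963806630327494315765205084093310578364961004075142496139637412338067196836626720491502390496288253902678222354715630505619414375746337426754373674821192142011495545809370672900456605577642717049730885149533534438832637337730300008298520302832126477754788277584398883007707877309858742163311522902986972367210551789509220821417799201878579936041829282357279934160215266976503169656848039688166344681419878776402063776063228255885699968698487713636173492642120213103990529670287106112259135837149671842227200394097433210832840771243578843243050554392320883561161836120951487177026104896825530651055797475638261596864041327693826794663552524579764231015346009660563377133837475890321181379086402693293074028993023804082987646364254343085623711947724372063998962415624576609132807248236615606468654838616188237828428885749588506460487932050595559400366630584012476702631577183129608445742976240890091780483205123749548313067429278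7208951547557999465676509938185236917057600580918631829594482978019690671921789710396331250251443747836829404487816856015682045513323960545139031984359007874577151130583306106775679582273364867893881875225126465145383465593881080298254120710563561664183440462744034944890406439186167493109805665056638040860718567035566621173973711466507782620840682554199920637720836880737717862652094524123595675491195678876104202558561924985111413803574753126765911992610224689913016433409043805750951194434250077678776422215117860007956655389735408083315203241003037367523724678242605053688924025131279539206522467537175186582723386203507089377004375327652437806173643993215876541935232653040212573199785715338736402255272528968629854479366892894594876313160876891152394366169773052704139263164472895309547729723215255370008791808526344052274752537806447839130085861568997939009879259749345034161025297278875267370012701131194560110907056066980162263587579970067784604248570650191886385961614892968772697897620834577158972628317625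3940606239526046765648393131917784929087643036922862636788989726714992947500945430163935259084935228694405136166487229880955497077451015631224367575863901724747694920041895560442976494149247018835174545574064860402742966253476468470193125933016388651797342330208278039711340383214707859803340389072114879316872259703744162265622148162509845108158269990487402303538555328946876623583022255692029310333557825038849208687284480416849222425089017703288170065402830850570833899821118001127571747981118076911196141033636150871251913382310231867765678125540771663495352542280578947675253301375174836376262656380663652723846576091417593080926371380604542077903202246903818809672559379675490788536625708292570476917794604727690083520013596983507698280019729503147550449366081335528520133324776911112016556487142699203994936306179327896811585331887641972654102161685410281914367545889689336237587610396663345180616975360982220620895309643810928663881977139615639884595216211275147855754753676896230953079951834904915271129452955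6164592810087741393921539379122916384752372338537405932679048641869229379993073975676376839532662411494751109180111253655391026088056999460862914139437967601034332810165013812748700494494026534025663510491876779473215427618530934766466724041752595391461494727559490568970373505108505071649009260156685939385095549032940943940303938817176753836684069158652550048588480515968451005422204984216079103769051853122192116974810649885226185222271297206610788104198399532370078051969513616639851548737573991264918236737299519142246313144675999772122092898607838589793150346171236024135605199172461703066963627749724357794577898607340428595325833090123949805586290987581109958374310069824519229344312282447922886134970220522115723083774104902222831207042343689178997707913087759791422783278684973283157791656791942693687732322546308509811380174903089584631860674505911499901016043930492838023967461304497965712794454704715538038548097589016262477330999396374145472106933668379202115616653874467032265894050949094448855872193378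3948323905348752137286354047894675343075417865818402998776546636725225896884012808961820553384827260658801833446182358153605602825434813931121121338143205713627284014719213170903762226012813932285968066260928446421388797941660188174551571482625887308139133277802784793570264174811780860401341768677142486161192632350164659117716154976393583808383085275447241152359170177541494001370249088878998287813986691158521645918275017579554694474266087005202412992367921722215433110627078282426893840754628421591722654066126784203477957790067027254787462445374865701909027926278054725798111333253604080229324877698813243683011841934606467531060215594287176890368574309717286295251494255053302919656313546687067829870284818322116746894751818291466646149997867818023729725314917865972953952335573804356506678107774652926577129499441747794949297065131495403490051503019546379063160244088800282650911077248479007479659062369663877563042515880409884133616169214994771890554126173648384106590965784791835792463007628390130255770159467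0035978077283470937628795119556362752693992539530115727963037917213797300422510012794475877772850187947121264583532106626925337818408867202193237101958270416569311234976415804716836181761077745582805829146429927372679201797069896286785400315043197687039520071651416629357000371022016682645713829167907762407626867410185633075424238256328502876605790478283732587843229029062406213186307165708372825927394346738533525773161042432650258202366460775136697832065556548885851382016772037931198094433476164401846831327132351962017196858378437223406333649378931673350461028069843423883518946871116991476147187612103067605363689125077359845777117632048351952739046231212650759983713586435111948205622537052860301640698958161826005155208872295997894727118070174293722301144714278813373174399195071248901959329064696874437333715712235108782508789600062362197918546554985285761470828148684154956537961953503540309592302960497336916821549237853508574768786536609356285424977250785322598939063944769169844566475786763978029390977338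6443772710685833967096596506596655924792922172854277865788359031518675105987361996529311462439568646751521182136177385018567520816317780090351069247888235826448732814974740496404288122986590310844023802931152514566833795730746103378603363771670243798936763413882730488838834855588836951463987167411375127213542044556197388171362607339999309766171172375536005979012585063729637411960700562218457613503777502877080258167977023919796003666698995595181711477866866572752385493044109521889239785223772502586468152588885958369507290013309818536071863986206001406700340069254699657482448619052316269778370587707320799291455929338802236873798584634634040868639462645699258239839767948769880907410631762579979707936702009084578415664294757201917819676149726978998647865427849158363471427753608959620230265893895107805701062915630448916081899473938777895339230636784054976487790421207654872075383362029167434753552604889402100414899420444637916014956164244936822493695405091589831660452600115074091791743268275906702147373720283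3707923286390775655979345144056108755757180060065862906036688736320839111314234743413939228086379672284014846028116530350593922939864894969013547843764818609188347059779081677215509848310587744402152042681346278040182428960772940905967025821793909231325369899371058529682525552157233047418052862158852171296340771388361636220461483306472262029566863043385269806426080388079201949249585030899394260650702948050106755815571357343585779922075189379045968903211363970703581037212394270342298888781216843630258767835252806543180325161056577849414305547749998803797454285420447577950413880385709665385610967595589304643419377796245805563268387348057550790297525977425131984926978691819227934637636889774945587746616799849451699533616028287804646801255385075363785715827224780536294295580049991113369350378621843377536516173401397271255226195283658684664907724789359177132098101414550742007165135321179361844476145633467832156424750007070572951965923287642528511029535925065049954028424789171486063607561095717473832832413606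8739933740771261303392454978613691416081036661954471981178695103067898488000834903762196556165694577864388231854026122891574995451872210907935732291584262618125850957517492264816638972536678378877451819120108978881246055665532547019661084413919220607801058177492578152780348896065265763421950956369063692924400769087829526076390714022780245197815466296655677864147035954299042455432145499614556524894959277861562474258884981358193970367813996067736896466996352177812953632682686867338509630608614879121218130256941971848796058672094924761533817018237505681000047991958200296259528529285070272918350482618556414388974748185016526976489581662754963496053941864477585475862296087293836898588344895161995044074403851283919414522359830456537552241654490742390580968308373394452889735844821553217717241611408157549674372667874280253648592819623041557524029785528148970987412894682833480389728839172555503720199130920524325472788985738122130652167020333781783151081685099135319103040606120746517733938747561091836639989113089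5372771595894928991880808035863875179237575427375547702413520587303875746381235269346085295342050172112547619475564851688057164368902005457357605053514773852202894747789483724850539593145548529714688059039666249094581208239203505549053180481816368836126062985026419707001301278877497256446929429540839448445858897556821313795034299587912046172639146691909149687347146377194212516277719737375232660699888903200326466108142971479162765347711218357815619914073746249172364287611195403484316147180537143346516265625957180802962606387042598223672248389215969169308913093950319739129463260292139823091120015737855146076969982590151604263208969431183447656060944410235804138919357925714224668750742416438523779366601448427541222002773009923424424790232560856500371358199831134608571203344171549817993612320987509082412555591157308640513871710584731491506208298262703561389164301507719431905807825195057538925733472066375126114808904448621277740662080918437035185749727305971982391720167151032283474565564245288410615070397740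7295512995498517670865013840862789325938500400058431849408323105236781330755055331475884844879538835152916410551092069763437876506642008829537068362383036405263528380843908322557458830300225366558749847744338037860146492006145806229123115974584045670203509371173787832819873091032775959836176758660256602960648680704397966495431409904915005141034186935278089537766932748251970300333926674171597232607530933754424615641531033921945300340480497819533392683090939679552720001127003658118615419431601154199863310912204414013882307485107127215055530420182346820897980230536393864337052979369249270703624384604510025182393611646066439825213607684978402169712031013635916962860498517643606569080931127590322716882274301676975831909061224723366459777310287286897763991341543940670228552593996255741274417312761946524296500552315185143071342144484075995139698512733862382889422075988926442895242883923141083402048910967467320215149599798749646401954920684183454677673380371364011804628078633916908630364040342836247382286440272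6219046757050655580197301921963748018435615209772035401562172556046966391605508618459684390041733458205094592980322061861225960464833593951060055834171974638745164011660651441975197733599808465633199787366764023363609191539257272541415369762039543903428515440990458269997011244574546516551809533612487875912819565039071410299970260412235649847748522354915825044684364478304910140660370135406079282658563022131825855079610688868233227955295500381658859491151985321728957715670837516450467845018889452846889723684444687652166649492659165397951784210780046399792050556245549366839321115911264994156112603552404221368308073316183252470764964557632622540931020750487960944640)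

noncomputable def rc42 : Nat := (nat_lit 380005323351180018960917521008024695945040066910447468403098495354295293828818222748599524317473546836849980176688449527209676637363749189568790314422087429795457126838314086662698135987399625559243583302354735220628457638783191266319436195124229864648376260330308767510810659099396042872037084879790684705768027570978339605300434398608498730754479981189794494246341634687585646976158434246608725163315515406146896743021359879115883005072463630810386802893333219886179354411993933076604820924470390070305990466790705019691214047607606288206487041648820704144386609256018693327606979587507460957213060158462301172150001882720520298591543005565717251092240095317881878592196015104153754220298210228284313331057340087431665334467818625549734686107664807346707379196306879341822199431298386344225069241639749310933083580370683358762359308953803815682726446662498077558908855733477432702444842705835270814254935874952137174730267226950204085123524293248248814007246650716885313889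4987767537258408133805005771625917385938752336053172552110083766270064365136514269713821783950559607896970601417387857558138732279985593581804771233799144953023433928335484388566706535788784969443033066007984346355556358548028782154165493723787177202473090685080921977954400767260121277296405423622291557608770078611227563386705764311757250719477287368132415271152060113826345309242032252014388116556093688656368811374127083772398490063724706764380432971829522978242049082686426425718576052968148426849510996474473558212037330789486400909196877716598352442578585322005905533483343039542887577228610383798847013134380317696583155582054153505425267016111191139345106540000941599691650254395705819315785041305691321919447328163074005717681163878928245421849210620005315541779770638608050174066942942269607126109615169296162440148664701490425616165609660209720834571358144300294931539070097278623005628596641679785375361954093660633947828574447124732314761680372005886821099606706069622669497798054022374740038881858158795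0923213941255220489070378869012001799126171147209794262817879591208880580058909271696557482701486166881915117343560127663854118565040205370357163208579131036452089191683039346089783573045823753116123220684464072547880239950019916615231339376603598995459808402509762439271621944596038721920344351678136209569815693958259124174250512903538811797326491693332302326340195037786547385664676203719683552901175616591590081274137412596584525229861123430762925934746188308897737323501773254363664386983016776714321626809580941725469079328041134421105882042239624717590092455718560461266321456254367403832539667584384665737599690112702711082171622941745616301332059015369820296944617750375014272412606033136241228086902938740874286304115254600323217755324484589440260184568608242498078934879503261682422099557588513470118687406373753987106340749367375935783158772561314301741768910721332773956594041103267146030094510397047023334867340387778499479248110526489565080917021863476846087837583862090844523747009171003043704215865325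7999017679285880532382501820514292823945149813171917030368857959878846856474155359670848724396081064348330311230352827898836677896279247535391836753693660561699585332830010826766335960124196297934428150563272475667900404664726386090792358884663638791912223872304033324713071895711387889463405592803223587253497421358787737357814806000278710349103710897673585718562507831518004529177314129018651652843102770391247649650439420897580318951667307782073438153959651750609685660331916019256797036340235349729134491062342243289423778941535682874795608333931762804178121968001134985986232963292634010751547282411387112348147469516205577744836902995282797285863197978446218217258312294227636776932203141898653990901743070633480940471535827673557539722535438881403359162034006197574679048868100571085723972947208894645418467944644365031315868593336514930995258561676665033118982533045167457369884957779899263954950350838487029738269065438851892593530767414887955582209173577684567462651730280560905836600104831145243256408901660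0730242957440229222739910544180452356989480503663384128418033696348396295592390164760731484660131524507402222426346011611996836466910320067764879835696995590923177261299819469378853783376441521979109067916464767294212148357790866446591524513942223606308197853641048097583272320705081727067071480781734425302825876016672593972288030077073929952389374482889719663026113676188737535326078178384473492619720103450449233957627569570762237061252037535856968194514747091155331495633926692264185901358740709565713838238990485071870705399775965759406014329494099193647767322742977938749083256698825443813745745326213401703906405409673024131458765835488774060229716332590168985647574534427550640537753585621759437044221816355304231106152541062151542167989200819239610436813907901926236394202570821320369314505264881526580406198091014416569200207642356074526522754246078939216871240243688306036211171665385560199483874839038068232685652452880743732018757827261742360355215541448622091775858509788349576060481567452959278479939795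2711828748644396942280477963563088755340013823993805361300389820612439110696036419035177543560025971510451276000400787250865895941916995827467051747084945511737097155916531171953535889386305339523429672661339975017224976482345344657036185140899908376663492947574105535421582305901952704683181228323205257506423648281779154431979307548460708806112238571806411251901980185799099455141768185961899246630290508135651315530365334484325727495425159507783484424466290111909732608994450661285476592957193416940113842398699359479356711384264188909224638357467883241136831904693949962306964846189000967184353978869913766983202075045439324474116242112824655337245963604838294763800109841093953037932711745514042024756420242860756570589593426504644814421979213953558101610803007986436787538986032481547663354298166983882371935901478345366800498718516188590988557205002846145154000911388052052938362877932602676865027519183192308180175315456604228601616500177220711004665700321875371268814316289504651474672524780720743125972964318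2701874521657137694544723325576429701280256862934647442992734030707650640280667369812854225277137829485930803698357989899750379641230477996904705639442284586973566335179469159821291157286462770704398131900286724679306684959895536316172395662499861624129328622929563050112918720916265701057037534667610860813893718293854266458066244462728971263688168596373837312545073026304441566311268528436627860453170938049884268349861390085478857055395770627669085003171133371790354422343777763776651576958308875556224221900019587180620754992862918830211284348551461011815273865645831757675765115713668681512828282302567367531597415153875258726138583660021819486225128577045029642534613025104283301179882964252089772637318569960779153160586074161500764215361905655103326943079884785851863403322242370694104962332951249732564561834383108104698944974228144344846154369805560266164861785806115380149524274900876909463330286985914610202663010052295369469546491867451292642669535336926089986964516862696332022402310886973902452496036790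3309590282155367568660786572615869905091754943896074953623145100508876693633111064683759729591816051771584737559303710856020778156439173066624326735145607897691193341365107205337589024980040125788520678159028752674107709304188349074917196131929389557708813724205809344627207161162847416858431222378168599725957017403612564379498464738699507424292126843663876131695513004119590857970946872219259961852933759321182064181699868571177394651481453029830277386331375549275855456855313569714951521004704062187399244417611604988424374058181789281010037984610259678236525312358611536747134347028029029352432723366056372425574324483129047434552245389076134009286608575999178406885673593054439487135047041761025486065578602329410998332442601956243626917621599752344900447251326607993313020769148211065361513332489261702377791314048883339370634233694346134872082897809557026937341209614226345501651538869334002905813475069298843313365195844588971586142536092491114514622445717627564597352081689248447458233223796753971585614249368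1301343448018710918385870407688117541910475772086356106247403605228987380523344044473020485482859153794729004627826010087159998238406293471524592143499241556557278308260058444319112549135625606566054448652737750588557202412134546892391128402619490506326853377719886291202460744127619302715335593490252609326361581597303109646388356921523693224225335203225600195704671263931089458547200926263352108891854416380022675891966403682428194581832770288588620791799651315092420556022702018069729542004940557584539770612200753161332788355359744219688528035446530961990324682741415165936637074476886471338015461706406057647576065421401859626354930618601439529194062812564145999012216221196186338826816068948730028244127359432116753993623900860497055008528845171758069054695039493191334068830934243545686724401099996479573753235071295488982962168451977808513991529609487440191237454449609434526884812028541736198676788933367484401047662362533557662711139290150340044559080753016687658181599597102311596073564249151536301740508545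4757102841020999969081088502111533598578450750007552402568904231360414980189326540453035090102878132307686863148285982210814007670114201148099051105814590451610490276088115135522338304963173381418581035959663991136385753403540466997661405092703192543462501877897690500373872901773703234632494286629034592141459005930069283641101041747123362498846088596970135485178598933213709501055482641113923505051489648727183613236607420873521331712004098921651115742570941727610287609108027138252558091077605487683290134824055850237004241223827027512747708917428634734290827709032362308117987058560121995050991412454540351878750378717973604427765744499120613284224409626663399660825556324284344992130311250165544020188110409120558114765671263390067655361065622429530679239660225684657830700025483953395403422467349701811853012564782773789576651691289606760958508801153776840744974746204475079386221689092599993924668405433916518797229157964291868714793158300422255115105125955034387874831786957684738000899811152863338444413938202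8392415776538722083017534901068722330277755794839551953432155678830798471656255190202847182177000114513377561138658517710832052304795990680833754426608725652866884103486691910521664027166661336714312230657062509309897521043642750743291527167730589865871638409593645402508484369678275812471695920125134518885748612878370798630895889790239122933736278903556418020614111522684532782080296304593969732834715814526739203813413090943482037421341023878365176548083499852273284120760631206149070346731532078695630668578620336495076611533554703050356673447439878362878291315107604543508783336862979715637128274523047799631009765180854657085415851849354301986852870857063061504175211936427822434141528052211956002997816506982466475760083494820574159558169264100140546418697176053389935507850633990555740893691969425930571877378493869100018255222956011012632037188173062707416304130678862828998568015671843428598413242498886094917555276674089503510003904695624393123483854998077202509358495418617908981947356776498797878271575384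4528695117304892041185317718722907364813263174125570931419568250741993297522422315805697600103969734296449620054194182595455788206668783769133497054846556509226801369973120470269971993759654973021705045008060026492498396887169973178797306989367601219900016929382995644479326902842869862998363221568892039206184659298762399598143699922566135500439790653799128742472215146300735471845905547716187374691244526478137440365372704819655870053937456811689880265290074756029871050558780577753273403075202000687901164995467732896535672316584164065883918732249512740904020364511467680795365106009007008739619032011231728117642182814599835718577521612759892903017260735311107843815005587917259283145584040384056397968060926952704977374650435732077093973616156053303632806787828668160640887118257780957922053842570312452245919993786646574480769210134950682166326885743216159466502161253363002991663632006029417536476612402932299860902918832138782033002333360479101196067527066778798756132899624609729087123797877704462031157245607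7251257383030000941970645507453400287686518477762000072773730095649179678407147944023561982114221232975472335700579334662770736397498314286435970389538843236123367121168674008239866582230889986775343210078862410753339220219587262612449773636835187340541429692170378083729132555538207561464194874348200540024640670335942399609552774306163654891214849595240986032287077116488271485010044334762375743415246433807482078123231022474343799534598689570426040393893184647385409322678191296852442534054675336870442070901449241309383049435382560202154973941332855358013812012717473479440961911187050507208327028714410200404696834263452032021497362312646994214635729784515651414890920524053843361949498293765159849439810871532063813898861850147698128869278092835949551277796958779826057402854880189279800099112614522349295893940801624527326114842485106286110076956695615327582017826006699253461142148015377764692759239927179118924494223512229607001667844482722361580523460344433726619569525335732821715855814279085006856264673256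9054436023581580028598820585922816764183129015451390860993637277081644555181927833213505075149159002793068296369601524594738572706670867398168369970879771079022991843988827215740516597467753104076918592478090094721441584791726468500124622084808346395696709380950005773880615677597729542477586580185820791403770675802481379260766366790138703385574143411299530605338822305734702367157020019532731188991456962596555718880758581078201342618340486972977828443136896544559000706361053846807095549679347344810323087597878471909017590764935026586660066602014755012028032459339568865609197537363172325846304622390032736476013616429245413084734297273124273900759437601544021126491674722218349431798672782257628204491736820477058565183266665897927575526100599967169543645912118039277411088991447069474887329402326102843510028124140903783989555995735806227723814752355127426559042213809497110072148338722758368440994658850566019274966339282086923746866450290896530779723081344982814750221271292125161235259887491232433826359673762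0064705131950640607287812401239820373106897682263121915944368948876780342508188655579916422428844632860176126394577486499245202551349598487324155792531507376793281424566197456644604076204332122681337540164276810586020427134709675654107528670537996806904804357067720007513977310915418263342189544734640118079271352689109052262895710537650281096451006000407601085493008100283923504095708341320638379317451192614315300616706121667598574183350783351170475203777952787117642226637606506249719198541308647982922914428104610162879675751610191609134123963077270311145986332711663486579764241168017279454701600132642273703935083325989998477317131114950303560519883745908094692797421141847978113680741470844014253660256235518785087165963862699873917261448121327246696627924867579860987661167026805368857455247833009210521482346959802923989602110356060118071190037975602020973313740375189521482089799268018064016086044937240599872284830632827636491677915715076882023417148941061133324227957605981936777183491646346416404746296422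4399304796588778029024803261300633014130624854418084560772203792092489385057860679936359956931454635273014751878609572887176463075026702435861496059872630915354044554183216947577824100807459880051759897610405893579338973689860566263729785243138691173959042367518239160925330446788850703608804990228397869401833996041760616111546753988781778168455594052297673890802324591917570355247405182573143101711072470638871897776064335298168461708611350774165321625650890359945405384568708683560089907670609559378172642727627614676972189108095295522039187351963948807225504765728127324328845993428617615669093997516352851305791941550902957664619696541437174508855116311203020864135805556960016052002441414889496567398217966502172001580507359775898660707789250554853653959859694600213667061876314504576156647416173321789319512931459158319719547222300223095461025479978259218402823221608155463643233805975683983312891740719875900141310413174295239853664785059002328221878378240221544348760073673968584800025816992878914961978595199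2859578412198692194307127744429962511821664814625721976767039716265308939469187145778404019223533034148347902268788595316567134882566279614289865442003519603959615319234577776115081758808527117420533472507785157864197954630101787252847782690358472216992016898790175064432361728631561577454945887772130475551584435222538581846236105385626743822097930279979025667212283550827503470316463998168549044269620182503845721374548154679328214896706097302631954171431640010232013563445021675804456793223375785878264942066142365201687122443221147986756086415158363691798200793758040049607752572957296301441065950957550648277901665692449358839763752390016082693732063479228634518238295477633295661376878083269977975383991268756155063751837252951759728302453181918053827468599114626053507613073521659340018791645847607848139861973502616441855258139440367841530349481093784548933051205287597306997440317759866624469875755778673614086707308460922416090547644489481039010380281460612970453163692231787894226852068576186383174873167872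5390459446466270002501737999018817282968027649408856756959487235776071098565286053971203349293926196059633449413463074456960759213091420187237078535293815293957537709467970282491334007905085798277866429186187444364531309781751444053255565604868328918488352369326881656194984649549598324208743011210029332708929763618153861377171262477225594557545471344376106920857561409974198387916110717388305990501835595011666139125116828476296667159894983782910513830900551548703871934460778508150024849323481398936624656436847219371617356986000787208384112130468334167509682084469248782171372421683325538173478141976807077926045968019026015682107148977057183473436661345844197326848)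

noncomputable def rc43 : Nat := (nat_lit 380488256906437171105100874493222897704756901208078575874310450151564740093514919034715258789057842313781568121420486325809019938189207564828218519831828497269893515787376810571113472216760823762947170770267369548327826579973577549709445615352870784157621858760418029398337638508554646094379679537118018048254637737008426187651438380015762905564356323379262564807949864531112851198159441300205210907180200193832198647300813971601038084858882104675256682028076610160905113804605509067871698408129400452439132529830903890694704602614909423884872545161688262414929579605158718497691296820388432690629140942273400657190277770099708827108621135119741227437495644764929944154020362444776657456372563822761955272373043308394035543745935133953337616221001921317686161076098996040583972701057018981854704875613132247723677806752874981285961989869006227810233173114814482331418438492538109164984538890961506890997071130148732514778052296298914544831853692814961550812062942042083932653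0926103291659180917425473974388478974972201673729813254432803699426107349370283599826748639372815128223078714076531534709459933666994305055522594569957816260256190435146146836191527166776315141668960354703728799012983463675664166218462030484159736299144230769762254865546581028220244793991126116596418055617554989310295293127265629694830213548588598049972219396454144484786709069209382254232242357885347910962756193199510271729559692703776762219454881265122909685302631140669693601236448865001914690630904322820428671519134875362303907387471792355206841373275925442616320881182721896400218183161111463121912560170292959237051438122688606100042946287205900574346713089800813104525172514621587793589789607912424215466600332246586671482971214808026891954008405887596169924920786939231129470913574688609220267472825627630289465642502683047790981684793385459265133894165035826393208619226853382206270862143640549779821340794028400434694406914498033007608143203619159933093534138253873517105354601152633487803717867552358368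4882861786270889806191516383727507612624096480582561219044078403865630546688398124605336965527643424697283633386317630139958231283827330369719226640324673073228735677894708595540091337586234584808552194105685822992389793519317686721821256552334038064052186136846209838588014008469214603711914159775812798477029950133445192700922431697556263523060952818205499839331530086652633749072575447454943385974760782579138725012114733957547320948016239167009192627643296269815046354854956815547300147330964723658977280814508061449543977576274498470886533234917849847772225678513921419789777189175298032790098790215152199877074019577053103898305826153642608706925752103922051344139093701396176356233027984582207067841002519334237917157410746309355163663560635558324591670094348059654850376809838422407914258306440636170907333784306180213301052889652113602095963675750840141733084614230883447545623027968925950067110448862984374959288779735162455020546626180730162422733923351713055593826103120114989083675206814064523129682230766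2131410984093700601387109051056279899757182855421528582614739786110743727615047908771663176761975052116918298127359587060463373546949879932126217881146049400243468213554058165978481072578050612392097801318637471391050126030947559023301943237728198677725691084383956018995467264874191311947385106322150977451622046043791595526421292133220272369494968701568804089994633667550590349570247640540673824691939750751486512950782130931231994586006525913987104726434888622828172365340321455564076835776087900378918862878397452877353701570737710920365544088529709988650678838472409420021687738752047962166762606993619994816790336110516394744544585198910768683165888561961453436078983937613010525266834378528861998271318289820929043003571590622583727713108578541775992905428900892299704445619024284588105214493543333552024939637144060828303505706576458869841234220363241356653577854845165682624457904937840536762664091604668742033799122818188770356364552553415282966121768231590265722480460534842750492981373978792388376743712189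2795720339810951911329321723759962165351414025544930334693130309225494950999436215783404954020717815545556660073738481646080209844154102994437991655537575376803169446104145369642915070930354862208202592337840118057311891320174000696944065980169918616609220026774529548251373318891591707926032156978033064391519068179618805103904023510180566353090393066810042447096985148966218170973143051093599617609420504214337801927586239667871254696499546749147379135510630147999911996768825401099061066749785969452845457224797540091559227713028143144609395450720150014461639913015867414153775842029538345972799569881773728362387038300299442771047209572416642786789657865272566615663879015949262086185133488639292412292684366995160252650649805538597232759118584357837957156019420488150134976490485088164391297763651017174354156105156136710075494508007034938730519035812022378552252045541742932131958087675480224071304813296749888758634113349793029476230410189279312228187727619829384693873719026982225617585679159101955112301974248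1124437498355740995285015177927929702137592205227673619498790547253166447239861825480545377649372964718224417123636658318956882715969310658886672557305162348331204965425489033012435344506757200744769668747740164317981078320400937775393241653941434788235068893931912133604810159584034930844445419250753990929970193573068225038987044255664932425841800026633608246542222792134135396388381099905074030283246570049175332020895808202967384100821134270198364051918883275248888015284205158272105779314848949480197188648582752243406733758531728092956233796675628491639593788895163185005556145054915174831929845429212636032417587591395995380007537161377268236786647364536789994419874761073212113705876744171073015987988191105126116082853891655600005934419893076139132156333790771601530555930273472510675553436989124878733265780415338858838970460704706470402854709120750093016883775694255610562615257303794666387078927704931149779421239926418120186759506381660379697590102710428966437415189977353501763619378755579030515411323211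3188200973731745236875737565222737927092445264452465164671709390988083828287782832005360085088891806181276035075770112856578255792418508094023916614736436027304150474569797017332565787654395971659358800427438730542170365339605589391045563767107213877985903259275441812553288245137752236795263168693126279412884511110012037865722602148377526440161340624449042614957816414587250186958112247641723248650338279720818551748984758140051947622269448603954933331718796968921955298373873540968043411707222471412638252569835182947160127382174739548924864579808537195099932577965926303801080706069119008778654320736074231887373640928503970160528922167650537358764203609184990944455007224715114742762066179911618674409687702548837413994212194027583085311032256754175693471272081872320069705597389498896914930349161762677014558411217535985248390418623937358682100387192547286126406993595918066863154180517012014505110266902622894075001205002070499926509058769600591938850311417154253538981572889712574176133044002891584479631591069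9615203633549643097280981572146193242064287180699680931466553310158769423078185241702975576111700762090330357744173962627126198551459017935684933865805548401058648073788432003445837603512134315294582964438567791762210412870309922611627058433933314954667009855509323067181733528372318679959680073419295768089591889483298656655974203352439741110489701004736006135529614226068683269215585037499701216213349051773722965211876121298832043920679511792614358776654259957933633718044755065972729595331112085602799714485299533870136953624581822552139551704473206836773822429851123014910491601636199453863444957491370070609934201882949149634521951978253579493473048006108884058252699628989584986073761183091060412356970566754300086316783806060782284474209589581388126240314853437606687416551401081371245874302408332991261817213089276606729872394790941589774678176239034857562818168420067502779717946307926239923025035560070995542563224717682090946333660732399547202159744619549535350087633823741073073731747026443636811045877310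8989598559552335769379939196119292880404437785549247539812478844366091341293012338082985336125945156679358387727480378604246558307580050821741585461146944106517192622946960974472502863507520823372466318062953595422033517335350056602893880779702848543089162785428184692054415432336116584863973713872921020818200131664089162273030630057124787984151342020566028603709336214990603032966516108366464819475754380419940477249659057667954030189997308664964720688060532998864107807374124566253308209867741599710345521645127136535390836869899437390001621090940299793404498386534320126864083689122776922111494997233233395430929793824268608897149669850871286228354148723639570046813335972687683480264372069461875452517733160760808699096235560384498205456352737409054653913909362383184252878735381039598627820105514278840585841769268645638544164764683032187272055638747765206833294900589804632751612714338181106276857302733008480210444623980327778738515138950867946402029691322543757876634338845862573986855575792310915196670657906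6982577430703740853343755460345778844093410965856719801674906631770838494248602859314868511655582990692260027405483947403868212704111334793279587579177207564304647245384793446441719565550843674701536608152507000278696855738091019997308781001225870047061100415359059862892714399565519910990729020716091793003676120077753504373193674391844896965643619818123176957799215012849673763853814851525985450201903714985051881597397634211470999791569713763293762584729270026335330747123654512349277536328629596601875199605302334209436459214471780406668618750760669691150658135158060834117276415509776182586983321382176659880265216557176485625461513032610020594310695511111722450552983777516941131002516787372780365189301257075953232733690873497822858606746542341995450817715064884717845385027834141382772739396032648462627191679231645369296647908992987819741351603197708913645501097637415038789160323251664719890924756341131964354909878703335121813053236907022492950612064770771723218345499250210944738654765522426492507955309905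7844397217966122805656485346745333657425388989315656070955884480905526346259994793525386060300907854439366831981516685048353006510277068249691702670854373939962168829020934172813993194184265839773939638716346762552184043035988326188470776209518466414062056612605637496499445441482150440479354417267303790077203059405832219392183757466395334070658869402457665991064531065284983292295247190885753779126854872579161485769827772983517493255863155083436353350071204220757801085579313828236035276574844121411731867355924825348357702500280136216634837160714444485147228267828720788589337746099251445695517413226245884337555438989342344358365296867854918066190746733153731503642890680547863492960655968042987523233047585744326546064661159768951320832537292846786485829990766575649587878813073339637396631977979562698778435472585635504816877816786051624977561265913425955321995511608147393381781746532141506502682508997092820920707403870640289673565931874443966974172221922578302098820201812130826811842278487489799504772675069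3463502146846466746744980512812081640502843345295213088109884013074859713944245474133709687332945991250456706705178649747468116456381830519453986440148877676073041982725452131730815634146309041293098969784734755057971003877967013495924289997454897242636735509689698391064493412923250539436212158176835403213761619581001192366778278217155367149836290955013960238724862781651237555280309511611349914861287103402710671431634785066160022439087978304860945548178689708039116668878613874532516410611634888618490106632572245904419881817962768543473452204109439459355312607767266990579499306289655807568871639245211885792113728759512261793101134064068804771793009109427813254486653136806316773179486281272756935851439833641373926117186977959470350032616464128463217019205160312994338325786049885685613806235450829958561193596073633056605856893517210939136954722713079287781823145809501305130630899261739489519474127333330323368628604918487760215112313539208313526251223772282369321788514861712171545424893268599498860166565985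6336216992020814541885447739023097800703172543947322750979774148049474743477593888042794107643469512104039654613704744352530071667134683186239134546703764075367761030435777143965511396279309239808914269799181942615803669047412037450063360112459521744363078633072360086901921507932414224725648154850434492819965266300765913653428893526295179145468861491710162091264051097594550071657844933957471984450431006990492840343984968483379517590924809986952845333434168638621550566530272135165159107490619518893258328859915179826031247173361149482944869419586184765667442578824663121079816245516389525722152848910021812081115520431372487272162837652609501905736758155211095293542543670921875330580977712465087805085893438781589243735121545604451486541612318566740844297951699164366547187708501039959285278546053145764487280402096820653191416434874605713724756261595652945096812266531530270504525748160396414439142486753588014971424499035224865304775668226308188956646318315622813037381345820685181270076383378113184997348841313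3508366329725221486094648199740691526798455680033304822887842266218791353365263060002129725300910664394858200300965134046819229110319969497486016519016652143324829148574090672763448349761842380181185991640898007181142958563229629150114000948607869584755204257857630465577424156931955801532895949053642744144345465368486874835605368237299943540983160235936623237930269998743154366986340359773081560977102928793003532144350705691862860253500703004357691843174223154506815735000338997116891520903880867786941661227837615087214778063466900673493967598730231877116905656857296838085180274353946744219822065705215213633864380421443481508483836381501510617322255317008023523851247242277727080735451516833786431997128722189719951268092320705156207514438385500797642000718381914204952737630424096258975924748703445938498225258194033227948125920313801909695069360220978064676116809174456864869963010700724632442239353023591760323953975740418582128563982181077942091367706359915435687492118287867662991242474038826143365492281372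6882601249785185814949280321482711793693791860221427031630095254252379594834759843356945751025405170300836534958402366315718305185406169823167451071347802127440648987087659018211417429580753278120858790664930574201650107631127308019744617224618321282204747215571819247591000684668074969509158711337938536270763310335329377890506053411959989248362219566774568332150040519818222342316287537535156776319597622074422432135184301235711111772241429431601891766664735022262349155016689566777443105433488497607863786595005214385305551328317624519555291131434272533323965454062814135601230346509390578225191957831546574854465157974410786640356164082635704926247788608676186132160421609095126023680060448095265591710766937595749523099777814237944914805836633947744441178205266323426583030983644788939956260961098878253447299672822936687341891834996915503520481210756808403583772889717742565428683451028081023368221923910563830008136097292714600341245175179782448899693535630154775197140835420234252590747113717112247456603893588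1593085585515829980976521977833762726669089027261917781882797809182932586262266368965052782470433439372636242420989841699032354236019699393634480798307736918251621711404704165486488729653128344141287822156684947626858157421396869354483116792987643721338773763968252184695107986526755780118002733294233894066837904520101428887248597791271205096517397451043013438904841593232027177909385596137745529809748021465669869191103201642316533108146340619909256592881621883252703321445114668196094384400982430358508076866730255740800245070751404049334721786787920986394278477276890367294515502828943660241549016252351182075240269244173346116739203986306206944089289320404316119113865408251538117427071853573929631146475683137151557889457345554616512727519201841458502170650522810157324905969328163212557815378368501931627638976592769919018771713461412993328833026824645369563319219068352403198938146966028334917811607289302613529096682738411897790618891292646226919234634351340492722173857401504789421875683261580180320361593886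2541099597348976964974925625921804581537707229117721252166823079141531987543275793567369676835117999937667004747038403321689068972921528077189549248865659756299905599582865799854745378718278757903823518941865054659476865371335703149215100445466544894595002717527135874458232086616902582809225681289673436861335326425922265512718270587037495662618170944118201846017556525267241806063457224320249919255371952874048615200038594185986523706243151758244527435314786790349803397119313876808400118950888418519630540677314686580934457167175886264080559416688010828056792726946998121430193668543470015457730238692637104057264076896356931007576676617656443807918432368907319162914808566500445097081345029318438687731179943347466145969188124615624368495670218606949009873622319433820209968652379162605109424563684549865260496207596270420180924731378855133677913101379254147699384879382498150696999794091779441707399894464383776523624697404175801986779594653880713476952104362044895619231109542550694669459581278557204889416927905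7727666595463864876354946784313703852420344442945392021328917151388969817235348368637789488803619158218841535539957553083400528494090763335471679070429444084739333174128926852130528356036118753058441392880109670598919304045862752031795691302078891016511546833899113364843815435230261521028646801835481834871906799791426974636235140129604244705108301175922801573708475586009591629952598912647506806192587825240485280133442579400719197542617474643942114793487982532532815344626940520998934234826900982606426571031144990613625299902669838715079694175876505123066656066767092356974406868176776123935013651073059746007938435828069891740275287448516072322387503874950412894208)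

noncomputable def rc44 : Nat := (nat_lit 380965670923101230108942247095622434812573504869850116265230455512598006772266584557539809987075526332257597230033180446839656332337594690397720798488617953839120119945178076394968617348794078147437543698328690745578066404669601112292466059801711924373081904436373384411168726289893479271862150066946495094035403935047714938912714983424131748947890396779895947215667526894236827293779715569864055203090528945379411486419228880195487868192895757024165848733115977160565221030876375804234034180698394879288698234575573290067479585130010842810858150425477924231685569186768715388914991015944107475176148624398074469548853012344785550696240188799929071928586436427882649702000076964608354823207439916641121562919856721476495928836752902198192356567481349285022917434599898159934156135198099430243232128749658946832822319582712201194341128898691761113934690896636583942208272122478303224637838068365604456199136716226959479308587441281426716241464789756690929107397354961244851543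7781127513517308071563877670582942133769329699758302149145691752510841208306659118332943455577093864068032659007904963723872687141449066142264011951078242643058489710611230881295704838255157258371805911702129882465374937830080320543094693632540588713015134681522556891754636823432055140923578265325237087161337133601478429409103411512274314540069565423753627562944250041813127506241148130331882824650090591656217553555754873580306928564959544995268043926514114581318302912976454457414829755866822636386918966593913741689826759061266741781282878660658104905346728565268506702374222255204699043266683404784105341434953206072214234445958137720646960881683378148525863407572644496328410380664779594812389459593033247506107492623893402822635590521605096685538086475545637680218615162345595396056898467878169837858860348133547057301905209561176376673861940831290139512027711887002985008556241823349422463824029623598882989030939073995629587979357318378108206448671196526414486985383851823541312144378249554291795635908686183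2105588706092142556452763516324783253009849468392943309637480392233899951739506364938604132896551938428776636040399109005572109666102433113182091974679845274091294204817950555094603429548936026760850490329496818361711165117733118268601503299435965619006119938164567494021364278209729760592358589530950589594654358608880050668814492853938652718822678247749579461584327479699597038828927958730848771933566698249462527172922308766156790795301149181518468790799989829356998703751860649667393757160185804729942118481479081439561382257699075841127157066369090615149282122106735447291016306549672927948342030274191543435085799638016037022187783174362371256962097026871666202118940638613470154523668334180202551123332037889871045362962260908662681994266775155042639673172502932455759817370720806600873695264846576061655361340297624820572627757099966954495219509367404001496226823654863068290048164006187797696364538933811878988763747733865175433297003048456621268752314459808206244244257713514879099652334535655073959899042316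0026694602220742693719242764359061519239087190245553525023528125703202378884294432313213653414874913045335868077923641279389458877745587662093313647487016229342461157608386852222571420085273629444387559310562187979167250656733413184803504626894854274921497246594651619469364458846213417769219538587163087367049970847727265379119108623852283420111792761057235188257982499805675098773666485596160527240184296077651017520710297681524201596964593548725389059766257513672717327308918777313124857937137977505049653514231565155802950090736254390481589941827380161865756051728181528263400183343901499767103777710702204447074986656212507938438592498114927756066064341693437308943780343648785332157028938737988473344127585853541213584850945696305404857059300118309599283445367765953236076107176031304472960763980236751603827584147327768322147066828570166003671959933513888911454236258396658071291318970246296063330116378616579952701359222594780349309641252186255594350132044437095478157092629000559821100212472046651435662641803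6712170780641353231039986072907423263436511403041006229792120112990384407221052745971803164399333970486826370820720750708167175654607868758586586046803379631331500522332776810935383724928569150489024759732890440306941063752947819388851734628276043868049613159396434141300245925339265859033179208695450959408943213597824978300426438630478187071007324566576717043766525174646073543391296800076900280688287263236965411913612001460925531375991207739186013377586220781796655324397538301001709328373360213456636305026868737772931496255045467407612795402895319442781671069671597335333539848553201611088859365285479793641691515478069088312093953519317357786312034265793901943585660789699803348658973841077704908852192612469529138619572097157400701235471164426893784252641578286167541172946345454068709932822038666462213036038958377627729924227139875933854250168533188063775693762897687562705296219195614791768291510253861845796632068234498645787151543200429976781421006474217348899665876869463692565126136179347148533327374584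3256855769988487322416923004235344245854968071627711272098164467063677466086580544008173744166506327151779881572881664789148642745720862979784753586267603407304780113520059558440903931577952025584127052487867299909331044813492245129262048615621154165779411319141773682507452045784092906438640336332021322181610369322571401222212810515873708833852317916891591258928874314278363868623328609869082863123468562677764612814334414455565487034747019959076234628798413067345300223216269653305107221380146735039929440020090802502011721027306583457354822495986947420223800793051228810216015206297481200501223754169410348639386295946657605323200897324281161458392139211483245493234700356659534902379368937460781150707182787697373189390502078695289915210574952997277599933776920269859338210477845895234168496415817468364739469693076011777490449928014027975128966015099965602864760633821059176925765357636587362033394153299262652752076996267413665008216098988794841320095252704020837324005584433450223041008651151664054478970066039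2864415565323589642747294941855880897469625937755021338338404536807945769428659671722804609386336425423307470455965290541573708814058646329319395293869367660275500054933753687647759231076690071180157507003175958415539342100405380219699482563070245801181915144369040101760808380532632247901401007924558568187450985955333450978850890342763777560440265379385818588472120074321359797638202320854017979456337601929811334697499127933044610580926818639364444380411299571923851859706605613889523602984936630866216958516770299647231097016888002664916267096112602295243229204941733849301735409921578997622867997988495550555677879587769549419668100892525709411619238146659925726174563891749168865264506144457667919566733617434325480118879249910824488082207172417187865547408692743666411380351804002619995291806067922752992661132981505902108898254908462819380419723698338167684334308988119984985166855786101227776157560567149666766356529981918552631999726709953812604016879895422465543395564852258792234659434651751787129159563701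1431669708655454010087634927546678988926798418515468870695555882407830917618149477654180944175047368863186532035005554279391409890725330506342776379416392262997971229959321087742378144868769503716046228308596061996834267394093638298818058378331569934986127395757251967256785332267454939387500928195495688080789701066738867925316895202240793487250224892569018329215653945511754685181389719289785352782679180855482523932437715645576845151672885974213444783803242968690801010156915913831310476523300401725935172518590462393707461704616147413090652270032764654229296454355329040351319655955139664160380454503233129625246317375673937162453471840543027948821733972200377287993224359498735430848493176492683196168346675897324689162923520686116549956968098635549170973089744265495837877292079283033719507785171998877014600877749756783678231986325744000413912952302710284318677182445038206675080314430257195851674390463211414603949486740089108002760041237953768522800624344399607157829179383179441235378411742758675368976499700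0012642065597869033905183433668326426439091606292698483786673963440672534494940820057356618318585121179696264890593825257854669169023512040342984697337838920635590570738374624279416288599964459048717646982221277923445117161128434286769450976340122588492501708320462376570506230035529865503054831269139240196630024969853421053321582279918031857310865546251830873172203824448686283881220666049600632526459878900401925939437518773118612021832489303371898556006527209514627228760809240513627619698101727713095698174370382735405838370849489355551229754099644416753679715953356244616827145847037279041764805512549620059833094754380925212525605089933056390965020799635880152670200843516172219737372034157709928650838038509424438980338742058650320043376618443066746530737393759625530268429270737076759678399019868865646568033443181954505428745713709774854360922226726603568113099098933205180598227214015395483209128470946116938349477956408780697727074394938656219130058894473243660094158918224571806455167587968582045033734860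2568536901525246100352666747128116613765920906547287568772807819211351378258870194871344129365294267128275368022252425368844554491104353891939854518747868333918754436251056344445737447302254098731692217078128061532836189015969866339420661353960706090335462954558257701074726986108540070039799449823914740040102298999465848168741523355140504487820154848603972382318350980312321670167022431075907680632499209327148750500473962653752354083382346903907180958489164701015702601592069111465780323559220142515534896976910719069439679880628799858471342779457613786107068701761710647977075507742439438152797277195402040784231593723640584280402340685696140715179625095677566176373107373739632835762592447055373180004828300481546248767385498360728984595724533669998600632283690790489433775592113919192043180956098897338092368770047663304880697275114564327907118136927553628337008026376560883310107746541202059279786253423839271045245204729569695984248552677309950440627264595224026385534109560093774616234855301739458071586500767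5946853198174712227342042320479843011740514003206921609333770241953377246394613345727275497290054540945718171728332402431788485367554163752883204778384092316798418302818117499855091056713200551208692817444412889584488626329732457949024403830055242533636573908953566131477625035352579733342093694885614267915554912490629907750547502922151042742538568704900447775066824199612591063684429496192370051263056557742789453901292588860021185895461008361522839195098367595998160560414764268599819695617943174698682205919212783065581560505952278802667702153776288651477643388940859789221594398347552742462535844553940270262596524119407631023226388996816043316836369115007653539811837430063806518881337388400539943377110309291145976912528371391728626972025825050564914420321446370463961154421322819725320679935059474105089263602227250986097451756063013906886094991889113667659988015766473920935175442464274058163195570264830685821951816026948635585435930777833842779084072113862722694009385091419453565836574296840399965934988409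8610069493140370142987636751035296070876871148444705903948400691002377752134767037145957444462913418870738647085808510655992169497403027598932273755619878893901352709334021739055293210455659241918264649351144427104358668490378466617919149922991208975396265100923418601403813382813084749133010641143519254624259838689270401495665041493525797331254540604495017369648841767409560876318602952255862585717509498653740576084421313014076891213634209950812768102287262252639333637595508543411717601469915725353417953408039751991625266420597627637062763932940674232893092197235948309232636473493733955027084644791516273551574837741561177240959628203054443585011152263849549417012829429292187919804149772743389114809885021256110325445803496605612877798594792866328189212547375650320441281638833773651575592796032634240162692523467908311599780374467937945941148035970242826907877821508877293176357959101895404788650152864498833895083241093779134885546954832942564185604306721757565618434480311206447111995727217882376382613841306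5650135079631957505342714982096118411818678304705081502082050529467961847251795794503203187776293282317957660664170628175149195052093230007765679671169953238603709821102052977504694691201349779165647041716185026991435223551135903564984499467276092536854218140906581851476024074004269337915888754852551589218545307045487841918345959538424435810178568306852577332993870899180343722563885772650533632530437211671974492754054313996365216324331016937793513556708221854121884162153132925121900554100498260053256100807576605950964044999562336309540871504172507296362372897231979138001634428949493071699479816339194193916940720776516171870651473148056181168750502207964826271186109466452811215851281934785652736259416145982434663392308538416838800175872412424543740598707439359241183591922735219348356955218256027863182468698786559616219568382262691922826485323195870477111326609301166077187669256682077942967358860201074484313588598974794649071870050986003225260954671359329234912050916617237170281876752046026741456559026186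4410278722005121909638527860434627935787967461565262370872549075336742072472952953312122250089763626405530794932633299914919741007891826317324421423881549688575145377819727553412010814779970533158991982867581503559170001072579119690940786315156433980082265098333913109819998842016907232006533586620892397746543151848424398412024388556289825695605565561322463320602007382027289084464298811890722416403631418976231643119914542156006939039730921469955799936646433020024871756513875494300548505749906750849332676452875534333199065966177666833197190448448413297507743755645989938449400938758416643824668900225597234230765413123766257270838353506012415438111222393252146670220164197613993061265270371406058464856797616026531195249446215329638179624729892004895263996636018553154390601924178869812919964973407586911244076239383143549840594319428316770327570470388286664628455312990355939535454395145993898137208238849431244265724050497331277404636581274050069610224789541578845690253227957214080655211748379170858025989573985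3267235167140837469412906961981893603818341942757730424168997717456170879859856419436954236973494608043168478668509413384904350614820911221720760381612752029230981033816611286029990916580411028005546148015247152832192045655061514027213568376628027833332763153440929621334489971315353062103348348104377305189948700590172085132821517762389301836677515611682504550396479297061663266197772051404681654590076452675175432690080422565075009453426694078528823382939633281991226780134721712836138869064478075188067271239016833410041096363995495707384194510616554345657976526420751952785309445103352980903686001971629958480091298795246572423884462260825905393187836206604081183294049691158236841871706290870657622363517427332223072545316202611588058191987468282336066351203569209753715971346675822555728025990428956917584910786202378163308882304646598045640232171354056850158987739053614110782501328049588974649243407237775704348747412618420821969383099891312436436806257654380179260343082306631721077288307843571454239803373214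8335990107982892911613131683966976943181754065840640309860524848430622088246787161303520422948361966714143572691211608056680322079574542184377517785813395778333850919979853577535772644918691278187964812169833411624815438094739609787455749588526941615132282120942488014087437774330629528936069619938552052703286338328127752981086603709975769216005750522530214780121938287977892936979203513138071194935011619468254001661494278073311765564839485422728852985097114522950178011949506868204632687960632398133542362267954540643274846724765066156991106575915928930086692063448502016288020499131734656373927314987641842950779223624221096901209415626403488938805524530838997831386170616105185250421117888698746474641573867074336075720536397625422316072742303687205299887115893687870007262161693489340433500663857449124046210945291801523019034616845080227603796874324847220253469837484923071441864785306699175948977773112960642737309579833126866492429647310154923295166310802893452088679538111219693691180290231348603239173737948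5375937609942231309134894558143306905654361594199597614183894832584555695348286299968839593728799912918410626928775513640418394689405249172062958355791381511305173065559817833540496937612251771280704034677717260507168466235168337308548707944987312777995215065662491927684857956202408920504938548163856457690147635591461010778611036810856860711122072186101220579831559716003962660048347450433697964007210066334675173027537514489970807758512841956250023892540799612923239677356500414862957469586514654407837077376069260659131246792018970246938282548786106796093403101011729500945489450952340381100097174721897101839871356299753431744883622417166865021748079800612809017350267218782876679831384016786425651114522565469788673912307485733267352355580396995537864715160641484459417033183002725401045214316055490361289903108884423935658916522261316595080819444210481137403043815577230302940919353788815927147942318406863783085613505652411159935683708560977804243824861972356993285404046709751174077919326615874076411037994493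6073827965550619664404778924151887004496984605406464100013723715645791057815315460058656679631549030652986226198547575914751912092575835397781662844471205635300879039941019457377225815682650626004346529440903248674260387410769582728133297044749052404111077749397668751187367647285425016166791591676301851694717276542399258669160652942983270816962201791243944717515130304000484273958938983225684992835988514498790376081500520894735069175838725096540005257398135249475849847131217552783504194861732012021254810627249342040571000620900363075783584319132494225262901882106584607950776637001612749441585194229360683921245461398582600597730496639107518476476766808807984594944)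

noncomputable def rc45 : Nat := (nat_lit 381437610091167897838637620476025993256060779701663773408371772665274290073041616541437162714371902116504203898843463155409429681149690608985649369352036567280491339207312190185256027220951033681533468477334973567739663043260838634842516122729396211034193654378512862904696758877500645841825371024628853050845638388891148869396497422300314896419197965317869347318623362061231710541829201338643994518914315115575777464992970459425316820449019620826345277969058446507149192189057444763890856695555339248478114728420322340400773176228823081255328767204409166597272172852097806219923021945540556065863335774149968476362500002201374480627514725378613493630463639246836222447865194594709936841588007320783521539201933790790281036049660230295658852808649523145122349139537480691959202459223291119928863306100852225651262826475467219585857618712325922797155976875337453418292366762347911967585077058892045650409016832389804275983273110087445935040151664777738904315748521148906345174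6053609756243581710805926591989788781007982923033837284647905082275501504964611836748520416718238063368258904304615573775184848648300251964589099703244133992831234311903881392544204663294929322262782738693338509411411321243276778051867982575578936551439429963404952303997967011522978379558307428329654636921123672075946267806843338270261208075056810906732375712135072487145082460935915878046139083096629597616396655991720310340768107930625071208805336882446919351781594981679035848332887861840356636433955737777367700639179203535846854506689251716242185129231091339163579952195283295833799338103373602039583895004946378855617466291217331489003075448066452577750041335512539512284324976653753187699927017743900972703802986195232864501429142652000620584851597282419692321160314465125948961051191783591805992568370455790999528634826089723049461127452064577457422547320379063626587974493724129279773291109069158728596667358109169812572630215767031089990911952391087845186379742867520883130065769671732120863241693390108097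9151855946530086750703831809541749190825808745674194909998574407576126836003860192439193989435097703877007339376745753146785852236124673122921537997637928958299215291124014409342236224819226440626116229155410529328010859956941233642330564127551535079649851409146498536312934691701677834236164496876747971664858442814497295476482908216948884903400611174918440947024350508930681821345703615434420924687756625794090472775453775074209891963213152675162735735820458783147012111327261787629904297126905260124945364585336011000408659175440099648685467072331717564541524820077278352922449948869116025074749761647386948183193149390956558573413580069136061499379323903893913932531395672688393658792420576670148486504659232087291432000054546821987660948301136247182522037124704808889702757069059322217043634453576849687848140746466576865167595316296216999286077400105559986156615382634949622892885924732457031029799535176243074331812306292175956797967959344194423512654019779711225030944935095134501099196861491039312537847651979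6608508150356689554972227899330208921849854179363975649980325159648446785817088143749213637603228396938344977166922711052983203015206132210795279919852676937087183902637287295691990647818307338068293919987725381459452863437245452062145418600397338978397347298890704807815159468299635284418330623826788376128765854815308227373727038431294479866635989590064212144598976664797805347011066848229555821146686928843480209052890127687654126549973742419733024610559756718778025630893555498752041344074949676382896862591257165302516359361549637650869642911174005045605696546988275770884761494002882526540866296078127693998949340097045084268837275554821819002206837794885260676395764590437387594918628003465414619495918578834382871630323244068334765964256280707686546035340737811355404365267507011772257495020102953843251441772020828457174173155639246724860508611682822723191270119766363408561216895576170064236922727904059568156249589509778891099718669816596915148713707914500882432351652501584529914038024400731443028474346379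1845900089549465231201631085772438632088748736767697026998336632764664292896606642762141728408034444209245213301629165233210881775342564140607409437095170862727659539631729719677848989582222000427494823806096478740527091294945173223291563964237708307336143150140180523975770609287677794468453933103201146347501277149456628988689649711298793969592734708452471981825888832986549975962702688343688855688449118784996920521444257278699492121323033718024075851915817558824908291152621978785487206412053388905812497200233507423555510627482875550984615940841068691662347884480366918926283957448589353541863958284944875245212136182058443541282115547747282975132728607112783937364566489408364170123560042611803666430939656177359001702877944418456140832814315312470216158113503026197698576874519286509657798724239266346857539964126396025127480150839011598432243314775073880719829438673057010202922838078277653917210790206197229667075859687117479769602539444115017980637713179579921145744643100156848634236322561162912858746672002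4621937296334442170555251228533971626076398648372362444946798304851414194271118207629968856188561350752243226378057703798160622258068477017100459830686119601255822356364337954762041588265046591506579156106611351751376137659995749084699417578603574133435471762742420609710863385690795718419644857769975717139916398615396007992285688998137090315686589950625119145480134266279636658582565239466958627189066206405861989030067796065150454455464141871124403671294756230008229390499156007254735757187173054423112698606676378761798704009073058230051460887072965649653762828829124915032517886910153506183349002285626193126624256312816623395590038011066495405592168836758606792766572709815459157560192790757250471943613330427118334246377237250126605967429228509359989822957791800148062230099592568159138162863240729908841841183718956645378564387074085305557994136914751453350140611267524567952796779529502623733819512411241991138071270048196794030094599145774962872636889075911678761137509770659235974356971319142618337172790037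4960679115522025345141148955346760661477197425088431238663911706340920272849025538554781337791787550598708562730994762407351753928080692528204981587044245436150058934761541210614229955004946021601381486837992797286323416830284083688469388543768992601358071329477060363927022197550758081352021371635970574078480676293927091897251043179902450038126575606125321887535858295060942292614469554803788090413336676385232488460205486747455379408086583361372064633675945703177028492772501957737457514894503829805272145696016406828369896979085736644080406067214401848522792649895039894102591102147486709440050075481302691759313519778331017591807901256165317432745245284707035231906513732547035793907985753406471931668867481357664896881431464257877281119807871635371190327999795663496968764931421864440342721522480133853689518301352479553840608327132406613394421587644146780636209294905778806481466499169600203968283874470049444059812691960806384850124010594901233827452110971671180149490517980659152368181490581962562213516219311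0337887248333802563434322774837496145138497309605129574427077565512793429042559573700896180125206861429984412424389627504701167138476893466992917925573882604360652665076440439889581763347735844805741565500378914603237138434177071043442204559463493581560287535197883890127211039946577261572320888684765594313466350215976601176428777687588324967696360643521851525563179856903854591486139747653991093916230084687759175151427789042385039186244462825587215393424368732234807175353511223636020641723934352221525735622758238362048652605538080273211797579787277581507272881627440690647559402188783369405421644806672079612575511992137379110588155310544023747829649340625948033852843830017722819549260545916436250055047824812543224681307487578730340949720811996055616329576445622514883848632228642137586202150089369321304126512118306257480723526083161252544694729647533691659980967014341120076788539955415156431881899685079567033812138497237979119896859321394196043050921317413796762061925153853476584639897489528232205688325818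8224689542581672696929793496187071251447221648231849394630533560754171582481187432984881741204550420483763473836635499210820644668112401177994224530602697056728694737184089134805856961437224609855393327761581323866688028888642137814173477020169823215830771185073405100819991125435399302644295494714368949177458826940167510152634955976859210927421518041916258770151065369613084904124413563871104764186499644458841652736730534497075974792551848747046481518841314738249524406462335098885957354895728196666273073610352197826888693904209221730550267876540331502723294948661850250789374190637150835885289588573605857506833836801311908629151068228084986646196283202809332399132609350123921027915244277818282864076305947106436024953883234524606847077174440458566741277750543086505442296067712598130154647476839794471628641410554936453466531977281645385433306899696360493393739086408316929096585629380668015001934383115578516107181731923187788391523555139784731422866809339482803183528454599500182521774971844883775956873371350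1020174231557815498722018711848776253570595726965441947357030981641824474391601623425591745714549089373720302012883434960225691437880974882162068119194957094989675249619461148370847843647974314624655136776256303873923133244642259636977534722777046785279517834476956608713343034764879205848068931093990794813879284001440745872637218387024403586194813787690445497149098744389335765655847326087182686419315286295377471859258320420041632390959820895523843795130353130666758176862925677550385143620555292839270258636342261419195494119357092788533567507544642084568058119722303512224323842717071718221286388764196431242422673331200781627737811666683457011815336482247891417725455420796061423479505193096816248810762789206942129725069387042441679472473359620683357610527965347685971291922250564055929420558231915433950048587170610399799868298701590483211421829423369705627365507032993932061027082333783655674141761412536585097929149142738048069882756266147967230924112167366359554797689263112342341370822086125058556766935513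4592800576553749490200544455263899138309248188107417591241333217343408946376156843541287719407857919566193362521835214838533499054646474514552961912045138742329783721301068661308365781950260177883328078749421439768787439876130160610740349815799400420208687012394092303163657205465153383599060405144799096860973384893867987878694119478091210773206225288171337248600098666551882089984769365145284959201716664955775683382428927501079085561333588242317302432746393715547733082939545936807189377747488539532215938299757579907200582236320101887762616470892408556852337685721494815660587852717391791304043326487065600410313195386351507279164962660919488874285282517031158768935682222417834575890703897561969756211718186971892157217951882956557444673564927492409929464572705359238849225611390961735790351903446045829688720403820717596085959591715372364009023169528949555076291423966744613132246777548749290911497351199968915904687129730365391891541863213763587795202874736998681242647140927852687823687720518985460494695113227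3553193794012124056217444933825378686416616993302030357334900813169129826129593438920876605059567314506399997202658336137146664078094130679749771498095541258495621319248568179655632968798234330808612763331160280013863547171282456755260367486840501516263134239338198400522533957815999600469898674447497663779370171673919804712527948492914770052005344439219090719851817411301226670431053482791988278153191001103920445987210962490809085736622542317818270962550389718944646039397699824412264076001643472824918351328682648728226323791574521389282229213863337898530605306262628020913947952281661931378021104015466287822943428573727169939678072858833305372340728194647089458843896462713669088750212268222389021941013184640600205624229213205300278363581177287695396110800670666591899016067695570041455350780640698259003738458807551565830195077115982392930957478868480806760827598858169375575017855790201467428956420858585217118410912693133995821033273604488672979375973063500950502073619089236469143880179008035212671771102303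1128310123337679621025981510446387708300854494466997708361928293640765601210621879913341928445701462521011461434122100156405383451562054835302832953337516181116072820640584818556534857342324182512770363560011047229458817967950368626346924423188920000361311660187071271398247090840712175400846645580355462352625137223799051880778267940031396792041521089028258970726105684093599839761213742899461926074311478784392502981421060946476943527565301934362441365243012825750012413177049293204123489613088641716365341899990043492802622620557375012673576007699562509629153562575260006842951991155250946875602562941208776901976284415162083348066510946364367967057036190481438695972159028284445795396677315361729918619612907051365949817379395694998313010834158538467285943716747196994114162437567047743006895889845529085555012254426410973638671939898123209400251667879998367766573234698075233709490432399704187191002313705971251519295601138389181102800948732900554823220677151735522516248546793519805390464829973332731352708147216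4692091878945375412708680848187003342986409873946600936504021749365006646068832306406552278129678732622020714536659052744893277022110472887242243468143135412852493172061817399902677567760359803904876735648647517466601200285242988165779878805703571777178030405601869037880612769424903242878187048051489913916762713971568541892099316472609434372460462350960276113974628078537007316456854484381301438955864312185585989109341519490789991064408635586346685349519988887340872574458244478836796367439082841041709427125686861651892887903913334385106456982277302049824977051159876304754135515347879120812625896437895409984122935770791625549493595080904022509116843618960106364687475682424346015706835476660549278946117849130593856726609671944710526261998921629536236740340342676663728644880197884547270478376101066695640209274076279652167398221914888305664643005675161178804038742046694298897022942041490528924711057124715797647162153907273851652650679561629822635001096937676605509650195761487957364251740912222638813511487372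5353961856625488436270784899173192294655199819893429958886712074278745767735202923000714563270688720942714869388428326177017847365016188504815469710081289731509052757213775427982260738992853355351956509819559476809300872127428316695189323270556176336227420648097358937141692598647088740648730690373785455546180018349072719981555904227954382825343634438358772720893849504213029867523492863031951094054126808550762778430375538691183938113998896076115115753462229449820977435594035253374104000246303737374749691763772136949591535861592083134625074100297676035829245101100220640164340567355482993751464187221770070815366236062301644201254794332890941819761483964822679762223466715704685852608787620363182175786739537770983939538294843026194124594711833876038208360668450911899133150528221820446230654970867823793201679473610864445857444510455330004556714238496992684759295868428665127680824973039922252796330571387446570466984559224717485042265379945258362717614773422940438525519733013655584089056763439995109468880503637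8680626481877186941437898874568502529312008778593111201146724081167354668602003318114114204017146354664024201660892623752622940423672521961872648014781552664611353728508146731825541880835693813276334834600671448314908630783046585862772774588472330508808588456408617668471275626085990667031390485812834733849576424191021304197367695130172629565941646707411058423190171444229626112631949500591089925366768487342741044248487105572529442921564544780804892001348676228817842183093182990132493390753379922355349666619154478085313362104527193590640057189884473869627810213537772895361051231235808624265126152258525950605280965974736268612253870612865127532954869000487321891384293070933062689096698352340860467908841806535301018085145118014798029204958213498996796183646995044360901541443375442628702214549064998253733103136236432865800684487243746261764963160825276078484154427432494221508873791130722938711944458397782544562255597336813563885547859487788052557052830455658733661054705063594171257613435456141686698584318517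5285304021617624448122962786997872820097569743662137158351896222201921244668854830667934524240512531827317141292599654970971918406243817519825170733760347853228071968971838015310577149906479350311003450801276868120063770282939666019262660981108188215253196292095812297153886885044210533564700849762273414546259845357454830443807369260658755535942267693981204577222851406711208769538350720020011103500075028335487023415288966855921491129530531924585093291186274689492853955999256415560196653663811606745130538986059339176022265123102576844237894831641454532542104747475003361675985332900400622488999952641009279195054606518575581852408888133526115802404972648566943813264745298088448581122194720433107708277045236050179861894194936589351209470035744868540360053696579073239891728579240997740562075577733870073516353302274604406387280321597001771819594429071970524984664199265508902184819423490417637406290282188002804004766223279027720116492471436850043135487599836646573309868781582463285845703503736645000961279752077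3089510451103533503855658172788598173090212816872265672967836602860438220806628068817378944967112922611397749179451002001065024785690207457978374751979433755744935561199569229648552736239915452497187567368327174613604332897030777539965940122298243370276723471100758766434956674207556855389087831733311813471681133942507057067556252033262109279523538611542284891123507481314296940135338829535321280622700040933166381316503112258301152748575818614956862868790687972682150991157533000525122257562867035508974084975681625692445936057044752408709027839476331455914303653086925438784339092350846674836757077594717844873276552458317449692129180918544119625996669069283335077888)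

noncomputable def rc46 : Nat := (nat_lit 381904125953477977764757190347120561335270990611013736942318431697164566119734632907147007833888293407312865859629392699237368022255632257068682467147162014224281912945677759280454310450067222955957068676478070802989855343086010161393746930276326119325288718393923403160581959079136435454308417938603712000333514886599801321821113524070933659915516896164359379194644940573656312148325702167036022211928809004051269125445317845949382580153730064926554828505925613569028151079397599750145672307824577588626555020360525092778979521500405136499863387727256260683680574474900802516143010877718016361864852676295319875451327494084100137345105015473164863322989579169531827773041247390665160586924954527943757606147980507327097917365550363253680527553976499489161835816661644461643298083843551263721713092866489061676292966220266490263062929318118396031437143993010343539706493483039769665611227086969349597077619215370275142396277207662801421730237373955911670786767031380468581505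9613649201535597203770674509683954010738550440430638117100066431476689396984031419209887494175363542885763175649321936579746728201058555623017871017208324647909064121491939958012143718158724833650621504853759719515769960405826205042996483656467615761331747367932579686877301170586762003219973816551158005199727394084735377436402041057473725174428536928315600863944675331290312212327706573697829824768448682056336435423369150509771563323961033605704431973061846951870534146129036350648147430556952455381623684039573054063692334921452943637138450262998693261874300849102596644587120505615303997968448409114101171292831469034000243507907249411001008740471715079731989845287961666281024082349663133191548862163314573157446887878438980005502319206039946124696874984461929515079232543280717468198093998661424570172481403887355207157838280437788392751826965695514262338714491085521696513268588836896030521769557505025002313651998517529145909080188588749297545675508705167210635605718863334098501796343663295131482409177551201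3093839986120374878472405299283774697003085002270036459975841574854391619936556623161897188533538382179337144426786146518445424209348602352335973096641715483004039872267964961419530159144407861518581462579471290688197755360714505531864673435603214318595371353841227324819441207195292212068037322571767361976929170790349357076674357038765684428927160604577992042216098731577437777362727609043183869769339285512999540750079277076662312853381275807694414938003427254411148046169666764361035654632866033474286064103478574042933473167440522732304347329415705827997634354127433906216823473826691774311783746815224260101214749355562986269699544400664667164398289462130812791685348924558750405522860779392775334248696858568415493658175315690452137832047983747007727456608774412618201944921171633788816834758321666433773678341874076555824495465998156227596721636082684437608159895566846187279754676911594710166718066082261803860630975904625053809826074936172062460535726437566408667847848203858850736849306087890859423227601149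3966017549600254966766004183050186763968505856943290496873492631054987813716785465294097987156944110590180418967233615794972986220870256946032527328759080957285814573879725626020537154120916799275871526081266533148976302468412744785757873477226856632483271405432381419648077805330941616278515451659555308361384849248979461690223381706417477490413611271619112863125997065106713743255533622831514768392124559069420190072520480064529484492187118873441025779034804658049356918750294353057444664370903769178989366543033590104952736569057979830508603864086158646737873198293495076009429886691222735403276884753717158065318057807507991545249292411502912223121329614633868723641161020080256134924644602082423924477876457153035335433960473567799999232551189950765345772939442768529466363272123715530817143501894403142555218932090633173523517550124505993760868084140200394574718177347663528679075871867743874242649002619490450143081812858567126923919910037057783579748121458954635200586726058056686638494964840220728889052152095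4147094149838603292030477953022566696358060381347560291072110110414393690612928973092453293482966139976854890880020472043000159286996868207081781306824978763821532190492420881303717155771823800071350764962536435708341286931307525380032547037800272011275825080325182178331079961510065435574537686787653887938544548721435915865017548407398138192236511688098365973224449651099913758593069791304489540847679492484515435205937549944307268433857694283585127660758256935105622391833172315200727356472261159959722158111435695182702083931562978525113231883615280130044569106790911700016408459707729142966037767831158293389297080818781034412689167332904884963123232961555976917512709686741162717703808959868137483349621648872439601215232380242939631661704370892601774828380054375804843768774349901750676461029091004729660873975641555784585598515282775674372993930834733509908267407845249471940533020400445670234261919423138201687130062871642133238214532208470366806221673183869831971480696202373581516704654605976905591228163715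1990728748255331337946519721634284052692526957638656580846940947539832531926416716235257145951868093689562027961113317604366704147595078662993336107560344912831527078523741711534059901236629136403786716202807946858465065233330585857293466870302634300289617655461512640838484641956163596373360068410647629336174826995151241186665017370840523454988102748605468015823801782564143909578578490696941310819377244458620773907179002452444723852178301226358392417052221018996816367864330758253821669440974590511845860694005896481565564454882930183062411276262245831594458291107825046116109366716636762662930394271613898427892614979631202967751276492182726502789630669988809025093579851892434910875866657021465966368724597562217108756952393740074610961570102044555181348240313922820091919052171582926434087010820367430232940893240219693218216047250602463707490275854174584370236431460810710901838434444176174786221959552516640026041445973314645481032587478724242355735743613869412694864813382261127649779615176363489902672487739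1278648135635853577841218670841799477296433673015553773840920742474904748733712093080370102535994127340866476452551372000263244332055954416798419778620831732587151684669281357294826244321629702764657420833678820097907147255096458111534094733060563668619902362558088191020473959420840494547985101174612542897824781797741261711146402420395822679964159053557942081560569186082061986293697014274225686361870220359475804693324690555287069764558241816845526281672788144881150750209951543255522055987831715872719692915021888167793410587422092209014907149898307099165484271593779487707362770297513725772603449887287409895685557863777320492179601284926411223915561018347983125193675357064254966180398306115142628070345777637105804609771662644867192201671005932476801229244675805865684923229927631571196929039350406530136468817346876336687988720511895957271838697531541219966989681261050947220206855823275377791881969228107941204400666785110015896209763873857579199960413505423905055645947367247542702959900502213898557383014557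6470623773046751195333357084270954189650937897504215426007312001503574645437264109611898092616947416662256251461777795781690751834855400543080497844406071370475772242197810078207345465183908733101433160210859400750331861212010040043136529045977168342181742558500723593499654742577107504284680087645261928012531965503706871803546139086254706096609485610338050003262633840539092829514667511447955913974753426244562360279081175295440171629861920324050441116871367623186423426830202362821807351984465141573869460167585600682842838767633025101750062647982575504984185503358380115814988908309897289678945233275640715014454898388870278947683133337204339725902512352397733614849543420101629795072935087413702908498599862852303403052284553840129737564886173401434817642783253626550199725805912697306886528354076274584237359432693611868026178258313067974701850249571981364631793449202549512941461243673142980948282410726968123197067954113527393152883763823293856154277428156833057053961994273476056222484550246142831031274837388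7356360007389187338096291487963306851085368009115512999750389580393135530352506327006267258627468284066825792378006291220394709623891562690784455792818606743197171989606957256235167964853758492025846087888991405857563178530611073639204919941660358256259097542119232638862130050095810642012261459694018711510645325419677103467239140464009810926818547338042686093420540128022088575162100607510682240097801430657848453759671542949153851672014770049218089700550406342618537243930288174073156593351762831838434603398056167105350320437659419217106970245629230342104740423964178422433987113234590661513803424552384939882064152429464522735905966709923134105793673692482563389554132312349359621123900135410296356615131783827453075303604306791552314259337264165649297625880337369810744554921017993099066700283463497026574875507124391545054208563966864310927772611440272662582676785320563533727642414829882010928050588845602283508332006849336226063058090289885636685928552609841560260233023722009725103003821379881269385442656845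3693897994302358774264294773865946385510653511797792655645988553116014693230340478242940808212796173295888381319482782314759583793232839105680108511889096781628128755962591092297010175632911331357314357614977853617223148586328294015869914571342497069882249344790111163449788212205329444994459375967155834278811457037949514050763450514261586136684204151805457794066965342278704499803902013383572799250652333876449833865017409460956031211957402877811510609525293492048891473755814808194256970072853841666855476473187088112287155607343830300286763678755964871388215457950467839886337984925609470661751900330869202531110714933432240542114696750110083251252259504763846083422625925213900300909474843285503901415255978201686746404756692651554873843797157679847530242804586318640320961877463400427770026196008449197258875648965259908881963521309500154124422379365485332385457414640180138607992358372206756279920064164678379024310461833042995336035894472533547646963999337671248908673089924975671069405907532036537089428130727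6844353489803035303567336555764638503944506648862312492686039380086485269070403717603083118905087169285174255884862493365434992143043009078338505479624792275864907724550798115594968141843230907796421807249214390462503151033348158018320902202718595298207864610266133523082803303529241976147423596481333561134717773898351624125784061847635603764881982457387009437768246539249856147560025383956597245922380572781184135247926675909577382888579479580086209541851095975103980960992845391141004480780502628015439238325621617963492720211240729600793187802732091427723809096702354408934220936246553228744389146922584634032502348906089341766257688163971997111390705513359250048226174254753929614866992923535686733763526027701517830025125592391483714776085327483754826401166115382045389176111253302414208774793875699150998833145367431647908252731183349489060712945872843824208640369707995322286871362239941702130758580014258810413914711763875891770635756870901627479528910097392134100505062493324878740865092153606111982381741933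8553199950412072365503582875606239322463476611108528757687803963235738383220970241036230747832270369304942026726495638755835322403998996593620540612414581961407786213556705594372324848953967666551504864944937135737716968016150677315330577650386291881764918742474435522958980711063400525011172642723052023220624320132936767598635642591143777409532656384032521450941835114629316083721857567143251257763525308122296130219971335725062928821518121786287039374489229265455259997849248119182609598445530742629006655005454590081416422319190892381524042085136526539957383273013566092578472918324892412633819053042515606213777337273398784044460601384609987067725292836667056950320712430562799814582307425812549454981030071915744268754760310074362602508663945884422828058737225726370111024312925426075055852964061876671974852297027178134849741202711723649094026866702224337044363430621801359374531448643056191393176375228448600800695310257910119576102496521273354534176494256309227665904828369614597748166488362601014397166481599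3128338746208471505617714839223307233314538159429030018668282092495352695760944925528792606162857452832365811604848502685170639880398160883075196344737842263445383413698981251364142953387490850886219396857222237272803705464942723147350181246849558033717750346896064911785641605644086135872171022477729851295500049634688237598683109222272636408015105474535519982488390246053678228301988631155140845108458297424260548851208353117707332652545230427423914145174962636267309808058660013131097266671313810066042755432167670612700477592303944972914725496937908417801430529574879659703583145336481665797669200804313659107565553749916779123130625896093039170714310786546202708195074870843815145125365433393659052323017782773221087472194646683681845721137668709653744566718774514021342628303945875322894475145511818611696476856110919921443718729192984572210893733839298190297235452162531470513959471913280447293296192872698915511204653608985546820388467101247381060358966682953184034633525249687396197490720954479768394279585294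6824344542986105798564957200557436578547885116584245334227738738520783854299693199194673859570776319791877466409236285847239889286918363452816180255338669023826210026550262155174091119398522266638234388129580386873120039086469306027822350279367326561158602286917737276747589608728285886484214381775659289675700034452002002238407417990450478877728178841916694348795328650448269487170489351030666175053974956680620133395642469730931712705908454704741839714371695408661309505678032798338176789972401213248137549543089592955192467235839989011681229165486763877963929288492799276048516800537029693118873542245803158354229814759413380063694521020472458795955036626765111145871280013505317377422602428975040005317481089136590657916552787075123652880928123380679737143538621152243494898358390194975148079331829832725083132834372572484209654904887310388496424857683922167758061419120359795828297468673832230286449606394309075476942905483049446664624327638026136659572026027616486222508415130868525318807466387537752860153178769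4164991153712725172189795904138867999607683777662234520889183585206042769158184569994794480673986676837135471730751076816668507079033273398871330961950416072565471148169356741891756019236701870810260416108630306782689843406795539967959550192963132582533875214275913399576907511090792027779288781546561679567766932278061478600993448536289066779760100801846377093474772720426993601006904388334237908017138531692297600383422273744251747499573028332638044029954000612982877012003746011457262531928657916119721503368356859045206935133550804056802556844768872744782279418153933558949966671503802916208938707021367958551000844562540176407713949943601208016184687855046584512602889075818887676976102803631080298258609222071678673570601792991094257533559523623402828885049913933588414032072066367576562163187654024108754794019512352772871575259400141201797627550747708967497711532861782373929942749465300749072975695902969807863410673616358711354619164447723641265616438419287858503854439624030840154843168853149510350097684470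4118835735715279836101270906177492991957135579299443792945667739623590753257284400896017107449460118567102556478477413313186270405827329273328425064826799057694525394020253714484824928951894817106802119092813591184784644763640314578485620172274367281716119539831077002605034241893511918369070004267392187512738294973260838325088438378293825863510102165191247941148989943599989862242285642540419148668475351339355285227205881225132329870377063544355002835853224979423532657029575432562813146335079116139621237083893493615918234244931636753650087688195959384167715370594050294183003776587162812972699395839501372751442043866329171456945964721948673382978389701702605409795840373853707243314813137332563590460298794889646489394715875763840431250312898379707878799277943937496507266657951661044381780297597891868166044975626894067399595205163876379718064660483738662786793394558101023177613733292548873130745894092222939577049519865140156214957789709847721610275915327698090680509397218748978273836882980750592847337020020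8238307009550385334758446871774758779766333108636905009274589293717171450487048331767917931662222320765118832622770193054849403263743049733961269285257936168104650733372025743006438571829225692150763900838076447632745649922950150962722180452181764423317205274317492439396946452411629888125366941409280002209661206593357229847462391792224457875664477006962036201249471941181211074648581625698241844782536760922832747029941759229451360111686720642967623894321230704351038316423859080525730567284150961915413615613006247238116225733732182265137494192420246510048821440554194082217571536068081516075664694241221224134311615896737803930185987989598418884440518425247926597759444647462565886060293076644600804332730393011448863521388325358152181018090192088940364510483034540271654130165646897590627409588494964511049676910772760551053746384033917221624694170458947838866208307078499567887652492924054253533036827157947605590384595039292881235288057502891151520441277901221070269553403956140277942042741031291112647460293347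1530590946471030147627007968508772478623448260063968965100506770860002451520594854022843209765690778791317919133241052078869048742073588930203104238506698079446091117500248601981306793171933416869451302443251959812251013931201039985282442536844508488673209547020771219672340462567630873838620322381377306764666978754140948956660601137296556691853966489194785575099521885760214522054005796333766849217077646266277280315766156505183277609910348603135415213456242490601222213246828036818490141293907930540254682858835502236717660796418386271967865104247774865155219918215952899678036090709387663745560371655855647642899148221535922340475244477408428202601295927018480730112)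

noncomputable def rc47 : Nat := (nat_lit 382365246089330147396574652036787807155259329035176373776816394150974880020778976863690310013893123283708552212504605750274493954953597700355923243861051249441976812192556240413979554484728098680591082247678306190330823778233931562290070865400188473413355114589896909729498736911358454353368141935308350919577128493844072654237835291127828191344115152154220029416941282507796394728167767451961263552456172560586483501137234217104797965615504935093120543515674908295900319705093670322555929441284288195829124147661112113242854537580161317217978311387934709206605011477633332269044673456088382987927602968108080629697025249311376547309357547403773380685474744291815280909358752655178643535718585918360652170261350545747703990380795364858581611165495094485303908843224567636700288453852379018642748077581440298430832501033992937338775112278703524480950389577839611510986047506275672691467318501226319316916992364542938030221040727815444488901711835800021999288604983978959139347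7229233241221832106044876576154717581034039993369827580921544618666589099314973449075450646240746807940293509843165773083440115127553188702647783851016092905649326817097459255872063585669228345777918229185974255492667857108520530029493743034218653107614484477068878473189762063919498103373697190119986326703679789591745903939647016254349913820133958368075884485676827731953122352579038632312126549814657007452925253631065904035300486869600237857260501799325039388210675975315463767325755324736332543976472425826398487131577313004363399083832660818102991157562659553867975931920821752022848815708875093213872718476797331245734831671207357036210401196316159919547321076861537197157361164155280101508475505338570661453099333728644326158415333146076705735194350851300299071565465209988047666020361189813466170796021482854809671177122012588113753981526332849132654835302244326206441638672172264767043036558908251034847209970816104424113418502966040592488067683014209516900243345171628549012229208181565049825547163869039810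8513279740039949572590261758125911149899429027004073773814099425794179092526659992771288968564316632115121078426139523091324795503151269714907095929623817264305365489873112145999585045613343600781559327861004752895860350518827513462663501787924452604898163230450619183418353020276495376025849896471094006193746599921228003780308191273745253083884525316267537816932856349867992985974811689996024992380394137712567452251404568191406215008550883619982256249469393309149531704396271055071924865035397183577522522226050950219808438811744303038837589623658285443395870066263764245577164200594311594662955621632241853681783950284678210198073296108012632630851385727038088643874096704912845291410451313228076273357286820988804781521229357705208898916541273024502587217336906946736947073904281738742184015371581834864100076802547339805348834588150449104103249117007636125602721859075229326920028338684020378362786797572833655373964736174660983946258933284431413653603601409157060571420563333132991652036783987532691736301294640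5984870079398815014891058934433641480064427441248517599617294244441986112459448677915036206409345625707670509042049580842734239173306701204975486500635778775725313698224505944697208189013852929355673430230482568924272868208660025602410188709611396678520854686751930639148371485501060993099372252428450593776384573816058911112758817254595292548617951174858181958473684619044463318570711899662922392542583745212794805315460444552105746306949251216191814233295495338356757500452865382084279817765469287491500666538671331694569527281749185112087806531474719829102741448271630942632375363181601585661867679671686189067480137841953383383864304010920407099690629211928907906477828079838077473782297462688146563773569162528617270683289431773615348185363263476113339209307749618942360374206390273467164002365229761060954325657310543474032687005155253647860275949159482902712982459261601314489327910701994451683845934863448619598936117631234425838004510828018599915544470173270062499916283088509437212345913840284761990486952168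0965057465781319519027238061060664703693130214984782382487244727307626926959943864417957143143960670706450551413381374511212020848355779134055448571481268501062958244211939073756338360062117961031890562288419627802049052845946461880772193196443855244680944852203162466286726616701120697736231803752374418738231328419270121802897763233377124557532198860809546490800599870135565566275080812177090481593309065107595259265330685934553445550233825504140987265956290398013790213115648928068124799820821745829558242431356605725244038411648759008205182050198503951276531953447595428379462054358084125242716024612415290031194741827972477896745813326568989545556249405697524637991604526157106671523578480884396157656035464123289786369752666784156196640324113285812758744016631754491180225998679722294606125431034532255698102222602176348338679860878616103866888934029060254409317153356947306650104437233762466509459491875573254422718207739630838667012095728029667201470743914259022420939974955617931232330455208089062857143426861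5548248446691375964790655436330844623811143565700101614728027054688421031692943146857730702941158652838051494192307745752194261310955973314301942106296322883176402476049018988653670686024559367340993336705314657169019674758018709019196781518837278863909414829455624013246063916711534997853406769406522408293693451534029600115531260351196056895322801068992032980248702545456450726128859574881199254282244177702153979126116186489087244209695631268300005303107459372718221730162456254697163195585113875996082296097837905063392409700547994160366837837226727137615386387296912873471745732691584513941546610271930566610554720752774877728890744676476260092228804599299489847063106979855968337131911837509142704686002786176578450006738559825560777891864383269162604379176639921644257678118864626258645202936724971877550209328357573278027601969613224156835342952989829312036305700425964252463356248774592364984879992127176091268352965513285534380522714472645858536718118302638632050811501663628707035645020169793714761801313263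2918258091375007011682247507894053480048927942352198681584617277968689115132145587865450561995927639129732277636821863266955623183975805436203672184665879958974832568988592287365006917280202343974822132935397620628078818364252636329319967378288766446066747730254946606699992732579238394902378876605010956034674927242061253640288939822547479792989520117942177717660863471948402543476234971302997455281268780298680896424803314302111203063581818468230944825730544901830406456295412083839496306090074478873355361913631514047322027873697140709665507886152203863413264950642740675151523351024468588096460873131744281617487915403214723934929351349916752961978517286523669448378982964647392011782947737598027194564034176460183655334505232495425149266679068293850511514745653931136819596277895247491888204207958226396935033876158103071140044994800746679728587344804721853032568967123285088226022058254867355160734913369732935152837611249673903661815227584293545709229916225375222477193397263018900534493263360434550325457147184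9897862506720511834155629365763833353638133451525032398994377820785310703020050085984898703334885749842162652624018975061948573039551593041540780502982299024188846184825959043928875834406219507843604668506476945565996047699726257012077886045207430689427790949038924537046622363093375492015902425565727996423208821382566650102880013374571334698818390924755495712445649089019700872898645104415552923287412136183407340738234336191707276769842135460793539700245966001857077329495683630986381114786938981204451872461857649459175839361270541640006265267736574419176648861865857944138462357239671635848411977077585697406485105285230117352437446918388663399960080307544619515384684303151998155981138884538487290077060440447131928649533656022426839647980705884019202118477180470059207185732825237105461856678632151368578404745103713146014593005221539008158836134681665241767048657527193407632296556236199148573249065500747794634941422329265858152753279438226679616577718533164125122917762578301647107700530177804510401038069911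2865172021780146312863031950556342575795356048023210735197941551193783145624849259078131870247457997718589380073126521994342130661816059331939869217499867839530292460893370451535730768887912224739266196182320104566266040876939337026100236248229526475959245321853848592455930794359016037475137298322284518202970714772918023281108808659588619115063727738703704744703312163595145511493255565175981334616559470427614712034125288292219494502500774963044054415233297187423680967682789792417442758477951538271483731475007020821357951910979259237043596021705364201597022311932351397221776026508918641124065787899904875638361651610620984918585317540282665061464663682361841676903420827278632679484569077333162810816105677884297693859032973587533142802007862946077231948231237823293981002878645128372164819253735819837141900559001785851896039101238341872715837299713623566920466158414386206186179855270649522809786389539326248717466370454753249388020948268643796908416077641727718468464276122505290603258648603190445265567897494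4635619826653741600623070255996017276628351173767104209762204704359856024788773737180596735235944970502281032629479847452508670704808316863049199755657974067290257817456413746031846493657886531276858948066477530933070270148084521869876811020686888591581751837857749965565389085624727090978756166621654743418119035390661873219959671416580646073026881682646674609790478935033787940476346224212441264566263834710213588894226415519330411771135659110234937145527051788030514921554986643262789580092444692830810055788730999657591446093568618644223812917208614571658101907693248031753772348887534628620398313345745239657877429213420108630918999263135396198881662776478334062531161342137509199966585401894087748794752866877261182455734293801135464664328485632360682833326938248761298652106793306827002169358117982485053917446857283255762219962851026480327789127643678817240797654996557455048097921526068018914236763562392099270837163029383721612767350234516231892657400970119106067308602690651264577884730844584196399968368776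8199297765262747414764678417007110346126850642847094894268206090640161197188851584037340826037875278433690514676843931785877603222550361266384431275844023326932123832462320132603463789969381162824367775442586840935826191021242529676365968102427790909441997935074506900341692889974457836211196857771296073744247675720955915208909210361762183273977709784239881025057888581878277112657003759835610360622690672430595191564262128536327063992290727310784440801272943759556121119755759348441870780845793461884988036467882996370110491639953107794563742281390303028628882873608271664367656617087494452859047322514288361918723886145676184596543382163846323242049247625508900531282675151917837824627473096431899181234659024831682442351272044566290335802004205016240827617794640970704289646155970846716158328182394915679913499995939052266976512657686191773626914123038458699984009994203816065816057825971520520892669369606502154220124031176808395543502935277814613480313953596752711302883194338581672327848604881640516437884220457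8257151252352993956995000142338882888908266430402647850490959954582843590500663331178896401419112894932829706860201941337534245133077299350799115312250753361617472444487715388468308096000885621626720955543822962475574162257835203372771404531737564653038212601919531226787641549698111365736496822873420346676459516192169535148757658300804869359924952694619396442861487683820643284909023971237904592085467393732653637027646568465556020645333397258081706555599745985884883507436806425851041794453483471607730110118539615587059209713460240751852229679614618612211601882654810648295230503417626809692717666780054378546369533240112563716438522278161623133892582097046328928119909501566669438440528143367177784041006274214510540526541424005737121863358746088967455646345803861885822453951036958252703658218364132264619714471964213431538217594911217685181513648122744361328058566300939592081389068900571835024914617698875765460727916816215606472920326364425590864659560587921792444908970620575661664004829958639513764425443862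1441339864621604992011995483935612621453765863978903588267774726264521673438936959237057080944014447880868720683642885068275860289333069487976835235390006005895378338979281697259314998006617916713870591010960527059066016713177581932095474668951711101533123091702149127584188658611763723166877141924214709897480935804793296005535812813323932086264215252266627567086604626137144157789130463003689788138748919184207945403690995012011285703134722882493309085147484640188718764460119420527300179656768117774687502450244948269058615776093324978178560626162727191832313321317600041890267657812461776861723997217209166332792450618808156876297716724137533065396642274340133573724578739275316073944507728876053946972818954732639698369544909520903753479866870240066663936679470249179605902734609163173972367844187165044674208008527394380488942891230273806910301493453362841195883965429442870779272604965410861484143467791355216687786002621513664111752286814499328424930905516401784067199548266111772161699776971658379371877955186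0132575065683147095903645259320293333897169951272836571627733622546607250532230857733551157599593358980454198807806315090174601720156028395347970471055681517054431700090727398158856343671262588220248779302097475421392283747109633884483012571623977489224534979132638843870122536646518509314797433281203929166459708250092888415350669285248898480596627571344112127941138542847788666284827001211521881355477183121739724213153222807055914011437901743941184980717608048218006125021365466101260057429412095882871486030778835106386033709952677074927959556356648526165632743302024904844615715614560768499641103240726928174944136610607184185518628318973274933449949708794056372348468552358571074538693389534558367370315251613464734578766173242035447634564122328045667382802782570371419224081529816606098610754798112780048483679079429043222415993426815274274213450272796789870982251474269845196677179066561495130336806318186312302429999943811558212960689345691704291163403655271015959956331100910944841925348782201991874491972147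8680364204313085688240449397790433937946619831059343235190708937012761551668025386519136533816829744805776584113965535842202432096515939261528430647928069852663546438570365231167667137739531428350375238615902393241842584939421895061953480236681289176144367192884191243933524520798872609486975775028205630946244265546257288453193352809609163390405929155014687660879123870146600053062111108234634500517138200427735383436472462492443899995030461104215882181624473163962080153546488796617288053013436875000200278468891605937463010771718190908863274072605123896253932831469144578191890245372681670052114594984439885813105457987319294348338153305089431765214655351025587331977045157567726112996790981248102113919701554876909886986920720649211800230945313636379666403821405814491351660338067351848068060535879001526277268763245854389475095756073571134923757732972247119780439331020770273468557639529129336928015799520589623071272183410979285516036732954130692118719631009777899712942467791050068287719847580843822151247598878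3771393314766114614656897859994590446213784288844331826805147545370055818262929427172937880621217103955816256404624766075510310555148630038909097304854780572731599798931801205098684042360421705568450644310772741152205218639408405291325669849638558037257014632433164667367651848962594573186959105490272988815040634033855798892911825311761510206314200638886383453689291007979170430159570179258468592911815963995306235755867658826597909214319690780955416649608416862219277198117575193200282716697082570287578113760182458842511350754618939617728321286451039102067287527208011387683378577610739833954597505900191328141372045228526956727232575477966674501973286031773701802943656501502781992395721318900977861367441365097493309845068330979037054331979953469219627839674821413468984367546240076235848998720484285020896812772342245515890732739467623072049714432095744709136450278577195762912942608084116717021778070662147331972123245778045036603672269082667177220223638408305525681306442079957068009687812930262037473548357679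2912449783140729907192380678967029129048272956492150179159506825493560045962207315190951913159959807224495154203202114759327646801917036839054646658091720547686807174951222845591849027023512670726527818660532881273524947342739136062113882773698955475521451121453024674802445120420610350360239775948990802474924169682480540222128991657467498095622704856709365942169679047003793056441432512911706978874169262715956999266265949776410437782188211263504253016256404990899258487124111499727883742823279704526522623177229572699079942738903165979613642311791658121233028106721426656972635946154882205367996663868273984463750684397305664397276020816843707579709835897172545500914238585754313596217885723440458679399314037448848497834974979797521153940599117237621541539791438557718681264459465575527137720986195844617559136580975182193499690038966940375578354489189527785044727549381229552584202849401550149454156912407928788182065464132710408499525405941112856154400784164327168747770937490373390147788412577160102453843397578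3377005865635791674292781493494316772682016306780381084125012411195872036766680008723652901762209902542334810739574544053239801170005057988220342404384472838896853974048782251027802381301852208074121433963931276535915844145147603842429416107768990841736816818113623909227954631778779940894943129882149494869306796246294419588277966616201431920912322962172573630701768828388968629563116508443038031889183483790271107680428057061995507794930245424675722886026559757969885036597887193636731904270103015233542031649433173153658810667125693257205766131537857025629352328684793705719220916982813031777552664508948583647387210420775946366748901442972111280630226597012981153792)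

noncomputable def rc48 : Nat := (nat_lit 382821018605031144792082224964682021162668010244496826468679608922636020806293261982483376205526735298236410380326596447136150301751843490213354641754805012923019363093753947332653184633264560375163283592467574463009593944900331056785207102855156159431240366440764822696463657736714999488067504849652371887579636988810916463564684741509576757503769673415675372855333184571303644671778372927853348058876413297047217094899888294879636384000107167857379682911504091632392812306634472553295218624674026730633400575235717644204744153920115405492072363201190525612407579222205744373895531601145458994954512991011288405884161652583157943410989348538556468481273157792404833721861124842270068453659197083070052486261094185295739979949195931552901078244384553226953665003419672080031576382395774450555494654396586794381205404032041035099659572785061676089207336993573377080770378214307173020589880452731590202105471115040478663458242437296232757544112001847468570501636894538903716787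7301386654062359637799096055947735064494110508980100157354306355733955855639863757021066246142124893304840658621652580907522340488461250588413277648250955392908462612461502032689875428075773289046302965727865336900564052732580862535676011315703850399835603497553621065730712099168327186071794195205469728561820154549680578029700745883218386235157412564307101386482712369193020657184200179618979855218575002196195599225345067631722044143378849998508493182336734324029540971996915580162008557261401294815819197962942055476408093373372134844368206117892931053672036180030210799510632445029252238195541884947330870598966850969801497760116081530061899240427004036174106922537051353838512567956953485772833961180231177024561567614407610457456524171244183632288436282651535588239408565692908088125865672899935335557324342279554140622804982734926161094001092282072722617020578410106825806918683221533815385520846739687759722045870326726821249521070973126259965210387357681692075446355072540308548652580248664401241715491747543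6258170233548208381566074063679330684840933723641033266134485543752627063950752551132732952741044359618074631202876196465540368672092154100571618880351272593704419353702589270197374089940825217484324427815935327575701010223120730023211220355872462748601728711344943864437418879410409287572800554786784667049622293608872310665572808137406048181847595114209468099233594012511626546009904220713575622484233063269685846245023433016388170000147923963302762845389363531750414468290704645019959215981393458067847673672859410265763174590670344762310197123053378171906427179160925876468296693509308537472841139725808598392421571471236690829269610117726733374669754539478639300016205361628102177400770037342237120109010092326455171823659578935113272566358297896160421424087107506512789339644645022327711037661838787136093120187761609431197091705522474907601511100853179783983609983240350365717629185194838985185594096918690683835696083603161101215833184739251241800072335780989173238986562628173189439322190452930392843970718851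9996143811044067016313132655610107633783243503390596024577757755979232752464158115397832155687247881928590426743392111775911256581502639733864252120337199686362155507850822890332742194333908495012402236311649042074386751682482084717929905208947853891060488100099701680028480281675752898576302665592408679622740778196366541392505065509622925100084152984320613396732443970413198817847315057594215854887485146559428729698757215766572904515508723818758300407938576604214342858481515906008176075720892605345131858892452175904154997335391842519631337963002766753226885478475342566022704722465322687467790791988617035174484540867256949747944045260526410612567968842776897978551633308412444814259881507293479107186195016586548317475085400927055800233128086716517743584579429388210144944368954832272490163147878011750886963952139421655012577279609616725939451255909763056562887593972127915683850755650141583284446856683311332284204105814056229209975221574544465513621119234981407869344497230387561340649847484838380560739077843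9505029387684606464303046318171897506064317117595282809496988202789090253557508888979574630071334929785945959557340158160923671434360342186218178461677781556372861762430589465642899631883533044760679398465939575702817710865258761308915555854865089668446616673656833813313909368592094571723753277014431326781499574763847870809884300234993771011907108289907605920389097341204462169509055519733121606410448133440095954675971151563683675180346372919866161850603991069873460146454783104813468875222965541992118874595954417405595822436881653436036225819680689436596747400892320004660654958075698962032975949811584827945706506233873339447323481028054717272908424475992692603306184187835454131894971554074738111867861308857115686183759981358232761766564186294467633275368213839160874845662586971312960035762279894219933352594011940543417252070293359875038596120672661801613094928248987295262985905514083441208112973969164028830854372128297715305801125657979222796606225807754550367119008984405822718375329364207228522648852566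6304276891060948925705109689736651655752259576369007862020343946222305492219904077086871846847070553909370708595783380984192736499627088922698130731248046040213621036234710253270438004666812024926077048935769637252528889115788724183155032657112037028045480655702115314178925282766360954100157595057097506549377486173516470989139798457163287563794063298510323590722058688586211782520041675154837396113488964370197684788335508171571653329498145547666451234563757491989695260047845413096257149249132908238391004115734751397683890962979219441637574976293155856510323357668005186024814949975399908344552415811437460891036748879610176726785762998983126854886686621667768324743892775098581805045116429869636701922914215603753073354326229492354422461757855991150659266885348102031737772854019846578736248573109905291675694165557352735465965927591689689957268323990331863190741775841530874598979595903282326011524320492439681697820752466379903599823365538501186538356069138340697215033651054297748952877764934889735279150469990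1067753997146878810482137345760441034736273838560075546588776117491609891938721439247246501804186879153693335724654041524718635874751328482646775289503980498702421884598594949136791967873514621630090059732227417525292757025575120392179496091009359749623029265401258532682850021033291585520864851652851818859222342910842291018225978758758278460514005310595989090755648428330293670222441359529599163669904595934493040818386792486136697269741784293820693664023824969637676675206985376769488169501879137309344136517435769027386466068652199863352458030607597119666501326648404927301245713784387384338365183882302097666988484294290516044166051285999926115371055266673939775930585992895324703814023898706838041927544995606099716928982346715251847007324894491773773931591500409805672537950978520766508915601908171649273663898887779567424805962951183908870476410854835500319688572089582615095209850086828128488117486053195341940107159703416128998634119178938027359230975136385216218467840388895468721317590649626842217530534404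2576303210394202443480956534201276369621891020131373240582022094437748136397560235593090292189495085680308572291787657978724507804914437917326425465059689223210442026790585648977659745230413592339238438887507268608843365794690197405287771248350454497762706879994089112144709822409627924257197350446433390082249894515060531137463430102408035170444426302936893407986409709763942279243813936011829631488924314979311283750493414335264263266574459507340085105649797103047408209559704797625282003383844142226060561548566387548972118535249614291873205351226136832437943743442050116306143956821734064612422342686765091973421140558427637277339196696172888355809218115391485333658817713741037512059602895963718845105980131249907759686362340359127975467068865645623405179393842490490011978701672575907095143628491912994258036493695158257578006728178994462888914968992540839926567815233387763432847749938938757780892019578146801183735725342114982232328437773391109566321007647625860514566763327957734251455515392407918054249307696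0452468157087959040907418271221406182165293104776169397932851637634466969874425593089132086206715334010891719790954167642608298223338102182685717307486777962003704160447668272437134128165001000803735894684987782311648585038016845897596432966402197048132898761264283946639894308552849705455413622004123720171059537819566866285748039836601580871882385555676593560288068109606624239060941706204663910210472409425266639500820498786592768964101146174230890968259913051328257626378983471779279888481798018679615514055936818033652628840920411098650763748178357661216656274606811016735184663197445774638512847787392688821050593467549232686940685332426123705651972850080833597095159779918708746711059912510588262809932094081258028956453124479900123919787074827697213516619534343984667065417312644373067312341589395577942974139635534930761574708645979880341932294327509650745739399904723855566508573775215445301026546075566869830723204983830885134447093283084380155548010268902916754624246041996400654895876482311177084242384525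9935656795991115632470497162687483436186662818409497203032384999994007985105121120756956733362693694866576376164640696533898194274183354731399740815997728302480665425710506087792334956685704678987926307584540378658891707524586681997084824188421191073160329167309619074535690864298002171763341932806844435022543651825203078980203465930064341693202356477692431674376443554183393832500922162818451820739900400221439149229606143937750472291579162192826328463037165609197232944409143337481716075614674967671998690491904610850581429340586474696223006625717035883882462795060160996689897939441427860538150381256070690048902783477081057477225954893783453783238872379476250822095714531324161001411665032382345780064302513767452918962144739450616532897419181711170778654717363647304406369282233252710095501662727982685335600145568600791008124484328066411196440662056646742970346161261040255738410835157468461405211858040063099102139721192839852423083844992091798850327666544256602727511809214532342383428879183776554199756114820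2996817891145515078821531826196638499148132637412336820112797525528492697441877674926894332855618697590410062430639045627627332447483799431244517773115043059611372469013667479605847163006168738857527195626162599470527057774853274841462912011665051006140143666815486857238990834062777186404484698533421393875749642113207234688595800543993943782013484686926027030164941760091829220406796966319659378313566023945601672007210068980491604179149244996146938900349171623015826717934298140279715195745453071609480383736850901974817119137446443453511240059615129592646237685337252735921827821661172027070808909163272919703100024701488508848029390709871203368454324287206652011666880794470563586416208654060725683289367314461844897905764658110634517724419519309770429933640464789795345043550216297406456751044338386956233786763638340411544836148891900559487568367098332743584533369409053046748117435064869069336306454400001678709633886963661608041444051070941302526816279614391744141861427672484333861516361299400581104266532358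5568553790223123491046801117350611882326814462096802489544602236572661429553475490604888321187628386970387012063903734522961849460913919292179278834844227195297800547725285528575076713066842745465367227283164020884732091811972930169623979529137974099984393417718668757628132816128533715569387658221813417127141581741136240500528185918341662332289546269936478663755836840890253132139530838619923565059694617550510039509565845653720765145536260895692396190833480618873812957893918901089275419768724413750833894681373173507706296002362610448148011639536862234427128132485910344399645300362237387346090969723947604218661418722128462833028026658359713761803296947800348949591393483587098176074044801956953772611231183768464792288842940073703892438227138004919869151199359834219093030999595457378265529850867180425812555478152154978139250258151556027352734099461451859035541754319388247943144547413066600993513793009109332646012691141786665709185199893412964797275100598735683973484177180860789733961866193086582569230356473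9392391476276172814688395303976797216233642332165617304138568797303792934805447299563192885857280350605722445287611373964460786787227041372673800606132430828711458585192354487345996199694626938371680121256963763493039193413853634533340549762994856294329142179994023808319674302037646440483784964326933378674324887533406829745467827376974704566517195995954735705998903768932298415185887687379578197120184472670712856795964975972335044905406774632503135286625628459718901298770273600206525170705006843884664315921872133684326916218956875664404447194829476106223784577616976345283934846211662199822428530081306115051941608417079550684232983861779725525419140698469049939581717582137862182758674414225493241771632046736339633161817355656048015301935768847050181540980489557155930087635611282513142642558604949214631891260034021934445283914945061979120254118522864807418734624825630294420417747494838544983770100061688729374606543798038687899057141005357686973386528827757531439250703009448859206416787401989060218414373245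1632306574851293763940381504082603455434410259802406655494553526940441314201431232263478474099376079939300465072314715893683906291782316249304501859636402787954960705589250768179721043281476682237718469203131293586967789904071562581517122180637367659164515814666901555071433905588536072934372431916768717741138810889670626648543825389355317904535039196339813548697393469366516032496601618373494886144902972199730517068189624565730528023466909152421902507707628587689737471540531828028820700209658687178064479303938236766469235164019395171103578480961614985014900992928669741045221891598092112383814619027303380967553394257233723443729047562937468532578878532631793413557372288784575318348316937364145305089352181206473654310160288124118909090371852720951798336292185717447189094453464721437269032161300131682697652864215082715841621052828591784981144886842485154244091096864344880437929741548994291016621177605243616579924881435551287041337087706269727170623641194155256398396627741947314767753899767489878021660197736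0277291867523652697988203319585378569177417025999499085587823945314002443942434477774316072242489086117583215929648978329149518175261088513183204389139936666574830651592257954397784216102326624411741219880061983881333494770846510638900505275789327013396712770865026128629866981838331020060286545612732504199624566701108638036014779064374049800309985291390536779146809394921594928253234239019245960019114248801096162549277417451421240929918139489722414394465496661959801857798365262319453452575195860744168233318571724038769406477792914019316151090084395859308243213399357049846180289870465710898918595626339729672096949169821553608933602195706365934940952075949948569748088328337150540299763710525593110721494055747702149183540720348797744161387700639718090307550137718742134764351588060879613515058199347761773803974613210022901108298721508716053937856897032629205602202534917622976098177914257517852105348707999543492932447661413291625506339894352918848277164697243235287823242238289113628970114300184640458912916677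6741674984191563242117195660042036340368089269066959490481164435440758176597147782176765697882441906123553117199124646914776478038336808194471683441456763669288827659032533429552578548784711557835037131017385632783214969737600843254073058986004235582212767181380241612287843510856718635535162220270619453427698391296473631036633659682779324678951410608906661694430940400854804696362044007818658709295892995233185321053165481388897900876830386574510220216156690891582268267682497382504135429009131891383030249582749620009310001780483384147756686194839075968051240621857240554339614277683969490803186167347476578051520459177301817829795959871584580166787036737885418194917342343054063245834689469105794492530135125563637340946570773532911214420464197914689501400258381410929321598417478219778678377484117002814568512985673465393757489686057790546244528706544808353653497346067145979364840991534362211620438643105504117900278701884088509139991071001414663667338317315423600016628687081688282808657307819080069895880167627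8546766302272625773023097748998335216765875854149024903250568124642628943142313831379488647146114741739843281716205542136532361895000938819442088252369055269914480452624828221043012817310287095100509033968354709267019288299102651472580108126828013788200450831605315670769913600263104650509040122723664693847529000925351987015959971936045072719620228310935385371504162514900293922141849554123989315074329433897632141896462396718901005697451464629825683727825170032949708191296770592657261912416031860428527605732074066445284594018469548354775577940550448691560661206475606295219539527871216017016159483881520317113753440134106963236250887417194515632582494457312851579395802420322597972730250631641441949439988347416390043446588583407877725594827142765101089896092390139304500483471574154673256730087301408764644919227870925043618217876997466900322480658974336502926374806683414907677905175670059009340352983455540847510947425497091935688781985522352850706598400876146537072538612025762508025194101401183819906211136190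8656042013390990364664859457981693760546353811295677911608308138276261571162212080855685645469015443429183298717182052073836663802613875166356797294398027667771211429420684437334832752004762598245338699673214786868255753106341581430511586189401374293935073727110764148170461324131861136920115147619559405161033112593707398065765583573792684223811998283376131333199942767395015168638348313917766349262439689239806502910956867627971108515046392453507617186159133564313064668242526491322993227822205998832421438131742311542465763648763665425844099118146280440948339266537256248672425977968177302730528442891995578213419986226797050211981849926211162538828654010648015929344)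

noncomputable def rc49 : Nat := (nat_lit 383271503447759826246410967487323150032681975727262337325609486815264756342130061580815367384250823419474803048559254430905429634498563676167347177730970717237550747028767875318461729120300954759935568589753268622396159754879231856927914112828333565710131579129715348780127962101055692660599090681007707206324918840764246733491647050136793012139687804421072802349237860146649113373386422727436823178640871456210269723598095821800881539325942626577247492394445542305144229695829348615701440231980377411934523946240035238606292207733106801294461607586246178575091993251780550510166474808974156385161303009801472372702340620542720211552263906893262838857681237505277067463686771841230506596048662269625427265276733968938027491240809789495751934676114464893471404950698658497443436322685524346608394863017285732372923385620948464961463085183013927689198505363471752131603579900369674465438130158102269291136007641862490742449722665618490406160457243678681668679746372446451818628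9745148311513290402938429930858066685537938878724373279293666280277325467883772751293817893980504722721945398279856864789387534771655953512010383098316822600771601973103963202178145743091446775255411396794421392656114596149319380777221903043517830600033567253106066003706763781558818326910254537495718528859962112320001654357492362882962743578035992317186293296413687885980304565940760691238892529847721879345234683926607800581951414489264680055869590635290631440585572605541869151832976640189167068788237017292728468783086488076628087022494860963287434710740245858042915217684201895854580339915521123256825479786066970918203157218665442775337049778380993752257066954061833726724425835025214895737656769811003018551339295145913443857651808716238452879667848940859483594231135535188726200103467909496962494104474033249079459669683949890825316847887679314382280774545017602456596032456442102286545415444259845982921592555326888406800126526449298246167186101533213542443716866580226570652933653704288064492608963832939689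6069852399525219353044338498990242232954548615123162735319807632783885811199808330154744159227149253182642313188897809440102003117232114372905074960773600688254700575392649165425928450629167523720911033604282336215387130333724567341895890239344909429056734872277270183008312984607313711856247487519717185581727341223092971967347380243358797644905155464134761423314991432960684718954225939288078037666579859005772767746421399971181038005031234252668281078559606868655307186519214438813988747824516867581338846120397049179386607198474186926303805004010719831185500625645461066876506440674773561275813148873187413032108593367429197290311934600087833131301927812416496633921170575316890890696486205544027361356376139023994939230881602458290418600874437112983882884397905034205248326425905968106274851835212367699020466975916783399483854916388127951767887436701386827496999036691888079911826275182280065960179088852157054734858459993294719424551795710926746115281151442376146753297413430434428082207089855035896511666121040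8447885457044025578776659269003278902364645922795703249231394776125548575173767179552902553009754853720211459648777540425316808690770056534367292235201193505647766293536366870327069299667469818129242889620005992280176476182444466554668915014573972628285641810393207013025660921633023948137044490327318584850061989119116839857009044829886412660469887694166466510271403903869000466406138303501658148713701229914198373056332950659192724406096215964481920025843788698298109631121051055150894049560241672592791921510439461132063477918137778384995954513479697072276228728196367854038770383860624991756293294928984631610213273460165219428476377703804003966467383558767299561017146521722696911887789844745799435495675153618090705963756293428226569578460361619864131841749808748210716173147925489134307340114091717190361164222338266767826072250473944353068641112559824718170193411029652962667262665820286540827336977838663582102213477146504904842875580428192133135462835253867296148637699635978356812059143705943320546397945677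1773042741545013755658574779282768636641870245129762758776016262345376971203570148223257271245049121918324464649809183718960872970113597218550726288200803128766755810448179680720104492705676497889714997191628823454700048522771711192591043915596383963796833187490642418106205012606040048427560470913307389876748287789251394565295330632355964494616054664898850040301540543191242083172483925674637491525357580954667763124517789762678880177144747909481580998377772981372892594043050944358750895281654185869672359370761494532036508934948519033859602770234556230612663357594616564268959336616029467235766812003389858439433444561898801004186030116845289423077061480135234092068426206631193978860239616249778291200325140151316863823644088725324381309519429882714092975455036316010996703214884337102727519742444066911532697220970520267336485377625995328543953372920484779784987396410307760463852970447497532954877762819898027460048261689835504087471881567625701543321233193822354107632435267739245896139783202449879618452215157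3228246239723085790724969474541613816696547394082049210908142683194707370827967659982094373804933794714246539287221364243929708463083482195815652131879909294434071932570937395766915265209060748952194643564279329757892353971034617216051593596966306241819902603251229957667401589562963232909838401808127113334873500024615139365530254955335335165360625087016810318905240835525622169603684239600245482811613960200375139614138566828263151932672842072490798249251023253637179686669228173422524959409082601057403875651750201999047490607427926918727690695884714296774385654879041139631588436019012256173853586408516068304418428717159932338811020721201158473143118784771801537990282097940753558165866573094398543519653546580847611532718433664339299423320155099364432149228034405756452472063700405684774827037592882892211207905894163226273226562304827172575625459770527244548470596153807377783711572655672394449731953936369549533600502895846924720706585835384717478645376808227469342137793056067739493141299830101143833854814319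0259343287980202765710176371030876763508671592031583289092807197442747180106477960489530478743925624202835485626358033672730961457441927995205983453144452022979264356628970315661340170160818028886420269391761563277656807329124110261326123481376252829551712528524061797984029109437428950166034195788405168652692799386713912054878968999631057391555776836833420830411033735919576818256234014047119452930378216264524871269203979879948293830858300315472910167638163134217124709292755647915999830515529994393714945081782744965811111549541184402826705137180161779558348510349033803425017615772635028694118238267479707769525811708439281900425068196851880239534742984178149365130100538842881230341511252240643946519328192852026445721905476188648673624891805596588917248296509472575659736888630283250841856433339324464694253175971127265066226103436815337600378586893821123095915636257934688216748698255644555325078080582418419543327848195279292750266179167471263932072335318670379238626592771442807197429584412145335577160827169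0589240782990286770974639931236967762114451858518364731633222775194090549312364401594878153992273412825553736663593648542929203473708757377187370491479168007980172276356507966337739321836854479563439150088692158949106641680707657306402706483265196927868609088198215078942015270111544504112329779241905782225244283898594528853835388672453958919522134787714594613547055830356567711081178728608858130504511151718209239254295935622729299225644200477256920428905238131574116044551231692800493208080661827247258305863326247459114893124367230175804852903092500950638209612459153503832405732252755335881923191446035047394218175752552261701518217366028154218097254079616222406159222797185251480466737309114759548256255065363127782420747888915631811718672850453921926059538301692415800635586557438627594450277094677085467334794131590568555961257272114067571870681162872558578594340808991345389685491130548490380643822097835987275301229142595671818541162304491344114518130295254036298306341126594735826402233488373978654733599360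0575182430927094951005521352214511318783691455592877562608935038507656802142859564710590155176294478824174317711302877465905195173835753312464858745766330032092569732798871649013353901329822698149160892796934026744248078851565386483677448766538704479620659293936783786663869557084409080551912850196447903056560163505935102900337827653439298086514112351343351465072002730902402302378757722312160413127129119709432785680880183172063779121240104550497271563536314595241803676553902929773142524289949908617659272507893670640195376398023490732285110373751909321423039130773351119984252438279575052250485742042118096879370111142925358290383724551088782411566344515213118742996183081308371665761896188316759969621723641588978386836662298879327747947153191717956785442023532376713687650836160502449327899364533089745228837364429915002499316127254280917685162836977927329853272416499782612184143568509226104542832143008548738067120291027067586078582347233846648378511167468702190430390467157401984015152722919187451871690251038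6102627628383511836500424782667598704933046310770695812987903493758145448875985220176512341384426792245038904485393858419658185259568584455349070931709584533711290279660584358809699282137827290325521159566332897654304341048908469324310500010059481974019327371115180679016095597607233126293350121984536410754639072586066139583346973288387590154332021082928374106591852496250132427864223573703974007483640323277549391235867057551317016256674039646107780186947152081849198213735113199710399506510250543674432745769372952254501443347815752669472362686136058728150775218687694995243646715148550359409186416304939271229616170406338945558015709598541058390948779183554903265726892400771372509275836731908328441930755943373588792544065438890365782735411567223555918008569148855364373194892635169400578128185496397450924149260477495283266051781976460075208804983671001267192595393471410549455762332442578542163772128839420250491774311222605515835121762895460966350715547273909642282148090097052605797968457244894273182304948960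4688154674165080040662115219740960428385798062681812851461283347361466697729795702665004189297052992986058496395658165328444439441506400159930712523998914452932441072617404903225678226516777165123016624542187983574716483857769319580450879878440976716949425561718527210098452640673473031894684528714984217240544296540900716597845044225611525673874463364539912626814283521050569035256067148524363307566700678126796051901253879501327043331817144667742075151733688947442371882251304281664147440905435152928894978692031015054025852793873817560302951697042882258001795352550521210878150039060371768019799791570061211769301250701840464495777095007131464261268574111181703370246135612613674696882997791382277837668928515466514956964283458209985345997644571279141779787748728010774998799587782633009801342926012203659184501402064648313311864709793814314163682267059793036372319160777966789689970297376764866816199016206699972898758267244874594094467984393909525437638930056743334579124349075077272124992051465054740769266967682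8851032405121680945447566878567185121377559841406405278557317212276425830743450556248213357021501624828370768548785343118841502319430118627038060409979116371804536268566449371717666112914732437058252169016817953230106857144211465949678891134916144219576721910739727301981236683434212801524425086957290414734098005293956920840997311882211479483576565160512874608804223710252159560278898448941276826465016676599990431721823316280905588767587737639083350313764799278169500208233997096856359332944655325008076855549251343539109679972021590894276888793312083957931629068289951812254202593837304056828852107969099015277292949044548835025887981877143043195623132927756724339546716790021823390396653913536577650715697266655941256051888887530179828037128745921510468245025156550178776794390600763401190083146388821952847200156873789167605853518952307481206835232810369318369129004451250158385191477136834110824799337275359590179615785735374762489181102561180745794538387382219422644788381845937039047666437825209876158900308760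3614031431640088066177565091794382308122074575228763901812095592196550037157139545468076387709317689126279305354245665602139830134507502026071519766557433624149420163864636898708178990537429932579630115313072049366384932984943487289047770823714263817325366267278009574494978668091882946018679422368442644511532269702347172514267922957420474282370324914461282851817762183456965896916843860271858539979693609178620840011320904288575087749245149065264603357869843254998809435481986395554771019581212763854541375626842511516710448848573947603139634666764284859719093370074721854778810259947439156549354076864929114398851490033325022847768598973528259044830960149705405459099891155236317426022665876061294297641903800617376615222803071236154368786291472926559238070309975238307890611808654018524124176448641132321808302866676366419826376942445280817299933501654040752624771638468756624648301381364993677298605592407791665831744522413493312928053134211545388854741789042750785614375746837484931752110744508386969081047868842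2636663504924933437198990301895962990959366301502734189498563568537713918327778672275525081248223413574629491553693532389106826954525835912285286825826615624605172798503349653599408915437672208526698778731296622919197086251509253215417930091648858079126784759972421933021847357745094821590890198300279791167778095037251945910052659942323179209045477794963856369643241717005641030011071424400102032279417234459329920165950081417966993440051530190020739958266059744650693798635594152747365404015271785078409175807304089868811836951795516310694049596012233366304718029409886618706887140446470359323089645565952898275985019579896767905287625122823109270495211222921087263487072502700137488984958584173758021270109049345827054213155123462321793033937251095394107187195119592972463717957376227326942862080707227154143421180522299271375670264834101998596843781221531595296527459549271337471647926010824148369989079959141666749638456506455845779280624889267023278814585607659260716614844059566743784328718776241953417522385845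2713074473408763861964081513525013754137928692482638386660986714653774271365822113311868406893415003904515319068368278763897440930602437522154402012916269642622301362622724751165719881087890709594555439120640148603809562274712295037417763302814165622813688283815436234687430358992980376829927597326067465761612076005468386494183993441120293164726084529350552831845381069984309821747889758258897832510096539677757033876744698562966546807418484895652100575247821871282234595105517973198380350027677332933458932846574730836560442177962816999646745442535692472080698430294927932226584912486747028421688203453778642406808219661685977213108956189710514299659241805101856819933749487314778628056650453009686710498850976037656008818653845961069049849868440657176813498004274260426052209191933826439193904476175610233610368705400972343980513212579479804682982446366304994803151357434861671367394342323981465105437474905570944186414651875999411050186847986911846124651284696929786547059801953751824396653311179010184099113365482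5422997401534407167899578368324773575122384961353882828764306201310532388233418921560952817908658802575676595021598999881738147084721352097808276850773824923431503455213832751996867106191242407022273729409795005383347253020128993845001873308889587947084762139766970432696823053615283041887371641324729847252140159252222897130049351425725530335163012995758434129389658670356572775114705971442901974241736599461533228380397490776591641329341625881546298846694995880451558175897154548728190385821542932929824011590556744670551093315873632312334100214316930136233632052973235936281286312931200518929481083212733081710907592670770660488037512556448377312153194937026735492051157507320145419876642317904763198287715310809695034666406110540008419505727389530948710859964138334760984597602718144147381005002436592070982656952333749368756708404988513209966700907832475903219552055727859366697161441571691485847046041091762123073457872637915314490827426173991412822240080687499780220185142460903300478016587604375991123605715187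4289792740196614876135060005311627221847069868547359887080796481197548859341681980909898717456896661358216018211969656728101360354565931249555864793399296467283139247994141818996872492143039588555043828539160181629108832840832723634390475409663885376491396822065594402262212485668440246703708595896003534538535253639646032023258331010567591693514107566645462748949299021012003553548788639550077634919878788989493980494443137590212252276028774383049250012899316672482072463211675791572905401002268808405008727803804791956244836675799471578147841960591153878324710171696999097503801748367801422488747613959765316466398038556043591568094748317567678765297425315801393113155285072307000557226075031748310450550577808599596511506724258652342871071507484082671532698041125390085295216946741361832908083755723142947870581085505009509521601837239333982010884760165998850196836768882304118261053075525650486126846841254452020955551558358732298856644709957952606040272648782354476820931400447679190906947479730653451072192051486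3662306542707910559642264207251864098988038583213303014674234819137569048485009096771543462553864298435531512342373591804381569345827846148908615660280229103217221091930557300112995513947794068348315611294393798215037902849480163489286680192299233650223203796817849075162335824177741597806844954370397575952094986212220972182218689460130355559471123766050857014588227724147033440776431908703258654788966682824792826598754429660633310259460308430673741459998391200058405710467756702307817885619840583137624149259011556297457330044102333287308295613365131666350064535764795969464957218417093955987529927604358295171399829487211956461676370577527993790538570262289275944960)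

noncomputable def rc50 : Nat := (nat_lit 383716723979422007351000936506645611529610939425864441645208594845697598237161034667511514102439334129775832486618886184319399338259142144370675516966118803843638049827713026203878137078481775606928712083342046312103525551290103465607767752712921244403026752183980707919373083839511425897372142059628569396859275903046582420766046933903261442602889960147798968609148973783274927062422989060603338672761307529010774715035437083982933717864931834539142959284224203272960503239833386400889014960042386716255924429521007929031879101529683695040476993706306184196517629588689580475752414523877391486515411619716414724417755302803196951032475416452730216729089449196271685974212037957544409129668098041249585438665666226535744770966880057189884855216701026671752142329154027429435754041101011067512264158335142127676486000889257150552216989577451897287409870430879187493256885096453332238154113129466681921957785125173161561563786423661058526640615029227261667750203922821787132150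1695582784666520621678547398374552451105974143782357648759623064862452287450777666759177802343033916614591722347166390151837504503105609224551953294555071553663502802660539529460295032018323728630947914796040900837479092282652604151317663236503985894809424636486098737715589136909990341616099660676287836683675058479346687760535323886914600439856334390727582825554197338539202200235644542414586521551129562053925781505625111031166683497394713535361705699135085854928085887955307587770049632463831934863070208107442353116009100843875428037200377750773229927246712811892479090918023295961588966427975359727928099080232482040762994864717251711326011601900392468785536231069734601246643052272547318120053102805687382294432570054048423132000418538812898229114665956401969981339581146049450634912624673796075197601062825003920455147152118153087876732795034442904717986367488413598072165664369897829334490357067446200013881062965534645740937761522302933148205505553236327693289179786127258990720205181438209699588471205405872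4233751225152460026563713033721106814851285525216986181630838825212333982873278828465697891209018648429475804901125243961481734479540304174252974852900472216109697291988512117786923028324552280054406387057509144438990011500672279184896232247388850747863441409553600661270905887699740436207715431343492280579545526420355751706498165419555508792084664623658861776263534938779016567869352887288127751418417201259921320463228038093845021381648522905937197467000355742933860250162309836979232011504605227507681080352556348313764517314481193493801384080502173462791331783212440427385459916801877638482498963908887801890194107792940959429803738176299041037914668388946153689741143320557305440213286505141293394467000926548920579209241912181449516281727090125350706578322639388332293271641483161818382729214339036703255993034476268222930024348519441413534970344865443739962872256491782587916380266193112879735899737734645014175240037043584479597199236772434483558510065438696777958682611347501332362584578831739304964522586054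0847343420301658356597981539306593760767199135400725211024197858553804679419820067888731677815827636492877608170545018305951699201502123729905430062336539078959025633672484895488044484107824801510290270800961673379334283848921854731651916110919644237055624296679527902674185696542577336470925908946129732050888081134478741257746456777739593876222333373951845049472721861367051719415156381955427204344034441109865562060178565629530162995033957011195179155528554986371233043908010828980187354048548662479666336102100719825424160491072206946619307518769974118983552060200703572841395662609459223492430970549320622213257958438334811685134140699869048677321275167440792570403372128841793906545792292815573520999495785625648774584593219379909004026153871974189539203277675217841009008162172247923215170528228227454793626609819301777930308348482594907666215477230454291293749781734299496183005896624906070448137473773982988324662223336274866670313510839938385387873676399422410865942218546806049295025757316292585268118631738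2540112206966089145628640827702341035121575323519992894932442993117833027373344384849817241416882379050523588911296063523003703178962425136243362483127104987222214950657827257546228750359819540507974986996109149127714163052882661939196233159290942858011388092671336763820361425577252403048323338962783859479537252008198893320254283945446455448896478021826054301658791345527578691512551362536713702420759325909254833307011883536064540967593375486375801700089625318477620393241241114083576367691458175363702772254286940578827311755326879902979264780029312671074583055139910344221306503665991500421712686040026281170194860767595115225773794540363053325551628324183943476376771505968464573248819093204699266090390431144304907221334161512145393235244287087351777211023231624833000051627099584332353497401064147818988534544909882818212602661794487092403439211287962205755861421309302263443648697348067619230326270606159335463755280154034340869326481125214874791986117610394070396459143724934818846244570308435930734495369403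4495104222794287433031731646123078939722309810010531584212511151864301567661046771381872455183946744436398928395404757813530895426472622350698069802259791424223699486941322391242895250040363864000805245471413558106677431034686093275125139872243435400763546245819269043681146929335799043665797885494295229631454951830901420703575318346650714583076771574391673187677835566030100971166484243131955481858024260096113926957820787532074671645921475414695084384169893021728084386782129449484918623371556307823524637614056797596886053380694308852011829036648567484471924304471471057479680895230841472481472957892543195055974334577398382581160663735303944837916104198599384981590095733397868696160279191436027723223305834958279573870184457729384115783718286586939527250833272518046679924297009057471276259576631465304742868830386791514570158942886679043958953208139914941349659216184621966501204283170809385508076979938334507203372840171786354875188095277308864434119551356752179982918943544165198987984438811308875187883111517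6896277283699474199312852091693849245421051537248677790996185693047002337718224891193054104975841644598038807006932415744946998652058254218159323290271468547149575743758621205575202302557976197332669667209068152789133433120536893640536468583078135502036098477525807293507869572039742792683697234201936761338481496965226110132531542167491919890185046396147646357936272370909363664461507242979786869445361873267666256095636495122215084332916289228433718475215556060520264712383246065724242221496581320947679930811908412235182786339485828468895826986217305709786946256371088511068008574786462950052736667064256199879768062351269890823575301526559619619305188078320048541782781589446292274862727585216474477112491705628774821133802628999252638109980239460129932514909840101836863087250163750876818237553407317351443166788834798696136880782120569435102438481181736207261264825482030670290655031922107187373794195746155558627150139590987482143044722911155273548401837230790460222997013786604320853672574297875036466414244608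3640041101552983531259551214118809554816381447500691682148892643187656852174725184552429997960224547807116784829941052843707914450245287149849801449628102494534818617881213325021683292091930627376439496133288165586002689263279799866513785774411924924371774389295325840633171526830209402557188972839004733864028500802282064104943125007580655224367740710795345249557607444835897713917630735902873859281742342654942997603254838830382280152648702773494827931974020327465592117801180530978880709769714207237927633073433735259650511090359568984985269474362559077454979136762362964976081412117201905473752097047332161955368340744424393481422620191020139026276650637135152450181250389570838883659073075171130339426795047296295338778333258273399707519285182353782261978546916092557404536901864768659632958978490219065270223503063296239102574195034384338037777102031744382550549185803498835314494183917494142689605841538435739213623948844967186516547237704403444419509104080586659411692811936886970050832497615371205298433498836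3504490950702398283900608692171541272551242531755144891104874244227577502703488629677689262737354487075604290601707969458276307999179886308856929976187372889042307025118536206835728058697911612633735303400892236600730899326258056943939603632483984749343818457611374474460676087806916716637443099154985045566768637250063743001279051730673307507211714545271445426943455033422047113392461113697020224172971850400884429314060402141786768180189782589473966022585702491972923584476810858194774020910135236451264630337136958970687486955109982505621781801482388993117847909204852054117107592062150305505001043162767134683347244461552684860414379452977747952040019022890382957623638340416853228447646069930237450046207427731035085724541863618880669339388598120003794258913351579430965629408994055920425579886473953364437993014747568865482061484060738404408953272875691431773354760368769547906960200311956929800391420081846905215230016544161468493396115451746822838233022199194397783126456933057127371841272966304696924792987571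6799149630097619311329705253411995936130669248325702372779125530375249963260726641967213450152330913626333433441073686260434213217933576307484447134638687054703022686928439786908251052968810921294804879729103942517368989129214531568642927374358036574485860137744490662765003119780469096368165589459229340924049043026118640891784242224864977100381027043437776360687596911336465254062750476852784594402658711507385073345252904418494288858147741715879483384408499593171471121662493643827175643792392157869631269932522213391929279962408895956845849119933320050494141327810536586505438910150734220684340099879354278290122566743158036120948259499342119205211713708431851516261765905894460747175823776628098799001999679310429546532140742220903256160527782374351184892145645320203590627232195414028043473053665727373278548579929165701489945859897431008371627830443991942988251665621988230696148648114886512863993758336055983865771003511435693398308940150201980637414951283280852690149960374192710259359300024596594814194609470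9556510490120261213474449892065672545742496882177174833255900830147138046189400101294760906866096622876673946916094245500460712764420522209723607266389510322511312496384951712952472428996195909478743509807062585160004229635540804085219383829771373018370203913077649759879418925261074663988488848022438710082587114484867300520905523321790572847707668987594377078736012927699128552973002791107764671121503830369327611882772893931526980233961758535535579586222750440461443699145113473766817808993448704943904890060710187377947980071802176966052074640758297935631179776398394754404973482703161039360850541063917681146947394032278547685821133332765756265248131918426230718373259219619884563715309964573744132999859306118224499809615573331422491975139927044808533919159616210688292484180606821082915525846334561561561109512128263497997566304529103543233953612186475677749522706424487941602510765408567301201069988434473700644558983187536509222962990823017355429467389961726227626297591928734318339975762064319709153911221904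4704730890225573990215589600239980389175349827633926536225208266287679304677372497465344602558776930144029180964774842344355876670085133713650052004012091926950679580882895650837413332341546285775857622889010321592310202784058829678174491078917118362973198538847241757542646595128858600264088105126040954527283680631568666539689737539551123203541119499106961289051891104285439786190102559408676777599216686895328337943884315734845377698432314252577585442367616570937832546106628051341423843026263719715647796532947049394305382864932378145691997163620041233650841382253786231599690695512633962166140094838309710431969447780967181191117314313660102133854811227537048755763070712226375166106939949340232475436502385714092155134342998093150402271902161031645712928266732426601654855526721245860985680308310171298913617882629079710774223470626321593737697617791013931326316882696643368555710503898459679921217600014700901314710429020123518574031436222032300044907340381418294431520048748287070848512732707739242206834093657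5306190584675001374743332578689051359142855331011647837495878020823950063063295691469772233303812425475311075252308002155354097844145302638510079232046062136383180255051292539245160403718960022039915971454349840674154805926328097430415776406269414918367570804604447352535957473889656558865215177104597663914559660302030055218645654116274183892813545257939311410213451056333819913740705442110125916922861963186342352147585972346479177011638003159581229247528000820910929671372796963527466507029948610256433285830943144495283072159569021616218368495110745460588409342473926039056120609600758634017628055321756320738686441913847421733841122544876974576325099524959926028397181796380430065419801098805226933229069017508906937132145012331518288938945171611240451948304014741710179321913605635758012093390377596386139917051754220878751963722585478744444888937686275490303143374660293844278367700376048299535286929727618305399250371860554069094813898242550767475588767503213215539990061197824809204208129815002929534440229150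2505954488363119090787148680498240761454572474745992169783580807344149765197502416945649587495207504044596491432798020422422031085547313157535111169295364083749068027859029186701012160875561841044165643550310696057126007290047699203033626841515905465324848156723893658511248883437048387222847154095303669055056084382210761063025362718139565051082678658517489739974279024931397131030118368987498503281361068693462758028354007981687794818846472193298538030205494116215255942191589363620734958851623324789193502548809654805117791199532791259405810879197918127731901830106303637014177526378509313354579572254086749555968188755846043585112288592668248463942924218877452931231858025149156278996021214909892456424333270281540064507751436753207468796870761031065117362809507077041647907478364523562189645549536178352818238148311135276260250326684856260613564432754150518733671342124896738560145913405945808950722209558156577727302247183077967655588361228502543312739558335865811157941894055480378633271356983775254045977053282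0490704969897273890703157242478290853465287446996365546808785936410781202771656484536747267331951042168403328048939621870701038579994874708023417033814206465073093112644076844762863728719266988388223283172081881201736942481563666655910993672515993369185770472616574997551535445325754209624109792313282306144251990869667197937412220424894954833462244303382242793435406908757582113154203038236273169329973129570649936394112238042772646275411801365103608591533645531430641191389314326153320361554106555869491011559916527551663959371121137861359745835613642817928799771715075241036601144758099811078315674078954012307796327089593943859515841187936044856104329646543519297022920694107709658061678340290010741883747500229660783632105380714333220438651670914919495873644137901683854362469787128551237867049150025334964814390922120385439043345246345898238071533558719215334708861097509300186268296837988161266048694613476467069613814436210900635443654409577754762982316700274070945774996904405699600922086527123245701652782539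7393551058002926646560219289362931518265972706329479233475612480524083947492437188424608113364788200511980405821314006166163656781311935936483154473518959708880404902716333848196454782633604627570946122438805393755416700042799180430264055237112438629810720437039063852338340796253607049536714155246535025906108639673509524614228248739995897496728311418322459967063612374194117547265116393061840298574260289251722971301923985612803323853502795601031575860692046547690839919653634992947756798466725978157484264211256176303505074795701925940639221335220601469478777890146902775008540839257338555444382166068188532551003894682048670071077570601980960958889547289006804756991190915405223810337643564730525836293471860502396170172079349935699050310095166663548058718208694512550828992208092028768248836164180181161440253229217571984995361453745422054479410701848935772375544183820815126611015139540651388950264005254767046440282002370216721713373497497705011392466453953271451721410707673193778001110880648042252501665993332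9814105183350495903306376397374539906391431177356564329431263313001478986451997591617152334786224790366890464878149737682658728329421004209098365318450321681821236710992034455638286173428338700809845164930227666695584333839010417904875636508183570759984535803527927911849640512503974185317676833452407675915290114700241596865239957885410209828808445708993427652339124520397814545563462747137996580756108013069169084616966718055281414423041936158237822969434018903668714127184702286214736172461394368422244704197128053256098006482523047948900338499938790770028811291943248720881494578840753558073807005615968613515255997359830671006899167498630869897975796411283763209786618465136896894631988970563685857247769845815652040200031667431533912575235744776498366559526300707519840962184615392138246880140940872013021607869558190385652254740096878671768552431549370105338888744211477439004817305531036503852374319019808261014956253468761582680751007473774023953847393295319427473311710295220251993771919181850314148462447919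0028804986744425091931676279525315183158897495433386358783811485139635115153118169176544314867143260508724505692100169393857584420027762081133245247022598986796645896211916719318149885233806432250124853953679309988293147731053425019894479996344171237269889741115773996572962093547085871484311669087036881364323065175825063448093849588008126190711413698723426319772949458780160395362431842781634792952247003766330718122406071041282615657562007555222205164204838524562818925091001752425560473918791342903917472787252964743481017413188212357445477790927905817369726625868513838708235500412450335415892135914477880801920939923202399771651229799515771551370951427217959157760)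

noncomputable def rc51 : Nat := (nat_lit 384156734690976459929118691909312155404709867331077939862497175628864864421793178939166498158113708575465569577373965702407590584289011213285393949016547050751708781961344417295025247410589094960985457895764843958511112152032585875311178347898902342357408942616985704476739463308154431407556372174294777827414846619542954536875043747891923031908481663006200550169969849730274284728343612052183027864273208570110352078912775146583675913396887329147035240279770442303340030807533263132024481658444640036111570671754996945569390906217312014458768766158093359568754311845218438184669933273265284310871110576969625804624711966220657490003386576364968342551934669737667357736296392816173546113872424931690246111837711223500929506178292148536131092891851147022670198227623489737511935127498478862218606400216386482933135921808277453330943500931475236765221973448521782929554962811353220105421509080643861892306258330432058190724819357793163089767822328061601646172644235699875048327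2269330651505172789552879111122797226853585902687645735982856429755260446871662369556283253460899876757033925862396327017996477198776731932902558156008351099906160082585039547031841619189213464010583567695310451916304771221515617505085027167032326461334744903868889808168257103637538232437644435096671580865759502494713569993640937000003216325502683243347831241599631010716944722281158725603468843180051780041962932615877236461124474005150227865435358632327338592190991457474600620366179498321583456837778015744427236090324405425645147982212603414792529909617284673131762169819949137474625421024767399467031030744462983642138523953355981397941880256681177543648376289496514698543787486645877360415320228182522965018973531755924036834000696507578142439319495835707900806087923143925583469718658051631029701804622500323910065997006039893454909676918447189768430136850297374729537760043655720925529844103796138262245565566075506842860634524944457528565694358133883741704890298933126984407828841625374356492029003162830970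6396969616989616429181880073655534968809985975392190321239429770543235147113677515315916844421468091625933475947774399712752226162425479189151265675992413596371181584194831544906851261222711406630708032699142388391206106645072500490362641594541628751259600794563026570103992997940724818062500411210119167280766998681119562470934232989580382647984399838858083823754871123478312834924185836602040548479983721495230466654553180490092166135428812131959975504643088766329240962292472067382092205715915787109223674095369830188327692787473730015505273037192977736812193435292274893282730811149369928312168463747182174874683912836155842043885175141791226645307690090680571762852856024829466707192979143352810837138216451894115058843665804038456305045329776517449245588985280799499371341809170699786096772164044994955989724989252738736060859596236233974877387796443573821150584645357677266165867440827076471292283336091411461710156592381501857345170689152810380038169032093269314479840949398719327906612447109418724437360138479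2862975587103757102587231776574378205836525505161233763780387584314366126793117162159764663634934032417459372499509139547411026192166124351679173931817189005694383975377127754892979236061450322702057738845514636570435509956182198558551197267202229211568449979483840788029643808870999252118076302164411058508865990038108970869859516841354265748068897244936858160470630802779403590638182217912842392662854891020411950526678651349655893203186746526455553809702524973589131482243538499821106686524317867681877448896065933283269952478828135468760908639660942905936968706447368258091866388900214620321027387619670711329098353186137245111080064552415342144411359267539026530793452448207166382004468402107871476936397433175574925187005946222604012311894311437438215425096547207859917434649736424093596183237523850485482546008101163348262445562162179523761416371567776071473826893684882735106107769367001787572735893776966168636105678777536894307239570059586584943166430248935264275366204418129830355976417619111444275945395694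3085124156414684661262339077669453809468430146652921964549102486055803275227768346670054702161911334438571874383744080047212546767353470421040213611365405564068942008256657059283107275556128282111968025823290993253118964133597038896252831200186873693731336681372476280169391171478946801766512247859481521272510947255456191852341315221365561802918358898121765205855111055408460600872906192927518986509847412944581773460411378484794053225985667576566799044905772936341218193890817878803607481688820950131760721800311449928985676459000785189591116382791843094915062497300898522184979967412921581281114148986220768815315671234649899115479563741369549537673507877287457637657815580167481045862118565063981066233181095107749532411120372231741058445144725288874909148393078106256313624925865690658099168541610900388986928892739399664460158600128197609803904177049782521461159631507499180447043727656911533854002301032550337578043181879617369263379767204032647719855946836937587394709128533806639710548441948895129540925054140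5731128749644182025251706200702714478059100532507885957398530061389039404886937251044764499329916210362894378500168120587660370336018993805079193521297481149478091440698771206526820911733933444573753539549121737989096341826125817950454805347351372306471191520819687287424769495513397132088025164056030711204840444339792134754443727135258236595778238094756498717438900842184536505567093862604551701731783169400612520999476628282430204017656856384218749241414768859308314643985465108615444241819574768450730989314621071307335244735005050054989764349016396309070252944143085036318620955863252013817736650894768644482188106756714287455524345054413291930964063522012218569280052247016618179176102160289596764590329237699192068561429044630464736612141641836194060800955481900137488897615355327153551210665616955759195119859927369115365109934265791339778645066052694095447368877076859734896356088262732563650569602541849201270628149414373305109602569903868834680431897662616215038672811325235826529663540833628141713740903520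1760867658191624342755069288797051002152894430441786988868664508262066865433140753618585620577751231326142210760135902726847778793484908358140646188480893897501980036399916106498424570292799605627052363354001091368558144306240011128259252325899115695066075110210134297383308386958548308369315869602252785234250971445679902107561747434068859729141399848174338802948030617181305044085493281669691841072106869362272522799332307395103627980439007909079367434388357641660281306052088794673170192772837536104506615203458711284800761951865067596523816143743449837597014951298196207149495087290644953978048025051628563023329999342330350105286650436734258206211492873933599022875978846861548031013510615862567709256222964835754977008903776732292930212485736560865829950689729493318367571379641516088018782980839951939840478555117127195924147696143175160319384492507507532604715259153464722123288876682200580338780586587975201600900804932484607131318824651122605993482884473640562168917047634166581397194321539158888166873952075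6317977453260533752644988423506060016681728088030540690121779231182497501447357818463608708781279616937586860339001490183112891157170452820824929756050794076511493010306309909483725486028055496684012951722624487374887069482351103494960862923747275346152199814299867106239233005681787083149801931819110003439759993217748300827361869795231592025038107998355761530818765517343530169384249527312375616225343079102455400366283890025853121964945937313147227557428840060923667210812998344232446728598034512898987637908515456729990102847256173950259362269062679178626512836020711968556995639140623146191168703150094437218447462737270740476019516440996070676313407262846890934054793331113259411534916502194612544928952581372343405895804427567145916307915969612936413863128729227835103634509654368079106806186241896479854041710063764559197046630987011404774279574308059893734734555140326081971143838274862972577345420582081270032082985823044483658005983434103078282237812556279603250442199696937528023222120314653750136895741345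5432457627402661033341722729454702336628968777651944663094216532479898774416420804432900800710586601555777038601636892382936855929326584498431793970590666074762766694961994973561591368508403808119107512530946968554477017846319896019146750993295133947500922237143418577193272980708587180982906642863863317299394523111327079582384720090124213265412369634201333826285099189180188089317598996227988367413396996066578783427227038960399518298765535135317965820119550011203380608928511516455754488687676472404173195887388402549291650842889426078260594928422379689391147549657537495077947824993237667216652450813591852379842317936676109960461176244665629614028606345258889727558304945969679120315385464557400333809597978119983653852956414371100513406438579154203501689220696573760369112217019489212593159794761104685709837881592104086309982618991218746522267704276385856179946619431324029439250418273068671570812299170658805910931889774937354855638286058381915360932537056795149617572956159166249011085438625174984897367748665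6765446206512574249317813175926159455339150323412361869206817491069939243063660959081559275363507419951030688228589700665626101922499844167953170834361498660184155754759625563478803278227446013953137545117042036293173956202518137545132996179268892962835873678818052989819172303477913308779556025998513987525860512030942451603578089474172387916828577628098408997880137460905474197519215499985284542464954950464489937176229099778004106300463692824253504246853944249907086140198991249667430254370416179840753168194890522412087996603711473448403679305437170103907354521527481762229974696278087458634528711313767758951465830137178318791962143262414463283643100330947796346659341838861956178629665606098373270617171313656702674877622296159936436875817776916606425076397824074415685860619404468223263267786486019950403781403556912525917021257588050662706494720887983726013344048970694743332375732941526919216319071227854161872773455103569506067370631137239387846549716726027425770596123640585040672523209954193778742102137391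6980704984889318418415896616233509370886981809098538350048788888426047799768337032514382413800289629296935814347680904407700409891865824805296959336195430921163121894086788425390131872163698857468453794493373375612317164637587233204426803852401935674749440893745339080101547232721825971122529699206241002836590553288458516040901026399276219526261759535760528556941890884672685735773712016348868478107018151592516060257337238612585132284293969746884229072200434071692178519675556956298971378103802128732010051218284472656091227500662735855148501078853076995705413058573821276160643967309425973229610326800245635036885257205226275424060731527031870204761907854886166336447652347754023827205181030202493811599971856268140399487077860355072094029486690905314691160778109754103904445942426250806896515468167714128911503137763636148275236485199515947333105296601558654651140996309950134144776488206446808356468722743010490084945166892932124153542236665540484912877519498181093403036391219557653787770742660716644202967302250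0981604356506533430381036545776852360432917250431274589953547094444824059560162825253128392676294908160226310845688151157999090896980897935706755089966746342636760548524598560310084911470784651814406032089898690550985875467449364509462533974501883521830158362351418250049641150093735755266022314313726812004927278205558695486457396599821115098096882548937777506593937438471403125536706528805707291369744885097016016738248148127596774957886380289150042921285093297675401653838027242022383759590633666568761879624993261775321399475568446780292965077593064963363266725561465305503088848572071742192632951902058853332064859627662006616234517933604239957339554486064649817169867798606110750076628425828046601250894798817415552785720564423338583226793131272971664384300611659931385986061957783730548743548097609494175535743944604714115138474273103754247317622226387217420812730282659895904825708561212388265092895692694178355973668753944636306150888659326171818931392938759143757457937409471432271899014241479683943592441856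3135216721801794783036019209262210710220678759267126195597742254463074330320925109440336670095588326877154702899967338816708460692990563427373585652920840949290870844070085717680989273885232340292940397703742980014521138832617167241451876742645892142560034778679087343934247276928642206119669652780144789349591036010369375523678070238000665800963646525538682493783965319311210081253691821818514534362589450672295893866644161774379481322752553426384837199861694450898078202217963590462948771941933231146627049265692997852698497919470624179975462787935453576070337660484598797665818234388829061130740665890234799654252082224126113566172111342375792565258006983324430680695639326470075355885244245149440189374581183799678906075488446469746818046410083157974002429370653062027457844845517299370020529567098004445428346898963201997048981886415228565851235364522784567264455897982975274113250693811443413558900431842016649856391734708586073073417330610178045337106598391700890632494615451020870289411547902477194800061393003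3848603039450524961290153669261406678073709774505140396485129547473207732528226136559195780564941637983411345103409813492129000832103888696439760535836153831266726479034897612423149975368525735691267620918308360736424643413932271796808625563592359336109472196408339464897988742808613224706129640063260421734877440001805143436992352927936451546223307571475920024101211330185939152951951413847463814158430956799969700339878762092191253910586907844438268224923073418054853087702442576567718990815040941311469056498830945241406242505862303651767135293554274982757651986248089930593283963063311610270149466899999465576951227552259569983042627799771736184215096281664983584770460452997200933789607765160714388903100048709435718182232044476639565030329531925807716079314560130009404519041646228434093597915318260554820221375073064641912340974321339596296459390158403914400383397124774084897472813474999347666926976227250151155045949537661056099828206114571786932339953238550889329518033373171512775557694742381117966236241288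5779194525308694541369906793613645394566261887699607396000371915440738001389313667536028783422007958808172697203041461919157422064403748788644234008394068389004788463685782170315380100467473971221269431799718327224503286981551618533115193867631998619425572504881373763233463829802325760446231751893225507329745349007083233580925062142077865710055652985108841585396125598251020833708528870724328734626501192433624833049271850942117476034685595618416234476146924983707553987466443622481016933422040622248322004917396950571009347406377979971120618620233197270713410539143512709511646348191901644280783545432434588721001866146484974705401676466631913468956662627797200343111152249834560781989684326088128901846149134347343731691382460704915903459844722032638029651484791166467966086822529314034872655305477763165031114787547289941567553064121584125614107693033067021710085780980431777804797527231791203838690078697196519425270959355323713496809951788739150460643574981827373363023260775545161641226763346146381272837208835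7906221731304713000636025822049002987635488932754500539071677584451006836155349036510269749144734199865401359563009420336093077821037694288812772187468994232065782859171749940484758522918387788776542318427914630680768016163089664358956529727134779080845627399824427862757453026768095329077633585436852047769666089518433298938527741264849904551990820768179170147497351544834851301212269133444142065577078648962167688518490608874924714921969604575423174403682915088104033047226453299282457460427024469197771266337383753021136152289559036462766452875810871638340678523486348425754831874476538155512029532520644612952451900053688400322437676639357964036916781153116603591965172196851280233791557551920557536956206716703248942675760326400069430124366975357166375043886446257479871567352308982404778481118496868689427136021802810468023999766013765862970344259377033342651265555287346859449513874240709001289422162240235177910667621527007287603996915691734745325033535148253714973759220554734048479262513382589129623269041946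1032013169738068194561561656817878668815206440351696496063460521892014011964085518601440815955202391947088063056687217447008521009987075552547744842283911549111854034628242467699502896624049130472666811616124596732539378270041860519369109163020243406143389919249181996432078732323622248196191224379648955417680551145646338643664385779005041032276934180789739976211744307622317205460113397251760261618778677742374186986515623998117232082130051376978352897393474583041647371491066365331555779000094514869500786117574071663972780748845877490505985494685436936489094939840313068313585109965603298662463078363856783215676298262153658815008914931270946985188817912055179878993591278208207780298414217614520302893913502863441638272863115300607950371956658772821995116804766935610214829904382200595460582328989899713400988482915298773617861674344004724351638026177863340486614916757002278247713718890985732074569078898046018356525533958741520462094408004299251977889363825896734317278735740891862207582167409220698201793125818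0952631461658264574251503417115625860488843718485444621158185752241156465766038281646280756702669082540543555776336967378458385891689892988530544764756116825929528137917251967025223332345662802801168707567282602019595141915784803900413443955691136960979274949812745014323672967057744560724989599739680742669343817156641869759290890420624311674585036751719719434892507280081589745016374063382630242034280928414069595712301992954668540422796866500596090266931510335813133549345128099785315236878025909457304010548661078650888593368901013233473008795965331393582158900737224773342026291476501935474169849636427133267599787846293396393217801773124475852995180008865940897792)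

noncomputable def rc52 : Nat := (nat_lit 384591591728580147986653652318768177399500460687786007832912724895559220590520467718380256221170987191035614495755508012099845022655881443585962953788191607561733095591370820112414528290536951428425226456528851130171538833690046337211530128540897323216932440591244260378148090493128835328056157377110989814976364576752672161781141387054189653926712657074312946042685941778901202554147087883642731895077343697029932227606993042236411881510175440031599835454854487092072960261132801685384618205909658976060615590062131270111972531361565921545908120490869865558939522580682112752790558596250974829371956774607795864292588652165237638786997005900770092476573994367302488794486802148178094482804713120621102459230484930506052916351391155572428149213604417401641365099982624434647832164269075088056266489423108922583565834586326740705947739812816935417408404920212717171713076747286515037002212888941923070643902296046637899929584634647364090387152817041666918671282949302326904499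5524945459769634612955799450949591843025513823777643766734916160758591708984690463839739263162977802060347923498547564081064745550624626315590360659364718609022592913757962389457844939517530760589263721209530779226241364499200355548528297465760007789280686209173715477422547399330305725031127225294596030238954650257116348359379528116062298459004448742970136675982538951222256306811889540879970623831001741573010718643955156689802215893219802153940894179988297726144116452744898508775243457687322420384258018661576249892861400298786769401916256616464570170918495936672807463645455052996289546798009731648963556075958807519412219686026596526046526846364396431762750204009374054965067824614801448031292920633625958023487573358931949875300531922634657833414592514355780301929228729787287834234246221741492965720460000604812283020662922639128110942140399337999864307853842888411864884907408958373076519550654039929974847332623113582344200010384188267479663193981537845228767957690528932306839516589512435354111711065334227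9343064562837393358402013100837736992887388597029737565587023456216078189307131753100042749001887951130013024036007793251491539434713019662622395256946086843005412634882180113285930336513747404821941678690472138305528297477896673491043643965417953477446568031844835495054381134925254929521521457294273661720523099616363157248765864469082673924898663270239792845284293068058874483576438308366162410194724041058300948924161117367562116948319191183076146903681979205081569288367407417656910552327226688486500939558336794132185855139741558796835158252141707620683960626740621730504844857819843083467866303259972914760300894002605154655911218515643031908497468097382057165956067160166387838707024154039983663531853778939354642047380466550783870996986529392782014932807271758924922466189933185373830308031345730244041939038595406914709659542040638821193925505156705110840964920586660264730057434978585110253589240084035187189771532622685288506522454431857057101713466234110482901712459314823609351205372037998057117623380382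1234666628144565672543800670359620345543538712940159903134548713323354332368484959310744300041060460494917962315214282473347234800536198992220445992044145950730082888400855626067014797433554529655912746483016709837368285290332448291606726243832934503475858814483441155935911563585441113736947585137957519336514606130186045016293616456885301679834187561522758968217193355290654087670280793523825174020801737804041255210260224119061728669702568831552218820776878242667590200718314879465174467725884333994452387803747608439835240067912664619337690758915970259865120238285666616203539523844055308563019148454507983927917832007297558477258655223549953833356782650557073877044351219051328268086806279606674559060916710340287827414537853324933851723611348272739965141824042852234669987283639674189482681970074390517694951968208701223763180493089036902995676609425934520901205354156083750461523072289393363678761150589730601000358275484552474281830019004570361566192415883659269729157397499535680720618059251484807854324057987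6319776269157621281995079505007348723075305229593578465745354505848913541745824789305356595201383946930229738688451827795582211908929410287703401902901135712649910209016981170488359041847832089753062184273412051415563200234740511994595758462232929403303603517693597929366677117767996307459889607498792179227318373325164787834884258976151514278872886105238767948851766287369257349497205957869370443148036070412247264374448003459757741395678133251825997629719134750261270465071926559938246377616912448177471658064818795769747478861545139076169083593425039168557371301272158331579954254772006805279335961429843885243511044626020957001041460797974381808486278851314972614928331752848053073858400197697898605296633453786009222487680996150562905340369467170454583306094410894479768919891128821143969348615151123211197251510196354959351408094354644840355976716857566039263484285041640561738574898173209612549185193307340809603179362695792070531859243822078960280461487477518086184538670500489218755747902970067310392629729002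6790196724864547905761462121207578716486982661677760153650996995042740672314942513658907311044461404585086523691580823561255509718202203769849068995548843644983417165029392522368521558181841159758836778854846611238247639250674459529417226508793241964489298076381523860185367345987031551109502532861825772591046045145812948621569813602768705802061694435448445658210823428847331114245049122610917704122853822964166881064199178293341939973526031815976277054899107457186562329775794654906548408927788862940413640000077685883019249429911349239990822238678495055483392182806953924675848086853558108594738001979471626881503216453205061236333923716915022163424815540075033576469562350790485371839488635438357881176105072576144312258310655604494535802818638907657051008716208284243459883487579360229327371659137097032880381685150209376405244809684243639298682413937608271275913809021814981400443260362197432052226302351718544221823337144531109976025737189859136176765776983695618572912819938654481453712487663511240297058030207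3437396463337476253795767195688505005397932131331526659184342668355442625628800459073176110901964739868141545819970974509535956856297959589986826753470637845194749442002619027202893062610983975398415472295823738956089358805415053411580181499955293025300017090291965242878550228590817534506319354036571756381369854713029675494567896577573260837359867562524965648463384379072827823363730566477553063533653081482060443702552523614257096788328115873300948943279004437542529786374211520378673303902716528236771462205615522478929919507192722262241469122509889697151854601845946513811400350897542282403543239764812500516324266972631039594978073792525949284201038664200054651032480646662820875021982968629500892593392402260542626428948849381667899078674852586355205879482406056273015226544108261873352547467987124325482740591371360403068735021922279834983241368225318669490572918104558398687028452666148738131627633715097187666712280739923342875614530773604901639094201994978851717438711242937177306085289956824654749071513885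7344864590253789903035888410919792984252720373605813775843358767564319486672221098873760509556139882744088696349521454988004368093409037325997682782428974927497539317823671262623730497886791238034282937013315516125315353462657303768093843688187117229681617713467185371350744828476314463441132089075482503677596812394372681814939311920457262559190927423712629893207029929273518286667314196017162138244263562727437108859902057690982194099475707238271741203208831782480680520474288302695964331069408019495504096636684811461515019144647895840376897410525221168525669389977200418873537203426947535094076698487475101753395104559351037487862548728836250105915469108290270967822339325321223788023310020426610181538236075213653935049258713013211898296017482916832162155152020660067000634953658173043433434485921070823003652067814580007721648147403389752004071304634784512209001701858368396603844697297019166293420341583288247148736682745123948133497324764444218367935055769993249984026525333122946238005472265618058682622000645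6897675955365873494059335910435123522449449258054814007558223046409441654417744140456843088427812668823159328018785586181326020621869507833153998026935771996828542283164225771321000189967056202862504466740816763970910730033562614188262920581702882038729300522722127114258958795743996921497564877903525801631492862013506061725675916090468973148705647437252023902746514492861244405449277904194987518970109428565595131274673377473807898836580573268035674380058270980054880579873219000492818167609589403487168281212725545484537686039975047680868500628599609294653476826962414821463725520989342896845606759218124540505273095948797403557342876477913437946093004483287983521117017363502227085565706825029653433455500796509929644306531505630419817270567862013450947161766643742602723507120799849844720187819723813741687234976143768417613766047040509660940679763011118492868951744724514805285541334216652975974196486928555262131075368299193884056741746163479894356320001167946168353351184402069496068646350229301505539112476036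1178065952359914901588428017144896164727328892241996587217180664398652469687778088670746060428965234605207988176068183469673789140578525895111582282203241839663984502636866876571043163601181331812929010787008943388563010910324594734795556616542040803946679521955742194405221387222680296377778157400872653709145745670929172916592757507483654787324160287841015199296351395630693393139237132755912045913275052393519891048750058120332957604005794979122472564168197046830000003853085713017291319457309454730174826389930439644000662330474363641041834794015759541371675492296292750989277152557372886088373806726943679138167082504897686637488658134339219051791129552539343788202620122214222362145625692551181548610247376319561505334259854716734128775623275446955609537715920897972610354842217997653123063882720261051182312087918097577826692435206206961592937309209934297550114540966226647726191379306283295639736036060894439895571805389590643740980168737698929536452687596710748621493907485326348404783363935344252098264986853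2982173369225209702984946163427122921058248140359839718742905003393528268705944862516833746561714650507349544379449552572946274235365099568901958396573568218228166526483360532246300101262579214542191261862015464810473435687262637854476523906240760863885836174584426807006257949167979466288463773296304472812697795759708666356926628695078209146226019593646450522911702086358250876418351424924195842674282711587369304514061205881206011133691895114184735052139779184492783807320455061356299445402685375692040170328627613400941705792496704177183930029013849275970268464347793072004338197804738904889699394695432195549889731046076978123546999921103922161811598441473027729012079187025414097545277014123504793476965293606865525816316028215118749019075564329406425315851746218888351540335462380919793526375372769810669902125627974251418842892130418419596192084697086774983780212045927991567383601668248567368982557051387675279504586058731144518883201241834919734886243574930357515653533177854780771979413879612421182653917939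9442569252072328750443227895946703513313576073033096176158274369184414128877544070204490139579954083663603672414030561621659187692791401356586064454891262083159792707565457912272174581490988310881035179331726902728781524298649091025799123975244332774301712310289937887335698164441756860213003326855924399972254296165752744261501700092274875503115974444886798349833023222826607935568063199007196514708349696807945522853215219225533250958234146073934154597104019263529171614266985733068467186017331498207721166591237214129271171176096675953172368676614664561111411942034930522212124021522536083497098758156362559738458029944781145837445873012496123134396268490304041830593478647878686928375127785085089023679666643862574858886719959576615857967472011764778528679418570211104917003948304003267324442564722207998150054990461100688352024796756792644453219981684899267899802981356377037584189376563926841524529219547765885120084482484748926994508310399582333562889716957702547253183187414961897193164923143103568826983865746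3470123783503172307241709928070275758847427358191633212584597552091905077260347930736541711626233596238973697338949761575872799485376303306951503224636838193243147515062976924560156491831336812517646832917666825514112940928211288311905190238336611619443908572450968625225330939894702589630028909275699611427585211489638652616533368312135422349044691673031052246073545898409285740974288187133050813029680706923314850694685576519066839392135064536689464013236737492868525724899184130276243907558748448030414267454047348710301025543428758146161904827460524968483793671190135362009119392264726865464804536785153910573799294474511255142743662879347501040669873926161386322004066247854781447752493204974146234133626019984723727074455341291626214641367881777283512919589198301459514303217904176246894120484817814537559172854038036167499723496858672694311448879919544884858451406702105446265219616130456459560278162624057106478922408476990692192214045035969440478607575335627347103415276921669933231390144696920395435960402836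6199625326463009532113128302359946230889255354785782879900822654552931097092690158478213449962425442074011167412504356740994359727210854379502197632189260933195879137110192773528261097801423218039782491609378186012694807072413671096808674314014057132785278743426462946331844783368487309922206507132981282491053305154344118708305720451103366272849465389802888452968671084014965718651769468889650682985944037410741589061911060623808524143876790450854062288925447340184212671308241529993276233185777141786971594896564156781476679680506795473312523794786758639951349021259507420099912450376245558109622102275798775961727885841425364449792112206056628496368970973940408120017747617621805188159974017073331561646094811247935914004163432169110021164262380373852234397204870077339693079959607789889468743939114874334416102701928490746479940607549390120277270476963285092540378552960992511942113937067937435698829649322582641863486018490352255196290146208188509467391977354040813350174927356396570221454781951133976479664020584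9358978321534441376655501059617359908806000478037794731044999162057658084080347011878600762714253214015781461841733647831289713259312857007610796614621310305040064997167781562038159238870073477696387471736099936104770678952736681477531044512230194105624856734638216933112815671236708891809911940843276175967210133884282589347113353720338280912974998345188737398333849950158638611760976926001820062610143680204304890967219884070586939528739716927857283608011463250908281050442632494907013964543624476637893132409351522761086139418142035719958650342891864952098568255345536368822897372227158579677285369888523281968326228817130885281395990625064345166359394327379535233775700618018915870712775613591504292200346730772280483841137734905894336199797476631872816415675262965469327613692196908081100183505038573279686939623922495396442113546869933748785091005476832431728200237272027059703033666982422588412101237025165671737154103243512586356178892265370342019240549245524925963592071540636059990719494631495569244455656737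2554906024496748195999545234730534812171720331399876210382148570821396421307677465472941043938283884011930398690076577165280785528911789701592896114985981920675609509521295042782785718347753827835125354558487558318386802098857402392529227967368765152151446135518281185667340535418866693819576955497996722849493376011752462540858083697503629798544134932769389395890094073338483935250501919013684537755371707738101469389603678067487440966968784194242293472875367045600704843119813469426959405670777183372181683736448593116435396455242987086746842445867985054863100712766038014082094658835139548568792982357283697792290740069002149786181123890302841215230969459549887639728925654491380946409152261317294826088710825161061496418484054420716676897343955876900114594095429721977486538392270077745839834347873880879204115440883145852428699829132728275457656837432491133769284585109886904748714553788502390181520509373870372824921825855687582970471085797954203937471226691672568950533498712406777024802798134636431629464649625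2361973661977125232861842371250783212490642168874470911643068422536251431545900949571658754439210779632419551511813100425095600958353921307258041035499787350470350261153151784629328056544595513938660339994753191115061554937737350647032060081979567381245259687732072820350796767220361599754259376922251704602924486827970739993799481470326739940274426362607027043348301303721406757337636523380504753107280458797895873332009338693114961903906534189395478703173321861662698905752592938203195497051235521844166025081828147573965894850998987093655036249901391177786889189904296484416596547201384766855805899758692388199800599289445979403519525855114280022362129188833230827678839424188334296670383926667967098124252863831627117881398650802626509104932280180095367801982965818863725366114539759891452718949606029470874229602172230427192232093367084328679132294993220035610690350075023558297277479615605739832290876636783584778634079116630737621563448116967636582815368498896239093099770899286275782488764823555408688528751930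8012065504595392451099962146567814619678629979282107198188744455232080866997871533171506665228661213404636877638811581757266732432072254329973846933859665925628093012565165014379956335244552024179000842825802480513729768271577176076714174228237942956929459852397506392267351532418332847527567514265192283018983893567278285394883634624537719630136816151495497888998855417650603624538891544528108714689101872960818762987643334143299825356137676030617547391214021686827815116301794707541333716068309893355091360678935970558784386440830458669115877611713748778466029453601250439430062338950335511040780105350994455772838996504786599366325719897771807574709627545242543587328)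

noncomputable def rc53 : Nat := (nat_lit 385021331790367201910661559084768960663816956566094309798609509026671142969389840121215427454506244154806903872064633775212017405472223731192051298628345906214398463932414974316171008708926204100409997231351094660050324444683257922273843788357101420860404977061105880273481827020507827990821752112223131211534917552888212288322651060147922818122554910798392051181537555157742497886090790857175189020233798940324460503210782019513317116801668805771333758938370117515835729444889756260342584541714913313264960368758588746394868038797473830466887053735203113163381765450024316959193515800989381462898820350654914318033684727051030055519235313297528187204083034547784525440573232997557874888321939533292338152810712959439854154025309940609355908440999810655775660056368612919614221125612244849039885978210581941722309330009347915395378055381386315568746854467170237346342035388064777915065371654218752145117854560534646393983330790142389120706131871372862930090154570210028994126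9707025836250647050072338127754062615916340150395829706293143206728809628854568200307697072180899802903443089532215571605363967297364436216951830866379870515079212881288337794781450434654487417723381439002835514448873211425557910516386414950058188610052530491495267208167750938875381890587041558351173078656601291134457588384189528455116893978594832718823860062023952668964338130835701704171681525321348899333902110538151253781495844948533378872270593859708655403013550101193061766316017514878848687735720422835040312795828347322463485739855112586593771314107770254897356251002468536082146146473570595547385475024441033664098192404095770450288629866650934564554665525827225679186139548769646877215579318888094579761183143275713990847792351262167163024191419585164035452405337936787729068141590526375955583236667218008546313589733941005854937749298393449963667707281357011444494886969756607332280790255699975138213020897323746741605027581749987115521760911846387972331931830674117847738370425737455610390799064953467755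4641294438312011853142986099616773777471279467720658162113063197615672396042344572149347254228387424967727407988761729024039442122877285882921129850434229983360318021888841110069266267209247732227831727051995755497723163996136459841305524585758250859236751978356058033747563346479666772392862327937664415441808830814411743917825069154226066904647172681462765897104987896277870265040655867182700991177385635759860268264968979091972226306888447275171124822866597214131602358005558602850178803850318962448625157109518081109360173660021832953375763792203248597777864764924521762755034238534090593157354413936943727075579167212941754626134452410858055402520483901706152682941335027158614407140970511906364969464129238235008516418231116277890853802659944421998715183519191769486054624484575337684764270922447652938427299978715397930906357900040058024788549194846499305201955862904268892189019422058586926380843539323594100616829672285548438348663394926668312447908592680189401697312475984193983793962609491642825245414766482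1060238623245027373700486307632313525924143146109732959263052218069655699240277472771351337859498878811522215465609718931913680821631855223965430544497529076505721434321472563547718867319906750475817473318455461999264390002054414116471729483951778327511907518064849217483621163015811615546458984935519772906094423406991418514752088598033765504313597974408297460018786502859819579906490400298026480487463100138858769574955518259217153344530248267876890171268331169085932555100563962254752686915195997986872896363973134819757486754461816147386265820478493744580523223438472607445792539353570862576700468226145531752396829616899701065565629111374815797432743241239377579940161052649659493583254981072941461441860423665448299486433295785204615264365965398496175463847323644520762494680088263643427776585618987755397421976571844589704747281901624501464766023646763664874199465989179501664321539237320632642935910569760778275966845238543905703146728813316667259551163190294117069519921159490057431657773426083979030051547339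8962252392000358834180203184167321979650514764032985413049979829065070290301076470054287828345330222290937148258952666512553689230724729803192480213345877513051979568934433106283804835658856446468383612363565018488088953187724367361671820468605043071316604017355688781972270581196272133582692319018648823765146757589788311879814037099730573661556174124437356186708984714097694972761549858085870896571326798585806911347143360255199059403546636304512981832323329111456859334477146407795112186760410762518894184879428192812817512556906848599218212661819905129137338363317168738733719754795420526292179842817844642234982865488882936572129459908474092585611872348766345917601777405227656737689513537054022395401090251489447511259690350978581576537485879248275935568849041964796223004666486182431176877295644305054074517619727603437680321090928681283866104380563487508557850152427755387109174215607196214876338020262698736323263265841462173382273470522806175010066774075228816273230892931570186028367373372589185128405318310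8377174473641579983739632250495779064099265812330410076608208469077347666767886784405211106415730384969697970715990644909526708027345944762251001890395945372180268161210456282081601423526167247778535296038547131938710157393314791439656408585700305850235580830602339751916940204239837462567594720794855194700450278269596661852256552826519658571776285132607104806033538240514933086169992788247337424043859171623548763069911130965188076327336819271428519583584900399074175959956635481380572087747914001122591235725829343099813865033283795740493313622011145674968577846136663818940631363040259765812943205033979801511055074151136118396927238636646743711431041271704241112489831067616317700250118226915066576554910704223930539384296198461021962552644858816070711028342282729044025755499296607158969278975673105694873255531958590535731376512384939096955973521200963058552610782973555608260481840069508623729706673816788247030216627088144606072263791656749246033956423464442779853978560692114025501102166268864921823903910640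2066406748096229461655716618742421637771234653949088397934132065043050815373352166817274942885507366439643842136011627342540101709561803909535785962272565067882681395668619514416567333281356405662412736402833006958374646292983393849993065992392444459528850928231064440083847764039104303023075717021376337814571674102154537085632280715545001389119882326966681189094243616887851370640727010146345244707482375519522291073979980614641778138777928960966249036154122975226146605290748998613537222370901089637078474307547446656080090484956211061775419300076280927325297877894397397600624775735056534561262422590107448698209811515502271208060904474247215654437004196518336621267388163567546259022106608855603951914778381354978683203139983781473580131643659828991575306011172864560595157078261141622974274175251871447393330470629143517222419910961452386434504027282010003174544104910805277961552940970113725401486702440169428624956682558446045055413902697286775740039523001779344914176964385689120914438937072364853372817061465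0788826416523160615613324479439181189627307303217540335551748919715773865908893069387327664195366498738014770117919676973075818060976164170012015883838831346757632266047351268984336191773416942760818249452062991891037859685670658697436542727055683978905243028315732577788895874953678319138717550873982999232166933270152145692494112700816082731283500931336607377050591350991594750016504144966032823642866903589958944902045168852785630415962980207439939932203543003554715257177616330439177891041951616898213508631472971906242551461000042995122221023813009373593984977205512656521493841665567667063088917948271998284773099019110731297844108404196432395050995464344876703352405558924902483037956300840164021704917124881442283596800779850581438613846522509347312845656107229346835708989086201289293311594601097096763323858724492857036280244320430292528522455382429074833198706499803995676622350859862553400074756300165667380155080234923122110766264035769221896273316624504604438919814825595688434845076016470260143425813772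4194626499865810545156469864050432585765508555289907156809427428334278972056787329602145923108168143687520498226900659994079020621529097240115545614182118976787014929426276012394213082518972753934437788530728930744669059095817072133110245916683087758601536658787375640883937270335194936450174434613539216232700093056380532240129901731576354044338274135311204452952678828228252675181510926061579762172218924482274166420618754185521508378630423589833297554405204932090484239016842483978089270503039607433127252344864504627022133708169841129160101664639427943867804959969229119934909845347860863930797847027453280543260215522880059583152905882856764809949775030847362310395366381853974188374026213842031821218617247254337399965188238456970092204867206441314156492564828023535461834054088906536653368246441975252757774764204380404745245694787426028665099574896640619597234462175449203541883200442737127517085458246388314418367454219454217783727967792443597042094717606203350909180825237381732576821831988378554051194023691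8506141784265351934307806055164367629679976104962207584707256233818767769328056112414021487374924100738412571602683222434367873000169239280127128533985012932906438450264438569665274752128411264722985639014046545119563693113484003245965569835360673560972521822352041935652472711364179892344824707439272937601012877637497945210172923524032914754070722471617908994806992488144077027679028970800689045894291589739173707210514668418097172670503312754175287897459448454407729453305154251061242924117108917591091978747399697110427402879858516346033939239962662385751372292312409589126940840089142252422286409944620946851657267335842822636030385949423389225296516587389126977312504529770589392749753062730620828782335343795907968647421167354934029479881907508588360629645719684801962092788608682803501027413216003808384635215394174976157499745226495594305373172730340372120754793401456178795565838248642484173449873438400608883549160244839488204384916707654121129128246768050535881257042296573311582424903294472918221130523296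1070658984821951811760302655116523960027810853678367402283484880267684009555780189348411019110070363529871663091994801916815699717561339370667473910102343747901800202267045445308324168745657935727031028324890747833012630642628298432870825346864022761712516194331957939941195777841451594841539028095433096288719560611807925696651424504883180326496438699327399674298208961238996177566485514328310125144813418620516754478303180209722668331036826661518221745550628255700598521285002867113048530148296529980054854331932731056188951073228875547041888303302569467847503883881125489561613574218087621062683708853996126846601940150741932561335888277191045927149663145398888290772816463746631371049221177926735295898781921524520437402915541396830696495142512723713974659675971549584356568647614843292251543884697008271758406694428135715264766993619862551188924916330964740742088390677008849107107208584082675154733482521875056840665661093845967441503396423502219191055165055684036557723114569328302007697328726147895351561291429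9226610781532779964996358915456669393974454800538893913439301367419345477768168545512191682129435958228608676505141027202704836271589546896409340386908508526793827019459358743592307506154554550336822052344604940682768561176625435102331623673402926881779912286823088128841341131412807319451978463572933377324679319289466942448189253281864821960867454869589428720495632833920565480053976751739648463441023019447073115192263711907768996704515160406886601815031037713030932592849190828658811312816533949376154113699856255787259113207294533126575781591935719372838243559246391479835530628151793478625687488645754060921727743505991549445980426987727080917410160601416532617611550474615801556221318645210566026918973860726318286659713800264303461418385471456203144517866193902468863957291550619771920240100976143927387357918146973724933641224825749575407211158138644410136590833770178132339919932981918319631419136528908744726557340614603158744866269707771658692744470737225316507607556936472993497838827692561074173351259803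3322103577041494375847230743852304225008021000820456278783686534979455224790363551803311274184513571680663452705637784125452403973153640244200157207761436011661870283560955076966554557675982044601011584132307182302358375816143989386345741469915898824907104121280438732582056490645618042161672766796776788462685121251694261840428679876469778405254567736854882763804230756821512481758458042795327226639438284353665046616729674203406171734752270078392041461023313480750624550717838237752630388725209978077432516561498788321663917548820564048960679519925453672333316021756233773352868762651455636981964799823495308203844296470402902011313466506990631970906418057342968427455597066228352413364374114157885821490848196333582342263900505840537825960524678219790882240540557041818258529966434850397059724829144711749174298683015834171927687930661440087321647431402775710805700935209009438915651723538384518713060286486556107416389906268879359404761770837713181969963196061023923000949011857026379629932243277191609091642274238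7949550968725537771120953730836112664012914810755643030812383581292626401015037678872768286256879581514935022668834070648659118515244742104453567839618267791364923545092713612628712448255131626762159693074046795802651114486077941722983432282165704809148455965687068349892048177305213885788484055690141761298792478189687964645535440729376177998376659998902820940084824797359898830409782890017850854323624347712871444247873062855756911662304980964614767807034893194446970346210518576071195436419445636865509073505656774093335430364977748226557081623451806128542991674087767331436307418306986228402361414757762313640319568521296319695264280397474148723289625004175059110794399833838861176634607232702471675480414449748542973071162110082631779738796287567005585033472615151806897713680059517040530620244308704406784536579720059960190952858341071901489374146702640879994024973925634464638138162484560239213445455050780685824144421608907932550105374375960429134290694482985948002921931046865509613988701956190632605237160997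1283307009215545777809696572966770606460734782490148852489981833487936729089395887126553403373912101889745562581998797446559757350418682174112900615739158925718419454107075997604631816693557060166856767404194568159248932422895720719713096260769856808745631606128243894580779616799471639622408741960656354100363565746108743047761520331636350649554446249746324733305154265573226365008717171590608538840968932641246030361944742989733290281304465220854365046330824254767973795702960526548030405611623391084205190994374196706073083274754123004042844810788464405654129936522878116765418117138187727829661035368719310461059033683827966614770031258631180002817659914946215395194604396461991574785950169871309363195632721280440609823209577449758230643086195800689911117430871444110015535979512574920497774616102292442626096676831195147152540016093696693885635744978421763212849676049603788115640226073790097390475447681085692932310943334314289770784333242033045911448582014860896121801549590721100975595311855708035495520794924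1130862634234527863453856085974428373870134575669438880810789414539935067272805002406703122816300422834788729996876256784852749942048769695893081476981293389397044508744729578701963842793842359510194315916866523688106625443502870353805302086850283349735203281674202549496016639053318776878546278716097059924724296450024313049260295729941546172902914094310051186930307637533199001610559628826422860060902067232868483923469707993155622475685821161231772155043846311741916148938575169703295037632875556247879231640013984509325224970363025260753908984500108335849169793843021055736647623577292612265796967205291674887565814645481702126943993465285314131961359453850400848866666759295190828586332810208385228684751184388886575392221471532417374890078840037496090518116779255529185934902990036816289179973798514493546127746598792984349821303455525546120061526497405631825775662784801024227107097164137036932073252110257481744783505185535837222994047644483368557742459937428771823578306490157521637155854141656453820570350232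8597160507273745147333708120774656144075344478586503304453305549047633208374884173132627472240960319670423946727590500984974610315066502791324332310967872232053252510115097362552363721289771990935000923492481749644733272050141724261993670308415837950022301909425131114830371508907520849257283855090967363634717237806241522154105487046530254956861404935378470914264769390549187801561904092374381684155989251985175927056644365721231215935701832232793948782999061399488940961618827569655594218479632171783602810510094067261116803186060803444927666445184683013881806239390771971527036383259883477827748898027481139939581394419104792697739073729107834065100699577087320905200506565190467121087057729485376776112741841249225437774233022239160437011237525304537010296634191786297185832571178590188386656223456485051932607380949015198824487715920222218687907176144874146785356438810019997914053469066263333646756662021211672118034428757408971913081558197437664539696226599882184841799057697499241925748178134575836359855862402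0153268235078466837068706300522259070161204694998373707155591218325618048856240473391617311741657926870018747329891459583878625402737462701329705957602234361718585246318777635398578653976473488449261295744710992586899855382442545815477346800852439473043360622994012978256586555931448988201873132303722882891031788591558947921922383913325592052441827907812703166854461694423448628632108029686001228686730270535620680235384463312529685622817620817996095680396342959152152047429539349416559697695745170698617300475099396071739961196403741795720403219260598236620717042568636089557546347155867381874970209380541179614642745076053772515613117348470158316999666817942176137216)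

noncomputable def rc54 : Nat := (nat_lit 385446003583355526510238965773383110338587833629107142795270568412742274987747811335751680859432948285905276235695627885772720753064439461384862572351538635466411015075081667303061327835076606143431660527745192813441652632245698629635518311358661213947996247862895456267834716848553467057938545752618054250668559581399200773368698771257841704577829963680896891644032263702024742535024557586305570022806141426398738710982696914321161831384404077442630086291446615200551812972307434729610795730530441946410944354777330637700869755520318652778615122629436988834266050960276340019297096468786486754831194787207905255999310375867993969744092059504410238957306500370921597087679081598966647346521748450076653601550803929687894353751391591119408098489254752532404736556170951784136905929949555945344199276231873938125875647630640828840085601838878124226738581327594443213240103384893775179560747839762550356979773423492926306448731731324453329219488647261325898330673996837333018994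9624000473593307688459766367881669018490069333405581508751790952782528756551945115948103655749841531194015769703693517457753618129114135603586657391398224093229840920511483545854137013838005195733880995194954767602250650977928212457467325706699646356343645234622739574862000920379982862754000745040517357752850270561842283778878177610763502023766729013034881123729701703149916233688876094015284430949071240606803062867027760314522070116991657874067915717796526662616623907360458512605540438808223596094431091924594594648438191153435563218947237241187276411263841130159391276073468007427592531678998934853461633738918033122346118045447770541240837508879185438458277855561558817281575514228520319208660295048226041745605980015664247109103933641577097167161172307987199156496054730790939403352971256789580431014377680958603298853287335712620310397680983595140097276423028569682525386340837964124575608683620000167599267208585183679765564007237333484229196956571242414440229179043139448200160183939303901989843840703273512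8832704809152626883232023986501358654911880423453995591739919872877397691716451938375902994334245727598965946357871493616973942926438061040569454429269740595132599371575524160350269212830398856334766297815927933401173214333177415360285193950754673039404462756547829375360584302564240951341672986525792173016424539161981952183558764734204803038911337745105256955766444273997131664918012690900439030725718695498156936559538242245464247732742528544806905699249627147824172162406751896573056953817865266246147823933268473490621936349079144317313273278004249426394214847098548140868477325411021667812720133396100816934885032600056817072055552230514213890003860652855109040856176370911785810446761121642584389054349009846504067878917832269324885599813522117416569116842037304649875834189490830171507641076788660461537574438408410195705773111996391235532742416083791128328140755842340647682112703499167324428308846025719207178159423029897605713474971705622943074287708925541457971123119287109515634300291686162435653635411588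3077434655655389743981739749458195294878543925108879910574180041531988123785507505298197835608744399351639457913368301460417877590993836511418813366573100772313956537272785250422573626201594481850714129770871906143572147349357243434470655419245349717105549995503142993281854442487482866956085582877424606678075960758973647526754447845696650503681313643825050270228665066808916151134704136172458772770867269104609405108419323714392281155348220848201914211751609435127631155010806514312150190818670537528784253813618297331938375529057724280373075513008233156244145996163520601976057528670071526845417754331876537398052165040810003371829897021602948618395608569155525568604278634249170685996501382477087534472237707953273214219808058622485245712400693965478257784230181917655657171839221792308879047329501305426594560100736529596205706354942824881253293793198978598103979909723883707598080159213063475784900002566674933103796329780188281911649755814555576170781361425483672978855487759169065620901832354074462999716544097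0442341212727139305921396310803512905865281327178863573725158824170345142518174550669328790162025176353241068123585590002016139583322960773092327092962611280760549384056418094340090162064559971542600338706596314325205692235630972873490929859107007545857982035401452197058597497182663305920800413031113238153012243060654158822913531024749015434043592208083902340877201326197824608127040485584352515146015226720409266807405336055497212497484304633010280968242824776784340445320524339828187411893885460907443290295294761607991675521733398158101351259350987978051073286192018218127278560907083366869728916810025204112309451514802382098638342108510379172198184807205068496966648591925364057601637328179536507556798709898990447126236759382193822104349495648483485837307420049670204587854535573301415383737854437504298397689933445543132882095198264410171723316337813443883465633661438021781526304725345299856652813334492858669232218232477103882357503175023495086562120870269270887648559986465733735052432152038024953171191029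8201658447631836011868255570041856889170093980187425421334650786725692723788860020837228908529132855636123681685857026002827777272933402799376276549861878976475726713629860837624761338997160953588085679041811108825054640872279396603380360664299685487987491034065277761158548373625394655530208368430062217142869956145835428372958814957264676936424518211594854850254092882020281764995137822523890231862537816008383863269031286482786855284097507046947145179912033409140108942517512774156065728841362575063285403871967664530886783416512700424218586343122916321163676873830022298062526766267732732977620842094222305233884105333931362713501026771293154662028600730000195055519748000929492067795501931811784218864141668892066554469077738224340366437226372405715606832308186602275211586451212374727748212644486672306745299488158224280094668530334464206904309624055097660046068747020902473528963541502509312058065237089759188450681771232041218534922071775467338199737199666877633317642663869182862180723363993612260948548008230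9731533016875830862745587680076244037345269403490241732162333183221306679410919551515004341037882895242816371510443009585473628606940182217401314514511893798130272258516300676122463094730808925055000188617487664047736827568118697964805001645540135304267865911061402709784357058109882554885206709081305062823155043292229134699993833414623403735716787390865164381157885357685654138628847396422524292912989754524728675542030973479792375625496409687828383742242856699520254096536093328093503251229203004820124450564894449357447815005738554314104999271200922210281015635581235293134981645268063117604839461500553339886054529962694322449323612061648398060150122796102729250735811980947731068722727308431402270859444140409704441036925443904337129995924248831357696028054433011471057040538342194879980363380919959115298170636132661197693459399570394431673711831942336685370227464814985850816248140871248603336614033493742342902570541947172309616430801321128548984963602130290344366075749225443299688580775060265332677048551551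6239637306575038714075327956600843400532795726993013919102436879587055576458543375576296527054447656804498309507348836225408491255714127037041350805104872359302835967273345725275321304185966557990071001361049204038617868022525658410514786830882640943360529215855091641136879917002350403046749826922457510764441295526334869867674013911119846443524949593907464590769390000535710670263257452393461687696252455833379113897667018567982104110764582565438317035402745813735685109106110946141493292995211754366777938384593443733007334921308662298488175054273476134145061546972705694977327497977813470109933901396889651873942176279799860787757494366740243918743209611626018694716428765751459732174943076410751603499667358539982538260272225856943255491318787769254105920437149993419940447511147271246020829762492876814353294771447124236620080980781214961214593485626374950751721311778235773648917207127283897311774149383754042461565524997458407332042849574079154935558218237481591037897782117312158959331238918073937110440895984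3192910007806000058899475371563658769141275491427933788017179872172010446816931283585494394948317723204603552155720214425246195827395615734273057350664046279957431153035182942787797910972566114902286866141393467083686577441072139772825273535412023943993742436858312074736054543183672927607298821501382515540700950494786911989006687991894086271150648932717291294273348369710850116844162952113817767186034038044340233656792422865444234555702934943839551037639055480359529436825207856036816033680396480078401494951020941164193391108986811777471376795633917315188158371983543854371820538957959834761725966841131288268147907480297976693652197357779619051498718270050947431957441031402812318577135463859161714574874978599301237571781985291776672050445971287573440239419213614682036188606311710719482382227756273249345408173330014254405678247948680521372062458712957823137125912853493883261248168428800706550534499511709864221197838028468127755662004280988078965581640955349124807804219101982779384011101705687811709629930940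3794789634192951065952022982913066663667120295024169649891954902059683637057513102179723530310159280260557740674523865629070392704348168009901633750278556731838474523500592298249483903574031258950794767894205350469917848041112406281836278658692905974560470086319814938117479683155980152855461194652692105496598617538976447557941155706269222005956360479718720005908325378060132271541364534564337572496571155612523829282124802672960801723786866287260882160531662958076248779081687863751731390309507631949926520372115873306334477166810340350991755989626143460089301868000325292257254515209400153023042038351216863956024495602655769496581496331682869835314766621067853992959336927577779136777456077684655736241380337062376030673317692881528319119707217839958689374137709118524531316413168373271346494209818636581266846161850011481922088455902834000407448321449594578606173902355800500691665933976272215875069961231652532747019116906926719039489178818327594813713306939443396577705691098100251062230390159105556516160032121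7979742807738234610655741941617853913449783148257493194806170659256893237645742152435744560700311394998469663099381682068344552885966318140637987562860531942370873472325213756066284434483526521612889885530548428164581423408059050077982389186888898305045406052584946544214673707212416044201192302803270776032798290983159015567912459479783973233373865159062252134042869173091670008123423462455077502505896768399950374265770928376802007456957497713265735263970915369293554211168485352560105058277323781912003305928558021705179672962622383106274866309406704230854898650658446853511271164964458322110675190135725981893860101933231691015441497827109026007079685719924200253363338783874271755175815870247758659439813823297097578656399775290531721567586852535461589242799399529348687005284282929306078685539838221172771649113404377057900313065174859030737814971501730665383242492282880849727084613204493927997869983704100318417263254276913647802013671432834883845704416624062848941450676159336488184302682882264179070231905574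9866742298376332568021454809341821371611577763192478440077599856608935601422306411805625542788769891406286388409753395678585219059577613731970798824972892388480166569330777591114688593300120663167519141114764564024185507232338021289744920021973324306710079207390561645209117544301308447135984411810551852479754465672112513820086144095279887660328567003346768363425723609106653615718870111276207821705590028829027018459416778848657741693559442301071111963506409549599526989858777461166577635939183859401149406078189940038805349161120665444561153154743524080707083473841223887404203794774105787680022684066157001629473680518638520394618176378737372335810960657367729383259243076978003016777587869530251591952433100879708433965122059028902247897957995465362154238493301021039298717726891174507586386636624562259626577217499118809378100073244514316596850122077537474753753820915837493560328158651177922390626128466848900437138470834353375129356261614053715567603409407609424956409493336158353089313200924645295446530234889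9764793710731270819678325862117899375526746147021276942402155065562351356565937657321284879428692259059312276535336356806952192213858846986087502077998314776673697481049990976176833572210576804928062819928049056819626408978968361209271649941676020313911519282361768408529350753928858117079184724030019522145492958593438032797061996719324458052589223943830412107738189109330692242078393478035891454925734397993149939394866376091789800329117410773366809451764483203015268564816257387752090378640896452632241994109392028173565104490743922013674070852021838497230829899645599794643564852334226338419195223045218255599799652036168643604755840052568860844052813482535817800625552729514078040261086887053600664520445167754801576106942342902919266321426931132051442354181391293014127475480200988972925350735808735021781798908981997836031585320692886891840003228139316079080124382598160564810255226985085894121999653141597999748983990475080196589997808600021253820182292786744290816413926578115816919063959947096450165979185306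2330965194706912059234048981848811374921926835335099894847956268218726284305234604508821468229078841415250333494653266870126936357930867345537879474963220425652446003119164286449725810285407419517608716192396817277896426562356941817701569908127444199165764609381215703594499957996963169102075356885007433003944829087039297479841501964339759294086098172756430748069373044048506341244309672917382063344971390896507346070899248510710301311554099378031924156846796619324363554936860417276450275735576144776380613420939845814103822813343269364736214662117417421648478612573722054622806032903648343222576965673488430407903362377869917910403154332242138002109773763243417584754717204441690996149005125315172986578693190483735757755609878765260866406888699556561488713286107847101668275708991639043739805078067422869299912682349810073245653154460124120576531777820337661717620968204215369024627038170334142550162232942563035788243898774770469971770582711970974961240458939144000824902980113356134770377211603489134307344391138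9874971452500169104586629875650914211713159790400836452246832638719429313204566627645250875014217023883346500953929255844159088399473448144722451061350298173888689660703721088799294199078290208152554829161150384129024377035605000744035352726610876779428888637475643767095751534793277726037601549265467893925388308174592681715961451028226085740377497094134152738666130251216035000870111511536514019327778775456029010291381111152521170533092774484058655761902455543490876229282035313138613512889608034822268103275164821480358945465526931998340089781599090614300540478110334693799969826379226855997859624264244243351169506162558841361278158766544605055525962973278458176208630565028062328202064522639048902032466340554193086145897818472689271637254087574286973795722796534443420915087210480077023275370879925252456834118524111186086085640144995177508007909303713913414375633031915292123818136548819693320846542320380510567636530169257129923649152077644909412747999201562383599251778901421874781857530236537107991555331203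0506738241316110731782978516738025942134729857383146852233780881959159666200560085737009425728332421292470591906933066074072917600090463068368521529361426630491935750213337757989901047621253199141873441938361782697689582298033437546138593146356623324104158762483095159779842173549909594872078519629880469623897923992845945036673345409514228683809587042482952243449835154727743772068372292245938219035269614698621283841625642396614319480722475507297008739848700405960586416520664924028120388791039446769080162154295653686084393182281650232937729922136370534365218431594176382260051778580179392904030770594961079294976724229684426363876307399994401325984796976613375113140818761671864512371613375484072274749156303339787533545942125358136282285541995243946895884104385120139816302967368656743145265820395588716045893126422867085196515880441341395998772821468626220020927995447480289129212504499030093036749418277465652804571192315650662310819464913377666479518505410384313287524771048602018658753034828181425864102324817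8179573468543673373872658337845308537537068963806277842093423548041041489499986948718405017816389968282724597551096889147529169715677349270840755921917422840312830491087076571693493396776907282086590177835533428873591048194154196091644913110146191310283914556069814771049022748481125014091462977848361990339546256910031607197412255478335983230262482455166135322817818771873259319700202058197071356713428249265483937377558953780902310870527214955992763392204029548263503135063853915851310615320484893053511180553989569356867653983311178576038192515411066890333973207116325620418807285526253270135674009137266007038646150513428171014813853094237512288399151777836497357908252839136056758238289599681552468154901219187352272460937439191277572960974762065303660828076602281498787510061416023521171245881478558185734148865796162414088801395194409844230789909429376149889010112661928094324421066622021370620254320475599323670731893527062858934437991028620846854677773162471588247751999506768430735097221502476406855219191587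4303036508146426710822920649515470163631040241728606877293924541162016202196753092023352011704572570977493666831704293781404441974922034607990250969856807821686991007499847549599270326682322764920208939279147591037414269469933841321939108812610265316151795752179116099190953402590643756648590972861080280934448891737271011041537301087046417998496832351422251904363032069015690177303184063536634635108702994771564565938214970937239973602547169019342098765338810961125596730689065543712548739480659327724836804612954905255690309308153229736983475291020238081738811594224705180020421184834268750851761540997900117028081330652099032219108356043915639489365601135499403067392)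

end Vale.Agent.Lib.P154.PChain.BC.S9
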